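import Mathlib

/-!
Row 102, T1-B, EDGE (helper359): **uniform implicit function theorem for convergent incidence
functions** ("interior cluster value + transversal ⟹ the label is regular near the face point").
Mathlib only.
-/

set_option autoImplicit false

open Set Filter Topology Metric

noncomputable section

namespace Crest.Agent.R102.RegFace359

variable {E : Type*} [NormedAddCommGroup E] [NormedSpace ℂ E]

/-- one function `f q b = a (b - b0) + g q b` with `g` small on the double ball: unique root,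
holomorphic in `q` -/
theorem root_of_small {U : Set E} (hU : IsOpen U) {b0 a : ℂ} (ha : a ≠ 0) {r2 R : ℝ} (hr2 : 0 < r2)
    (hR : 2 * r2 < R) {f : E → ℂ → ℂ}
    (hf : DifferentiableOn ℂ (fun x : E × ℂ => f x.1 x.2) (U ×ˢ ball b0 R))
    (hg : ∀ q ∈ U, ∀ b ∈ closedBall b0 (2 * r2), ‖f q b - a * (b - b0)‖ ≤ ‖a‖ / 3 * r2) :
    ∃ G : E → ℂ, DifferentiableOn ℂ G U ∧ (∀ q ∈ U, G q ∈ closedBall b0 (r2 / 3) ∧ f q (G q) = 0) ∧
      ∀ q ∈ U, ∀ b ∈ closedBall b0 r2, f q b = 0 → b = G q := by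
  classical
  have hna : 0 < ‖a‖ := norm_pos_iff.2 ha
  -- slices in b
  have hfb : ∀ q ∈ U, DifferentiableOn ℂ (fun b => f q b - a * (b - b0)) (ball b0 R) := by
    intro q hq
    have h1 : DifferentiableOn ℂ (fun b : ℂ => f q b) (ball b0 R) := by
      have : DifferentiableOn ℂ (fun b : ℂ => ((q, b) : E × ℂ)) (ball b0 R) :=
        (differentiable_const q |>.prodMk differentiable_id).differentiableOn
      exact hf.comp this (fun b hb => ⟨hq, hb⟩)
    exact h1.sub ((differentiable_const a).mul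
      (differentiable_id.sub (differentiable_const b0))).differentiableOn
  have hderiv : ∀ q ∈ U, ∀ b ∈ closedBall b0 r2,
      ‖deriv (fun b => f q b - a * (b - b0)) b‖ ≤ ‖a‖ / 3 := by
    intro q hq b hb
    have hsub : closedBall b r2 ⊆ closedBall b0 (2 * r2) := by
      intro x hx
      have h1 := mem_closedBall.1 hx
      have h2 := mem_closedBall.1 hb
      refine mem_closedBall.2 ?_
      linarith [dist_triangle x b b0]
    have hd : DiffContOnCl ℂ (fun b => f q b - a * (b - b0)) (ball b r2) := by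
      refine DifferentiableOn.diffContOnCl ?_
      refine (hfb q hq).mono ?_
      refine closure_ball_subset_closedBall.trans (hsub.trans ?_)
      exact closedBall_subset_ball hR
    have := Complex.norm_deriv_le_of_forall_mem_sphere_norm_le (c := b) (R := r2)
      (C := ‖a‖ / 3 * r2) hr2 hd (fun z hz => hg q hq z (hsub (sphere_subset_closedBall hz)))
    rwa [mul_div_assoc, div_self hr2.ne', mul_one] at this
  have hlip : ∀ q ∈ U, ∀ b ∈ closedBall b0 r2, ∀ b' ∈ closedBall b0 r2,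
      ‖(f q b' - a * (b' - b0)) - (f q b - a * (b - b0))‖ ≤ ‖a‖ / 3 * ‖b' - b‖ := by
    intro q hq b hb b' hb'
    refine Convex.norm_image_sub_le_of_norm_deriv_le (f := fun b => f q b - a * (b - b0))
      (s := closedBall b0 r2) ?_ (fun x hx => hderiv q hq x hx)
      (convex_closedBall b0 r2) hb hb'
    intro x hx
    refine (hfb q hq).differentiableAt ?_
    refine isOpen_ball.mem_nhds ?_
    exact closedBall_subset_ball (by linarith) hx
  -- the contraction
  have hex : ∀ q ∈ U, ∃ b ∈ closedBall b0 (r2 / 3), f q b = 0 := by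
    intro q hq
    set Φ : ℂ → ℂ := fun b => b0 - (f q b - a * (b - b0)) / a with hΦ
    have hmap : MapsTo Φ (closedBall b0 r2) (closedBall b0 r2) := by
      intro b hb
      have h1 := hg q hq b (closedBall_subset_closedBall (by linarith) hb)
      refine mem_closedBall.2 ?_
      rw [dist_eq_norm, hΦ]
      simp only [sub_sub_cancel_left, norm_neg, norm_div]
      rw [div_le_iff₀ hna]
      nlinarith
    have hcon : ContractingWith (1 / 3 : NNReal) (hmap.restrict Φ _ _) := by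
      refine ⟨?_, ?_⟩
      · exact_mod_cast (by norm_num : (1 / 3 : ℝ) < 1)
      · refine LipschitzWith.of_dist_le_mul ?_
        rintro ⟨b, hb⟩ ⟨b', hb'⟩
        rw [Subtype.dist_eq, Subtype.dist_eq]
        simp only [MapsTo.val_restrict_apply]
        rw [dist_eq_norm, dist_eq_norm]
        have h1 := hlip q hq b' hb' b hb
        have h2 : Φ b - Φ b' = -(((f q b - a * (b - b0)) - (f q b' - a * (b' - b0))) / a) := by
          simp only [hΦ]; ring
        rw [h2, norm_neg, norm_div, div_le_iff₀ hna]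
        push_cast
        nlinarith [norm_nonneg (b - b')]
    obtain ⟨b, hb, hfix, -⟩ := hcon.exists_fixedPoint' isClosed_closedBall.isComplete hmap
      (mem_closedBall_self hr2.le) (edist_ne_top _ _)
    have hfix' : Φ b = b := hfix
    refine ⟨b, ?_, ?_⟩
    · rw [← hfix', mem_closedBall, dist_eq_norm, hΦ]
      simp only [sub_sub_cancel_left, norm_neg, norm_div]
      have h1 := hg q hq b (closedBall_subset_closedBall (by linarith) hb)
      rw [div_le_iff₀ hna]
      nlinarith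
    · have h2 : b0 - (f q b - a * (b - b0)) / a = b := hfix'
      field_simp at h2
      linear_combination (-1 : ℂ) * h2
  have huniq : ∀ q ∈ U, ∀ b ∈ closedBall b0 r2, ∀ b' ∈ closedBall b0 r2, f q b = 0 → f q b' = 0 →
      b = b' := by
    intro q hq b hb b' hb' h1 h2
    have h3 := hlip q hq b hb b' hb'
    rw [h1, h2] at h3
    have h4 : (0 - a * (b' - b0) - (0 - a * (b - b0))) = -(a * (b' - b)) := by ring
    rw [h4, norm_neg, norm_mul] at h3
    by_contra hne
    have h5 : 0 < ‖b' - b‖ := norm_pos_iff.2 (sub_ne_zero.2 (Ne.symm hne))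
    nlinarith [mul_pos hna h5]
  choose! G hG1 hG2 using hex
  have hG1' : ∀ q ∈ U, G q ∈ closedBall b0 r2 := fun q hq =>
    closedBall_subset_closedBall (by linarith) (hG1 q hq)
  refine ⟨G, ?_, fun q hq => ⟨hG1 q hq, hG2 q hq⟩, fun q hq b hb h => huniq q hq b hb _ (hG1' q hq) h
    (hG2 q hq)⟩
  -- differentiability
  intro q hq
  have hUq : U ∈ 𝓝 q := hU.mem_nhds hq
  have hdf : DifferentiableAt ℂ (fun x : E × ℂ => f x.1 x.2) (q, G q) := by
    refine hf.differentiableAt ?_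
    refine (hU.prod isOpen_ball).mem_nhds ⟨hq, ?_⟩
    exact closedBall_subset_ball (by linarith) (hG1' q hq)
  obtain ⟨L, hL⟩ := hdf
  have hbound : ∀ q' ∈ U, ‖G q' - G q‖ ≤ 3 / (2 * ‖a‖) * ‖f q' (G q) - f q (G q)‖ := by
    intro q' hq'
    have h1 := hlip q' hq' (G q) (hG1' q hq) (G q') (hG1' q' hq')
    have h2 : a * (G q' - G q) = -((f q' (G q') - a * (G q' - b0)) - (f q' (G q) - a * (G q - b0)))
        - (f q' (G q) - f q (G q)) := by
      rw [hG2 q' hq', hG2 q hq]; ring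
    have h3 : ‖a‖ * ‖G q' - G q‖ ≤ ‖a‖ / 3 * ‖G q' - G q‖ + ‖f q' (G q) - f q (G q)‖ := by
      rw [← norm_mul, h2]
      refine (norm_sub_le _ _).trans ?_
      rw [norm_neg]
      linarith
    rw [div_mul_eq_mul_div, le_div_iff₀ (by positivity)]
    nlinarith
  have hsl : HasFDerivAt (fun q' : E => f q' (G q)) (L.comp (ContinuousLinearMap.inl ℂ E ℂ)) q := by
    have h1 : HasFDerivAt (fun q' : E => ((q', G q) : E × ℂ)) (ContinuousLinearMap.inl ℂ E ℂ) q :=
      hasFDerivAt_prodMk_left q (G q)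
    exact HasFDerivAt.comp q (g := fun x : E × ℂ => f x.1 x.2) hL h1
  have hO : (fun q' => G q' - G q) =O[𝓝 q] (fun q' => q' - q) := by
    have h1 : (fun q' => f q' (G q) - f q (G q)) =O[𝓝 q] (fun q' => q' - q) :=
      hsl.isBigO_sub
    refine Asymptotics.IsBigO.trans ?_ h1
    refine Asymptotics.IsBigO.of_bound (3 / (2 * ‖a‖)) ?_
    filter_upwards [hUq] with q' hq' using hbound q' hq'
  have hcont : Tendsto G (𝓝 q) (𝓝 (G q)) := by
    have h1 : Tendsto (fun q' => G q' - G q) (𝓝 q) (𝓝 0) := by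
      refine hO.trans_tendsto ?_
      have : Tendsto (fun q' : E => q' - q) (𝓝 q) (𝓝 (q - q)) :=
        tendsto_id.sub tendsto_const_nhds
      rwa [sub_self] at this
    have h2 := h1.add_const (G q)
    simpa using h2
  have hpair : Tendsto (fun q' : E => ((q', G q') : E × ℂ)) (𝓝 q) (𝓝 (q, G q)) := by
    have h0 : Tendsto (fun q' : E => q') (𝓝 q) (𝓝 q) := tendsto_id
    exact h0.prodMk_nhds hcont
  -- the derivative in b
  set A : ℂ := L (0, 1) with hA
  have hAne : A ≠ 0 := by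
    have h1 : HasDerivAt (fun b : ℂ => f q b) A (G q) := by
      have h2 : HasFDerivAt (fun b : ℂ => ((q, b) : E × ℂ)) (ContinuousLinearMap.inr ℂ E ℂ) (G q) :=
        hasFDerivAt_prodMk_right q (G q)
      have h3 := HasFDerivAt.comp (G q) (g := fun x : E × ℂ => f x.1 x.2)
        (f := fun b : ℂ => ((q, b) : E × ℂ)) hL h2
      have h4 := h3.hasDerivAt
      simpa [hA, Function.comp_def] using h4
    have h5 : HasDerivAt (fun b : ℂ => f q b - a * (b - b0)) (A - a) (G q) := by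
      have h6 : HasDerivAt (fun b : ℂ => a * (b - b0)) a (G q) := by
        simpa using ((hasDerivAt_id (G q)).sub_const b0).const_mul a
      exact h1.sub h6
    have h7 := hderiv q hq (G q) (hG1' q hq)
    rw [h5.deriv] at h7
    intro h0
    rw [h0, zero_sub, norm_neg] at h7
    linarith
  have hz : ∀ᶠ q' in 𝓝 q, f q' (G q') = 0 := by
    filter_upwards [hUq] with q' hq' using hG2 q' hq'
  have hlo : (fun q' => L ((q', G q') - (q, G q))) =o[𝓝 q] (fun q' => q' - q) := by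
    have h1 := (hL.isLittleO).comp_tendsto hpair
    have h2 : (fun q' : E => ((q', G q') : E × ℂ) - (q, G q)) =O[𝓝 q] (fun q' => q' - q) := by
      have h3 : (fun q' : E => ((q', G q') : E × ℂ) - (q, G q)) =
          fun q' => (q' - q, G q' - G q) := by
        ext q' <;> simp
      rw [h3]
      exact (Asymptotics.isBigO_refl _ _).prod_left hO
    have h4 := h1.trans_isBigO h2
    refine Asymptotics.IsLittleO.congr' (h4.neg_left) ?_ (EventuallyEq.refl _ _)
    filter_upwards [hz] with q' hq'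
    simp only [Function.comp]
    rw [hq', hG2 q hq]
    ring
  have hfin : HasFDerivAt G (-(A⁻¹ • (L.comp (ContinuousLinearMap.inl ℂ E ℂ)))) q := by
    rw [hasFDerivAt_iff_isLittleO]
    have h1 : (fun q' => G q' - G q - (-(A⁻¹ • (L.comp (ContinuousLinearMap.inl ℂ E ℂ)))) (q' - q)) =
        fun q' => A⁻¹ * L ((q', G q') - (q, G q)) := by
      ext q'
      have h2 : ((q', G q') : E × ℂ) - (q, G q) = (q' - q, 0) + (G q' - G q) • ((0, 1) : E × ℂ) := by
        ext <;> simp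
      rw [h2, map_add, map_smul, ← hA]
      simp only [_root_.neg_apply, _root_.smul_apply,
        ContinuousLinearMap.comp_apply, ContinuousLinearMap.inl_apply, smul_eq_mul]
      field_simp
      ring
    rw [h1]
    exact hlo.const_mul_left _
  exact hfin.differentiableAt.differentiableWithinAt

omit [NormedSpace ℂ E] in
/-- clopen argument: a continuous solution which enters the small disc is the root `G` -/
theorem eqOn_of_enter {W' : Set E} (hW : IsPreconnected W') {B G : E → ℂ} {f : E → ℂ → ℂ} {b0 : ℂ}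
    {r2 : ℝ} (hB : ContinuousOn B W') (hG : ContinuousOn G W')
    (hGr : ∀ q ∈ W', G q ∈ ball b0 r2)
    (hun : ∀ q ∈ W', ∀ b ∈ ball b0 r2, f q b = 0 → b = G q)
    (hBz : ∀ q ∈ W', B q ∈ ball b0 r2 → f q (B q) = 0)
    (hent : ∃ q ∈ W', B q ∈ ball b0 r2) : EqOn B G W' := by
  classical
  obtain ⟨q1, hq1, hb1⟩ := hent
  have h1 : B q1 = G q1 := hun q1 hq1 _ hb1 (hBz q1 hq1 hb1)
  -- the two relatively open pieces
  by_contra hne
  simp only [EqOn, not_forall] at hne
  obtain ⟨q2, hq2, hb2⟩ := hne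
  -- U1 : near points with B = G we have B = G
  have hopen1 : ∀ q ∈ W', B q = G q → ∀ᶠ q' in 𝓝[W'] q, B q' = G q' := by
    intro q hq hqe
    have h2 : B q ∈ ball b0 r2 := by rw [hqe]; exact hGr q hq
    have h3 := (hB q hq).eventually (isOpen_ball.mem_nhds h2)
    filter_upwards [h3, self_mem_nhdsWithin] with q' h4 h5
    exact hun q' h5 _ h4 (hBz q' h5 h4)
  have hopen2 : ∀ q ∈ W', B q ≠ G q → ∀ᶠ q' in 𝓝[W'] q, B q' ≠ G q' := by
    intro q hq hqe
    have h2 : Tendsto (fun q' => B q' - G q') (𝓝[W'] q) (𝓝 (B q - G q)) := (hB q hq).sub (hG q hq)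
    have h3 := h2.eventually_ne (sub_ne_zero.2 hqe)
    filter_upwards [h3] with q' h4 using sub_ne_zero.1 h4
  choose! O1 hO1 using fun q hq hqe => mem_nhdsWithin.1 (hopen1 q hq hqe)
  choose! O2 hO2 using fun q hq hqe => mem_nhdsWithin.1 (hopen2 q hq hqe)
  set V1 : Set E := ⋃ q ∈ {q | q ∈ W' ∧ B q = G q}, O1 q with hV1
  set V2 : Set E := ⋃ q ∈ {q | q ∈ W' ∧ B q ≠ G q}, O2 q with hV2
  have hV1o : IsOpen V1 := isOpen_biUnion fun q hq => (hO1 q hq.1 hq.2).1
  have hV2o : IsOpen V2 := isOpen_biUnion fun q hq => (hO2 q hq.1 hq.2).1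
  have hcov : W' ⊆ V1 ∪ V2 := by
    intro q hq
    by_cases h : B q = G q
    · exact Or.inl (mem_biUnion (x := q) ⟨hq, h⟩ (hO1 q hq h).2.1)
    · exact Or.inr (mem_biUnion (x := q) ⟨hq, h⟩ (hO2 q hq h).2.1)
  obtain ⟨q3, hq3, hq3a, hq3b⟩ := hW V1 V2 hV1o hV2o hcov
    ⟨q1, hq1, mem_biUnion (x := q1) ⟨hq1, h1⟩ (hO1 q1 hq1 h1).2.1⟩
    ⟨q2, hq2, mem_biUnion (x := q2) ⟨hq2, hb2⟩ (hO2 q2 hq2 hb2).2.1⟩
  simp only [hV1, hV2, mem_iUnion, mem_ofPred_eq] at hq3a hq3b
  obtain ⟨x, ⟨hx1, hx2⟩, hx3⟩ := hq3a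
  obtain ⟨y, ⟨hy1, hy2⟩, hy3⟩ := hq3b
  exact ((hO2 y hy1 hy2).2.2 ⟨hy3, hq3⟩) ((hO1 x hx1 hx2).2.2 ⟨hx3, hq3⟩)

/-- **RegFace, one function.**  Precision `ε` and radii `r1`, `r2` depend only on the limit `F0`. -/
theorem regface1 {F0 : E → ℂ → ℂ} {q0 : E} {b0 a : ℂ} {r : ℝ} (hr : 0 < r)
    (hF0 : ContinuousOn (fun x : E × ℂ => F0 x.1 x.2) (ball q0 r ×ˢ ball b0 r))
    (hz : F0 q0 b0 = 0) (ha : HasDerivAt (F0 q0) a b0) (ha0 : a ≠ 0) {r' : ℝ} (hr' : 0 < r') :
    ∃ r1 r2 ε : ℝ, 0 < r1 ∧ r1 ≤ r' ∧ r1 ≤ r ∧ 0 < r2 ∧ r2 ≤ r' ∧ 2 * r2 < r ∧ 0 < ε ∧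
      ∀ f : E → ℂ → ℂ,
        DifferentiableOn ℂ (fun x : E × ℂ => f x.1 x.2) (ball q0 r1 ×ˢ ball b0 r) →
        (∀ q ∈ ball q0 r1, ∀ b ∈ closedBall b0 (2 * r2), ‖f q b - F0 q b‖ ≤ ε) →
        ∃ G : E → ℂ, DifferentiableOn ℂ G (ball q0 r1) ∧
          (∀ q ∈ ball q0 r1, G q ∈ ball b0 r2 ∧ f q (G q) = 0) ∧
          (∀ q ∈ ball q0 r1, ∀ b ∈ ball b0 r2, f q b = 0 → b = G q) ∧
          ∀ (W : Set E) (B : E → ℂ), IsPreconnected (W ∩ ball q0 r1) →
            ContinuousOn B (W ∩ ball q0 r1) →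
            (∀ q ∈ W ∩ ball q0 r1, B q ∈ ball b0 r2 → f q (B q) = 0) →
            (∃ q ∈ W ∩ ball q0 r1, B q ∈ ball b0 r2) → EqOn B G (W ∩ ball q0 r1) := by
  have hna : 0 < ‖a‖ := norm_pos_iff.2 ha0
  -- choose r2
  obtain ⟨s, hs, hs2⟩ : ∃ s > 0, ∀ b ∈ closedBall b0 s, ‖F0 q0 b - a * (b - b0)‖ ≤
      ‖a‖ / 12 * ‖b - b0‖ := by
    have h1 := ha.isLittleO.def (show (0 : ℝ) < ‖a‖ / 12 by positivity)
    obtain ⟨s, hs, h2⟩ := Metric.eventually_nhds_iff_ball.1 h1
    refine ⟨s / 2, by positivity, fun b hb => ?_⟩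
    have h3 := h2 b (closedBall_subset_ball (by linarith) hb)
    rw [hz, sub_zero, smul_eq_mul] at h3
    rwa [mul_comm a]
  set r2 : ℝ := min (min (s / 2) (r / 3)) r' with hr2
  have hr2p : 0 < r2 := by positivity
  have hr2s : 2 * r2 ≤ s := by
    have : r2 ≤ s / 2 := (min_le_left _ _).trans (min_le_left _ _)
    linarith
  have hr2r : 2 * r2 < r := by
    have : r2 ≤ r / 3 := (min_le_left _ _).trans (min_le_right _ _)
    linarith
  have hr2' : r2 ≤ r' := min_le_right _ _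
  set ε : ℝ := ‖a‖ / 12 * r2 with hε
  have hεp : 0 < ε := by positivity
  -- uniform continuity in q
  have hunif : ∀ᶠ q in 𝓝 q0, ∀ b ∈ closedBall b0 (2 * r2), ‖F0 q b - F0 q0 b‖ < ε := by
    refine (isCompact_closedBall b0 (2 * r2)).eventually_forall_of_forall_eventually ?_
    intro b hb
    have hbr : b ∈ ball b0 r := closedBall_subset_ball hr2r hb
    have hc : ContinuousAt (fun x : E × ℂ => F0 x.1 x.2) (q0, b) :=
      hF0.continuousAt ((isOpen_ball.prod isOpen_ball).mem_nhds ⟨mem_ball_self hr, hbr⟩)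
    have hc2 : ContinuousAt (fun x : E × ℂ => F0 q0 x.2) (q0, b) := by
      have h1 : ContinuousAt (fun x : E × ℂ => ((q0, x.2) : E × ℂ)) (q0, b) :=
        (continuous_const.prodMk continuous_snd).continuousAt
      exact ContinuousAt.comp (g := fun x : E × ℂ => F0 x.1 x.2)
        (f := fun x : E × ℂ => ((q0, x.2) : E × ℂ)) hc h1
    have h2 : Tendsto (fun x : E × ℂ => ‖F0 x.1 x.2 - F0 q0 x.2‖) (𝓝 (q0, b)) (𝓝 0) := by
      have h3 : Tendsto (fun x : E × ℂ => F0 x.1 x.2 - F0 q0 x.2) (𝓝 (q0, b)) (𝓝 0) := by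
        have := hc.tendsto.sub hc2.tendsto
        simpa using this
      simpa using h3.norm
    exact h2.eventually (gt_mem_nhds hεp)
  obtain ⟨s1, hs1, hs1'⟩ := Metric.eventually_nhds_iff_ball.1 hunif
  refine ⟨min (min s1 r') r, r2, ε, by positivity, (min_le_left _ _).trans (min_le_right _ _),
    min_le_right _ _, hr2p, hr2', hr2r, hεp, ?_⟩
  intro f hf hfe
  set r1 : ℝ := min (min s1 r') r with hr1
  have hr1s : r1 ≤ s1 := (min_le_left _ _).trans (min_le_left _ _)
  have hbd : ∀ q ∈ ball q0 r1, ∀ b ∈ closedBall b0 (2 * r2), ‖f q b - a * (b - b0)‖ ≤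
      ‖a‖ / 3 * r2 := by
    intro q hq b hb
    have h1 := hfe q hq b hb
    have h2 := hs1' q (ball_subset_ball hr1s hq) b hb
    have h3 := hs2 b (closedBall_subset_closedBall hr2s hb)
    have h4 : ‖b - b0‖ ≤ 2 * r2 := by rw [← dist_eq_norm]; exact mem_closedBall.1 hb
    have h5 : f q b - a * (b - b0) = (f q b - F0 q b) + (F0 q b - F0 q0 b) +
        (F0 q0 b - a * (b - b0)) := by ring
    rw [h5]
    refine (norm_add_le _ _).trans ?_
    have h6 := norm_add_le (f q b - F0 q b) (F0 q b - F0 q0 b)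
    have h7 : ‖a‖ / 12 * ‖b - b0‖ ≤ ‖a‖ / 12 * (2 * r2) := by gcongr
    nlinarith
  obtain ⟨G, hG1, hG2, hG3⟩ := root_of_small isOpen_ball ha0 hr2p hr2r hf hbd
  have hGb : ∀ q ∈ ball q0 r1, G q ∈ ball b0 r2 := fun q hq =>
    closedBall_subset_ball (by linarith) (hG2 q hq).1
  refine ⟨G, hG1, fun q hq => ⟨hGb q hq, (hG2 q hq).2⟩, fun q hq b hb h =>
    hG3 q hq b (ball_subset_closedBall hb) h, ?_⟩
  intro W B hW hB hBz hent
  refine eqOn_of_enter hW hB (hG1.continuousOn.mono inter_subset_right)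
    (fun q hq => hGb q hq.2) (fun q hq b hb h => hG3 q hq.2 b (ball_subset_closedBall hb) h)
    hBz hent

/-- **RegFace, families.**  `F n → F0` uniformly near `(q0, b0)`, simple root of `F0 q0` at `b0`;
then every continuous label `B n` on `W n` which comes close to `b0` near `q0` is regular near
`q0`, and the neighbourhood does not depend on `n`. -/
theorem regface {ι : Type*} {l : Filter ι} {F : ι → E → ℂ → ℂ} {F0 : E → ℂ → ℂ} {q0 : E}
    {b0 a : ℂ} {r : ℝ} (hr : 0 < r)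
    (hF0 : ContinuousOn (fun x : E × ℂ => F0 x.1 x.2) (ball q0 r ×ˢ ball b0 r))
    (hz : F0 q0 b0 = 0) (ha : HasDerivAt (F0 q0) a b0) (ha0 : a ≠ 0)
    (hF : ∀ᶠ n in l, DifferentiableOn ℂ (fun x : E × ℂ => F n x.1 x.2) (ball q0 r ×ˢ ball b0 r))
    (hlim : TendstoUniformlyOn (fun n (x : E × ℂ) => F n x.1 x.2) (fun x => F0 x.1 x.2) l
      (ball q0 r ×ˢ ball b0 r)) {r' : ℝ} (hr' : 0 < r') :
    ∃ r1 r2 : ℝ, 0 < r1 ∧ r1 ≤ r' ∧ r1 ≤ r ∧ 0 < r2 ∧ r2 ≤ r' ∧ 2 * r2 < r ∧
      ∀ᶠ n in l, ∃ G : E → ℂ, DifferentiableOn ℂ G (ball q0 r1) ∧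
          (∀ q ∈ ball q0 r1, G q ∈ ball b0 r2 ∧ F n q (G q) = 0) ∧
          (∀ q ∈ ball q0 r1, ∀ b ∈ ball b0 r2, F n q b = 0 → b = G q) ∧
          ∀ (W : Set E) (B : E → ℂ), IsPreconnected (W ∩ ball q0 r1) →
            ContinuousOn B (W ∩ ball q0 r1) →
            (∀ q ∈ W ∩ ball q0 r1, B q ∈ ball b0 r2 → F n q (B q) = 0) →
            (∃ q ∈ W ∩ ball q0 r1, B q ∈ ball b0 r2) → EqOn B G (W ∩ ball q0 r1) := by
  obtain ⟨r1, r2, ε, h1, h2, h3, h4, h5, h6, h7, h8⟩ := regface1 hr hF0 hz ha ha0 hr'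
  refine ⟨r1, r2, h1, h2, h3, h4, h5, h6, ?_⟩
  have h9 := Metric.tendstoUniformlyOn_iff.1 hlim ε h7
  filter_upwards [hF, h9] with n hn hn2
  refine h8 (F n) (hn.mono (prod_mono (ball_subset_ball h3) Subset.rfl)) ?_
  intro q hq b hb
  have h10 := hn2 (q, b) ⟨ball_subset_ball h3 hq, closedBall_subset_ball h6 hb⟩
  rw [dist_comm, dist_eq_norm] at h10
  exact h10.le


end Crest.Agent.R102.RegFace359
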