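import Mathlib
import Crest.Agent.R102.C1G_821

-- ▼ part R102/C1H_821
section

/-!
Row 102, part (C), C1: the momentum function of `(θ, H)` is `e + O(e³)` on compact sets.
-/

set_option autoImplicit false

open Set Filter Topology Metric
open scoped ComplexConjugate

noncomputable section

namespace Crest.Agent.R102.C1

open Crest.Agent.R102.C0 Crest.Agent.R102.T5 Crest.Agent.R102.A929 Crest.Agent.R102.B821
open Crest.Agent.R102.M948

variable {q : C(ℂ, ℂ)} {η : ℝ}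

theorem exists_both (D : Datum q η) {ρ₀ : ℝ} (hρ : 0 < ρ₀) (hlt : ρ₀ < η) :
    ∃ ε₀ ρq Cq : ℝ, C0.Sm q η ρ₀ ε₀ ∧ Sml q ρq Cq η ρ₀ ε₀ := by
  obtain ⟨ρq, Cq, εq, hq⟩ := exists_sml D.diff D.per
    (fun x => by rw [D.q_real]; simp) hρ hlt
  obtain ⟨ε1, h1⟩ := D.exists_Sm hρ hlt
  have hε'0 : 0 < min εq ε1 := lt_min hq.ε_pos h1.ε_pos
  exact ⟨min εq ε1, ρq, Cq, h1.mono hρ le_rfl hε'0 (min_le_right _ _),
    ⟨hq.loc, hq.ρ_pos, hq.lt, hε'0, hq.hd, hq.per, hq.real, fun x e hx hxe he =>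
      hq.sm x e hx hxe (lt_of_lt_of_le he (min_le_left _ _))⟩⟩

lemma cos_ne_zero_of_small {z : ℂ} (hz : ‖z‖ ≤ 1) : Complex.cos z ≠ 0 := by
  intro h
  rw [Complex.cos_eq_zero_iff] at h
  obtain ⟨k, hk⟩ := h
  have h1 : ‖z‖ = |(2 * (k : ℝ) + 1)| * Real.pi / 2 := by
    rw [hk, show ((2 * (k : ℂ) + 1) * (Real.pi : ℂ) / 2) =
      (((2 * (k : ℝ) + 1) * Real.pi / 2 : ℝ) : ℂ) by push_cast; ring, Complex.norm_real,
      Real.norm_eq_abs, abs_div, abs_mul, abs_of_pos Real.pi_pos]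
    norm_num
  have h2 : (1 : ℝ) ≤ |(2 * (k : ℝ) + 1)| := by
    have h3 : (1 : ℤ) ≤ |2 * k + 1| := by
      rcases le_or_gt 0 k with h | h
      · rw [abs_of_nonneg (by omega)]; omega
      · rw [abs_of_neg (by omega)]; omega
    exact_mod_cast h3
  have := Real.pi_gt_three
  nlinarith

section
variable {V : Set ℂ} {θ H : ℂ → ℂ} (D : Datum q η) (E : VExt q η V θ H)

include D E

lemma mem_ND {ρ₀ ε₀ : ℝ} (S : C0.Sm q η ρ₀ ε₀) {x y : ℂ} (hp : (x, y) ∈ Dg ρ₀ ε₀) :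
    (x, y) ∈ ND θ H V := by
  have hx := S.mx hp
  have hy := S.my hp
  refine ⟨⟨⟨E.sub hx, E.sub hy⟩, ?_, ?_⟩, ?_⟩
  · rw [As_eq D E (Or.inr rfl) hx hy]
    exact mul_ne_zero (mul_ne_zero (Complex.exp_ne_zero _) (Complex.exp_ne_zero _))
      (S.Ach_ne hp (Or.inr rfl))
  · rw [Wch_eq D E hx hy]; exact S.Vch_slit hp
  · rw [Phi_eq D E hx hy]
    simp only
    rw [E.θ_eq x hx]
    refine cos_ne_zero_of_small ?_
    rw [norm_div]
    have := (S.ph_near hp).1
    norm_num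
    linarith

lemma kx_real {ρ₀ ε₀ : ℝ} (S : C0.Sm q η ρ₀ ε₀) {x y : ℂ} (hp : (x, y) ∈ Dg ρ₀ ε₀) :
    Complex.exp (q x) * kx θ H (x, y) = 4 * Complex.sin ((ph q (x, y) - Tc q x) / 2) := by
  have hx := S.mx hp
  have hy := S.my hp
  have h1 := mem_ND D E S hp
  have h2 := kx_mul h1.1.2.1 h1.1.2.2 h1.2
  rwa [dθ_eq D E hx, Phi_eq D E hx hy, E.θ_eq x hx] at h2

/-- `k² = - 2 L₁` -/
lemma kx_sq {ρ₀ ε₀ ρq Cq : ℝ} (S : C0.Sm q η ρ₀ ε₀) (S' : Sml q ρq Cq η ρ₀ ε₀) {x y : ℂ}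
    (hp : (x, y) ∈ Dg ρ₀ ε₀) : kx θ H (x, y) ^ 2 = -2 * B821.q1 (Lq q) (x, y) := by
  have h1 := kx_real D E S hp
  have h2 := S.Lq_x hp S'
  have h3 : Complex.cos (Tc q x - ph q (x, y)) =
      1 - 2 * Complex.sin ((ph q (x, y) - Tc q x) / 2) ^ 2 := by
    have h4 := Complex.cos_two_mul ((ph q (x, y) - Tc q x) / 2)
    have h5 := Complex.sin_sq_add_cos_sq ((ph q (x, y) - Tc q x) / 2)
    rw [show 2 * ((ph q (x, y) - Tc q x) / 2) = -(Tc q x - ph q (x, y)) by ring,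
      Complex.cos_neg] at h4
    linear_combination h4 + 2 * h5
  have h6 : Complex.exp (q x) * Complex.exp (q x) * Complex.exp (-2 * q x) = 1 := by
    rw [← Complex.exp_add, ← Complex.exp_add]
    rw [show q x + q x + -2 * q x = 0 by ring, Complex.exp_zero]
  rw [h2, h3]
  have h7 : (Complex.exp (q x) * kx θ H (x, y)) ^ 2 =
      16 * Complex.sin ((ph q (x, y) - Tc q x) / 2) ^ 2 := by rw [h1]; ring
  linear_combination (Complex.exp (-2 * q x)) * h7 - (kx θ H (x, y) ^ 2) * h6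

end

/-- domain of `kk` -/
def NE (θ H : ℂ → ℂ) (V : Set ℂ) : Set (ℂ × ℂ) := {p | (p.1, p.1 + p.2) ∈ ND θ H V}

section
variable {V : Set ℂ} {θ H : ℂ → ℂ} (L : LZ V θ H)

include L

lemma LZ.openE : IsOpen (NE θ H V) :=
  L.openD.preimage (by fun_prop : Continuous fun p : ℂ × ℂ => ((p.1, p.1 + p.2) : ℂ × ℂ))

lemma LZ.zero_mem {x : ℂ} (hx : x ∈ V) : (x, 0) ∈ NE θ H V := by
  show (x, x + 0) ∈ ND θ H V
  rw [add_zero]
  exact L.diag_mem hx

lemma LZ.kk_diff : DifferentiableOn ℂ (kk θ H) (NE θ H V) :=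
  L.kx_diff.comp (by fun_prop : DifferentiableOn ℂ (fun p : ℂ × ℂ => ((p.1, p.1 + p.2) : ℂ × ℂ)) _)
    (fun _ hp => hp)

lemma LZ.kk_zero {x : ℂ} (hx : x ∈ V) : kk θ H (x, 0) = 0 := by
  have h1 : DD θ H (x, x) = 0 := by
    unfold DD
    rw [D2_diag, D2_diag, D2_diag, L.GG_deriv 1 hx, L.GG_deriv (-1) hx]
    simp only
    have e1 : Complex.exp (-(Complex.I * θ x)) * Complex.exp (1 * (Complex.I * θ x)) = 1 := by
      rw [← Complex.exp_add]; simp
    have e2 : Complex.exp (Complex.I * θ x) * Complex.exp (-1 * (Complex.I * θ x)) = 1 := by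
      rw [← Complex.exp_add]; simp
    linear_combination ((1 * (Complex.I * deriv θ x)) *
      (1 * Complex.I * deriv θ x * H x - deriv H x) +
      (1 * Complex.I * deriv (deriv θ) x * H x + 1 * Complex.I * deriv θ x * deriv H x -
        deriv (deriv H) x)) * e1 - ((-1 * (Complex.I * deriv θ x)) *
      (-1 * Complex.I * deriv θ x * H x - deriv H x) +
      (-1 * Complex.I * deriv (deriv θ) x * H x + -1 * Complex.I * deriv θ x * deriv H x -
        deriv (deriv H) x)) * e2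
  unfold kk
  simp only
  rw [add_zero]
  unfold kx
  rw [h1]
  simp

/-- `∂₂ Φ (x, x) = θ' (x) / 2` -/
lemma LZ.Phi_dy {x : ℂ} (hx : x ∈ V) :
    HasDerivAt (fun y => Phi θ H (x, y)) (deriv θ x / 2) x := by
  have hm := L.diag_mem hx
  have hP : DifferentiableAt ℂ (Phi θ H) (x, x) :=
    L.Phi_diff.differentiableAt (L.open1.mem_nhds hm.1)
  set F := fderiv ℂ (Phi θ H) (x, x) with hF
  have h1 : HasDerivAt (fun y => Phi θ H (y, y)) (F (1, 1)) x := by
    have h2 : HasDerivAt (fun y : ℂ => ((y, y) : ℂ × ℂ)) (1, 1) x :=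
      (hasDerivAt_id x).prodMk (hasDerivAt_id x)
    exact HasFDerivAt.comp_hasDerivAt (f := fun y : ℂ => ((y, y) : ℂ × ℂ)) x hP.hasFDerivAt h2
  have h2 : F (1, 1) = deriv θ x := by
    refine h1.unique ((L.hθ hx).congr_of_eventuallyEq ?_)
    filter_upwards [L.op.mem_nhds hx] with y hy
    exact L.Phi_diag hy
  have h3 : HasDerivAt (fun y => Phi θ H (x, y)) (F (0, 1)) x := by
    have h4 : HasDerivAt (fun y : ℂ => ((x, y) : ℂ × ℂ)) (0, 1) x :=
      (hasDerivAt_const x x).prodMk (hasDerivAt_id x)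
    exact hP.hasFDerivAt.comp_hasDerivAt x h4
  have h4 : HasDerivAt (fun y => Phi θ H (y, x)) (F (1, 0)) x := by
    have h5 : HasDerivAt (fun y : ℂ => ((y, x) : ℂ × ℂ)) (1, 0) x :=
      (hasDerivAt_id x).prodMk (hasDerivAt_const x x)
    exact HasFDerivAt.comp_hasDerivAt (f := fun y : ℂ => ((y, x) : ℂ × ℂ)) x hP.hasFDerivAt h5
  have h5 : (fun y => Phi θ H (y, x)) = fun y => Phi θ H (x, y) := funext fun y => Phi_swap x y
  rw [h5] at h4
  have h6 : F (1, 0) = F (0, 1) := h4.unique h3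
  have h7 : F (1, 1) = F (1, 0) + F (0, 1) := by rw [← map_add]; simp
  have h8 : F (0, 1) = deriv θ x / 2 := by
    rw [h2, h6] at h7
    linear_combination -h7 / 2
  rw [← h8]
  exact h3

/-- `∂_e k (x, 0) = 1` at regular points -/
lemma LZ.kk_deriv {x : ℂ} (hx : x ∈ V) (h0 : deriv θ x ≠ 0) :
    HasDerivAt (fun e => kk θ H (x, e)) 1 0 := by
  have hm := L.zero_mem hx
  have hd : DifferentiableAt ℂ (kk θ H) (x, 0) :=
    L.kk_diff.differentiableAt (L.openE.mem_nhds hm)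
  have h1 : DifferentiableAt ℂ (fun e => kk θ H (x, e)) 0 :=
    hd.comp (0 : ℂ) (by fun_prop : DifferentiableAt ℂ (fun e : ℂ => ((x, e) : ℂ × ℂ)) 0)
  obtain ⟨d, hd'⟩ : ∃ d, HasDerivAt (fun e => kk θ H (x, e)) d 0 := ⟨_, h1.hasDerivAt⟩
  have h2 : HasDerivAt (fun e : ℂ => Phi θ H (x, x + e)) (deriv θ x / 2) 0 := by
    have h3 : HasDerivAt (fun y => Phi θ H (x, y)) (deriv θ x / 2) (x + 0) := by
      rw [add_zero]; exact L.Phi_dy hx
    exact HasDerivAt.comp_const_add x 0 h3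
  have h3 := (((h2.sub_const (θ x)).div_const 2).csin).const_mul 4
  have h4 : (fun e => deriv θ x * kk θ H (x, e)) =ᶠ[𝓝 0]
      fun e => 4 * Complex.sin ((Phi θ H (x, x + e) - θ x) / 2) := by
    have hc : ContinuousAt (fun e : ℂ => ((x, e) : ℂ × ℂ)) 0 := by fun_prop
    filter_upwards [hc (L.openE.mem_nhds hm)] with e he
    have he' : (x, x + e) ∈ ND θ H V := he
    exact kx_mul he'.1.2.1 he'.1.2.2 he'.2
  have h5 := (hd'.const_mul (deriv θ x)).unique (h3.congr_of_eventuallyEq h4)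
  rw [add_zero, L.Phi_diag hx, sub_self, zero_div, Complex.cos_zero] at h5
  have h6 : d = 1 := by
    refine mul_left_cancel₀ h0 ?_
    rw [h5]; ring
  rw [← h6]
  exact hd'

end

/-- the deviation of the momentum function -/
def fk (θ H : ℂ → ℂ) (p : ℂ × ℂ) : ℂ := kk θ H p - p.2

section
variable {V : Set ℂ} {θ H : ℂ → ℂ} (D : Datum q η) (E : VExt q η V θ H)

include D E

lemma fk_real {x : ℂ} (hx : x ∈ Str (η / 4)) :
    ∃ C r : ℝ, 0 ≤ C ∧ 0 < r ∧ ∀ e : ℂ, ‖e‖ < r → ‖fk θ H (x, e)‖ ≤ C * ‖e‖ ^ 3 := by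
  have L := LZ_of_VExt D E
  have hη := D.η_pos
  obtain ⟨ε₀, ρq, Cq, S, S'⟩ := exists_both D (ρ₀ := η / 2) (by positivity) (by linarith)
  obtain ⟨K, ε₂, hK, hε₂, h1, h2, h3, h4, -, -⟩ := S'.isLag.exists_bounds2
  have hxη : x ∈ Str η := by
    have : |x.im| < η / 4 := hx
    show |x.im| < η
    linarith
  have hd := L.kk_deriv (E.sub hxη) (by rw [dθ_eq D E hxη]; exact Complex.exp_ne_zero _)
  have h5 : ∀ᶠ e in 𝓝 (0 : ℂ), ‖kk θ H (x, e) - e‖ ≤ 1 / 2 * ‖e‖ := by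
    have h6 := (hasDerivAt_iff_isLittleO.1 hd).bound (show (0 : ℝ) < 1 / 2 by norm_num)
    filter_upwards [h6] with e he
    rw [L.kk_zero (E.sub hxη)] at he
    simpa using he
  obtain ⟨r, hr, hrb⟩ := Metric.eventually_nhds_iff.1 h5
  refine ⟨2 * K, min r (min ε₂ (η / 16)), by positivity, lt_min hr (lt_min hε₂ (by positivity)), ?_⟩
  intro e he
  rw [lt_min_iff, lt_min_iff] at he
  have h6 : ‖kk θ H (x, e) - e‖ ≤ 1 / 2 * ‖e‖ := hrb (by rw [dist_zero_right]; exact he.1)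
  have hx4 : |x.im| < η / 4 := hx
  have hy : |(x + e).im| < 13 / 16 * (η / 2) := by
    rw [Complex.add_im]
    have a1 := abs_add_le x.im e.im
    have a2 := Complex.abs_im_le_norm e
    linarith [he.2.2]
  have hp : (x, x + e) ∈ Dg (13 / 16 * (η / 2)) ε₂ := by
    refine ⟨?_, hy, ?_⟩
    · show |x.im| < 13 / 16 * (η / 2)
      linarith
    · show ‖x + e - x‖ < ε₂
      rw [add_sub_cancel_left]; exact he.2.1
  have hp' : (x, x + e) ∈ Dg (η / 2) ε₀ := Dg_mono (by linarith) h1 hp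
  have h7 := h4 x (x + e) hp
  rw [add_sub_cancel_left] at h7
  have h8 := kx_sq D E S S' hp'
  have h9 : kk θ H (x, e) = kx θ H (x, x + e) := rfl
  rw [← h9] at h8
  have h10 : ‖(kk θ H (x, e) - e) * (kk θ H (x, e) + e)‖ ≤ 2 * K * ‖e‖ ^ 4 := by
    have : (kk θ H (x, e) - e) * (kk θ H (x, e) + e) =
        -2 * (B821.q1 (Lq q) (x, x + e) + e ^ 2 / 2) := by linear_combination h8
    rw [this, norm_mul]
    norm_num
    linarith
  rcases eq_or_ne e 0 with h0 | h0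
  · subst h0
    have : fk θ H (x, 0) = 0 := by unfold fk; rw [L.kk_zero (E.sub hxη)]; simp
    rw [this]; simp
  have he0 : 0 < ‖e‖ := norm_pos_iff.2 h0
  have h11 : ‖e‖ ≤ ‖kk θ H (x, e) + e‖ := by
    have : ‖2 * e‖ ≤ ‖kk θ H (x, e) + e‖ + ‖kk θ H (x, e) - e‖ := by
      calc ‖2 * e‖ = ‖(kk θ H (x, e) + e) - (kk θ H (x, e) - e)‖ := by ring_nf
        _ ≤ _ := norm_sub_le _ _
    rw [norm_mul] at this
    norm_num at this
    linarith
  rw [norm_mul] at h10
  unfold fk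
  simp only
  have h12 : ‖kk θ H (x, e) - e‖ * ‖e‖ ≤ (2 * K * ‖e‖ ^ 3) * ‖e‖ := by
    calc ‖kk θ H (x, e) - e‖ * ‖e‖ ≤ ‖kk θ H (x, e) - e‖ * ‖kk θ H (x, e) + e‖ := by gcongr
      _ ≤ 2 * K * ‖e‖ ^ 4 := h10
      _ = (2 * K * ‖e‖ ^ 3) * ‖e‖ := by ring
  exact le_of_mul_le_mul_right h12 he0

/-- local product neighbourhoods -/
lemma exists_ball {x : ℂ} (hx : x ∈ V) : ∃ s > 0, ball x s ×ˢ ball 0 s ⊆ NE θ H V := by
  have L := LZ_of_VExt D E
  obtain ⟨s, hs, h⟩ := Metric.isOpen_iff.1 L.openE (x, 0) (L.zero_mem hx)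
  refine ⟨s, hs, ?_⟩
  rwa [ball_prod_same]

lemma coefk_diff (n : ℕ) : DifferentiableOn ℂ (coefT (fk θ H) 0 n) V := by
  have L := LZ_of_VExt D E
  intro x hx
  obtain ⟨s, hs, h⟩ := exists_ball D E hx
  have hf : DifferentiableOn ℂ (fk θ H) (ball x s ×ˢ ball 0 s) :=
    (L.kk_diff.mono h).sub differentiable_snd.differentiableOn
  exact ((differentiableOn_coefT isOpen_ball hs hf n).differentiableAt
    (isOpen_ball.mem_nhds (mem_ball_self hs))).differentiableWithinAt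

lemma coefk_zero {n : ℕ} (hn : n ≤ 2) : ∀ x ∈ V, coefT (fk θ H) 0 n x = 0 := by
  have L := LZ_of_VExt D E
  have hη := D.η_pos
  have h0 : (0 : ℂ) ∈ Str (η / 4) := by
    show |(0 : ℂ).im| < η / 4
    simp; positivity
  have hsub : Str (η / 4) ⊆ V := fun x hx => E.sub (by
    have : |x.im| < η / 4 := hx
    show |x.im| < η
    linarith)
  have := ((coefk_diff D E n).analyticOnNhd E.open').eqOn_zero_of_preconnected_of_eventuallyEq_zero
    E.conn (hsub h0) (by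
      filter_upwards [(isOpen_Str (η / 4)).mem_nhds h0] with x hx
      simp only [Pi.zero_apply]
      obtain ⟨C, r, hC, hr, hb⟩ := fk_real D E hx
      obtain ⟨s, hs, hsN⟩ := exists_ball D E (hsub hx)
      have key : ∀ ε : ℝ, 0 < ε → ε < min r (min s 1) → ‖coefT (fk θ H) 0 n x‖ ≤ C * ε := by
        intro ε hε hε'
        rw [lt_min_iff, lt_min_iff] at hε'
        have hcl : closedBall (0 : ℂ) ε ⊆ ball 0 s := closedBall_subset_ball hε'.2.1
        have hd : DifferentiableOn ℂ (fun t => fk θ H (x, t)) (closedBall 0 ε) := by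
          have hf : DifferentiableOn ℂ (fk θ H) (ball x s ×ˢ ball 0 s) :=
            (L.kk_diff.mono hsN).sub differentiable_snd.differentiableOn
          exact (slice_differentiableOn hf (mem_ball_self hs)).mono hcl
        have h1 := norm_coefT_le (f := fk θ H) (t0 := 0) (w := x) (r := ε) (M := C * ε ^ 3) hε
          (DifferentiableOn.diffContOnCl (by rw [closure_ball _ hε.ne']; exact hd))
          (fun t ht => by
            rw [mem_sphere, dist_zero_right] at ht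
            have := hb t (by rw [ht]; exact hε'.1)
            rwa [ht] at this) n
        refine h1.trans ?_
        have h2 : ε ^ 3 * (1 / ε) ^ n ≤ ε := by
          have h3 : ε ^ 3 * (1 / ε) ^ n = ε ^ (3 - n) := by
            rw [one_div, inv_pow, ← div_eq_mul_inv, div_eq_iff (by positivity), ← pow_add]
            congr 1
            omega
          rw [h3]
          calc ε ^ (3 - n) ≤ ε ^ 1 := pow_le_pow_of_le_one hε.le hε'.2.2.le (by omega)
            _ = ε := pow_one ε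
        calc C * ε ^ 3 * (1 / ε) ^ n = C * (ε ^ 3 * (1 / ε) ^ n) := by ring
          _ ≤ C * ε := by gcongr
      have hlim : Tendsto (fun ε : ℝ => C * ε) (𝓝[>] 0) (𝓝 (C * 0)) :=
        ((continuous_const.mul continuous_id).tendsto 0).mono_left nhdsWithin_le_nhds
      rw [mul_zero] at hlim
      have hle : ‖coefT (fk θ H) 0 n x‖ ≤ 0 := by
        refine ge_of_tendsto hlim ?_
        filter_upwards [Ioo_mem_nhdsGT (lt_min hr (lt_min hs one_pos))] with ε hε
        exact key ε hε.1 hε.2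
      exact norm_le_zero_iff.1 hle)
  intro x hx
  exact this hx

/-- **the momentum function on a compact set** -/
theorem exists_KMap {Q : Set ℂ} (hQ : IsCompact Q) (hQV : Q ⊆ V) :
    ∃ ε C : ℝ, 0 < ε ∧ KMap Q ε C (kk θ H) ∧ Q ×ˢ ball 0 ε ⊆ NE θ H V := by
  have L := LZ_of_VExt D E
  obtain ⟨u, v, hu, hv, hQu, h0v, huv⟩ := generalized_tube_lemma hQ (isCompact_singleton (x := (0 : ℂ)))
    L.openE (by
      rintro ⟨x, e⟩ ⟨hx, he⟩
      simp only [mem_singleton_iff] at he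
      subst he
      exact L.zero_mem (hQV hx))
  obtain ⟨s, hs, hsv⟩ := Metric.isOpen_iff.1 hv 0 (h0v rfl)
  have hcl : closedBall (0 : ℂ) (s / 2) ⊆ v := (closedBall_subset_ball (by linarith)).trans hsv
  have hf : DifferentiableOn ℂ (fk θ H) (u ×ˢ v) :=
    (L.kk_diff.mono huv).sub differentiable_snd.differentiableOn
  obtain ⟨M, hM⟩ := (hQ.prod (isCompact_closedBall (0 : ℂ) (s / 2))).exists_bound_of_continuousOn
    (hf.continuousOn.mono (prod_mono hQu hcl))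
  have hNE : Q ×ˢ ball 0 (s / 4) ⊆ NE θ H V :=
    (prod_mono hQu ((ball_subset_ball (by linarith)).trans hsv)).trans huv
  refine ⟨s / 4, 2 * |M| * (2 / s) ^ 3, by positivity, ⟨?_, ?_⟩, hNE⟩
  · exact L.kk_diff.mono hNE
  · intro x hx e he
    have hd : DifferentiableOn ℂ (fun t => fk θ H (x, t)) v :=
      slice_differentiableOn hf (hQu hx)
    have hcoef : ∀ n : ℕ, ‖coefT (fk θ H) 0 n x‖ ≤ |M| * (1 / (s / 2)) ^ n := by
      intro n
      refine norm_coefT_le (by positivity) ?_ (fun t ht => ?_) n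
      · refine DifferentiableOn.diffContOnCl ?_
        rw [closure_ball _ (by positivity)]
        exact hd.mono hcl
      · exact (hM (x, t) ⟨hx, sphere_subset_closedBall ht⟩).trans (le_abs_self M)
    have hsum := Complex.hasSum_taylorSeries_on_ball (f := fun t => fk θ H (x, t)) (c := 0)
      (r := s) (z := e) (hd.mono hsv) (by rw [mem_ball, dist_zero_right]; linarith)
    have he' : (fun n : ℕ => (n.factorial : ℂ)⁻¹ • (e - 0) ^ n •
        iteratedDeriv n (fun t => fk θ H (x, t)) 0) = fun n => coefT (fk θ H) 0 n x * e ^ n := by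
      funext n
      unfold coefT; simp only [smul_eq_mul, sub_zero]; ring
    rw [he'] at hsum
    have hsum3 : HasSum (fun n => coefT (fk θ H) 0 (n + 3) x * e ^ (n + 3)) (fk θ H (x, e)) := by
      have := (hasSum_nat_add_iff' 3).2 hsum
      simp only [Finset.sum_range_succ, Finset.sum_range_zero] at this
      rw [coefk_zero D E (by norm_num) x (hQV hx), coefk_zero D E (by norm_num) x (hQV hx),
        coefk_zero D E (by norm_num) x (hQV hx)] at this
      simpa using this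
    have hx1 : 2 * ‖e‖ / s ≤ 1 / 2 := by
      rw [div_le_iff₀ hs]; linarith
    have hgeo : HasSum (fun n : ℕ => (|M| * (2 * ‖e‖ / s) ^ 3) * (1 / 2 : ℝ) ^ n)
        ((|M| * (2 * ‖e‖ / s) ^ 3) * (1 - 1 / 2)⁻¹) :=
      (hasSum_geometric_of_lt_one (by norm_num) (by norm_num)).mul_left _
    have hb := tsum_of_norm_bounded hgeo (f := fun n => coefT (fk θ H) 0 (n + 3) x * e ^ (n + 3))
      (fun n => by
        rw [norm_mul, norm_pow]
        calc ‖coefT (fk θ H) 0 (n + 3) x‖ * ‖e‖ ^ (n + 3)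
            ≤ (|M| * (1 / (s / 2)) ^ (n + 3)) * ‖e‖ ^ (n + 3) := by gcongr; exact hcoef _
          _ = |M| * (2 * ‖e‖ / s) ^ 3 * (2 * ‖e‖ / s) ^ n := by
              rw [mul_assoc, ← mul_pow, mul_assoc, ← pow_add]
              congr 1
              rw [show 1 / (s / 2) * ‖e‖ = 2 * ‖e‖ / s by field_simp, add_comm]
          _ ≤ |M| * (2 * ‖e‖ / s) ^ 3 * (1 / 2) ^ n := by gcongr)
    rw [hsum3.tsum_eq] at hb
    show ‖kk θ H (x, e) - e‖ ≤ _
    refine hb.trans (le_of_eq ?_)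
    rw [div_pow, mul_pow, div_pow]
    norm_num
    ring

end

end Crest.Agent.R102.C1
end
end

-- ▼ part R102/C1I_821
section

/-!
Row 102, part (C), C1: the labels `b` of a `LineFam` satisfy the law of the momentum function of
`(θ, H)`; strips.
-/

set_option autoImplicit false
set_option linter.unusedSectionVars false

open Set Filter Topology Metric
open scoped ComplexConjugate

noncomputable section

namespace Crest.Agent.R102.C1

open Crest.Agent.R102.C0 Crest.Agent.R102.T5 Crest.Agent.R102.A929 Crest.Agent.R102.B821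
open Crest.Agent.R102.M948

variable {q : C(ℂ, ℂ)} {η ρ r B : ℝ} {b φ p : ℂ × ℂ → ℂ} {m₀ : ℂ → ℂ}

lemma LineFam.B_nn (F : LineFam q η ρ r B b φ p m₀) : 0 ≤ B := by
  have hr := F.r_pos
  have hρ := F.ρ_pos
  have h := F.b_near (0, ((r / 2 : ℝ) : ℂ)) (by
    refine ⟨by simpa using hρ, ?_⟩
    show ‖((r / 2 : ℝ) : ℂ)‖ < r
    rw [Complex.norm_real, Real.norm_eq_abs, abs_of_pos (by positivity)]
    linarith)
  have h2 : 0 ≤ B * ‖((r / 2 : ℝ) : ℂ)‖ ^ 2 := (norm_nonneg _).trans h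
  rw [Complex.norm_real, Real.norm_eq_abs, abs_of_pos (by positivity)] at h2
  by_contra hB
  push Not at hB
  nlinarith [mul_pos hr hr, mul_neg_of_neg_of_pos hB (mul_pos hr hr)]

/-- smallness of `r'` -/
structure Rs (ρ r B ε₀ r' : ℝ) : Prop where
  pos : 0 < r'
  le : r' ≤ r
  ε : r' + 2 * B * r' ^ 2 ≤ ε₀
  B2 : 2 * B * r' ≤ 1 / 2
  ρ4 : 4 * r' ≤ ρ

theorem exists_Rs (hr : 0 < r) (hρ : 0 < ρ) (hB : 0 ≤ B) {ε₀ : ℝ} (hε : 0 < ε₀) :
    ∃ r₀, 0 < r₀ ∧ ∀ r', 0 < r' → r' ≤ r₀ → Rs ρ r B ε₀ r' := by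
  refine ⟨min r (min 1 (min (ε₀ / (2 * B + 1)) (min (1 / (4 * (B + 1))) (ρ / 4)))), ?_, ?_⟩
  · exact lt_min hr (lt_min one_pos (lt_min (by positivity) (lt_min (by positivity)
      (by positivity))))
  · intro r' h0 h
    simp only [le_min_iff] at h
    obtain ⟨h1, h2, h3, h4, h5⟩ := h
    rw [le_div_iff₀ (by positivity)] at h3 h4
    refine ⟨h0, h1, ?_, ?_, by linarith⟩
    · have : B * r' ^ 2 ≤ B * r' := by
        rw [pow_two]
        exact mul_le_mul_of_nonneg_left (mul_le_of_le_one_left h0.le h2) hB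
      nlinarith
    · nlinarith

section
variable (F : LineFam q η ρ r B b φ p m₀) {ρ₀ ε₀ r' : ℝ} (S : C0.Sm q η ρ₀ ε₀) (hρ₀ : 2 * ρ ≤ ρ₀)
  (R : Rs ρ r B ε₀ r')

include F S hρ₀ R

lemma mem_PD {t w : ℂ} (ht : |t.im| < ρ) (hw : ‖w‖ < r') : (t, w) ∈ PD ρ r :=
  ⟨ht, hw.trans_le R.le⟩

lemma pair_Dg {t s w : ℂ} (ht : |t.im| < ρ) (hs : |s.im| < ρ) (hw : ‖w‖ < r')
    (hts : ‖t - s‖ = ‖w‖) : (b (s, w), b (t, w)) ∈ Dg ρ₀ ε₀ := by
  have hB := LineFam.B_nn F
  have m1 := mem_PD F S hρ₀ R ht hw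
  have m2 := mem_PD F S hρ₀ R hs hw
  refine ⟨(F.b_mem _ m2).trans_le hρ₀, (F.b_mem _ m1).trans_le hρ₀, ?_⟩
  show ‖b (t, w) - b (s, w)‖ < ε₀
  have n1 := F.b_near _ m1
  have n2 := F.b_near _ m2
  simp only at n1 n2
  have h3 : B * ‖w‖ ^ 2 ≤ B * r' ^ 2 := by gcongr
  calc ‖b (t, w) - b (s, w)‖ = ‖(t - s) + ((b (t, w) - t) - (b (s, w) - s))‖ := by ring_nf
    _ ≤ ‖t - s‖ + ‖(b (t, w) - t) - (b (s, w) - s)‖ := norm_add_le _ _
    _ ≤ ‖t - s‖ + (‖b (t, w) - t‖ + ‖b (s, w) - s‖) := by gcongr; exact norm_sub_le _ _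
    _ < ε₀ := by rw [hts]; linarith [R.ε]

lemma b_zero {t : ℂ} (ht : |t.im| < ρ) : b (t, 0) = t := by
  have m1 := mem_PD F S hρ₀ R ht (w := 0) (by simpa using R.pos)
  have n1 := F.b_near _ m1
  simp only [norm_zero] at n1
  have : ‖b (t, 0) - t‖ ≤ 0 := by simpa using n1
  exact sub_eq_zero.1 (norm_le_zero_iff.1 this)

/-- the line is the chord through the vertices -/
theorem chord_eq {t w : ℂ} (ht : |t.im| < ρ) (hm : |(t - w / 2).im| < ρ)
    (hp : |(t + w / 2).im| < ρ) (hw : ‖w‖ < r') :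
    φ (t, w) = ph q (b (t - w / 2, w), b (t + w / 2, w)) ∧
    p (t, w) = pc q (b (t - w / 2, w), b (t + w / 2, w)) := by
  have hB := LineFam.B_nn F
  have hts : ‖t + w / 2 - (t - w / 2)‖ = ‖w‖ := by congr 1; ring
  have hD := pair_Dg F S hρ₀ R hp hm hw hts
  have m0 := mem_PD F S hρ₀ R ht hw
  have m1 := mem_PD F S hρ₀ R hm hw
  have m2 := mem_PD F S hρ₀ R hp hw
  have i1 := F.inc' t w m0 m1
  have i2 := F.inc t w m0 m2
  unfold OnLine at i1 i2
  set x := b (t - w / 2, w) with hx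
  set y := b (t + w / 2, w) with hy
  have hφ : φ (t, w) = ph q (x, y) := by
    rcases eq_or_ne w 0 with h0 | h0
    · subst h0
      have e1 : x = t := by rw [hx]; simp only [zero_div, sub_zero]; exact b_zero F S hρ₀ R ht
      have e2 : y = t := by rw [hy]; simp only [zero_div, add_zero]; exact b_zero F S hρ₀ R ht
      rw [e1, e2, ph_diag, F.φ_zero t ht]
    have hxy : y - x ≠ 0 := by
      intro h
      have n1 := F.b_near _ m1
      have n2 := F.b_near _ m2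
      simp only at n1 n2
      have h3 : ‖w‖ ≤ 2 * B * ‖w‖ ^ 2 := by
        calc ‖w‖ = ‖-((y - (t + w / 2)) - (x - (t - w / 2)))‖ := by
              rw [show -((y - (t + w / 2)) - (x - (t - w / 2))) = w - (y - x) by ring, h, sub_zero]
          _ = ‖(y - (t + w / 2)) - (x - (t - w / 2))‖ := norm_neg _
          _ ≤ ‖y - (t + w / 2)‖ + ‖x - (t - w / 2)‖ := norm_sub_le _ _
          _ ≤ 2 * B * ‖w‖ ^ 2 := by linarith
      have hwp : 0 < ‖w‖ := norm_pos_iff.2 h0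
      have h4 : 2 * B * ‖w‖ ≤ 1 / 2 := le_trans (by gcongr) R.B2
      nlinarith
    have a1 := S.dat.Ach_mul 1 (S.mx hD) (S.my hD)
    have a2 := S.dat.Ach_mul (-1) (S.mx hD) (S.my hD)
    have a3 : Complex.exp (-(Complex.I * φ (t, w))) * Ach q 1 (x, y) =
        Complex.exp (Complex.I * φ (t, w)) * Ach q (-1) (x, y) := by
      refine mul_left_cancel₀ hxy ?_
      linear_combination Complex.exp (-(Complex.I * φ (t, w))) * a1 -
        Complex.exp (Complex.I * φ (t, w)) * a2 + i2 - i1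
    have hne := S.Ach_ne hD (s := -1) (Or.inr rfl)
    have a4 : Complex.exp (2 * (Complex.I * φ (t, w))) = Ach q 1 (x, y) / Ach q (-1) (x, y) := by
      rw [eq_div_iff hne]
      have e1 : Complex.exp (2 * (Complex.I * φ (t, w))) =
          Complex.exp (Complex.I * φ (t, w)) * Complex.exp (Complex.I * φ (t, w)) := by
        rw [← Complex.exp_add]; congr 1; ring
      have e2 : Complex.exp (Complex.I * φ (t, w)) * Complex.exp (-(Complex.I * φ (t, w))) = 1 := by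
        rw [← Complex.exp_add]; simp
      rw [e1]
      linear_combination (-Complex.exp (Complex.I * φ (t, w))) * a3 + (Ach q 1 (x, y)) * e2
    have a5 := S.exp_ph hD
    rw [← a4, Complex.exp_eq_exp_iff_exists_int] at a5
    obtain ⟨n, hn⟩ := a5
    have hI := Complex.I_ne_zero
    have a6 : ph q (x, y) - φ (t, w) = n * Real.pi := by
      have : (2 * Complex.I) * (ph q (x, y) - φ (t, w)) = (2 * Complex.I) * (n * Real.pi) := by
        linear_combination hn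
      exact mul_left_cancel₀ (mul_ne_zero two_ne_zero hI) this
    have d1 := F.δ_small (t - w / 2) w m1 (by rw [sub_add_cancel]; exact m0)
    rw [sub_add_cancel, ← hx] at d1
    have d2 := (S.ph_near hD).1
    have a7 : ‖ph q (x, y) - φ (t, w)‖ ≤ 2 / 5 := by
      calc ‖ph q (x, y) - φ (t, w)‖ = ‖(ph q (x, y) - Tc q x) - (φ (t, w) - Tc q x)‖ := by ring_nf
        _ ≤ ‖ph q (x, y) - Tc q x‖ + ‖φ (t, w) - Tc q x‖ := norm_sub_le _ _
        _ ≤ 2 / 5 := by linarith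
    have hn0 : n = 0 := by
      by_contra hne
      have h1 : (1 : ℝ) ≤ |(n : ℝ)| := by
        have : (1 : ℤ) ≤ |n| := Int.one_le_abs hne
        exact_mod_cast this
      rw [a6, norm_mul, Complex.norm_intCast, Complex.norm_real, Real.norm_eq_abs,
        abs_of_pos Real.pi_pos] at a7
      have := Real.pi_gt_three
      nlinarith
    rw [hn0] at a6
    simp only [Int.cast_zero, zero_mul] at a6
    exact (sub_eq_zero.1 a6).symm
  refine ⟨hφ, ?_⟩
  unfold pc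
  simp only
  rw [← hφ, i1]
  have hI := Complex.I_ne_zero
  field_simp

variable {V : Set ℂ} {θ H : ℂ → ℂ} (E : VExt q η V θ H)

include E

/-- **the labels satisfy the law of the momentum function** -/
theorem leafOn_b : LeafOn (kk θ H) (Str ρ) r' B b := by
  have hsub : (Str ρ) ×ˢ ball (0 : ℂ) r' ⊆ PD ρ r := by
    rintro ⟨t, w⟩ ⟨ht, hw⟩
    rw [mem_ball, dist_zero_right] at hw
    exact mem_PD F S hρ₀ R ht hw
  refine ⟨F.b_diff.mono hsub, ?_, ?_⟩
  · intro t ht w hw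
    exact F.b_near (t, w) (mem_PD F S hρ₀ R ht hw)
  · intro t w hw h1 h2 h3
    have half : ∀ s : ℂ, |s.im| < ρ → |t.im| < ρ → |((s + t) / 2).im| < ρ := by
      intro s hs ht
      have : ((s + t) / 2).im = (s.im + t.im) / 2 := by
        rw [show (s + t) / 2 = (((1 / 2 : ℝ)) : ℂ) * (s + t) by push_cast; ring,
          Complex.im_ofReal_mul, Complex.add_im]
        ring
      rw [this, abs_div, abs_of_pos (by norm_num : (0 : ℝ) < 2)]
      have := abs_add_le s.im t.im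
      linarith
    have hm : |(t - w / 2).im| < ρ := by
      have := half (t - w) h1 h2
      rwa [show (t - w + t) / 2 = t - w / 2 by ring] at this
    have hp : |(t + w / 2).im| < ρ := by
      have := half (t + w) h3 h2
      rwa [show (t + w + t) / 2 = t + w / 2 by ring] at this
    have c1 := (chord_eq F S hρ₀ R (t := t + w / 2) (w := w) hp
      (by rw [show t + w / 2 - w / 2 = t by ring]; exact h2)
      (by rw [show t + w / 2 + w / 2 = t + w by ring]; exact h3) hw).1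
    rw [show t + w / 2 - w / 2 = t by ring, show t + w / 2 + w / 2 = t + w by ring] at c1
    have c2 := (chord_eq F S hρ₀ R (t := t - w / 2) (w := w) hm
      (by rw [show t - w / 2 - w / 2 = t - w by ring]; exact h1)
      (by rw [show t - w / 2 + w / 2 = t by ring]; exact h2) hw).1
    rw [show t - w / 2 - w / 2 = t - w by ring, show t - w / 2 + w / 2 = t by ring] at c2
    have hr := F.refl t w (mem_PD F S hρ₀ R h2 hw) (mem_PD F S hρ₀ R hm hw)
      (mem_PD F S hρ₀ R hp hw)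
    rw [c1, c2] at hr
    have hD1 := pair_Dg F S hρ₀ R h3 h2 hw (by rw [add_sub_cancel_left])
    have hD2 := pair_Dg F S hρ₀ R h1 h2 hw (by
      rw [show t - w - t = -w by ring, norm_neg])
    have k1 := kx_real F.dat E S hD1
    have k2 := kx_real F.dat E S hD2
    rw [show ph q (b (t - w, w), b (t, w)) = ph q (b (t, w), b (t - w, w)) from ph_swap _ _] at hr
    have e1 : (ph q (b (t, w), b (t + w, w)) - Tc q (b (t, w))) / 2 =
        -((ph q (b (t, w), b (t - w, w)) - Tc q (b (t, w))) / 2) := by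
      linear_combination (1 / 2 : ℂ) * hr
    rw [e1, Complex.sin_neg] at k1
    have g1 : kk θ H (b (t, w), b (t + w, w) - b (t, w)) = kx θ H (b (t, w), b (t + w, w)) := by
      unfold kk; simp only; rw [add_sub_cancel]
    have g2 : kk θ H (b (t, w), b (t - w, w) - b (t, w)) = kx θ H (b (t, w), b (t - w, w)) := by
      unfold kk; simp only; rw [add_sub_cancel]
    rw [g1, g2]
    refine mul_left_cancel₀ (Complex.exp_ne_zero (q (b (t, w)))) ?_
    linear_combination k1 + k2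

/-- lines in terms of the chord functions of `(θ, H)` -/
theorem chord_eq' {t w : ℂ} (ht : |t.im| < ρ) (hm : |(t - w / 2).im| < ρ)
    (hp : |(t + w / 2).im| < ρ) (hw : ‖w‖ < r') :
    φ (t, w) = Phi θ H (b (t - w / 2, w), b (t + w / 2, w)) ∧
    p (t, w) = Pch θ H (b (t - w / 2, w), b (t + w / 2, w)) := by
  have hts : ‖t + w / 2 - (t - w / 2)‖ = ‖w‖ := by congr 1; ring
  have hD := pair_Dg F S hρ₀ R hp hm hw hts
  have h := chord_eq F S hρ₀ R ht hm hp hw
  rw [Phi_eq F.dat E (S.mx hD) (S.my hD), Pch_eq F.dat E S hD]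
  exact h

end

/-! ### periodicity -/

section
variable {V : Set ℂ} {θ H : ℂ → ℂ} {h : ℝ} (D : Datum q η) (E : VExt q η V θ H)
  (hV : Str h ⊆ V) (hη : η ≤ h)

lemma convex_Str (h : ℝ) : Convex ℝ (Str h) := by
  have : Str h = {t : ℂ | |t.im| < h} := rfl
  rw [this]
  exact convex_strip h

lemma add_one_Str {z : ℂ} (hz : z ∈ Str h) : z + 1 ∈ Str h := by
  have : |z.im| < h := hz
  show |(z + 1).im| < h
  simpa using this

include D E hV hη

lemma θ_per {z : ℂ} (hz : z ∈ Str h) : θ (z + 1) = θ z + 2 * Real.pi := by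
  have h0 : (0 : ℂ) ∈ Str η := by
    show |(0 : ℂ).im| < η
    simpa using D.η_pos
  have hsub : Str η ⊆ Str h := fun z hz => lt_of_lt_of_le hz hη
  refine eq_of_eq_open (f := fun z => θ (z + 1)) (g := fun z => θ z + 2 * Real.pi)
    (isOpen_Str h) (convex_Str h).isPreconnected ?_ ?_ (isOpen_Str η) (hsub h0) h0 ?_ z hz
  · exact (E.θ_diff.mono hV).comp (by fun_prop) (fun z hz => add_one_Str hz)
  · exact (E.θ_diff.mono hV).add_const _
  · intro z _ hz
    rw [E.θ_eq z hz, E.θ_eq (z + 1) (add_one_Str hz), D.Tc_per hz]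

lemma Hc_per {z : ℂ} (hz : z ∈ Str η) : Hc q (z + 1) = Hc q z := by
  unfold Hc
  rw [D.Tc_per hz, D.Zs_per hz (Or.inl rfl), D.Zs_per hz (Or.inr rfl)]
  have e1 : Complex.exp (Complex.I * (Tc q z + 2 * Real.pi)) = Complex.exp (Complex.I * Tc q z) := by
    rw [Complex.exp_eq_exp_iff_exists_int]
    exact ⟨1, by push_cast; ring⟩
  have e2 : Complex.exp (-(Complex.I * (Tc q z + 2 * Real.pi))) =
      Complex.exp (-(Complex.I * Tc q z)) := by
    rw [Complex.exp_eq_exp_iff_exists_int]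
    exact ⟨-1, by push_cast; ring⟩
  rw [e1, e2]

lemma H_per {z : ℂ} (hz : z ∈ Str h) : H (z + 1) = H z := by
  have h0 : (0 : ℂ) ∈ Str η := by
    show |(0 : ℂ).im| < η
    simpa using D.η_pos
  have hsub : Str η ⊆ Str h := fun z hz => lt_of_lt_of_le hz hη
  refine eq_of_eq_open (f := fun z => H (z + 1)) (g := H)
    (isOpen_Str h) (convex_Str h).isPreconnected ?_ ?_ (isOpen_Str η) (hsub h0) h0 ?_ z hz
  · exact (E.H_diff.mono hV).comp (by fun_prop) (fun z hz => add_one_Str hz)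
  · exact E.H_diff.mono hV
  · intro z _ hz
    rw [E.H_eq z hz, E.H_eq (z + 1) (add_one_Str hz), Hc_per D E hV hη hz]

lemma dθ_per {z : ℂ} (hz : z ∈ Str h) : deriv θ (z + 1) = deriv θ z := by
  have h1 : (fun z => θ (z + 1)) =ᶠ[𝓝 z] fun z => θ z + 2 * Real.pi := by
    filter_upwards [(isOpen_Str h).mem_nhds hz] with x hx using θ_per D E hV hη hx
  have h2 := h1.deriv_eq
  rwa [deriv_comp_add_const, deriv_add_const] at h2

lemma dH_per {z : ℂ} (hz : z ∈ Str h) : deriv H (z + 1) = deriv H z := by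
  have h1 : (fun z => H (z + 1)) =ᶠ[𝓝 z] H := by
    filter_upwards [(isOpen_Str h).mem_nhds hz] with x hx using H_per D E hV hη hx
  have h2 := h1.deriv_eq
  rwa [deriv_comp_add_const] at h2

lemma GG_per {s : ℂ} (hs : s = 1 ∨ s = -1) {z : ℂ} (hz : z ∈ Str h) :
    GG θ H s (z + 1) = GG θ H s z := by
  unfold GG
  rw [θ_per D E hV hη hz, H_per D E hV hη hz, dθ_per D E hV hη hz, dH_per D E hV hη hz]
  congr 1
  rw [Complex.exp_eq_exp_iff_exists_int]
  rcases hs with rfl | rfl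
  · exact ⟨1, by push_cast; ring⟩
  · exact ⟨-1, by push_cast; ring⟩

lemma D2_per {f : ℂ → ℂ} (hf : ∀ z ∈ Str h, f (z + 1) = f z) {x y : ℂ} (hx : x ∈ Str h)
    (hy : y ∈ Str h) : D2 f (x + 1, y + 1) = D2 f (x, y) := by
  rcases eq_or_ne x y with h0 | h0
  · subst h0
    rw [D2_diag, D2_diag]
    have h1 : (fun z => f (z + 1)) =ᶠ[𝓝 x] f := by
      filter_upwards [(isOpen_Str h).mem_nhds hx] with z hz using hf z hz
    have h2 := h1.deriv_eq
    rwa [deriv_comp_add_const] at h2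
  · refine mul_left_cancel₀ (sub_ne_zero.2 h0.symm) ?_
    rw [D2_mul]
    have := D2_mul f (x + 1) (y + 1)
    rw [hf x hx, hf y hy] at this
    rw [← this]
    ring

lemma As_per {s : ℂ} (hs : s = 1 ∨ s = -1) {x y : ℂ} (hx : x ∈ Str h) (hy : y ∈ Str h) :
    As θ H s (x + 1, y + 1) = As θ H s (x, y) := by
  unfold As
  simp only
  rw [dθ_per D E hV hη hx, GG_per D E hV hη hs hx,
    D2_per D E hV hη (fun z hz => GG_per D E hV hη hs hz) hx hy,
    D2_per D E hV hη (fun z hz => dθ_per D E hV hη hz) hx hy]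

lemma Wch_per {x y : ℂ} (hx : x ∈ Str h) (hy : y ∈ Str h) :
    Wch θ H (x + 1, y + 1) = Wch θ H (x, y) := by
  unfold Wch
  simp only
  rw [As_per D E hV hη (Or.inl rfl) hx hy, As_per D E hV hη (Or.inr rfl) hx hy,
    θ_per D E hV hη hx, θ_per D E hV hη hy]
  congr 1
  rw [Complex.exp_eq_exp_iff_exists_int]
  exact ⟨-2, by push_cast; ring⟩

lemma Phi_per {x y : ℂ} (hx : x ∈ Str h) (hy : y ∈ Str h) :
    Phi θ H (x + 1, y + 1) = Phi θ H (x, y) + 2 * Real.pi := by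
  unfold Phi
  rw [Wch_per D E hV hη hx hy]
  simp only
  rw [θ_per D E hV hη hx, θ_per D E hV hη hy]
  ring

lemma kx_per {x y : ℂ} (hx : x ∈ Str h) (hy : y ∈ Str h) :
    kx θ H (x + 1, y + 1) = kx θ H (x, y) := by
  unfold kx DD
  simp only
  rw [As_per D E hV hη (Or.inr rfl) hx hy, Phi_per D E hV hη hx hy, θ_per D E hV hη hx,
    H_per D E hV hη hx,
    D2_per D E hV hη (fun z hz => GG_per D E hV hη (Or.inl rfl) hz) hx hy,
    D2_per D E hV hη (fun z hz => GG_per D E hV hη (Or.inr rfl) hz) hx hy,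
    D2_per D E hV hη (fun z hz => dθ_per D E hV hη hz) hx hy]
  have e1 : ∀ a : ℂ, Complex.exp (Complex.I * (a + 2 * Real.pi)) = Complex.exp (Complex.I * a) := by
    intro a
    rw [Complex.exp_eq_exp_iff_exists_int]
    exact ⟨1, by push_cast; ring⟩
  have e2 : ∀ a : ℂ, Complex.exp (-(Complex.I * (a + 2 * Real.pi))) =
      Complex.exp (-(Complex.I * a)) := by
    intro a
    rw [Complex.exp_eq_exp_iff_exists_int]
    exact ⟨-1, by push_cast; ring⟩
  rw [e1, e2, e2]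
  have e3 : (Phi θ H (x, y) + 2 * Real.pi - (θ x + 2 * Real.pi)) / 2 = (Phi θ H (x, y) - θ x) / 2 := by
    ring
  rw [e3]

lemma kk_per {x e : ℂ} (hx : x ∈ Str h) (hy : x + e ∈ Str h) :
    kk θ H (x + 1, e) = kk θ H (x, e) := by
  unfold kk
  simp only
  rw [show x + 1 + e = x + e + 1 by ring]
  exact kx_per D E hV hη hx hy

lemma ND_per {x y : ℂ} (hx : x ∈ Str h) (hy : y ∈ Str h) (hm : (x, y) ∈ ND θ H V) :
    (x + 1, y + 1) ∈ ND θ H V := by
  refine ⟨⟨⟨hV (add_one_Str hx), hV (add_one_Str hy)⟩, ?_, ?_⟩, ?_⟩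
  · rw [As_per D E hV hη (Or.inr rfl) hx hy]; exact hm.1.2.1
  · rw [Wch_per D E hV hη hx hy]; exact hm.1.2.2
  · have := hm.2
    simp only at this ⊢
    rw [Phi_per D E hV hη hx hy, θ_per D E hV hη hx]
    rwa [show (Phi θ H (x, y) + 2 * Real.pi - (θ x + 2 * Real.pi)) / 2 =
      (Phi θ H (x, y) - θ x) / 2 by ring]

end

end Crest.Agent.R102.C1
end
end

-- ▼ part R102/C1J_821
section

/-!
Row 102, part (C), C1: growth of strips; construction of the family of lines.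
-/

set_option autoImplicit false
set_option linter.unusedSectionVars false

open Set Filter Topology Metric
open scoped ComplexConjugate

noncomputable section

namespace Crest.Agent.R102.C1

open Crest.Agent.R102.C0 Crest.Agent.R102.T5 Crest.Agent.R102.A929 Crest.Agent.R102.B821
open Crest.Agent.R102.M948

/-! ### strips -/

lemma mem_Str {h : ℝ} {z : ℂ} : z ∈ Str h ↔ |z.im| < h := Iff.rfl

lemma Str_mono {h h' : ℝ} (hh : h ≤ h') : Str h ⊆ Str h' := fun _ hz => lt_of_lt_of_le hz hh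

lemma per_int {h : ℝ} {P : ℂ → Prop} (hP : ∀ z ∈ Str h, (P (z + 1) ↔ P z)) (n : ℤ) :
    ∀ z ∈ Str h, (P (z + n) ↔ P z) := by
  induction n with
  | zero => intro z _; simp
  | succ n ih =>
    intro z hz
    rw [show z + (((n : ℤ) + 1 : ℤ) : ℂ) = z + ((n : ℤ) : ℂ) + 1 by push_cast; ring]
    exact (hP (z + ((n : ℤ) : ℂ)) (by rw [mem_Str] at hz ⊢; simpa using hz)).trans (ih z hz)
  | pred n ih =>
    intro z hz
    have h1 := hP (z + ((-(n : ℤ) - 1 : ℤ) : ℂ)) (by rw [mem_Str] at hz ⊢; simpa using hz)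
    rw [show z + ((-(n : ℤ) - 1 : ℤ) : ℂ) + 1 = z + ((-(n : ℤ) : ℤ) : ℂ) by push_cast; ring] at h1
    exact h1.symm.trans (ih z hz)

lemma thick_Str {h d : ℝ} (_hh : 0 < h) : thickening d (Str h) ⊆ Str (h + d) := by
  intro t ht
  obtain ⟨z, hz, hd⟩ := mem_thickening_iff.1 ht
  rw [mem_Str] at hz ⊢
  rw [dist_eq_norm] at hd
  have h1 := Complex.abs_im_le_norm (t - z)
  have h2 : |t.im| ≤ |z.im| + |(t - z).im| := by
    have := abs_add_le z.im (t - z).im
    rwa [Complex.sub_im, add_sub_cancel] at this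
  linarith

lemma Str_thick {h d : ℝ} (hh : 0 < h) (hd : 0 < d) : Str (h + d) ⊆ thickening d (Str h) := by
  intro t ht
  rw [mem_Str] at ht
  rw [mem_thickening_iff]
  -- scale the imaginary part
  set s : ℝ := h / (h + d) with hs
  have hs0 : 0 < s := by positivity
  have hs1 : s < 1 := by rw [hs, div_lt_one (by positivity)]; linarith
  refine ⟨⟨t.re, s * t.im⟩, ?_, ?_⟩
  · rw [mem_Str]
    simp only
    rw [abs_mul, abs_of_pos hs0]
    calc s * |t.im| < s * (h + d) := by gcongr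
      _ = h := by rw [hs]; field_simp
  · rw [dist_eq_norm]
    have e : t - (⟨t.re, s * t.im⟩ : ℂ) = ⟨0, (1 - s) * t.im⟩ := by
      apply Complex.ext
      · simp
      · simp; ring
    rw [e]
    have e2 : ((⟨0, (1 - s) * t.im⟩ : ℂ)) = (((1 - s) * t.im : ℝ) : ℂ) * Complex.I := by
      apply Complex.ext <;> simp
    rw [e2, norm_mul, Complex.norm_I, mul_one, Complex.norm_real, Real.norm_eq_abs, abs_mul,
      abs_of_pos (by linarith)]
    calc (1 - s) * |t.im| < (1 - s) * (h + d) := by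
          have : 0 < 1 - s := by linarith
          gcongr
      _ = d := by rw [hs]; field_simp; ring

lemma half_Str {h η δ : ℝ} (_hh : 0 < h) (hη : η ≤ h) (hδ : 0 ≤ δ) {c : ℂ}
    (hc : c ∈ frontier (Str h)) : ∃ u : ℂ, ‖u‖ = 1 ∧ Half c u η δ ⊆ Str h := by
  have hc' : |c.im| = h := by
    have : Str h = {z : ℂ | |z.im| < h} := rfl
    rw [this] at hc
    exact frontier_lt_subset_eq (f := fun z : ℂ => |z.im|) (g := fun _ => h)
      (continuous_abs.comp Complex.continuous_im) continuous_const hc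
  rcases le_or_gt 0 c.im with h0 | h0
  · rw [abs_of_nonneg h0] at hc'
    refine ⟨1, by simp, ?_⟩
    intro t ht
    obtain ⟨h1, h2⟩ := mem_Half.1 ht
    simp only [map_one, mul_one, Complex.sub_im] at h2
    have h3 := Complex.abs_im_le_norm (t - c)
    rw [Complex.sub_im, abs_le] at h3
    rw [mem_Str, abs_lt]
    constructor <;> linarith [h3.1, h3.2]
  · rw [abs_of_neg h0] at hc'
    refine ⟨-1, by simp, ?_⟩
    intro t ht
    obtain ⟨h1, h2⟩ := mem_Half.1 ht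
    have e : (t - c) * conj (-1 : ℂ) = -(t - c) := by simp
    rw [e, Complex.neg_im, Complex.sub_im] at h2
    have h3 := Complex.abs_im_le_norm (t - c)
    rw [Complex.sub_im, abs_le] at h3
    rw [mem_Str, abs_lt]
    constructor <;> linarith [h3.1, h3.2]

theorem strip_grow {k X : ℂ × ℂ → ℂ} {ρ h₂ h₃ ε C r B : ℝ} (hρ : 0 < ρ) (h23 : h₂ < h₃)
    (hε : 0 < ε) (hr : 0 < r) (hk : KMap (Str h₃) ε C k) (hX : LeafOn k (Str ρ) r B X) :
    ∃ (r' B' : ℝ) (X' : ℂ × ℂ → ℂ), 0 < r' ∧ r' ≤ r ∧ LeafOn k (Str h₂) r' B' X' ∧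
      ∀ t ∈ Str ρ, ∀ w : ℂ, ‖w‖ < r' → X' (t, w) = X (t, w) := by
  obtain ⟨κ, hκ0, hκ1, hG⟩ := grow
  set η₀ : ℝ := min ρ ((h₃ - h₂) / 4) with hη₀
  have hη0 : 0 < η₀ := lt_min hρ (by linarith)
  have e1 : η₀ ≤ ρ := min_le_left _ _
  have e2 : η₀ ≤ (h₃ - h₂) / 4 := min_le_right _ _
  have hκη : κ * η₀ ≤ η₀ := mul_le_of_le_one_left hη0.le hκ1.le
  have hκη0 : 0 < κ * η₀ := by positivity
  have key : ∀ n : ℕ, ρ + n * (κ * η₀) ≤ h₂ + κ * η₀ ∨ n = 0 →
      ∃ (r' B' : ℝ) (X' : ℂ × ℂ → ℂ), 0 < r' ∧ r' ≤ r ∧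
        LeafOn k (Str (ρ + n * (κ * η₀))) r' B' X' ∧
        ∀ t ∈ Str ρ, ∀ w : ℂ, ‖w‖ < r' → X' (t, w) = X (t, w) := by
    intro n
    induction n with
    | zero =>
      intro _
      refine ⟨r, B, X, hr, le_rfl, ?_, fun _ _ _ _ => rfl⟩
      simpa using hX
    | succ n ih =>
      intro hn
      have hn' : ρ + n * (κ * η₀) ≤ h₂ := by
        rcases hn with hn | hn
        · push_cast at hn; linarith
        · omega
      obtain ⟨r₁, B₁, X₁, a1, a2, a3, a4⟩ := ih (Or.inl (by linarith))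
      obtain ⟨r₂, B₂, b1, b2, b3⟩ := hG η₀ ε C r₁ B₁ hη0 hε a1
      set h' : ℝ := ρ + n * (κ * η₀) with hh'
      have hρh : ρ ≤ h' := by rw [hh']; have : 0 ≤ n * (κ * η₀) := by positivity
                              linarith
      have hh0 : 0 < h' := hρ.trans_le hρh
      have hth : thickening (2 * η₀) (Str h') ⊆ Str h₃ :=
        (thick_Str hh0).trans (Str_mono (by linarith))
      obtain ⟨X₂, c1, c2⟩ := b3 (Str h') k X₁ (isOpen_Str h') (convex_Str h')
        (fun c hc => half_Str hh0 (e1.trans hρh) hκη0.le hc)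
        ⟨hk.diff.mono (prod_mono hth le_rfl), fun y hy => hk.near y (hth hy)⟩ a3
      refine ⟨r₂, B₂, X₂, b1, b2.trans a2, ?_, ?_⟩
      · have : ρ + ((n + 1 : ℕ) : ℝ) * (κ * η₀) = h' + κ * η₀ := by rw [hh']; push_cast; ring
        rw [this]
        exact c1.mono (Str_thick hh0 hκη0) le_rfl le_rfl
      · intro t ht w hw
        rw [c2 t (Str_mono hρh ht) w hw]
        exact a4 t ht w (hw.trans_le b2)
  by_cases hle : h₂ ≤ ρ
  · exact ⟨r, B, X, hr, le_rfl, hX.mono (Str_mono hle) le_rfl le_rfl, fun _ _ _ _ => rfl⟩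
  push Not at hle
  set n : ℕ := ⌈(h₂ - ρ) / (κ * η₀)⌉₊ with hn
  have h1 : (h₂ - ρ) / (κ * η₀) ≤ n := Nat.le_ceil _
  have h2 : (n : ℝ) < (h₂ - ρ) / (κ * η₀) + 1 := Nat.ceil_lt_add_one (div_nonneg (by linarith) hκη0.le)
  rw [div_le_iff₀ hκη0] at h1
  have h3 : n * (κ * η₀) < h₂ - ρ + κ * η₀ := by
    have := mul_lt_mul_of_pos_right h2 hκη0
    rwa [add_mul, one_mul, div_mul_cancel₀ _ hκη0.ne'] at this
  obtain ⟨r', B', X', a1, a2, a3, a4⟩ := key n (Or.inl (by linarith))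
  exact ⟨r', B', X', a1, a2, a3.mono (Str_mono (by linarith)) le_rfl le_rfl, a4⟩

/-! ### momentum function on strips -/

variable {q : C(ℂ, ℂ)} {η ρ r B : ℝ} {b φ p : ℂ × ℂ → ℂ} {m₀ : ℂ → ℂ}

section
variable {V : Set ℂ} {θ H : ℂ → ℂ} {h : ℝ} (D : Datum q η) (E : VExt q η V θ H)
  (hV : Str h ⊆ V) (hη : η ≤ h)

include D E hV hη

lemma ND_per_iff {x y : ℂ} (hx : x ∈ Str h) (hy : y ∈ Str h) :
    (x + 1, y + 1) ∈ ND θ H V ↔ (x, y) ∈ ND θ H V := by
  refine ⟨fun hm => ?_, ND_per D E hV hη hx hy⟩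
  refine ⟨⟨⟨hV hx, hV hy⟩, ?_, ?_⟩, ?_⟩
  · rw [← As_per D E hV hη (Or.inr rfl) hx hy]; exact hm.1.2.1
  · rw [← Wch_per D E hV hη hx hy]; exact hm.1.2.2
  · have := hm.2
    rw [Phi_per D E hV hη hx hy, θ_per D E hV hη hx] at this
    rwa [show (Phi θ H (x, y) + 2 * Real.pi - (θ x + 2 * Real.pi)) / 2 =
      (Phi θ H (x, y) - θ x) / 2 by ring] at this

theorem strip_KMap {h₃ : ℝ} (h3 : h₃ < h) (_h30 : 0 < h₃) : ∃ ε C : ℝ, 0 < ε ∧ h₃ + ε ≤ h ∧
    KMap (Str h₃) ε C (kk θ H) ∧ Str h₃ ×ˢ ball 0 ε ⊆ NE θ H V := by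
  have L := LZ_of_VExt D E
  set Q : Set ℂ := Icc (0 : ℝ) 1 ×ℂ Icc (-h₃) h₃ with hQ
  have hQc : IsCompact Q := isCompact_Icc.reProdIm isCompact_Icc
  have hQV : Q ⊆ V := by
    intro z hz
    rw [hQ, Complex.mem_reProdIm] at hz
    exact hV (by rw [mem_Str]; exact lt_of_le_of_lt (abs_le.2 hz.2) h3)
  obtain ⟨ε, C, hε, hk, hN⟩ := exists_KMap D E hQc hQV
  set ε' := min ε (h - h₃) with hε'
  have hε'0 : 0 < ε' := lt_min hε (by linarith)
  have key : ∀ x ∈ Str h₃, ∀ e : ℂ, ‖e‖ < ε' →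
      (x, x + e) ∈ ND θ H V ∧ ‖kk θ H (x, e) - e‖ ≤ C * ‖e‖ ^ 3 := by
    intro x hx e he
    have he1 : ‖e‖ < ε := he.trans_le (min_le_left _ _)
    have he2 : ‖e‖ < h - h₃ := he.trans_le (min_le_right _ _)
    have hxe : ∀ z ∈ Str h₃, z + e ∈ Str h := by
      intro z hz
      rw [mem_Str] at hz ⊢
      rw [Complex.add_im]
      have := abs_add_le z.im e.im
      have := Complex.abs_im_le_norm e
      linarith
    have hper := per_int (h := h₃) (P := fun z => (z, z + e) ∈ ND θ H V ∧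
      ‖kk θ H (z, e) - e‖ ≤ C * ‖e‖ ^ 3) (fun z hz => by
        have hz' : z ∈ Str h := Str_mono h3.le hz
        rw [kk_per D E hV hη hz' (hxe z hz), show z + 1 + e = z + e + 1 by ring,
          ND_per_iff D E hV hη hz' (hxe z hz)]) (-⌊x.re⌋) x hx
    rw [← hper]
    have hzQ : x + ((-⌊x.re⌋ : ℤ) : ℂ) ∈ Q := by
      rw [hQ, Complex.mem_reProdIm]
      rw [mem_Str, abs_lt] at hx
      have h1 := Int.floor_le x.re
      have h2 := Int.lt_floor_add_one x.re
      simp only [Complex.add_re, Complex.intCast_re, Complex.add_im, Complex.intCast_im,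
        Int.cast_neg, Complex.neg_re, Complex.neg_im]
      refine ⟨⟨by linarith, by linarith⟩, ⟨by linarith [hx.1], by linarith [hx.2]⟩⟩
    exact ⟨hN (show ((x + ((-⌊x.re⌋ : ℤ) : ℂ), e) : ℂ × ℂ) ∈ Q ×ˢ ball 0 ε from
      ⟨hzQ, by simpa using he1⟩), hk.near _ hzQ e he1⟩
  have hsub : Str h₃ ×ˢ ball 0 ε' ⊆ NE θ H V := by
    rintro ⟨x, e⟩ ⟨hx, he⟩
    exact (key x hx e (by simpa using he)).1
  refine ⟨ε', C, hε'0, by have : ε' ≤ h - h₃ := min_le_right _ _
                          linarith, ⟨L.kk_diff.mono hsub, fun x hx e he => (key x hx e he).2⟩, hsub⟩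

end

/-! ### from labels to lines -/

lemma LZ.A0_diag {V : Set ℂ} {θ H : ℂ → ℂ} (L : LZ V θ H) {x : ℂ} (hx : x ∈ V) :
    A0 θ H (x, x) = 2 * Complex.I * H x := by
  unfold A0
  rw [D2_diag, D2_diag, L.GG_deriv 1 hx, L.GG_deriv (-1) hx]
  unfold GG
  simp only
  have h1 := L.rel x hx
  have hI := Complex.I_sq
  have e : Complex.exp (1 * (Complex.I * θ x)) * Complex.exp (-1 * (Complex.I * θ x)) = 1 := by
    rw [← Complex.exp_add]
    rw [show 1 * (Complex.I * θ x) + -1 * (Complex.I * θ x) = 0 by ring, Complex.exp_zero]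
  set a := Complex.exp (1 * (Complex.I * θ x)) with ha
  set c := Complex.exp (-1 * (Complex.I * θ x)) with hc
  set y := deriv θ x
  set y' := deriv (deriv θ) x
  set K := H x
  set K' := deriv H x
  set K'' := deriv (deriv H) x
  linear_combination (-(2 * Complex.I * K)) * h1 + (2 * Complex.I * K -
    2 * Complex.I * K * (y * K'' - y' * K' + y ^ 3 * K + 1)) * e +
    (2 * Complex.I * y ^ 3 * K ^ 2 * a * c) * hI

lemma LZ.Pch_diag {V : Set ℂ} {θ H : ℂ → ℂ} (L : LZ V θ H) {x : ℂ} (hx : x ∈ V) :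
    Pch θ H (x, x) = H x := by
  unfold Pch
  rw [L.A0_diag hx, L.As_diag (by norm_num) hx, L.Phi_diag hx]
  have e : Complex.exp (-(Complex.I * θ x)) = Complex.exp (-1 * (Complex.I * θ x)) := by
    congr 1; ring
  rw [e]
  have h1 := Complex.exp_ne_zero (-1 * (Complex.I * θ x))
  have h2 := Complex.I_ne_zero
  field_simp

/-- labels on `K₂` with good pairs -/
structure Pre (V : Set ℂ) (θ H : ℂ → ℂ) (K₂ : Set ℂ) (r B : ℝ) (X : ℂ × ℂ → ℂ) : Prop where
  lz : LZ V θ H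
  op : IsOpen K₂
  lf : LeafOn (kk θ H) K₂ r B X
  mem : ∀ t ∈ K₂, ∀ w : ℂ, ‖w‖ < r → X (t, w) ∈ V
  pair : ∀ s ∈ K₂, ∀ t ∈ K₂, ∀ w : ℂ, ‖w‖ < r → ‖t - s‖ = ‖w‖ → (X (s, w), X (t, w)) ∈ ND θ H V

/-- direction of the line -/
def phX (θ H : ℂ → ℂ) (X : ℂ × ℂ → ℂ) (x : ℂ × ℂ) : ℂ :=
  Phi θ H (X (x.1 - x.2 / 2, x.2), X (x.1 + x.2 / 2, x.2))

/-- support function of the line -/
def pX (θ H : ℂ → ℂ) (X : ℂ × ℂ → ℂ) (x : ℂ × ℂ) : ℂ :=
  Pch θ H (X (x.1 - x.2 / 2, x.2), X (x.1 + x.2 / 2, x.2))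

/-- domain of the lines -/
def PK (K₂ : Set ℂ) (r : ℝ) : Set (ℂ × ℂ) :=
  {x | x.2 ∈ ball (0 : ℂ) r ∧ x.1 - x.2 / 2 ∈ K₂ ∧ x.1 + x.2 / 2 ∈ K₂}

section
variable {V : Set ℂ} {θ H : ℂ → ℂ} {K₂ : Set ℂ} {X : ℂ × ℂ → ℂ} (P : Pre V θ H K₂ r B X)

include P


lemma Pre.memND {x : ℂ × ℂ} (hx : x ∈ PK K₂ r) :
    (X (x.1 - x.2 / 2, x.2), X (x.1 + x.2 / 2, x.2)) ∈ ND θ H V :=
  P.pair _ hx.2.1 _ hx.2.2 x.2 (by simpa using hx.1) (by congr 1; ring)

lemma Pre.pairs_diff : DifferentiableOn ℂ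
    (fun x : ℂ × ℂ => (X (x.1 - x.2 / 2, x.2), X (x.1 + x.2 / 2, x.2))) (PK K₂ r) := by
  refine DifferentiableOn.prodMk ?_ ?_
  · exact P.lf.diff.comp (by fun_prop : DifferentiableOn ℂ
      (fun x : ℂ × ℂ => ((x.1 - x.2 / 2, x.2) : ℂ × ℂ)) _) (fun x hx => ⟨hx.2.1, hx.1⟩)
  · exact P.lf.diff.comp (by fun_prop : DifferentiableOn ℂ
      (fun x : ℂ × ℂ => ((x.1 + x.2 / 2, x.2) : ℂ × ℂ)) _) (fun x hx => ⟨hx.2.2, hx.1⟩)

lemma Pre.ph_diff : DifferentiableOn ℂ (phX θ H X) (PK K₂ r) :=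
  P.lz.Phi_diff.comp P.pairs_diff (fun _ hx => (P.memND hx).1)

lemma Pre.p_diff : DifferentiableOn ℂ (pX θ H X) (PK K₂ r) :=
  P.lz.Pch_diff.comp P.pairs_diff (fun _ hx => (P.memND hx).1)

lemma Pre.X_zero (hr : 0 < r) {t : ℂ} (ht : t ∈ K₂) : X (t, 0) = t := by
  have n1 := P.lf.near t ht 0 (by simpa using hr)
  have : ‖X (t, 0) - t‖ ≤ 0 := by simpa using n1
  exact sub_eq_zero.1 (norm_le_zero_iff.1 this)

end

/-- **construction of the family of lines** from labels on `K₂`, by identity from a seed `G` -/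
theorem build {V : Set ℂ} {θ H : ℂ → ℂ} {K₂ K G : Set ℂ} {r₂ : ℝ} {X : ℂ × ℂ → ℂ}
    (P : Pre V θ H K₂ r₂ B X) (hr : 0 < r) (hr2 : r ≤ r₂) (hK₂ : Convex ℝ K₂) (hK : IsOpen K)
    (hKc : Convex ℝ K) (hKV : K ⊆ V)
    (hKK : ∀ t ∈ K, ∀ w : ℂ, ‖w‖ < r → t - w / 2 ∈ K₂ ∧ t ∈ K₂ ∧ t + w / 2 ∈ K₂)
    (hG : IsOpen G) (hGne : G.Nonempty)
    (hGK : ∀ t ∈ G, t ∈ K ∧ ∀ w : ℂ, ‖w‖ < r → t - w / 2 ∈ K ∧ t + w / 2 ∈ K)
    (s_even : ∀ t ∈ G, ∀ w : ℂ, ‖w‖ < r → X (t, -w) = X (t, w))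
    (s_refl : ∀ t ∈ G, ∀ w : ℂ, ‖w‖ < r →
      phX θ H X (t - w / 2, w) + phX θ H X (t + w / 2, w) = 2 * θ (X (t, w)))
    (s_area : ∀ t ∈ G, ∀ w : ℂ, ‖w‖ < r →
      q1 (phX θ H X) (t, w) * q2 (pX θ H X) (t, w) -
        q2 (phX θ H X) (t, w) * q1 (pX θ H X) (t, w) = w / 4 * m₀ w) :
    LineFamS θ H K r B X (phX θ H X) (pX θ H X) m₀ := by
  obtain ⟨t₀, ht₀⟩ := hGne
  have hr₂ : 0 < r₂ := hr.trans_le hr2
  have hKsub : K ⊆ K₂ := fun t ht => (hKK t ht 0 (by simpa using hr)).2.1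
  have hPK : K ×ˢ ball (0 : ℂ) r ⊆ PK K₂ r₂ := by
    rintro ⟨t, w⟩ ⟨ht, hw⟩
    have hw' : ‖w‖ < r := by simpa using hw
    exact ⟨ball_subset_ball hr2 hw, (hKK t ht w hw').1, (hKK t ht w hw').2.2⟩
  have hlf := P.lf.mono hKsub hr2 le_rfl
  -- evenness on all of `K₂`
  have heven : ∀ t ∈ K₂, ∀ w : ℂ, ‖w‖ < r → X (t, -w) = X (t, w) := by
    intro t ht w hw
    have hw' : ‖w‖ < r₂ := hw.trans_le hr2
    refine eq_of_eq_open (f := fun t => X (t, -w)) (g := fun t => X (t, w)) P.op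
      hK₂.isPreconnected (slice_t P.lf.diff (by rwa [norm_neg])) (slice_t P.lf.diff hw') hG
      (hKsub (hGK t₀ ht₀).1) ht₀ ?_ t ht
    intro z _ hz
    exact s_even z hz w hw
  refine ⟨hlf.diff, hlf.near, fun t ht w hw => heven t (hKsub ht) w hw, P.ph_diff.mono hPK,
    P.p_diff.mono hPK, ?_, ?_, ?_, ?_, ?_, ?_, ?_, ?_⟩
  · intro t ht
    unfold phX
    simp only [zero_div, sub_zero, add_zero]
    rw [P.X_zero hr₂ (hKsub ht), P.lz.Phi_diag (hKV ht)]
  · intro t ht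
    unfold pX
    simp only [zero_div, sub_zero, add_zero]
    rw [P.X_zero hr₂ (hKsub ht), P.lz.Pch_diag (hKV ht)]
  · intro t ht w hw
    obtain ⟨a1, -, a3⟩ := hKK t ht w hw
    unfold phX
    simp only
    rw [show t - -w / 2 = t + w / 2 by ring, show t + -w / 2 = t - w / 2 by ring,
      heven _ a1 w hw, heven _ a3 w hw]
    exact Phi_swap _ _
  · intro t ht w hw
    obtain ⟨a1, -, a3⟩ := hKK t ht w hw
    unfold pX
    simp only
    rw [show t - -w / 2 = t + w / 2 by ring, show t + -w / 2 = t - w / 2 by ring,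
      heven _ a1 w hw, heven _ a3 w hw]
    exact Pch_swap _ _
  · intro t w hw ht _
    have := P.memND (x := (t, w)) (hPK ⟨ht, by simpa using hw⟩)
    exact inc_snd this.1.2.1 this.1.2.2
  · intro t w hw ht _
    have := P.memND (x := (t, w)) (hPK ⟨ht, by simpa using hw⟩)
    exact inc_fst this.1.2.1 this.1.2.2
  · intro t w hw ht h1 h2
    have hwr : w ∈ ball (0 : ℂ) r := by simpa using hw
    set T : Set ℂ := {t | t - w / 2 ∈ K ∧ t ∈ K ∧ t + w / 2 ∈ K} with hT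
    have hTo : IsOpen T := (hK.preimage (by fun_prop)).inter (hK.inter (hK.preimage (by fun_prop)))
    have hTc : Convex ℝ T := by
      intro x hx y hy a c ha hc hac
      refine ⟨?_, hKc hx.2.1 hy.2.1 ha hc hac, ?_⟩
      · have := hKc hx.1 hy.1 ha hc hac
        convert this using 1
        have e : (a : ℂ) + c = 1 := by exact_mod_cast hac
        simp only [Complex.real_smul]
        linear_combination (w / 2) * e
      · have := hKc hx.2.2 hy.2.2 ha hc hac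
        convert this using 1
        have e : (a : ℂ) + c = 1 := by exact_mod_cast hac
        simp only [Complex.real_smul]
        linear_combination (-(w / 2)) * e
    have d1 : DifferentiableOn ℂ (fun t => phX θ H X (t - w / 2, w)) T :=
      (P.ph_diff.mono hPK).comp (by fun_prop : DifferentiableOn ℂ
        (fun t : ℂ => ((t - w / 2, w) : ℂ × ℂ)) _) (fun t ht => ⟨ht.1, hwr⟩)
    have d2 : DifferentiableOn ℂ (fun t => phX θ H X (t + w / 2, w)) T :=
      (P.ph_diff.mono hPK).comp (by fun_prop : DifferentiableOn ℂ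
        (fun t : ℂ => ((t + w / 2, w) : ℂ × ℂ)) _) (fun t ht => ⟨ht.2.2, hwr⟩)
    have d3 : DifferentiableOn ℂ (fun t => 2 * θ (X (t, w))) T := by
      refine DifferentiableOn.const_mul ?_ 2
      refine P.lz.dθ.comp ((slice_t hlf.diff hw).mono (fun t ht => ht.2.1)) ?_
      intro s hs
      exact P.mem s (hKsub hs.2.1) w (hw.trans_le hr2)
    refine eq_of_eq_open (D := T) (G := G) hTo hTc.isPreconnected (d1.add d2) d3 hG
      ⟨((hGK t₀ ht₀).2 w hw).1, (hGK t₀ ht₀).1, ((hGK t₀ ht₀).2 w hw).2⟩ ht₀ ?_ t ⟨h1, ht, h2⟩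
    intro z _ hz
    exact s_refl z hz w hw
  · intro t ht w hw
    have hwr : w ∈ ball (0 : ℂ) r := by simpa using hw
    have ho : IsOpen (K ×ˢ ball (0 : ℂ) r) := hK.prod isOpen_ball
    have a1 := R266.SCV.analyticOnNhd_of_differentiableOn ho (P.ph_diff.mono hPK)
    have a2 := R266.SCV.analyticOnNhd_of_differentiableOn ho (P.p_diff.mono hPK)
    have c1 := (ana_q1 a1).differentiableOn
    have c2 := (ana_q2 a1).differentiableOn
    have c3 := (ana_q1 a2).differentiableOn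
    have c4 := (ana_q2 a2).differentiableOn
    have sl : ∀ {f : ℂ × ℂ → ℂ}, DifferentiableOn ℂ f (K ×ˢ ball (0 : ℂ) r) →
        DifferentiableOn ℂ (fun t => f (t, w)) K := fun hf => slice_t hf hw
    refine eq_of_eq_open (f := fun t => q1 (phX θ H X) (t, w) * q2 (pX θ H X) (t, w) -
        q2 (phX θ H X) (t, w) * q1 (pX θ H X) (t, w)) (g := fun _ => w / 4 * m₀ w) hK
      hKc.isPreconnected (((sl c1).mul (sl c4)).sub ((sl c2).mul (sl c3)))
      (differentiableOn_const _) hG (hGK t₀ ht₀).1 ht₀ ?_ t ht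
    intro z _ hz
    exact s_area z hz w hw

end Crest.Agent.R102.C1
end
end

-- ▼ part R102/C1K_821

/-!
Row 102, part (C), C1: **`extS : ExtS`**.
-/

set_option autoImplicit false
set_option linter.unusedSectionVars false

open Set Filter Topology Metric
open scoped ComplexConjugate

noncomputable section

namespace Crest.Agent.R102.C1

open Crest.Agent.R102.C0 Crest.Agent.R102.T5 Crest.Agent.R102.A929 Crest.Agent.R102.B821
open Crest.Agent.R102.M948

variable {q : C(ℂ, ℂ)} {η ρ r B : ℝ} {b φ p : ℂ × ℂ → ℂ} {m₀ : ℂ → ℂ}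
variable {V : Set ℂ} {θ H : ℂ → ℂ} {h : ℝ}

lemma half_im {t w : ℂ} {a d : ℝ} (ht : |t.im| < a) (hw : ‖w‖ ≤ 2 * d) :
    |(t - w / 2).im| < a + d ∧ |(t + w / 2).im| < a + d := by
  have h1 : |(w / 2).im| ≤ d := by
    refine (Complex.abs_im_le_norm _).trans ?_
    rw [norm_div]
    have : ‖(2 : ℂ)‖ = 2 := by norm_num
    rw [this]
    linarith
  constructor
  · rw [Complex.sub_im]
    have := abs_sub t.im (w / 2).im
    linarith
  · rw [Complex.add_im]
    have := abs_add_le t.im (w / 2).im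
    linarith

/-- labels on a big strip -/
theorem strip_pre (F : LineFam q η ρ r B b φ p m₀) (E : VExt q η V θ H) (hV : Str h ⊆ V)
    (hη : η ≤ h) {h₂ : ℝ} (h1 : ρ < h₂) (h2 : h₂ < h) :
    ∃ (r₂ B₂ : ℝ) (X : ℂ × ℂ → ℂ), 0 < r₂ ∧ r₂ ≤ r ∧ 4 * r₂ ≤ ρ ∧ 0 ≤ B₂ ∧
      Pre V θ H (Str h₂) r₂ B₂ X ∧ (∀ t ∈ Str ρ, ∀ w : ℂ, ‖w‖ < r₂ → X (t, w) = b (t, w)) ∧
      ∀ t w : ℂ, |t.im| < ρ → |(t - w / 2).im| < ρ → |(t + w / 2).im| < ρ → ‖w‖ < r₂ →
        φ (t, w) = phX θ H b (t, w) ∧ p (t, w) = pX θ H b (t, w) := by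
  have D := F.dat
  have hρ := F.ρ_pos
  have hB := LineFam.B_nn F
  obtain ⟨ε₀, ρq, Cq, S, -⟩ := exists_both D (ρ₀ := (2 * ρ + η) / 2) (by linarith [D.η_pos])
    (by linarith [F.ρ_lt])
  have hρ₀ : 2 * ρ ≤ (2 * ρ + η) / 2 := by linarith [F.ρ_lt]
  obtain ⟨r₀, hr₀, hR⟩ := exists_Rs F.r_pos hρ hB S.ε_pos
  have R := hR r₀ hr₀ le_rfl
  have L0 := leafOn_b F S hρ₀ R E
  have hh₂ : 0 < h₂ := hρ.trans h1
  obtain ⟨ε, C, hε, hε', hk, hN⟩ := strip_KMap D E hV hη (h₃ := (h₂ + h) / 2) (by linarith)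
    (by linarith)
  obtain ⟨r₁, B₁, X, a1, a2, a3, a4⟩ := strip_grow hρ (h₂ := h₂) (by linarith) hε hr₀ hk L0
  set B₂ := |B₁| with hB₂
  have hB₂0 : 0 ≤ B₂ := abs_nonneg _
  set r₂ := min r₁ (min 1 (min (ε / (2 * B₂ + 1)) ((h - h₂) / 2 / (B₂ + 1)))) with hr₂
  have hhh : 0 < (h - h₂) / 2 := by linarith
  have c0 : 0 < r₂ := lt_min a1 (lt_min one_pos (lt_min (by positivity) (by positivity)))
  have c1 : r₂ ≤ r₁ := min_le_left _ _
  have c2 : r₂ ≤ 1 := (min_le_right _ _).trans (min_le_left _ _)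
  have c3 : r₂ ≤ ε / (2 * B₂ + 1) := (min_le_right _ _).trans ((min_le_right _ _).trans
    (min_le_left _ _))
  have c4 : r₂ ≤ (h - h₂) / 2 / (B₂ + 1) := (min_le_right _ _).trans ((min_le_right _ _).trans
    (min_le_right _ _))
  rw [le_div_iff₀ (by positivity)] at c3 c4
  have hsq : B₂ * r₂ ^ 2 ≤ B₂ * r₂ := by
    rw [pow_two]
    exact mul_le_mul_of_nonneg_left (mul_le_of_le_one_left c0.le c2) hB₂0
  have c5 : r₂ + 2 * B₂ * r₂ ^ 2 ≤ ε := by nlinarith
  have c6 : B₂ * r₂ ^ 2 < (h - h₂) / 2 := by nlinarith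
  have hlf : LeafOn (kk θ H) (Str h₂) r₂ B₂ X := a3.mono le_rfl c1 (le_abs_self _)
  have hX3 : ∀ t ∈ Str h₂, ∀ w : ℂ, ‖w‖ < r₂ → X (t, w) ∈ Str ((h₂ + h) / 2) := by
    intro t ht w hw
    have n1 := hlf.near t ht w hw
    have n2 : B₂ * ‖w‖ ^ 2 ≤ B₂ * r₂ ^ 2 := by gcongr
    have n3 := Complex.abs_im_le_norm (X (t, w) - t)
    rw [mem_Str] at ht ⊢
    have n4 : |(X (t, w)).im| ≤ |t.im| + |(X (t, w) - t).im| := by
      have := abs_add_le t.im (X (t, w) - t).im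
      rwa [Complex.sub_im, add_sub_cancel] at this
    linarith
  refine ⟨r₂, B₂, X, c0, c1.trans (a2.trans R.le), by linarith [R.ρ4, c1.trans a2], hB₂0,
    ⟨LZ_of_VExt D E, isOpen_Str _, hlf, ?_, ?_⟩, fun t ht w hw => a4 t ht w (hw.trans_le c1), ?_⟩
  · intro t ht w hw
    exact hV (Str_mono (by linarith) (hX3 t ht w hw))
  · intro s hs t ht w hw hts
    have h5 : (X (s, w), X (t, w) - X (s, w)) ∈ NE θ H V := by
      refine hN ⟨hX3 s hs w hw, ?_⟩
      rw [mem_ball, dist_zero_right]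
      exact (near_two hB₂0 hlf.near ht hs hw hts).trans_le c5
    have h6 : (X (s, w), X (s, w) + (X (t, w) - X (s, w))) ∈ ND θ H V := h5
    rwa [add_sub_cancel] at h6
  · intro t w ht hm hp hw
    exact chord_eq' F S hρ₀ R E ht hm hp (hw.trans_le (c1.trans a2))

/-- the seeds on `Str (ρ / 2)` -/
theorem seeds (F : LineFam q η ρ r B b φ p m₀) (E : VExt q η V θ H) {h₂ r₂ B₂ : ℝ}
    {X : ℂ × ℂ → ℂ} (hr₂ : 0 < r₂) (hr : r₂ ≤ r) (h4 : 4 * r₂ ≤ ρ)
    (hXb : ∀ t ∈ Str ρ, ∀ w : ℂ, ‖w‖ < r₂ → X (t, w) = b (t, w))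
    (hφ : ∀ t w : ℂ, |t.im| < ρ → |(t - w / 2).im| < ρ → |(t + w / 2).im| < ρ → ‖w‖ < r₂ →
        φ (t, w) = phX θ H b (t, w) ∧ p (t, w) = pX θ H b (t, w)) :
    (∀ t ∈ Str (3 / 4 * ρ), ∀ w : ℂ, ‖w‖ < r₂ → phX θ H X (t, w) = φ (t, w) ∧
      pX θ H X (t, w) = p (t, w)) ∧
    (∀ t ∈ Str (ρ / 2), ∀ w : ℂ, ‖w‖ < r₂ → X (t, -w) = X (t, w)) ∧
    (∀ t ∈ Str (ρ / 2), ∀ w : ℂ, ‖w‖ < r₂ →
      phX θ H X (t - w / 2, w) + phX θ H X (t + w / 2, w) = 2 * θ (X (t, w))) ∧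
    (∀ t ∈ Str (ρ / 2), ∀ w : ℂ, ‖w‖ < r₂ →
      q1 (phX θ H X) (t, w) * q2 (pX θ H X) (t, w) -
        q2 (phX θ H X) (t, w) * q1 (pX θ H X) (t, w) = w / 4 * m₀ w) := by
  have D := F.dat
  have hρ := F.ρ_pos
  have hPD : ∀ t w : ℂ, |t.im| < ρ → ‖w‖ < r₂ → (t, w) ∈ PD ρ r := fun t w ht hw =>
    ⟨ht, hw.trans_le hr⟩
  have s0 : ∀ t ∈ Str (3 / 4 * ρ), ∀ w : ℂ, ‖w‖ < r₂ → phX θ H X (t, w) = φ (t, w) ∧
      pX θ H X (t, w) = p (t, w) := by
    intro t ht w hw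
    obtain ⟨e1, e2⟩ := half_im (t := t) (w := w) (a := 3 / 4 * ρ) (d := ρ / 8) (mem_Str.1 ht)
      (by linarith)
    have f1 : |(t - w / 2).im| < ρ := by linarith
    have f2 : |(t + w / 2).im| < ρ := by linarith
    obtain ⟨g1, g2⟩ := hφ t w (by linarith [mem_Str.1 ht]) f1 f2 hw
    rw [g1, g2]
    unfold phX pX
    simp only
    rw [hXb (t - w / 2) f1 w hw, hXb (t + w / 2) f2 w hw]
    exact ⟨rfl, rfl⟩
  refine ⟨s0, ?_, ?_, ?_⟩
  · intro t ht w hw
    rw [mem_Str] at ht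
    have ht' : |t.im| < ρ := by linarith
    rw [hXb t ht' (-w) (by rwa [norm_neg]), hXb t ht' w hw]
    exact F.b_even t w (hPD t w ht' hw)
  · intro t ht w hw
    rw [mem_Str] at ht
    have ht' : |t.im| < ρ := by linarith
    obtain ⟨e1, e2⟩ := half_im (d := ρ / 8) ht (w := w) (by linarith)
    rw [(s0 (t - w / 2) (by rw [mem_Str]; linarith) w hw).1,
      (s0 (t + w / 2) (by rw [mem_Str]; linarith) w hw).1, hXb t ht' w hw,
      F.refl t w (hPD t w ht' hw) (hPD _ w (by linarith) hw) (hPD _ w (by linarith) hw)]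
    have hb : |(b (t, w)).im| < η := (F.b_mem _ (hPD t w ht' hw)).trans F.ρ_lt
    rw [E.θ_eq _ hb]
  · intro t ht w hw
    rw [mem_Str] at ht
    have ht' : |t.im| < ρ := by linarith
    have hopen : IsOpen (Str (3 / 4 * ρ) ×ˢ ball (0 : ℂ) r₂) := (isOpen_Str _).prod isOpen_ball
    have hmem : ((t, w) : ℂ × ℂ) ∈ Str (3 / 4 * ρ) ×ˢ ball (0 : ℂ) r₂ :=
      ⟨by rw [mem_Str]; linarith, by simpa using hw⟩
    have e1 : phX θ H X =ᶠ[𝓝 (t, w)] φ := by
      filter_upwards [hopen.mem_nhds hmem] with x hx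
      exact (s0 x.1 hx.1 x.2 (by simpa using hx.2)).1
    have e2 : pX θ H X =ᶠ[𝓝 (t, w)] p := by
      filter_upwards [hopen.mem_nhds hmem] with x hx
      exact (s0 x.1 hx.1 x.2 (by simpa using hx.2)).2
    have a := F.area t w (hPD t w ht' hw)
    unfold B821.q1 B821.q2 at a ⊢
    rw [e1.fderiv_eq, e2.fderiv_eq]
    exact a

lemma conj_slice {K : Set ℂ} {r : ℝ} {f : ℂ × ℂ → ℂ} (hK : ∀ t, t ∈ K → conj t ∈ K)
    (hKo : IsOpen K) (hf : DifferentiableOn ℂ f (K ×ˢ ball 0 r)) {w : ℂ} (hw : ‖w‖ < r) :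
    DifferentiableOn ℂ (fun t => conj (f (conj t, conj w))) K := by
  intro t ht
  have h1 : DifferentiableAt ℂ (fun s => f (s, conj w)) (conj t) :=
    (slice_t hf (by rwa [RCLike.norm_conj])).differentiableAt (hKo.mem_nhds (hK t ht))
  have h2 := h1.conj_conj
  rw [Complex.conj_conj] at h2
  exact h2.differentiableWithinAt

/-- **(EXT)** -/
theorem extS : ExtS := by
  intro q η ρ r B b φ p m₀ F θ H V h₀ h' E hV₀ h1 h2₀
  have D := F.dat
  have hρ := F.ρ_pos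
  -- enlarge `h`
  set h := max h₀ η with hh
  have hV : Str h ⊆ V := by
    rcases max_cases h₀ η with ⟨e, -⟩ | ⟨e, -⟩
    · rw [hh, e]; exact hV₀
    · rw [hh, e]; exact E.sub
  have hη : η ≤ h := le_max_right _ _
  have h2 : h' < h := h2₀.trans_le (le_max_left _ _)
  obtain ⟨r₂, B₂, X, a0, a1, a2, hB₂, P, a4, a5⟩ := strip_pre F E hV hη (h₂ := (h' + h) / 2)
    (by linarith) (by linarith)
  obtain ⟨s0, s1, s2, s3⟩ := seeds F E (h₂ := (h' + h) / 2) (B₂ := B₂) a0 a1 a2 a4 a5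
  set r' := min r₂ ((h - h') / 2) with hr'
  have r0 : 0 < r' := lt_min a0 (by linarith)
  have r1 : r' ≤ r₂ := min_le_left _ _
  have r2 : r' ≤ (h - h') / 2 := min_le_right _ _
  have hh' : 0 < h' := hρ.trans h1
  have hG0 : (0 : ℂ) ∈ Str (ρ / 2) := by rw [mem_Str]; simpa using hρ
  have hsub : Str (ρ / 2) ⊆ Str h' := Str_mono (by linarith)
  have hLF : LineFamS θ H (Str h') r' B₂ X (phX θ H X) (pX θ H X) m₀ := by
    refine build P r0 r1 (convex_Str _) (isOpen_Str _) (convex_Str _)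
      ((Str_mono h2.le).trans hV) ?_ (isOpen_Str (ρ / 2)) ⟨0, hG0⟩ ?_
      (fun t ht w hw => s1 t ht w (hw.trans_le r1)) (fun t ht w hw => s2 t ht w (hw.trans_le r1))
      (fun t ht w hw => s3 t ht w (hw.trans_le r1))
    · intro t ht w hw
      obtain ⟨e1, e2⟩ := half_im (d := (h - h') / 4) (mem_Str.1 ht) (w := w) (by linarith)
      refine ⟨?_, ?_, ?_⟩
      · rw [mem_Str]; linarith
      · exact Str_mono (by linarith) ht
      · rw [mem_Str]; linarith
    · intro t ht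
      refine ⟨hsub ht, fun w hw => ?_⟩
      obtain ⟨e1, e2⟩ := half_im (d := ρ / 8) (mem_Str.1 ht) (w := w) (by linarith)
      exact ⟨by rw [mem_Str]; linarith, by rw [mem_Str]; linarith⟩
  refine ⟨r', B₂, X, phX θ H X, pX θ H X, r0, r1.trans a1, hLF, ?_, ?_, ?_⟩
  · rintro t w ⟨ht, hw⟩
    simp only at ht hw
    have hwr : ‖w‖ < r := hw.trans_le (r1.trans a1)
    have hPDs : (Str ρ) ×ˢ ball (0 : ℂ) r ⊆ PD ρ r := by
      rintro ⟨t, w⟩ ⟨ht, hw⟩
      exact ⟨ht, by simpa using hw⟩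
    have hsρ : Str ρ ⊆ Str h' := Str_mono h1.le
    refine ⟨a4 t ht w (hw.trans_le r1), ?_, ?_⟩
    · refine eq_of_eq_open (f := fun t => phX θ H X (t, w)) (g := fun t => φ (t, w))
        (isOpen_Str ρ) (convex_Str ρ).isPreconnected ((slice_t hLF.φ_diff hw).mono hsρ)
        (slice_t (F.φ_diff.mono hPDs) hwr) (isOpen_Str (3 / 4 * ρ))
        (Str_mono (by linarith) hG0) (Str_mono (by linarith) hG0) ?_ t ht
      intro z _ hz
      exact (s0 z hz w (hw.trans_le r1)).1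
    · refine eq_of_eq_open (f := fun t => pX θ H X (t, w)) (g := fun t => p (t, w))
        (isOpen_Str ρ) (convex_Str ρ).isPreconnected ((slice_t hLF.p_diff hw).mono hsρ)
        (slice_t (F.p_diff.mono hPDs) hwr) (isOpen_Str (3 / 4 * ρ))
        (Str_mono (by linarith) hG0) (Str_mono (by linarith) hG0) ?_ t ht
      intro z _ hz
      exact (s0 z hz w (hw.trans_le r1)).2
  · rintro t w ⟨ht, hw⟩
    simp only at ht hw
    have hw2 : ‖w‖ < r₂ := hw.trans_le r1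
    have hPD : ∀ z : ℂ, z ∈ Str (ρ / 2) → (z, w) ∈ PD ρ r := fun z hz =>
      ⟨by have := mem_Str.1 hz; show |z.im| < ρ; linarith, hw2.trans_le a1⟩
    have hz1 : ∀ z : ℂ, z ∈ Str (ρ / 2) → z + 1 ∈ Str (ρ / 2) := fun z hz => by
      rw [mem_Str] at hz ⊢; simpa using hz
    have sl : ∀ {f : ℂ × ℂ → ℂ}, DifferentiableOn ℂ f (Str h' ×ˢ ball (0 : ℂ) r') →
        DifferentiableOn ℂ (fun t => f (t, w)) (Str h') := fun hf => slice_t hf hw
    have sl1 : ∀ {f : ℂ × ℂ → ℂ}, DifferentiableOn ℂ f (Str h' ×ˢ ball (0 : ℂ) r') →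
        DifferentiableOn ℂ (fun t => f (t + 1, w)) (Str h') := fun hf =>
      (slice_t hf hw).comp (by fun_prop : DifferentiableOn ℂ (fun t : ℂ => t + 1) _)
        (fun z hz => by rw [mem_Str] at hz ⊢; simpa using hz)
    refine ⟨?_, ?_, ?_⟩
    · refine eq_of_eq_open (f := fun t => X (t + 1, w)) (g := fun t => X (t, w) + 1)
        (isOpen_Str h') (convex_Str h').isPreconnected (sl1 hLF.b_diff) ((sl hLF.b_diff).add_const 1)
        (isOpen_Str (ρ / 2)) (hsub hG0) hG0 ?_ t ht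
      intro z _ hz
      show X (z + 1, w) = X (z, w) + 1
      rw [a4 z (Str_mono (by linarith) hz) w hw2, a4 (z + 1) (Str_mono (by linarith) (hz1 z hz)) w hw2]
      exact F.b_per z w (hPD z hz)
    · refine eq_of_eq_open (f := fun t => phX θ H X (t + 1, w))
        (g := fun t => phX θ H X (t, w) + 2 * Real.pi)
        (isOpen_Str h') (convex_Str h').isPreconnected (sl1 hLF.φ_diff)
        ((sl hLF.φ_diff).add_const _)
        (isOpen_Str (ρ / 2)) (hsub hG0) hG0 ?_ t ht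
      intro z _ hz
      show phX θ H X (z + 1, w) = phX θ H X (z, w) + 2 * Real.pi
      rw [(s0 z (Str_mono (by linarith) hz) w hw2).1,
        (s0 (z + 1) (Str_mono (by linarith) (hz1 z hz)) w hw2).1]
      exact F.φ_per z w (hPD z hz)
    · refine eq_of_eq_open (f := fun t => pX θ H X (t + 1, w)) (g := fun t => pX θ H X (t, w))
        (isOpen_Str h') (convex_Str h').isPreconnected (sl1 hLF.p_diff) (sl hLF.p_diff)
        (isOpen_Str (ρ / 2)) (hsub hG0) hG0 ?_ t ht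
      intro z _ hz
      show pX θ H X (z + 1, w) = pX θ H X (z, w)
      rw [(s0 z (Str_mono (by linarith) hz) w hw2).2,
        (s0 (z + 1) (Str_mono (by linarith) (hz1 z hz)) w hw2).2]
      exact F.p_per z w (hPD z hz)
  · rintro t w ⟨ht, hw⟩
    simp only at ht hw
    have hw2 : ‖w‖ < r₂ := hw.trans_le r1
    have hcw : ‖conj w‖ < r₂ := by rwa [RCLike.norm_conj]
    have hPD : ∀ z : ℂ, z ∈ Str (ρ / 2) → (z, w) ∈ PD ρ r := fun z hz =>
      ⟨by have := mem_Str.1 hz; show |z.im| < ρ; linarith, hw2.trans_le a1⟩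
    have hcz : ∀ {a : ℝ} (z : ℂ), z ∈ Str a → conj z ∈ Str a := fun z hz => by
      rw [mem_Str] at hz ⊢
      rwa [Complex.conj_im, abs_neg]
    have sl : ∀ {f : ℂ × ℂ → ℂ}, DifferentiableOn ℂ f (Str h' ×ˢ ball (0 : ℂ) r') →
        DifferentiableOn ℂ (fun t => f (t, w)) (Str h') := fun hf => slice_t hf hw
    have key : ∀ (f g : ℂ × ℂ → ℂ), DifferentiableOn ℂ f (Str h' ×ˢ ball (0 : ℂ) r') →
        (∀ z ∈ Str (ρ / 2), f (z, w) = g (z, w)) →
        (∀ z ∈ Str (ρ / 2), f (conj z, conj w) = g (conj z, conj w)) →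
        (∀ z ∈ Str (ρ / 2), g (conj z, conj w) = conj (g (z, w))) →
        f (conj t, conj w) = conj (f (t, w)) := by
      intro f g hf h5 h6 h7
      have h8 := eq_of_eq_open (f := fun t => conj (f (conj t, conj w))) (g := fun t => f (t, w))
        (isOpen_Str h') (convex_Str h').isPreconnected
        (conj_slice (fun t ht => hcz t ht) (isOpen_Str h') hf hw) (sl hf)
        (isOpen_Str (ρ / 2)) (hsub hG0) hG0 (fun z _ hz => by
          show conj (f (conj z, conj w)) = f (z, w)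
          rw [h6 z hz, h7 z hz, Complex.conj_conj, h5 z hz]) t ht
      rw [← h8, Complex.conj_conj]
    refine ⟨?_, ?_, ?_⟩
    · exact key X b hLF.b_diff (fun z hz => a4 z (Str_mono (by linarith) hz) w hw2)
        (fun z hz => a4 (conj z) (Str_mono (by linarith) (hcz z hz)) (conj w) hcw)
        (fun z hz => F.b_conj z w (hPD z hz))
    · exact key (phX θ H X) φ hLF.φ_diff
        (fun z hz => (s0 z (Str_mono (by linarith) hz) w hw2).1)
        (fun z hz => (s0 (conj z) (Str_mono (by linarith) (hcz z hz)) (conj w) hcw).1)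
        (fun z hz => F.φ_conj z w (hPD z hz))
    · exact key (pX θ H X) p hLF.p_diff
        (fun z hz => (s0 z (Str_mono (by linarith) hz) w hw2).2)
        (fun z hz => (s0 (conj z) (Str_mono (by linarith) (hcz z hz)) (conj w) hcw).2)
        (fun z hz => F.p_conj z w (hPD z hz))

end Crest.Agent.R102.C1
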