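import Crest.Agent.R102.Mer_88
import Crest.Agent.R266.SCV
import Mathlib

-- ▼ part R102/LeviM1_88
section

/-!
Row 102, part (C) (helper88): tools for the Levi extension theorem with meromorphic data.

* `reg f` : regularisation of `f`;
* `div_power` : `Q = (t - t1)^m Q1` with `Q1(t1,·)` not identically zero;
* `SliceOK`, `exists_sliceOK`, `meromorphicAt_slice`.
-/

set_option autoImplicit false

open Set Filter Topology Metric

noncomputable section

namespace Crest.Agent.R102.LeviM88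

open Crest.Agent.R102.Mer88

section Reg

variable {E : Type*} [NormedAddCommGroup E] [NormedSpace ℂ E]

/-- `g` coincides near `x` off a thin set with an analytic function -/
def Regular (g : E → ℂ) (x : E) : Prop := ∃ F : E → ℂ, AnalyticAt ℂ F x ∧ Rep g F (fun _ => 1) x

open Classical in
/-- regularisation -/
def reg (g : E → ℂ) (x : E) : ℂ := if h : Regular g x then h.choose x else 0

theorem rep_one_unique {g F F' : E → ℂ} {x : E} (hF : AnalyticAt ℂ F x) (hF' : AnalyticAt ℂ F' x)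
    (h : Rep g F (fun _ => 1) x) (h' : Rep g F' (fun _ => 1) x) : F =ᶠ[𝓝 x] F' := by
  have := Rep.unique hF analyticAt_const hF' analyticAt_const h h'
  filter_upwards [this] with y hy
  linear_combination hy

theorem reg_eq {g F : E → ℂ} {x : E} (hF : AnalyticAt ℂ F x) (h : Rep g F (fun _ => 1) x) :
    reg g =ᶠ[𝓝 x] F := by
  filter_upwards [hF.eventually_analyticAt, h.eventually] with y hy1 hy2
  have hr : Regular g y := ⟨F, hy1, hy2⟩
  unfold reg
  rw [dif_pos hr]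
  exact (rep_one_unique hr.choose_spec.1 hy1 hr.choose_spec.2 hy2).self_of_nhds

theorem Regular.analyticAt {g : E → ℂ} {x : E} (h : Regular g x) : AnalyticAt ℂ (reg g) x := by
  obtain ⟨F, hF, hR⟩ := h
  exact hF.congr (reg_eq hF hR).symm

theorem rep_congr {f P P' Q : E → ℂ} {c : E} (h : Rep f P Q c) (hp : P =ᶠ[𝓝 c] P') :
    Rep f P' Q c := by
  obtain ⟨D, hD, h1⟩ := h
  refine ⟨D, hD, ?_⟩
  filter_upwards [h1, hp] with x hx hx' h0
  rw [← hx', hx h0]

theorem Regular.rep {g : E → ℂ} {x : E} (h : Regular g x) : Rep g (reg g) (fun _ => 1) x := by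
  obtain ⟨F, hF, hR⟩ := h
  exact rep_congr hR (reg_eq hF hR).symm

theorem Regular.eventually {g : E → ℂ} {x : E} (h : Regular g x) : ∀ᶠ y in 𝓝 x, Regular g y := by
  obtain ⟨F, hF, hR⟩ := h
  filter_upwards [hF.eventually_analyticAt, hR.eventually] with y h1 h2
  exact ⟨F, h1, h2⟩

/-- if `Q f = P` off a thin set and `Q x ≠ 0`, then `f` is regular at `x` with value `P x / Q x` -/
theorem regular_of_rep {f P Q : E → ℂ} {x : E} (_hP : AnalyticAt ℂ P x) (hQ : AnalyticAt ℂ Q x)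
    (h : Rep f P Q x) (h0 : Q x ≠ 0) :
    Rep f (fun y => P y / Q y) (fun _ => 1) x := by
  obtain ⟨D, hD, h1⟩ := h
  refine ⟨D, hD, ?_⟩
  filter_upwards [h1, hQ.continuousAt.eventually_ne h0] with y hy hy0 hd
  rw [one_mul, eq_div_iff hy0, mul_comm]
  exact hy hd

theorem reg_of_rep {f P Q : E → ℂ} {x : E} (hP : AnalyticAt ℂ P x) (hQ : AnalyticAt ℂ Q x)
    (h : Rep f P Q x) (h0 : Q x ≠ 0) : reg f =ᶠ[𝓝 x] fun y => P y / Q y :=
  reg_eq (hP.div hQ h0) (regular_of_rep hP hQ h h0)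

theorem Regular.of_rep {f P Q : E → ℂ} {x : E} (hP : AnalyticAt ℂ P x) (hQ : AnalyticAt ℂ Q x)
    (h : Rep f P Q x) (h0 : Q x ≠ 0) : Regular f x :=
  ⟨_, hP.div hQ h0, regular_of_rep hP hQ h h0⟩

theorem Regular.mul_analytic {f a : E → ℂ} {x : E} (ha : AnalyticAt ℂ a x) (h : Regular f x) :
    Regular (fun y => a y * f y) x := by
  obtain ⟨F, hF, D, hD, h1⟩ := h
  refine ⟨fun y => a y * F y, ha.mul hF, D, hD, ?_⟩
  filter_upwards [h1] with y hy h0
  have := hy h0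
  rw [one_mul] at this ⊢
  rw [this]

/-- if `a f` is regular and `a x ≠ 0` then `f` is regular and the regularisations correspond -/
theorem reg_mul {f a : E → ℂ} {x : E} (ha : AnalyticAt ℂ a x) (h0 : a x ≠ 0)
    (h : Regular (fun y => a y * f y) x) :
    Regular f x ∧ reg (fun y => a y * f y) x = a x * reg f x := by
  have h1 : Regular f x := by
    obtain ⟨F, hF, D, hD, h1⟩ := h
    refine ⟨fun y => F y / a y, hF.div ha h0, D, hD, ?_⟩
    filter_upwards [h1, ha.continuousAt.eventually_ne h0] with y hy hy0 hd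
    have := hy hd
    rw [one_mul] at this ⊢
    rw [← this]; field_simp
  refine ⟨h1, ?_⟩
  have h2 : Rep (fun y => a y * f y) (fun y => a y * reg f y) (fun _ => 1) x := by
    obtain ⟨D, hD, h2⟩ := h1.rep
    refine ⟨D, hD, ?_⟩
    filter_upwards [h2] with y hy hd
    have := hy hd
    rw [one_mul] at this ⊢
    rw [this]
  exact (reg_eq (ha.mul h1.analyticAt) h2).self_of_nhds

end Reg

/-! ### division by powers of `t - t1` -/

/-- one step: if `Q(t1,·) = 0` on `V`, then `Q = (t - t1) Q1` on `ball t1 r × V` -/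
theorem div_step {Q : ℂ × ℂ → ℂ} {t1 w1 : ℂ} {r : ℝ}
    (hQ : AnalyticOnNhd ℂ Q (ball t1 r ×ˢ ball w1 r)) (h0 : ∀ w ∈ ball w1 r, Q (t1, w) = 0) :
    ∃ Q1 : ℂ × ℂ → ℂ, AnalyticOnNhd ℂ Q1 (ball t1 r ×ˢ ball w1 r) ∧
      ∀ x ∈ ball t1 r ×ˢ ball w1 r, Q x = (x.1 - t1) * Q1 x := by
  set U : Set (ℂ × ℂ) := ball t1 r ×ˢ ball w1 r with hU
  have hUo : IsOpen U := isOpen_ball.prod isOpen_ball
  set d : ℂ × ℂ → ℂ := fun p => fderiv ℂ Q p (1, 0) with hd
  have hda : AnalyticOnNhd ℂ d U := fun p hp =>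
    (ContinuousLinearMap.apply ℂ ℂ ((1, 0) : ℂ × ℂ)).analyticAt _ |>.comp (hQ p hp).fderiv
  -- the segment stays in `U`
  have hseg : ∀ p ∈ U, ∀ s : ℝ, s ∈ Icc (0 : ℝ) 1 → (t1 + s * (p.1 - t1), p.2) ∈ U := by
    rintro ⟨t, w⟩ ⟨ht, hw⟩ s hs
    refine ⟨?_, hw⟩
    rw [mem_ball, dist_eq_norm] at ht ⊢
    have h1 : t1 + (s : ℂ) * (t - t1) - t1 = (s : ℂ) * (t - t1) := by ring
    show ‖t1 + (s : ℂ) * (t - t1) - t1‖ < r
    rw [h1, norm_mul, Complex.norm_real, Real.norm_eq_abs, abs_of_nonneg hs.1]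
    calc s * ‖t - t1‖ ≤ 1 * ‖t - t1‖ := by gcongr; exact hs.2
      _ < r := by rw [one_mul]; exact ht
  refine ⟨fun p => ∫ s in (0 : ℝ)..1, d (t1 + s * (p.1 - t1), p.2), ?_, ?_⟩
  · refine Crest.Agent.R266.SCV.analyticOnNhd_intervalIntegral
      (f := fun p : (ℂ × ℂ) × ℝ => d (t1 + p.2 * (p.1.1 - t1), p.1.2)) hUo ?_ ?_
    · refine hda.continuousOn.comp (by fun_prop) ?_
      rintro ⟨p, s⟩ ⟨hp, hs⟩
      rw [uIcc_of_le zero_le_one] at hs
      exact hseg p hp s hs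
    · intro s hs
      rw [uIcc_of_le zero_le_one] at hs
      refine hda.differentiableOn.comp (f := fun p : ℂ × ℂ => (t1 + (s : ℂ) * (p.1 - t1), p.2))
        ?_ (fun p hp => hseg p hp s hs)
      exact Differentiable.differentiableOn (by fun_prop)
  · rintro ⟨t, w⟩ hp
    have hp' := hp
    obtain ⟨ht, hw⟩ := hp'
    set γ : ℝ → ℂ := fun s => Q (t1 + s * (t - t1), w) with hγ
    have hder : ∀ s ∈ uIcc (0 : ℝ) 1, HasDerivAt γ ((t - t1) * d (t1 + s * (t - t1), w)) s := by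
      intro s hs
      rw [uIcc_of_le zero_le_one] at hs
      have h1 : HasFDerivAt Q (fderiv ℂ Q (t1 + s * (t - t1), w)) (t1 + s * (t - t1), w) :=
        (hQ _ (hseg (t, w) hp s hs)).differentiableAt.hasFDerivAt
      have h2 : HasDerivAt (fun s : ℝ => ((t1 + s * (t - t1), w) : ℂ × ℂ)) (t - t1, 0) s := by
        have h3 : HasDerivAt (fun s : ℝ => t1 + (s : ℂ) * (t - t1)) (t - t1) s := by
          have := ((Complex.ofRealCLM.hasDerivAt (x := s)).mul_const (t - t1)).const_add t1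
          simpa using this
        exact h3.prodMk (hasDerivAt_const s w)
      have h4 : HasDerivAt γ ((fderiv ℂ Q (t1 + s * (t - t1), w)) (t - t1, 0)) s :=
        HasFDerivAt.comp_hasDerivAt (f := fun s : ℝ => ((t1 + s * (t - t1), w) : ℂ × ℂ)) s
          (h1.restrictScalars ℝ) h2
      have h5 : ((t - t1, 0) : ℂ × ℂ) = (t - t1) • ((1, 0) : ℂ × ℂ) := by simp
      rw [h5, map_smul, smul_eq_mul] at h4
      exact h4
    have hint := intervalIntegral.integral_eq_sub_of_hasDerivAt hder (by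
      refine ContinuousOn.intervalIntegrable ?_
      refine ContinuousOn.mul continuousOn_const ?_
      refine hda.continuousOn.comp (by fun_prop) ?_
      intro s hs
      rw [uIcc_of_le zero_le_one] at hs
      exact hseg (t, w) hp s hs)
    rw [intervalIntegral.integral_const_mul] at hint
    have h6 : γ 1 = Q (t, w) := by simp [hγ]
    have h7 : γ 0 = 0 := by simp [hγ]; exact h0 w hw
    rw [h6, h7, sub_zero] at hint
    exact hint.symm

/-- **division**: `Q = (t - t1)^m Q1`, `Q1(t1, ·)` not identically zero -/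
theorem div_power {t1 w1 : ℂ} {r : ℝ} (hr : 0 < r) (n : ℕ) : ∀ {Q : ℂ × ℂ → ℂ},
    AnalyticOnNhd ℂ Q (ball t1 r ×ˢ ball w1 r) →
    (∃ w ∈ ball w1 r, analyticOrderAt (fun t => Q (t, w)) t1 ≤ n) →
    ∃ (m : ℕ) (Q1 : ℂ × ℂ → ℂ), AnalyticOnNhd ℂ Q1 (ball t1 r ×ˢ ball w1 r) ∧
      (∀ x ∈ ball t1 r ×ˢ ball w1 r, Q x = (x.1 - t1) ^ m * Q1 x) ∧
      ∃ w ∈ ball w1 r, Q1 (t1, w) ≠ 0 := by
  induction n with
  | zero =>
    intro Q hQ ⟨w, hw, hord⟩
    refine ⟨0, Q, hQ, fun x _ => by simp, w, hw, ?_⟩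
    have h1 : analyticOrderAt (fun t => Q (t, w)) t1 = 0 := by simpa using hord
    have h2 : AnalyticAt ℂ (fun t => Q (t, w)) t1 :=
      (hQ (t1, w) ⟨mem_ball_self hr, hw⟩).comp (f := fun t : ℂ => (t, w)) (by fun_prop)
    exact h2.analyticOrderAt_eq_zero.1 h1
  | succ n ih =>
    intro Q hQ ⟨w, hw, hord⟩
    by_cases h : ∃ w ∈ ball w1 r, Q (t1, w) ≠ 0
    · exact ⟨0, Q, hQ, fun x _ => by simp, h⟩
    push Not at h
    obtain ⟨Q1, hQ1, hQQ⟩ := div_step hQ h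
    have h2 : AnalyticAt ℂ (fun t => Q1 (t, w)) t1 :=
      (hQ1 (t1, w) ⟨mem_ball_self hr, hw⟩).comp (f := fun t : ℂ => (t, w)) (by fun_prop)
    have h3 : analyticOrderAt (fun t => Q1 (t, w)) t1 ≤ n := by
      have h4 : (fun t => Q (t, w)) =ᶠ[𝓝 t1] fun t => (t - t1) * Q1 (t, w) := by
        filter_upwards [ball_mem_nhds t1 hr] with t ht
        exact hQQ (t, w) ⟨ht, hw⟩
      have h5 : analyticOrderAt (fun t => Q (t, w)) t1 =
          analyticOrderAt (fun t : ℂ => t - t1) t1 + analyticOrderAt (fun t => Q1 (t, w)) t1 := by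
        rw [analyticOrderAt_congr h4]
        exact analyticOrderAt_mul (by fun_prop) h2
      have h6 : (1 : ℕ∞) ≤ analyticOrderAt (fun t : ℂ => t - t1) t1 := by
        rw [Order.one_le_iff_ne_zero]
        intro h0
        rw [(by fun_prop : AnalyticAt ℂ (fun t : ℂ => t - t1) t1).analyticOrderAt_eq_zero] at h0
        simp at h0
      rw [h5] at hord
      have h7 : (1 : ℕ∞) + analyticOrderAt (fun t => Q1 (t, w)) t1 ≤ (n : ℕ∞) + 1 := by
        refine (add_le_add_left h6 _).trans ?_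
        exact_mod_cast hord
      rw [add_comm] at h7
      exact (ENat.add_le_add_iff_right (by simp)).1 h7
    obtain ⟨m, Q2, hQ2, hQ12, hne⟩ := ih hQ1 ⟨w, hw, h3⟩
    refine ⟨m + 1, Q2, hQ2, fun x hx => ?_, hne⟩
    rw [hQQ x hx, hQ12 x hx]; ring

/-- division without prescribed order -/
theorem exists_div {Q : ℂ × ℂ → ℂ} {t1 w1 : ℂ} {r : ℝ} (hr : 0 < r)
    (hQ : AnalyticOnNhd ℂ Q (ball t1 r ×ˢ ball w1 r))
    (h : ∃ x ∈ ball t1 r ×ˢ ball w1 r, Q x ≠ 0) :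
    ∃ (m : ℕ) (Q1 : ℂ × ℂ → ℂ), AnalyticOnNhd ℂ Q1 (ball t1 r ×ˢ ball w1 r) ∧
      (∀ x ∈ ball t1 r ×ˢ ball w1 r, Q x = (x.1 - t1) ^ m * Q1 x) ∧
      ∃ w ∈ ball w1 r, Q1 (t1, w) ≠ 0 := by
  obtain ⟨⟨t', w'⟩, ⟨ht', hw'⟩, hne⟩ := h
  have h1 : AnalyticOnNhd ℂ (fun t => Q (t, w')) (ball t1 r) := fun t ht =>
    (hQ (t, w') ⟨ht, hw'⟩).comp (f := fun t : ℂ => (t, w')) (by fun_prop)
  have h2 : analyticOrderAt (fun t => Q (t, w')) t1 ≠ ⊤ := by
    rw [Ne, analyticOrderAt_eq_top]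
    intro h3
    have := h1.eqOn_zero_of_preconnected_of_eventuallyEq_zero (convex_ball t1 r).isPreconnected
      (mem_ball_self hr) h3 ht'
    exact hne this
  obtain ⟨n, hn⟩ := ENat.ne_top_iff_exists.1 h2
  exact div_power hr n hQ ⟨w', hw', hn ▸ le_rfl⟩

/-! ### slices -/

/-- for a generic height near `w1`, `Q(t, w) ≠ 0` for all `t ≠ t1` near `t1` -/
theorem punct_ne {Q : ℂ × ℂ → ℂ} {t1 w1 : ℂ} (h : NZ Q (t1, w1)) {r : ℝ} (hr : 0 < r) :
    ∃ w ∈ ball w1 r, ∀ᶠ t in 𝓝[≠] t1, Q (t, w) ≠ 0 := by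
  obtain ⟨s, hs, hQ⟩ := exists_ball_analytic h.1
  set m := min r s with hm
  have hm0 : 0 < m := lt_min hr hs
  obtain ⟨⟨t', w'⟩, hne, hx⟩ := (h.2.and_eventually (ball_mem_nhds (t1, w1) hm0)).exists
  have hx' : ((t', w') : ℂ × ℂ) ∈ ball t1 m ×ˢ ball w1 m := by rw [ball_prod_same]; exact hx
  obtain ⟨ht', hw'⟩ := hx'
  simp only at ht' hw'
  have h1 : AnalyticOnNhd ℂ (fun t => Q (t, w')) (ball t1 m) := fun t ht => by
    have h2 : ((t, w') : ℂ × ℂ) ∈ ball (t1, w1) s := by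
      rw [← ball_prod_same]
      exact ⟨ball_subset_ball (min_le_right _ _) ht, ball_subset_ball (min_le_right _ _) hw'⟩
    exact (hQ _ h2).comp (f := fun t : ℂ => (t, w')) (by fun_prop)
  refine ⟨w', ball_subset_ball (min_le_left _ _) hw', ?_⟩
  rcases (h1 t1 (mem_ball_self hm0)).eventually_eq_zero_or_eventually_ne_zero with h3 | h3
  · exact absurd (h1.eqOn_zero_of_preconnected_of_eventuallyEq_zero (convex_ball t1 m).isPreconnected
      (mem_ball_self hm0) h3 ht') hne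
  · exact h3

/-- the slice of a representation -/
theorem slice_rep {f P Q : ℂ × ℂ → ℂ} {t w : ℂ} (hP : AnalyticAt ℂ P (t, w))
    (hQ : AnalyticAt ℂ Q (t, w)) (hR : Rep f P Q (t, w)) (h : ∃ᶠ z in 𝓝 w, Q (t, z) ≠ 0) :
    (fun z => reg f (t, z)) =ᶠ[𝓝[≠] w] fun z => P (t, z) / Q (t, z) := by
  have hQ1 : AnalyticAt ℂ (fun z => Q (t, z)) w :=
    hQ.comp (f := fun z : ℂ => (t, z)) (by fun_prop)
  have hne : ∀ᶠ z in 𝓝[≠] w, Q (t, z) ≠ 0 := by
    rcases hQ1.eventually_eq_zero_or_eventually_ne_zero with h3 | h3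
    · exact absurd h3 (by rw [not_eventually]; exact h)
    · exact h3
  have hcont : Tendsto (fun z : ℂ => (t, z)) (𝓝 w) (𝓝 (t, w)) :=
    Continuous.tendsto (by fun_prop : Continuous fun z : ℂ => (t, z)) w
  have hev := (hcont.eventually (hP.eventually_analyticAt.and
    (hQ.eventually_analyticAt.and hR.eventually))).filter_mono
      (nhdsWithin_le_nhds (s := {w}ᶜ))
  filter_upwards [hne, hev] with z h1 h2
  exact (reg_of_rep h2.1 h2.2.1 h2.2.2 h1).self_of_nhds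

/-- slices at `t ≠ t1` near `t1` are meromorphic near `w1` -/
theorem slice_local {f : ℂ × ℂ → ℂ} {t1 w1 : ℂ} (hf : MerAt f (t1, w1)) :
    ∃ r > 0, ∀ t ∈ ball t1 r, t ≠ t1 → ∀ w ∈ ball w1 r,
      MeromorphicAt (fun z => reg f (t, z)) w := by
  obtain ⟨P, Q, hP, hQ, hR⟩ := hf
  obtain ⟨r, hr, h1⟩ := Metric.eventually_nhds_iff_ball.1
    (hP.eventually_analyticAt.and (hQ.1.eventually_analyticAt.and hR.eventually))
  obtain ⟨w', hw', hev⟩ := punct_ne hQ hr
  obtain ⟨s, hs, h2⟩ := Metric.eventually_nhds_iff_ball.1 (eventually_nhdsWithin_iff.1 hev)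
  refine ⟨min r s, lt_min hr hs, fun t ht htne w hw => ?_⟩
  have hmem : ∀ z ∈ ball w1 r, ((t, z) : ℂ × ℂ) ∈ ball (t1, w1) r := by
    intro z hz
    rw [← ball_prod_same]
    exact ⟨ball_subset_ball (min_le_left _ _) ht, hz⟩
  have hwr : w ∈ ball w1 r := ball_subset_ball (min_le_left _ _) hw
  have hne : Q (t, w') ≠ 0 := h2 t (ball_subset_ball (min_le_right _ _) ht) htne
  have hQa : AnalyticOnNhd ℂ (fun z => Q (t, z)) (ball w1 r) := fun z hz =>
    (h1 _ (hmem z hz)).2.1.comp (f := fun z : ℂ => (t, z)) (by fun_prop)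
  have hPa : AnalyticAt ℂ (fun z => P (t, z)) w :=
    (h1 _ (hmem w hwr)).1.comp (f := fun z : ℂ => (t, z)) (by fun_prop)
  have hfr : ∃ᶠ z in 𝓝 w, Q (t, z) ≠ 0 := by
    intro hcon
    have h3 : (fun z => Q (t, z)) =ᶠ[𝓝 w] 0 := by
      filter_upwards [hcon] with z hz
      by_contra h4
      exact hz h4
    exact hne (hQa.eqOn_zero_of_preconnected_of_eventuallyEq_zero
      (convex_ball w1 r).isPreconnected hwr h3 hw')
  have h4 := slice_rep (h1 _ (hmem w hwr)).1 (h1 _ (hmem w hwr)).2.1 (h1 _ (hmem w hwr)).2.2 hfr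
  exact (hPa.meromorphicAt.div (hQa w hwr).meromorphicAt).congr h4.symm

theorem slice_compact {f : ℂ × ℂ → ℂ} {t1 : ℂ} {K : Set ℂ} (hK : IsCompact K)
    (hf : ∀ w ∈ K, MerAt f (t1, w)) :
    ∃ r > 0, ∀ t ∈ ball t1 r, t ≠ t1 → ∀ w ∈ K, MeromorphicAt (fun z => reg f (t, z)) w := by
  refine hK.induction_on (p := fun S => ∃ r > 0, ∀ t ∈ ball t1 r, t ≠ t1 → ∀ w ∈ S,
    MeromorphicAt (fun z => reg f (t, z)) w) ⟨1, one_pos, by simp⟩ ?_ ?_ ?_
  · rintro S T hST ⟨r, hr, h⟩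
    exact ⟨r, hr, fun t ht hne w hw => h t ht hne w (hST hw)⟩
  · rintro S T ⟨r, hr, h⟩ ⟨r', hr', h'⟩
    refine ⟨min r r', lt_min hr hr', fun t ht hne w hw => ?_⟩
    rcases hw with hw | hw
    · exact h t (ball_subset_ball (min_le_left _ _) ht) hne w hw
    · exact h' t (ball_subset_ball (min_le_right _ _) ht) hne w hw
  · intro w hw
    obtain ⟨r, hr, h⟩ := slice_local (hf w hw)
    exact ⟨ball w r, mem_nhdsWithin_of_mem_nhds (ball_mem_nhds w hr), r, hr, h⟩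

/-! ### choice of the radius -/

theorem regular_local {f : ℂ × ℂ → ℂ} {t1 w1 : ℂ} (hf : MerAt f (t1, w1)) :
    ∃ m : ℕ, ∃ r > 0, ∀ w ∈ ball w1 r, w ≠ w1 →
      Regular (fun x : ℂ × ℂ => (x.1 - t1) ^ m * f x) (t1, w) := by
  obtain ⟨P, Q, hP, hQ, hR⟩ := hf
  obtain ⟨r, hr, h1⟩ := Metric.eventually_nhds_iff_ball.1
    (hP.eventually_analyticAt.and (hQ.1.eventually_analyticAt.and hR.eventually))
  have hball : ball (t1, w1) r = ball t1 r ×ˢ ball w1 r := (ball_prod_same _ _ _).symm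
  obtain ⟨x0, hx0, hx0'⟩ := (hQ.2.and_eventually (ball_mem_nhds (t1, w1) hr)).exists
  replace hx0' : x0 ∈ ball t1 r ×ˢ ball w1 r := by rw [ball_prod_same]; exact hx0'
  rw [hball] at h1
  obtain ⟨m, Q1, hQ1, hQQ, w', hw', hne⟩ := exists_div (t1 := t1) (w1 := w1) hr
    (fun x hx => (h1 x hx).2.1) ⟨x0, hx0', hx0⟩
  have hQa : AnalyticOnNhd ℂ (fun z => Q1 (t1, z)) (ball w1 r) := fun z hz =>
    (hQ1 (t1, z) ⟨mem_ball_self hr, hz⟩).comp (f := fun z : ℂ => (t1, z)) (by fun_prop)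
  have hev : ∀ᶠ z in 𝓝[≠] w1, Q1 (t1, z) ≠ 0 := by
    rcases (hQa w1 (mem_ball_self hr)).eventually_eq_zero_or_eventually_ne_zero with h3 | h3
    · exact absurd (hQa.eqOn_zero_of_preconnected_of_eventuallyEq_zero
        (convex_ball w1 r).isPreconnected (mem_ball_self hr) h3 hw') hne
    · exact h3
  obtain ⟨s, hs, h2⟩ := Metric.eventually_nhds_iff_ball.1 (eventually_nhdsWithin_iff.1 hev)
  refine ⟨m, min r s, lt_min hr hs, fun w hw hww => ?_⟩
  have hw1 : w ∈ ball w1 r := ball_subset_ball (min_le_left _ _) hw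
  have hx : ((t1, w) : ℂ × ℂ) ∈ ball t1 r ×ˢ ball w1 r := ⟨mem_ball_self hr, hw1⟩
  have h3 : Q1 (t1, w) ≠ 0 := h2 w (ball_subset_ball (min_le_right _ _) hw) hww
  refine Regular.of_rep (P := P) (Q := Q1) (h1 _ hx).1 (hQ1 _ hx) ?_ h3
  obtain ⟨D, hD, h4⟩ := (h1 _ hx).2.2
  refine ⟨D, hD, ?_⟩
  filter_upwards [h4, (isOpen_ball.prod isOpen_ball).mem_nhds hx] with x hx1 hx2 hd
  have h5 := hx1 hd
  rw [hQQ x hx2] at h5
  rw [← h5]; ring

theorem regular_compact {f : ℂ × ℂ → ℂ} {t1 : ℂ} {K : Set ℂ} (hK : IsCompact K)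
    (hf : ∀ w ∈ K, MerAt f (t1, w)) :
    ∃ M : ℕ, ∃ B : Set ℂ, B.Finite ∧ ∀ w ∈ K, w ∉ B →
      Regular (fun x : ℂ × ℂ => (x.1 - t1) ^ M * f x) (t1, w) := by
  have hup : ∀ {m n : ℕ} {w : ℂ}, m ≤ n → Regular (fun x : ℂ × ℂ => (x.1 - t1) ^ m * f x) (t1, w) →
      Regular (fun x : ℂ × ℂ => (x.1 - t1) ^ n * f x) (t1, w) := by
    intro m n w hmn h
    have h1 := h.mul_analytic (a := fun x : ℂ × ℂ => (x.1 - t1) ^ (n - m))
      ((analyticAt_fst.sub analyticAt_const).pow _)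
    have h2 : (fun y : ℂ × ℂ => (y.1 - t1) ^ (n - m) * ((y.1 - t1) ^ m * f y)) =
        fun x : ℂ × ℂ => (x.1 - t1) ^ n * f x := by
      funext y
      rw [← mul_assoc, ← pow_add, Nat.sub_add_cancel hmn]
    rwa [h2] at h1
  refine hK.induction_on (p := fun S => ∃ M : ℕ, ∃ B : Set ℂ, B.Finite ∧ ∀ w ∈ S, w ∉ B →
      Regular (fun x : ℂ × ℂ => (x.1 - t1) ^ M * f x) (t1, w)) ⟨0, ∅, by simp⟩ ?_ ?_ ?_
  · rintro S T hST ⟨M, B, hB, h⟩
    exact ⟨M, B, hB, fun w hw => h w (hST hw)⟩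
  · rintro S T ⟨M, B, hB, h⟩ ⟨M', B', hB', h'⟩
    refine ⟨max M M', B ∪ B', hB.union hB', fun w hw hwB => ?_⟩
    rcases hw with hw | hw
    · exact hup (le_max_left _ _) (h w hw fun hh => hwB (Or.inl hh))
    · exact hup (le_max_right _ _) (h' w hw fun hh => hwB (Or.inr hh))
  · intro w hw
    obtain ⟨m, r, hr, h⟩ := regular_local (hf w hw)
    exact ⟨ball w r, mem_nhdsWithin_of_mem_nhds (ball_mem_nhds w hr), m, {w},
      finite_singleton w, fun z hz hzB => h z hz (by simpa using hzB)⟩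

/-- **choice of the radius** -/
theorem exists_radius {f : ℂ × ℂ → ℂ} {t1 : ℂ} {ρ1 ρ2 : ℝ} (h12 : ρ1 < ρ2)
    (hf : ∀ w : ℂ, ρ1 ≤ ‖w‖ → ‖w‖ ≤ ρ2 → MerAt f (t1, w)) :
    ∃ M : ℕ, ∃ ρ, ρ1 < ρ ∧ ρ < ρ2 ∧ ∀ w : ℂ, ‖w‖ = ρ →
      Regular (fun x : ℂ × ℂ => (x.1 - t1) ^ M * f x) (t1, w) := by
  have hK : IsCompact {w : ℂ | ρ1 ≤ ‖w‖ ∧ ‖w‖ ≤ ρ2} := by
    refine (isCompact_closedBall (0 : ℂ) ρ2).of_isClosed_subset ?_ ?_
    · exact (isClosed_le continuous_const continuous_norm).inter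
        (isClosed_le continuous_norm continuous_const)
    · intro w hw
      rw [mem_closedBall_zero_iff]; exact hw.2
  obtain ⟨M, B, hB, h⟩ := regular_compact hK (fun w hw => hf w hw.1 hw.2)
  obtain ⟨ρ, hρ, hρB⟩ := ((Ioo_infinite h12).sdiff (hB.image (fun w => ‖w‖))).nonempty
  refine ⟨M, ρ, hρ.1, hρ.2, fun w hw => h w ⟨?_, ?_⟩ fun hwB => hρB ⟨w, hwB, hw⟩⟩
  · rw [hw]; exact hρ.1.le
  · rw [hw]; exact hρ.2.le

end Crest.Agent.R102.LeviM88
end
end

-- ▼ part R102/LeviA_314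
section

/-!
Row 102, leaf LEVI (helper314), part A: Cauchy formula on an annulus, moments on circles, circle
integrals depending holomorphically on parameters.
-/

set_option autoImplicit false
set_option linter.unusedVariables false
set_option linter.unusedSectionVars false

open Set Filter Topology Metric MeasureTheory
open scoped Real

noncomputable section

namespace Crest.Agent.R102.L314

/-- open annulus about the origin -/
def Ann (a b : ℝ) : Set ℂ := {z | a < ‖z‖ ∧ ‖z‖ < b}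

lemma isOpen_Ann (a b : ℝ) : IsOpen (Ann a b) :=
  (isOpen_lt continuous_const continuous_norm).inter (isOpen_lt continuous_norm continuous_const)

/-- moments on a circle -/
def mom (f : ℂ → ℂ) (r : ℝ) (n : ℕ) : ℂ := ∮ z in C(0, r), z ^ n * f z

lemma circ_eq {f : ℂ → ℂ} {r1 r2 a b : ℝ} (h1 : r1 < a) (ha : 0 < a) (hab : a ≤ b) (h2 : b < r2)
    (hf : DifferentiableOn ℂ f (Ann r1 r2)) :
    (∮ z in C(0, b), f z) = ∮ z in C(0, a), f z := by
  refine Complex.circleIntegral_eq_of_differentiable_on_annulus_off_countable ha hab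
    (s := ∅) countable_empty ?_ ?_
  · refine hf.continuousOn.mono (fun z hz => ?_)
    simp only [Set.mem_sdiff, mem_closedBall, dist_zero_right, mem_ball, not_lt] at hz
    exact ⟨h1.trans_le hz.2, hz.1.trans_lt h2⟩
  · intro z hz
    simp only [Set.mem_sdiff, mem_closedBall, dist_zero_right, mem_ball, not_le, mem_empty_iff_false,
      not_false_eq_true, and_true] at hz
    exact hf.differentiableAt ((isOpen_Ann r1 r2).mem_nhds ⟨h1.trans hz.2, hz.1.trans h2⟩)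

lemma mom_eq {f : ℂ → ℂ} {r1 r2 a b : ℝ} (h1 : r1 < a) (ha : 0 < a) (hab : a ≤ b) (h2 : b < r2)
    (hf : DifferentiableOn ℂ f (Ann r1 r2)) (n : ℕ) : mom f b n = mom f a n :=
  circ_eq h1 ha hab h2 (DifferentiableOn.mul (by fun_prop) hf)

lemma circleIntegrable_of {f : ℂ → ℂ} {r : ℝ} (hr : 0 < r) (hf : ContinuousOn f (sphere 0 r)) :
    CircleIntegrable f 0 r := hf.circleIntegrable hr.le

lemma integral_inv_outside {r : ℝ} (hr : 0 < r) {w : ℂ} (hw : r < ‖w‖) :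
    (∮ z in C(0, r), (z - w)⁻¹) = 0 := by
  refine Complex.circleIntegral_eq_zero_of_differentiable_on_off_countable hr.le
    (s := ∅) countable_empty ?_ ?_
  · refine ContinuousOn.inv₀ (by fun_prop) (fun z hz => sub_ne_zero.2 ?_)
    rintro rfl
    simp only [mem_closedBall, dist_zero_right] at hz
    linarith
  · intro z hz
    refine DifferentiableAt.inv (by fun_prop) (sub_ne_zero.2 ?_)
    rintro rfl
    simp only [mem_ball, dist_zero_right, Set.mem_sdiff] at hz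
    linarith [hz.1]

/-- Cauchy formula on an annulus -/
theorem cauchy_annulus {f : ℂ → ℂ} {r1 r2 a b : ℝ} (h1 : r1 < a) (ha : 0 < a) (h2 : b < r2)
    (hf : DifferentiableOn ℂ f (Ann r1 r2)) {w : ℂ} (hw1 : a < ‖w‖) (hw2 : ‖w‖ < b) :
    (∮ z in C(0, b), (z - w)⁻¹ * f z) - (∮ z in C(0, a), (z - w)⁻¹ * f z) =
      2 * π * Complex.I * f w := by
  have hwA : w ∈ Ann r1 r2 := ⟨h1.trans hw1, hw2.trans h2⟩
  have hb : 0 < b := ha.trans (hw1.trans hw2)
  have hg : DifferentiableOn ℂ (dslope f w) (Ann r1 r2) :=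
    (Complex.differentiableOn_dslope ((isOpen_Ann r1 r2).mem_nhds hwA)).2 hf
  have key := circ_eq h1 ha (hw1.trans hw2).le h2 hg
  have hcf : ContinuousOn f (Ann r1 r2) := hf.continuousOn
  -- rewriting on a circle avoiding `w`
  have hrw : ∀ r : ℝ, 0 < r → r1 < r → r < r2 → r ≠ ‖w‖ →
      (∮ z in C(0, r), dslope f w z) =
        (∮ z in C(0, r), (z - w)⁻¹ * f z) - f w * (∮ z in C(0, r), (z - w)⁻¹) := by
    intro r hr hr1 hr2 hne
    have hzw : ∀ z ∈ sphere (0 : ℂ) r, z ≠ w := by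
      rintro z hz rfl
      exact hne (by simpa using hz.symm)
    have hsub : sphere (0 : ℂ) r ⊆ Ann r1 r2 := by
      intro z hz
      have : ‖z‖ = r := by simpa using hz
      exact ⟨by rw [this]; exact hr1, by rw [this]; exact hr2⟩
    have hi1 : ContinuousOn (fun z : ℂ => (z - w)⁻¹) (sphere (0 : ℂ) r) :=
      ContinuousOn.inv₀ (by fun_prop) (fun z hz => sub_ne_zero.2 (hzw z hz))
    have e1 : CircleIntegrable (fun z => (z - w)⁻¹ * f z) 0 r :=
      circleIntegrable_of hr (hi1.mul (hcf.mono hsub))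
    have e2 : CircleIntegrable (fun z => f w * (z - w)⁻¹) 0 r :=
      circleIntegrable_of hr (continuousOn_const.mul hi1)
    rw [← circleIntegral.integral_const_mul, ← circleIntegral.integral_sub e1 e2]
    refine circleIntegral.integral_congr hr.le (fun z hz => ?_)
    rw [dslope_of_ne _ (hzw z hz), slope_def_field]
    field_simp
  rw [hrw b hb (h1.trans (hw1.trans hw2)) h2 hw2.ne', hrw a ha h1 ((hw1.trans hw2).trans h2) hw1.ne,
    integral_inv_outside ha hw1, circleIntegral.integral_sub_inv_of_mem_ball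
      (by simpa using hw2)] at key
  linear_combination key

/-- the outer Cauchy integral vanishes when all moments do -/
theorem outer_zero {f : ℂ → ℂ} {a : ℝ} (ha : 0 < a) (hf : ContinuousOn f (sphere 0 a))
    (hm : ∀ n, mom f a n = 0) {w : ℂ} (hw : a < ‖w‖) :
    (∮ z in C(0, a), (z - w)⁻¹ * f z) = 0 := by
  have hw0 : w ≠ 0 := by
    rintro rfl
    simp at hw
    linarith
  have hzw : ∀ z ∈ sphere (0 : ℂ) a, z ≠ w := by
    rintro z hz rfl
    simp at hz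
    linarith
  have hi1 : ContinuousOn (fun z : ℂ => (z - w)⁻¹) (sphere (0 : ℂ) a) :=
    ContinuousOn.inv₀ (by fun_prop) (fun z hz => sub_ne_zero.2 (hzw z hz))
  have hi2 : ContinuousOn (fun z : ℂ => (z - w)⁻¹ * f z) (sphere (0 : ℂ) a) := hi1.mul hf
  -- shifting by one power
  have hstep : ∀ n : ℕ, (∮ z in C(0, a), z ^ (n + 1) * ((z - w)⁻¹ * f z)) =
      w * ∮ z in C(0, a), z ^ n * ((z - w)⁻¹ * f z) := by
    intro n
    have e1 : CircleIntegrable (fun z => z ^ (n + 1) * ((z - w)⁻¹ * f z)) 0 a :=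
      circleIntegrable_of ha ((continuousOn_id.pow _).mul hi2)
    have e2 : CircleIntegrable (fun z => w * (z ^ n * ((z - w)⁻¹ * f z))) 0 a :=
      circleIntegrable_of ha (continuousOn_const.mul ((continuousOn_id.pow _).mul hi2))
    have h1 : (∮ z in C(0, a), z ^ (n + 1) * ((z - w)⁻¹ * f z)) -
        (∮ z in C(0, a), w * (z ^ n * ((z - w)⁻¹ * f z))) = mom f a n := by
      rw [← circleIntegral.integral_sub e1 e2]
      refine circleIntegral.integral_congr ha.le (fun z hz => ?_)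
      have := sub_ne_zero.2 (hzw z hz)
      field_simp
      ring
    rw [hm n, circleIntegral.integral_const_mul] at h1
    linear_combination h1
  have hpow : ∀ n : ℕ, (∮ z in C(0, a), z ^ n * ((z - w)⁻¹ * f z)) =
      w ^ n * ∮ z in C(0, a), (z - w)⁻¹ * f z := by
    intro n
    induction n with
    | zero => simp
    | succ n ih => rw [hstep, ih]; ring
  obtain ⟨C, hC⟩ := (isCompact_sphere (0 : ℂ) a).exists_bound_of_continuousOn hi2
  have hb : ∀ n : ℕ, ‖∮ z in C(0, a), (z - w)⁻¹ * f z‖ ≤ (2 * π * a * C) * (a / ‖w‖) ^ n := by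
    intro n
    have h1 : ‖∮ z in C(0, a), z ^ n * ((z - w)⁻¹ * f z)‖ ≤ 2 * π * a * (a ^ n * C) := by
      refine circleIntegral.norm_integral_le_of_norm_le_const ha.le (fun z hz => ?_)
      rw [norm_mul, norm_pow]
      have : ‖z‖ = a := by simpa using hz
      rw [this]
      exact mul_le_mul_of_nonneg_left (hC z hz) (by positivity)
    rw [hpow n, norm_mul, norm_pow] at h1
    have hwn : 0 < ‖w‖ := norm_pos_iff.2 hw0
    rw [div_pow, mul_div_assoc', le_div_iff₀ (by positivity)]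
    nlinarith [h1]
  have hlim : Tendsto (fun n : ℕ => (2 * π * a * C) * (a / ‖w‖) ^ n) atTop (𝓝 0) := by
    have := (tendsto_pow_atTop_nhds_zero_of_lt_one (r := a / ‖w‖) (by positivity)
      ((div_lt_one (ha.trans hw)).2 hw)).const_mul (2 * π * a * C)
    simpa using this
  have := ge_of_tendsto' hlim hb
  exact norm_le_zero_iff.1 this

/-- the inner Cauchy integral reproduces `f` when all moments vanish -/
theorem cauchy_of_mom {f : ℂ → ℂ} {r1 r2 b : ℝ} (h0 : 0 ≤ r1) (h2 : b < r2)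
    (hf : DifferentiableOn ℂ f (Ann r1 r2)) (hm : ∀ r, r1 < r → r < r2 → ∀ n, mom f r n = 0)
    {w : ℂ} (hw1 : r1 < ‖w‖) (hw2 : ‖w‖ < b) :
    (∮ z in C(0, b), (z - w)⁻¹ * f z) = 2 * π * Complex.I * f w := by
  obtain ⟨a, ha1, ha2⟩ := exists_between hw1
  have ha : 0 < a := h0.trans_lt ha1
  have hsub : sphere (0 : ℂ) a ⊆ Ann r1 r2 := by
    intro z hz
    have : ‖z‖ = a := by simpa using hz
    exact ⟨by rw [this]; exact ha1, by rw [this]; exact ha2.trans (hw2.trans h2)⟩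
  rw [← cauchy_annulus ha1 ha h2 hf ha2 hw2, outer_zero ha (hf.continuousOn.mono hsub)
    (hm a ha1 (ha2.trans (hw2.trans h2))) ha2, sub_zero]

/-- parameter analyticity of circle integrals -/
theorem analytic_circle {E : Type*} [NormedAddCommGroup E] [NormedSpace ℂ E]
    [FiniteDimensional ℂ E] {D : Set E} (hD : IsOpen D) {r : ℝ} (hr : 0 < r)
    {h : E × ℂ → ℂ} (hc : ContinuousOn h (D ×ˢ sphere (0 : ℂ) r))
    (hd : ∀ z ∈ sphere (0 : ℂ) r, DifferentiableOn ℂ (fun x => h (x, z)) D) :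
    AnalyticOnNhd ℂ (fun x => ∮ z in C(0, r), h (x, z)) D := by
  simp only [circleIntegral]
  have hcm : ∀ θ : ℝ, circleMap 0 r θ ∈ sphere (0 : ℂ) r := fun θ =>
    circleMap_mem_sphere 0 hr.le θ
  refine R266.SCV.analyticOnNhd_intervalIntegral
    (f := fun p : E × ℝ => deriv (circleMap 0 r) p.2 • h (p.1, circleMap 0 r p.2)) hD ?_ ?_
  · have c1 : Continuous (fun p : E × ℝ => deriv (circleMap 0 r) p.2) := by
      simp only [deriv_circleMap]
      fun_prop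
    have c2 : ContinuousOn (fun p : E × ℝ => h (p.1, circleMap 0 r p.2))
        (D ×ˢ uIcc 0 (2 * π)) :=
      hc.comp (f := fun p : E × ℝ => (p.1, circleMap 0 r p.2)) (by fun_prop)
        (fun p hp => ⟨hp.1, hcm p.2⟩)
    exact c1.continuousOn.smul c2
  · intro θ _
    simp only [deriv_circleMap, smul_eq_mul]
    exact (differentiableOn_const _).mul (hd _ (hcm θ))

end Crest.Agent.R102.L314
end
end

-- ▼ part R102/LeviB_314
section

/-!
Row 102, leaf LEVI (helper314), part B: Hankel determinants.  If the sequences `a n t` satisfy a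
linear recurrence for uncountably many `t` in a compact part of `Ω`, they satisfy one with
holomorphic coefficients, not all vanishing at a given point.
-/

set_option autoImplicit false
set_option linter.unusedVariables false
set_option linter.unusedSectionVars false

open Set Filter Topology Metric MeasureTheory
open scoped Real

noncomputable section

namespace Crest.Agent.R102.L314

/-- Hankel determinant with rows `r`, columns `0,…,n-1` -/
def hk (a : ℕ → ℂ → ℂ) {n : ℕ} (r : Fin n → ℕ) (t : ℂ) : ℂ :=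
  (Matrix.of fun i j : Fin n => a (r i + (j : ℕ)) t).det

lemma det_analytic {n : ℕ} {Ω : Set ℂ} {M : Fin n → Fin n → ℂ → ℂ}
    (hM : ∀ i j, AnalyticOnNhd ℂ (M i j) Ω) :
    AnalyticOnNhd ℂ (fun t => (Matrix.of fun i j => M i j t).det) Ω := by
  simp only [Matrix.det_apply']
  refine Finset.analyticOnNhd_fun_sum _ (fun σ _ => ?_)
  refine analyticOnNhd_const.mul ?_
  exact Finset.analyticOnNhd_fun_prod _ (fun i _ => hM _ _)

theorem rel_of_pointwise {Ω : Set ℂ} (hc : IsPreconnected Ω)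
    {a : ℕ → ℂ → ℂ} (ha : ∀ n, AnalyticOnNhd ℂ (a n) Ω)
    {K : Set ℂ} (hK : IsCompact K) (hKΩ : K ⊆ Ω) (hKinf : ¬ K.Countable)
    (hrel : ∀ t ∈ K, ∃ N : ℕ, ∃ c : Fin (N + 1) → ℂ, c ≠ 0 ∧
      ∀ n, ∑ j, c j * a (n + (j : ℕ)) t = 0) :
    ∃ N : ℕ, ∃ q : Fin (N + 1) → ℂ → ℂ, (∀ j, AnalyticOnNhd ℂ (q j) Ω) ∧
      (∃ t ∈ Ω, q (Fin.last N) t ≠ 0) ∧ ∀ n, ∀ t ∈ Ω, ∑ j, q j t * a (n + (j : ℕ)) t = 0 := by
  classical
  -- pigeonhole
  obtain ⟨N, hN⟩ : ∃ N : ℕ, {t ∈ K | ∃ c : Fin (N + 1) → ℂ, c ≠ 0 ∧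
      ∀ n, ∑ j, c j * a (n + (j : ℕ)) t = 0}.Infinite := by
    by_contra hcon
    push Not at hcon
    apply hKinf
    have : K ⊆ ⋃ N : ℕ, {t ∈ K | ∃ c : Fin (N + 1) → ℂ, c ≠ 0 ∧
        ∀ n, ∑ j, c j * a (n + (j : ℕ)) t = 0} := by
      intro t ht
      obtain ⟨N, c, h1, h2⟩ := hrel t ht
      exact mem_iUnion.2 ⟨N, ht, c, h1, h2⟩
    exact (countable_iUnion (fun N => (hcon N).countable)).mono this
  set T := {t ∈ K | ∃ c : Fin (N + 1) → ℂ, c ≠ 0 ∧
      ∀ n, ∑ j, c j * a (n + (j : ℕ)) t = 0} with hT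
  obtain ⟨x, hxK, hx⟩ := hN.exists_accPt_of_subset_isCompact hK (fun t ht => ht.1)
  have hfreq : ∃ᶠ t in 𝓝[≠] x, t ∈ T := by
    rw [accPt_iff_frequently_nhdsNE] at hx
    exact hx
  have hvan : ∀ r : Fin (N + 1) → ℕ, ∀ t ∈ Ω, hk a r t = 0 := by
    intro r
    have h1 : AnalyticOnNhd ℂ (hk a r) Ω := det_analytic (fun i j => ha _)
    refine h1.eqOn_zero_of_preconnected_of_frequently_eq_zero hc (hKΩ hxK) ?_
    refine hfreq.mono (fun t ht => ?_)
    obtain ⟨c, hc0, hc1⟩ := ht.2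
    refine Matrix.exists_mulVec_eq_zero_iff.1 ⟨c, hc0, ?_⟩
    ext i
    simp only [Matrix.mulVec, dotProduct, Matrix.of_apply, Pi.zero_apply]
    rw [← hc1 (r i)]
    exact Finset.sum_congr rfl (fun j _ => mul_comm _ _)
  have hex : ∃ n : ℕ, ∀ r : Fin (n + 1) → ℕ, ∀ t ∈ Ω, hk a r t = 0 := ⟨N, hvan⟩
  obtain ⟨m, hspec, hmin⟩ : ∃ m : ℕ, (∀ r : Fin (m + 1) → ℕ, ∀ t ∈ Ω, hk a r t = 0) ∧
      ∀ k < m, ¬ ∀ r : Fin (k + 1) → ℕ, ∀ t ∈ Ω, hk a r t = 0 :=
    ⟨Nat.find hex, Nat.find_spec hex, fun k hk => Nat.find_min hex hk⟩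
  rcases m with _ | m
  · refine ⟨0, fun _ _ => 1, fun j => analyticOnNhd_const, ⟨x, hKΩ hxK, one_ne_zero⟩, ?_⟩
    intro n t ht
    have := hspec (fun _ => n) t ht
    simpa [hk] using this
  · have h2 := hmin m (Nat.lt_succ_self m)
    push Not at h2
    obtain ⟨r, t0, ht0, hne⟩ := h2
    refine ⟨m + 1, fun j t => (-1) ^ (j : ℕ) *
      (Matrix.of fun i k : Fin (m + 1) => a (r i + ((j.succAbove k : Fin (m + 2)) : ℕ)) t).det,
      ?_, ⟨t0, ht0, ?_⟩, ?_⟩
    · intro j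
      exact analyticOnNhd_const.mul (det_analytic (fun i k => ha _))
    · simp only [Fin.succAbove_last, Fin.val_castSucc]
      exact mul_ne_zero (by simp) hne
    · intro n t ht
      have h3 := hspec (Fin.cons n r) t ht
      rw [hk, Matrix.det_succ_row_zero] at h3
      rw [← h3]
      refine Finset.sum_congr rfl (fun j _ => ?_)
      simp only [Matrix.of_apply, Fin.cons_zero]
      have : (Matrix.of fun i j : Fin (m + 1 + 1) => a ((Fin.cons n r : Fin (m + 2) → ℕ) i + (j : ℕ)) t).submatrix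
          Fin.succ j.succAbove = Matrix.of fun i k : Fin (m + 1) =>
            a (r i + ((j.succAbove k : Fin (m + 2)) : ℕ)) t := by
        ext i k
        simp [Matrix.submatrix_apply]
      rw [this]
      ring

theorem descend {Ω : Set ℂ} (hΩ : IsOpen Ω) {a : ℕ → ℂ → ℂ}
    (ha : ∀ n, AnalyticOnNhd ℂ (a n) Ω) {N : ℕ} {t1 : ℂ} (ht1 : t1 ∈ Ω) (k : ℕ) :
    ∀ q : Fin (N + 1) → ℂ → ℂ, (∀ j, AnalyticOnNhd ℂ (q j) Ω) →
      analyticOrderAt (q (Fin.last N)) t1 = k →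
      (∀ n, ∀ t ∈ Ω, ∑ j, q j t * a (n + (j : ℕ)) t = 0) →
      ∃ q' : Fin (N + 1) → ℂ → ℂ, (∀ j, AnalyticOnNhd ℂ (q' j) Ω) ∧
        (∃ j, q' j t1 ≠ 0) ∧ ∀ n, ∀ t ∈ Ω, ∑ j, q' j t * a (n + (j : ℕ)) t = 0 := by
  induction k with
  | zero =>
    intro q hq ho hr
    refine ⟨q, hq, ⟨Fin.last N, ?_⟩, hr⟩
    rw [Nat.cast_zero, (hq _ t1 ht1).analyticOrderAt_eq_zero] at ho
    exact ho
  | succ k ih =>
    intro q hq ho hr
    by_cases hz : ∃ j, q j t1 ≠ 0
    · exact ⟨q, hq, hz, hr⟩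
    push Not at hz
    have hq' : ∀ j, AnalyticOnNhd ℂ (dslope (q j) t1) Ω := fun j =>
      ((Complex.differentiableOn_dslope (hΩ.mem_nhds ht1)).2
        (hq j).differentiableOn).analyticOnNhd hΩ
    have hfac : ∀ j t, q j t = (t - t1) * dslope (q j) t1 t := by
      intro j t
      have := sub_smul_dslope (q j) t1 t
      rw [hz j, sub_zero, smul_eq_mul] at this
      exact this.symm
    refine ih (fun j => dslope (q j) t1) hq' ?_ ?_
    · have h1 : q (Fin.last N) = (fun t => t - t1) * dslope (q (Fin.last N)) t1 := by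
        ext t
        exact hfac _ t
      have hid : AnalyticAt ℂ (fun t : ℂ => t - t1) t1 := by fun_prop
      rw [h1, analyticOrderAt_mul hid (hq' _ t1 ht1)] at ho
      have h2 : analyticOrderAt (fun t : ℂ => t - t1) t1 = 1 := by
        exact_mod_cast (hid.analyticOrderAt_eq_natCast (n := 1)).2
          ⟨fun _ => 1, analyticAt_const, one_ne_zero, by simp⟩
      rw [h2] at ho
      have h3 : ((k + 1 : ℕ) : ℕ∞) = 1 + (k : ℕ∞) := by push_cast; ring
      rw [h3] at ho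
      have h4 : (1 : ℕ∞) ≠ ⊤ := by simp
      exact (WithTop.add_left_inj h4).1 ho
    · intro n
      have hcont : ∀ t ∈ Ω, ContinuousAt (fun t => ∑ j, dslope (q j) t1 t * a (n + (j : ℕ)) t) t := by
        intro t ht
        have : AnalyticAt ℂ (fun t => ∑ j, dslope (q j) t1 t * a (n + (j : ℕ)) t) t :=
          Finset.analyticAt_fun_sum _ (fun j _ => (hq' j t ht).mul (ha _ t ht))
        exact this.continuousAt
      have hne : ∀ t ∈ Ω, t ≠ t1 → ∑ j, dslope (q j) t1 t * a (n + (j : ℕ)) t = 0 := by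
        intro t ht htn
        have h1 : (t - t1) * ∑ j, dslope (q j) t1 t * a (n + (j : ℕ)) t = 0 := by
          rw [← hr n t ht, Finset.mul_sum]
          refine Finset.sum_congr rfl (fun j _ => ?_)
          rw [hfac j t]
          ring
        exact (mul_eq_zero.1 h1).resolve_left (sub_ne_zero.2 htn)
      intro t ht
      by_cases htn : t = t1
      · subst htn
        refine tendsto_nhds_unique
          ((hcont t ht).tendsto.mono_left (nhdsWithin_le_nhds (s := {t}ᶜ))) ?_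
        refine Tendsto.congr' ?_ tendsto_const_nhds
        filter_upwards [self_mem_nhdsWithin, nhdsWithin_le_nhds (hΩ.mem_nhds ht)] with s hs1 hs2
        exact (hne s hs2 hs1).symm
      · exact hne t ht htn

end Crest.Agent.R102.L314
end
end

-- ▼ part R102/LeviC_314
section

/-!
Row 102, leaf LEVI (helper314), part C: Levi extension theorem (`levi_core`):
`f(t,w)` holomorphic near `Ω × {|w| = ρ}`, and for `t` in a non-empty open `D0 ⊆ Ω` the slice
`f(t,·)` extends meromorphically to `{|w| ≤ ρ}` (`Ext1`).  Then near every `t1 ∈ Ω` the function is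
`P/Q` on `ball t1 δ × ball 0 (ρ + ε)`, `Q` a polynomial in `w` with `Q(t1,·) ≠ 0`.
-/

set_option autoImplicit false
set_option linter.unusedVariables false
set_option linter.unusedSectionVars false

open Set Filter Topology Metric MeasureTheory
open scoped Real

noncomputable section

namespace Crest.Agent.R102.L314

lemma ann_in_nhd {ρ : ℝ} (hρ : 0 < ρ) {v : Set ℂ} (hv : IsOpen v) (hs : sphere (0 : ℂ) ρ ⊆ v) :
    ∃ ε > 0, ε < ρ ∧ Ann (ρ - ε) (ρ + ε) ⊆ v := by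
  obtain ⟨δ, hδ, hδv⟩ := (isCompact_sphere (0 : ℂ) ρ).exists_thickening_subset_open hv hs
  refine ⟨min δ (ρ / 2), lt_min hδ (by linarith), (min_le_right _ _).trans_lt (by linarith),
    fun z hz => hδv ?_⟩
  obtain ⟨h1, h2⟩ := hz
  have e1 := min_le_left δ (ρ / 2)
  have e2 := min_le_right δ (ρ / 2)
  have hz0 : 0 < ‖z‖ := by linarith
  rw [mem_thickening_iff]
  refine ⟨((ρ / ‖z‖ : ℝ) : ℂ) * z, ?_, ?_⟩
  · rw [mem_sphere_zero_iff_norm, norm_mul, Complex.norm_real, Real.norm_of_nonneg (by positivity)]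
    field_simp
  · have : z - ((ρ / ‖z‖ : ℝ) : ℂ) * z = ((1 - ρ / ‖z‖ : ℝ) : ℂ) * z := by push_cast; ring
    rw [dist_eq_norm, this, norm_mul, Complex.norm_real, Real.norm_eq_abs]
    have h3 : |1 - ρ / ‖z‖| * ‖z‖ = |‖z‖ - ρ| := by
      rw [← abs_of_pos hz0, ← abs_mul, abs_of_pos hz0]
      congr 1
      field_simp
    rw [h3, abs_lt]
    constructor <;> linarith

lemma tube {ρ : ℝ} (hρ : 0 < ρ) {U : Set (ℂ × ℂ)} (hU : IsOpen U) {t1 : ℂ}
    (h : ∀ w ∈ sphere (0 : ℂ) ρ, (t1, w) ∈ U) :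
    ∃ δ > 0, ∃ ε > 0, ε < ρ ∧ ball t1 δ ×ˢ Ann (ρ - ε) (ρ + ε) ⊆ U := by
  obtain ⟨u, v, hu, hv, hu1, hv1, huv⟩ := generalized_tube_lemma (s := {t1}) isCompact_singleton
    (isCompact_sphere (0 : ℂ) ρ) hU (by
      rintro ⟨a, b⟩ ⟨ha, hb⟩
      simp only [mem_singleton_iff] at ha
      subst ha
      exact h b hb)
  obtain ⟨δ, hδ, hδu⟩ := Metric.isOpen_iff.1 hu t1 (hu1 rfl)
  obtain ⟨ε, hε, hε2, hεv⟩ := ann_in_nhd hρ hv hv1
  exact ⟨δ, hδ, ε, hε, hε2, (prod_mono hδu hεv).trans huv⟩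

/-- the slice condition: `g` (defined near the circle) extends meromorphically inside -/
def Ext1 (ρ : ℝ) (g : ℂ → ℂ) : Prop :=
  ∃ c : Polynomial ℂ, c ≠ 0 ∧ ∃ h : ℂ → ℂ, DiffContOnCl ℂ h (ball 0 ρ) ∧
    ∀ w ∈ sphere (0 : ℂ) ρ, h w = c.eval w * g w

lemma rel_of_ext1 {ρ : ℝ} (hρ : 0 < ρ) {g : ℂ → ℂ} (hg : ContinuousOn g (sphere 0 ρ))
    (h : Ext1 ρ g) : ∃ N : ℕ, ∃ c : Fin (N + 1) → ℂ, c ≠ 0 ∧
      ∀ n, ∑ j, c j * mom g ρ (n + (j : ℕ)) = 0 := by
  obtain ⟨c, hc, h, hh, hhg⟩ := h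
  refine ⟨c.natDegree, fun j => c.coeff j, ?_, ?_⟩
  · intro h0
    have := congrFun h0 (Fin.last c.natDegree)
    simp only [Fin.val_last, Pi.zero_apply, Polynomial.coeff_natDegree,
      Polynomial.leadingCoeff_eq_zero] at this
    exact hc this
  · intro n
    have h1 : (∮ z in C(0, ρ), z ^ n * h z) = 0 := by
      have hd : DiffContOnCl ℂ (fun z => z ^ n * h z) (ball 0 ρ) := by
        have h2 : DiffContOnCl ℂ (fun z : ℂ => z ^ n) (ball 0 ρ) :=
          Differentiable.diffContOnCl (by fun_prop)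
        exact h2.smul hh
      exact hd.circleIntegral_eq_zero hρ.le
    rw [← h1]
    have h2 : ∀ z ∈ sphere (0 : ℂ) ρ, z ^ n * h z =
        ∑ j : Fin (c.natDegree + 1), c.coeff j * (z ^ (n + (j : ℕ)) * g z) := by
      intro z hz
      rw [hhg z hz, Polynomial.eval_eq_sum_range, Finset.sum_range, Finset.sum_mul, Finset.mul_sum]
      refine Finset.sum_congr rfl (fun j _ => ?_)
      rw [pow_add]
      ring
    rw [circleIntegral.integral_congr hρ.le h2, circleIntegral.integral_fun_sum]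
    · refine Finset.sum_congr rfl (fun j _ => ?_)
      rw [circleIntegral.integral_const_mul]
      rfl
    · intro j _
      refine circleIntegrable_of hρ ?_
      exact continuousOn_const.mul ((continuousOn_id.pow _).mul hg)

/-- **Levi's extension theorem** (holomorphic near the circle) -/
theorem levi_core {Ω : Set ℂ} (hΩ : IsOpen Ω) (hc : IsPreconnected Ω) {ρ : ℝ} (hρ : 0 < ρ)
    {f : ℂ × ℂ → ℂ} (hf : AnalyticOnNhd ℂ f (Ω ×ˢ sphere 0 ρ)) {D0 : Set ℂ} (hD0 : IsOpen D0)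
    (hD0n : D0.Nonempty) (hD0Ω : D0 ⊆ Ω) (hs : ∀ t ∈ D0, Ext1 ρ (fun w => f (t, w)))
    {t1 : ℂ} (ht1 : t1 ∈ Ω) :
    ∃ N : ℕ, ∃ q : Fin (N + 1) → ℂ → ℂ, (∀ j, AnalyticOnNhd ℂ (q j) Ω) ∧ (∃ j, q j t1 ≠ 0) ∧
      ∃ δ > 0, ∃ ε > 0, ε < ρ ∧ ball t1 δ ⊆ Ω ∧
        AnalyticOnNhd ℂ f (ball t1 δ ×ˢ Ann (ρ - ε) (ρ + ε)) ∧
        ∃ P : ℂ × ℂ → ℂ, AnalyticOnNhd ℂ P (ball t1 δ ×ˢ ball 0 (ρ + ε)) ∧
          ∀ t ∈ ball t1 δ, ∀ w ∈ Ann (ρ - ε) (ρ + ε),
            P (t, w) = (∑ j, q j t * w ^ (j : ℕ)) * f (t, w) := by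
  classical
  set a : ℕ → ℂ → ℂ := fun n t => mom (fun w => f (t, w)) ρ n with ha
  have haan : ∀ n, AnalyticOnNhd ℂ (a n) Ω := by
    intro n
    refine analytic_circle (h := fun p : ℂ × ℂ => p.2 ^ n * f p) hΩ hρ ?_ ?_
    · exact (Continuous.continuousOn (by fun_prop)).mul hf.continuousOn
    · intro z hz t ht
      have h1 : AnalyticAt ℂ f (t, z) := hf (t, z) ⟨ht, hz⟩
      have h2 : DifferentiableAt ℂ (fun x : ℂ => f (x, z)) t :=
        h1.differentiableAt.comp t (f := fun x : ℂ => (x, z)) (by fun_prop)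
      exact (h2.const_mul (z ^ n)).differentiableWithinAt
  -- relation on `Ω`
  obtain ⟨t0, ht0⟩ := hD0n
  obtain ⟨η, hη, hηD⟩ := Metric.nhds_basis_closedBall.mem_iff.1 (hD0.mem_nhds ht0)
  have hcont : ∀ t ∈ Ω, ContinuousOn (fun w => f (t, w)) (sphere 0 ρ) := by
    intro t ht
    exact hf.continuousOn.comp (f := fun w : ℂ => (t, w)) (by fun_prop) (fun w hw => ⟨ht, hw⟩)
  obtain ⟨N, q, hq, ⟨t2, ht2, hq2⟩, hqr⟩ := rel_of_pointwise hc haan
    (isCompact_closedBall t0 η) (hηD.trans hD0Ω) (by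
      intro hcount
      have h1 : (ball t0 η).Countable := hcount.mono ball_subset_closedBall
      have h2 : volume (ball t0 η) = 0 := h1.measure_zero volume
      exact (Metric.measure_ball_pos volume t0 hη).ne' h2)
    (fun t ht => rel_of_ext1 hρ (hcont t (hD0Ω (hηD ht))) (hs t (hηD ht)))
  have hord : analyticOrderAt (q (Fin.last N)) t1 ≠ ⊤ := by
    intro htop
    rw [analyticOrderAt_eq_top] at htop
    exact hq2 ((hq (Fin.last N)).eqOn_zero_of_preconnected_of_eventuallyEq_zero hc ht1 htop ht2)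
  obtain ⟨k, hk⟩ := ENat.ne_top_iff_exists.1 hord
  obtain ⟨q', hq', hq'1, hq'r⟩ := descend hΩ haan ht1 k q hq hk.symm hqr
  -- tube
  have hUo : IsOpen ({p | AnalyticAt ℂ f p} ∩ (Ω ×ˢ (univ : Set ℂ))) :=
    (isOpen_analyticAt ℂ f).inter (hΩ.prod isOpen_univ)
  obtain ⟨δ, hδ, ε, hε, hερ, htube⟩ := tube hρ hUo (t1 := t1)
    (fun w hw => ⟨hf _ ⟨ht1, hw⟩, ht1, mem_univ _⟩)
  have hballΩ : ball t1 δ ⊆ Ω := by
    intro t ht
    have : ((t, (ρ : ℂ)) : ℂ × ℂ) ∈ ball t1 δ ×ˢ Ann (ρ - ε) (ρ + ε) := by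
      refine ⟨ht, ?_⟩
      simp only [Ann, mem_ofPred_eq, Complex.norm_real, Real.norm_of_nonneg hρ.le]
      constructor <;> linarith
    exact (htube this).2.1
  refine ⟨N, q', hq', hq'1, δ, hδ, ε / 2, by positivity, by linarith, hballΩ, ?_, ?_⟩
  · intro p hp
    exact (htube ⟨hp.1, by linarith [hp.2.1], by linarith [hp.2.2]⟩).1
  set b : ℝ := ρ + ε / 2 with hb
  have hb0 : 0 < b := by positivity
  set G : ℂ × ℂ → ℂ := fun p => (∑ j, q' j p.1 * p.2 ^ (j : ℕ)) * f p with hG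
  have hGan : AnalyticOnNhd ℂ G (ball t1 δ ×ˢ Ann (ρ - ε) (ρ + ε)) := by
    intro p hp
    refine AnalyticAt.mul ?_ (htube hp).1
    refine Finset.analyticAt_fun_sum _ (fun j _ => ?_)
    refine AnalyticAt.mul ?_ (analyticAt_snd.pow _)
    have h1 : AnalyticAt ℂ (q' j) p.1 := hq' j p.1 (hballΩ hp.1)
    exact h1.comp analyticAt_fst
  have hGd : ∀ t ∈ ball t1 δ, DifferentiableOn ℂ (fun w => G (t, w)) (Ann (ρ - ε) (ρ + ε)) := by
    intro t ht w hw
    have h1 : AnalyticAt ℂ G (t, w) := hGan _ ⟨ht, hw⟩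
    exact (h1.differentiableAt.comp w (f := fun w : ℂ => (t, w)) (by fun_prop)).differentiableWithinAt
  have hfd : ∀ t ∈ ball t1 δ, DifferentiableOn ℂ (fun w => f (t, w)) (Ann (ρ - ε) (ρ + ε)) := by
    intro t ht w hw
    have h1 : AnalyticAt ℂ f (t, w) := (htube (show ((t, w) : ℂ × ℂ) ∈ ball t1 δ ×ˢ Ann (ρ - ε) (ρ + ε) from ⟨ht, hw⟩)).1
    exact (h1.differentiableAt.comp w (f := fun w : ℂ => (t, w)) (by fun_prop)).differentiableWithinAt
  -- all moments of `G(t,·)` vanish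
  have hmomf : ∀ t ∈ ball t1 δ, ∀ r, ρ - ε < r → r < ρ + ε → ∀ n,
      mom (fun w => f (t, w)) r n = a n t := by
    intro t ht r hr1 hr2 n
    rcases le_total r ρ with h | h
    · exact (mom_eq hr1 (by linarith) h (by linarith) (hfd t ht) n).symm
    · exact mom_eq (by linarith) hρ h hr2 (hfd t ht) n
  have hmomG : ∀ t ∈ ball t1 δ, ∀ r, ρ - ε < r → r < ρ + ε → ∀ n,
      mom (fun w => G (t, w)) r n = 0 := by
    intro t ht r hr1 hr2 n
    have hr0 : 0 < r := by linarith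
    rw [← hq'r n t (hballΩ ht), mom]
    have hfc : ContinuousOn (fun w => f (t, w)) (sphere 0 r) := by
      refine (hfd t ht).continuousOn.mono (fun z hz => ?_)
      have : ‖z‖ = r := by simpa using hz
      exact ⟨by rw [this]; exact hr1, by rw [this]; exact hr2⟩
    have h2 : ∀ z ∈ sphere (0 : ℂ) r, z ^ n * G (t, z) =
        ∑ j : Fin (N + 1), q' j t * (z ^ (n + (j : ℕ)) * f (t, z)) := by
      intro z hz
      simp only [hG]
      rw [Finset.sum_mul, Finset.mul_sum]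
      refine Finset.sum_congr rfl (fun j _ => ?_)
      rw [pow_add]
      ring
    rw [circleIntegral.integral_congr hr0.le h2, circleIntegral.integral_fun_sum]
    · refine Finset.sum_congr rfl (fun j _ => ?_)
      rw [circleIntegral.integral_const_mul, ← hmomf t ht r hr1 hr2]
      rfl
    · intro j _
      refine circleIntegrable_of hr0 ?_
      exact continuousOn_const.mul ((continuousOn_id.pow _).mul hfc)
  refine ⟨fun p => (2 * π * Complex.I)⁻¹ * ∮ z in C(0, b), (z - p.2)⁻¹ * G (p.1, z), ?_, ?_⟩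
  · refine analyticOnNhd_const.mul ?_
    refine analytic_circle (E := ℂ × ℂ) (D := ball t1 δ ×ˢ ball 0 b)
      (h := fun p : (ℂ × ℂ) × ℂ => (p.2 - p.1.2)⁻¹ * G (p.1.1, p.2))
      (isOpen_ball.prod isOpen_ball) hb0 ?_ ?_
    · refine ContinuousOn.mul ?_ ?_
      · refine ContinuousOn.inv₀ (by fun_prop) ?_
        rintro ⟨⟨t, w⟩, z⟩ ⟨⟨_, hw⟩, hz⟩
        simp only [mem_sphere_iff_norm, sub_zero] at hz
        simp only [mem_ball, dist_zero_right] at hw
        rw [sub_ne_zero]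
        rintro h
        simp only at h
        rw [h] at hz
        linarith
      · refine hGan.continuousOn.comp (f := fun p : (ℂ × ℂ) × ℂ => (p.1.1, p.2)) (by fun_prop) ?_
        rintro ⟨⟨t, w⟩, z⟩ ⟨⟨ht, hw⟩, hz⟩
        simp only [mem_sphere_iff_norm, sub_zero] at hz
        refine ⟨ht, ?_⟩
        simp only [Ann, mem_ofPred_eq, hz]
        constructor <;> linarith
    · rintro z hz ⟨t, w⟩ ⟨ht, hw⟩
      simp only [mem_sphere_iff_norm, sub_zero] at hz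
      simp only [mem_ball, dist_zero_right] at hw
      have hzA : z ∈ Ann (ρ - ε) (ρ + ε) := by
        simp only [Ann, mem_ofPred_eq, hz]
        constructor <;> linarith
      have h1 : DifferentiableAt ℂ (fun x : ℂ × ℂ => (z - x.2)⁻¹) (t, w) := by
        refine DifferentiableAt.inv (by fun_prop) (sub_ne_zero.2 ?_)
        rintro rfl
        linarith
      have h2 : DifferentiableAt ℂ (fun x : ℂ × ℂ => G (x.1, z)) (t, w) :=
        (hGan (t, z) ⟨ht, hzA⟩).differentiableAt.comp (t, w)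
          (f := fun x : ℂ × ℂ => (x.1, z)) (by fun_prop)
      exact (h1.mul h2).differentiableWithinAt
  · intro t ht w hw
    have hw' : ‖w‖ < b := hw.2
    have h1 := cauchy_of_mom (r1 := ρ - ε) (r2 := ρ + ε) (b := b) (by linarith) (by linarith)
      (hGd t ht) (hmomG t ht) (w := w) (by linarith [hw.1]) hw'
    simp only
    rw [h1, ← mul_assoc, inv_mul_cancel₀ Complex.two_pi_I_ne_zero, one_mul]

end Crest.Agent.R102.L314
end
end

-- ▼ part R102/LeviM2_88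

/-!
Row 102, part (C) (helper88): Levi extension theorem with meromorphic data (on top of
helper314's `levi_core`).
-/

set_option autoImplicit false

open Set Filter Topology Metric

noncomputable section

namespace Crest.Agent.R102.LeviM88

open Crest.Agent.R102.Mer88 Crest.Agent.R102

section Gen

variable {E : Type*} [NormedAddCommGroup E] [NormedSpace ℂ E]

theorem Regular.of_analytic {g : E → ℂ} {x : E} (h : AnalyticAt ℂ g x) : Regular g x :=
  ⟨g, h, rep_of_analytic (Eventually.of_forall fun _ => one_mul _)⟩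

theorem isOpen_regular (g : E → ℂ) : IsOpen {x | Regular g x} :=
  isOpen_iff_mem_nhds.2 fun _ hx => Regular.eventually hx

theorem isOpen_merAt (g : E → ℂ) : IsOpen {x | MerAt g x} :=
  isOpen_iff_mem_nhds.2 fun _ hx => MerAt.eventually hx

theorem nz_of_preconnected {D : E → ℂ} {U : Set E} (hUo : IsOpen U) (hU : IsPreconnected U)
    (hD : AnalyticOnNhd ℂ D U) {x : E} (hx : x ∈ U) (h : ∃ᶠ z in 𝓝 x, D z ≠ 0) :
    ∀ y ∈ U, NZ D y := by
  refine fun y hy => ⟨hD y hy, fun hcon => ?_⟩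
  have h0 : D =ᶠ[𝓝 y] 0 := by
    filter_upwards [hcon] with z hz
    by_contra h1
    exact hz h1
  have h2 := hD.eqOn_zero_of_preconnected_of_eventuallyEq_zero hU hy h0
  refine h ?_
  filter_upwards [hUo.mem_nhds hx] with z hz h3
  exact h3 (h2 hz)

end Gen

/-! ### one variable -/

theorem rep_of_punct {F g : ℂ → ℂ} {w : ℂ} (h : F =ᶠ[𝓝[≠] w] g) : Rep F g (fun _ => 1) w := by
  refine ⟨fun z => z - w, ⟨by fun_prop, ?_⟩, ?_⟩
  · have h1 : ∀ᶠ z in 𝓝[≠] w, z - w ≠ 0 := by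
      filter_upwards [self_mem_nhdsWithin] with z hz
      exact sub_ne_zero.2 hz
    exact h1.frequently.filter_mono nhdsWithin_le_nhds
  · rw [EventuallyEq, eventually_nhdsWithin_iff] at h
    filter_upwards [h] with z hz h0
    rw [one_mul]
    exact hz (sub_ne_zero.1 h0)

theorem clear_poles {G : ℂ → ℂ} {K : Set ℂ} (hK : IsCompact K)
    (hG : ∀ w ∈ K, MeromorphicAt G w) :
    ∃ c : Polynomial ℂ, c ≠ 0 ∧ ∀ w ∈ K, Regular (fun z => c.eval z * G z) w := by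
  refine hK.induction_on (p := fun S => ∃ c : Polynomial ℂ, c ≠ 0 ∧ ∀ w ∈ S,
    Regular (fun z => c.eval z * G z) w) ⟨1, one_ne_zero, by simp⟩ ?_ ?_ ?_
  · rintro S T hST ⟨c, hc, h⟩
    exact ⟨c, hc, fun w hw => h w (hST hw)⟩
  · rintro S T ⟨c, hc, h⟩ ⟨c', hc', h'⟩
    refine ⟨c * c', mul_ne_zero hc hc', fun w hw => ?_⟩
    rcases hw with hw | hw
    · have h1 := (h w hw).mul_analytic (a := fun z => c'.eval z) (c'.differentiable.analyticAt w)
      have h2 : (fun y => c'.eval y * (c.eval y * G y)) = fun z => (c * c').eval z * G z := by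
        funext y; rw [Polynomial.eval_mul]; ring
      rwa [h2] at h1
    · have h1 := (h' w hw).mul_analytic (a := fun z => c.eval z) (c.differentiable.analyticAt w)
      have h2 : (fun y => c.eval y * (c'.eval y * G y)) = fun z => (c * c').eval z * G z := by
        funext y; rw [Polynomial.eval_mul]; ring
      rwa [h2] at h1
  · intro w hw
    obtain ⟨n, hn⟩ := hG w hw
    refine ⟨{z | AnalyticAt ℂ (fun z => (z - w) ^ n • G z) z}, mem_nhdsWithin_of_mem_nhds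
      hn.eventually_analyticAt, (Polynomial.X - Polynomial.C w) ^ n,
      pow_ne_zero _ (Polynomial.X_sub_C_ne_zero w), fun z hz => ?_⟩
    have h2 : (fun z => ((Polynomial.X - Polynomial.C w) ^ n).eval z * G z) =
        fun z => (z - w) ^ n • G z := by
      funext z; simp
    rw [h2]
    exact Regular.of_analytic hz

theorem ext1_of_mero {ρ : ℝ} (hρ : 0 < ρ) {G g : ℂ → ℂ} (hG : ∀ w, ‖w‖ ≤ ρ → MeromorphicAt G w)
    (hg : ∀ w, ‖w‖ = ρ → AnalyticAt ℂ g w) (hgG : ∀ w, ‖w‖ = ρ → G =ᶠ[𝓝[≠] w] g) :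
    L314.Ext1 ρ g := by
  obtain ⟨c, hc, h⟩ := clear_poles (isCompact_closedBall (0 : ℂ) ρ) (G := G) (fun w hw => hG w (by
    rwa [mem_closedBall_zero_iff] at hw))
  have han : ∀ w ∈ closedBall (0 : ℂ) ρ, AnalyticAt ℂ (reg (fun z => c.eval z * G z)) w :=
    fun w hw => (h w hw).analyticAt
  refine ⟨c, hc, reg (fun z => c.eval z * G z), ⟨?_, ?_⟩, ?_⟩
  · exact fun w hw => (han w (ball_subset_closedBall hw)).differentiableAt.differentiableWithinAt
  · rw [closure_ball _ hρ.ne']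
    exact fun w hw => (han w hw).continuousAt.continuousWithinAt
  · intro w hw
    rw [mem_sphere_zero_iff_norm] at hw
    have h1 : Rep (fun z => c.eval z * G z) (fun z => c.eval z * g z) (fun _ => 1) w := by
      apply rep_of_punct
      filter_upwards [hgG w hw] with z hz
      rw [hz]
    exact (reg_eq ((c.differentiable.analyticAt w).mul (hg w hw))
      h1).self_of_nhds

/-! ### Levi data -/

/-- Levi data at `t1` -/
def LD (f : ℂ × ℂ → ℂ) (ρ1 ρ2 : ℝ) (t1 : ℂ) : Prop :=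
  ∃ ε > 0, ∃ ρ, ρ1 < ρ ∧ ρ < ρ2 ∧ ∃ P Q : ℂ × ℂ → ℂ,
    AnalyticOnNhd ℂ P (ball t1 ε ×ˢ ball 0 (ρ + ε)) ∧
    (∀ x ∈ ball t1 ε ×ˢ ball (0 : ℂ) (ρ + ε), NZ Q x) ∧
    ∀ t ∈ ball t1 ε, ∀ w : ℂ, ‖w‖ = ρ → Rep f P Q (t, w)

theorem rep_radial {f P Q : ℂ × ℂ → ℂ} {t : ℂ} {a b : ℝ} (ha : 0 < a)
    (hf : ∀ w : ℂ, a ≤ ‖w‖ → ‖w‖ ≤ b → MerAt f (t, w))
    (hP : ∀ w : ℂ, a ≤ ‖w‖ → ‖w‖ ≤ b → AnalyticAt ℂ P (t, w))
    (hQ : ∀ w : ℂ, a ≤ ‖w‖ → ‖w‖ ≤ b → AnalyticAt ℂ Q (t, w))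
    {ρ : ℝ} (hρ : a ≤ ρ) (hρb : ρ ≤ b) (h : ∀ w : ℂ, ‖w‖ = ρ → Rep f P Q (t, w)) :
    ∀ w : ℂ, a ≤ ‖w‖ → ‖w‖ ≤ b → Rep f P Q (t, w) := by
  intro w hw1 hw2
  have hw0 : 0 < ‖w‖ := ha.trans_le hw1
  set u : ℂ := w / ‖w‖ with hu
  have hun : ‖u‖ = 1 := by
    rw [hu, norm_div, Complex.norm_real, Real.norm_of_nonneg hw0.le, div_self hw0.ne']
  have hnorm : ∀ x ∈ Icc a b, ‖(x : ℂ) * u‖ = x := by
    intro x hx
    rw [norm_mul, hun, mul_one, Complex.norm_real, Real.norm_of_nonneg (ha.le.trans hx.1)]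
  set S : Set (ℂ × ℂ) := (fun x : ℝ => ((t, (x : ℂ) * u) : ℂ × ℂ)) '' Icc a b with hS
  have hSc : IsPreconnected S :=
    isPreconnected_Icc.image _ (Continuous.continuousOn (by fun_prop))
  have h1 := rep_of_preconnected (f := f) (P := P) (Q := Q) hSc
    (by rintro _ ⟨x, hx, rfl⟩; exact hf _ (by rw [hnorm x hx]; exact hx.1)
          (by rw [hnorm x hx]; exact hx.2))
    (by rintro _ ⟨x, hx, rfl⟩; exact hP _ (by rw [hnorm x hx]; exact hx.1)
          (by rw [hnorm x hx]; exact hx.2))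
    (by rintro _ ⟨x, hx, rfl⟩; exact hQ _ (by rw [hnorm x hx]; exact hx.1)
          (by rw [hnorm x hx]; exact hx.2))
    (c0 := (t, (ρ : ℂ) * u)) ⟨ρ, ⟨hρ, hρb⟩, rfl⟩ (h _ (hnorm ρ ⟨hρ, hρb⟩))
  have h2 : w = (‖w‖ : ℂ) * u := by
    have : (‖w‖ : ℂ) ≠ 0 := by exact_mod_cast hw0.ne'
    rw [hu]; field_simp
  have h3 := h1 (t, ((‖w‖ : ℝ) : ℂ) * u) ⟨‖w‖, ⟨hw1, hw2⟩, rfl⟩
  rwa [← h2] at h3

/-- tube lemma for `{t1} × {ρ1 ≤ |w| ≤ ρ2}` -/
theorem tube_ann {U : Set (ℂ × ℂ)} (hU : IsOpen U) {t1 : ℂ} {ρ1 ρ2 : ℝ}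
    (h : ∀ w : ℂ, ρ1 ≤ ‖w‖ → ‖w‖ ≤ ρ2 → (t1, w) ∈ U) :
    ∀ᶠ t in 𝓝 t1, ∀ w : ℂ, ρ1 ≤ ‖w‖ → ‖w‖ ≤ ρ2 → (t, w) ∈ U := by
  have hK : IsCompact {w : ℂ | ρ1 ≤ ‖w‖ ∧ ‖w‖ ≤ ρ2} := by
    refine (isCompact_closedBall (0 : ℂ) ρ2).of_isClosed_subset ?_ ?_
    · exact (isClosed_le continuous_const continuous_norm).inter
        (isClosed_le continuous_norm continuous_const)
    · intro w hw
      rw [mem_closedBall_zero_iff]; exact hw.2
  obtain ⟨u, v, hu, hv, hu1, hv1, huv⟩ := generalized_tube_lemma (s := {t1}) isCompact_singleton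
    hK hU (by
      rintro ⟨a, b⟩ ⟨ha, hb⟩
      simp only [mem_singleton_iff] at ha
      subst ha
      exact h b hb.1 hb.2)
  filter_upwards [hu.mem_nhds (hu1 rfl)] with t ht w h1 h2
  exact huv ⟨ht, hv1 ⟨h1, h2⟩⟩

theorem LD.slice {f : ℂ × ℂ → ℂ} {ρ1 ρ2 : ℝ} {t2 : ℂ} (h0 : 0 < ρ1) (h : LD f ρ1 ρ2 t2)
    (hf : ∀ w : ℂ, ρ1 ≤ ‖w‖ → ‖w‖ ≤ ρ2 → MerAt f (t2, w)) :
    ∃ r > 0, ∀ t ∈ ball t2 r, t ≠ t2 → ∃ F : ℂ → ℂ, (∀ w : ℂ, ‖w‖ ≤ ρ2 → MeromorphicAt F w) ∧
      ∀ w : ℂ, ρ1 ≤ ‖w‖ → ‖w‖ ≤ ρ2 → F =ᶠ[𝓝[≠] w] fun z => reg f (t, z) := by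
  obtain ⟨ε, hε, ρ, hρ1, hρ2, P, Q, hP, hQ, hR⟩ := h
  have hρ0 : 0 < ρ := h0.trans hρ1
  have hK : IsCompact {w : ℂ | ρ1 ≤ ‖w‖ ∧ ‖w‖ ≤ ρ2} := by
    refine (isCompact_closedBall (0 : ℂ) ρ2).of_isClosed_subset ?_ ?_
    · exact (isClosed_le continuous_const continuous_norm).inter
        (isClosed_le continuous_norm continuous_const)
    · intro w hw
      rw [mem_closedBall_zero_iff]; exact hw.2
  obtain ⟨r1, hr1, hs⟩ := slice_compact hK (fun w hw => hf w hw.1 hw.2)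
  obtain ⟨r2, hr2, hm⟩ := Metric.eventually_nhds_iff_ball.1 (tube_ann (isOpen_merAt f) hf)
  obtain ⟨w0, hw0, hev⟩ := punct_ne (hQ (t2, 0) ⟨mem_ball_self hε, mem_ball_self (by linarith)⟩)
    (by linarith : 0 < ρ + ε)
  obtain ⟨r3, hr3, h3⟩ := Metric.eventually_nhds_iff_ball.1 (eventually_nhdsWithin_iff.1 hev)
  refine ⟨min (min ε r1) (min r2 r3), lt_min (lt_min hε hr1) (lt_min hr2 hr3),
    fun t ht hne => ?_⟩
  have htε : t ∈ ball t2 ε := ball_subset_ball ((min_le_left _ _).trans (min_le_left _ _)) ht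
  have ht1 : t ∈ ball t2 r1 := ball_subset_ball ((min_le_left _ _).trans (min_le_right _ _)) ht
  have ht2 : t ∈ ball t2 r2 := ball_subset_ball ((min_le_right _ _).trans (min_le_left _ _)) ht
  have ht3 : t ∈ ball t2 r3 := ball_subset_ball ((min_le_right _ _).trans (min_le_right _ _)) ht
  have hmem : ∀ w : ℂ, ‖w‖ ≤ ρ → ((t, w) : ℂ × ℂ) ∈ ball t2 ε ×ˢ ball (0 : ℂ) (ρ + ε) :=
    fun w hw => ⟨htε, by rw [mem_ball_zero_iff]; linarith⟩
  have hQa : AnalyticOnNhd ℂ (fun z => Q (t, z)) (ball 0 (ρ + ε)) := fun z hz =>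
    ((hQ (t, z) ⟨htε, hz⟩).1).comp (f := fun z : ℂ => (t, z)) (by fun_prop)
  have hfr : ∀ w : ℂ, ‖w‖ ≤ ρ → ∃ᶠ z in 𝓝 w, Q (t, z) ≠ 0 := by
    intro w hw hcon
    have h4 : (fun z => Q (t, z)) =ᶠ[𝓝 w] 0 := by
      filter_upwards [hcon] with z hz
      by_contra h5
      exact hz h5
    exact (h3 t ht3 hne) (hQa.eqOn_zero_of_preconnected_of_eventuallyEq_zero
      (convex_ball _ _).isPreconnected (hmem w hw).2 h4 hw0)
  have hrep : ∀ w : ℂ, ρ1 ≤ ‖w‖ → ‖w‖ ≤ ρ → Rep f P Q (t, w) := by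
    refine rep_radial h0 (fun w h1 h2 => hm t ht2 w h1 (h2.trans hρ2.le))
      (fun w _ h2 => hP _ (hmem w h2)) (fun w _ h2 => (hQ _ (hmem w h2)).1) hρ1.le le_rfl
      (fun w hw => hR t htε w hw)
  have hC1 : ∀ w : ℂ, ρ1 ≤ ‖w‖ → ‖w‖ ≤ ρ →
      (fun z => reg f (t, z)) =ᶠ[𝓝[≠] w] fun z => P (t, z) / Q (t, z) := fun w h1 h2 =>
    slice_rep (hP _ (hmem w h2)) (hQ _ (hmem w h2)).1 (hrep w h1 h2) (hfr w h2)
  have hPQ : ∀ w : ℂ, ‖w‖ ≤ ρ → MeromorphicAt (fun z => P (t, z) / Q (t, z)) w := by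
    intro w hw
    have h5 : AnalyticAt ℂ (fun z => P (t, z)) w :=
      (hP _ (hmem w hw)).comp (f := fun z : ℂ => (t, z)) (by fun_prop)
    exact h5.meromorphicAt.div (hQa w (hmem w hw).2).meromorphicAt
  set F : ℂ → ℂ := fun w => if ‖w‖ ≤ ρ then P (t, w) / Q (t, w) else reg f (t, w) with hF
  have hF1 : ∀ w : ℂ, ρ1 ≤ ‖w‖ → ‖w‖ ≤ ρ → F =ᶠ[𝓝[≠] w] fun z => reg f (t, z) := by
    intro w h1 h2
    filter_upwards [hC1 w h1 h2] with z hz
    simp only [hF]
    split_ifs with h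
    · exact hz.symm
    · rfl
  have hF2 : ∀ w : ℂ, ρ < ‖w‖ → F =ᶠ[𝓝 w] fun z => reg f (t, z) := by
    intro w h1
    filter_upwards [(isOpen_lt continuous_const continuous_norm).mem_nhds h1] with z hz
    simp only [hF]
    rw [if_neg (not_le.2 hz)]
  refine ⟨F, fun w hw => ?_, fun w h1 h2 => ?_⟩
  · rcases lt_trichotomy ‖w‖ ρ with h4 | h4 | h4
    · refine (hPQ w h4.le).congr ?_
      refine Filter.EventuallyEq.filter_mono ?_ nhdsWithin_le_nhds
      filter_upwards [(isOpen_lt continuous_norm continuous_const).mem_nhds h4] with z hz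
      simp only [hF]
      rw [if_pos (le_of_lt hz)]
    · refine (hPQ w h4.le).congr ?_
      exact (hC1 w (by rw [h4]; exact hρ1.le) h4.le).symm.trans
        (hF1 w (by rw [h4]; exact hρ1.le) h4.le).symm
    · refine (hs t ht1 hne w ⟨hρ1.le.trans h4.le, hw⟩).congr ?_
      exact (hF2 w h4).symm.filter_mono nhdsWithin_le_nhds
  · rcases le_or_gt ‖w‖ ρ with h4 | h4
    · exact hF1 w h1 h4
    · exact (hF2 w h4).filter_mono nhdsWithin_le_nhds

theorem nz_fst {t1 w0 : ℂ} (M : ℕ) : NZ (fun x : ℂ × ℂ => (x.1 - t1) ^ M) (t1, w0) := by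
  refine ⟨(analyticAt_fst.sub analyticAt_const).pow _, ?_⟩
  have h1 : Tendsto (fun t : ℂ => (t, w0)) (𝓝[≠] t1) (𝓝 (t1, w0)) :=
    (Continuous.tendsto (by fun_prop : Continuous fun t : ℂ => (t, w0)) t1).mono_left
      nhdsWithin_le_nhds
  have h2 : ∀ᶠ t in 𝓝[≠] t1, (t - t1) ^ M ≠ 0 := by
    filter_upwards [self_mem_nhdsWithin] with t ht
    exact pow_ne_zero _ (sub_ne_zero.2 ht)
  exact h1.frequently h2.frequently

theorem LD.step {f : ℂ × ℂ → ℂ} {ρ1 ρ2 : ℝ} {t1 : ℂ} (h0 : 0 < ρ1) (h12 : ρ1 < ρ2)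
    (hf : ∀ w : ℂ, ρ1 ≤ ‖w‖ → ‖w‖ ≤ ρ2 → MerAt f (t1, w))
    (hex : ∃ᶠ t in 𝓝 t1, LD f ρ1 ρ2 t) : LD f ρ1 ρ2 t1 := by
  obtain ⟨M, ρ, hρ1, hρ2, hreg⟩ := exists_radius h12 hf
  have hρ0 : 0 < ρ := h0.trans hρ1
  set g : ℂ × ℂ → ℂ := fun x => (x.1 - t1) ^ M * f x with hg
  obtain ⟨δ1, hδ1, ε1, hε1, hε1ρ, htube⟩ := L314.tube hρ0 (isOpen_regular g) (t1 := t1)
    (fun w hw => hreg w (by rwa [mem_sphere_zero_iff_norm] at hw))
  have hbt : ∀ᶠ t in 𝓝 t1, t ∈ ball t1 δ1 := ball_mem_nhds t1 hδ1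
  obtain ⟨t2, hLD, ht2, hf2⟩ := (hex.and_eventually (hbt.and
    (tube_ann (isOpen_merAt f) hf))).exists
  obtain ⟨r, hr, hsl⟩ := hLD.slice h0 hf2
  have ha : ∀ x : ℂ × ℂ, AnalyticAt ℂ (fun x : ℂ × ℂ => (x.1 - t1) ^ M) x := fun x =>
    (analyticAt_fst.sub analyticAt_const).pow _
  -- the open set of slices
  set D0 : Set ℂ := (ball t1 δ1 ∩ ball t2 r) \ {t1, t2} with hD0
  have hD0o : IsOpen D0 := (isOpen_ball.inter isOpen_ball).sdiff (by
    exact (Set.toFinite {t1, t2}).isClosed)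
  have hD0n : D0.Nonempty := by
    have h1 : (ball t1 δ1 ∩ ball t2 r).Infinite := infinite_of_mem_nhds t2
      ((isOpen_ball.inter isOpen_ball).mem_nhds ⟨ht2, mem_ball_self hr⟩)
    exact (h1.sdiff (Set.toFinite {t1, t2})).nonempty
  have hE : ∀ t ∈ D0, L314.Ext1 ρ (fun w => reg g (t, w)) := by
    rintro t ⟨⟨htd, htr⟩, htn⟩
    simp only [mem_insert_iff, mem_singleton_iff, not_or] at htn
    obtain ⟨F, hF, hFe⟩ := hsl t htr htn.2
    have hreg' : ∀ w : ℂ, ‖w‖ = ρ → Regular g (t, w) := fun w hw =>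
      htube ⟨htd, by rw [hw]; linarith, by rw [hw]; linarith⟩
    refine ext1_of_mero hρ0 (G := fun z => (t - t1) ^ M * F z) ?_ ?_ ?_
    · intro w hw
      exact (MeromorphicAt.const _ _).mul (hF w (hw.trans hρ2.le))
    · intro w hw
      exact (hreg' w hw).analyticAt.comp (f := fun z : ℂ => (t, z)) (by fun_prop)
    · intro w hw
      have h2 : ∀ᶠ z in 𝓝 w, Regular g (t, z) :=
        (Continuous.tendsto (by fun_prop : Continuous fun z : ℂ => (t, z)) w).eventually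
          (hreg' w hw).eventually
      filter_upwards [hFe w (by rw [hw]; exact hρ1.le) (by rw [hw]; exact hρ2.le),
        h2.filter_mono nhdsWithin_le_nhds] with z hz1 hz2
      rw [hz1]
      exact ((reg_mul (f := f) (ha (t, z)) (pow_ne_zero _ (sub_ne_zero.2 htn.1)) hz2).2).symm
  obtain ⟨N, q, hq, ⟨j0, hj0⟩, δ, hδ, ε, hε, hερ, hsub, -, P, hP, hPe⟩ :=
    L314.levi_core (Ω := ball t1 δ1) isOpen_ball (convex_ball _ _).isPreconnected hρ0
      (f := reg g) (fun x hx => (htube ⟨hx.1, by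
        have := hx.2
        rw [mem_sphere_zero_iff_norm] at this
        exact ⟨by rw [this]; linarith, by rw [this]; linarith⟩⟩ : Regular g x).analyticAt)
      hD0o hD0n (fun t ht => ht.1.1) hE (mem_ball_self hδ1)
  set s : ℂ × ℂ → ℂ := fun x => ∑ j, q j x.1 * x.2 ^ (j : ℕ) with hs
  have hsan : ∀ x : ℂ × ℂ, x.1 ∈ ball t1 δ1 → AnalyticAt ℂ s x := by
    intro x hx
    refine Finset.analyticAt_fun_sum _ fun j _ => ?_
    exact ((hq j x.1 hx).comp analyticAt_fst).mul (analyticAt_snd.pow _)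
  set e : ℝ := min (min δ ε) ε1 with he
  have he0 : 0 < e := lt_min (lt_min hδ hε) hε1
  have heδ : e ≤ δ := (min_le_left _ _).trans (min_le_left _ _)
  have heε : e ≤ ε := (min_le_left _ _).trans (min_le_right _ _)
  refine ⟨e, he0, ρ, hρ1, hρ2, P, fun x => (x.1 - t1) ^ M * s x, ?_, ?_, ?_⟩
  · intro x hx
    exact hP x ⟨ball_subset_ball heδ hx.1, ball_subset_ball (by linarith) hx.2⟩
  · -- a point where `s ≠ 0`
    have hw0 : ∃ w0 ∈ ball (0 : ℂ) (ρ + e), s (t1, w0) ≠ 0 := by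
      set p : Polynomial ℂ := ∑ j : Fin (N + 1), Polynomial.C (q j t1) * Polynomial.X ^ (j : ℕ)
        with hp
      have hpe : ∀ w, p.eval w = s (t1, w) := by
        intro w
        simp [hp, hs, Polynomial.eval_finsetSum]
      have hp0 : p ≠ 0 := by
        intro h
        have h1 : p.coeff (j0 : ℕ) = 0 := by rw [h]; simp
        rw [hp] at h1
        simp only [Polynomial.finsetSum_coeff, Polynomial.coeff_C_mul, Polynomial.coeff_X_pow]
          at h1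
        rw [Finset.sum_eq_single j0] at h1
        · simp at h1; exact hj0 h1
        · intro b _ hb
          rw [if_neg, mul_zero]
          intro hcon
          exact hb (Fin.ext hcon.symm)
        · simp
      have hfin : (p.roots.toFinset : Set ℂ).Finite := Finset.finite_toSet _
      have hinf : (ball (0 : ℂ) (ρ + e)).Infinite :=
        infinite_of_mem_nhds 0 (ball_mem_nhds _ (by linarith))
      obtain ⟨w0, hw0, hw0'⟩ := (hinf.sdiff hfin).nonempty
      refine ⟨w0, hw0, fun h => hw0' ?_⟩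
      simp only [Finset.mem_coe, Multiset.mem_toFinset]
      rw [Polynomial.mem_roots hp0, Polynomial.IsRoot, hpe]
      exact h
    obtain ⟨w0, hw0, hsw⟩ := hw0
    have h1 : NZ (fun x : ℂ × ℂ => (x.1 - t1) ^ M * s x) (t1, w0) :=
      (nz_fst M).mul (NZ.of_ne (hsan _ (mem_ball_self hδ1)) hsw)
    refine nz_of_preconnected (isOpen_ball.prod isOpen_ball)
      ((convex_ball _ _).isPreconnected.prod (convex_ball _ _).isPreconnected) ?_
      (x := (t1, w0)) ⟨mem_ball_self he0, hw0⟩ h1.2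
    intro x hx
    exact (ha x).mul (hsan x (hsub (ball_subset_ball heδ hx.1)))
  · intro t ht w hw
    have hR : Regular g (t, w) := htube ⟨hsub (ball_subset_ball heδ ht),
      by rw [hw]; linarith, by rw [hw]; linarith⟩
    obtain ⟨D, hD, h1⟩ := hR.rep
    refine ⟨D, hD, ?_⟩
    have h2 : ball t1 δ ×ˢ L314.Ann (ρ - ε) (ρ + ε) ∈ 𝓝 ((t, w) : ℂ × ℂ) :=
      (isOpen_ball.prod (L314.isOpen_Ann _ _)).mem_nhds ⟨ball_subset_ball heδ ht,
        by rw [hw]; linarith, by rw [hw]; linarith⟩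
    filter_upwards [h1, h2] with x hx1 hx2 hd
    have h3 := hPe x.1 hx2.1 x.2 hx2.2
    have h4 := hx1 hd
    simp only [hg, one_mul] at h4
    simp only [hs]
    rw [show P x = P (x.1, x.2) from rfl, h3, ← h4]
    ring

end Crest.Agent.R102.LeviM88
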