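import Crest.Agent.R102.Hol_575
import Crest.Agent.R102.Form_575

/-!
# Row 102, [H3]: Taylor expansion in the second variable (helper781)

`V ⊆ ℂ`, `W ⊆ ℂ × ℂ` open, `W ∩ {ω = 0} ⊇ V × 0`, `W ⊆ V × ℂ`.
`TO : Hol W →ₐ[ℂ] (Hol V)⟦X⟧`, `F ↦ ∑ (∂_ω^n F (·, 0) / n!) X^n`.

* `coeff_TO` : `(coeff n (TO F)) c = iteratedDeriv n (F (c, ·)) 0 / n!`
* `TO_fst`   : functions of the first variable are constants
* `TO_om`    : `ω ↦ X`
* `TO_comp`  : `TO (G ∘ b) = pt (d/dz) C (TO b - z) G` if `b (c, 0) = c`.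
-/

set_option autoImplicit false
set_option linter.unusedSectionVars false

noncomputable section

namespace Crest.Agent.R102.H3

open Set Topology TopologicalSpace

section dir

variable {E : Type*} [NormedAddCommGroup E] [NormedSpace ℂ E]

theorem an_fderiv_apply {U : Set E} {F : E → ℂ} (hF : AnalyticOnNhd ℂ F U) (v : E) :
    AnalyticOnNhd ℂ (fun x => fderiv ℂ F x v) U := fun x hx =>
  ((ContinuousLinearMap.apply ℂ ℂ v).analyticAt _).comp (hF.fderiv x hx)

/-- the derivation `∂/∂v` of `Hol U` -/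
def dirD (U : Opens E) (v : E) : Derivation ℂ (Hol U) (Hol U) where
  toFun f := Hol.ofFun (fun x => fderiv ℂ (ext0 (f : U → ℂ)) x v)
    (an_fderiv_apply (Hol.an f) v)
  map_add' f g := by
    ext x
    simp only [Subalgebra.coe_add, Pi.add_apply, Hol.ofFun_apply]
    rw [ext0_add, fderiv_add ((Hol.an f) x x.2).differentiableAt
      ((Hol.an g) x x.2).differentiableAt]
    rfl
  map_smul' c f := by
    ext x
    have h : ext0 ((c • f : Hol U) : U → ℂ) = fun z => c • ext0 (f : U → ℂ) z := by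
      funext z
      by_cases h : z ∈ U <;> simp [ext0, h]
    simp only [RingHom.id_apply]
    change fderiv ℂ (ext0 ((c • f : Hol U) : U → ℂ)) x v = c • fderiv ℂ (ext0 (f : U → ℂ)) x v
    rw [h, fderiv_fun_const_smul ((Hol.an f) x x.2).differentiableAt]
    rfl
  map_one_eq_zero' := by
    ext x
    change fderiv ℂ (ext0 (1 : U → ℂ)) x v = 0
    rw [(eventually_ext0_eq (F := fun _ => (1:ℂ)) (f := (1 : U → ℂ)) (fun _ => rfl)
      x.2).fderiv_eq]
    simp
  leibniz' f g := by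
    ext x
    change fderiv ℂ (ext0 ((f : U → ℂ) * (g : U → ℂ))) x v = _
    rw [ext0_mul, fderiv_mul ((Hol.an f) x x.2).differentiableAt
      ((Hol.an g) x x.2).differentiableAt]
    simp only [smul_eq_mul, Subalgebra.coe_add, Subalgebra.coe_mul, Pi.add_apply, Pi.mul_apply]
    rw [ext0_apply, ext0_apply]
    rfl

theorem dirD_apply {U : Opens E} (v : E) (f : Hol U) (x : U) :
    (dirD U v f : U → ℂ) x = fderiv ℂ (ext0 (f : U → ℂ)) x v := rfl


variable {E' : Type*} [NormedAddCommGroup E'] [NormedSpace ℂ E']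

/-- pull back by an analytic map -/
def Hol.pull {V : Opens E} {U : Opens E'} (φ : E → E') (hφ : AnalyticOnNhd ℂ φ V)
    (hm : ∀ x ∈ V, φ x ∈ U) : Hol U →ₐ[ℂ] Hol V where
  toFun f := Hol.ofFun (fun x => ext0 (f : U → ℂ) (φ x)) (fun x hx =>
    ((Hol.an f) (φ x) (hm x hx)).comp (hφ x hx))
  map_one' := by
    ext x
    change ext0 ((1 : Hol U) : U → ℂ) (φ x) = _
    rw [ext0_of_mem _ (hm x x.2)]
    rfl
  map_mul' f g := by
    ext x
    simp only [Hol.ofFun_apply, Subalgebra.coe_mul, Pi.mul_apply]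
    rw [ext0_mul]
    rfl
  map_zero' := by
    ext x
    change ext0 ((0 : Hol U) : U → ℂ) (φ x) = _
    rw [ext0_of_mem _ (hm x x.2)]
    rfl
  map_add' f g := by
    ext x
    simp only [Hol.ofFun_apply, Subalgebra.coe_add, Pi.add_apply]
    rw [ext0_add]
    rfl
  commutes' c := by
    ext x
    change ext0 ((algebraMap ℂ (Hol U) c : Hol U) : U → ℂ) (φ x) = _
    rw [ext0_of_mem _ (hm x x.2)]
    rfl

theorem Hol.pull_apply {V : Opens E} {U : Opens E'} (φ : E → E') (hφ : AnalyticOnNhd ℂ φ V)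
    (hm : ∀ x ∈ V, φ x ∈ U) (f : Hol U) (x : V) :
    (Hol.pull φ hφ hm f : V → ℂ) x = (f : U → ℂ) ⟨φ x, hm x x.2⟩ := by
  change ext0 (f : U → ℂ) (φ x) = _
  rw [ext0_of_mem _ (hm x x.2)]

end dir

section TO

open PowerSeries Finset

variable {V : Opens ℂ} {W : Opens (ℂ × ℂ)}

theorem iter_dirD (F : Hol W) (n : ℕ) (c w : ℂ) (h : (c, w) ∈ W) :
    ((dirD W (0, 1))^[n] F : W → ℂ) ⟨(c, w), h⟩
      = iteratedDeriv n (fun w => ext0 (F : W → ℂ) (c, w)) w := by
  induction n generalizing w with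
  | zero => simp [ext0_of_mem _ h]
  | succ n ih =>
    rw [Function.iterate_succ_apply', iteratedDeriv_succ]
    have h1 : iteratedDeriv n (fun w => ext0 (F : W → ℂ) (c, w)) =ᶠ[𝓝 w]
        fun w => ext0 ((dirD W (0, 1))^[n] F : W → ℂ) (c, w) := by
      have : ∀ᶠ w' in 𝓝 w, (c, w') ∈ W :=
        (continuous_const.prodMk continuous_id).continuousAt.eventually
          (W.isOpen.mem_nhds h)
      filter_upwards [this] with w' hw'
      rw [← ih w' hw', ext0_of_mem _ hw']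
    rw [h1.deriv_eq, dirD_apply]
    have h2 : HasFDerivAt (ext0 ((dirD W (0, 1))^[n] F : W → ℂ))
        (fderiv ℂ (ext0 ((dirD W (0, 1))^[n] F : W → ℂ)) (c, w)) (c, w) :=
      ((Hol.an _) _ h).differentiableAt.hasFDerivAt
    have h3 : HasDerivAt (fun w : ℂ => ((c, w) : ℂ × ℂ)) (0, 1) w :=
      (hasDerivAt_const _ _).prodMk (hasDerivAt_id _)
    exact (h2.comp_hasDerivAt w h3).deriv.symm

/-- Taylor expansion in the second variable -/
def TO (h0 : ∀ c ∈ V, (c, (0 : ℂ)) ∈ W) : Hol W →ₐ[ℂ] (Hol V)⟦X⟧ where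
  toRingHom := (PowerSeries.map (Hol.pull (fun c : ℂ => (c, (0 : ℂ)))
    (analyticOnNhd_id.prod analyticOnNhd_const) h0 : Hol W →+* Hol V)).comp (Ty (dirD W (0, 1)))
  commutes' c := by
    change PowerSeries.map (Hol.pull (fun c : ℂ => (c, (0 : ℂ)))
      (analyticOnNhd_id.prod analyticOnNhd_const) h0 : Hol W →+* Hol V)
      (Ty (dirD W (0, 1)) (algebraMap ℂ (Hol W) c)) = _
    rw [Ty_algebraMap, PowerSeries.map_C, PowerSeries.algebraMap_apply]
    exact congrArg C ((Hol.pull (fun c : ℂ => (c, (0 : ℂ)))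
      (analyticOnNhd_id.prod analyticOnNhd_const) h0).commutes c)

theorem coeff_TO (h0 : ∀ c ∈ V, (c, (0 : ℂ)) ∈ W) (F : Hol W) (n : ℕ) (c : V) :
    ((coeff n (TO h0 F) : Hol V) : V → ℂ) c
      = ((n.factorial : ℂ)⁻¹) * iteratedDeriv n (fun w => ext0 (F : W → ℂ) (c, w)) 0 := by
  change ((coeff n (PowerSeries.map (Hol.pull (fun c : ℂ => (c, (0 : ℂ)))
      (analyticOnNhd_id.prod analyticOnNhd_const) h0 : Hol W →+* Hol V)
      (Ty (dirD W (0, 1)) F)) : Hol V) : V → ℂ) c = _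
  rw [PowerSeries.coeff_map, coeff_Ty, dn]
  change (Hol.pull (fun c : ℂ => (c, (0 : ℂ)))
      (analyticOnNhd_id.prod analyticOnNhd_const) h0 _ : V → ℂ) c = _
  rw [Hol.pull_apply]
  change ((n.factorial : ℂ)⁻¹) • (((dirD W (0, 1))^[n] F : Hol W) : W → ℂ) _ = _
  rw [iter_dirD, smul_eq_mul]

theorem eventually_slice (h0 : ∀ c ∈ V, (c, (0 : ℂ)) ∈ W) {c : ℂ} (hc : c ∈ V) :
    ∀ᶠ w in 𝓝 (0 : ℂ), (c, w) ∈ W :=
  (continuous_const.prodMk continuous_id).continuousAt.eventually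
    (W.isOpen.mem_nhds (h0 c hc))

theorem iteratedDeriv_const' (n : ℕ) (a x : ℂ) :
    iteratedDeriv n (fun _ : ℂ => a) x = if n = 0 then a else 0 := by
  rw [iteratedDeriv_const]

theorem TO_fst (h0 : ∀ c ∈ V, (c, (0 : ℂ)) ∈ W) (h1 : ∀ p ∈ W, p.1 ∈ V) (f : Hol V) :
    TO h0 (Hol.pull Prod.fst analyticOnNhd_fst h1 f) = C f := by
  ext n c
  rw [coeff_TO, coeff_C]
  have h2 : (fun w => ext0 (Hol.pull Prod.fst analyticOnNhd_fst h1 f : W → ℂ) ((c : ℂ), w))
      =ᶠ[𝓝 0] fun _ => (f : V → ℂ) c := by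
    filter_upwards [eventually_slice h0 c.2] with w' hw'
    rw [ext0_of_mem _ hw', Hol.pull_apply]
  rw [h2.iteratedDeriv_eq, iteratedDeriv_const']
  split_ifs with h
  · simp [h]
  · simp

theorem TO_om (h0 : ∀ c ∈ V, (c, (0 : ℂ)) ∈ W)
    (hF : AnalyticOnNhd ℂ (fun p : ℂ × ℂ => p.2) W) :
    TO h0 (Hol.ofFun (fun p : ℂ × ℂ => p.2) hF) = X := by
  ext n c
  rw [coeff_TO, coeff_X]
  have h1 : (fun w => ext0 (Hol.ofFun (fun p : ℂ × ℂ => p.2) hF : W → ℂ) ((c : ℂ), w))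
      =ᶠ[𝓝 0] fun w => w := by
    have : ∀ᶠ w' in 𝓝 (0 : ℂ), ((c : ℂ), w') ∈ W :=
      (continuous_const.prodMk continuous_id).continuousAt.eventually
        (W.isOpen.mem_nhds (h0 c c.2))
    filter_upwards [this] with w' hw'
    rw [ext0_of_mem _ hw']
    rfl
  rw [h1.iteratedDeriv_eq]
  have h2 : (fun w : ℂ => w) = fun w : ℂ => w ^ 1 := by funext w; simp
  rw [h2, iteratedDeriv_fun_pow_zero]
  rcases Nat.lt_trichotomy n 1 with h | h | h
  · have : n = 0 := by omega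
    subst this
    simp
  · subst h
    simp
  · rw [if_neg (by omega), if_neg (by omega)]
    simp

theorem constantCoeff_TO (h0 : ∀ c ∈ V, (c, (0 : ℂ)) ∈ W) (F : Hol W) (c : V) :
    ((constantCoeff (TO h0 F) : Hol V) : V → ℂ) c = (F : W → ℂ) ⟨(c, 0), h0 c c.2⟩ := by
  rw [← coeff_zero_eq_constantCoeff_apply, coeff_TO]
  simp [ext0_of_mem _ (h0 c c.2)]

theorem X_dvd_TO_sub (h0 : ∀ c ∈ V, (c, (0 : ℂ)) ∈ W) {b : ℂ × ℂ → ℂ}
    (hb : AnalyticOnNhd ℂ b W) (hb0 : ∀ c ∈ V, b (c, 0) = c) :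
    (X : (Hol V)⟦X⟧) ∣ TO h0 (Hol.ofFun b hb) - C (zH V) := by
  rw [X_dvd_iff, map_sub, sub_eq_zero]
  ext c
  rw [constantCoeff_TO, constantCoeff_C]
  exact hb0 c c.2

theorem iter_DH (F : Hol V) (n : ℕ) (c : V) :
    ((DH V)^[n] F : V → ℂ) c = iteratedDeriv n (ext0 (F : V → ℂ)) c := by
  induction n generalizing c with
  | zero => simp [ext0_apply]
  | succ n ih =>
    rw [Function.iterate_succ_apply', iteratedDeriv_succ, DH_apply]
    refine Filter.EventuallyEq.deriv_eq ?_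
    filter_upwards [V.isOpen.mem_nhds c.2] with w hw
    rw [ext0_of_mem _ hw]
    exact ih ⟨w, hw⟩

/-- a remainder of order `≥ M` -/
theorem iteratedDeriv_rem {M n : ℕ} (hn : n < M) {β F R : ℂ → ℂ} (hβ : AnalyticAt ℂ β 0)
    (hβ0 : β 0 = 0) (hF : AnalyticAt ℂ F 0) (hR : ∀ᶠ w in 𝓝 0, R w = β w ^ M * F (β w)) :
    iteratedDeriv n R 0 = 0 := by
  have hF' : AnalyticAt ℂ (fun w => F (β w)) 0 := by
    refine AnalyticAt.fun_comp (g := F) (f := β) ?_ hβ
    rwa [hβ0]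
  have hRa : AnalyticAt ℂ R 0 :=
    ((hβ.pow M).mul hF').congr (hR.mono fun w hw => hw.symm)
  have h1 : (1 : ℕ) ≤ analyticOrderAt β 0 := by
    rw [natCast_le_analyticOrderAt_iff_iteratedDeriv_eq_zero hβ]
    intro i hi
    have : i = 0 := by omega
    subst this
    simpa using hβ0
  obtain ⟨β1, hβ1, hβ1'⟩ := (natCast_le_analyticOrderAt hβ).1 h1
  have h2 : (M : ℕ) ≤ analyticOrderAt R 0 := by
    rw [natCast_le_analyticOrderAt hRa]
    refine ⟨fun w => β1 w ^ M * F (β w), (hβ1.pow M).mul hF', ?_⟩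
    filter_upwards [hR, hβ1'] with w hw hw1
    rw [hw, hw1]
    simp only [sub_zero, pow_one, smul_eq_mul]
    rw [mul_pow]
    ring
  exact (natCast_le_analyticOrderAt_iff_iteratedDeriv_eq_zero hRa).1 h2 n hn

/-- **composition** -/
theorem TO_comp (h0 : ∀ c ∈ V, (c, (0 : ℂ)) ∈ W) (h1 : ∀ p ∈ W, p.1 ∈ V) {G : ℂ → ℂ}
    (hG : AnalyticOnNhd ℂ G V) {b : ℂ × ℂ → ℂ} (hb : AnalyticOnNhd ℂ b W)
    (hb0 : ∀ c ∈ V, b (c, 0) = c) (hGb : AnalyticOnNhd ℂ (fun p => G (b p)) W)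
    (he : (X : (Hol V)⟦X⟧) ∣ TO h0 (Hol.ofFun b hb) - C (zH V)) :
    TO h0 (Hol.ofFun (fun p => G (b p)) hGb)
      = pt (DH V) C (TO h0 (Hol.ofFun b hb) - C (zH V)) he (Hol.ofFun G hG) := by
  refine eq_of_forall_X_pow_dvd fun M => ?_
  obtain ⟨q, hq⟩ := pt_eq (DH V) (C : Hol V →+* (Hol V)⟦X⟧) he (Hol.ofFun G hG) M
  let P : Hol V →ₐ[ℂ] Hol W := Hol.pull Prod.fst analyticOnNhd_fst h1
  let R : Hol W := Hol.ofFun (fun p => G (b p)) hGb
    - ∑ m ∈ range M, P (dn (DH V) m (Hol.ofFun G hG)) * (Hol.ofFun b hb - P (zH V)) ^ m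
  have hTR : TO h0 R = TO h0 (Hol.ofFun (fun p => G (b p)) hGb)
      - ∑ m ∈ range M, C (dn (DH V) m (Hol.ofFun G hG))
        * (TO h0 (Hol.ofFun b hb) - C (zH V)) ^ m := by
    simp only [R, map_sub, map_sum, map_mul, map_pow, P, TO_fst]
  have hdvd : (X : (Hol V)⟦X⟧) ^ M ∣ TO h0 R := by
    rw [X_pow_dvd_iff]
    intro n hn
    ext c
    rw [coeff_TO]
    have hβ : AnalyticAt ℂ (fun w => b ((c : ℂ), w) - c) 0 := by
      refine AnalyticAt.sub ?_ analyticAt_const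
      exact (hb _ (h0 c c.2)).fun_comp (analyticAt_const.prod analyticAt_id)
    have hGc : AnalyticAt ℂ (fun y => G (c + y)) 0 := by
      refine AnalyticAt.fun_comp (g := G) (f := fun y => (c : ℂ) + y) ?_
        (analyticAt_const.add analyticAt_id)
      rw [add_zero]
      exact hG c c.2
    obtain ⟨F, hFa, hF⟩ := hGc.exists_eq_sum_add_pow_mul M
    have hRw : ∀ᶠ w in 𝓝 (0 : ℂ), ext0 (R : W → ℂ) ((c : ℂ), w)
        = (b ((c : ℂ), w) - c) ^ M * F (b ((c : ℂ), w) - c) := by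
      filter_upwards [eventually_slice h0 c.2] with w hw
      rw [ext0_of_mem _ hw]
      have e1 : (R : W → ℂ) ⟨((c : ℂ), w), hw⟩ = G (b ((c : ℂ), w))
          - ∑ m ∈ range M, ((m.factorial : ℂ)⁻¹ * iteratedDeriv m G c)
            * (b ((c : ℂ), w) - c) ^ m := by
        have e2 : ∀ x : W, evH x R = (R : W → ℂ) x := fun x => rfl
        rw [← e2]
        simp only [R, map_sub, map_sum, map_mul, map_pow]
        congr 1
        refine Finset.sum_congr rfl fun m _ => ?_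
        congr 1
        · change (Hol.pull Prod.fst analyticOnNhd_fst h1 _ : W → ℂ) _ = _
          rw [Hol.pull_apply]
          change ((m.factorial : ℂ)⁻¹) • ((((DH V)^[m] (Hol.ofFun G hG) : Hol V) : V → ℂ) c) = _
          rw [iter_DH, smul_eq_mul]
          congr 1
          refine Filter.EventuallyEq.iteratedDeriv_eq _ ?_
          exact eventually_ext0_eq (F := G) (fun x => rfl) c.2
        · congr 1
          change (b ((c : ℂ), w)) - (Hol.pull Prod.fst analyticOnNhd_fst h1 (zH V) : W → ℂ) _ = _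
          rw [Hol.pull_apply]
          rfl
      have e3 := hF (b ((c : ℂ), w) - c)
      rw [add_sub_cancel] at e3
      rw [e1, e3]
      have e4 : ∀ m, iteratedDeriv m (fun y => G (c + y)) 0 = iteratedDeriv m G c := by
        intro m
        have := iteratedDeriv_comp_const_add m G (c : ℂ)
        rw [congrFun this 0, add_zero]
      simp only [e4, smul_eq_mul]
      have e5 : ∀ m ∈ range M, (b ((c : ℂ), w) - c) ^ m / (m.factorial : ℂ) * iteratedDeriv m G c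
          = ((m.factorial : ℂ)⁻¹ * iteratedDeriv m G c) * (b ((c : ℂ), w) - c) ^ m := by
        intro m _
        ring
      rw [Finset.sum_congr rfl e5]
      ring
    rw [iteratedDeriv_rem hn hβ (by rw [hb0 c c.2, sub_self]) hFa hRw, mul_zero]
    simp
  rw [hTR] at hdvd
  rw [hq]
  have e6 : TO h0 (Hol.ofFun (fun p => G (b p)) hGb)
      - (∑ m ∈ range M, C (dn (DH V) m (Hol.ofFun G hG))
        * (TO h0 (Hol.ofFun b hb) - C (zH V)) ^ m
        + (TO h0 (Hol.ofFun b hb) - C (zH V)) ^ M * q)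
      = (TO h0 (Hol.ofFun (fun p => G (b p)) hGb)
      - ∑ m ∈ range M, C (dn (DH V) m (Hol.ofFun G hG))
        * (TO h0 (Hol.ofFun b hb) - C (zH V)) ^ m)
        - (TO h0 (Hol.ofFun b hb) - C (zH V)) ^ M * q := by ring
  rw [e6]
  exact dvd_sub hdvd ((X_pow_dvd_pow he M).mul_right _)

end TO

end Crest.Agent.R102.H3
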