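import Crest.Agent.R102.Free_781
import Crest.Agent.R102.TayOm_781
import Crest.Agent.R102.F7_389

-- ▼ part R102/FreeB_781
section

/-!
# Row 102, [H3], (RAT): freeness, symmetric form (helper781)

Vertices `0, 1, …, N + 1`, line `j` joins the vertices `j` and `j + 1` (so line `0` is the chord
through the first two vertices, which are `z + u₀ X` and `z + u₁ X`).
`free2`: `m₀, k₀`, all labels `Φ j z` and all jets `Φ j g⁽ⁱ⁾`, `i ≥ 1`, are algebraically
independent, if the jets of `g` are.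
-/

set_option autoImplicit false

noncomputable section

namespace Crest.Agent.R102.Free781

section Inf

variable {k A : Type*} [Field k] [CommRing A] [Algebra k A]

/-- the infinite family of generators -/
def gensI {n : ℕ} {A : Type*} (m0 k0 : A) (b : Fin n → A) (J : ℕ → Fin n → A) :
    Fin 2 ⊕ (Fin n × ℕ) → A :=
  Sum.elim ![m0, k0] fun p => if p.2 = 0 then b p.1 else J p.2 p.1

theorem gensI_ind {n : ℕ} (m0 k0 : A) (b : Fin n → A) (J : ℕ → Fin n → A)
    (h : ∀ r, AlgebraicIndependent k (gens m0 k0 b J (r + 1))) :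
    AlgebraicIndependent k (gensI m0 k0 b J) := by
  classical
  rw [algebraicIndependent_iff]
  intro P hP
  -- the inclusions
  let φ : ∀ r, Fin 2 ⊕ (Fin n × Fin (r + 1 + 1)) → Fin 2 ⊕ (Fin n × ℕ) := fun r =>
    Sum.map id fun p => (p.1, (p.2 : ℕ))
  have hφ : ∀ r, Function.Injective (φ r) := by
    intro r
    refine Function.Injective.sumMap Function.injective_id ?_
    rintro ⟨a, b⟩ ⟨a', b'⟩ hab
    simp only [Prod.mk.injEq] at hab
    exact Prod.ext hab.1 (Fin.ext hab.2)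
  let R : ℕ := P.vars.sup (fun x => Sum.elim (fun _ => 0) (fun p => p.2) x)
  have hR : (P.vars : Set (Fin 2 ⊕ (Fin n × ℕ))) ⊆ Set.range (φ R) := by
    intro x hx
    rcases x with x | ⟨j, i⟩
    · exact ⟨Sum.inl x, rfl⟩
    · have h1 : i ≤ R := Finset.le_sup (f := fun x : Fin 2 ⊕ (Fin n × ℕ) =>
        Sum.elim (fun _ => 0) (fun p => p.2) x) hx
      exact ⟨Sum.inr (j, ⟨i, by omega⟩), rfl⟩
  clear_value R
  obtain ⟨Q, rfl⟩ := MvPolynomial.exists_rename_eq_of_vars_subset_range P (φ R) (hφ R) hR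
  rw [MvPolynomial.aeval_rename] at hP
  have h2 : gensI m0 k0 b J ∘ φ R = gens m0 k0 b J (R + 1) := by
    funext x
    rcases x with x | ⟨j, i⟩
    · rfl
    · have h3 : ((i : ℕ) = 0) ↔ i = 0 := by
        rw [Fin.ext_iff]; rfl
      simp only [Function.comp_apply, φ, Sum.map_inr, gensI, gens, Sum.elim_inr, h3]
  rw [h2] at hP
  rw [(algebraicIndependent_iff.1 (h R)) Q hP, map_zero]

end Inf

section Chain2

open PowerSeries Finset Crest.Agent.R102.H3

variable {k S : Type*} [Field k] [CharZero k] [Field S] [Algebra k S]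
variable {H : Type*} [CommRing H] [Algebra k H]
variable (d : Derivation k H H) (τ : H →ₐ[k] S) {z g : H} {N : ℕ}

/-- **Freeness**, symmetric form. -/
theorem free2_r (hz : d z = 1)
    (hind : AlgebraicIndependent k (fun o : Option ℕ => τ (o.elim z fun i => d^[i] g)))
    (e : Fin (N + 2) → S⟦X⟧) (he : ∀ j, PowerSeries.X ∣ e j) (u₀ u₁ : k) (hu : u₀ ≠ u₁)
    (he0 : e 0 = u₀ • (PowerSeries.X : S⟦X⟧))
    (he1 : e 1 = u₁ • (PowerSeries.X : S⟦X⟧)) (hinj : Function.Injective e)
    (Φ : Fin (N + 2) → H →+* S⟦X⟧)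
    (hΦ : ∀ j, Φ j = pt d ((PowerSeries.C : S →+* S⟦X⟧).comp (τ : H →+* S)) (e j) (he j))
    (m κ : ℕ → S⟦X⟧) (hm : ∀ j, j ≤ N → m j ≠ 0)
    (h0 : Φ 0 g = m 0 * Φ 0 z + κ 0)
    (h1 : ∀ j : Fin (N + 1), Φ j.succ g = m j * Φ j.succ z + κ j)
    (h2 : ∀ j : Fin (N + 1), (j : ℕ) < N → Φ j.succ g = m (j + 1) * Φ j.succ z + κ (j + 1))
    (h3 : ∀ j : Fin (N + 1), (j : ℕ) < N → m (j + 1) * m j = (Φ j.succ (d g)) ^ 2) (r : ℕ) :
    AlgebraicIndependent k
      (gens (m 0) (κ 0) (fun j => Φ j z) (fun i j => Φ j (d^[i] g)) (r + 1)) := by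
  classical
  have hcharS : CharZero S := charZero_of_injective_algebraMap (algebraMap k S).injective
  have hcharA : CharZero S⟦X⟧ :=
    charZero_of_injective_algebraMap (R := S) (PowerSeries.C_injective)
  obtain ⟨δc, hδc⟩ := exists_derivation _ hind (fun o => o.elim 1 fun _ => 0)
  have hδs0 := fun s : ℕ => exists_derivation _ hind
    (fun o => o.elim 0 fun i => if i = s then 1 else 0)
  choose δs hδs using hδs0
  have hcz : δc (τ z) = 1 := hδc none
  have hcg : ∀ i, δc (τ (d^[i] g)) = 0 := fun i => hδc (some i)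
  have hsz : ∀ s, δs s (τ z) = 0 := fun s => hδs s none
  have hsg : ∀ s i, δs s (τ (d^[i] g)) = if i = s then 1 else 0 := fun s i => hδs s (some i)
  refine algInd_of_jac _ (basic δc δs) fun lam hlam => ?_
  set D : Derivation k S⟦X⟧ S⟦X⟧ := ∑ a, lam a • basic δc δs a with hD
  have hDx : ∀ i, D (gens (m 0) (κ 0) (fun j => Φ j z) (fun i j => Φ j (d^[i] g)) (r + 1) i)
      = 0 := by
    intro i
    rw [hD, der_sum_apply]
    exact hlam i
  have hDm0 : D (m 0) = 0 := hDx (Sum.inl 0)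
  have hDk0 : D (κ 0) = 0 := hDx (Sum.inl 1)
  have hDb : ∀ j, D (Φ j z) = 0 := by
    intro j
    have := hDx (Sum.inr (j, 0))
    simpa [gens] using this
  have hDJ' : ∀ j, ∀ i, 1 ≤ i → i ≤ r + 1 → D (Φ j (d^[i] g)) = 0 := by
    intro j i hi1 hi2
    have := hDx (Sum.inr (j, ⟨i, by omega⟩))
    have h0 : (⟨i, by omega⟩ : Fin (r + 1 + 1)) ≠ 0 := by
      intro h
      have := congrArg Fin.val h
      simp at this
      omega
    simpa [gens, h0] using this
  -- all lines are killed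
  have hline : ∀ j : ℕ, j ≤ N → D (m j) = 0 ∧ D (κ j) = 0 := by
    intro j
    induction j with
    | zero => exact fun _ => ⟨hDm0, hDk0⟩
    | succ j ih =>
      intro hj
      obtain ⟨ih1, ih2⟩ := ih (by omega)
      let j' : Fin (N + 1) := ⟨j, by omega⟩
      have hj' : (j' : ℕ) < N := by change j < N; omega
      have hg0 : D (Φ j'.succ g) = 0 := by
        rw [h1 j', map_add, Derivation.leibniz, hDb, smul_zero, zero_add]
        change Φ j'.succ z • D (m j) + D (κ j) = 0
        rw [ih1, ih2, smul_zero, zero_add]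
      have hg1 : D (Φ j'.succ (d g)) = 0 := hDJ' j'.succ 1 le_rfl (by omega)
      have hmm := congrArg D (h3 j' hj')
      rw [Derivation.leibniz, Derivation.leibniz_pow, hg1, smul_zero, smul_zero] at hmm
      change m (j + 1) • D (m j) + m j • D (m (j + 1)) = 0 at hmm
      rw [ih1, smul_zero, zero_add, smul_eq_mul] at hmm
      have hmj : m j ≠ 0 := hm j (by omega)
      have hm1 : D (m (j + 1)) = 0 := (mul_eq_zero.1 hmm).resolve_left hmj
      have hk := congrArg D (h2 j' hj')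
      rw [hg0, map_add, Derivation.leibniz, hDb, smul_zero, zero_add] at hk
      change 0 = Φ j'.succ z • D (m (j + 1)) + D (κ (j + 1)) at hk
      rw [hm1, smul_zero, zero_add] at hk
      exact ⟨hm1, hk.symm⟩
  have hDg : ∀ j, D (Φ j g) = 0 := by
    intro j
    refine Fin.cases ?_ (fun j => ?_) j
    · rw [h0, map_add, Derivation.leibniz, hDb, smul_zero, zero_add, hDm0, hDk0, smul_zero,
        zero_add]
    · obtain ⟨l1, l2⟩ := hline j (by omega)
      rw [h1 j, map_add, Derivation.leibniz, hDb, smul_zero, zero_add, l1, l2, smul_zero,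
        zero_add]
  have hDJ : ∀ j, ∀ i ≤ r + 1, D (Φ j (d^[i] g)) = 0 := by
    intro j i hi
    rcases Nat.eq_zero_or_pos i with rfl | hi0
    · exact hDg j
    · exact hDJ' j i hi0 hi
  -- labels
  have hcoord : ∀ j, Φ j z = PowerSeries.C (τ z) + e j := by
    intro j
    rw [hΦ, pt_coord d _ (he j) hz]
    rfl
  have hbC : ∑ a, lam a * basic δc δs a (PowerSeries.C (τ z)) = lam (Sum.inl 0) := by
    rw [Fintype.sum_sum_type, Fin.sum_univ_two]
    simp only [basic_C]
    simp [basic0, hcz, hsz]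
  have hDe : ∀ j, D (e j) = - lam (Sum.inl 0) := by
    intro j
    have h := hDb j
    rw [hcoord, map_add, hD, der_sum_apply, hbC, ← hD] at h
    linear_combination h
  have hDX : D (PowerSeries.X : S⟦X⟧) = lam (Sum.inl 1) := by
    rw [hD, der_sum_apply, Fintype.sum_sum_type, Fin.sum_univ_two]
    simp [basic]
  have hw0 : lam (Sum.inl 1) = 0 := by
    have ha := hDe 0
    have hb := hDe 1
    rw [he0, D.map_smul, hDX] at ha
    rw [he1, D.map_smul, hDX, ← ha] at hb
    have hc : (u₁ - u₀) • lam (Sum.inl 1) = 0 := by rw [sub_smul, hb, sub_self]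
    rcases smul_eq_zero.1 hc with h | h
    · exact absurd (sub_eq_zero.1 h).symm hu
    · exact h
  have hc0 : lam (Sum.inl 0) = 0 := by
    have h := hDe 0
    rw [he0, D.map_smul, hDX, hw0, smul_zero] at h
    linear_combination h
  have hDe0 : ∀ j, D (e j) = 0 := fun j => by rw [hDe, hc0, neg_zero]
  -- the jets
  have hjet : ∀ j, ∀ i ≤ r + 1, ∑ p : Fin (N + 2) × Fin (r + 1 + 1),
      lam (Sum.inr p) * (PowerSeries.C (cc k (finProdFinEquiv p : ℕ) i)
        * e j ^ ((finProdFinEquiv p : ℕ) - i)) = 0 := by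
    intro j i hi
    have h := hDJ j i hi
    rw [hD, der_sum_apply, hΦ] at h
    simp only [basic_pt, mul_add, Finset.sum_add_distrib] at h
    have h5 : ∑ a, lam a * (pt d ((PowerSeries.C : S →+* S⟦X⟧).comp (τ : H →+* S)) (e j) (he j)
        (d (d^[i] g)) * basic δc δs a (e j)) = 0 := by
      have : ∀ a, lam a * (pt d ((PowerSeries.C : S →+* S⟦X⟧).comp (τ : H →+* S)) (e j) (he j)
        (d (d^[i] g)) * basic δc δs a (e j))
        = pt d ((PowerSeries.C : S →+* S⟦X⟧).comp (τ : H →+* S)) (e j) (he j)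
        (d (d^[i] g)) * (lam a * basic δc δs a (e j)) := fun a => by ring
      rw [Finset.sum_congr rfl fun a _ => this a, ← Finset.mul_sum, ← der_sum_apply, ← hD, hDe0,
        mul_zero]
    rw [h5, add_zero, Fintype.sum_sum_type, Fin.sum_univ_two, hc0, hw0, zero_mul, zero_mul,
      zero_add, zero_add] at h
    rw [← h]
    refine Finset.sum_congr rfl fun p _ => ?_
    congr 1
    exact (evS_delta d τ (he j) (δs (finProdFinEquiv p : ℕ)) _ i
      (hsg (finProdFinEquiv p : ℕ))).symm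
  -- the polynomial
  set n := (N + 2) * (r + 1 + 1) with hn
  let L : Fin n → S⟦X⟧ := fun s => lam (Sum.inr (finProdFinEquiv.symm s))
  let a : Polynomial S⟦X⟧ := ∑ s : Fin n, Polynomial.C (L s * PowerSeries.C (cc k s 0))
    * Polynomial.X ^ (s : ℕ)
  have hnpos : 0 < n := Nat.mul_pos (by omega) (by omega)
  have hcoeff : ∀ s : Fin n, a.coeff s = L s * PowerSeries.C (cc k s 0) := by
    intro s
    simp only [a, Polynomial.finsetSum_coeff, Polynomial.coeff_C_mul, Polynomial.coeff_X_pow]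
    rw [Finset.sum_eq_single s]
    · simp
    · intro b _ hb
      rw [if_neg (fun h => hb (Fin.ext h.symm)), mul_zero]
    · simp
  have hdeg : a.natDegree < n := by
    have : a.natDegree ≤ n - 1 := by
      refine Polynomial.natDegree_sum_le_of_forall_le _ _ fun s _ => ?_
      refine (Polynomial.natDegree_C_mul_X_pow_le _ _).trans ?_
      omega
    omega
  have ha : a = 0 := by
    refine poly_zero e hinj a hdeg fun j i hi => ?_
    have h := hjet j i hi
    rw [← Equiv.sum_comp finProdFinEquiv.symm] at h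
    simp only [Equiv.apply_symm_apply] at h
    rw [← h]
    simp only [a]
    rw [Polynomial.iterate_derivative_sum, Polynomial.eval_finsetSum]
    refine Finset.sum_congr rfl fun s _ => ?_
    rw [Polynomial.iterate_derivative_C_mul, Polynomial.iterate_derivative_X_pow_eq_natCast_mul,
      Polynomial.eval_mul, Polynomial.eval_mul, Polynomial.eval_C, Polynomial.eval_natCast,
      Polynomial.eval_pow, Polynomial.eval_X]
    have h6 : (cc k (s : ℕ) 0 : S) * ((s : ℕ).descFactorial i : S) = cc k (s : ℕ) i := by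
      rw [cc, cc, if_pos (Nat.zero_le _), Nat.sub_zero]
      by_cases his : i ≤ (s : ℕ)
      · rw [if_pos his, ← map_natCast (algebraMap k S), ← map_mul]
        congr 1
        have hf := Nat.factorial_mul_descFactorial his
        have hf' : (((s : ℕ) - i).factorial : k) * ((s : ℕ).descFactorial i : k)
            = ((s : ℕ).factorial : k) := by exact_mod_cast hf
        have n1 : (((s : ℕ) - i).factorial : k) ≠ 0 :=
          Nat.cast_ne_zero.2 (Nat.factorial_ne_zero _)
        have n2 : ((s : ℕ).factorial : k) ≠ 0 := Nat.cast_ne_zero.2 (Nat.factorial_ne_zero _)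
        field_simp
        rw [mul_comm]
        exact hf'
      · rw [if_neg his, Nat.descFactorial_of_lt (by omega), Nat.cast_zero, mul_zero]
    have h7 : (PowerSeries.C (cc k (s : ℕ) i : S) : S⟦X⟧)
        = PowerSeries.C (cc k (s : ℕ) 0 : S) * (((s : ℕ).descFactorial i : ℕ) : S⟦X⟧) := by
      rw [← h6, map_mul, map_natCast]
    rw [h7]
    simp only [L]
    ring
  ext1 i
  rcases i with i | p
  · fin_cases i
    · exact hc0
    · exact hw0
  · have h := hcoeff (finProdFinEquiv p)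
    rw [ha, Polynomial.coeff_zero] at h
    have h8 : (PowerSeries.C (cc k ((finProdFinEquiv p : Fin n) : ℕ) 0 : S) : S⟦X⟧) ≠ 0 := by
      rw [map_ne_zero_iff _ PowerSeries.C_injective]
      rw [cc, if_pos (Nat.zero_le _)]
      intro h0
      have := (algebraMap k S).injective (h0.trans (map_zero _).symm)
      exact inv_ne_zero (Nat.cast_ne_zero.2 (Nat.factorial_ne_zero _)) this
    have h9 := (mul_eq_zero.1 h.symm).resolve_right h8
    simp only [L, Equiv.symm_apply_apply] at h9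
    exact h9

end Chain2

end Crest.Agent.R102.Free781
end
end

-- ▼ part R102/FreeAn_781

/-!
# Row 102, [H3], (RAT): freeness for the chain of `F7_389` (helper781)

If `g` is differentially transcendental near `c₀` then `m₀, k₀, b_j, g⁽ⁱ⁾(b_j)` (`j ≤ N`, `i ≥ 1`)
are algebraically independent, on every nonempty open subset of the polydisc.
-/

set_option autoImplicit false

noncomputable section

namespace Crest.Agent.R102.Free781

open PowerSeries Set Topology TopologicalSpace Metric Crest.Agent.R102.H3 Crest.Agent.R102.F7389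

/-- the disc -/
def VO (c₀ : ℂ) (ρ : ℝ) : Opens ℂ := ⟨ball c₀ ρ, isOpen_ball⟩

/-- the polydisc -/
def WO (c₀ : ℂ) (ρ : ℝ) : Opens (ℂ × ℂ) := ⟨ball c₀ ρ ×ˢ ball 0 ρ, isOpen_ball.prod isOpen_ball⟩

theorem WO_preconnected (c₀ : ℂ) (ρ : ℝ) : IsPreconnected (WO c₀ ρ : Set (ℂ × ℂ)) :=
  IsPreconnected.prod (convex_ball c₀ ρ).isPreconnected (convex_ball 0 ρ).isPreconnected

theorem an_iter {f : ℂ → ℂ} {x : ℂ} (h : AnalyticAt ℂ f x) (n : ℕ) :
    AnalyticAt ℂ (iteratedDeriv n f) x := by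
  rw [iteratedDeriv_eq_iterate]
  exact h.iterated_deriv n

theorem VO_preconnected (c₀ : ℂ) (ρ : ℝ) : IsPreconnected (VO c₀ ρ : Set ℂ) :=
  (convex_ball c₀ ρ).isPreconnected

theorem WO_zero {c₀ : ℂ} {ρ : ℝ} (hρ : 0 < ρ) : ∀ c ∈ VO c₀ ρ, (c, (0 : ℂ)) ∈ WO c₀ ρ :=
  fun _ hc => ⟨hc, mem_ball_self hρ⟩

theorem WO_fst {c₀ : ℂ} {ρ : ℝ} : ∀ p ∈ WO c₀ ρ, p.1 ∈ VO c₀ ρ := fun _ hp => hp.1

/-- `g` is differentially transcendental near `c₀` -/
def DiffTr (g : ℂ → ℂ) (c₀ : ℂ) : Prop :=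
  ∀ P : MvPolynomial (Option ℕ) ℂ,
    (∀ᶠ c in 𝓝 c₀, MvPolynomial.eval (fun o : Option ℕ => o.elim c fun i => iteratedDeriv i g c) P
      = 0) → P = 0

/-- the labels: vertex `0` is `c - ω`, vertex `j + 1` is `c + ω β_j` -/
def lab (β : ℕ → ℂ × ℂ → ℂ) : ℕ → ℂ × ℂ → ℂ
  | 0 => fun p => p.1 - p.2
  | j + 1 => fun p => p.1 + p.2 * β j p

/-- `(b - c)/ω` -/
def labβ (β : ℕ → ℂ × ℂ → ℂ) : ℕ → ℂ × ℂ → ℂ
  | 0 => fun _ => -1
  | j + 1 => β j

theorem lab_eq (β : ℕ → ℂ × ℂ → ℂ) (j : ℕ) (p : ℂ × ℂ) : lab β j p = p.1 + p.2 * labβ β j p := by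
  cases j with
  | zero => simp [lab, labβ]; ring
  | succ j => rfl

variable {g : ℂ → ℂ} {c₀ : ℂ} {N : ℕ} {ρ : ℝ} {β m k q q' : ℕ → ℂ × ℂ → ℂ}

theorem an_labβ (h : Chain g c₀ N ρ β m k q q') (j : ℕ) (hj : j ≤ N + 1) :
    AnalyticOnNhd ℂ (labβ β j) (WO c₀ ρ) := by
  cases j with
  | zero => exact analyticOnNhd_const
  | succ j => exact h.an_β j (by omega)

theorem an_lab (h : Chain g c₀ N ρ β m k q q') (j : ℕ) (hj : j ≤ N + 1) :
    AnalyticOnNhd ℂ (lab β j) (WO c₀ ρ) := by
  have : lab β j = fun p => p.1 + p.2 * labβ β j p := funext fun p => lab_eq β j p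
  rw [this]
  exact analyticOnNhd_fst.add (analyticOnNhd_snd.mul (an_labβ h j hj))

theorem an_g_lab (h : Chain g c₀ N ρ β m k q q') (j : ℕ) (hj : j ≤ N + 1) (p : ℂ × ℂ)
    (hp : p ∈ WO c₀ ρ) : AnalyticAt ℂ g (lab β j p) := by
  cases j with
  | zero => exact h.an_g' p hp
  | succ j => exact h.an_g j (by omega) p hp

theorem an_iter_lab (h : Chain g c₀ N ρ β m k q q') (j : ℕ) (hj : j ≤ N + 1) (i : ℕ) :
    AnalyticOnNhd ℂ (fun p => iteratedDeriv i g (lab β j p)) (WO c₀ ρ) := fun p hp =>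
  AnalyticAt.fun_comp (an_iter (an_g_lab h j hj p hp) i) (an_lab h j hj p hp)

theorem an_g_V (h : Chain g c₀ N ρ β m k q q') : AnalyticOnNhd ℂ g (VO c₀ ρ) := by
  intro c hc
  have := h.an_g' (c, 0) (WO_zero h.ρ_pos c hc)
  simpa using this

theorem iter_ofFun {V : Opens ℂ} (hg : AnalyticOnNhd ℂ g V) (i : ℕ) :
    (DH V)^[i] (Hol.ofFun g hg) = Hol.ofFun (iteratedDeriv i g)
      (fun x hx => an_iter (hg x hx) i) := by
  ext c
  rw [iter_DH]
  refine Filter.EventuallyEq.iteratedDeriv_eq _ ?_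
  exact eventually_ext0_eq (F := g) (fun x => rfl) c.2

theorem ind_V (h : Chain g c₀ N ρ β m k q q') (hinf : DiffTr g c₀) :
    AlgebraicIndependent ℂ (fun o : Option ℕ => (o.elim (zH (VO c₀ ρ))
      fun i => (DH (VO c₀ ρ))^[i] (Hol.ofFun g (an_g_V h)) : Hol (VO c₀ ρ))) := by
  rw [algebraicIndependent_iff]
  intro P hP
  refine hinf P ?_
  filter_upwards [ball_mem_nhds c₀ h.ρ_pos] with c hc
  have h1 := congrArg (evH (⟨c, hc⟩ : VO c₀ ρ)) hP
  rw [map_zero, MvPolynomial.comp_aeval_apply] at h1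
  have e1 : (fun o : Option ℕ => evH (⟨c, hc⟩ : VO c₀ ρ) ((o.elim (zH (VO c₀ ρ))
      fun i => (DH (VO c₀ ρ))^[i] (Hol.ofFun g (an_g_V h)) : Hol (VO c₀ ρ))))
      = fun o : Option ℕ => o.elim c fun i => iteratedDeriv i g c := by
    funext o
    cases o with
    | none => rfl
    | some i =>
      simp only [Option.elim_some]
      rw [iter_ofFun]
      rfl
  rw [e1] at h1
  exact h1

set_option maxHeartbeats 2000000 in
/-- elements of the chain as elements of `Hol W` -/
theorem free_W (h : Chain g c₀ N ρ β m k q q') (hinf : DiffTr g c₀) :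
    AlgebraicIndependent ℂ (gensI (n := N + 2) (A := Hol (WO c₀ ρ))
      (Hol.ofFun (m 0) (h.an_m 0 (Nat.zero_le _))) (Hol.ofFun (k 0) (h.an_k 0 (Nat.zero_le _)))
      (fun j => Hol.ofFun (lab β j) (an_lab h j (by omega)))
      (fun i j => Hol.ofFun (fun p => iteratedDeriv i g (lab β j p))
        (an_iter_lab h j (by omega) i))) := by
  classical
  have : Nonempty (VO c₀ ρ) := ⟨⟨c₀, mem_ball_self h.ρ_pos⟩⟩
  have : IsDomain (Hol (VO c₀ ρ)) := Hol.isDomain (VO_preconnected c₀ ρ)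
  set V := VO c₀ ρ with hV
  set W := WO c₀ ρ with hW
  let S := FractionRing (Hol V)
  let τ : Hol V →ₐ[ℂ] S := IsScalarTower.toAlgHom ℂ (Hol V) S
  have hτinj : Function.Injective τ := IsFractionRing.injective (Hol V) S
  have h0 : ∀ c ∈ V, (c, (0 : ℂ)) ∈ W := WO_zero h.ρ_pos
  have h1 : ∀ p ∈ W, p.1 ∈ V := WO_fst
  -- the expansion
  let Ψ : Hol W →ₐ[ℂ] S⟦X⟧ := (PowerSeries.mapAlgHom τ).comp (TO h0)
  have hΨ : ∀ F, Ψ F = PowerSeries.map (τ : Hol V →+* S) (TO h0 F) := fun F => rfl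
  refine AlgebraicIndependent.of_comp Ψ ?_
  let gH : Hol V := Hol.ofFun g (an_g_V h)
  have hlab0 : ∀ j, ∀ c ∈ V, lab β j (c, 0) = c := by
    intro j c _
    rw [lab_eq]
    simp
  -- e_j
  have hTOlab : ∀ j (hj : j ≤ N + 1), TO h0 (Hol.ofFun (lab β j) (an_lab h j hj)) - C (zH V)
      = X * TO h0 (Hol.ofFun (labβ β j) (an_labβ h j hj)) := by
    intro j hj
    have e1 : (Hol.ofFun (lab β j) (an_lab h j hj) : Hol W)
        = Hol.pull Prod.fst analyticOnNhd_fst h1 (zH V)
          + Hol.ofFun (fun p : ℂ × ℂ => p.2) analyticOnNhd_snd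
            * Hol.ofFun (labβ β j) (an_labβ h j hj) := by
      ext p
      change lab β j p = (Hol.pull Prod.fst analyticOnNhd_fst h1 (zH V) : W → ℂ) p + _
      rw [Hol.pull_apply, lab_eq]
      rfl
    rw [e1, map_add, map_mul, TO_fst, TO_om]
    ring
  let e : Fin (N + 2) → S⟦X⟧ := fun j => PowerSeries.map (τ : Hol V →+* S)
    (TO h0 (Hol.ofFun (lab β j) (an_lab h j (by omega))) - C (zH V))
  have heX : ∀ j : Fin (N + 2), (X : (Hol V)⟦X⟧) ∣
      TO h0 (Hol.ofFun (lab β j) (an_lab h j (by omega))) - C (zH V) := fun j =>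
    X_dvd_TO_sub h0 _ (hlab0 j)
  have he : ∀ j, (X : S⟦X⟧) ∣ e j := by
    intro j
    have := map_dvd (PowerSeries.map (τ : Hol V →+* S)) (heX j)
    rwa [PowerSeries.map_X] at this
  have he' : ∀ j : Fin (N + 2), e j = X * PowerSeries.map (τ : Hol V →+* S)
      (TO h0 (Hol.ofFun (labβ β j) (an_labβ h j (Nat.lt_succ_iff.1 j.2)))) := by
    intro j
    simp only [e]
    rw [hTOlab j (Nat.lt_succ_iff.1 j.2), map_mul, PowerSeries.map_X]
  let Φ : Fin (N + 2) → Hol V →+* S⟦X⟧ := fun j =>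
    pt (DH V) ((PowerSeries.C : S →+* S⟦X⟧).comp (τ : Hol V →+* S)) (e j) (he j)
  -- the key formula
  have hkey : ∀ (j : Fin (N + 2)) (G : ℂ → ℂ) (hG : AnalyticOnNhd ℂ G V)
      (hGb : AnalyticOnNhd ℂ (fun p => G (lab β j p)) W),
      Ψ (Hol.ofFun (fun p => G (lab β j p)) hGb) = Φ j (Hol.ofFun G hG) := by
    intro j G hG hGb
    rw [hΨ, TO_comp h0 h1 hG (an_lab h j (by omega)) (hlab0 j) hGb (heX j)]
    have hχ : (X : S⟦X⟧) ∣ PowerSeries.map (τ : Hol V →+* S) X := by
      rw [PowerSeries.map_X]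
    have h2 := comp_pt (DH V) (PowerSeries.map (τ : Hol V →+* S)) hχ
      (C : Hol V →+* (Hol V)⟦X⟧) (heX j)
    have h3 := congrArg (fun f : Hol V →+* S⟦X⟧ => f (Hol.ofFun G hG)) h2
    simp only [RingHom.comp_apply] at h3
    rw [h3]
    have h4 : (PowerSeries.map (τ : Hol V →+* S)).comp (C : Hol V →+* (Hol V)⟦X⟧)
        = (PowerSeries.C : S →+* S⟦X⟧).comp (τ : Hol V →+* S) := by
      refine RingHom.ext fun f => ?_
      simp
    exact congrArg (fun f : Hol V →+* S⟦X⟧ => f (Hol.ofFun G hG))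
      (pt_congr (DH V) _ (he j) h4 rfl)
  have hkz : ∀ j : Fin (N + 2),
      Ψ (Hol.ofFun (lab β j) (an_lab h j (by omega))) = Φ j (zH V) := fun j =>
    hkey j (fun z => z) analyticOnNhd_id (an_lab h j (by omega))
  have hki : ∀ (j : Fin (N + 2)) (i : ℕ),
      Ψ (Hol.ofFun (fun p => iteratedDeriv i g (lab β j p)) (an_iter_lab h j (by omega) i))
        = Φ j ((DH V)^[i] gH) := by
    intro j i
    rw [iter_ofFun]
    exact hkey j (iteratedDeriv i g) (fun x hx => an_iter (an_g_V h x hx) i)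
      (an_iter_lab h j (by omega) i)
  have hkg : ∀ (j : Fin (N + 2)) (hb : AnalyticOnNhd ℂ (fun p => g (lab β j p)) W),
      Ψ (Hol.ofFun (fun p => g (lab β j p)) hb) = Φ j gH := fun j hb =>
    hkey j g (an_g_V h) hb
  have hkd : ∀ (j : Fin (N + 2)) (hb : AnalyticOnNhd ℂ (fun p => deriv g (lab β j p)) W),
      Ψ (Hol.ofFun (fun p => deriv g (lab β j p)) hb) = Φ j (DH V gH) := by
    intro j hb
    have := hkey j (deriv g) (an_g_V h).deriv hb
    rw [this, DH_ofFun]
  have hagl : ∀ j : Fin (N + 2), AnalyticOnNhd ℂ (fun p => g (lab β j p)) W := by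
    intro j
    have := an_iter_lab h j (by omega) 0
    simpa using this
  have hadl : ∀ j : Fin (N + 2), AnalyticOnNhd ℂ (fun p => deriv g (lab β j p)) W := by
    intro j
    have := an_iter_lab h j (by omega) 1
    simpa [iteratedDeriv_one] using this
  -- the lines
  let mH : ℕ → Hol W := fun j => if hj : j ≤ N then Hol.ofFun (m j) (h.an_m j hj) else 0
  let kH : ℕ → Hol W := fun j => if hj : j ≤ N then Hol.ofFun (k j) (h.an_k j hj) else 0
  have hmH : ∀ j (hj : j ≤ N), mH j = Hol.ofFun (m j) (h.an_m j hj) := fun j hj => dif_pos hj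
  have hkH : ∀ j (hj : j ≤ N), kH j = Hol.ofFun (k j) (h.an_k j hj) := fun j hj => dif_pos hj
  have hind := ind_V h hinf
  have hindS : AlgebraicIndependent ℂ (fun o : Option ℕ => τ (o.elim (zH V)
      fun i => (DH V)^[i] gH)) := hind.map' hτinj
  have hinj : Function.Injective e := by
    intro j j' hjj
    rw [he', he'] at hjj
    have h2 := mul_left_cancel₀ (PowerSeries.X_ne_zero (R := S)) hjj
    have h3 : ∀ j : Fin (N + 2), constantCoeff (TO h0 (Hol.ofFun (labβ β j)
        (an_labβ h j (by omega)))) = algebraMap ℂ (Hol V) (2 * (j : ℂ) - 1) := by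
      intro j
      ext c
      rw [constantCoeff_TO]
      change labβ β j ((c : ℂ), 0) = 2 * (j : ℂ) - 1
      rcases j with ⟨j, hj⟩
      cases j with
      | zero => simp [labβ]
      | succ j =>
        simp only [labβ]
        rw [h.β_c j (by omega) c c.2]
        push_cast
        ring
    have h4 := congrArg constantCoeff h2
    have h5 : ∀ F : (Hol V)⟦X⟧, constantCoeff (PowerSeries.map (τ : Hol V →+* S) F)
        = τ (constantCoeff F) := by
      intro F
      rw [← coeff_zero_eq_constantCoeff_apply, PowerSeries.coeff_map,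
        coeff_zero_eq_constantCoeff_apply]
      rfl
    rw [h5, h5, h3, h3] at h4
    have h6 := hτinj h4
    have h7 : (2 * ((j : ℕ) : ℂ) - 1) = 2 * ((j' : ℕ) : ℂ) - 1 :=
      (algebraMap ℂ (Hol V)).injective h6
    have h8 : ((j : ℕ) : ℂ) = ((j' : ℕ) : ℂ) := by linear_combination h7 / 2
    exact Fin.ext (by exact_mod_cast h8)
  have hline : ∀ (j : Fin (N + 2)) (l : ℕ), l ≤ N →
      (∀ p ∈ W, g (lab β j p) = m l p * lab β j p + k l p) →
      Φ j gH = Ψ (mH l) * Φ j (zH V) + Ψ (kH l) := by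
    intro j l hl hp
    rw [← hkg j (hagl j), ← hkz j, hmH l hl, hkH l hl, ← map_mul, ← map_add]
    congr 1
    ext p
    exact hp p p.2
  have main := fun r => free2_r (DH V) τ (z := zH V) (g := gH) (N := N) (DH_zH V) hindS e he
    (-1 : ℂ) (1 : ℂ) (by norm_num) ?_ ?_ hinj Φ (fun j => rfl) (fun j => Ψ (mH j))
    (fun j => Ψ (kH j)) ?_ ?_ ?_ ?_ ?_ r
  · have h9 := gensI_ind _ _ _ _ main
    convert! h9 using 1
    funext x
    rcases x with x | ⟨j, i⟩
    · fin_cases x
      · exact congrArg Ψ (hmH 0 (Nat.zero_le _)).symm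
      · exact congrArg Ψ (hkH 0 (Nat.zero_le _)).symm
    · simp only [Function.comp_apply, gensI, Sum.elim_inr]
      split_ifs with hi
      · exact hkz j
      · exact hki j i
  · -- e 0
    rw [he']
    have h10 : (Hol.ofFun (labβ β ((0 : Fin (N + 2)) : ℕ)) (an_labβ h _ (by simp)) : Hol W)
        = -1 := by
      ext p; rfl
    rw [h10, map_neg, map_one, map_neg, map_one, neg_smul, one_smul, mul_neg, mul_one]
  · rw [he']
    have h10 : (Hol.ofFun (labβ β ((1 : Fin (N + 2)) : ℕ)) (an_labβ h _ (by simp)) : Hol W)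
        = 1 := by
      ext p
      change labβ β ((1 : Fin (N + 2)) : ℕ) p = 1
      have : ((1 : Fin (N + 2)) : ℕ) = 0 + 1 := by simp
      rw [this]
      simp [labβ, h.β_zero]
    rw [h10, map_one, map_one, one_smul, mul_one]
  · -- m ≠ 0
    intro j hj h11
    simp only [hmH j hj, hΨ] at h11
    have h12 : TO h0 (Hol.ofFun (m j) (h.an_m j hj)) = 0 := by
      refine PowerSeries.map_injective (τ : Hol V →+* S) hτinj ?_
      rw [h11, map_zero]
    have h13 := congrArg constantCoeff h12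
    have hc : c₀ ∈ V := mem_ball_self h.ρ_pos
    have h14 := congrArg (fun f : Hol V => (f : V → ℂ) ⟨c₀, hc⟩) h13
    simp only [constantCoeff_TO] at h14
    exact h.m_ne j hj (c₀, 0) (h0 c₀ hc) h14
  · -- vertex 0 on line 0
    exact hline 0 0 (Nat.zero_le _) h.chord
  · intro j
    exact hline j.succ j (by omega) (fun p hp => h.inc j (by omega) p hp)
  · intro j hj
    exact hline j.succ (j + 1) (by omega) (fun p hp => h.inc' j hj p hp)
  · intro j hj
    have h15 := hkd j.succ (hadl j.succ)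
    rw [hmH (j + 1) (by omega), hmH j (by omega)]
    change Ψ _ * Ψ _ = (Φ j.succ (DH V gH)) ^ 2
    rw [← h15, ← map_mul, ← map_pow]
    congr 1
    ext p
    exact h.refl j hj p p.2

/-- **Freeness for the chain of `F7_389`**: no polynomial relation between `m₀, k₀, b_j`,
`g⁽ⁱ⁾(b_j)` (`j ≤ N`, `i ≥ 1`) on a nonempty open subset of the polydisc. -/
theorem free_fun (h : Chain g c₀ N ρ β m k q q') (hinf : DiffTr g c₀)
    (P : MvPolynomial (Fin 2 ⊕ (Fin (N + 1) × ℕ)) ℂ) (O : Set (ℂ × ℂ)) (hO : IsOpen O)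
    (hne : O.Nonempty) (hsub : O ⊆ ball c₀ ρ ×ˢ ball 0 ρ)
    (hP : ∀ p ∈ O, MvPolynomial.eval (Sum.elim ![m 0 p, k 0 p]
      (fun i : Fin (N + 1) × ℕ => if i.2 = 0 then p.1 + p.2 * β i.1 p
        else iteratedDeriv i.2 g (p.1 + p.2 * β i.1 p))) P = 0) : P = 0 := by
  classical
  let x := gensI (n := N + 2) (A := Hol (WO c₀ ρ))
      (Hol.ofFun (m 0) (h.an_m 0 (Nat.zero_le _))) (Hol.ofFun (k 0) (h.an_k 0 (Nat.zero_le _)))
      (fun j => Hol.ofFun (lab β j) (an_lab h j (by omega)))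
      (fun i j => Hol.ofFun (fun p => iteratedDeriv i g (lab β j p))
        (an_iter_lab h j (by omega) i))
  have hx : AlgebraicIndependent ℂ x := free_W h hinf
  -- drop the vertex `0` (`c - ω`)
  let φ : Fin 2 ⊕ (Fin (N + 1) × ℕ) → Fin 2 ⊕ (Fin (N + 2) × ℕ) :=
    Sum.map id fun p => (p.1.succ, p.2)
  have hφ : Function.Injective φ := by
    refine Function.Injective.sumMap Function.injective_id ?_
    rintro ⟨a, b⟩ ⟨a', b'⟩ hab
    simp only [Prod.mk.injEq, Fin.succ_inj] at hab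
    exact Prod.ext hab.1 hab.2
  have hy : AlgebraicIndependent ℂ (x ∘ φ) := hx.comp φ hφ
  rw [algebraicIndependent_iff] at hy
  refine hy P ?_
  obtain ⟨p₀, hp₀⟩ := hne
  refine Hol.eq_zero_of_eventually (WO_preconnected c₀ ρ) _ ⟨p₀, hsub hp₀⟩ ?_
  filter_upwards [hO.mem_nhds hp₀] with p hp
  rw [ext0_of_mem _ (show p ∈ WO c₀ ρ from hsub hp)]
  have h1 := hP p hp
  have h2 : evH (⟨p, hsub hp⟩ : WO c₀ ρ) (MvPolynomial.aeval (x ∘ φ) P) = 0 := by
    rw [MvPolynomial.comp_aeval_apply]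
    have e1 : (fun i => evH (⟨p, hsub hp⟩ : WO c₀ ρ) ((x ∘ φ) i)) = Sum.elim ![m 0 p, k 0 p]
      (fun i : Fin (N + 1) × ℕ => if i.2 = 0 then p.1 + p.2 * β i.1 p
        else iteratedDeriv i.2 g (p.1 + p.2 * β i.1 p)) := by
      funext i
      rcases i with i | ⟨j, i⟩
      · fin_cases i <;> rfl
      · simp only [Function.comp_apply, φ, Sum.map_inr, x, gensI, Sum.elim_inr]
        split_ifs with hi
        · rfl
        · rfl
    rw [e1]
    exact h1
  exact h2

end Crest.Agent.R102.Free781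
end
private theorem rz_837e3a9aea : type_of% @_root_.Crest.Agent.R102.Free781.lab.eq_1 := @_root_.Crest.Agent.R102.Free781.lab.eq_1 -- L49
private theorem rz_b021d3a1b0 : type_of% @_root_.Crest.Agent.R102.Free781.«labβ».eq_1 := @_root_.Crest.Agent.R102.Free781.«labβ».eq_1 -- L54
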