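import Mathlib

/-!
Row 102, part (C), leaf H3 (collapse theorem): rings of holomorphic functions.

`Hol U` (`U` an open set of a complex normed space) is the algebra of the functions `U → ℂ`
whose extension by zero is analytic on `U`.
-/

set_option linter.unusedSectionVars false
set_option linter.deprecated false

namespace Crest.Agent.R102.H3

open Set Topology TopologicalSpace

section basic

variable {E : Type*} [NormedAddCommGroup E] [NormedSpace ℂ E]

/-- extension by zero -/
noncomputable def ext0 {U : Opens E} (f : U → ℂ) : E → ℂ := by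
  classical
  exact fun x => if h : x ∈ U then f ⟨x, h⟩ else 0

theorem ext0_apply {U : Opens E} (f : U → ℂ) (x : U) : ext0 f (x : E) = f x := by
  simp [ext0]

theorem ext0_of_mem {U : Opens E} (f : U → ℂ) {x : E} (h : x ∈ U) : ext0 f x = f ⟨x, h⟩ := by
  simp [ext0, h]

theorem ext0_of_not_mem {U : Opens E} (f : U → ℂ) {x : E} (h : x ∉ U) : ext0 f x = 0 := by
  simp [ext0, h]

theorem ext0_add {U : Opens E} (f g : U → ℂ) : ext0 (f + g) = ext0 f + ext0 g := by
  funext x
  by_cases h : x ∈ U <;> simp [ext0, h]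

theorem ext0_mul {U : Opens E} (f g : U → ℂ) : ext0 (f * g) = ext0 f * ext0 g := by
  funext x
  by_cases h : x ∈ U <;> simp [ext0, h]

theorem eventually_ext0_eq {U : Opens E} {F : E → ℂ} {f : U → ℂ} (h : ∀ x : U, F x = f x)
    {x : E} (hx : x ∈ U) : ext0 f =ᶠ[𝓝 x] F := by
  filter_upwards [U.isOpen.mem_nhds hx] with y hy
  rw [ext0_of_mem f hy, ← h ⟨y, hy⟩]

theorem analyticOnNhd_ext0 {U : Opens E} {F : E → ℂ} {f : U → ℂ} (h : ∀ x : U, F x = f x)
    (hF : AnalyticOnNhd ℂ F U) : AnalyticOnNhd ℂ (ext0 f) U := fun x hx =>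
  (hF x hx).congr (eventually_ext0_eq h hx).symm

/-- The algebra of holomorphic functions on the open set `U`. -/
noncomputable def Hol (U : Opens E) : Subalgebra ℂ (U → ℂ) where
  carrier := {f | AnalyticOnNhd ℂ (ext0 f) U}
  add_mem' := by
    intro f g hf hg
    simp only [mem_setOf_eq] at *
    rw [ext0_add]
    exact hf.add hg
  mul_mem' := by
    intro f g hf hg
    simp only [mem_setOf_eq] at *
    rw [ext0_mul]
    exact hf.mul hg
  algebraMap_mem' := by
    intro c
    simp only [mem_setOf_eq]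
    exact analyticOnNhd_ext0 (F := fun _ => c) (fun x => rfl) analyticOnNhd_const


theorem Hol.an {U : Opens E} (f : Hol U) : AnalyticOnNhd ℂ (ext0 (f : U → ℂ)) U := f.2

/-- the element of `Hol U` given by a function analytic on `U` -/
noncomputable def Hol.ofFun {U : Opens E} (F : E → ℂ) (hF : AnalyticOnNhd ℂ F U) : Hol U :=
  ⟨fun x => F x, analyticOnNhd_ext0 (fun _ => rfl) hF⟩

@[simp] theorem Hol.ofFun_apply {U : Opens E} (F : E → ℂ) (hF : AnalyticOnNhd ℂ F U) (x : U) :
    (Hol.ofFun F hF : U → ℂ) x = F x := rfl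

theorem Hol.ofFun_ext0 {U : Opens E} (f : Hol U) :
    Hol.ofFun (ext0 (f : U → ℂ)) (Hol.an f) = f := by
  ext x
  exact ext0_apply _ _

/-- evaluation at a point -/
noncomputable def evH {U : Opens E} (x : U) : Hol U →ₐ[ℂ] ℂ :=
  (Pi.evalAlgHom ℂ (fun _ : U => ℂ) x).comp (Hol U).val

@[simp] theorem evH_apply {U : Opens E} (x : U) (f : Hol U) : evH x f = (f : U → ℂ) x := rfl

theorem Hol.ext_ev {U : Opens E} {f g : Hol U} (h : ∀ x : U, evH x f = evH x g) : f = g := by
  ext x
  exact h x

/-- restriction -/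
noncomputable def Hol.res {U V : Opens E} (h : V ≤ U) : Hol U →ₐ[ℂ] Hol V where
  toFun f := ⟨fun x => (f : U → ℂ) ⟨x, h x.2⟩, by
    refine analyticOnNhd_ext0 (F := ext0 (f : U → ℂ)) (fun x => ?_)
      ((Hol.an f).mono h)
    exact ext0_of_mem _ _⟩
  map_one' := rfl
  map_mul' _ _ := rfl
  map_zero' := rfl
  map_add' _ _ := rfl
  commutes' _ := rfl

@[simp] theorem Hol.res_apply {U V : Opens E} (h : V ≤ U) (f : Hol U) (x : V) :
    (Hol.res h f : V → ℂ) x = (f : U → ℂ) ⟨x, h x.2⟩ := rfl

/-- nowhere vanishing functions are units -/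
theorem Hol.isUnit {U : Opens E} (f : Hol U) (h : ∀ x : U, (f : U → ℂ) x ≠ 0) : IsUnit f := by
  have hinv : (fun x : U => ((f : U → ℂ) x)⁻¹) ∈ Hol U := by
    refine analyticOnNhd_ext0 (F := fun x => (ext0 (f : U → ℂ) x)⁻¹) (fun x => ?_) ?_
    · simp only [ext0_apply]
    · intro x hx
      refine ((Hol.an f) x hx).inv ?_
      rw [ext0_of_mem _ hx]
      exact h _
  refine IsUnit.of_mul_eq_one ⟨_, hinv⟩ ?_
  ext x
  exact mul_inv_cancel₀ (h x)


/-- identity theorem -/
theorem Hol.eq_zero_of_eventually {U : Opens E} (hU : IsPreconnected (U : Set E)) (f : Hol U)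
    (x : U) (h : ∀ᶠ y in 𝓝 (x : E), ext0 (f : U → ℂ) y = 0) : f = 0 := by
  have := (Hol.an f).eqOn_zero_of_preconnected_of_eventuallyEq_zero hU x.2 h
  ext y
  have h2 := this y.2
  rw [ext0_apply] at h2
  simpa using h2

end basic

section onevar

/-- the derivation `d/dz` of `Hol V`, `V ⊆ ℂ` -/
noncomputable def DH (V : Opens ℂ) : Derivation ℂ (Hol V) (Hol V) where
  toFun f := ⟨fun x => deriv (ext0 (f : V → ℂ)) x,
    analyticOnNhd_ext0 (F := deriv (ext0 (f : V → ℂ))) (fun _ => rfl) (Hol.an f).deriv⟩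
  map_add' f g := by
    ext x
    simp only [Subalgebra.coe_add, Pi.add_apply]
    rw [ext0_add]
    exact deriv_add ((Hol.an f) x x.2).differentiableAt
      ((Hol.an g) x x.2).differentiableAt
  map_smul' c f := by
    ext x
    have : ext0 ((c • f : Hol V) : V → ℂ) = fun z => c * ext0 (f : V → ℂ) z := by
      funext z
      by_cases h : z ∈ V <;> simp [ext0, h]
    simp only [RingHom.id_apply]
    change deriv (ext0 ((c • f : Hol V) : V → ℂ)) x = c • deriv (ext0 (f : V → ℂ)) x
    rw [this, deriv_const_mul_field, smul_eq_mul]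
  map_one_eq_zero' := by
    ext x
    change deriv (ext0 (1 : V → ℂ)) x = 0
    rw [(eventually_ext0_eq (F := fun _ => (1:ℂ)) (f := (1 : V → ℂ)) (fun _ => rfl)
      x.2).deriv_eq, deriv_const]
  leibniz' f g := by
    ext x
    change deriv (ext0 ((f : V → ℂ) * (g : V → ℂ))) x = _
    rw [ext0_mul]
    have := deriv_mul ((Hol.an f) x x.2).differentiableAt
      ((Hol.an g) x x.2).differentiableAt
    rw [this]
    simp only [smul_eq_mul, Subalgebra.coe_add, Subalgebra.coe_mul, Pi.add_apply, Pi.mul_apply]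
    rw [ext0_apply, ext0_apply]
    have e : ∀ a b c d : ℂ, a * b + c * d = b * a + c * d := fun a b c d => by ring
    rw [e, add_comm]
    rfl

theorem DH_apply {V : Opens ℂ} (f : Hol V) (x : V) :
    (DH V f : V → ℂ) x = deriv (ext0 (f : V → ℂ)) x := rfl

theorem DH_ofFun {V : Opens ℂ} (F : ℂ → ℂ) (hF : AnalyticOnNhd ℂ F V) :
    DH V (Hol.ofFun F hF) = Hol.ofFun (deriv F) hF.deriv := by
  ext x
  rw [DH_apply]
  exact (eventually_ext0_eq (F := F) (f := (Hol.ofFun F hF : V → ℂ)) (fun _ => rfl)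
      x.2).deriv_eq

/-- the coordinate function -/
noncomputable def zH (V : Opens ℂ) : Hol V := Hol.ofFun (fun z => z) analyticOnNhd_id

@[simp] theorem DH_zH (V : Opens ℂ) : DH V (zH V) = 1 := by
  rw [zH, DH_ofFun]
  ext x
  simp

end onevar

end Crest.Agent.R102.H3

namespace Crest.Agent.R102.H3

open Set Topology TopologicalSpace

section domain

variable {E : Type*} [NormedAddCommGroup E] [NormedSpace ℂ E]

instance Hol.nontrivial {U : Opens E} [Nonempty U] : Nontrivial (Hol U) := by
  obtain ⟨x⟩ := ‹Nonempty U›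
  exact (evH x).toRingHom.domain_nontrivial

/-- `Hol U` is a domain if `U` is connected. -/
theorem Hol.isDomain {U : Opens E} [hne : Nonempty U] (hU : IsPreconnected (U : Set E)) :
    IsDomain (Hol U) := by
  have key : NoZeroDivisors (Hol U) := by
    refine ⟨fun {f g} hfg => ?_⟩
    by_contra hcon
    push Not at hcon
    obtain ⟨hf, hg⟩ := hcon
    -- `f` is nonzero at some point, hence near it, hence `g` vanishes near it
    have : ∃ x : U, (f : U → ℂ) x ≠ 0 := by
      by_contra h
      push Not at h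
      exact hf (by ext x; exact h x)
    obtain ⟨x, hx⟩ := this
    refine hg (Hol.eq_zero_of_eventually hU g x ?_)
    have hc : ContinuousAt (ext0 (f : U → ℂ)) x := (Hol.an f x x.2).continuousAt
    have hx' : ext0 (f : U → ℂ) x ≠ 0 := by rwa [ext0_apply]
    filter_upwards [hc.eventually_ne hx', U.isOpen.mem_nhds x.2] with y hy hyU
    have h1 : (f : U → ℂ) ⟨y, hyU⟩ * (g : U → ℂ) ⟨y, hyU⟩ = 0 := by
      have := congrArg (fun F : Hol U => (F : U → ℂ) ⟨y, hyU⟩) hfg
      simpa using this
    rw [ext0_of_mem _ hyU] at hy ⊢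
    exact (mul_eq_zero.1 h1).resolve_left hy
  exact { key, Hol.nontrivial with }


end domain

end Crest.Agent.R102.H3
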