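import Mathlib
import Crest.Agent.R102.Mer_88
import Crest.Agent.R102.Hol_575
import Crest.Agent.R102.DF_389

/-!
Row 102, (RAT), R7a (helper217): the field of meromorphically continuable germs.

`U` an open preconnected neighbourhood of `x0`, `M` the fraction field of `Hol U`, `D i` derivations
of `M` which extend the directional derivatives `v i`.  `Cont Ω x0 f` : the element `f` of `M` is
represented near `x0` by a function meromorphic (`MerAt`, several variables) at every point of `Ω`.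

* `MerAt.add, mul, neg, inv', lineDeriv` : the algebra of meromorphic functions;
* `contField` : `{f | Cont Ω x0 f}` is an intermediate field, stable under the `D i`;
* `cont_of_dfield` : hence it contains `dfield D S` as soon as it contains `S`.
-/

set_option autoImplicit false
set_option linter.unusedSectionVars false

open Set Filter Topology Metric TopologicalSpace

noncomputable section

namespace Crest.Agent.R102.MerF217

open Crest.Agent.R102.Mer88 Crest.Agent.R102.H3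

variable {E : Type*} [NormedAddCommGroup E] [NormedSpace ℂ E]

/-! ### algebra of representations -/

theorem Rep.add {f g P Q P' Q' : E → ℂ} {c : E} (h : Rep f P Q c) (h' : Rep g P' Q' c) :
    Rep (fun x => f x + g x) (fun x => P x * Q' x + P' x * Q x) (fun x => Q x * Q' x) c := by
  obtain ⟨D, hD, h1⟩ := h
  obtain ⟨D', hD', h1'⟩ := h'
  refine ⟨fun x => D x * D' x, hD.mul hD', ?_⟩
  filter_upwards [h1, h1'] with x hx hx' h0
  have h2 := hx (left_ne_zero_of_mul h0)
  have h3 := hx' (right_ne_zero_of_mul h0)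
  linear_combination Q' x * h2 + Q x * h3

theorem Rep.mul {f g P Q P' Q' : E → ℂ} {c : E} (h : Rep f P Q c) (h' : Rep g P' Q' c) :
    Rep (fun x => f x * g x) (fun x => P x * P' x) (fun x => Q x * Q' x) c := by
  obtain ⟨D, hD, h1⟩ := h
  obtain ⟨D', hD', h1'⟩ := h'
  refine ⟨fun x => D x * D' x, hD.mul hD', ?_⟩
  filter_upwards [h1, h1'] with x hx hx' h0
  have h2 := hx (left_ne_zero_of_mul h0)
  have h3 := hx' (right_ne_zero_of_mul h0)
  rw [← h2, ← h3]; ring

theorem Rep.inv {f P Q : E → ℂ} {c : E} (hP : NZ P c) (h : Rep f P Q c) :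
    Rep (fun x => (f x)⁻¹) Q P c := by
  obtain ⟨D, hD, h1⟩ := h
  refine ⟨fun x => D x * P x, hD.mul hP, ?_⟩
  filter_upwards [h1] with x hx h0
  have h2 := hx (left_ne_zero_of_mul h0)
  have h3 : P x ≠ 0 := right_ne_zero_of_mul h0
  have h4 : f x ≠ 0 := by
    rintro h5
    rw [h5, mul_zero] at h2
    exact h3 h2.symm
  rw [← h2]
  field_simp

theorem NZ.analyticAt {D : E → ℂ} {c : E} (h : NZ D c) : AnalyticAt ℂ D c := h.1

/-- a function represented by a quotient is analytic where the denominator and the exceptional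
function do not vanish -/
theorem Rep.fderiv {f P Q : E → ℂ} {c : E} (hP : AnalyticAt ℂ P c) (hQ : NZ Q c)
    (h : Rep f P Q c) (v : E) :
    Rep (fun x => fderiv ℂ f x v)
      (fun x => fderiv ℂ P x v * Q x - P x * fderiv ℂ Q x v) (fun x => Q x * Q x) c := by
  obtain ⟨D, hD, h1⟩ := h
  refine ⟨fun x => D x * Q x, hD.mul hQ, ?_⟩
  have h1' := h1.eventually_nhds
  filter_upwards [h1', hP.eventually_analyticAt, hQ.1.eventually_analyticAt,
    hD.1.eventually_analyticAt] with x hx hPx hQx hDx h0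
  have hD0 := left_ne_zero_of_mul h0
  have hQ0 : Q x ≠ 0 := right_ne_zero_of_mul h0
  have e1 : f =ᶠ[𝓝 x] fun y => P y / Q y := by
    filter_upwards [hx, hDx.continuousAt.eventually_ne hD0, hQx.continuousAt.eventually_ne hQ0]
      with y hy hy1 hy2
    have := hy hy1
    rw [← this]; field_simp
  rw [e1.fderiv_eq]
  have hPd := hPx.differentiableAt
  have hQd := hQx.differentiableAt
  set F : E → ℂ := fun y => P y / Q y with hF
  have hFd : DifferentiableAt ℂ F x := (hPx.div hQx hQ0).differentiableAt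
  have e2 : P =ᶠ[𝓝 x] fun y => F y * Q y := by
    filter_upwards [hQx.continuousAt.eventually_ne hQ0] with y hy
    simp only [hF]; field_simp
  have e3 : _root_.fderiv ℂ P x v = _root_.fderiv ℂ F x v * Q x + F x * _root_.fderiv ℂ Q x v := by
    rw [e2.fderiv_eq, fderiv_fun_mul hFd hQd]
    simp only [ContinuousLinearMap.add_apply, ContinuousLinearMap.smul_apply, smul_eq_mul]
    ring
  rw [e3, e2.eq_of_nhds]
  ring

theorem merAt_const (a : ℂ) (c : E) : MerAt (fun _ : E => a) c := merAt_of_analyticAt analyticAt_const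

theorem MerAt.add {f g : E → ℂ} {c : E} (h : MerAt f c) (h' : MerAt g c) :
    MerAt (fun x => f x + g x) c := by
  obtain ⟨P, Q, hP, hQ, hR⟩ := h
  obtain ⟨P', Q', hP', hQ', hR'⟩ := h'
  exact ⟨_, _, (hP.mul hQ'.1).add (hP'.mul hQ.1), hQ.mul hQ', Rep.add hR hR'⟩

theorem MerAt.mul {f g : E → ℂ} {c : E} (h : MerAt f c) (h' : MerAt g c) :
    MerAt (fun x => f x * g x) c := by
  obtain ⟨P, Q, hP, hQ, hR⟩ := h
  obtain ⟨P', Q', hP', hQ', hR'⟩ := h'
  exact ⟨_, _, hP.mul hP', hQ.mul hQ', Rep.mul hR hR'⟩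

theorem MerAt.fderiv {f : E → ℂ} {c : E} (h : MerAt f c) (v : E) :
    MerAt (fun x => fderiv ℂ f x v) c := by
  obtain ⟨P, Q, hP, hQ, hR⟩ := h
  have a1 : ∀ {F : E → ℂ}, AnalyticAt ℂ F c → AnalyticAt ℂ (fun x => _root_.fderiv ℂ F x v) c :=
    fun {F} hF => (ContinuousLinearMap.apply ℂ ℂ v).analyticAt _ |>.comp hF.fderiv
  exact ⟨_, _, ((a1 hP).mul hQ.1).sub (hP.mul (a1 hQ.1)), hQ.mul hQ, Rep.fderiv hP hQ hR v⟩

/-- the inverse of a function meromorphic on a preconnected set, which is not the function `0`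
near one of its points -/
theorem merAt_inv {f P Q : E → ℂ} {S : Set E} (hS : IsPreconnected S) (hf : ∀ c ∈ S, MerAt f c)
    {c0 : E} (hc0 : c0 ∈ S) (hP : NZ P c0) (hQ : AnalyticAt ℂ Q c0) (h0 : Rep f P Q c0) :
    ∀ c ∈ S, MerAt (fun x => (f x)⁻¹) c := by
  intro c hc
  obtain ⟨P1, Q1, hP1, hQ1, hR1⟩ := hf c hc
  by_cases h : NZ P1 c
  · exact ⟨Q1, P1, hQ1.1, h, Rep.inv h hR1⟩
  exfalso
  have h1 : ∀ᶠ x in 𝓝 c, P1 x = 0 := by
    by_contra hcon
    rw [not_eventually] at hcon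
    exact h ⟨hP1, hcon⟩
  have h2 : Rep f (fun _ => 0) (fun _ => 1) c := by
    refine Rep.transfer hQ1 hR1 ?_
    filter_upwards [h1] with x hx
    rw [hx]; ring
  have h3 := rep_of_preconnected hS hf (fun _ _ => analyticAt_const) (fun _ _ => analyticAt_const)
    hc h2 c0 hc0
  have h4 := Rep.unique hP.1 hQ analyticAt_const analyticAt_const h0 h3
  refine hP.2 ?_
  filter_upwards [h4] with x hx
  simp only [mul_one, zero_mul, sub_zero] at hx
  exact not_not.2 hx

/-! ### continuable elements of the fraction field -/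

section field

variable {U : Opens E} {M : Type*} [Field M] [Algebra ℂ M] [Algebra (Hol U) M]
  [IsScalarTower ℂ (Hol U) M] [IsFractionRing (Hol U) M]

/-- the directional derivative of `Hol U` -/
def dV (v : E) (f : Hol U) : Hol U :=
  Hol.ofFun (fun x => fderiv ℂ (ext0 (f : U → ℂ)) x v) (fun x hx =>
    (ContinuousLinearMap.apply ℂ ℂ v).analyticAt _ |>.comp ((Hol.an f) x hx).fderiv)

theorem ext0_dV (v : E) (f : Hol U) {x : E} (hx : x ∈ U) :
    ext0 (dV v f : U → ℂ) x = fderiv ℂ (ext0 (f : U → ℂ)) x v := by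
  rw [ext0_of_mem _ hx]; rfl

theorem hol_ext0_add (f g : Hol U) (x : E) :
    ext0 ((f + g : Hol U) : U → ℂ) x = ext0 (f : U → ℂ) x + ext0 (g : U → ℂ) x := by
  rw [Subalgebra.coe_add, ext0_add]; rfl

theorem hol_ext0_mul (f g : Hol U) (x : E) :
    ext0 ((f * g : Hol U) : U → ℂ) x = ext0 (f : U → ℂ) x * ext0 (g : U → ℂ) x := by
  rw [Subalgebra.coe_mul, ext0_mul]; rfl

/-- `f ∈ M` is represented near `x0` by the function `g` -/
def Germ (x0 : E) (f : M) (g : E → ℂ) : Prop :=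
  ∃ P Q : Hol U, Q ≠ 0 ∧ algebraMap (Hol U) M Q * f = algebraMap (Hol U) M P ∧
    Rep g (ext0 (P : U → ℂ)) (ext0 (Q : U → ℂ)) x0

/-- `f ∈ M` is represented near `x0` by a function meromorphic on `Ω` -/
def Cont (U : Opens E) [Algebra (Hol U) M] (Ω : Set E) (x0 : E) (f : M) : Prop :=
  ∃ g : E → ℂ, (∀ c ∈ Ω, MerAt g c) ∧ Germ (U := U) x0 f g

theorem nz_of_ne_zero (hU : IsPreconnected (U : Set E)) {x0 : E} (hx0 : x0 ∈ U) {Q : Hol U}
    (hQ : Q ≠ 0) : NZ (ext0 (Q : U → ℂ)) x0 := by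
  refine ⟨Hol.an Q x0 hx0, fun hcon => hQ ?_⟩
  refine Hol.eq_zero_of_eventually hU Q ⟨x0, hx0⟩ ?_
  filter_upwards [hcon] with x hx
  exact not_not.1 hx

theorem inj_alg : Function.Injective (algebraMap (Hol U) M) := IsFractionRing.injective _ _

theorem alg_ne_zero {Q : Hol U} (hQ : Q ≠ 0) : algebraMap (Hol U) M Q ≠ 0 := by
  intro h
  exact hQ (inj_alg (M := M) (by rw [h, map_zero]))

/-- the representation for one quotient gives that for all -/
theorem Germ.rep (hU : IsPreconnected (U : Set E)) {x0 : E} (hx0 : x0 ∈ U) {f : M} {g : E → ℂ}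
    (h : Germ (U := U) x0 f g) {P Q : Hol U}
    (hPQ : algebraMap (Hol U) M Q * f = algebraMap (Hol U) M P) :
    Rep g (ext0 (P : U → ℂ)) (ext0 (Q : U → ℂ)) x0 := by
  obtain ⟨P1, Q1, hQ1, h1, hR⟩ := h
  refine Rep.transfer (nz_of_ne_zero hU hx0 hQ1) hR (Eventually.of_forall fun x => ?_)
  have h2 : P1 * Q = P * Q1 := by
    apply inj_alg (M := M)
    rw [map_mul, map_mul, ← h1, ← hPQ]; ring
  rw [← hol_ext0_mul, ← hol_ext0_mul, h2, sub_self]


theorem Germ.of_hol {x0 : E} (f : Hol U) (hone : (1 : Hol U) ≠ 0) (hx0 : x0 ∈ U) {g : E → ℂ}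
    (h : g =ᶠ[𝓝 x0] ext0 (f : U → ℂ)) : Germ (U := U) x0 (algebraMap (Hol U) M f) g := by
  refine ⟨f, 1, hone, by rw [map_one, one_mul], rep_of_analytic ?_⟩
  filter_upwards [h, U.isOpen.mem_nhds hx0] with x hx hxU
  rw [hx, ext0_of_mem _ hxU]
  show (1 : ℂ) * _ = _
  rw [one_mul]

variable {Ω : Set E} {x0 : E}

theorem one_ne_zero' (hx0 : x0 ∈ U) : (1 : Hol U) ≠ 0 := by
  intro h
  have := congrArg (evH ⟨x0, hx0⟩) h
  rw [map_one, map_zero] at this
  exact one_ne_zero this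

theorem Cont.const (hx0 : x0 ∈ U) (a : ℂ) : Cont U Ω x0 (algebraMap ℂ M a) := by
  refine ⟨fun _ => a, fun c _ => merAt_const a c, ?_⟩
  rw [IsScalarTower.algebraMap_apply ℂ (Hol U) M]
  refine Germ.of_hol _ (one_ne_zero' hx0) hx0 ?_
  filter_upwards [U.isOpen.mem_nhds hx0] with x hx
  rw [ext0_of_mem _ hx]; rfl

theorem Cont.add (hU : IsPreconnected (U : Set E)) (hx0 : x0 ∈ U) {f f' : M}
    (h : Cont U Ω x0 f) (h' : Cont U Ω x0 f') : Cont U Ω x0 (f + f') := by
  obtain ⟨g, hg, P, Q, hQ, e, hR⟩ := h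
  obtain ⟨g', hg', P', Q', hQ', e', hR'⟩ := h'
  have : Nonempty U := ⟨⟨x0, hx0⟩⟩
  have := Hol.isDomain hU
  refine ⟨fun x => g x + g' x, fun c hc => MerAt.add (hg c hc) (hg' c hc),
    P * Q' + P' * Q, Q * Q', mul_ne_zero hQ hQ', ?_, ?_⟩
  · rw [map_mul, map_add, map_mul, map_mul, ← e, ← e']; ring
  · have := Rep.add hR hR'
    have e1 : ext0 ((P * Q' + P' * Q : Hol U) : U → ℂ) = fun x => ext0 (P : U → ℂ) x *
        ext0 (Q' : U → ℂ) x + ext0 (P' : U → ℂ) x * ext0 (Q : U → ℂ) x := by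
      funext x
      rw [hol_ext0_add, hol_ext0_mul, hol_ext0_mul]
    have e2 : ext0 ((Q * Q' : Hol U) : U → ℂ) = fun x => ext0 (Q : U → ℂ) x *
        ext0 (Q' : U → ℂ) x := by
      funext x
      rw [hol_ext0_mul]
    rw [e1, e2]
    exact this

theorem Cont.mul (hU : IsPreconnected (U : Set E)) (hx0 : x0 ∈ U) {f f' : M}
    (h : Cont U Ω x0 f) (h' : Cont U Ω x0 f') : Cont U Ω x0 (f * f') := by
  obtain ⟨g, hg, P, Q, hQ, e, hR⟩ := h
  obtain ⟨g', hg', P', Q', hQ', e', hR'⟩ := h'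
  have : Nonempty U := ⟨⟨x0, hx0⟩⟩
  have := Hol.isDomain hU
  refine ⟨fun x => g x * g' x, fun c hc => MerAt.mul (hg c hc) (hg' c hc),
    P * P', Q * Q', mul_ne_zero hQ hQ', ?_, ?_⟩
  · rw [map_mul, map_mul, ← e, ← e']; ring
  · have := Rep.mul hR hR'
    have e1 : ∀ A B : Hol U, ext0 ((A * B : Hol U) : U → ℂ) = fun x => ext0 (A : U → ℂ) x *
        ext0 (B : U → ℂ) x := by
      intro A B
      funext x
      rw [hol_ext0_mul]
    rw [e1, e1]
    exact this

theorem Cont.inv (hU : IsPreconnected (U : Set E)) (hx0 : x0 ∈ U) (hΩ : IsPreconnected Ω)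
    (hx0Ω : x0 ∈ Ω) {f : M} (h : Cont U Ω x0 f) : Cont U Ω x0 f⁻¹ := by
  by_cases hf : f = 0
  · rw [hf, inv_zero]
    have := Cont.const (M := M) (U := U) (Ω := Ω) hx0 0
    rwa [map_zero] at this
  obtain ⟨g, hg, P, Q, hQ, e, hR⟩ := h
  have hP : P ≠ 0 := by
    rintro rfl
    rw [map_zero, mul_eq_zero] at e
    rcases e with e | e
    · exact alg_ne_zero (M := M) hQ e
    · exact hf e
  refine ⟨fun x => (g x)⁻¹, merAt_inv hΩ hg hx0Ω (nz_of_ne_zero hU hx0 hP) (Hol.an Q x0 hx0) hR,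
    Q, P, hP, ?_, Rep.inv (nz_of_ne_zero hU hx0 hP) hR⟩
  rw [← e]
  field_simp

theorem Cont.deriv (hU : IsPreconnected (U : Set E)) (hx0 : x0 ∈ U) (D : Derivation ℂ M M) (v : E)
    (hD : ∀ f : Hol U, D (algebraMap (Hol U) M f) = algebraMap (Hol U) M (dV v f))
    {f : M} (h : Cont U Ω x0 f) : Cont U Ω x0 (D f) := by
  obtain ⟨g, hg, P, Q, hQ, e, hR⟩ := h
  have : Nonempty U := ⟨⟨x0, hx0⟩⟩
  have := Hol.isDomain hU
  refine ⟨fun x => fderiv ℂ g x v, fun c hc => MerAt.fderiv (hg c hc) v,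
    dV v P * Q - P * dV v Q, Q * Q, mul_ne_zero hQ hQ, ?_, ?_⟩
  · have h1 := congrArg D e
    rw [Derivation.leibniz, smul_eq_mul, smul_eq_mul, hD, hD] at h1
    rw [map_mul, map_sub, map_mul, map_mul, ← e]
    linear_combination (algebraMap (Hol U) M Q) * h1
  · have h2 := Rep.fderiv (Hol.an P x0 hx0) (nz_of_ne_zero hU hx0 hQ) hR v
    obtain ⟨D', hD', h3⟩ := h2
    refine ⟨D', hD', ?_⟩
    filter_upwards [h3, U.isOpen.mem_nhds hx0] with x hx hxU hx1
    have h4 := hx hx1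
    have e1 : ext0 ((dV v P * Q - P * dV v Q : Hol U) : U → ℂ) x =
        ext0 (dV v P : U → ℂ) x * ext0 (Q : U → ℂ) x - ext0 (P : U → ℂ) x *
          ext0 (dV v Q : U → ℂ) x := by
      rw [ext0_of_mem _ hxU, ext0_of_mem _ hxU, ext0_of_mem _ hxU, ext0_of_mem _ hxU,
        ext0_of_mem _ hxU]
      rfl
    rw [e1, hol_ext0_mul, ext0_dV _ _ hxU, ext0_dV _ _ hxU]
    exact h4

/-- **the field of the continuable germs** -/
def contField (hU : IsPreconnected (U : Set E)) (hx0 : x0 ∈ U) (hΩ : IsPreconnected Ω)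
    (hx0Ω : x0 ∈ Ω) : IntermediateField ℂ M where
  carrier := {f | Cont U Ω x0 f}
  add_mem' := fun h h' => Cont.add hU hx0 h h'
  mul_mem' := fun h h' => Cont.mul hU hx0 h h'
  algebraMap_mem' := fun a => Cont.const hx0 a
  inv_mem' := fun _ h => Cont.inv hU hx0 hΩ hx0Ω h

/-- **elements of the differential field generated by continuable germs are continuable** -/
theorem cont_of_dfield {ι : Type*} (hU : IsPreconnected (U : Set E)) (hx0 : x0 ∈ U)
    (hΩ : IsPreconnected Ω) (hx0Ω : x0 ∈ Ω) (D : ι → Derivation ℂ M M) (v : ι → E)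
    (hD : ∀ i, ∀ f : Hol U, D i (algebraMap (Hol U) M f) =
      algebraMap (Hol U) M (dV (v i) f))
    {S : Set M} (hS : ∀ s ∈ S, Cont U Ω x0 s) {f : M} (hf : f ∈ DF389.dfield D S) :
    Cont U Ω x0 f :=
  DF389.dfield_le D S (contField hU hx0 hΩ hx0Ω) hS
    (fun i x hx => Cont.deriv hU hx0 (D i) (v i) (hD i) hx) hf

end field

end Crest.Agent.R102.MerF217
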