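import Crest.Agent.R102.PenB_926
import Crest.Agent.R102.RATDefs2_926
import Crest.Agent.R102.RatDefs7_217
import Crest.Agent.R102.RatGlueA_798
import Crest.Agent.R102.FreeAn_781

-- ▼ part R102/PenC_926
section

/-!
# Row 102, [H3], THEOREM (RAT), step 3: the pencil argument (helper926), part C

`pencil`: the far vertex `Y = (gh y, y)` of a line `l p` close to the grazing line; a relation
`R (u, x) = 0` for the far intersection `u` near `p` is continued along the pencil of the lines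
through `Y` to a tangent line of the graph.
-/

set_option autoImplicit false

open Set Filter Topology Metric

noncomputable section

namespace Crest.Agent.R102.Pen926

variable {g : ℂ → ℂ} {c₀ : ℂ} {ρ : ℝ} {m k : ℂ × ℂ → ℂ}

/-- the far intersection `u` of the lines near `x` with the far mirror `gh` satisfies the relation -/
def Good (m k : ℂ × ℂ → ℂ) (gh : ℂ → ℂ) (y : ℂ) (R : ℂ × (ℂ × ℂ) → ℂ) (x : ℂ × ℂ) : Prop :=
  ∃ u : ℂ × ℂ → ℂ, AnalyticAt ℂ u x ∧ u x = y ∧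
    (∀ᶠ z in 𝓝 x, gh (u z) = m z * u z + k z) ∧ ∀ᶠ z in 𝓝 x, R (u z, z) = 0

/-- propagation inside the pencil -/
theorem good_prop (h : Chord g c₀ ρ m k) {gh : ℂ → ℂ} {y : ℂ} (hgh : AnalyticAt ℂ gh y)
    {R : ℂ × (ℂ × ℂ) → ℂ} (hR : AnalyticOnNhd ℂ R (univ ×ˢ (ball c₀ ρ ×ˢ ball (0 : ℂ) ρ)))
    {x : ℂ × ℂ} (hx : x ∈ ball c₀ ρ ×ˢ ball (0 : ℂ) ρ) (hy : gh y = m x * y + k x)
    (hd : deriv gh y ≠ m x) :
    ∀ᶠ x' in 𝓝 x, gh y = m x' * y + k x' → (Good m k gh y R x' ↔ Good m k gh y R x) := by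
  set Φ : (ℂ × ℂ) × ℂ → ℂ := fun q => gh q.2 - m q.1 * q.2 - k q.1 with hΦ
  have hm := h.an_m x hx
  have hk := h.an_k x hx
  have hΦa : AnalyticAt ℂ Φ (x, y) := by
    have a1 : AnalyticAt ℂ (fun q : (ℂ × ℂ) × ℂ => gh q.2) (x, y) :=
      AnalyticAt.fun_comp (g := gh) (by exact hgh) analyticAt_snd
    have a2 : AnalyticAt ℂ (fun q : (ℂ × ℂ) × ℂ => m q.1) (x, y) :=
      AnalyticAt.fun_comp (g := m) (by exact hm) analyticAt_fst
    have a3 : AnalyticAt ℂ (fun q : (ℂ × ℂ) × ℂ => k q.1) (x, y) :=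
      AnalyticAt.fun_comp (g := k) (by exact hk) analyticAt_fst
    exact (a1.sub (a2.mul analyticAt_snd)).sub a3
  have hΦ0 : Φ (x, y) = 0 := by simp only [hΦ]; rw [hy]; ring
  have hΦd : fderiv ℂ Φ (x, y) (0, 1) ≠ 0 := by
    have h1 : HasFDerivAt Φ (fderiv ℂ Φ (x, y)) (x, y) := hΦa.differentiableAt.hasFDerivAt
    have h2 : HasDerivAt (fun v : ℂ => ((x, v) : (ℂ × ℂ) × ℂ)) ((0 : ℂ × ℂ), (1 : ℂ)) y :=
      (hasDerivAt_const y x).prodMk (hasDerivAt_id y)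
    have h3 : HasDerivAt (fun v : ℂ => Φ (x, v)) (fderiv ℂ Φ (x, y) (0, 1)) y :=
      HasFDerivAt.comp_hasDerivAt y h1 h2
    have h4 : HasDerivAt (fun v : ℂ => Φ (x, v)) (deriv gh y - m x * 1) y := by
      have := (hgh.differentiableAt.hasDerivAt.sub ((hasDerivAt_id y).const_mul (m x))).sub_const
        (k x)
      exact this
    rw [h3.unique h4, mul_one]
    exact sub_ne_zero.2 hd
  obtain ⟨φ, hφa, hφx, hφ0, hφu⟩ := F7389.implicit hΦa hΦ0 hΦd
  -- a ball on which everything is fine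
  have hU : ∀ᶠ z in 𝓝 x, z ∈ ball c₀ ρ ×ˢ ball (0 : ℂ) ρ := (isOpen_ball.prod isOpen_ball).mem_nhds hx
  have hev : ∀ᶠ z in 𝓝 x, AnalyticAt ℂ φ z ∧ Φ (z, φ z) = 0 ∧ z ∈ ball c₀ ρ ×ˢ ball (0 : ℂ) ρ :=
    hφa.eventually_analyticAt.and (hφ0.and hU)
  obtain ⟨ε₁, hε₁, hb₁⟩ := Metric.eventually_nhds_iff_ball.1 hev
  obtain ⟨ε₂, hε₂, hb₂⟩ := Metric.eventually_nhds_iff_ball.1 hφu
  set ε := min ε₁ ε₂ with hε
  have hεp : 0 < ε := lt_min hε₁ hε₂
  have huniq : ∀ z ∈ ball x ε, ∀ v ∈ ball y ε, Φ (z, v) = 0 → v = φ z := by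
    intro z hz v hv hzv
    refine hb₂ (z, v) ?_ hzv
    rw [mem_ball, Prod.dist_eq]
    exact max_lt (lt_of_lt_of_le hz (min_le_right _ _)) (lt_of_lt_of_le hv (min_le_right _ _))
  have hgood : ∀ z ∈ ball x ε, AnalyticAt ℂ φ z ∧ Φ (z, φ z) = 0 ∧
      z ∈ ball c₀ ρ ×ˢ ball (0 : ℂ) ρ := fun z hz => hb₁ z (ball_subset_ball (min_le_left _ _) hz)
  have hF : AnalyticOnNhd ℂ (fun z => R (φ z, z)) (ball x ε) := by
    intro z hz
    obtain ⟨h1, -, h3⟩ := hgood z hz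
    exact AnalyticAt.fun_comp (g := R) (hR _ ⟨mem_univ _, h3⟩) (h1.prod analyticAt_id)
  have hpre : IsPreconnected (ball x ε) := (convex_ball x ε).isPreconnected
  -- the statement `R (φ z, z) = 0` on the ball is equivalent to `Good` at any pencil point
  have hiff : ∀ x' ∈ ball x ε, gh y = m x' * y + k x' →
      (Good m k gh y R x' ↔ ∀ z ∈ ball x ε, R (φ z, z) = 0) := by
    intro x' hx' hyx'
    have hyφ : y = φ x' := huniq x' hx' y (mem_ball_self hεp) (by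
      simp only [hΦ]; rw [hyx']; ring)
    constructor
    · rintro ⟨u, hua, hux, hui, hur⟩
      have h1 : ∀ᶠ z in 𝓝 x', u z = φ z := by
        have c1 : ∀ᶠ z in 𝓝 x', z ∈ ball x ε := isOpen_ball.mem_nhds hx'
        have c2 : ∀ᶠ z in 𝓝 x', u z ∈ ball y ε := by
          refine hua.continuousAt.eventually_mem ?_
          rw [hux]; exact ball_mem_nhds y hεp
        filter_upwards [c1, c2, hui] with z z1 z2 z3
        exact huniq z z1 (u z) z2 (by simp only [hΦ]; rw [z3]; ring)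
      have h2 : (fun z => R (φ z, z)) =ᶠ[𝓝 x'] 0 := by
        filter_upwards [h1, hur] with z z1 z2
        rw [z1] at z2
        exact z2
      have h3 := hF.eqOn_zero_of_preconnected_of_eventuallyEq_zero hpre hx' h2
      exact fun z hz => h3 hz
    · intro hz
      refine ⟨φ, (hgood x' hx').1, hyφ.symm, ?_, ?_⟩
      · filter_upwards [isOpen_ball.mem_nhds hx'] with z hz'
        have := (hgood z hz').2.1
        simp only [hΦ] at this
        linear_combination this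
      · filter_upwards [isOpen_ball.mem_nhds hx'] with z hz' using hz z hz'
  filter_upwards [ball_mem_nhds x hεp] with x' hx' hyx'
  rw [hiff x' hx' hyx', hiff x (mem_ball_self hεp) hy]

/-- a disc without a point is connected -/
theorem isPreconnected_ball_diff (a b : ℂ) {D : ℝ} (hD : 0 < D) :
    IsPreconnected (ball a D \ {b}) := by
  by_cases hb : b ∈ ball a D
  · set f := OpenPartialHomeomorph.univBall a D with hf
    have hsrc : f.source = univ := OpenPartialHomeomorph.univBall_source a D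
    have htgt : f.target = ball a D := OpenPartialHomeomorph.univBall_target a hD
    have hc : Continuous f := OpenPartialHomeomorph.continuous_univBall a D
    have h1 : IsPreconnected ({f.symm b}ᶜ : Set ℂ) :=
      (isConnected_compl_singleton_of_one_lt_rank (by
        rw [Complex.rank_real_complex]; exact Nat.one_lt_ofNat) _).isPreconnected
    have h2 : ball a D \ {b} = f '' {f.symm b}ᶜ := by
      ext z
      constructor
      · rintro ⟨hz, hzb⟩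
        refine ⟨f.symm z, ?_, f.right_inv (by rw [htgt]; exact hz)⟩
        intro hcon
        apply hzb
        have := congrArg f (mem_singleton_iff.1 hcon)
        rwa [f.right_inv (by rw [htgt]; exact hz), f.right_inv (by rw [htgt]; exact hb)] at this
      · rintro ⟨w, hw, rfl⟩
        refine ⟨?_, ?_⟩
        · rw [← htgt]; exact f.map_source (by rw [hsrc]; exact mem_univ _)
        · intro hcon
          apply hw
          rw [mem_singleton_iff] at hcon ⊢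
          rw [← hcon, f.left_inv (by rw [hsrc]; exact mem_univ _)]
    rw [h2]
    exact h1.image _ hc.continuousOn
  · rw [diff_singleton_eq_self hb]
    exact isPreconnected_ball

/-- a chord coinciding with the tangent at `t` is the tangent at `t` -/
theorem eq_of_tangent (h : Chord g c₀ ρ m k) {r : ℝ} (hrρ : r ≤ ρ) (hA : A1 g c₀ r)
    {x : ℂ × ℂ} (hx : x ∈ ball c₀ r ×ˢ ball (0 : ℂ) r) {t : ℂ} (ht : t ∈ ball c₀ (2 * r))
    (e1 : m x = deriv g t) (e2 : k x = g t - t * deriv g t) : x = (t, 0) := by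
  have hxρ := prod_mono hrρ hx
  obtain ⟨ha, hb⟩ := mem_add hx
  have i1 := h.inc x hxρ
  have i2 := h.chord x hxρ
  have t1 : x.1 + x.2 = t := tangent_unique h hrρ hA ha ht (by rw [i1, e1, e2]; ring)
  have t2 : x.1 - x.2 = t := tangent_unique h hrρ hA hb ht (by rw [i2, e1, e2]; ring)
  ext
  · simp only
    linear_combination (t1 + t2) / 2
  · simp only
    linear_combination (t1 - t2) / 2

end Crest.Agent.R102.Pen926
end
end

-- ▼ part R102/PenD_926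
section

/-!
# Row 102, [H3], THEOREM (RAT), step 3: **the pencil theorem** (helper926)
-/

set_option autoImplicit false

open Set Filter Topology Metric

noncomputable section

namespace Crest.Agent.R102.Pen926

variable {g : ℂ → ℂ} {c₀ : ℂ} {ρ : ℝ} {m k : ℂ × ℂ → ℂ}

theorem Chord.k_c (h : Chord g c₀ ρ m k) {c : ℂ} (hc : c ∈ ball c₀ ρ) :
    k (c, 0) = g c - c * deriv g c := by
  have := h.inc (c, 0) ⟨hc, mem_ball_self h.ρ_pos⟩
  simp only [add_zero] at this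
  rw [h.m_c c hc] at this
  linear_combination -this

/-- properness -/
theorem proper (h : Chord g c₀ ρ m k) {r s : ℝ} (hrρ : r ≤ ρ) (hA : A1 g c₀ r) (hs : 0 < s)
    (hsr : s < r) : ∃ η > 0, ∀ x ∈ closedBall c₀ s ×ˢ closedBall (0 : ℂ) s,
      dist (m x, k x) (m (c₀, 0), k (c₀, 0)) < η → x ∈ ball c₀ s ×ˢ ball (0 : ℂ) s := by
  set K : Set (ℂ × ℂ) := (closedBall c₀ s ×ˢ closedBall (0 : ℂ) s) \ (ball c₀ s ×ˢ ball (0 : ℂ) s)
    with hK
  have hKc : IsCompact K :=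
    ((isCompact_closedBall c₀ s).prod (isCompact_closedBall (0 : ℂ) s)).diff
      (isOpen_ball.prod isOpen_ball)
  have hsub : ∀ x ∈ closedBall c₀ s ×ˢ closedBall (0 : ℂ) s, x ∈ ball c₀ r ×ˢ ball (0 : ℂ) r :=
    fun x hx => ⟨closedBall_subset_ball hsr hx.1, closedBall_subset_ball hsr hx.2⟩
  have hc₀ : c₀ ∈ ball c₀ ρ := mem_ball_self h.ρ_pos
  have hr : 0 < r := hs.trans hsr
  have hcont : ContinuousOn (fun x => dist (m x, k x) (m (c₀, 0), k (c₀, 0))) K := by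
    intro x hx
    have hxρ := prod_mono hrρ (hsub x hx.1)
    have hca : ContinuousAt (fun x => dist (m x, k x) (m (c₀, 0), k (c₀, 0))) x :=
      ((h.an_m x hxρ).continuousAt.prodMk (h.an_k x hxρ).continuousAt).dist continuousAt_const
    exact hca.continuousWithinAt
  rcases K.eq_empty_or_nonempty with hE | hne
  · refine ⟨1, one_pos, fun x hx _ => ?_⟩
    by_contra hcon
    have : x ∈ K := ⟨hx, hcon⟩
    rw [hE] at this
    exact this
  · obtain ⟨x₀, hx₀, hmin⟩ := hKc.exists_isMinOn hne hcont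
    refine ⟨dist (m x₀, k x₀) (m (c₀, 0), k (c₀, 0)), ?_, ?_⟩
    · rcases (dist_nonneg (x := (m x₀, k x₀)) (y := (m (c₀, 0), k (c₀, 0)))).lt_or_eq with h1 | h1
      · exact h1
      · exfalso
        have h2 := dist_eq_zero.1 h1.symm
        rw [Prod.mk.injEq] at h2
        have h3 := eq_of_tangent h hrρ hA (hsub x₀ hx₀.1) (t := c₀) (mem_ball_self (by linarith))
          (by rw [h2.1]; exact h.m_c c₀ hc₀) (by rw [h2.2]; exact h.k_c hc₀)
        apply hx₀.2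
        rw [h3]
        exact ⟨mem_ball_self hs, mem_ball_self hs⟩
    · intro x hx hlt
      by_contra hcon
      exact absurd (hmin ⟨hx, hcon⟩) (not_le.2 hlt)

/-- **PENCIL** -/
theorem pencil (h : Chord g c₀ ρ m k) : ∃ δ > 0, ∃ ρ' > 0, δ ≤ ρ' ∧ ρ' < ρ ∧
    ∀ p ∈ ball c₀ δ ×ˢ ball (0 : ℂ) δ, p.2 ≠ 0 → ∀ (gh : ℂ → ℂ) (y : ℂ), AnalyticAt ℂ gh y →
    gh y = m p * y + k p → deriv gh y ≠ m p → (y ∈ ball c₀ ρ → g y ≠ gh y) →
    (∀ t ∈ closedBall c₀ ρ', deriv g t = deriv gh y → g t + deriv g t * (y - t) ≠ gh y) →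
    ∀ R : ℂ × (ℂ × ℂ) → ℂ, AnalyticOnNhd ℂ R (univ ×ˢ (ball c₀ ρ ×ˢ ball (0 : ℂ) ρ)) →
    Good m k gh y R p →
    ∃ t ∈ ball c₀ ρ', t ≠ y ∧ gh y = g t + deriv g t * (y - t) ∧ deriv gh y ≠ deriv g t ∧
      Good m k gh y R (t, 0) := by
  obtain ⟨r, hr, hrρ, hA⟩ := exists_A1 h
  set G := deriv (deriv g) c₀ with hG
  have hG0 : 0 < ‖G‖ := norm_pos_iff.2 h.g2
  set s := r / 2 with hs
  have hsp : 0 < s := by positivity
  have hsr : s < r := by rw [hs]; linarith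
  obtain ⟨η, hη, hprop⟩ := proper h hrρ hA hsp hsr
  have hc₀ : c₀ ∈ ball c₀ ρ := mem_ball_self h.ρ_pos
  -- continuity
  have hU₀ : ((c₀, 0) : ℂ × ℂ) ∈ ball c₀ ρ ×ˢ ball (0 : ℂ) ρ := ⟨hc₀, mem_ball_self h.ρ_pos⟩
  have hcont1 : ∀ᶠ x in 𝓝 ((c₀, 0) : ℂ × ℂ),
      dist (m x, k x) (m (c₀, 0), k (c₀, 0)) < η / 4 := by
    have : ContinuousAt (fun x => (m x, k x)) (c₀, 0) :=
      (h.an_m _ hU₀).continuousAt.prodMk (h.an_k _ hU₀).continuousAt
    exact this.eventually (ball_mem_nhds _ (by positivity))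
  have hcont2 : ∀ᶠ t in 𝓝 c₀, dist (deriv g t, g t - t * deriv g t) (m (c₀, 0), k (c₀, 0)) <
      η / 4 := by
    have hg := h.g_an c₀ (mem_ball_self (by linarith [h.ρ_pos]))
    have : ContinuousAt (fun t => (deriv g t, g t - t * deriv g t)) c₀ :=
      hg.deriv.continuousAt.prodMk (hg.continuousAt.sub
        (continuousAt_id.mul hg.deriv.continuousAt))
    have e : (fun t => (deriv g t, g t - t * deriv g t)) c₀ = (m (c₀, 0), k (c₀, 0)) := by
      simp only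
      rw [h.m_c c₀ hc₀, h.k_c hc₀]
    rw [← e]
    exact this.eventually (ball_mem_nhds _ (by positivity))
  obtain ⟨δ₁, hδ₁, hb₁⟩ := Metric.eventually_nhds_iff_ball.1 hcont1
  obtain ⟨δ₂, hδ₂, hb₂⟩ := Metric.eventually_nhds_iff_ball.1 hcont2
  set δ := min δ₁ (min (δ₂ / 100) (s / 100)) with hδ
  have hδp : 0 < δ := lt_min hδ₁ (lt_min (by positivity) (by positivity))
  have hδ1 : δ ≤ δ₁ := min_le_left _ _
  have hδ2 : 100 * δ ≤ δ₂ := by
    have : δ ≤ δ₂ / 100 := (min_le_right _ _).trans (min_le_left _ _)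
    linarith
  have hδ3 : 100 * δ ≤ s := by
    have : δ ≤ s / 100 := (min_le_right _ _).trans (min_le_right _ _)
    linarith
  refine ⟨δ, hδp, s, hsp, by linarith, by linarith, ?_⟩
  intro p hp hp0 gh y hgh hy hd hng hnt R hR hgood
  have hw : 0 < ‖p.2‖ := norm_pos_iff.2 hp0
  have hp1 : ‖p.1 - c₀‖ < δ := mem_ball_iff_norm.1 hp.1
  have hp2 : ‖p.2‖ < δ := by simpa using hp.2
  have hpr : p ∈ ball c₀ r ×ˢ ball (0 : ℂ) r := prod_mono (by linarith) hp
  have hps : p ∈ ball c₀ s ×ˢ ball (0 : ℂ) s := prod_mono (by linarith) hp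
  have hlp : dist (m p, k p) (m (c₀, 0), k (c₀, 0)) < η / 4 := hb₁ p (by
    rw [mem_ball, Prod.dist_eq]
    exact max_lt (lt_of_lt_of_le hp.1 hδ1) (lt_of_lt_of_le hp.2 hδ1))
  obtain ⟨-, ce2⟩ := centre h hrρ hA hpr
  have hcp : p.1 ∈ ball c₀ (2 * r) := ball_subset_ball (by linarith) hpr.1
  -- a tangent through `Y`
  have hsmall : closedBall p.1 (60 * ‖p.2‖) ⊆ ball c₀ (2 * r) := by
    intro z hz
    rw [mem_closedBall_iff_norm] at hz
    rw [mem_ball_iff_norm]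
    calc ‖z - c₀‖ = ‖(z - p.1) + (p.1 - c₀)‖ := by ring_nf
      _ ≤ ‖z - p.1‖ + ‖p.1 - c₀‖ := norm_add_le _ _
      _ < 2 * r := by linarith
  obtain ⟨t₀, ht₀, ht₀e⟩ := exists_tangent h hrρ hA hpr hp0 y hsmall
  have ht₀r := hsmall ht₀
  -- the nearest one
  set T : Set ℂ := {t ∈ closedBall c₀ s | g t + deriv g t * (y - t) = m p * y + k p} with hT
  have hcs : closedBall c₀ s ⊆ ball c₀ (2 * ρ) := closedBall_subset_ball (by linarith)
  have hgc : ContinuousOn g (closedBall c₀ s) := fun t ht =>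
    (h.g_an t (hcs ht)).continuousAt.continuousWithinAt
  have hgc' : ContinuousOn (deriv g) (closedBall c₀ s) := fun t ht =>
    (h.g_an t (hcs ht)).deriv.continuousAt.continuousWithinAt
  have hTc : IsCompact T := by
    have hcl : IsClosed T := by
      have : T = closedBall c₀ s ∩ (fun t => g t + deriv g t * (y - t)) ⁻¹' {m p * y + k p} := by
        ext t; simp [hT]
      rw [this]
      exact ContinuousOn.preimage_isClosed_of_isClosed
        (hgc.add (hgc'.mul (continuousOn_const.sub continuousOn_id))) isClosed_closedBall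
        isClosed_singleton
    exact (isCompact_closedBall c₀ s).of_isClosed_subset hcl fun t ht => ht.1
  have ht₀n : ‖t₀ - p.1‖ ≤ 60 * ‖p.2‖ := mem_closedBall_iff_norm.1 ht₀
  have ht₀T : t₀ ∈ T := by
    refine ⟨?_, ht₀e⟩
    rw [mem_closedBall_iff_norm]
    calc ‖t₀ - c₀‖ = ‖(t₀ - p.1) + (p.1 - c₀)‖ := by ring_nf
      _ ≤ ‖t₀ - p.1‖ + ‖p.1 - c₀‖ := norm_add_le _ _
      _ ≤ s := by linarith
  obtain ⟨t, htT, htmin⟩ := hTc.exists_isMinOn ⟨t₀, ht₀T⟩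
    (f := fun t => ‖deriv g t - m p‖)
    (((hgc'.mono fun t ht => ht.1).sub continuousOn_const).norm)
  set D := ‖deriv g t - m p‖ with hD
  have htr : t ∈ ball c₀ (2 * r) := closedBall_subset_ball (by linarith) htT.1
  have htρ : t ∈ ball c₀ ρ := closedBall_subset_ball (by linarith) htT.1
  have hDle : D ≤ ‖G‖ * (69 * ‖p.2‖) := by
    refine (htmin ht₀T).trans ?_
    have a1 := hA t₀ ht₀r p.1 hcp
    have e : deriv g t₀ - m p = (deriv g t₀ - deriv g p.1 - G * (t₀ - p.1)) + G * (t₀ - p.1) +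
        (deriv g p.1 - m p) := by ring
    simp only
    rw [e]
    refine (norm_add₃_le).trans ?_
    rw [norm_mul]
    nlinarith [mul_le_mul_of_nonneg_left ht₀n hG0.le]
  have htn : ‖t - p.1‖ ≤ 80 * ‖p.2‖ := by
    have a1 := hA t htr p.1 hcp
    have e : G * (t - p.1) = (deriv g t - m p) - (deriv g p.1 - m p) -
        (deriv g t - deriv g p.1 - G * (t - p.1)) := by ring
    have a2 : ‖G‖ * ‖t - p.1‖ ≤ D + ‖deriv g p.1 - m p‖ + ‖G‖ / 10 * ‖t - p.1‖ := by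
      rw [← norm_mul, e]
      refine (norm_sub_le _ _).trans ?_
      exact add_le_add ((norm_sub_le _ _)) a1
    have a3 : ‖G‖ * (9 / 10 * ‖t - p.1‖) ≤ ‖G‖ * (72 * ‖p.2‖) := by nlinarith
    have a4 := le_of_mul_le_mul_left a3 hG0
    linarith
  have htc : ‖t - c₀‖ < 81 * δ := by
    calc ‖t - c₀‖ = ‖(t - p.1) + (p.1 - c₀)‖ := by ring_nf
      _ ≤ ‖t - p.1‖ + ‖p.1 - c₀‖ := norm_add_le _ _
      _ < 81 * δ := by linarith
  have hts : t ∈ ball c₀ s := by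
    rw [mem_ball_iff_norm]; linarith
  have hlt : dist (deriv g t, g t - t * deriv g t) (m (c₀, 0), k (c₀, 0)) < η / 4 := hb₂ t (by
    rw [mem_ball_iff_norm]; linarith)
  -- the lines of the pencil
  have hTe : ∀ t ∈ T, g t + deriv g t * (y - t) = m p * y + k p := fun t ht => ht.2
  have hTi : ∀ t ∈ closedBall c₀ s, g t + deriv g t * (y - t) = m p * y + k p → t ∈ T :=
    fun t ht1 ht2 => ⟨ht1, ht2⟩
  set a := m p * y + k p with ha
  set Lx : ℂ → ℂ × ℂ := fun μ => (μ, a - μ * y) with hLx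
  have hLp : Lx (m p) = (m p, k p) := by simp only [hLx, ha]; ring_nf
  have hLt : Lx (deriv g t) = (deriv g t, g t - t * deriv g t) := by
    have := hTe t htT
    simp only [hLx]
    rw [← this]
    ring_nf
  have hDpos : 0 < D := by
    rw [hD, norm_pos_iff, sub_ne_zero]
    intro hcon
    have h1 : (m p, k p) = (deriv g t, g t - t * deriv g t) := by rw [← hLp, ← hLt, hcon]
    rw [Prod.mk.injEq] at h1
    have := eq_of_tangent h hrρ hA hpr htr h1.1 h1.2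
    exact hp0 (by rw [this])
  have hDy : D * ‖y‖ < η / 2 := by
    have e : (deriv g t - m p) * y = k p - (g t - t * deriv g t) := by
      have := hTe t htT
      rw [ha] at this
      linear_combination this
    have e1 : D * ‖y‖ = ‖k p - (g t - t * deriv g t)‖ := by rw [hD, ← norm_mul, e]
    rw [e1, ← dist_eq_norm]
    have a1 : dist (k p) (k (c₀, 0)) < η / 4 :=
      lt_of_le_of_lt (le_max_right _ _) (by rwa [Prod.dist_eq] at hlp)
    have a2 : dist (g t - t * deriv g t) (k (c₀, 0)) < η / 4 :=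
      lt_of_le_of_lt (le_max_right _ _) (by rwa [Prod.dist_eq] at hlt)
    calc dist (k p) (g t - t * deriv g t) ≤ dist (k p) (k (c₀, 0)) +
          dist (k (c₀, 0)) (g t - t * deriv g t) := dist_triangle _ _ _
      _ < η / 2 := by rw [dist_comm (k (c₀, 0))]; linarith
  have hDη : D < η / 2 := by
    have a1 : dist (m p) (m (c₀, 0)) < η / 4 :=
      lt_of_le_of_lt (le_max_left _ _) (by rwa [Prod.dist_eq] at hlp)
    have a2 : dist (deriv g t) (m (c₀, 0)) < η / 4 :=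
      lt_of_le_of_lt (le_max_left _ _) (by rwa [Prod.dist_eq] at hlt)
    rw [hD, ← dist_eq_norm]
    calc dist (deriv g t) (m p) ≤ dist (deriv g t) (m (c₀, 0)) +
          dist (m (c₀, 0)) (m p) := dist_triangle _ _ _
      _ < η / 2 := by rw [dist_comm (m (c₀, 0))]; linarith
  have hLdist : ∀ μ ∈ closedBall (m p) D, dist (Lx μ) (m (c₀, 0), k (c₀, 0)) < η := by
    intro μ hμ
    have hμn : ‖μ - m p‖ ≤ D := mem_closedBall_iff_norm.1 hμ
    have h1 : dist (Lx μ) (Lx (m p)) < η / 2 := by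
      rw [Prod.dist_eq]
      refine max_lt ?_ ?_
      · simp only [hLx]
        rw [dist_eq_norm]; linarith
      · simp only [hLx]
        rw [dist_eq_norm]
        have e : a - μ * y - (a - m p * y) = -((μ - m p) * y) := by ring
        rw [e, norm_neg, norm_mul]
        exact lt_of_le_of_lt (mul_le_mul_of_nonneg_right hμn (norm_nonneg _)) hDy
    rw [hLp] at h1
    have := dist_triangle (Lx μ) (m p, k p) (m (c₀, 0), k (c₀, 0))
    linarith
  set P : Set (ℂ × ℂ) := closedBall c₀ s ×ˢ closedBall (0 : ℂ) s with hP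
  have hPr : ∀ x ∈ P, x ∈ ball c₀ r ×ˢ ball (0 : ℂ) r :=
    fun x hx => ⟨closedBall_subset_ball hsr hx.1, closedBall_subset_ball hsr hx.2⟩
  have hPc : IsCompact P := (isCompact_closedBall c₀ s).prod (isCompact_closedBall (0 : ℂ) s)
  have hint : ∀ μ ∈ closedBall (m p) D, ∀ x ∈ P, (m x, k x) = Lx μ →
      x ∈ ball c₀ s ×ˢ ball (0 : ℂ) s := by
    intro μ hμ x hx hxe
    exact hprop x hx (by rw [hxe]; exact hLdist μ hμ)
  -- points of the pencil
  have honp : ∀ μ : ℂ, ∀ x : ℂ × ℂ, (m x, k x) = Lx μ → gh y = m x * y + k x ∧ m x = μ := by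
    intro μ x hxe
    simp only [hLx, Prod.mk.injEq] at hxe
    refine ⟨?_, hxe.1⟩
    rw [hy, hxe.1, hxe.2]
    ring
  have hgp : ∀ μ ≠ deriv gh y, ∀ x ∈ P, (m x, k x) = Lx μ →
      ∀ᶠ x' in 𝓝 x, gh y = m x' * y + k x' → (Good m k gh y R x' ↔ Good m k gh y R x) := by
    intro μ hμ x hx hxe
    obtain ⟨h1, h2⟩ := honp μ x hxe
    exact good_prop h hgh hR (prod_mono hrρ (hPr x hx)) h1 (by rw [h2]; exact hμ.symm)
  set μT := deriv gh y with hμT
  set S := ball (m p) D \ {μT} with hS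
  set u : Set ℂ := {μ | μ ∈ S ∧ ∃ x ∈ P, (m x, k x) = Lx μ ∧ Good m k gh y R x} with hu
  have hLc : Continuous Lx := by
    simp only [hLx]
    fun_prop
  -- closedness
  have hclosed : ∀ μ ∈ closedBall (m p) D, μ ≠ μT → μ ∈ closure u →
      ∃ x ∈ P, (m x, k x) = Lx μ ∧ Good m k gh y R x := by
    intro μ hμ hμT' hμu
    obtain ⟨μs, hμs, hlim⟩ := mem_closure_iff_seq_limit.1 hμu
    choose xs hxsP hxse hxsg using fun n => (hμs n).2
    obtain ⟨x, hxP, φ, hφ, hxlim⟩ := hPc.tendsto_subseq hxsP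
    have hxρ := prod_mono hrρ (hPr x hxP)
    have hcx : ContinuousAt (fun x => (m x, k x)) x :=
      (h.an_m _ hxρ).continuousAt.prodMk (h.an_k _ hxρ).continuousAt
    have hxe : (m x, k x) = Lx μ := by
      have l1 : Tendsto (fun n => (m (xs (φ n)), k (xs (φ n)))) atTop (𝓝 (m x, k x)) :=
        hcx.tendsto.comp hxlim
      have l2 : Tendsto (fun n => Lx (μs (φ n))) atTop (𝓝 (Lx μ)) :=
        (hLc.tendsto μ).comp (hlim.comp hφ.tendsto_atTop)
      have l3 : (fun n => (m (xs (φ n)), k (xs (φ n)))) = fun n => Lx (μs (φ n)) := by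
        funext n; exact hxse (φ n)
      rw [l3] at l1
      exact tendsto_nhds_unique l1 l2
    refine ⟨x, hxP, hxe, ?_⟩
    obtain ⟨n, hn⟩ := (hxlim.eventually (hgp μ hμT' x hxP hxe)).exists
    exact (hn (honp (μs (φ n)) _ (hxse (φ n))).1).1 (hxsg (φ n))
  -- openness
  have hopen : IsOpen u := by
    rw [isOpen_iff_mem_nhds]
    rintro μ ⟨hμS, x, hxP, hxe, hxg⟩
    have hμD : μ ∈ closedBall (m p) D := ball_subset_closedBall hμS.1
    have hxs := hint μ hμD x hxP hxe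
    have hx0 : x.2 ≠ 0 := by
      intro hx0
      have e : x = (x.1, 0) := by ext <;> simp [hx0]
      have hx1 : x.1 ∈ ball c₀ ρ := ball_subset_ball (by linarith) hxs.1
      obtain ⟨h1, h2⟩ := honp μ x hxe
      rw [hy] at h1
      have h3 : m x = deriv g x.1 := by rw [e]; exact h.m_c _ hx1
      have h4 : k x = g x.1 - x.1 * deriv g x.1 := by rw [e]; exact h.k_c hx1
      have h5 : x.1 ∈ T := by
        refine hTi x.1 hxP.1 ?_
        rw [h1, h3, h4]; ring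
      have h6 : ‖deriv g t - m p‖ ≤ ‖deriv g x.1 - m p‖ := htmin h5
      rw [← h3, h2] at h6
      have h7 := hμS.1
      rw [mem_ball_iff_norm] at h7
      exact absurd h6 (not_le.2 h7)
    have hxr := hPr x hxP
    have hN : {x' | x' ∈ ball c₀ s ×ˢ ball (0 : ℂ) s ∧
        (gh y = m x' * y + k x' → (Good m k gh y R x' ↔ Good m k gh y R x))} ∈ 𝓝 x :=
      Filter.inter_mem ((isOpen_ball.prod isOpen_ball).mem_nhds hxs)
        (hgp μ hμS.2 x hxP hxe)
    have hmap : (fun x => (m x, k x)) '' {x' | x' ∈ ball c₀ s ×ˢ ball (0 : ℂ) s ∧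
        (gh y = m x' * y + k x' → (Good m k gh y R x' ↔ Good m k gh y R x))} ∈ 𝓝 (Lx μ) := by
      rw [← hxe, ← map_nhds h hrρ hA hxr hx0]
      exact image_mem_map hN
    have hSn : S ∈ 𝓝 μ := (isOpen_ball.sdiff isClosed_singleton).mem_nhds hμS
    filter_upwards [hSn, hLc.continuousAt.preimage_mem_nhds hmap] with μ' h1 h2
    obtain ⟨x', ⟨hx'1, hx'2⟩, hx'e⟩ := h2
    have hx'e' : (m x', k x') = Lx μ' := hx'e
    refine ⟨h1, x', ⟨ball_subset_closedBall hx'1.1, ball_subset_closedBall hx'1.2⟩, hx'e', ?_⟩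
    exact (hx'2 (honp μ' x' hx'e').1).2 hxg
  -- all slopes
  have hSp : IsPreconnected S := isPreconnected_ball_diff _ _ hDpos
  have hmS : m p ∈ S := ⟨mem_ball_self hDpos, fun hcon => hd (mem_singleton_iff.1 hcon).symm⟩
  have hmu : m p ∈ u := ⟨hmS, p, ⟨ball_subset_closedBall hps.1, ball_subset_closedBall hps.2⟩,
    hLp.symm, hgood⟩
  have hSu : S ⊆ u := hSp.subset_of_closure_inter_subset hopen ⟨m p, hmS, hmu⟩ (by
    rintro μ ⟨hμ1, hμ2⟩
    exact ⟨hμ2, hclosed μ (ball_subset_closedBall hμ2.1) hμ2.2 hμ1⟩)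
  -- the tangent
  have hμt : deriv g t ≠ μT := by
    intro hcon
    exact hnt t htT.1 hcon (by rw [hy]; exact hTe t htT)
  have hμtD : deriv g t ∈ closedBall (m p) D := by
    rw [mem_closedBall_iff_norm]
  have hμtc : deriv g t ∈ closure u := by
    refine closure_mono hSu ?_
    have h1 : deriv g t ∈ closure (ball (m p) D) := by
      rw [closure_ball _ hDpos.ne']; exact hμtD
    rw [mem_closure_iff_nhds] at h1 ⊢
    intro W hW
    have h2 : W ∩ {μT}ᶜ ∈ 𝓝 (deriv g t) :=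
      Filter.inter_mem hW (isOpen_compl_singleton.mem_nhds hμt)
    obtain ⟨z, ⟨hz1, hz2⟩, hz3⟩ := h1 _ h2
    exact ⟨z, hz1, hz3, hz2⟩
  obtain ⟨x, hxP, hxe, hxg⟩ := hclosed _ hμtD hμt hμtc
  have hxt : x = (t, 0) := by
    rw [hLt, Prod.mk.injEq] at hxe
    exact eq_of_tangent h hrρ hA (hPr x hxP) htr hxe.1 hxe.2
  refine ⟨t, hts, ?_, ?_, hμt.symm, hxt ▸ hxg⟩
  · intro hty
    apply hng (hty ▸ htρ)
    have := hTe t htT
    rw [hty, sub_self, mul_zero, add_zero] at this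
    rw [this, hy]
  · rw [hy]; exact (hTe t htT).symm

end Crest.Agent.R102.Pen926
end
end

-- ▼ part R102/Rat3_926
section

/-!
# Row 102, [H3], THEOREM (RAT), step 3: RUN + PENCIL + CT ⟹ contradiction (helper926)
-/

set_option autoImplicit false

open Set Filter Topology Metric TopologicalSpace

noncomputable section

namespace Crest.Agent.R102.RAT

open Crest.Agent.R102.H3 Crest.Agent.R102.Pen926

/-! ### the chain: restriction, chords -/

theorem chain_mono {g : ℂ → ℂ} {c₀ : ℂ} {P : ℕ} {ρ : ℝ} {β m k q q' : ℕ → ℂ × ℂ → ℂ}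
    (h : F7389.Chain g c₀ P ρ β m k q q') {N : ℕ} (hN : N ≤ P) {t : ℂ} {ρ₁ : ℝ} (h1 : 0 < ρ₁)
    (hsub : ball t ρ₁ ⊆ ball c₀ ρ) (hle : ρ₁ ≤ ρ) : F7389.Chain g t N ρ₁ β m k q q' := by
  have hU : ball t ρ₁ ×ˢ ball (0 : ℂ) ρ₁ ⊆ ball c₀ ρ ×ˢ ball (0 : ℂ) ρ :=
    prod_mono hsub (ball_subset_ball hle)
  exact
    { ρ_pos := h1
      an_β := fun i hi => (h.an_β i (hi.trans hN)).mono hU
      an_m := fun i hi => (h.an_m i (hi.trans hN)).mono hU
      an_k := fun i hi => (h.an_k i (hi.trans hN)).mono hU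
      an_q := fun i hi => (h.an_q i (hi.trans hN)).mono hU
      an_q' := fun i hi => (h.an_q' i (hi.trans_le hN)).mono hU
      β_zero := h.β_zero
      β_c := fun i hi c hc => h.β_c i (hi.trans hN) c (hsub hc)
      m_c := fun i hi c hc => h.m_c i (hi.trans hN) c (hsub hc)
      q_c := fun i hi c hc => h.q_c i (hi.trans hN) c (hsub hc)
      q'_c := fun i hi c hc => h.q'_c i (hi.trans_le hN) c (hsub hc)
      an_g := fun i hi p hp => h.an_g i (hi.trans hN) p (hU hp)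
      an_g' := fun p hp => h.an_g' p (hU hp)
      inc := fun i hi p hp => h.inc i (hi.trans hN) p (hU hp)
      inc' := fun i hi p hp => h.inc' i (hi.trans_le hN) p (hU hp)
      chord := fun p hp => h.chord p (hU hp)
      refl := fun i hi p hp => h.refl i (hi.trans_le hN) p (hU hp)
      m_ne := fun i hi p hp => h.m_ne i (hi.trans hN) p (hU hp)
      q_ne := fun i hi p hp => h.q_ne i (hi.trans hN) p (hU hp)
      q'_ne := fun i hi p hp => h.q'_ne i (hi.trans_le hN) p (hU hp)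
      q_eq := fun i hi p hp => h.q_eq i (hi.trans hN) p (hU hp)
      q'_eq := fun i hi p hp => h.q'_eq i (hi.trans_le hN) p (hU hp)
      even_m := fun p hp => h.even_m p (hU hp)
      even_k := fun p hp => h.even_k p (hU hp) }

theorem chord_of_chain {g : ℂ → ℂ} {c₀ : ℂ} {P : ℕ} {ρ : ℝ} {β m k q q' : ℕ → ℂ × ℂ → ℂ}
    (h : F7389.Chain g c₀ P ρ β m k q q') (hg2 : deriv (deriv g) c₀ ≠ 0) :
    Chord g c₀ ρ (m 0) (k 0) where
  ρ_pos := h.ρ_pos
  g_an := by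
    intro z hz
    have hz' : ‖z - c₀‖ < 2 * ρ := mem_ball_iff_norm.1 hz
    have n2 : ‖(2 : ℂ)‖ = 2 := by simp
    have h1 : (((z + c₀) / 2, (z - c₀) / 2) : ℂ × ℂ) ∈ ball c₀ ρ ×ˢ ball (0 : ℂ) ρ := by
      constructor
      · rw [mem_ball_iff_norm]
        have e : (z + c₀) / 2 - c₀ = (z - c₀) / 2 := by ring
        simp only
        rw [e, norm_div, n2]; linarith
      · rw [mem_ball_zero_iff]
        simp only
        rw [norm_div, n2]; linarith
    have h2 := h.an_g 0 (Nat.zero_le _) _ h1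
    rw [h.β_zero] at h2
    have e : (z + c₀) / 2 + (z - c₀) / 2 * 1 = z := by ring
    simp only at h2
    rwa [e] at h2
  g2 := hg2
  an_m := h.an_m 0 (Nat.zero_le _)
  an_k := h.an_k 0 (Nat.zero_le _)
  inc := by
    intro p hp
    have h2 := h.inc 0 (Nat.zero_le _) p hp
    rw [h.β_zero] at h2
    simpa using h2
  chord := h.chord
  m_c := h.m_c 0 (Nat.zero_le _)

/-! ### the relation -/

theorem an_obs {g : ℂ → ℂ} {c₀ : ℂ} {P : ℕ} {ρ : ℝ} {β m k q q' : ℕ → ℂ × ℂ → ℂ}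
    (h : F7389.Chain g c₀ P ρ β m k q q') {r : ℝ} (A : Subalgebra ℂ (Hol (bO c₀ r)))
    (hv : ∀ x ∈ ball c₀ ρ ×ˢ ball (0 : ℂ) ρ, ∀ j ≤ P, x.1 + x.2 * β j x ∈ ball c₀ r)
    {N : ℕ} (hN : N ≤ P) (o : Fin 2 ⊕ (Fin N × A)) :
    AnalyticOnNhd ℂ (fun x => obs A N β m k x o) (ball c₀ ρ ×ˢ ball (0 : ℂ) ρ) := by
  intro x hx
  rcases o with i | ⟨j, a⟩
  · fin_cases i
    · exact h.an_m 0 (Nat.zero_le _) x hx
    · exact h.an_k 0 (Nat.zero_le _) x hx
  · have hj : (j : ℕ) ≤ P := j.2.le.trans hN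
    have h1 : AnalyticAt ℂ (ext0 ((a : Hol (bO c₀ r)) : bO c₀ r → ℂ)) (x.1 + x.2 * β j x) :=
      Hol.an (a : Hol (bO c₀ r)) _ (hv x hx j hj)
    exact AnalyticAt.fun_comp (g := ext0 ((a : Hol (bO c₀ r)) : bO c₀ r → ℂ)) h1
      (analyticAt_fst.add (analyticAt_snd.mul (h.an_β j hj x hx)))

theorem an_eval {g : ℂ → ℂ} {c₀ : ℂ} {P : ℕ} {ρ : ℝ} {β m k q q' : ℕ → ℂ × ℂ → ℂ}
    (h : F7389.Chain g c₀ P ρ β m k q q') {r : ℝ} (A : Subalgebra ℂ (Hol (bO c₀ r)))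
    (hv : ∀ x ∈ ball c₀ ρ ×ˢ ball (0 : ℂ) ρ, ∀ j ≤ P, x.1 + x.2 * β j x ∈ ball c₀ r)
    {N : ℕ} (hN : N ≤ P) (F : MvPolynomial (Fin 2 ⊕ (Fin N × A)) ℂ) :
    AnalyticOnNhd ℂ (fun x => MvPolynomial.eval (obs A N β m k x) F)
      (ball c₀ ρ ×ˢ ball (0 : ℂ) ρ) := by
  intro x hx
  induction F using MvPolynomial.induction_on with
  | C a => simpa using analyticAt_const
  | add p q hp hq =>
    simp only [map_add]
    exact hp.add hq
  | mul_X p o hp =>
    simp only [map_mul, MvPolynomial.eval_X]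
    exact hp.mul (an_obs h A hv hN o x hx)

theorem an_eval₂ {g : ℂ → ℂ} {S : Set ℂ} (hg : AnalyticOnNhd ℂ g S)
    (F : MvPolynomial (Fin 2) ℂ) : AnalyticOnNhd ℂ (fun z => MvPolynomial.eval ![z, g z] F) S := by
  intro z hz
  induction F using MvPolynomial.induction_on with
  | C a => simpa using analyticAt_const
  | add p q hp hq =>
    simp only [map_add]
    exact hp.add hq
  | mul_X p o hp =>
    simp only [map_mul, MvPolynomial.eval_X]
    refine hp.mul ?_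
    fin_cases o
    · exact analyticAt_id
    · exact hg z hz

/-- **RUN + PENCIL + CT**: RAT-3 -/
theorem rat3_core (hCT : CTStmt) {g : ℂ → ℂ} {c₀ : ℂ} {r : ℝ} {A : Subalgebra ℂ (Hol (bO c₀ r))}
    {G : Hol (bO c₀ r)} (hFT : FT g c₀ r A G) {P : ℕ} {ρ : ℝ} {β m k q q' : ℕ → ℂ × ℂ → ℂ}
    (hC : F7389.Chain g c₀ P ρ β m k q q')
    (hv : ∀ x ∈ ball c₀ ρ ×ˢ ball (0 : ℂ) ρ, x.1 - x.2 ∈ ball c₀ r ∧
      ∀ j ≤ P, x.1 + x.2 * β j x ∈ ball c₀ r)
    (hg2 : deriv (deriv g) c₀ ≠ 0)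
    (hna : ¬ ∃ Q : MvPolynomial (Fin 2) ℂ, Q ≠ 0 ∧
      ∀ᶠ z in 𝓝 c₀, MvPolynomial.eval ![z, g z] Q = 0)
    (hrun : ∀ δ > 0, ∀ ρ', 0 < ρ' → ρ' < ρ → ∃ N, 0 < N ∧ N ≤ P ∧
      RunOut g c₀ A G N ρ β m k δ ρ') : False := by
  have hch := chord_of_chain hC hg2
  obtain ⟨δ, hδ, ρ', hρ', hδρ, hρ'ρ, hpen⟩ := pencil hch
  obtain ⟨N, hN, hNP, p, hp, hp0, y, r', ι, gh, hFar, u, hua, huy, hui, htr, hng, hnt, Q, hQ, i,
    hQi⟩ := hrun δ hδ ρ' hρ' hρ'ρ
  have hv1 : ∀ x ∈ ball c₀ ρ ×ˢ ball (0 : ℂ) ρ, ∀ j ≤ P, x.1 + x.2 * β j x ∈ ball c₀ r :=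
    fun x hx => (hv x hx).2
  set U : Set (ℂ × ℂ) := ball c₀ ρ ×ˢ ball (0 : ℂ) ρ with hU
  have hUo : IsOpen U := isOpen_ball.prod isOpen_ball
  have hUp : IsPreconnected U := (convex_ball c₀ ρ).isPreconnected.prod
    (convex_ball (0 : ℂ) ρ).isPreconnected
  have hpU : p ∈ U := Pen926.prod_mono (hδρ.trans hρ'ρ.le) hp
  -- the far mirror is analytic
  have hghan : ∀ z ∈ ball y r', AnalyticAt ℂ gh z := by
    intro z hz
    have h1 := Hol.an (ι ⟨G, hFT.G_mem⟩) z hz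
    refine h1.congr ?_
    exact eventually_ext0_eq (U := bO y r') (F := gh)
      (fun w => (hFar.G_eq hFT.G_mem w).symm) hz
  have hgha : AnalyticAt ℂ gh y := hghan y (mem_ball_self hFar.r'_pos)
  have hghy : gh y = m 0 p * y + k 0 p := by
    have := hui.self_of_nhds
    rwa [huy] at this
  -- the relation as an analytic function
  set R : ℂ × (ℂ × ℂ) → ℂ := fun v => Q.eval₂ (MvPolynomial.eval (obs A N β m k v.2)) v.1 with hR
  have hRan : AnalyticOnNhd ℂ R (univ ×ˢ U) := by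
    rintro ⟨v, x⟩ ⟨-, hx⟩
    have e : R = fun v : ℂ × (ℂ × ℂ) => ∑ i ∈ Finset.range (Q.natDegree + 1),
        MvPolynomial.eval (obs A N β m k v.2) (Q.coeff i) * v.1 ^ i := by
      funext v
      rw [hR]
      exact Polynomial.eval₂_eq_sum_range _ _
    rw [e]
    refine Finset.analyticAt_fun_sum _ fun i _ => ?_
    refine AnalyticAt.mul ?_ (analyticAt_fst.pow i)
    exact AnalyticAt.fun_comp (g := fun x => MvPolynomial.eval (obs A N β m k x) (Q.coeff i))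
      (an_eval hC A hv1 hNP (Q.coeff i) x hx) analyticAt_snd
  have hgood : Pen926.Good (m 0) (k 0) gh y R p := ⟨u, hua, huy, hui, hQ⟩
  obtain ⟨t, ht, hty, hYt, htt, u₁, hu₁a, hu₁y, hu₁i, hu₁R⟩ :=
    hpen p hp hp0 gh y hgha hghy htr hng hnt R hRan hgood
  -- the chain at `t`
  have htρ : ‖t - c₀‖ < ρ' := mem_ball_iff_norm.1 ht
  set ρ₁ := ρ - ‖t - c₀‖ with hρ₁
  have hρ₁p : 0 < ρ₁ := by rw [hρ₁]; linarith
  have hρ₁le : ρ₁ ≤ ρ := by rw [hρ₁]; linarith [norm_nonneg (t - c₀)]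
  have hsub : ball t ρ₁ ⊆ ball c₀ ρ := by
    intro z hz
    rw [mem_ball_iff_norm] at hz ⊢
    calc ‖z - c₀‖ = ‖(z - t) + (t - c₀)‖ := by ring_nf
      _ ≤ ‖z - t‖ + ‖t - c₀‖ := norm_add_le _ _
      _ < ρ := by linarith
  have hCt := chain_mono hC hNP hρ₁p hsub hρ₁le
  have hsubU : ball t ρ₁ ×ˢ ball (0 : ℂ) ρ₁ ⊆ U := Set.prod_mono hsub (ball_subset_ball hρ₁le)
  have htU : ((t, 0) : ℂ × ℂ) ∈ U := hsubU ⟨mem_ball_self hρ₁p, mem_ball_self hρ₁p⟩
  have hRel : Rel A N β m k (t, 0) u₁ := by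
    refine ⟨Q, hu₁R, i, fun hcon => hQi ?_⟩
    have h1 := (an_eval hC A hv1 hNP (Q.coeff i)).eqOn_zero_of_preconnected_of_eventuallyEq_zero
      hUp htU hcon
    filter_upwards [hUo.mem_nhds hpU] with x hx using h1 hx
  obtain ⟨F, hF0, hF⟩ := hCT g c₀ r A G hFT t N ρ₁ β m k q q' hN hCt
    (fun x hx => ⟨(hv x (hsubU hx)).1, fun j hj => (hv x (hsubU hx)).2 j (hj.trans hNP)⟩)
    y r' ι gh hFar hty.symm hYt htt u₁ hu₁a hu₁y hu₁i hRel
  refine hna ⟨F, hF0, ?_⟩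
  -- identity theorem
  have hFan : AnalyticOnNhd ℂ (fun z => MvPolynomial.eval ![z, g z] F) (ball c₀ (2 * ρ)) :=
    an_eval₂ hch.g_an F
  have h2 : t ∈ ball c₀ (2 * ρ) := by
    rw [mem_ball_iff_norm]; linarith
  have h3 := hFan.eqOn_zero_of_preconnected_of_eventuallyEq_zero
    (convex_ball c₀ (2 * ρ)).isPreconnected h2 hF
  filter_upwards [ball_mem_nhds c₀ (show (0 : ℝ) < 2 * ρ by linarith)] with z hz using h3 hz

end Crest.Agent.R102.RAT
end
end

-- ▼ part R102/RatFinA_926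
section

/-!
# Row 102, (RAT), finite type (helper926): transfer from the big polydisc to an open subset
-/

set_option autoImplicit false

open Set Filter Topology Metric TopologicalSpace

noncomputable section

namespace Crest.Agent.R102.RAT

open Crest.Agent.R102.H3 Crest.Agent.R102.Glue798 Crest.Agent.R102.Rat7217
  Crest.Agent.R102.MerF217 Crest.Agent.R102.DF389

theorem jcb_res {U W : Opens (ℂ × ℂ)} (hle : W ≤ U) (f h : Hol U) :
    Rat7217.jcb (Hol.res hle f) (Hol.res hle h) = Hol.res hle (Rat7217.jcb f h) := by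
  have e : ∀ (v : ℂ × ℂ) (f : Hol U), dV v (Hol.res hle f) = Hol.res hle (dV v f) := by
    intro v f
    have h1 := pdH_res hle v f
    exact h1
  simp only [Rat7217.jcb, e, map_sub, map_mul]

/-- transfer of dual derivations under restriction -/
theorem transferU {U W : Opens (ℂ × ℂ)} (hle : W ≤ U) (hU : IsPreconnected (U : Set (ℂ × ℂ)))
    [hne : Nonempty W] [IsDomain (Hol U)] {μ κ : Hol U}
    {D₁ D₂ : Derivation ℂ (FractionRing (Hol U)) (FractionRing (Hol U))} (h : Dual μ κ D₁ D₂)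
    {M : Type} [Field M] [Algebra ℂ M] [Algebra (Hol W) M] [IsScalarTower ℂ (Hol W) M]
    [IsFractionRing (Hol W) M] {D₁' D₂' : Derivation ℂ M M}
    (h' : Dual (Hol.res hle μ) (Hol.res hle κ) D₁' D₂') :
    ∃ φ : FractionRing (Hol U) →ₐ[ℂ] M,
      (∀ f : Hol U, φ (algebraMap (Hol U) (FractionRing (Hol U)) f) =
        algebraMap (Hol W) M (Hol.res hle f)) ∧
      (∀ x, D₁' (φ x) = φ (D₁ x)) ∧ ∀ x, D₂' (φ x) = φ (D₂ x) := by
  have hinj : Function.Injective ((IsScalarTower.toAlgHom ℂ (Hol W) M).comp (Hol.res hle)) :=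
    (IsFractionRing.injective (Hol W) M).comp (res_injective hle hU)
  let φ : FractionRing (Hol U) →ₐ[ℂ] M := IsFractionRing.liftAlgHom (K := FractionRing (Hol U))
    (g := (IsScalarTower.toAlgHom ℂ (Hol W) M).comp (Hol.res hle)) hinj
  have hφ : ∀ f : Hol U, φ (algebraMap (Hol U) (FractionRing (Hol U)) f) =
      algebraMap (Hol W) M (Hol.res hle f) := fun f => IsLocalization.lift_eq _ _
  refine ⟨φ, hφ, ?_, ?_⟩
  · refine fr_ext (A := Hol U) φ (D := fun x => D₁' (φ x)) (D' := fun x => φ (D₁ x)) (fun a b => ?_)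
      (fun a b => ?_) (fun f => ?_)
    · simp only [map_mul, Derivation.leibniz, smul_eq_mul]
    · simp only [Derivation.leibniz, map_add, smul_eq_mul, map_mul]
    · refine mul_left_cancel₀ h'.ne ?_
      simp only [hφ]
      rw [h'.d₁, jcb_res, jcb_res, ← hφ, ← hφ, ← h.d₁, map_mul]
  · refine fr_ext (A := Hol U) φ (D := fun x => D₂' (φ x)) (D' := fun x => φ (D₂ x)) (fun a b => ?_)
      (fun a b => ?_) (fun f => ?_)
    · simp only [map_mul, Derivation.leibniz, smul_eq_mul]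
    · simp only [Derivation.leibniz, map_add, smul_eq_mul, map_mul]
    · refine mul_left_cancel₀ h'.ne ?_
      simp only [hφ]
      rw [h'.d₂, jcb_res, jcb_res, ← hφ, ← hφ, ← h.d₂, map_mul]

end Crest.Agent.R102.RAT
end
end

-- ▼ part R102/RATDefs3_926

/-!
# Row 102, [H3], THEOREM (RAT): the field side (helper926): literal Props of R4 (389), RUN (58)

`M = FractionRing (Hol (WO c₀ ρ))`, `WO c₀ ρ = ball c₀ ρ × ball 0 ρ`.
-/

set_option autoImplicit false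

open Set Filter Topology Metric TopologicalSpace

noncomputable section

namespace Crest.Agent.R102.RAT

open Crest.Agent.R102.H3 Crest.Agent.R102.Glue798 Crest.Agent.R102.Rat7217
  Crest.Agent.R102.Free781

/-- the elements of `A` are rational functions of `z, g, g', …` -/
def Gen {c₀ : ℂ} {r : ℝ} (A : Subalgebra ℂ (Hol (bO c₀ r))) (G : Hol (bO c₀ r)) : Prop :=
  ∀ f ∈ A, ∃ u ∈ Algebra.adjoin ℂ (insert (zH (bO c₀ r)) (range fun n => (DH (bO c₀ r))^[n] G)),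
    ∃ v ∈ Algebra.adjoin ℂ (insert (zH (bO c₀ r)) (range fun n => (DH (bO c₀ r))^[n] G)),
      v ≠ 0 ∧ v * f = u

/-- square roots of the slopes -/
structure Sq (g : ℂ → ℂ) (c₀ : ℂ) (N : ℕ) (ρ : ℝ) (β m e : ℕ → ℂ × ℂ → ℂ) : Prop where
  an : ∀ i ≤ N, AnalyticOnNhd ℂ (e i) (ball c₀ ρ ×ˢ ball (0 : ℂ) ρ)
  sq : ∀ i ≤ N, ∀ x ∈ ball c₀ ρ ×ˢ ball (0 : ℂ) ρ, e i x ^ 2 = m i x
  refl : ∀ i < N, ∀ x ∈ ball c₀ ρ ×ˢ ball (0 : ℂ) ρ,
    e i x * e (i + 1) x = deriv g (x.1 + x.2 * β i x)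

/-- the element of `FractionRing (Hol W)` given by a function -/
def toM (W : Opens (ℂ × ℂ)) (F : ℂ × ℂ → ℂ) : FractionRing (Hol W) :=
  algebraMap (Hol W) (FractionRing (Hol W)) (toH W F)

/-- vertices, jets, lines -/
def bM (W : Opens (ℂ × ℂ)) (β : ℕ → ℂ × ℂ → ℂ) (j : ℕ) : FractionRing (Hol W) :=
  toM W fun x => x.1 + x.2 * β j x
def xM (W : Opens (ℂ × ℂ)) (g : ℂ → ℂ) (β : ℕ → ℂ × ℂ → ℂ) (j r : ℕ) : FractionRing (Hol W) :=
  toM W fun x => iteratedDeriv r g (x.1 + x.2 * β j x)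
def lM (W : Opens (ℂ × ℂ)) (e : ℕ → ℂ × ℂ → ℂ) (j : ℕ) : FractionRing (Hol W) := toM W (e j)

/-- the vertices lie in the disc -/
def InD (c₀ : ℂ) (r : ℝ) (N : ℕ) (ρ : ℝ) (β : ℕ → ℂ × ℂ → ℂ) : Prop :=
  ∀ x ∈ ball c₀ ρ ×ˢ ball (0 : ℂ) ρ, x.1 - x.2 ∈ ball c₀ r ∧
    ∀ j ≤ N, x.1 + x.2 * β j x ∈ ball c₀ r

/-- **R4** (389): RAT-1, `L` is algebraic over `K` -/
def R4Stmt : Prop :=
  ∀ (g : ℂ → ℂ) (c₀ : ℂ) (r : ℝ) (A : Subalgebra ℂ (Hol (bO c₀ r))) (G : Hol (bO c₀ r)),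
    FT g c₀ r A G → Gen A G → ∀ (N : ℕ) (ρ : ℝ) (β m k q q' e : ℕ → ℂ × ℂ → ℂ), 0 < N →
    F7389.Chain g c₀ N ρ β m k q q' → Sq g c₀ N ρ β m e → InD c₀ r N ρ β →
    ∀ [IsDomain (Hol (WO c₀ ρ))]
      (D₁ D₂ : Derivation ℂ (FractionRing (Hol (WO c₀ ρ))) (FractionRing (Hol (WO c₀ ρ)))),
      Dual (toH (WO c₀ ρ) (m 0)) (toH (WO c₀ ρ) (k 0)) D₁ D₂ →
      FChain D₁ D₂ N (bM (WO c₀ ρ) β) (xM (WO c₀ ρ) g β) (lM (WO c₀ ρ) e) (lM (WO c₀ ρ) k) →
      ∀ f ∈ LL N (bM (WO c₀ ρ) β) (xM (WO c₀ ρ) g β) (lM (WO c₀ ρ) e) (lM (WO c₀ ρ) k),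
        IsAlgebraic (KK D₁ D₂ N (lM (WO c₀ ρ) e) (lM (WO c₀ ρ) k)) f

/-- **RUN** (58) -/
def RunStmt : Prop :=
  ∀ (g : ℂ → ℂ) (c₀ : ℂ) (r : ℝ) (A : Subalgebra ℂ (Hol (bO c₀ r))) (G : Hol (bO c₀ r)),
    FT g c₀ r A G → Gen A G → ∀ (N : ℕ) (ρ₀ : ℝ) (β m k q q' e : ℕ → ℂ × ℂ → ℂ), 0 < N →
    F7389.Chain g c₀ (2 * N) ρ₀ β m k q q' → Sq g c₀ (2 * N) ρ₀ β m e →
    InD c₀ r (2 * N) ρ₀ β → ∃ R > 0, R ≤ ρ₀ ∧ ∀ ρ, 0 < ρ → ρ ≤ R →
    ∀ [IsDomain (Hol (WO c₀ ρ))]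
      (D₁ D₂ : Derivation ℂ (FractionRing (Hol (WO c₀ ρ))) (FractionRing (Hol (WO c₀ ρ)))),
      Dual (toH (WO c₀ ρ) (m 0)) (toH (WO c₀ ρ) (k 0)) D₁ D₂ →
      FChain D₁ D₂ (2 * N) (bM (WO c₀ ρ) β) (xM (WO c₀ ρ) g β) (lM (WO c₀ ρ) e)
        (lM (WO c₀ ρ) k) →
      (∀ f ∈ LL N (bM (WO c₀ ρ) β) (xM (WO c₀ ρ) g β) (lM (WO c₀ ρ) e) (lM (WO c₀ ρ) k),
        IsAlgebraic (KK D₁ D₂ N (lM (WO c₀ ρ) e) (lM (WO c₀ ρ) k)) f) →
      bM (WO c₀ ρ) β 0 ∉ KK D₁ D₂ N (lM (WO c₀ ρ) e) (lM (WO c₀ ρ) k) →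
      ∀ δ > 0, ∀ ρ', 0 < ρ' → ρ' < ρ → ∃ N', 0 < N' ∧ N' ≤ 2 * N ∧
        RunOut g c₀ A G N' ρ β m k δ ρ'

/-- **fchain** (798) -/
def FChainStmt : Prop :=
  ∀ (g : ℂ → ℂ) (c₀ : ℂ) (N : ℕ) (ρ : ℝ) (β m k q q' e : ℕ → ℂ × ℂ → ℂ),
    F7389.Chain g c₀ N ρ β m k q q' → Sq g c₀ N ρ β m e →
    ∀ [IsDomain (Hol (WO c₀ ρ))]
      (D₁ D₂ : Derivation ℂ (FractionRing (Hol (WO c₀ ρ))) (FractionRing (Hol (WO c₀ ρ)))),
      Dual (toH (WO c₀ ρ) (m 0)) (toH (WO c₀ ρ) (k 0)) D₁ D₂ →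
      FChain D₁ D₂ N (bM (WO c₀ ρ) β) (xM (WO c₀ ρ) g β) (lM (WO c₀ ρ) e) (lM (WO c₀ ρ) k)

end Crest.Agent.R102.RAT
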