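import Crest.Agent.R102.RatAll_926
import Crest.Agent.R102.RunSec_58
import Crest.Agent.R102.LeviM2_88
import Mathlib
import Crest.Agent.R102.SpineDefs_478
import Crest.Agent.R102.C1K_821
import Crest.Agent.R102.C1L_821

-- ▼ part R102/RatDone_926
section

/-!
# Row 102, [H3]: THEOREM (RAT) and its continuation form, closed (helper926)

`ratGerm2 : RatGerm2` and `ratCont : Spine.RatCont`, no hypotheses.
Leaves: `CT575.ct` (575), `Rat1389.r4Stmt` (389), `RunE58.second` (58), `RatInf` (201),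
`Rat7217.ratCont` (217); assembly `RatFin_926`, `RatAsm_926`, `RatAll_926`.
-/

set_option autoImplicit false

noncomputable section

namespace Crest.Agent.R102.RAT


theorem ratCont : Spine.RatCont := ratCont_of_second RunE58.second

end Crest.Agent.R102.RAT
end
end

-- ▼ part R102/LeviM3_88
section

/-!
Row 102, part (C) (helper88): Levi extension theorem with meromorphic data: propagation
(`LD.all`), compatibility with the values at `w = 0` (`LDC`), extraction of the coefficient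
(`extract`), final statement `levi_mer`.
-/

set_option autoImplicit false

open Set Filter Topology Metric

noncomputable section

namespace Crest.Agent.R102.LeviM88

open Crest.Agent.R102.Mer88 Crest.Agent.R102

theorem ball_sub {t1 t' : ℂ} {ε : ℝ} : ball t' (ε - dist t' t1) ⊆ ball t1 ε := by
  intro x hx
  rw [mem_ball] at hx ⊢
  linarith [dist_triangle x t' t1]

theorem isOpen_LD (f : ℂ × ℂ → ℂ) (ρ1 ρ2 : ℝ) : IsOpen {t | LD f ρ1 ρ2 t} := by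
  rw [Metric.isOpen_iff]
  rintro t1 ⟨ε, hε, ρ, hρ1, hρ2, P, Q, hP, hQ, hR⟩
  refine ⟨ε, hε, fun t' ht' => ?_⟩
  rw [mem_ball] at ht'
  have hsub := ball_sub (t1 := t1) (t' := t') (ε := ε)
  have hdist := dist_nonneg (x := t') (y := t1)
  have hsub2 : ball t' (ε - dist t' t1) ×ˢ ball (0 : ℂ) (ρ + (ε - dist t' t1)) ⊆
      ball t1 ε ×ˢ ball (0 : ℂ) (ρ + ε) :=
    prod_mono hsub (ball_subset_ball (by linarith))
  exact ⟨ε - dist t' t1, by linarith, ρ, hρ1, hρ2, P, Q, fun x hx => hP x (hsub2 hx),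
    fun x hx => hQ x (hsub2 hx), fun t ht w hw => hR t (hsub ht) w hw⟩

/-- Levi data propagate -/
theorem LD.all {f : ℂ × ℂ → ℂ} {ρ1 ρ2 : ℝ} (h0 : 0 < ρ1) (h12 : ρ1 < ρ2) {Ω : Set ℂ}
    (hc : IsPreconnected Ω)
    (hf : ∀ t ∈ Ω, ∀ w : ℂ, ρ1 ≤ ‖w‖ → ‖w‖ ≤ ρ2 → MerAt f (t, w)) {t0 : ℂ} (ht0 : t0 ∈ Ω)
    (hb : LD f ρ1 ρ2 t0) : ∀ t ∈ Ω, LD f ρ1 ρ2 t := by
  have h := hc.subset_of_closure_inter_subset (isOpen_LD f ρ1 ρ2) ⟨t0, ht0, hb⟩ (by
    rintro t ⟨ht, htΩ⟩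
    exact LD.step h0 h12 (hf t htΩ) (mem_closure_iff_frequently.1 ht))
  exact fun t ht => h ht

/-- a function holomorphic near `{t0} × {|w| ≤ ρ2}` has Levi data at `t0` -/
theorem LD.base {f : ℂ × ℂ → ℂ} {ρ1 ρ2 : ℝ} (h12 : ρ1 < ρ2) {t0 : ℂ}
    (hf : ∀ w : ℂ, ‖w‖ ≤ ρ2 → AnalyticAt ℂ f (t0, w)) : LD f ρ1 ρ2 t0 := by
  have h1 := tube_ann (U := {x | AnalyticAt ℂ f x}) (isOpen_analyticAt ℂ f) (t1 := t0) (ρ1 := -1)
    (ρ2 := ρ2) (fun w _ hw => hf w hw)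
  obtain ⟨r, hr, h2⟩ := Metric.eventually_nhds_iff_ball.1 h1
  refine ⟨min r ((ρ2 - ρ1) / 2), lt_min hr (by linarith), (ρ1 + ρ2) / 2, by linarith, by linarith,
    f, fun _ => 1, ?_, ?_, ?_⟩
  · rintro ⟨t, w⟩ ⟨ht, hw⟩
    simp only [mem_ball_zero_iff] at hw
    exact h2 t (ball_subset_ball (min_le_left _ _) ht) w (by linarith [norm_nonneg w])
      (by linarith [min_le_right r ((ρ2 - ρ1) / 2)])
  · exact fun x _ => nz_one x
  · intro t ht w hw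
    exact rep_of_analytic (Eventually.of_forall fun _ => one_mul _)

/-- Levi data at `t1` representing `f` also at `(t1, 0)` -/
def LDC (f : ℂ × ℂ → ℂ) (ρ1 ρ2 : ℝ) (t1 : ℂ) : Prop :=
  ∃ ε > 0, ∃ ρ, ρ1 < ρ ∧ ρ < ρ2 ∧ ∃ P Q : ℂ × ℂ → ℂ,
    AnalyticOnNhd ℂ P (ball t1 ε ×ˢ ball 0 (ρ + ε)) ∧
    (∀ x ∈ ball t1 ε ×ˢ ball (0 : ℂ) (ρ + ε), NZ Q x) ∧
    (∀ t ∈ ball t1 ε, ∀ w : ℂ, ‖w‖ = ρ → Rep f P Q (t, w)) ∧ Rep f P Q (t1, 0)

theorem isOpen_LDC (f : ℂ × ℂ → ℂ) (ρ1 ρ2 : ℝ) : IsOpen {t | LDC f ρ1 ρ2 t} := by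
  rw [isOpen_iff_mem_nhds]
  rintro t1 ⟨ε, hε, ρ, hρ1, hρ2, P, Q, hP, hQ, hR, hR0⟩
  have h1 : ∀ᶠ t in 𝓝 t1, Rep f P Q (t, 0) :=
    (Continuous.tendsto (by fun_prop : Continuous fun t : ℂ => ((t, 0) : ℂ × ℂ)) t1).eventually
      hR0.eventually
  filter_upwards [h1, ball_mem_nhds t1 hε] with t' hR' ht'
  rw [mem_ball] at ht'
  have hsub := ball_sub (t1 := t1) (t' := t') (ε := ε)
  have hdist := dist_nonneg (x := t') (y := t1)
  have hsub2 : ball t' (ε - dist t' t1) ×ˢ ball (0 : ℂ) (ρ + (ε - dist t' t1)) ⊆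
      ball t1 ε ×ˢ ball (0 : ℂ) (ρ + ε) :=
    prod_mono hsub (ball_subset_ball (by linarith))
  exact ⟨ε - dist t' t1, by linarith, ρ, hρ1, hρ2, P, Q, fun x hx => hP x (hsub2 hx),
    fun x hx => hQ x (hsub2 hx), fun t ht w hw => hR t (hsub ht) w hw, hR'⟩

theorem LDC.base {f : ℂ × ℂ → ℂ} {ρ1 ρ2 : ℝ} (h12 : ρ1 < ρ2) {t0 : ℂ}
    (hf : ∀ w : ℂ, ‖w‖ ≤ ρ2 → AnalyticAt ℂ f (t0, w)) : LDC f ρ1 ρ2 t0 := by
  have h1 := tube_ann (U := {x | AnalyticAt ℂ f x}) (isOpen_analyticAt ℂ f) (t1 := t0) (ρ1 := -1)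
    (ρ2 := ρ2) (fun w _ hw => hf w hw)
  obtain ⟨r, hr, h2⟩ := Metric.eventually_nhds_iff_ball.1 h1
  refine ⟨min r ((ρ2 - ρ1) / 2), lt_min hr (by linarith), (ρ1 + ρ2) / 2, by linarith, by linarith,
    f, fun _ => 1, ?_, ?_, ?_, ?_⟩
  · rintro ⟨t, w⟩ ⟨ht, hw⟩
    simp only [mem_ball_zero_iff] at hw
    exact h2 t (ball_subset_ball (min_le_left _ _) ht) w (by linarith [norm_nonneg w])
      (by linarith [min_le_right r ((ρ2 - ρ1) / 2)])
  · exact fun x _ => nz_one x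
  · intro t ht w hw
    exact rep_of_analytic (Eventually.of_forall fun _ => one_mul _)
  · exact rep_of_analytic (Eventually.of_forall fun _ => one_mul _)

/-- transfer of the representation at `(t2, 0)` between two data -/
theorem transfer {f : ℂ × ℂ → ℂ} {ρ1 ρ2 : ℝ} (h0 : 0 < ρ1) {t1 t2 : ℂ} {ε ρ : ℝ} (hε : 0 < ε)
    (hρ1 : ρ1 < ρ) (hρ2 : ρ < ρ2) {P Q : ℂ × ℂ → ℂ}
    (hP : AnalyticOnNhd ℂ P (ball t1 ε ×ˢ ball 0 (ρ + ε)))
    (hQ : ∀ x ∈ ball t1 ε ×ˢ ball (0 : ℂ) (ρ + ε), NZ Q x)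
    (hR : ∀ t ∈ ball t1 ε, ∀ w : ℂ, ‖w‖ = ρ → Rep f P Q (t, w)) (ht2 : t2 ∈ ball t1 ε)
    (hf : ∀ w : ℂ, ρ1 ≤ ‖w‖ → ‖w‖ ≤ ρ2 → MerAt f (t2, w)) (h : LDC f ρ1 ρ2 t2) :
    Rep f P Q (t2, 0) := by
  obtain ⟨ε', hε', ρ', hρ1', hρ2', P', Q', hP', hQ', hR', hR0⟩ := h
  have hr1 : Rep f P Q (t2, (ρ1 : ℂ)) := by
    refine rep_radial (b := ρ) h0 (fun w h1 h2 => hf w h1 (h2.trans hρ2.le))
      (fun w _ h2 => hP _ ⟨ht2, by rw [mem_ball_zero_iff]; linarith⟩)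
      (fun w _ h2 => (hQ _ ⟨ht2, by rw [mem_ball_zero_iff]; linarith⟩).1) hρ1.le le_rfl
      (fun w hw => hR t2 ht2 w hw) _ ?_ ?_
    · rw [Complex.norm_real, Real.norm_of_nonneg h0.le]
    · rw [Complex.norm_real, Real.norm_of_nonneg h0.le]; exact hρ1.le
  have hr2 : Rep f P' Q' (t2, (ρ1 : ℂ)) := by
    refine rep_radial (b := ρ') h0 (fun w h1 h2 => hf w h1 (h2.trans hρ2'.le))
      (fun w _ h2 => hP' _ ⟨mem_ball_self hε', by rw [mem_ball_zero_iff]; linarith⟩)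
      (fun w _ h2 => (hQ' _ ⟨mem_ball_self hε', by rw [mem_ball_zero_iff]; linarith⟩).1)
      hρ1'.le le_rfl
      (fun w hw => hR' t2 (mem_ball_self hε') w hw) _ ?_ ?_
    · rw [Complex.norm_real, Real.norm_of_nonneg h0.le]
    · rw [Complex.norm_real, Real.norm_of_nonneg h0.le]; exact hρ1'.le
  set m : ℝ := min ρ ρ' with hm
  have hm1 : ρ1 < m := lt_min hρ1 hρ1'
  set U : Set (ℂ × ℂ) := (ball t1 ε ∩ ball t2 ε') ×ˢ ball (0 : ℂ) m with hU
  have hUo : IsOpen U := (isOpen_ball.inter isOpen_ball).prod isOpen_ball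
  have hUc : IsPreconnected U :=
    ((convex_ball _ _).inter (convex_ball _ _)).isPreconnected.prod
      (convex_ball _ _).isPreconnected
  have hU1 : ∀ x ∈ U, x ∈ ball t1 ε ×ˢ ball (0 : ℂ) (ρ + ε) := fun x hx =>
    ⟨hx.1.1, ball_subset_ball (by linarith [min_le_left ρ ρ']) hx.2⟩
  have hU2 : ∀ x ∈ U, x ∈ ball t2 ε' ×ˢ ball (0 : ℂ) (ρ' + ε') := fun x hx =>
    ⟨hx.1.2, ball_subset_ball (by linarith [min_le_right ρ ρ']) hx.2⟩
  have hx1 : ((t2, (ρ1 : ℂ)) : ℂ × ℂ) ∈ U := ⟨⟨ht2, mem_ball_self hε'⟩, by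
    rw [mem_ball_zero_iff, Complex.norm_real, Real.norm_of_nonneg h0.le]; exact hm1⟩
  have hx0 : ((t2, 0) : ℂ × ℂ) ∈ U := ⟨⟨ht2, mem_ball_self hε'⟩, mem_ball_self (h0.trans hm1)⟩
  set H : ℂ × ℂ → ℂ := fun x => P' x * Q x - P x * Q' x with hH
  have hHa : AnalyticOnNhd ℂ H U := fun x hx =>
    ((hP' x (hU2 x hx)).mul (hQ x (hU1 x hx)).1).sub ((hP x (hU1 x hx)).mul (hQ' x (hU2 x hx)).1)
  have hH1 : H =ᶠ[𝓝 ((t2, (ρ1 : ℂ)) : ℂ × ℂ)] 0 := by
    have := Rep.unique (hP' _ (hU2 _ hx1)) (hQ' _ (hU2 _ hx1)).1 (hP _ (hU1 _ hx1))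
      (hQ _ (hU1 _ hx1)).1 hr2 hr1
    filter_upwards [this] with x hx
    exact hx
  have hH0 := hHa.eqOn_zero_of_preconnected_of_eventuallyEq_zero hUc hx1 hH1
  refine Rep.transfer (hQ' _ (hU2 _ hx0)) hR0 ?_
  filter_upwards [hUo.mem_nhds hx0] with x hx
  exact hH0 hx

/-- propagation along `A × {0}` inside one chart -/
theorem propagate {f : ℂ × ℂ → ℂ} {t1 t2 : ℂ} {ε ρ : ℝ} (hρ : 0 < ρ + ε) {P Q : ℂ × ℂ → ℂ}
    (hP : AnalyticOnNhd ℂ P (ball t1 ε ×ˢ ball 0 (ρ + ε)))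
    (hQ : ∀ x ∈ ball t1 ε ×ˢ ball (0 : ℂ) (ρ + ε), NZ Q x) {A : Set ℂ} (hA : Convex ℝ A)
    (hf : ∀ t ∈ A, MerAt f (t, 0)) (ht2 : t2 ∈ ball t1 ε) (ht2A : t2 ∈ A)
    (h : Rep f P Q (t2, 0)) : ∀ t ∈ ball t1 ε, t ∈ A → Rep f P Q (t, 0) := by
  intro t ht htA
  set S : Set (ℂ × ℂ) := (fun t : ℂ => ((t, 0) : ℂ × ℂ)) '' (ball t1 ε ∩ A) with hS
  have hSc : IsPreconnected S := ((convex_ball _ _).inter hA).isPreconnected.image _
    (Continuous.continuousOn (by fun_prop))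
  refine rep_of_preconnected hSc ?_ ?_ ?_ (c0 := (t2, 0)) ⟨t2, ⟨ht2, ht2A⟩, rfl⟩ h _
    ⟨t, ⟨ht, htA⟩, rfl⟩
  · rintro _ ⟨s, hs, rfl⟩; exact hf s hs.2
  · rintro _ ⟨s, hs, rfl⟩; exact hP _ ⟨hs.1, mem_ball_self hρ⟩
  · rintro _ ⟨s, hs, rfl⟩; exact (hQ _ ⟨hs.1, mem_ball_self hρ⟩).1

theorem LDC.all {f : ℂ × ℂ → ℂ} {ρ1 ρ2 : ℝ} (h0 : 0 < ρ1) (h12 : ρ1 < ρ2) {A : Set ℂ}
    (hAo : IsOpen A) (hA : Convex ℝ A) (hf : ∀ t ∈ A, ∀ w : ℂ, ρ1 ≤ ‖w‖ → ‖w‖ ≤ ρ2 → MerAt f (t, w))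
    (hf0 : ∀ t ∈ A, MerAt f (t, 0)) {t0 : ℂ} (ht0 : t0 ∈ A)
    (hb : LDC f ρ1 ρ2 t0) : ∀ t ∈ A, LDC f ρ1 ρ2 t := by
  have hLD : ∀ t ∈ A, LD f ρ1 ρ2 t := by
    refine LD.all h0 h12 hA.isPreconnected hf ht0 ?_
    obtain ⟨ε, hε, ρ, hρ1, hρ2, P, Q, hP, hQ, hR, -⟩ := hb
    exact ⟨ε, hε, ρ, hρ1, hρ2, P, Q, hP, hQ, hR⟩
  have h := hA.isPreconnected.subset_of_closure_inter_subset (isOpen_LDC f ρ1 ρ2)
    ⟨t0, ht0, hb⟩ (by
      rintro t1 ⟨ht, htA⟩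
      obtain ⟨ε, hε, ρ, hρ1, hρ2, P, Q, hP, hQ, hR⟩ := hLD t1 htA
      have hb1 : ∀ᶠ t in 𝓝 t1, t ∈ ball t1 ε := ball_mem_nhds t1 hε
      have hb2 : ∀ᶠ t in 𝓝 t1, t ∈ A := hAo.mem_nhds htA
      obtain ⟨t2, ht2, ht2b, ht2A⟩ :=
        ((mem_closure_iff_frequently.1 ht).and_eventually (hb1.and hb2)).exists
      have h3 := transfer h0 hε hρ1 hρ2 hP hQ hR ht2b (hf t2 ht2A) ht2
      exact ⟨ε, hε, ρ, hρ1, hρ2, P, Q, hP, hQ, hR,
        propagate (by linarith) hP hQ hA hf0 ht2b ht2A h3 t1 (mem_ball_self hε) htA⟩)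
  exact fun t ht => h ht

/-! ### extraction at `w = 0` -/

theorem divP {F : ℂ × ℂ → ℂ} {t1 : ℂ} {r : ℝ} (hr : 0 < r) {A : Set ℂ} (hAo : IsOpen A)
    (hAn : (ball t1 r ∩ A).Nonempty) (hF : ∀ t ∈ ball t1 r, t ∈ A → AnalyticAt ℂ F (0, t))
    (m : ℕ) : ∀ {P : ℂ × ℂ → ℂ}, AnalyticOnNhd ℂ P (ball 0 r ×ˢ ball t1 r) →
      (∀ t ∈ ball t1 r, t ∈ A → ∀ᶠ x in 𝓝 ((0, t) : ℂ × ℂ), x.1 ^ m * F x = P x) →
      ∃ P1 : ℂ × ℂ → ℂ, AnalyticOnNhd ℂ P1 (ball 0 r ×ˢ ball t1 r) ∧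
        ∀ t ∈ ball t1 r, t ∈ A → ∀ᶠ x in 𝓝 ((0, t) : ℂ × ℂ), F x = P1 x := by
  induction m with
  | zero => exact fun {P} hP h => ⟨P, hP, by simpa using h⟩
  | succ m ih =>
    intro P hP h
    have h0 : ∀ t ∈ ball t1 r, P (0, t) = 0 := by
      have h1 : AnalyticOnNhd ℂ (fun t => P (0, t)) (ball t1 r) := fun t ht =>
        (hP (0, t) ⟨mem_ball_self hr, ht⟩).comp (f := fun t : ℂ => ((0 : ℂ), t)) (by fun_prop)
      obtain ⟨t2, ht2, ht2A⟩ := hAn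
      have h2 : (fun t => P (0, t)) =ᶠ[𝓝 t2] 0 := by
        filter_upwards [isOpen_ball.mem_nhds ht2, hAo.mem_nhds ht2A] with t ht htA
        have := (h t ht htA).self_of_nhds
        simp only [pow_succ, mul_zero, zero_mul] at this
        exact this.symm
      exact h1.eqOn_zero_of_preconnected_of_eventuallyEq_zero (convex_ball _ _).isPreconnected
        ht2 h2
    obtain ⟨P2, hP2, hPP⟩ := div_step hP h0
    refine ih hP2 fun t ht htA => ?_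
    have hmem : ball (0 : ℂ) r ×ˢ ball t1 r ∈ 𝓝 ((0, t) : ℂ × ℂ) :=
      (isOpen_ball.prod isOpen_ball).mem_nhds ⟨mem_ball_self hr, ht⟩
    have h1 : NZ (fun x : ℂ × ℂ => (x.1 - 0) ^ 1) (0, t) := nz_fst 1
    have h2 := eventually_zero_of_nz (F := fun x : ℂ × ℂ => x.1 ^ m * F x - P2 x)
      (((analyticAt_fst.pow _).mul (hF t ht htA)).sub (hP2 _ ⟨mem_ball_self hr, ht⟩)) h1 (by
        filter_upwards [h t ht htA, hmem] with x hx1 hx2 hx3
        have h4 := hPP x hx2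
        rw [← hx1, sub_zero] at h4
        rw [pow_one, sub_zero] at hx3
        have h5 : x.1 * (x.1 ^ m * F x - P2 x) = 0 := by
          rw [mul_sub, ← h4]; ring
        exact (mul_eq_zero.1 h5).resolve_left hx3)
    filter_upwards [h2] with x hx
    exact sub_eq_zero.1 hx

theorem extract {f : ℂ × ℂ → ℂ} {t1 : ℂ} {r : ℝ} (hr : 0 < r) {A : Set ℂ} (hAo : IsOpen A)
    (hAn : (ball t1 r ∩ A).Nonempty) {P Q : ℂ × ℂ → ℂ}
    (hP : AnalyticOnNhd ℂ P (ball t1 r ×ˢ ball 0 r))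
    (hQ : ∀ x ∈ ball t1 r ×ˢ ball (0 : ℂ) r, NZ Q x)
    (hf : ∀ t ∈ ball t1 r, t ∈ A → AnalyticAt ℂ f (t, 0))
    (hR : ∀ t ∈ ball t1 r, t ∈ A → Rep f P Q (t, 0)) :
    ∃ p q : ℂ → ℂ, AnalyticOnNhd ℂ p (ball t1 r) ∧ AnalyticOnNhd ℂ q (ball t1 r) ∧
      (∃ t ∈ ball t1 r, q t ≠ 0) ∧ ∀ t ∈ ball t1 r, t ∈ A → q t * f (t, 0) = p t := by
  have hsw : ∀ x : ℂ × ℂ, AnalyticAt ℂ (fun x : ℂ × ℂ => (x.2, x.1)) x := fun x =>
    analyticAt_snd.prod analyticAt_fst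
  have hQs : AnalyticOnNhd ℂ (fun x : ℂ × ℂ => Q (x.2, x.1)) (ball 0 r ×ˢ ball t1 r) := by
    rintro x ⟨hx1, hx2⟩
    exact ((hQ (x.2, x.1) ⟨hx2, hx1⟩).1).comp (f := fun x : ℂ × ℂ => (x.2, x.1)) (hsw x)
  have hPs : AnalyticOnNhd ℂ (fun x : ℂ × ℂ => P (x.2, x.1)) (ball 0 r ×ˢ ball t1 r) := by
    rintro x ⟨hx1, hx2⟩
    exact (hP (x.2, x.1) ⟨hx2, hx1⟩).comp (f := fun x : ℂ × ℂ => (x.2, x.1)) (hsw x)
  have hne : ∃ x ∈ ball (0 : ℂ) r ×ˢ ball t1 r, (fun x : ℂ × ℂ => Q (x.2, x.1)) x ≠ 0 := by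
    have h1 := (hQ (t1, 0) ⟨mem_ball_self hr, mem_ball_self hr⟩).2
    have h2 : ∀ᶠ x in 𝓝 ((t1, 0) : ℂ × ℂ), x ∈ ball t1 r ×ˢ ball (0 : ℂ) r :=
      (isOpen_ball.prod isOpen_ball).mem_nhds ⟨mem_ball_self hr, mem_ball_self hr⟩
    obtain ⟨x, hx1, hx2⟩ := (h1.and_eventually h2).exists
    exact ⟨(x.2, x.1), ⟨hx2.2, hx2.1⟩, hx1⟩
  obtain ⟨m, Q1, hQ1, hQQ, t', ht', hne'⟩ := exists_div hr hQs hne
  have hcont : ∀ t : ℂ, Tendsto (fun x : ℂ × ℂ => (x.2, x.1)) (𝓝 (0, t)) (𝓝 (t, 0)) := fun t =>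
    Continuous.tendsto (by fun_prop : Continuous fun x : ℂ × ℂ => (x.2, x.1)) (0, t)
  have hfs : ∀ t ∈ ball t1 r, t ∈ A → AnalyticAt ℂ (fun x : ℂ × ℂ => f (x.2, x.1)) (0, t) :=
    fun t ht htA => (hf t ht htA).comp (f := fun x : ℂ × ℂ => (x.2, x.1)) (hsw _)
  obtain ⟨P1, hP1, hP1e⟩ := divP (F := fun x : ℂ × ℂ => Q1 x * f (x.2, x.1)) hr hAo hAn
    (fun t ht htA => (hQ1 _ ⟨mem_ball_self hr, ht⟩).mul (hfs t ht htA)) m hPs (by
      intro t ht htA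
      have h3 := Rep.eq_of_analytic (hf t ht htA) (hP _ ⟨ht, mem_ball_self hr⟩)
        (hQ _ ⟨ht, mem_ball_self hr⟩).1 (hR t ht htA)
      have hmem : ball (0 : ℂ) r ×ˢ ball t1 r ∈ 𝓝 ((0, t) : ℂ × ℂ) :=
        (isOpen_ball.prod isOpen_ball).mem_nhds ⟨mem_ball_self hr, ht⟩
      filter_upwards [(hcont t).eventually h3, hmem] with x hx1 hx2
      have h4 := hQQ x hx2
      simp only [sub_zero] at h4
      rw [← hx1, h4]; ring)
  refine ⟨fun t => P1 (0, t), fun t => Q1 (0, t), ?_, ?_, ⟨t', ht', hne'⟩, ?_⟩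
  · exact fun t ht => (hP1 (0, t) ⟨mem_ball_self hr, ht⟩).comp (f := fun t : ℂ => ((0 : ℂ), t))
      (by fun_prop)
  · exact fun t ht => (hQ1 (0, t) ⟨mem_ball_self hr, ht⟩).comp (f := fun t : ℂ => ((0 : ℂ), t))
      (by fun_prop)
  · exact fun t ht htA => (hP1e t ht htA).self_of_nhds

/-- **Levi extension with meromorphic data, restricted to `w = 0`** -/
theorem levi_mer {f : ℂ × ℂ → ℂ} {ρ1 ρ2 : ℝ} (h0 : 0 < ρ1) (h12 : ρ1 < ρ2) {A : Set ℂ}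
    (hAo : IsOpen A) (hA : Convex ℝ A)
    (hf : ∀ t ∈ A, ∀ w : ℂ, ρ1 ≤ ‖w‖ → ‖w‖ ≤ ρ2 → MerAt f (t, w))
    (hf0 : ∀ t ∈ A, AnalyticAt ℂ f (t, 0)) {t0 : ℂ} (ht0 : t0 ∈ A)
    (hb : ∀ w : ℂ, ‖w‖ ≤ ρ2 → AnalyticAt ℂ f (t0, w)) {t1 : ℂ} (ht1 : t1 ∈ closure A)
    (hf1 : ∀ w : ℂ, ρ1 ≤ ‖w‖ → ‖w‖ ≤ ρ2 → MerAt f (t1, w)) :
    ∃ r > 0, ∃ p q : ℂ → ℂ, AnalyticOnNhd ℂ p (ball t1 r) ∧ AnalyticOnNhd ℂ q (ball t1 r) ∧
      (∃ t ∈ ball t1 r, q t ≠ 0) ∧ ∀ t ∈ ball t1 r, t ∈ A → q t * f (t, 0) = p t := by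
  have hall := LDC.all h0 h12 hAo hA hf (fun t ht => merAt_of_analyticAt (hf0 t ht)) ht0
    (LDC.base h12 hb)
  have hfr : ∃ᶠ t in 𝓝 t1, t ∈ A := mem_closure_iff_frequently.1 ht1
  have hLD : LD f ρ1 ρ2 t1 := by
    refine LD.step h0 h12 hf1 (hfr.mono fun t ht => ?_)
    obtain ⟨ε, hε, ρ, hρ1, hρ2, P, Q, hP, hQ, hR, -⟩ := hall t ht
    exact ⟨ε, hε, ρ, hρ1, hρ2, P, Q, hP, hQ, hR⟩
  obtain ⟨ε, hε, ρ, hρ1, hρ2, P, Q, hP, hQ, hR⟩ := hLD
  have hbb : ∀ s > 0, ∀ᶠ t in 𝓝 t1, t ∈ ball t1 s := fun s hs => ball_mem_nhds t1 hs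
  obtain ⟨t2, ht2A, ht2⟩ := (hfr.and_eventually (hbb ε hε)).exists
  have h3 := transfer h0 hε hρ1 hρ2 hP hQ hR ht2 (hf t2 ht2A) (hall t2 ht2A)
  have h4 := propagate (by linarith) hP hQ hA (fun t ht => merAt_of_analyticAt (hf0 t ht)) ht2
    ht2A h3
  set r : ℝ := min ε ρ with hr
  have hr0 : 0 < r := lt_min hε (by linarith)
  have hsub : ball t1 r ⊆ ball t1 ε := ball_subset_ball (min_le_left _ _)
  have hsub2 : ball t1 r ×ˢ ball (0 : ℂ) r ⊆ ball t1 ε ×ˢ ball (0 : ℂ) (ρ + ε) :=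
    prod_mono hsub (ball_subset_ball (by linarith [min_le_right ε ρ]))
  obtain ⟨t3, ht3A, ht3⟩ := (hfr.and_eventually (hbb r hr0)).exists
  obtain ⟨p, q, hp, hq, hne, heq⟩ := extract hr0 hAo ⟨t3, ht3, ht3A⟩ (P := P) (Q := Q) (f := f)
    (fun x hx => hP x (hsub2 hx)) (fun x hx => hQ x (hsub2 hx))
    (fun t _ htA => hf0 t htA) (fun t ht htA => h4 t (hsub ht) htA)
  exact ⟨r, hr0, p, q, hp, hq, hne, heq⟩

end Crest.Agent.R102.LeviM88
end
end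

-- ▼ part R102/Disc_88
section

/-!
Row 102, part (C), leaf DISC (helper88), part 1: the analytic discs `t = t' + G(w)`, `|w| ≤ ρ`.

`exists_disc`: for every slope `k > 0` and every `δ > 0` there is `η > 0` such that for every
`ρ > 0` there is a function `G`, holomorphic near `|w| ≤ ρ`, even, `G 0 = 0`, `|G| ≤ δ` on
`|w| ≤ ρ`, and `Im G ≤ -η` on the part `k |Re w| ≤ |Im w|` of the circle `|w| = ρ`.
-/

set_option autoImplicit false

open Set Filter Topology Metric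

noncomputable section

namespace Crest.Agent.R102.Disc88

/-- real part of `2 s z / (1 - s z)` -/
theorem re_poisson {s : ℝ} {z : ℂ} (h : 1 - (s : ℂ) * z ≠ 0) :
    (2 * s * z / (1 - s * z)).re = (1 - ‖(s : ℂ) * z‖ ^ 2) / ‖1 - (s : ℂ) * z‖ ^ 2 - 1 := by
  have h1 : ‖1 - (s : ℂ) * z‖ ^ 2 ≠ 0 := by positivity
  have h2 : (2 * s * z / (1 - s * z) : ℂ) = (1 + s * z) / (1 - s * z) - 1 := by
    field_simp
    ring
  have h3 : ((1 + (s : ℂ) * z) / (1 - s * z)).re =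
      (1 - ‖(s : ℂ) * z‖ ^ 2) / ‖1 - (s : ℂ) * z‖ ^ 2 := by
    rw [Complex.div_re, Complex.sq_norm, Complex.sq_norm, Complex.normSq_apply,
      Complex.normSq_apply]
    rw [← add_div]
    congr 1
    simp only [Complex.add_re, Complex.sub_re, Complex.one_re, Complex.add_im, Complex.sub_im,
      Complex.one_im]
    ring
  rw [h2, Complex.sub_re, h3, Complex.one_re]

/-- **the discs** -/
theorem exists_disc {k δ : ℝ} (hk : 0 < k) (hδ : 0 < δ) : ∃ η > 0, η ≤ δ ∧ ∀ ρ > 0,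
    ∃ (σ : ℝ) (G : ℂ → ℂ), ρ < σ ∧ DifferentiableOn ℂ G (ball 0 σ) ∧ G 0 = 0 ∧
      (∀ w, G (-w) = G w) ∧ (∀ w, ‖w‖ ≤ ρ → ‖G w‖ ≤ δ) ∧
      ∀ w, ‖w‖ = ρ → k * |w.re| ≤ |w.im| → (G w).im ≤ -η := by
  -- the parameter `s`
  set e : ℝ := k ^ 2 / (2 * (1 + k ^ 2)) with he
  have he0 : 0 < e := by positivity
  have he1 : e ≤ 1 / 2 := by
    rw [he, div_le_iff₀ (by positivity)]
    nlinarith [sq_nonneg k]
  set s : ℝ := 1 - e with hs
  have hs0 : 0 < s := by linarith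
  have hs2 : 1 / 2 ≤ s := by linarith
  have hs1 : s < 1 := by linarith
  -- amplitude
  set m : ℝ := δ * e / 2 with hm
  have hm0 : 0 < m := by positivity
  refine ⟨m / 2, by positivity, ?_, fun ρ hρ => ?_⟩
  · rw [hm]; nlinarith
  set σ : ℝ := ρ * (1 + e / 4) with hσ
  have hρσ : ρ < σ := by rw [hσ]; nlinarith
  have hσ0 : 0 < σ := hρ.trans hρσ
  -- `|s z| < 1` on the ball of radius `σ`
  have hnz : ∀ w : ℂ, ‖(s : ℂ) * (w / ρ) ^ 2‖ = s * (‖w‖ / ρ) ^ 2 := by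
    intro w
    rw [norm_mul, norm_pow, norm_div, Complex.norm_real, Complex.norm_real, Real.norm_eq_abs,
      Real.norm_eq_abs, abs_of_pos hs0, abs_of_pos hρ]
  have hlt : ∀ w : ℂ, ‖w‖ < σ → ‖(s : ℂ) * (w / ρ) ^ 2‖ < 1 := by
    intro w hw
    rw [hnz]
    have h1 : ‖w‖ / ρ < 1 + e / 4 := by
      rw [div_lt_iff₀ hρ]; rw [hσ] at hw; linarith
    have h2 : 0 ≤ ‖w‖ / ρ := by positivity
    have h3 : (‖w‖ / ρ) ^ 2 < (1 + e / 4) ^ 2 := by gcongr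
    have h4 : (1 - e) * (1 + e / 4) ^ 2 ≤ 1 := by nlinarith [sq_nonneg e, mul_pos he0 he0]
    calc s * (‖w‖ / ρ) ^ 2 < s * (1 + e / 4) ^ 2 := by gcongr
      _ ≤ 1 := by rw [hs]; exact h4
  have hne : ∀ w : ℂ, ‖w‖ < σ → 1 - (s : ℂ) * (w / ρ) ^ 2 ≠ 0 := by
    intro w hw h0
    have h1 : (s : ℂ) * (w / ρ) ^ 2 = 1 := (sub_eq_zero.1 h0).symm
    have h2 := hlt w hw
    rw [h1, norm_one] at h2
    exact lt_irrefl _ h2
  refine ⟨σ, fun w => Complex.I * m * (2 * s * (w / ρ) ^ 2 / (1 - s * (w / ρ) ^ 2)), hρσ, ?_,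
    by simp, fun w => by simp [neg_div], ?_, ?_⟩
  · -- holomorphic
    intro w hw
    rw [mem_ball_zero_iff] at hw
    have h1 := hne w hw
    have hρ' : (ρ : ℂ) ≠ 0 := by exact_mod_cast hρ.ne'
    refine DifferentiableAt.differentiableWithinAt ?_
    refine DifferentiableAt.const_mul ?_ _
    exact DifferentiableAt.fun_div (by fun_prop) (by fun_prop) h1
  · -- bound
    intro w hw
    have h1 : ‖w‖ / ρ ≤ 1 := (div_le_one hρ).2 hw
    have h2 : 0 ≤ ‖w‖ / ρ := by positivity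
    have h3 : (‖w‖ / ρ) ^ 2 ≤ 1 := pow_le_one₀ h2 h1
    have h4 : ‖(s : ℂ) * (w / ρ) ^ 2‖ ≤ s := by
      rw [hnz]; nlinarith
    have h5 : e ≤ ‖1 - (s : ℂ) * (w / ρ) ^ 2‖ := by
      have := norm_sub_norm_le (1 : ℂ) ((s : ℂ) * (w / ρ) ^ 2)
      rw [norm_one] at this
      linarith
    have h6 : ‖2 * (s : ℂ) * (w / ρ) ^ 2‖ ≤ 2 := by
      rw [mul_assoc, norm_mul]
      have : ‖(2 : ℂ)‖ = 2 := by simp
      rw [this]; linarith
    rw [norm_mul, norm_mul, Complex.norm_I, one_mul, Complex.norm_real, Real.norm_eq_abs,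
      abs_of_pos hm0, norm_div]
    calc m * (‖2 * (s : ℂ) * (w / ρ) ^ 2‖ / ‖1 - (s : ℂ) * (w / ρ) ^ 2‖) ≤ m * (2 / e) := by
          gcongr
      _ = δ := by rw [hm]; field_simp
  · -- the sides
    intro w hw hside
    have hwσ : ‖w‖ < σ := by rw [hw]; exact hρσ
    have h1 := hne w hwσ
    have h2 : (Complex.I * m * (2 * s * (w / ρ) ^ 2 / (1 - s * (w / ρ) ^ 2))).im =
        m * (2 * s * (w / ρ) ^ 2 / (1 - s * (w / ρ) ^ 2) : ℂ).re := by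
      rw [mul_assoc, Complex.I_mul_im, Complex.re_ofReal_mul]
    rw [h2, re_poisson h1]
    -- `x² + y² = ρ²`
    have hxy : w.re ^ 2 + w.im ^ 2 = ρ ^ 2 := by
      rw [← hw, Complex.sq_norm, Complex.normSq_apply]; ring
    have hside2 : k ^ 2 * w.re ^ 2 ≤ w.im ^ 2 := by
      have h3 : (k * |w.re|) ^ 2 ≤ |w.im| ^ 2 := by gcongr
      rw [mul_pow, sq_abs, sq_abs] at h3
      exact h3
    have hnorm : ‖1 - (s : ℂ) * (w / ρ) ^ 2‖ ^ 2 = (1 - s) ^ 2 + 4 * s * (w.im ^ 2 / ρ ^ 2) := by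
      have hre : ((w / ρ : ℂ)).re = w.re / ρ := by
        rw [Complex.div_ofReal_re]
      have him : ((w / ρ : ℂ)).im = w.im / ρ := by
        rw [Complex.div_ofReal_im]
      rw [Complex.sq_norm, Complex.normSq_apply, sq (w / ρ : ℂ)]
      simp only [Complex.sub_re, Complex.sub_im, Complex.one_re, Complex.one_im,
        Complex.mul_re, Complex.mul_im, hre, him, Complex.ofReal_re, Complex.ofReal_im,
        zero_mul, sub_zero, add_zero]
      have h4 : (w.re / ρ) ^ 2 + (w.im / ρ) ^ 2 = 1 := by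
        rw [div_pow, div_pow, ← add_div, hxy, div_self (by positivity)]
      have h5 : (w.im ^ 2 / ρ ^ 2) = (w.im / ρ) ^ 2 := by rw [div_pow]
      rw [h5]
      set X := w.re / ρ
      set Y := w.im / ρ
      have h6 : X ^ 2 = 1 - Y ^ 2 := by linarith
      have h7 : (1 - s * (X * X - Y * Y)) * (1 - s * (X * X - Y * Y)) +
          (0 - s * (X * Y + Y * X)) * (0 - s * (X * Y + Y * X)) =
          1 - 2 * s * (X ^ 2 - Y ^ 2) + s ^ 2 * (X ^ 2 + Y ^ 2) ^ 2 := by ring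
      rw [h7, h6]; ring
    have hnn : ‖(s : ℂ) * (w / ρ) ^ 2‖ = s := by
      rw [hnz, hw, div_self hρ.ne']; ring
    rw [hnn, hnorm]
    -- lower bound for `y²/ρ²`
    have hy : k ^ 2 / (1 + k ^ 2) ≤ w.im ^ 2 / ρ ^ 2 := by
      rw [div_le_div_iff₀ (by positivity) (by positivity), ← hxy]
      nlinarith
    have hek : k ^ 2 / (1 + k ^ 2) = 2 * e := by rw [he]; field_simp
    rw [hek] at hy
    set Y := w.im ^ 2 / ρ ^ 2 with hY
    have hden : 0 < (1 - s) ^ 2 + 4 * s * Y := by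
      have : 0 < Y := by linarith
      positivity
    have h8 : (1 - s ^ 2) / ((1 - s) ^ 2 + 4 * s * Y) ≤ 1 / 2 := by
      rw [div_le_div_iff₀ hden (by norm_num)]
      rw [hs]
      nlinarith [mul_nonneg hs0.le (sub_nonneg.2 hy), sq_nonneg e, mul_pos he0 he0]
    nlinarith


end Crest.Agent.R102.Disc88
end
end

-- ▼ part R102/A3_88
section

/-!
Row 102, part (C) (helper88), leaf (A3): continuation by the discs `t = τ + G(w)`.

`a3`: `f(t,w)` meromorphic in the sector part `|Im w| < k |Re w|`, `|w| < r`, `Im t < h0 + c`, and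
holomorphic in the low parts (`Im t < h0 - ε`, `|w| < ρ0(ε)`); then `f(·,0)` is meromorphic near
every point of the line `Im t = h0`.
-/

set_option autoImplicit false

open Set Filter Topology Metric

noncomputable section

namespace Crest.Agent.R102.A388

open Crest.Agent.R102.Mer88 Crest.Agent.R102.LeviM88 Crest.Agent.R102

/-- the discs, annulus version -/
theorem exists_disc' {k δ : ℝ} (hk : 0 < k) (hδ : 0 < δ) : ∃ η > 0, η ≤ δ ∧ ∀ ρ > 0,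
    ∃ (ρ' σ : ℝ) (G : ℂ → ℂ), 0 < ρ' ∧ ρ' < ρ ∧ ρ < σ ∧ DifferentiableOn ℂ G (ball 0 σ) ∧
      G 0 = 0 ∧ (∀ w, G (-w) = G w) ∧ (∀ w, ‖w‖ ≤ ρ → ‖G w‖ ≤ δ) ∧
      ∀ w, ρ' ≤ ‖w‖ → ‖w‖ ≤ ρ → k * |w.re| ≤ |w.im| → (G w).im ≤ -η := by
  obtain ⟨η, hη, hηδ, h⟩ := Disc88.exists_disc hk hδ
  refine ⟨η / 2, by linarith, by linarith, fun ρ hρ => ?_⟩
  obtain ⟨σ, G, hσ, hG, hG0, heven, hbd, hlow⟩ := h ρ hρ
  have hcont : ContinuousOn G (closedBall 0 ρ) :=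
    hG.continuousOn.mono (closedBall_subset_ball hσ)
  have huc := (isCompact_closedBall (0 : ℂ) ρ).uniformContinuousOn_of_continuous hcont
  rw [Metric.uniformContinuousOn_iff] at huc
  obtain ⟨μ, hμ, hμG⟩ := huc (η / 2) (by linarith)
  refine ⟨max (ρ / 2) (ρ - μ / 2), σ, G, lt_max_of_lt_left (by linarith),
    max_lt (by linarith) (by linarith), hσ, hG, hG0, heven, hbd, fun w hw1 hw2 hw3 => ?_⟩
  have hw0 : 0 < ‖w‖ := lt_of_lt_of_le (lt_max_of_lt_left (by linarith)) hw1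
  have hwμ : ρ - ‖w‖ < μ := by linarith [(le_max_right (ρ / 2) (ρ - μ / 2)).trans hw1]
  set c : ℝ := ρ / ‖w‖ with hc
  have hc1 : 1 ≤ c := by rw [hc, le_div_iff₀ hw0]; linarith
  have hcw : c * ‖w‖ = ρ := by rw [hc]; field_simp
  have hn : ‖(c : ℂ) * w‖ = ρ := by
    rw [norm_mul, Complex.norm_real, Real.norm_of_nonneg (by linarith), hcw]
  have h1 := hlow ((c : ℂ) * w) hn (by
    have e1 : ((c : ℂ) * w).re = c * w.re := by simp
    have e2 : ((c : ℂ) * w).im = c * w.im := by simp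
    rw [e1, e2, abs_mul, abs_mul, abs_of_pos (by linarith : 0 < c)]
    nlinarith)
  have h2 := hμG w (by rw [mem_closedBall_zero_iff]; exact hw2) ((c : ℂ) * w)
    (by rw [mem_closedBall_zero_iff]; exact hn.le) (by
      rw [dist_eq_norm]
      have e3 : w - (c : ℂ) * w = ((1 - c : ℝ) : ℂ) * w := by push_cast; ring
      rw [e3, norm_mul, Complex.norm_real, Real.norm_eq_abs, abs_of_nonpos (by linarith)]
      nlinarith)
  rw [dist_eq_norm] at h2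
  have h3 := (Complex.abs_im_le_norm (G w - G ((c : ℂ) * w))).trans h2.le
  rw [Complex.sub_im, abs_le] at h3
  linarith

/-- **(A3)** -/
theorem a3 {f : ℂ × ℂ → ℂ} {k c r H h0 g1 g2 : ℝ} (hk : 0 < k) (hc : 0 < c) (hr : 0 < r)
    (hH : -H < h0)
    (hsec : ∀ t w : ℂ, g1 < t.re → t.re < g2 → -H < t.im → t.im < h0 + c →
      |w.im| < k * |w.re| → ‖w‖ < r → MerAt f (t, w))
    (hlow : ∀ ε > 0, ∃ ρ0 > 0, ∀ t w : ℂ, g1 < t.re → t.re < g2 → -H < t.im → t.im < h0 - ε →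
      ‖w‖ < ρ0 → AnalyticAt ℂ f (t, w))
    {t1 : ℂ} (ht1 : g1 < t1.re) (ht2 : t1.re < g2) (ht3 : t1.im = h0) :
    ∃ p q : ℂ → ℂ, AnalyticAt ℂ p t1 ∧ NZ q t1 ∧
      ∀ᶠ t in 𝓝 t1, t.im < h0 → q t * f (t, 0) = p t := by
  -- parameters
  obtain ⟨δ, hδ, hδ1⟩ : ∃ δ : ℝ, 0 < δ ∧ δ < min (min (t1.re - g1) (g2 - t1.re)) ((h0 + H) / 2) :=
    exists_between (lt_min (lt_min (by linarith) (by linarith)) (by linarith))
  rw [lt_min_iff, lt_min_iff] at hδ1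
  obtain ⟨⟨hδa, hδb⟩, hδc⟩ := hδ1
  set δ' : ℝ := min (δ / 2) (c / 4) with hδ'
  have hδ'0 : 0 < δ' := lt_min (by linarith) (by linarith)
  have hδ'1 : δ' ≤ δ / 2 := min_le_left _ _
  have hδ'2 : δ' ≤ c / 4 := min_le_right _ _
  obtain ⟨η, hη, hηδ, hdisc⟩ := exists_disc' hk hδ'0
  obtain ⟨ρa, hρa, hlowa⟩ := hlow (η / 2) (by linarith)
  obtain ⟨ρb, hρb, hlowb⟩ := hlow (δ / 2) (by linarith)
  set ρ : ℝ := min (min ρa ρb) r / 2 with hρ
  have hmin : 0 < min (min ρa ρb) r := lt_min (lt_min hρa hρb) hr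
  have hρ0 : 0 < ρ := by positivity
  have hρa' : ρ < ρa := by
    linarith [(min_le_left (min ρa ρb) r).trans (min_le_left ρa ρb)]
  have hρb' : ρ < ρb := by
    linarith [(min_le_left (min ρa ρb) r).trans (min_le_right ρa ρb)]
  have hρr : ρ < r := by linarith [min_le_right (min ρa ρb) r]
  obtain ⟨ρ', σ, G, hρ'0, hρ'ρ, hσ, hG, hG0, -, hbd, hGlow⟩ := hdisc ρ hρ0
  have hGa : ∀ w : ℂ, ‖w‖ ≤ ρ → AnalyticAt ℂ G w := fun w hw =>
    hG.analyticAt (isOpen_ball.mem_nhds (by rw [mem_ball_zero_iff]; linarith))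
  set Φ : ℂ × ℂ → ℂ × ℂ := fun x => (x.1 + G x.2, x.2) with hΦ
  set Ψ : ℂ × ℂ → ℂ × ℂ := fun x => (x.1 - G x.2, x.2) with hΨ
  have hGa2 : ∀ t w : ℂ, ‖w‖ ≤ ρ → AnalyticAt ℂ (fun x : ℂ × ℂ => G x.2) (t, w) := fun t w hw =>
    AnalyticAt.comp (f := fun x : ℂ × ℂ => x.2) (hGa w hw) analyticAt_snd
  have hΦa : ∀ t w : ℂ, ‖w‖ ≤ ρ → AnalyticAt ℂ Φ (t, w) := fun t w hw =>
    (analyticAt_fst.add (hGa2 t w hw)).prod analyticAt_snd
  have hLB : ∀ t w : ℂ, ‖w‖ ≤ ρ → LBih Φ Ψ (t, w) := by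
    intro t w hw
    have h1 : ContinuousAt G w := (hGa w hw).continuousAt
    refine ⟨hΦa t w hw, ?_, ?_, Eventually.of_forall fun y => ?_⟩
    · show ContinuousAt (fun x : ℂ × ℂ => (x.1 - G x.2, x.2)) (t + G w, w)
      refine ContinuousAt.prodMk (continuousAt_fst.sub ?_) continuousAt_snd
      exact ContinuousAt.comp (f := fun x : ℂ × ℂ => x.2) h1 continuousAt_snd
    · simp [hΦ, hΨ]
    · simp [hΦ, hΨ]
  set A : Set ℂ := {t | g1 + δ < t.re ∧ t.re < g2 - δ ∧ -H + δ < t.im ∧ t.im < h0} with hA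
  have hAo : IsOpen A := by
    refine (isOpen_lt continuous_const Complex.continuous_re).inter
      ((isOpen_lt Complex.continuous_re continuous_const).inter
      ((isOpen_lt continuous_const Complex.continuous_im).inter
      (isOpen_lt Complex.continuous_im continuous_const)))
  have hAc : Convex ℝ A := by
    refine (convex_halfSpace_re_gt _).inter ((convex_halfSpace_re_lt _).inter
      ((convex_halfSpace_im_gt _).inter (convex_halfSpace_im_lt _)))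
  -- bounds for `G`
  have hGre : ∀ w : ℂ, ‖w‖ ≤ ρ → |(G w).re| ≤ δ' := fun w hw =>
    (Complex.abs_re_le_norm _).trans (hbd w hw)
  have hGim : ∀ w : ℂ, ‖w‖ ≤ ρ → |(G w).im| ≤ δ' := fun w hw =>
    (Complex.abs_im_le_norm _).trans (hbd w hw)
  have key : ∀ t : ℂ, g1 + δ < t.re → t.re < g2 - δ → -H + δ < t.im → t.im ≤ h0 →
      ∀ w : ℂ, ρ' ≤ ‖w‖ → ‖w‖ ≤ ρ → MerAt (fun x => f (Φ x)) (t, w) := by
    intro t h1 h2 h3 h4 w hw1 hw2
    refine MerAt.comp (hLB t w hw2) ?_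
    have h5 := abs_le.1 (hGre w hw2)
    have h6 := abs_le.1 (hGim w hw2)
    show MerAt f (t + G w, w)
    rcases lt_or_ge |w.im| (k * |w.re|) with h7 | h7
    · refine hsec _ _ ?_ ?_ ?_ ?_ h7 (by linarith) <;>
        simp only [Complex.add_re, Complex.add_im] <;> linarith
    · have h8 := hGlow w hw1 hw2 h7
      refine merAt_of_analyticAt (hlowa _ _ ?_ ?_ ?_ ?_ (by linarith)) <;>
        simp only [Complex.add_re, Complex.add_im] <;> linarith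
  obtain ⟨r', hr', p, q, hp, hq, ⟨t', ht', hqt⟩, heq⟩ := levi_mer (f := fun x => f (Φ x))
    hρ'0 hρ'ρ hAo hAc (fun t ht w => key t ht.1 ht.2.1 ht.2.2.1 ht.2.2.2.le w)
    (by
      intro t ht
      obtain ⟨ρc, hρc, hlowc⟩ := hlow ((h0 - t.im) / 2) (by linarith [ht.2.2.2])
      have h1 : AnalyticAt ℂ f (Φ (t, 0)) := by
        simp only [hΦ, hG0, add_zero]
        exact hlowc t 0 (by linarith [ht.1]) (by linarith [ht.2.1]) (by linarith [ht.2.2.1])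
          (by linarith [ht.2.2.2]) (by simpa using hρc)
      exact h1.comp (hΦa t 0 (by simpa using hρ0.le)))
    (t0 := ⟨t1.re, (h0 - H) / 2⟩) ⟨by simp; linarith, by simp; linarith, by simp; linarith,
      by simp; linarith⟩
    (by
      intro w hw
      have h5 := abs_le.1 (hGre w hw)
      have h6 := abs_le.1 (hGim w hw)
      have h1 : AnalyticAt ℂ f (Φ (⟨t1.re, (h0 - H) / 2⟩, w)) := by
        refine hlowb _ _ ?_ ?_ ?_ ?_ (by linarith) <;>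
          simp only [Complex.add_re, Complex.add_im] <;> linarith
      exact h1.comp (hΦa _ w hw)) (t1 := t1)
    (by
      rw [Metric.mem_closure_iff]
      intro e he
      obtain ⟨s, hs, hs1⟩ : ∃ s : ℝ, 0 < s ∧ s < min e δ := exists_between (lt_min he hδ)
      rw [lt_min_iff] at hs1
      refine ⟨⟨t1.re, h0 - s⟩, ⟨by simp; linarith, by simp; linarith, by simp; linarith,
        by simp; linarith⟩, ?_⟩
      rw [dist_eq_norm]
      have e1 : t1 - (⟨t1.re, h0 - s⟩ : ℂ) = (s : ℂ) * Complex.I := by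
        apply Complex.ext <;> simp [ht3]
      rw [e1, norm_mul, Complex.norm_real, Complex.norm_I, mul_one, Real.norm_of_nonneg hs.le]
      exact hs1.1)
    (fun w => key t1 (by linarith) (by linarith) (by linarith) ht3.le w)
  refine ⟨p, q, hp t1 (mem_ball_self hr'), nz_of_ball hq ht' (mem_ball_self hr')
    (((hq t' ht').continuousAt.eventually_ne hqt).frequently), ?_⟩
  have hev1 : ∀ᶠ t in 𝓝 t1, g1 + δ < t.re :=
    Complex.continuous_re.continuousAt.eventually (lt_mem_nhds (by linarith))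
  have hev2 : ∀ᶠ t in 𝓝 t1, t.re < g2 - δ :=
    Complex.continuous_re.continuousAt.eventually (gt_mem_nhds (by linarith))
  have hev3 : ∀ᶠ t in 𝓝 t1, -H + δ < t.im :=
    Complex.continuous_im.continuousAt.eventually (lt_mem_nhds (by linarith))
  filter_upwards [ball_mem_nhds t1 hr', hev1, hev2, hev3] with t h1 h2 h3 h4 h5
  have := heq t h1 ⟨h2, h3, h4, h5⟩
  simpa [hΦ, hG0] using this

/-- **(A3)**, one-variable form of the conclusion -/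
theorem a3_mero {f : ℂ × ℂ → ℂ} {k c r H h0 g1 g2 : ℝ} (hk : 0 < k) (hc : 0 < c) (hr : 0 < r)
    (hH : -H < h0)
    (hsec : ∀ t w : ℂ, g1 < t.re → t.re < g2 → -H < t.im → t.im < h0 + c →
      |w.im| < k * |w.re| → ‖w‖ < r → MerAt f (t, w))
    (hlow : ∀ ε > 0, ∃ ρ0 > 0, ∀ t w : ℂ, g1 < t.re → t.re < g2 → -H < t.im → t.im < h0 - ε →
      ‖w‖ < ρ0 → AnalyticAt ℂ f (t, w))
    {t1 : ℂ} (ht1 : g1 < t1.re) (ht2 : t1.re < g2) (ht3 : t1.im = h0) :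
    ∃ F : ℂ → ℂ, MeromorphicAt F t1 ∧ ∀ᶠ t in 𝓝 t1, t.im < h0 → F t = f (t, 0) := by
  obtain ⟨p, q, hp, hq, he⟩ := a3 hk hc hr hH hsec hlow ht1 ht2 ht3
  refine ⟨fun t => p t / q t, hp.meromorphicAt.div hq.1.meromorphicAt, ?_⟩
  have h1 : ∀ᶠ t in 𝓝[≠] t1, q t ≠ 0 := by
    rcases hq.1.eventually_eq_zero_or_eventually_ne_zero with h3 | h3
    · exact absurd h3 (by rw [not_eventually]; exact hq.2)
    · exact h3
  filter_upwards [he, eventually_nhdsWithin_iff.1 h1] with t h2 h3 h4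
  have h5 : q t ≠ 0 := h3 (by
    intro h6
    rw [mem_singleton_iff] at h6
    rw [h6, ht3] at h4
    exact lt_irrefl _ h4)
  rw [← h2 h4]
  field_simp

end Crest.Agent.R102.A388
end
end

-- ▼ part R102/VCont_88
section

/-!
Row 102, part (C) (helper88): vertical meromorphic continuation.

* `Rep F F' 1` : equality off a thin set; `rep1_of_preconnected`, `reg_congr`, `rep_reg`;
* `VM ρ r g x e F` : `F` is a meromorphic continuation of `g` along the vertical tube up to `x`;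
* `vfun ρ r g` : the resulting function (`vfun_mer`, `vfun_an`).
-/

set_option autoImplicit false

open Set Filter Topology Metric

noncomputable section

namespace Crest.Agent.R102.VC88

open Crest.Agent.R102.Mer88 Crest.Agent.R102.LeviM88 Crest.Agent.R102.Spine
open Crest.Agent.R102.C0

section Gen

variable {E : Type*} [NormedAddCommGroup E] [NormedSpace ℂ E]

theorem rep1_symm {F F' : E → ℂ} {x : E} (h : Rep F F' (fun _ => 1) x) :
    Rep F' F (fun _ => 1) x := by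
  obtain ⟨D, hD, h1⟩ := h
  refine ⟨D, hD, ?_⟩
  filter_upwards [h1] with y hy h0
  rw [one_mul] at hy ⊢
  exact (hy h0).symm

theorem rep1_trans {F F' P Q : E → ℂ} {x : E} (h : Rep F F' (fun _ => 1) x)
    (h' : Rep F' P Q x) : Rep F P Q x := by
  obtain ⟨D, hD, h1⟩ := h
  obtain ⟨D', hD', h1'⟩ := h'
  refine ⟨fun y => D y * D' y, hD.mul hD', ?_⟩
  filter_upwards [h1, h1'] with y hy hy' h0
  have h2 := hy (left_ne_zero_of_mul h0)
  rw [one_mul] at h2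
  rw [h2]
  exact hy' (right_ne_zero_of_mul h0)

theorem reg_congr {F F' : E → ℂ} {x : E} (h : Rep F F' (fun _ => 1) x) : reg F x = reg F' x := by
  by_cases hr : Regular F x
  · obtain ⟨G, hG, hR⟩ := hr
    rw [(reg_eq hG hR).self_of_nhds, (reg_eq hG (rep1_trans (rep1_symm h) hR)).self_of_nhds]
  · have hr' : ¬ Regular F' x := fun ⟨G, hG, hR⟩ => hr ⟨G, hG, rep1_trans h hR⟩
    unfold reg
    rw [dif_neg hr, dif_neg hr']

theorem merAt_sub {F F' : E → ℂ} {x : E} (h : MerAt F x) (h' : MerAt F' x) :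
    MerAt (fun y => F y - F' y) x := by
  obtain ⟨P, Q, hP, hQ, D, hD, h1⟩ := h
  obtain ⟨P', Q', hP', hQ', D', hD', h1'⟩ := h'
  refine ⟨fun y => P y * Q' y - P' y * Q y, fun y => Q y * Q' y,
    (hP.mul hQ'.1).sub (hP'.mul hQ.1), hQ.mul hQ', fun y => D y * D' y, hD.mul hD', ?_⟩
  filter_upwards [h1, h1'] with y hy hy' h0
  rw [← hy (left_ne_zero_of_mul h0), ← hy' (right_ne_zero_of_mul h0)]
  ring

theorem rep1_of_preconnected {F F' : E → ℂ} {S : Set E} (hS : IsPreconnected S)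
    (hF : ∀ c ∈ S, MerAt F c) (hF' : ∀ c ∈ S, MerAt F' c) {c0 : E} (hc0 : c0 ∈ S)
    (h0 : Rep F F' (fun _ => 1) c0) : ∀ c ∈ S, Rep F F' (fun _ => 1) c := by
  have h1 : Rep (fun y => F y - F' y) (fun _ => 0) (fun _ => 1) c0 := by
    obtain ⟨D, hD, h⟩ := h0
    refine ⟨D, hD, ?_⟩
    filter_upwards [h] with y hy hd
    have := hy hd
    rw [one_mul] at this ⊢
    rw [this, sub_self]
  have h2 := rep_of_preconnected hS (fun c hc => merAt_sub (hF c hc) (hF' c hc))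
    (fun c _ => analyticAt_const) (fun c _ => analyticAt_const) hc0 h1
  intro c hc
  obtain ⟨D, hD, h⟩ := h2 c hc
  refine ⟨D, hD, ?_⟩
  filter_upwards [h] with y hy hd
  have := hy hd
  rw [one_mul] at this ⊢
  exact sub_eq_zero.1 this

theorem rep_reg {F : E → ℂ} {x : E} (h : MerAt F x) : Rep F (reg F) (fun _ => 1) x := by
  obtain ⟨P, Q, hP, hQ, hR⟩ := h
  have hev := hP.eventually_analyticAt.and (hQ.1.eventually_analyticAt.and hR.eventually)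
  obtain ⟨D, hD, h1⟩ := hR
  refine ⟨fun y => D y * Q y, hD.mul hQ, ?_⟩
  filter_upwards [h1, hev] with y hy hy2 h0
  have h2 : Q y ≠ 0 := right_ne_zero_of_mul h0
  rw [(reg_of_rep hy2.1 hy2.2.1 hy2.2.2 h2).self_of_nhds, one_mul, eq_div_iff h2, mul_comm]
  exact hy (left_ne_zero_of_mul h0)

theorem merAt_reg {F : E → ℂ} {x : E} (h : MerAt F x) : MerAt (reg F) x := by
  have h1 := rep_reg h
  obtain ⟨P, Q, hP, hQ, hR⟩ := h
  exact ⟨P, Q, hP, hQ, rep1_trans (rep1_symm h1) hR⟩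

theorem merAt_congr {F F' : E → ℂ} {x : E} (h : MerAt F x) (he : F =ᶠ[𝓝 x] F') :
    MerAt F' x := by
  obtain ⟨P, Q, hP, hQ, D, hD, h1⟩ := h
  refine ⟨P, Q, hP, hQ, D, hD, ?_⟩
  filter_upwards [h1, he] with y hy hy2 h0
  rw [← hy2]; exact hy h0

end Gen

/-! ### tubes -/

theorem isOpen_Tube (s w0 : ℂ) (e : ℝ) : IsOpen (Tube s w0 e) := by
  have h1 : Continuous fun x : ℂ × ℂ => |x.1.re - s.re| := by fun_prop
  have h2 : Continuous fun x : ℂ × ℂ => x.1.im := by fun_prop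
  have h3 : Continuous fun x : ℂ × ℂ => ‖x.2 - w0‖ := by fun_prop
  exact (isOpen_lt h1 continuous_const).inter ((isOpen_lt continuous_const h2).inter
    ((isOpen_lt h2 continuous_const).inter (isOpen_lt h3 continuous_const)))

theorem convex_Tube (s w0 : ℂ) (e : ℝ) : Convex ℝ (Tube s w0 e) := by
  have h : Tube s w0 e =
      (Complex.reLm.comp (LinearMap.fst ℝ ℂ ℂ)) ⁻¹' Ioo (s.re - e) (s.re + e) ∩
      ((Complex.imLm.comp (LinearMap.fst ℝ ℂ ℂ)) ⁻¹' Ioo (-e) (s.im + e) ∩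
        (LinearMap.snd ℝ ℂ ℂ) ⁻¹' ball w0 e) := by
    ext x
    simp only [Tube, mem_ofPred_eq, mem_inter_iff, mem_preimage, LinearMap.comp_apply,
      LinearMap.fst_apply, LinearMap.snd_apply, Complex.reLm_coe, Complex.imLm_coe, mem_Ioo,
      mem_ball, dist_eq_norm, abs_lt]
    constructor
    · rintro ⟨⟨h1, h2⟩, h3, h4, h5⟩
      exact ⟨⟨by linarith, by linarith⟩, ⟨h3, h4⟩, h5⟩
    · rintro ⟨⟨h1, h2⟩, ⟨h3, h4⟩, h5⟩
      exact ⟨⟨by linarith, by linarith⟩, h3, h4, h5⟩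
  rw [h]
  exact ((convex_Ioo _ _).linear_preimage _).inter (((convex_Ioo _ _).linear_preimage _).inter
    ((convex_ball _ _).linear_preimage _))

theorem isOpen_PD (ρ r : ℝ) : IsOpen (PD ρ r) := by
  have h1 : Continuous fun x : ℂ × ℂ => |x.1.im| := by fun_prop
  have h2 : Continuous fun x : ℂ × ℂ => ‖x.2‖ := by fun_prop
  exact (isOpen_lt h1 continuous_const).inter (isOpen_lt h2 continuous_const)

theorem convex_PD (ρ r : ℝ) : Convex ℝ (PD ρ r) := by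
  have h : PD ρ r = (Complex.imLm.comp (LinearMap.fst ℝ ℂ ℂ)) ⁻¹' Ioo (-ρ) ρ ∩
        (LinearMap.snd ℝ ℂ ℂ) ⁻¹' ball 0 r := by
    ext x
    simp only [PD, mem_ofPred_eq, mem_inter_iff, mem_preimage, LinearMap.comp_apply,
      LinearMap.fst_apply, LinearMap.snd_apply, Complex.imLm_coe, mem_Ioo,
      mem_ball_zero_iff, abs_lt]
  rw [h]
  exact ((convex_Ioo _ _).linear_preimage _).inter ((convex_ball _ _).linear_preimage _)

/-! ### vertical continuation -/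

/-- `F` is a meromorphic continuation of `g` along the vertical tube up to `x` -/
def VM (ρ r : ℝ) (g : ℂ × ℂ → ℂ) (x : ℂ × ℂ) (e : ℝ) (F : ℂ × ℂ → ℂ) : Prop :=
  0 < e ∧ 0 < x.1.im ∧ ‖x.2‖ < r ∧ (∀ y ∈ Tube x.1 x.2 e, MerAt F y) ∧
    ∀ y ∈ Tube x.1 x.2 e, y ∈ PD ρ r → Rep F g (fun _ => 1) y

theorem mem_Tube {x : ℂ × ℂ} {e : ℝ} (he : 0 < e) (hx : 0 < x.1.im) : x ∈ Tube x.1 x.2 e :=
  ⟨by simpa using he, by linarith, by linarith, by simpa using he⟩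

theorem base_mem_Tube {x : ℂ × ℂ} {e : ℝ} (he : 0 < e) (hx : 0 < x.1.im) :
    ((x.1.re : ℂ), x.2) ∈ Tube x.1 x.2 e :=
  ⟨by simpa using he, by simpa using he, by simp; linarith, by simpa using he⟩

theorem Tube_mono {s w0 : ℂ} {e e' : ℝ} (h : e ≤ e') : Tube s w0 e ⊆ Tube s w0 e' :=
  fun _ hx => ⟨hx.1.trans_le h, by linarith [hx.2.1], by linarith [hx.2.2.1],
    hx.2.2.2.trans_le h⟩

variable {ρ r : ℝ} {g : ℂ × ℂ → ℂ}

theorem VM.unique (hρ : 0 < ρ) {x : ℂ × ℂ} {e e' : ℝ} {F F' : ℂ × ℂ → ℂ}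
    (h : VM ρ r g x e F) (h' : VM ρ r g x e' F') : reg F x = reg F' x := by
  obtain ⟨he, hx, hr, hF, hFg⟩ := h
  obtain ⟨he', -, -, hF', hFg'⟩ := h'
  have hm : 0 < min e e' := lt_min he he'
  have hy0 := base_mem_Tube (x := x) hm hx
  have hyP : ((x.1.re : ℂ), x.2) ∈ PD ρ r := ⟨by simpa using hρ, hr⟩
  refine reg_congr (rep1_of_preconnected (convex_Tube x.1 x.2 (min e e')).isPreconnected
    (fun c hc => hF c (Tube_mono (min_le_left _ _) hc))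
    (fun c hc => hF' c (Tube_mono (min_le_right _ _) hc)) hy0 ?_ x (mem_Tube hm hx))
  exact rep1_trans (hFg _ (Tube_mono (min_le_left _ _) hy0) hyP)
    (rep1_symm (hFg' _ (Tube_mono (min_le_right _ _) hy0) hyP))

theorem VM.eventually {x : ℂ × ℂ} {e : ℝ} {F : ℂ × ℂ → ℂ} (h : VM ρ r g x e F) :
    ∀ᶠ x' in 𝓝 x, VM ρ r g x' (e / 2) F := by
  obtain ⟨he, hx, hr, hF, hFg⟩ := h
  have h1 : ∀ᶠ x' : ℂ × ℂ in 𝓝 x, 0 < x'.1.im :=
    (by fun_prop : Continuous fun x' : ℂ × ℂ => x'.1.im).continuousAt.eventually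
      (lt_mem_nhds hx)
  have h2 : ∀ᶠ x' : ℂ × ℂ in 𝓝 x, ‖x'.2‖ < r :=
    (by fun_prop : Continuous fun x' : ℂ × ℂ => ‖x'.2‖).continuousAt.eventually
      (gt_mem_nhds hr)
  filter_upwards [h1, h2, ball_mem_nhds x (by linarith : 0 < e / 2)] with x' k1 k2 k3
  rw [mem_ball, Prod.dist_eq, max_lt_iff, dist_eq_norm, dist_eq_norm] at k3
  have k4 := (Complex.abs_re_le_norm (x'.1 - x.1)).trans_lt k3.1
  have k5 := (Complex.abs_im_le_norm (x'.1 - x.1)).trans_lt k3.1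
  rw [Complex.sub_re, abs_lt] at k4
  rw [Complex.sub_im, abs_lt] at k5
  have hsub : Tube x'.1 x'.2 (e / 2) ⊆ Tube x.1 x.2 e := by
    rintro y ⟨y1, y2, y3, y4⟩
    rw [abs_lt] at y1
    refine ⟨by rw [abs_lt]; constructor <;> linarith, by linarith, by linarith, ?_⟩
    calc ‖y.2 - x.2‖ = ‖(y.2 - x'.2) + (x'.2 - x.2)‖ := by congr 1; ring
      _ ≤ ‖y.2 - x'.2‖ + ‖x'.2 - x.2‖ := norm_add_le _ _
      _ < e := by linarith [k3.2]
  exact ⟨by linarith, k1, k2, fun y hy => hF y (hsub hy), fun y hy => hFg y (hsub hy)⟩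

open Classical in
/-- the function obtained by vertical continuation -/
def vfun (ρ r : ℝ) (g : ℂ × ℂ → ℂ) (x : ℂ × ℂ) : ℂ :=
  if h : ∃ F : ℂ × ℂ → ℂ, ∃ e, VM ρ r g x e F then reg h.choose x else 0

theorem vfun_eq (hρ : 0 < ρ) {x : ℂ × ℂ} {e : ℝ} {F : ℂ × ℂ → ℂ} (h : VM ρ r g x e F) :
    vfun ρ r g x = reg F x := by
  have h1 : ∃ F : ℂ × ℂ → ℂ, ∃ e, VM ρ r g x e F := ⟨F, e, h⟩
  unfold vfun
  rw [dif_pos h1]
  obtain ⟨e', h2⟩ := h1.choose_spec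
  exact VM.unique hρ h2 h

theorem vfun_eventually (hρ : 0 < ρ) {x : ℂ × ℂ} {e : ℝ} {F : ℂ × ℂ → ℂ}
    (h : VM ρ r g x e F) : vfun ρ r g =ᶠ[𝓝 x] reg F := by
  filter_upwards [h.eventually] with y hy
  exact vfun_eq hρ hy

theorem vfun_mer (hρ : 0 < ρ) {x : ℂ × ℂ} {e : ℝ} {F : ℂ × ℂ → ℂ}
    (h : VM ρ r g x e F) : MerAt (vfun ρ r g) x :=
  merAt_congr (merAt_reg (h.2.2.2.1 x (mem_Tube h.1 h.2.1))) (vfun_eventually hρ h).symm

theorem vfun_an (hρ : 0 < ρ) {x : ℂ × ℂ} {e : ℝ} {F : ℂ × ℂ → ℂ}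
    (h : VM ρ r g x e F) (hF : AnalyticAt ℂ F x) :
    AnalyticAt ℂ (vfun ρ r g) x ∧ vfun ρ r g x = F x := by
  have h1 : reg F =ᶠ[𝓝 x] F :=
    reg_eq hF (rep_of_analytic (Eventually.of_forall fun _ => one_mul _))
  have h2 := (vfun_eventually hρ h).trans h1
  exact ⟨hF.congr h2.symm, h2.self_of_nhds⟩

end Crest.Agent.R102.VC88
end
end

-- ▼ part R102/Sec_88
section

/-!
Row 102, part (C) (helper88): (A2) = the lines are meromorphic at the points `(t, w)`, `w` in a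
sector, between two regular zones (from `RatCont`).
-/

set_option autoImplicit false

open Set Filter Topology Metric

noncomputable section

namespace Crest.Agent.R102.AMer88

open Crest.Agent.R102.Mer88 Crest.Agent.R102.LeviM88 Crest.Agent.R102.Spine
open Crest.Agent.R102.C0 Crest.Agent.R102.VC88

/-- zone at the regular point `g` -/
def Zone (h0 : ℝ) (g : ℂ) (c r1 : ℝ) : Set (ℂ × ℂ) :=
  {x | |x.1.re - g.re| < c ∧ -c < x.1.im ∧ x.1.im < h0 + c ∧ ‖x.2‖ < r1}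

theorem Zone_mono {h0 : ℝ} {g : ℂ} {c c' r1 r1' : ℝ} (hc : c ≤ c') (hr : r1 ≤ r1') :
    Zone h0 g c r1 ⊆ Zone h0 g c' r1' := fun _ hx =>
  ⟨hx.1.trans_le hc, by linarith [hx.2.1], by linarith [hx.2.2.1], hx.2.2.2.trans_le hr⟩

/-- the lines extend to the zone at `g` -/
structure ZoneExt (ρ r : ℝ) (φ p : ℂ × ℂ → ℂ) (h0 : ℝ) (g : ℂ) (c r1 : ℝ)
    (φ' p' : ℂ × ℂ → ℂ) : Prop where
  φ_an : AnalyticOnNhd ℂ φ' (Zone h0 g c r1)
  p_an : AnalyticOnNhd ℂ p' (Zone h0 g c r1)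
  φ_eq : ∀ x ∈ Zone h0 g c r1, x ∈ PD ρ r → φ' x = φ x
  p_eq : ∀ x ∈ Zone h0 g c r1, x ∈ PD ρ r → p' x = p x

theorem ZoneExt.mono {ρ r : ℝ} {φ p : ℂ × ℂ → ℂ} {h0 : ℝ} {g : ℂ} {c r1 c' r1' : ℝ}
    {φ' p' : ℂ × ℂ → ℂ} (h : ZoneExt ρ r φ p h0 g c' r1' φ' p') (hc : c ≤ c') (hr : r1 ≤ r1') :
    ZoneExt ρ r φ p h0 g c r1 φ' p' :=
  ⟨fun x hx => h.φ_an x (Zone_mono hc hr hx), fun x hx => h.p_an x (Zone_mono hc hr hx),
    fun x hx => h.φ_eq x (Zone_mono hc hr hx), fun x hx => h.p_eq x (Zone_mono hc hr hx)⟩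

theorem zone_mem {h0 c r1 e : ℝ} {N : ℕ} {g t w : ℂ} {y : ℂ × ℂ} (_hc : 0 < c)
    (he : (N + 1) * e ≤ c / 16) (her : e ≤ r1 / 2) (he0 : 0 < e) {s : ℝ} (hs : |s| ≤ N)
    (h1 : |t.re + s * w.re - g.re| < c / 4) (h3 : N * |w.im| ≤ c / 4)
    (h5 : t.im < h0 + c / 2) (h6 : ‖w‖ < r1 / 2) (hy : y ∈ Tube t w e) :
    (y.1 + (s : ℂ) * y.2, y.2) ∈ Zone h0 g c r1 := by
  obtain ⟨y1, y2, y3, y4⟩ := hy
  have hN : (0 : ℝ) ≤ N := Nat.cast_nonneg N
  have a1 := (Complex.abs_re_le_norm (y.2 - w)).trans y4.le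
  have a2 := (Complex.abs_im_le_norm (y.2 - w)).trans y4.le
  rw [Complex.sub_re] at a1
  rw [Complex.sub_im] at a2
  have b1 : |s * (y.2.re - w.re)| ≤ N * e := by
    rw [abs_mul]; exact mul_le_mul hs a1 (abs_nonneg _) hN
  have b2 : |s * (y.2.im - w.im)| ≤ N * e := by
    rw [abs_mul]; exact mul_le_mul hs a2 (abs_nonneg _) hN
  have b3 : |s * w.im| ≤ c / 4 := by
    rw [abs_mul]
    exact (mul_le_mul_of_nonneg_right hs (abs_nonneg _)).trans h3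
  have e1 : (y.1 + (s : ℂ) * y.2).re = y.1.re + s * y.2.re := by simp
  have e2 : (y.1 + (s : ℂ) * y.2).im = y.1.im + s * y.2.im := by simp
  have he' : N * e + e ≤ c / 16 := by linarith
  rw [abs_lt] at y1 h1
  rw [abs_le] at b1 b2 b3
  refine ⟨?_, ?_, ?_, ?_⟩
  · show |(y.1 + (s : ℂ) * y.2).re - g.re| < c
    rw [e1, abs_lt]
    constructor <;> nlinarith
  · show -c < (y.1 + (s : ℂ) * y.2).im
    rw [e2]; nlinarith
  · show (y.1 + (s : ℂ) * y.2).im < h0 + c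
    rw [e2]; nlinarith
  · show ‖y.2‖ < r1
    calc ‖y.2‖ = ‖(y.2 - w) + w‖ := by congr 1; ring
      _ ≤ ‖y.2 - w‖ + ‖w‖ := norm_add_le _ _
      _ < r1 := by linarith

variable {q : C(ℂ, ℂ)} {η ρ r B : ℝ} {b φ p : ℂ × ℂ → ℂ} {m₀ : ℂ → ℂ}

/-- **(A2)**, core -/
theorem sec_core (hR : RatCont) (hL : LineFam q η ρ r B b φ p m₀) (hna : ¬ AlgC q)
    {h0 c r1 : ℝ} (hc : 0 < c) (hcρ : c ≤ ρ) (hr1 : 0 < r1) (hr1r : r1 ≤ r) {ga gb : ℂ}
    {φa pa φb pb : ℂ × ℂ → ℂ} (Za : ZoneExt ρ r φ p h0 ga c r1 φa pa)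
    (Zb : ZoneExt ρ r φ p h0 gb c r1 φb pb) {t w : ℂ} {j j' : ℕ}
    (h1 : |t.re - j * w.re - ga.re| < c / 4) (h2 : |t.re + j' * w.re - gb.re| < c / 4)
    (h3 : ((j : ℝ) + j') * |w.im| ≤ c / 4) (h4 : 0 < t.im) (h5 : t.im < h0 + c / 2)
    (h6 : ‖w‖ < r1 / 2) :
    ∃ (e : ℝ) (E P : ℂ × ℂ → ℂ), VM ρ r (fun x => Complex.exp (Complex.I * φ x)) (t, w) e E ∧
      VM ρ r p (t, w) e P := by
  set N : ℕ := j + j' with hN
  have hNr : (N : ℝ) = j + j' := by rw [hN]; push_cast; ring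
  have hNc : (N : ℂ) = j + j' := by rw [hN]; push_cast; ring
  have hρ := hL.ρ_pos
  set e : ℝ := min (c / (16 * (N + 1))) (r1 / 2) with he
  have hN1 : (0 : ℝ) < N + 1 := by positivity
  have he0 : 0 < e := lt_min (by positivity) (by linarith)
  have hee : (N + 1) * e ≤ c / 16 := by
    have : e ≤ c / (16 * (N + 1)) := min_le_left _ _
    calc (N + 1) * e ≤ (N + 1) * (c / (16 * (N + 1))) := by gcongr
      _ = c / 16 := by field_simp
  have her : e ≤ r1 / 2 := min_le_right _ _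
  have h3' : (N : ℝ) * |w.im| ≤ c / 4 := by rw [hNr]; exact h3
  -- the change of variables
  set Φ : ℂ × ℂ → ℂ × ℂ := fun y => (y.1 - (j : ℂ) * y.2, y.2) with hΦ
  set Ψ : ℂ × ℂ → ℂ × ℂ := fun x => (x.1 + (j : ℂ) * x.2, x.2) with hΨ
  have hΦc : Continuous Φ := by fun_prop
  have hΨc : Continuous Ψ := by fun_prop
  have hΦΨ : ∀ x, Φ (Ψ x) = x := fun x => by simp [hΦ, hΨ]
  have hΨΦ : ∀ y, Ψ (Φ y) = y := fun y => by simp [hΦ, hΨ]
  set Ω : Set (ℂ × ℂ) := Ψ ⁻¹' Tube t w e with hΩ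
  have hΩo : IsOpen Ω := (isOpen_Tube t w e).preimage hΨc
  have hΩi : Ω = Φ '' Tube t w e :=
    (Set.image_eq_preimage_of_inverse (f := Φ) (g := Ψ) hΨΦ hΦΨ ▸ rfl)
  have hΩc : IsPreconnected Ω := by
    rw [hΩi]
    exact (convex_Tube t w e).isPreconnected.image _ hΦc.continuousOn
  have hzA : ∀ x ∈ Ω, x ∈ Zone h0 ga c r1 := by
    intro x hx
    have h := zone_mem (g := ga) (h0 := h0) (s := -(j : ℝ)) hc hee her he0 (by
      rw [abs_neg, abs_of_nonneg (Nat.cast_nonneg j), hNr]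
      linarith [(Nat.cast_nonneg j' : (0 : ℝ) ≤ j')])
      (by convert h1 using 2; ring) h3' h5 h6 hx
    have h7 : ((Ψ x).1 + ((-(j : ℝ) : ℝ) : ℂ) * (Ψ x).2, (Ψ x).2) = x := by
      simp [hΨ]
    rwa [h7] at h
  have hzB : ∀ x ∈ Ω, (x.1 + (N : ℂ) * x.2, x.2) ∈ Zone h0 gb c r1 := by
    intro x hx
    have h := zone_mem (g := gb) (h0 := h0) (s := (j' : ℝ)) hc hee her he0 (by
      rw [abs_of_nonneg (Nat.cast_nonneg j'), hNr]
      linarith [(Nat.cast_nonneg j : (0 : ℝ) ≤ j)]) h2 h3' h5 h6 hx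
    have h7 : ((Ψ x).1 + ((j' : ℝ) : ℂ) * (Ψ x).2, (Ψ x).2) = (x.1 + (N : ℂ) * x.2, x.2) := by
      simp only [hΨ, hNc, Complex.ofReal_natCast]
      congr 1
      ring
    rwa [h7] at h
  -- base point
  set x0 : ℂ × ℂ := ((t.re : ℂ) - (j : ℂ) * w, w) with hx0
  have hy0 : ((t.re : ℂ), w) ∈ Tube t w e := base_mem_Tube (x := (t, w)) he0 h4
  have hΨx0 : Ψ x0 = ((t.re : ℂ), w) := by simp [hΨ, hx0]
  have hΦy0 : Φ ((t.re : ℂ), w) = x0 := rfl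
  have hx0Ω : x0 ∈ Ω := by
    rw [hΩ, mem_preimage, hΨx0]; exact hy0
  have hwr : ‖w‖ < r := by linarith
  have hj0 : (0 : ℝ) ≤ j := Nat.cast_nonneg j
  have hj0' : (0 : ℝ) ≤ j' := Nat.cast_nonneg j'
  have hwim : 0 ≤ |w.im| := abs_nonneg _
  have hx0P : x0 ∈ PD ρ r := by
    refine ⟨?_, hwr⟩
    have : x0.1.im = -(j * w.im) := by simp [hx0]
    rw [this, abs_neg, abs_mul, abs_of_nonneg hj0]
    nlinarith
  have hx0P' : (x0.1 + (N : ℂ) * x0.2, x0.2) ∈ PD ρ r := by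
    refine ⟨?_, hwr⟩
    have : (x0.1 + (N : ℂ) * x0.2).im = j' * w.im := by
      simp only [hx0, hNc, Complex.add_im, Complex.sub_im, Complex.mul_im, Complex.ofReal_im,
        Complex.natCast_re, Complex.natCast_im, Complex.add_re]
      ring
    show |(x0.1 + (N : ℂ) * x0.2).im| < ρ
    rw [this, abs_mul, abs_of_nonneg hj0']
    nlinarith
  have hsh : Continuous fun x : ℂ × ℂ => (x.1 + (N : ℂ) * x.2, x.2) := by fun_prop
  have hsha : ∀ x : ℂ × ℂ, AnalyticAt ℂ (fun x : ℂ × ℂ => (x.1 + (N : ℂ) * x.2, x.2)) x :=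
    fun x => (analyticAt_fst.add (analyticAt_const.mul analyticAt_snd)).prod analyticAt_snd
  have hexp : ∀ {f : ℂ × ℂ → ℂ} {x : ℂ × ℂ}, AnalyticAt ℂ f x →
      AnalyticAt ℂ (fun x => Complex.exp (Complex.I * f x)) x := fun {f x} hf =>
    (analyticAt_const.mul hf).cexp
  obtain ⟨E0, P0, hEP, hev⟩ := hR q η ρ r B b φ p m₀ hL hna N Ω x0
    ![fun x => Complex.exp (Complex.I * φa x), pa,
      fun x => Complex.exp (Complex.I * φb (x.1 + (N : ℂ) * x.2, x.2)),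
      fun x => pb (x.1 + (N : ℂ) * x.2, x.2)] hΩo hΩc hx0Ω hx0P hx0P'
    (by
      intro i x hx
      have hb1 := hzB x hx
      fin_cases i
      · exact merAt_of_analyticAt (hexp (Za.φ_an x (hzA x hx)))
      · exact merAt_of_analyticAt (Za.p_an x (hzA x hx))
      · exact merAt_of_analyticAt (hexp ((Zb.φ_an _ hb1).comp
          (f := fun x : ℂ × ℂ => (x.1 + (N : ℂ) * x.2, x.2)) (hsha x)))
      · exact merAt_of_analyticAt ((Zb.p_an _ hb1).comp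
          (f := fun x : ℂ × ℂ => (x.1 + (N : ℂ) * x.2, x.2)) (hsha x)))
    (by
      have k1 : ∀ᶠ x in 𝓝 x0, x ∈ Ω := hΩo.mem_nhds hx0Ω
      have k2 : ∀ᶠ x in 𝓝 x0, x ∈ PD ρ r := (isOpen_PD ρ r).mem_nhds hx0P
      have k3 : ∀ᶠ x : ℂ × ℂ in 𝓝 x0, (x.1 + (N : ℂ) * x.2, x.2) ∈ PD ρ r :=
        hsh.continuousAt.eventually ((isOpen_PD ρ r).mem_nhds hx0P')
      filter_upwards [k1, k2, k3] with x m1 m2 m3
      refine ⟨?_, ?_, ?_, ?_⟩
      · show Complex.exp (Complex.I * φa x) = _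
        rw [Za.φ_eq x (hzA x m1) m2]
      · exact Za.p_eq x (hzA x m1) m2
      · show Complex.exp (Complex.I * φb (x.1 + (N : ℂ) * x.2, x.2)) = _
        rw [Zb.φ_eq _ (hzB x m1) m3]
      · exact Zb.p_eq _ (hzB x m1) m3) j (by omega)
  have hLB : ∀ y, LBih Φ Ψ y := fun y =>
    ⟨(analyticAt_fst.sub (analyticAt_const.mul analyticAt_snd)).prod analyticAt_snd,
      hΨc.continuousAt, hΨΦ y, Eventually.of_forall hΦΨ⟩
  have hmem : ∀ y ∈ Tube t w e, Φ y ∈ Ω := fun y hy => by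
    rw [hΩ, mem_preimage, hΨΦ]; exact hy
  have hev' : ∀ᶠ y in 𝓝 (((t.re : ℂ), w) : ℂ × ℂ),
      E0 (Φ y) = Complex.exp (Complex.I * φ y) ∧ P0 (Φ y) = p y := by
    have h7 : Tendsto Φ (𝓝 (((t.re : ℂ), w) : ℂ × ℂ)) (𝓝 x0) := by
      rw [← hΦy0]; exact hΦc.continuousAt
    filter_upwards [h7.eventually hev] with y hy
    have h8 : ((Φ y).1 + (j : ℂ) * (Φ y).2, (Φ y).2) = y := hΨΦ y
    rw [h8] at hy
    exact hy
  have hTP : IsPreconnected (Tube t w e ∩ PD ρ r) :=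
    ((convex_Tube t w e).inter (convex_PD ρ r)).isPreconnected
  have hy0P : ((t.re : ℂ), w) ∈ PD ρ r := ⟨by simpa using hρ, hwr⟩
  have hφa : ∀ y ∈ PD ρ r, AnalyticAt ℂ φ y := fun y hy =>
    Crest.Agent.R266.SCV.analyticOnNhd_of_differentiableOn (isOpen_PD ρ r) hL.φ_diff y hy
  have hpa : ∀ y ∈ PD ρ r, AnalyticAt ℂ p y := fun y hy =>
    Crest.Agent.R266.SCV.analyticOnNhd_of_differentiableOn (isOpen_PD ρ r) hL.p_diff y hy
  refine ⟨e, fun y => E0 (Φ y), fun y => P0 (Φ y), ⟨he0, h4, hwr, ?_, ?_⟩,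
    ⟨he0, h4, hwr, ?_, ?_⟩⟩
  · exact fun y hy => MerAt.comp (hLB y) (hEP _ (hmem y hy)).1
  · intro y hy hyP
    refine rep1_of_preconnected hTP
      (fun z hz => MerAt.comp (hLB z) (hEP _ (hmem z hz.1)).1)
      (fun z hz => merAt_of_analyticAt (hexp (hφa z hz.2))) ⟨hy0, hy0P⟩ ?_ y ⟨hy, hyP⟩
    refine rep_of_analytic ?_
    filter_upwards [hev'] with z hz
    rw [one_mul]; exact hz.1
  · exact fun y hy => MerAt.comp (hLB y) (hEP _ (hmem y hy)).2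
  · intro y hy hyP
    refine rep1_of_preconnected hTP
      (fun z hz => MerAt.comp (hLB z) (hEP _ (hmem z hz.1)).2)
      (fun z hz => merAt_of_analyticAt (hpa z hz.2)) ⟨hy0, hy0P⟩ ?_ y ⟨hy, hyP⟩
    refine rep_of_analytic ?_
    filter_upwards [hev'] with z hz
    rw [one_mul]; exact hz.2

end Crest.Agent.R102.AMer88
end
end

-- ▼ part R102/AMer_88
section

/-!
Row 102, part (C) (helper88): **`aMer : GapS → RatCont → AMer`** (Case A, not algebraic).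
-/

set_option autoImplicit false

open Set Filter Topology Metric

noncomputable section

namespace Crest.Agent.R102.AMer88

open Crest.Agent.R102.Mer88 Crest.Agent.R102.LeviM88 Crest.Agent.R102.Spine
open Crest.Agent.R102.T5 Crest.Agent.R102.G576 Crest.Agent.R102.A929 Crest.Agent.R102.B821
open Crest.Agent.R102.C0 Crest.Agent.R102.C1 Crest.Agent.R102.VC88

theorem LineFamS.mono_r {θ H : ℂ → ℂ} {K : Set ℂ} {r r' B : ℝ} {b φ p : ℂ × ℂ → ℂ} {m₀ : ℂ → ℂ}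
    (h : LineFamS θ H K r' B b φ p m₀) (hr : r ≤ r') : LineFamS θ H K r B b φ p m₀ := by
  have hsub : K ×ˢ ball (0 : ℂ) r ⊆ K ×ˢ ball (0 : ℂ) r' :=
    prod_mono subset_rfl (ball_subset_ball hr)
  exact
    { b_diff := h.b_diff.mono hsub
      b_near := fun t ht w hw => h.b_near t ht w (hw.trans_le hr)
      b_even := fun t ht w hw => h.b_even t ht w (hw.trans_le hr)
      φ_diff := h.φ_diff.mono hsub
      p_diff := h.p_diff.mono hsub
      φ_zero := h.φ_zero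
      p_zero := h.p_zero
      φ_even := fun t ht w hw => h.φ_even t ht w (hw.trans_le hr)
      p_even := fun t ht w hw => h.p_even t ht w (hw.trans_le hr)
      inc := fun t w hw => h.inc t w (hw.trans_le hr)
      inc' := fun t w hw => h.inc' t w (hw.trans_le hr)
      refl := fun t w hw => h.refl t w (hw.trans_le hr)
      area := fun t ht w hw => h.area t ht w (hw.trans_le hr) }

section glue

open Classical in
/-- gluing at a regular point -/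
theorem vext_glue {q : C(ℂ, ℂ)} {η h0 : ℝ} {θ H : ℂ → ℂ} (hη0 : 0 < η) (hη : η ≤ h0)
    (hV : VExt q η (Str h0) θ H) {g : ℂ} (hg : g.im = h0) {c0 : ℝ} (hc0 : 0 < c0)
    {θ' H' : ℂ → ℂ} (hθ' : DifferentiableOn ℂ θ' (ball g c0))
    (hH' : DifferentiableOn ℂ H' (ball g c0))
    (he : ∀ z ∈ ball g c0, |z.im| < h0 → θ' z = θ z ∧ H' z = H z) :
    VExt q η (Str h0 ∪ ball g c0) (fun z => if z ∈ Str h0 then θ z else θ' z)
      (fun z => if z ∈ Str h0 then H z else H' z) := by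
  have hso := isOpen_Str h0
  have gl : ∀ {f f' : ℂ → ℂ}, DifferentiableOn ℂ f (Str h0) → DifferentiableOn ℂ f' (ball g c0) →
      (∀ z ∈ ball g c0, |z.im| < h0 → f' z = f z) →
      DifferentiableOn ℂ (fun z => if z ∈ Str h0 then f z else f' z) (Str h0 ∪ ball g c0) := by
    intro f f' hf hf' hff z hz
    refine DifferentiableAt.differentiableWithinAt ?_
    by_cases h1 : z ∈ Str h0
    · refine (hf.differentiableAt (hso.mem_nhds h1)).congr_of_eventuallyEq ?_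
      filter_upwards [hso.mem_nhds h1] with y hy
      rw [if_pos hy]
    · have h2 : z ∈ ball g c0 := hz.resolve_left h1
      refine (hf'.differentiableAt (isOpen_ball.mem_nhds h2)).congr_of_eventuallyEq ?_
      filter_upwards [isOpen_ball.mem_nhds h2] with y hy
      split_ifs with h3
      · exact (hff y hy h3).symm
      · rfl
  have hh0 : 0 < h0 := hη0.trans_le hη
  refine ⟨hso.union isOpen_ball, ?_, (str_mono hη).trans subset_union_left,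
    gl hV.θ_diff hθ' fun z hz h => (he z hz h).1, gl hV.H_diff hH' fun z hz h => (he z hz h).2,
    ?_, ?_⟩
  · -- connected
    obtain ⟨s, hs, hs1⟩ : ∃ s : ℝ, 0 < s ∧ s < min c0 h0 := exists_between (lt_min hc0 hh0)
    rw [lt_min_iff] at hs1
    refine IsPreconnected.union (⟨g.re, h0 - s⟩ : ℂ) ?_ ?_ (str_conv h0).isPreconnected
      (convex_ball g c0).isPreconnected
    · show |h0 - s| < h0
      rw [abs_lt]; constructor <;> linarith
    · rw [mem_ball, dist_eq_norm]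
      have e1 : (⟨g.re, h0 - s⟩ : ℂ) - g = (-s : ℝ) * Complex.I := by
        apply Complex.ext <;> simp [hg]
      rw [e1, norm_mul, Complex.norm_real, Complex.norm_I, mul_one, norm_neg,
        Real.norm_of_nonneg hs.le]
      exact hs1.1
  · intro z hz
    rw [if_pos (str_mono hη hz)]; exact hV.θ_eq z hz
  · intro z hz
    rw [if_pos (str_mono hη hz)]; exact hV.H_eq z hz

end glue

variable {q : C(ℂ, ℂ)} {η ρ r B : ℝ} {b φ p : ℂ × ℂ → ℂ} {m₀ : ℂ → ℂ}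

/-- analytic on the product of a strip and a disc -/
theorem an_prod {K : Set ℂ} (hK : IsOpen K) {r : ℝ} {f : ℂ × ℂ → ℂ}
    (hf : DifferentiableOn ℂ f (K ×ˢ ball (0 : ℂ) r)) {x : ℂ × ℂ} (h1 : x.1 ∈ K)
    (h2 : ‖x.2‖ < r) : AnalyticAt ℂ f x :=
  Crest.Agent.R266.SCV.analyticOnNhd_of_differentiableOn (hK.prod isOpen_ball) hf x
    ⟨h1, by rw [mem_ball_zero_iff]; exact h2⟩

theorem zone_of_reg (hG : GapS) (hL : LineFam q η ρ r B b φ p m₀) {θ H : ℂ → ℂ} {h0 : ℝ}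
    (hη : η ≤ h0) (hV : VExt q η (Str h0) θ H) {g : ℂ} (hg : g.im = h0) {c0 : ℝ}
    (hc0 : 0 < c0) (hreg : RegR h0 θ H g c0) :
    ∃ c r1 : ℝ, 0 < c ∧ c ≤ ρ ∧ 0 < r1 ∧ r1 ≤ r ∧ ∃ φ' p' : ℂ × ℂ → ℂ,
      ZoneExt ρ r φ p h0 g c r1 φ' p' := by
  classical
  obtain ⟨θ', H', hθ', hH', he⟩ := hreg
  have hρ := hL.ρ_pos
  have hρη := hL.ρ_lt
  have hV1 := vext_glue hL.dat.η_pos hη hV hg hc0 hθ' hH' he
  obtain ⟨c1, r1, B1, b1, φ1, p1, hc1, hr1, hr1r, hF1, hagree⟩ :=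
    hG q η ρ r B b φ p m₀ hL _ _ _ h0 g hV1 subset_union_left (by linarith) hg
      (Or.inr (mem_ball_self hc0))
  set h' : ℝ := max (h0 - c1 / 4) ((ρ + h0) / 2) with hh'
  have hh1 : h0 - c1 / 4 ≤ h' := le_max_left _ _
  have hh2 : ρ < h' := lt_of_lt_of_le (by linarith) (le_max_right _ _)
  have hh3 : h' < h0 := max_lt (by linarith) (by linarith)
  obtain ⟨r2, B2, b2, φ2, p2, hr2, hr2r, hF2, hext, -, -⟩ :=
    extS q η ρ r B b φ p m₀ hL _ _ _ h0 h' hV1 subset_union_left hh2 hh3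
  set r3 : ℝ := min r1 r2 with hr3
  have hr30 : 0 < r3 := lt_min hr1 hr2
  have hag := hagree h' r3 B2 b2 φ2 p2 hh2 hh3.le hr30 (min_le_left _ _)
    (LineFamS.mono_r hF2 (min_le_right _ _)) (fun t w h => hext t w ⟨h.1,
      h.2.trans_le (min_le_right _ _)⟩)
  have hSo : IsOpen (Str h') := isOpen_Str h'
  have hcpos : 0 < min (c1 / 4) ρ := lt_min (by linarith) hρ
  refine ⟨min (c1 / 4) ρ, r3, hcpos, min_le_right _ _, hr30, (min_le_left _ _).trans hr1r,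
    fun x => if x.1 ∈ Str h' then φ2 x else φ1 x, fun x => if x.1 ∈ Str h' then p2 x else p1 x,
    ?_⟩
  have hball : ∀ x ∈ Zone h0 g (min (c1 / 4) ρ) r3, x.1 ∉ Str h' → x.1 ∈ ball g c1 := by
    rintro x ⟨x1, x2, x3, x4⟩ hx
    have hc4 := min_le_left (c1 / 4) ρ
    have hcρ := min_le_right (c1 / 4) ρ
    have h5 : h' ≤ x.1.im := by
      by_contra h6
      apply hx
      show |x.1.im| < h'
      rw [abs_lt]; constructor <;> linarith
    rw [mem_ball, dist_eq_norm]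
    have h6 : |(x.1 - g).re| < c1 / 4 := by rw [Complex.sub_re]; linarith
    have h7 : |(x.1 - g).im| ≤ c1 / 4 := by
      rw [Complex.sub_im, hg, abs_le]; constructor <;> linarith
    have h8 := Complex.norm_le_abs_re_add_abs_im (x.1 - g)
    linarith
  have gl : ∀ {f2 f1 : ℂ × ℂ → ℂ}, DifferentiableOn ℂ f2 (Str h' ×ˢ ball (0 : ℂ) r2) →
      DifferentiableOn ℂ f1 (ball g c1 ×ˢ ball (0 : ℂ) r1) →
      (∀ t ∈ ball g c1, |t.im| < h' → ∀ w : ℂ, ‖w‖ < r3 → f1 (t, w) = f2 (t, w)) →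
      AnalyticOnNhd ℂ (fun x => if x.1 ∈ Str h' then f2 x else f1 x)
        (Zone h0 g (min (c1 / 4) ρ) r3) := by
    intro f2 f1 hf2 hf1 hff x hx
    have hx3 : ‖x.2‖ < r3 := hx.2.2.2
    by_cases h1 : x.1 ∈ Str h'
    · refine (an_prod hSo hf2 h1 (hx3.trans_le (min_le_right _ _))).congr ?_
      filter_upwards [continuous_fst.continuousAt.eventually (hSo.mem_nhds h1)] with y hy
      rw [if_pos (show y.1 ∈ Str h' from hy)]
    · have h2 := hball x hx h1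
      refine (an_prod isOpen_ball hf1 h2 (hx3.trans_le (min_le_left _ _))).congr ?_
      have k1 : ∀ᶠ y : ℂ × ℂ in 𝓝 x, y.1 ∈ ball g c1 :=
        continuous_fst.continuousAt.eventually (isOpen_ball.mem_nhds h2)
      have k2 : ∀ᶠ y : ℂ × ℂ in 𝓝 x, ‖y.2‖ < r3 :=
        (by fun_prop : Continuous fun y : ℂ × ℂ => ‖y.2‖).continuousAt.eventually
          (gt_mem_nhds hx3)
      filter_upwards [k1, k2] with y m1 m2
      split_ifs with h3
      · exact hff y.1 m1 h3 y.2 m2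
      · rfl
  refine ⟨gl hF2.φ_diff hF1.φ_diff fun t ht hti w hw => (hag t ht hti w hw).2.1,
    gl hF2.p_diff hF1.p_diff fun t ht hti w hw => (hag t ht hti w hw).2.2, ?_, ?_⟩
  · intro x hx hxP
    have h1 : x.1 ∈ Str h' := lt_trans hxP.1 hh2
    rw [if_pos h1]
    exact (hext x.1 x.2 ⟨hxP.1, hx.2.2.2.trans_le (min_le_right _ _)⟩).2.1
  · intro x hx hxP
    have h1 : x.1 ∈ Str h' := lt_trans hxP.1 hh2
    rw [if_pos h1]
    exact (hext x.1 x.2 ⟨hxP.1, hx.2.2.2.trans_le (min_le_right _ _)⟩).2.2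

/-- the low part -/
theorem low_ext (hL : LineFam q η ρ r B b φ p m₀) {θ H : ℂ → ℂ} {h0 : ℝ}
    (hη : η ≤ h0) (hV : VExt q η (Str h0) θ H) {ε : ℝ} (hε : 0 < ε) :
    ∃ h' r' : ℝ, h0 - ε ≤ h' ∧ h' < h0 ∧ ρ < h' ∧ 0 < r' ∧ r' ≤ r ∧ ∃ φ' p' : ℂ × ℂ → ℂ,
      (∀ x ∈ PD h' r', AnalyticAt ℂ φ' x ∧ AnalyticAt ℂ p' x) ∧
      (∀ x ∈ PD ρ r', φ' x = φ x ∧ p' x = p x) ∧
      ∀ t ∈ Str h', φ' (t, 0) = θ t ∧ p' (t, 0) = H t := by
  have hρ := hL.ρ_pos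
  have hρη := hL.ρ_lt
  set h' : ℝ := max (h0 - ε) ((ρ + h0) / 2) with hh'
  have hh1 : h0 - ε ≤ h' := le_max_left _ _
  have hh2 : ρ < h' := lt_of_lt_of_le (by linarith) (le_max_right _ _)
  have hh3 : h' < h0 := max_lt (by linarith) (by linarith)
  obtain ⟨r2, B2, b2, φ2, p2, hr2, hr2r, hF2, hext, -, -⟩ :=
    extS q η ρ r B b φ p m₀ hL _ _ _ h0 h' hV subset_rfl hh2 hh3
  exact ⟨h', r2, hh1, hh3, hh2, hr2, hr2r, φ2, p2,
    fun x hx => ⟨an_prod (isOpen_Str h') hF2.φ_diff hx.1 hx.2,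
      an_prod (isOpen_Str h') hF2.p_diff hx.1 hx.2⟩,
    fun x hx => (hext x.1 x.2 hx).2, fun t ht => ⟨hF2.φ_zero t ht, hF2.p_zero t ht⟩⟩

/-- vertical continuation in the low part -/
theorem low_VM {g g' : ℂ × ℂ → ℂ} {h' r' : ℝ} (_hρh : ρ < h') (hr : r' ≤ r)
    (han : ∀ x ∈ PD h' r', AnalyticAt ℂ g' x) (heq : ∀ x ∈ PD ρ r', g' x = g x)
    {t w : ℂ} (h1 : 0 < t.im) (h2 : t.im < h') (h3 : ‖w‖ < r') :
    VM ρ r g (t, w) (min (h' - t.im) (r' - ‖w‖)) g' := by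
  have he : 0 < min (h' - t.im) (r' - ‖w‖) := lt_min (by linarith) (by linarith)
  have hsub : Tube t w (min (h' - t.im) (r' - ‖w‖)) ⊆ PD h' r' := by
    rintro y ⟨-, y2, y3, y4⟩
    have e1 := min_le_left (h' - t.im) (r' - ‖w‖)
    have e2 := min_le_right (h' - t.im) (r' - ‖w‖)
    refine ⟨by rw [abs_lt]; constructor <;> linarith, ?_⟩
    calc ‖y.2‖ = ‖(y.2 - w) + w‖ := by congr 1; ring
      _ ≤ ‖y.2 - w‖ + ‖w‖ := norm_add_le _ _
      _ < r' := by linarith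
  refine ⟨he, h1, h3.trans_le hr, fun y hy => merAt_of_analyticAt (han y (hsub hy)), ?_⟩
  intro y hy hyP
  refine rep_of_analytic ?_
  have h4 : y ∈ PD ρ r' := ⟨hyP.1, (hsub hy).2⟩
  filter_upwards [(isOpen_PD ρ r').mem_nhds h4] with z hz
  rw [one_mul, heq z hz]

theorem steps {x v : ℝ} (hv : 0 < v) (hx : 0 ≤ x) :
    (⌊x / v⌋₊ : ℝ) * v ≤ x ∧ x < ⌊x / v⌋₊ * v + v := by
  constructor
  · have := Nat.floor_le (a := x / v) (div_nonneg hx hv.le)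
    rwa [le_div_iff₀ hv] at this
  · have := Nat.lt_floor_add_one (x / v)
    rw [div_lt_iff₀ hv] at this
    linarith

/-- the sector part between two zones -/
theorem sec_all (hR : RatCont) (hL : LineFam q η ρ r B b φ p m₀) (hna : ¬ AlgC q)
    {h0 c r1 a1 a2 : ℝ} (hc : 0 < c) (hcρ : c ≤ ρ) (hr1 : 0 < r1) (hr1r : r1 ≤ r) {ga gb : ℂ}
    {φa pa φb pb : ℂ × ℂ → ℂ} (Za : ZoneExt ρ r φ p h0 ga c r1 φa pa)
    (Zb : ZoneExt ρ r φ p h0 gb c r1 φb pb) (hga : ga.re = a1) (hgb : gb.re = a2)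
    (ha : a2 - a1 = 3) {t w : ℂ} (h1 : a1 < t.re) (h2 : t.re < a2) (h3 : 0 < t.im)
    (h4 : t.im < h0 + c / 2) (h5 : |w.im| < c / 12 * |w.re|)
    (h6 : ‖w‖ < min (r1 / 2) (c / 4)) :
    ∃ (e : ℝ) (E P : ℂ × ℂ → ℂ),
      VM ρ r (fun x => Complex.exp (Complex.I * φ x)) (t, w) e E ∧ VM ρ r p (t, w) e P := by
  have h6a : ‖w‖ < r1 / 2 := h6.trans_le (min_le_left _ _)
  have h6b : ‖w‖ < c / 4 := h6.trans_le (min_le_right _ _)
  have hre := (Complex.abs_re_le_norm w).trans_lt h6b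
  have hw0 : 0 < |w.re| := by
    by_contra h7
    have h8 : |w.re| = 0 := le_antisymm (not_lt.1 h7) (abs_nonneg _)
    rw [h8, mul_zero] at h5
    exact absurd h5 (not_lt.2 (abs_nonneg _))
  obtain ⟨v, hv⟩ : ∃ v, v = |w.re| := ⟨_, rfl⟩
  rw [← hv] at h5 hre hw0
  obtain ⟨i1, i2⟩ := steps hw0 (x := t.re - a1) (by linarith)
  obtain ⟨k1, k2⟩ := steps hw0 (x := a2 - t.re) (by linarith)
  generalize ⌊(t.re - a1) / v⌋₊ = i at i1 i2
  generalize ⌊(a2 - t.re) / v⌋₊ = i' at k1 k2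
  have hi0 : (0 : ℝ) ≤ i := Nat.cast_nonneg i
  have hi0' : (0 : ℝ) ≤ i' := Nat.cast_nonneg i'
  have hsum : ((i : ℝ) + i') * |w.im| ≤ c / 4 := by
    have e1 : ((i : ℝ) + i') * |w.im| ≤ ((i : ℝ) + i') * (c / 12 * v) := by gcongr
    have e2 : ((i : ℝ) + i') * (c / 12 * v) = c / 12 * (i * v + i' * v) := by ring
    have e3 : c / 12 * (i * v + i' * v) ≤ c / 12 * 3 :=
      mul_le_mul_of_nonneg_left (by linarith) (by linarith)
    linarith
  rcases lt_or_gt_of_ne (abs_pos.1 (hv ▸ hw0)) with hneg | hpos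
  · have hvr : w.re = -v := by rw [hv, abs_of_neg hneg]; ring
    refine sec_core hR hL hna hc hcρ hr1 hr1r Zb Za (j := i') (j' := i) ?_ ?_ ?_ h3 h4 h6a
    · rw [hgb, hvr, abs_lt]; constructor <;> linarith
    · rw [hga, hvr, abs_lt]; constructor <;> linarith
    · linarith
  · have hvr : w.re = v := by rw [hv, abs_of_pos hpos]
    refine sec_core hR hL hna hc hcρ hr1 hr1r Za Zb (j := i) (j' := i') ?_ ?_ hsum h3 h4 h6a
    · rw [hga, hvr, abs_lt]; constructor <;> linarith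
    · rw [hgb, hvr, abs_lt]; constructor <;> linarith

/-- **Case A, not algebraic** -/
theorem aMer (hG : GapS) (hR : RatCont) : AMer := by
  intro q η ρ r B b φ p m₀ θ H h0 hD hna hreg s hs
  obtain ⟨g, hg, c0, hc0, hreg⟩ := hreg
  have hL := hD.fam
  have hη := hD.le
  have hV := hD.ext
  have hρ := hL.ρ_pos
  have hρη := hL.ρ_lt
  have hh0 : 0 < h0 := by linarith
  have hRR : RegR h0 θ H g c0 := hreg
  -- the two regular points
  set n : ℤ := ⌊s.re - g.re⌋ with hn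
  have hn1 : (n : ℝ) ≤ s.re - g.re := Int.floor_le _
  have hn2 : s.re - g.re < n + 1 := Int.lt_floor_add_one _
  have hga : (g + ((n - 1 : ℤ) : ℂ)).re = g.re + n - 1 := by simp; ring
  have hgb : (g + ((n + 2 : ℤ) : ℂ)).re = g.re + n + 2 := by simp; ring
  obtain ⟨ca, ra, hca, hcaρ, hra, hrar, φa, pa, Za'⟩ := zone_of_reg hG hL hη hV
    (g := g + ((n - 1 : ℤ) : ℂ)) (by simp [hg]) hc0 (hRR.shift hL.dat hη hV (n - 1))
  obtain ⟨cb, rb, hcb, hcbρ, hrb, hrbr, φb, pb, Zb'⟩ := zone_of_reg hG hL hη hV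
    (g := g + ((n + 2 : ℤ) : ℂ)) (by simp [hg]) hc0 (hRR.shift hL.dat hη hV (n + 2))
  set c : ℝ := min ca cb with hc
  set r1 : ℝ := min ra rb with hr1
  have hc0' : 0 < c := lt_min hca hcb
  have hr10 : 0 < r1 := lt_min hra hrb
  have hcρ : c ≤ ρ := (min_le_left _ _).trans hcaρ
  have hr1r : r1 ≤ r := (min_le_left _ _).trans hrar
  have Za := Za'.mono (min_le_left ca cb) (min_le_left ra rb)
  have Zb := Zb'.mono (min_le_right ca cb) (min_le_right ra rb)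
  rw [← hc, ← hr1] at Za Zb
  -- the sector part
  have hsec : ∀ t w : ℂ, g.re + n - 1 < t.re → t.re < g.re + n + 2 → 0 < t.im →
      t.im < h0 + c / 2 → |w.im| < c / 12 * |w.re| → ‖w‖ < min (r1 / 2) (c / 4) →
      ∃ (e : ℝ) (E P : ℂ × ℂ → ℂ),
        VM ρ r (fun x => Complex.exp (Complex.I * φ x)) (t, w) e E ∧ VM ρ r p (t, w) e P := by
    intro t w h1 h2 h3 h4 h5 h6
    exact sec_all hR hL hna hc0' hcρ hr10 hr1r Za Zb hga hgb (by ring) h1 h2 h3 h4 h5 h6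
  have hexp : ∀ {f : ℂ × ℂ → ℂ} {x : ℂ × ℂ}, AnalyticAt ℂ f x →
      AnalyticAt ℂ (fun x => Complex.exp (Complex.I * f x)) x := fun {f x} hf =>
    (analyticAt_const.mul hf).cexp
  -- the two functions
  obtain ⟨E, hE, hE1⟩ := A388.a3_mero (f := vfun ρ r fun x => Complex.exp (Complex.I * φ x))
    (k := c / 12) (c := c / 2) (r := min (r1 / 2) (c / 4)) (H := 0) (h0 := h0)
    (g1 := g.re + n - 1) (g2 := g.re + n + 2) (by linarith) (by linarith)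
    (lt_min (by linarith) (by linarith)) (by linarith)
    (by
      intro t w h1 h2 h3 h4 h5 h6
      obtain ⟨e, E, P, hE, -⟩ := hsec t w h1 h2 (by linarith) h4 h5 h6
      exact vfun_mer hρ hE)
    (by
      intro ε hε
      obtain ⟨h', r', k1, k2, k3, k4, k5, φ', p', k6, k7, k8⟩ := low_ext hL hη hV hε
      refine ⟨r', k4, fun t w _ _ h3 h4 h5 => ?_⟩
      have hmem : ((t, w) : ℂ × ℂ) ∈ PD h' r' :=
        ⟨by show |t.im| < h'; rw [abs_lt]; constructor <;> linarith, h5⟩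
      exact (vfun_an hρ (low_VM (g' := fun x => Complex.exp (Complex.I * φ' x)) k3 k5
        (fun x hx => hexp (k6 x hx).1) (fun x hx => by rw [(k7 x hx).1])
        (by linarith) (by linarith) h5) (hexp (k6 _ hmem).1)).1)
    (t1 := s) (by linarith) (by linarith) hs
  obtain ⟨F, hF, hF1⟩ := A388.a3_mero (f := vfun ρ r p)
    (k := c / 12) (c := c / 2) (r := min (r1 / 2) (c / 4)) (H := 0) (h0 := h0)
    (g1 := g.re + n - 1) (g2 := g.re + n + 2) (by linarith) (by linarith)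
    (lt_min (by linarith) (by linarith)) (by linarith)
    (by
      intro t w h1 h2 h3 h4 h5 h6
      obtain ⟨e, E, P, -, hP⟩ := hsec t w h1 h2 (by linarith) h4 h5 h6
      exact vfun_mer hρ hP)
    (by
      intro ε hε
      obtain ⟨h', r', k1, k2, k3, k4, k5, φ', p', k6, k7, k8⟩ := low_ext hL hη hV hε
      refine ⟨r', k4, fun t w _ _ h3 h4 h5 => ?_⟩
      have hmem : ((t, w) : ℂ × ℂ) ∈ PD h' r' :=
        ⟨by show |t.im| < h'; rw [abs_lt]; constructor <;> linarith, h5⟩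
      exact (vfun_an hρ (low_VM (g' := p') k3 k5
        (fun x hx => (k6 x hx).2) (fun x hx => (k7 x hx).2)
        (by linarith) (by linarith) h5) (k6 _ hmem).2).1)
    (t1 := s) (by linarith) (by linarith) hs
  refine ⟨E, F, hE, hF, ?_⟩
  have hpos : ∀ᶠ z in 𝓝 s, 0 < z.im :=
    Complex.continuous_im.continuousAt.eventually (lt_mem_nhds (by rw [hs]; exact hh0))
  filter_upwards [hE1, hF1, hpos] with z hz1 hz2 hz3 hz4
  have hz5 : z.im < h0 := (le_abs_self _).trans_lt hz4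
  obtain ⟨h', r', k1, k2, k3, k4, k5, φ', p', k6, k7, k8⟩ :=
    low_ext hL hη hV (ε := (h0 - z.im) / 2) (by linarith)
  have hmem : ((z, 0) : ℂ × ℂ) ∈ PD h' r' :=
    ⟨by show |z.im| < h'; rw [abs_lt]; constructor <;> linarith, by simpa using k4⟩
  have hzS : z ∈ Str h' := hmem.1
  constructor
  · rw [hz1 hz5, (vfun_an hρ (low_VM (g' := fun x => Complex.exp (Complex.I * φ' x)) k3 k5
        (fun x hx => hexp (k6 x hx).1) (fun x hx => by rw [(k7 x hx).1])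
        hz3 (by linarith) (by simpa using k4)) (hexp (k6 _ hmem).1)).2]
    rw [(k8 z hzS).1]
  · rw [hz2 hz5, (vfun_an hρ (low_VM (g' := p') k3 k5
        (fun x hx => (k6 x hx).2) (fun x hx => (k7 x hx).2)
        hz3 (by linarith) (by simpa using k4)) (k6 _ hmem).2).2]
    exact (k8 z hzS).2

end Crest.Agent.R102.AMer88
end
end

-- ▼ part R102/AMerF_88

/-!
Row 102, part (C) (helper88): `aMerF : RatCont → AMer` (GapS discharged by helper821's `gapS`).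
-/

set_option autoImplicit false

namespace Crest.Agent.R102.AMer88

open Crest.Agent.R102.Spine Crest.Agent.R102.C1

theorem aMerF (hR : RatCont) : AMer := aMer gapS hR

end Crest.Agent.R102.AMer88
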