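import Mathlib
import Crest.Agent.R102.StepE_599
import Crest.Agent.R266.Osgood

-- ▼ part R102/AP3_599
section

/-!
Row 102, T1-E, (AP3): the fourth order coefficient of the label step:
`(st z e - e) / e⁴ → K' t / 15 - y t y' t / 4` as `(z, e) → (t, 0)`, `e ≠ 0`, jointly,
and its consequence for the leaf function.
-/

set_option autoImplicit false
open Complex Metric Set Filter Topology Asymptotics

noncomputable section
namespace Crest.Agent.R102.StepE599

/-! ### joint Taylor expansion -/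

lemma int_o {F F' : ℂ → ℂ → ℂ} {n : ℕ} {t : ℂ}
    (h0 : ∀ z, F z 0 = 0) (hd : ∀ z e, HasDerivAt (F z) (F' z e) e)
    (ho : (fun p : ℂ × ℂ => F' p.1 p.2) =o[𝓝 ((t, 0) : ℂ × ℂ)] fun p => p.2 ^ n) :
    (fun p : ℂ × ℂ => F p.1 p.2) =o[𝓝 ((t, 0) : ℂ × ℂ)] fun p => p.2 ^ (n + 1) := by
  rw [isLittleO_iff] at ho ⊢
  intro c hc
  obtain ⟨δ, hδ, hb⟩ := Metric.eventually_nhds_iff_ball.1 (ho hc)
  filter_upwards [Metric.ball_mem_nhds ((t, 0) : ℂ × ℂ) hδ] with p hp
  rw [← ball_prod_same] at hp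
  obtain ⟨hp1, hp2⟩ := hp
  have hp2' : ‖p.2‖ < δ := by simpa using hp2
  have := (convex_closedBall (0:ℂ) ‖p.2‖).norm_image_sub_le_of_norm_hasDerivWithin_le
    (f := F p.1) (f' := F' p.1) (C := c * ‖p.2‖ ^ n)
    (fun x _ => (hd p.1 x).hasDerivWithinAt)
    (fun x hx => by
      have hx' : ‖x‖ ≤ ‖p.2‖ := by simpa using hx
      have h1 : ((p.1, x) : ℂ × ℂ) ∈ ball ((t, 0) : ℂ × ℂ) δ := by
        rw [← ball_prod_same]
        exact ⟨hp1, by simpa using lt_of_le_of_lt hx' hp2'⟩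
      have h2 := hb _ h1
      simp only [norm_pow] at h2
      refine h2.trans ?_
      exact mul_le_mul_of_nonneg_left (pow_le_pow_left₀ (norm_nonneg _) hx' n) hc.le)
    (x := 0) (y := p.2) (by simp) (by simp)
  rw [h0, sub_zero, sub_zero] at this
  rw [norm_pow, pow_succ]
  calc _ ≤ _ := this
    _ = _ := by ring

theorem taylor_joint (n : ℕ) : ∀ (f : ℕ → ℂ → ℂ → ℂ) (t : ℂ)
    (_ : ∀ k < n, ∀ z e, HasDerivAt (f k z) (f (k + 1) z e) e)
    (_ : ContinuousAt (fun p : ℂ × ℂ => f n p.1 p.2) (t, 0)),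
    (fun p : ℂ × ℂ => f 0 p.1 p.2 - ∑ k ∈ Finset.range n, f k p.1 0 / (k.factorial : ℂ) * p.2 ^ k
      - f n t 0 / (n.factorial : ℂ) * p.2 ^ n) =o[𝓝 ((t, 0) : ℂ × ℂ)] fun p : ℂ × ℂ => p.2 ^ n := by
  induction n with
  | zero =>
    intro f t _ hc
    simp only [Finset.range_zero, Finset.sum_empty, sub_zero, Nat.factorial_zero, Nat.cast_one,
      div_one, pow_zero, mul_one]
    rw [isLittleO_one_iff]
    have := hc.tendsto.sub_const (f 0 t 0)
    simpa using this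
  | succ n ih =>
    intro f t hd hc
    have h1 := ih (fun k => f (k + 1)) t (fun k hk => hd (k + 1) (by omega)) hc
    refine int_o (F := fun z e => f 0 z e - ∑ k ∈ Finset.range (n + 1),
      f k z 0 / (k.factorial : ℂ) * e ^ k - f (n + 1) t 0 / ((n + 1).factorial : ℂ) * e ^ (n + 1))
      (F' := fun z e => f 1 z e - ∑ k ∈ Finset.range n, f (k + 1) z 0 / (k.factorial : ℂ) * e ^ k
      - f (n + 1) t 0 / (n.factorial : ℂ) * e ^ n) ?_ ?_ h1
    · intro z
      rw [Finset.sum_range_succ']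
      simp
    · intro z e
      have key : ∀ (k : ℕ) (a : ℂ), HasDerivAt (fun e : ℂ => a / ((k + 1).factorial : ℂ) * e ^ (k + 1))
          (a / (k.factorial : ℂ) * e ^ k) e := by
        intro k a
        have h2 := ((hasDerivAt_pow (k + 1) e).const_mul (a / ((k + 1).factorial : ℂ)))
        refine h2.congr_deriv ?_
        rw [Nat.factorial_succ]
        have h3 : ((k : ℂ) + 1) ≠ 0 := Nat.cast_add_one_ne_zero k
        have h4 : ((k.factorial : ℕ) : ℂ) ≠ 0 := by exact_mod_cast Nat.factorial_ne_zero k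
        push_cast
        field_simp
      have h5 : HasDerivAt (fun e : ℂ => ∑ k ∈ Finset.range (n + 1),
          f k z 0 / (k.factorial : ℂ) * e ^ k)
          (∑ k ∈ Finset.range n, f (k + 1) z 0 / (k.factorial : ℂ) * e ^ k) e := by
        have h6 : (fun e : ℂ => ∑ k ∈ Finset.range (n + 1), f k z 0 / (k.factorial : ℂ) * e ^ k)
            = fun e : ℂ => (∑ k ∈ Finset.range n,
              f (k + 1) z 0 / ((k + 1).factorial : ℂ) * e ^ (k + 1)) + f 0 z 0 := by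
          ext e
          rw [Finset.sum_range_succ']
          simp
        rw [h6]
        refine HasDerivAt.add_const _ ?_
        exact HasDerivAt.fun_sum fun k _ => key k (f (k + 1) z 0)
      exact ((hd 0 (by omega) z e).sub h5).sub (key n (f (n + 1) t 0))

/-! ### the derivatives of `u`, `v` -/

/-- `g = K - 2 y²` -/
def gK (θ K : ℂ → ℂ) (s : ℂ) : ℂ := K s - 2 * (deriv θ s) ^ 2

section
variable {θ H K : ℂ → ℂ}

def u2 (θ H K : ℂ → ℂ) (z e : ℂ) : ℂ :=
  gK θ K (z + e) * u θ H z e - deriv θ z * sin (chi θ z e)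

def u3 (θ H K : ℂ → ℂ) (z e : ℂ) : ℂ :=
  deriv (gK θ K) (z + e) * u θ H z e + gK θ K (z + e) * u1 θ H z e
    - deriv θ z * (cos (chi θ z e) * deriv θ (z + e))

def u4 (θ H K : ℂ → ℂ) (z e : ℂ) : ℂ :=
  deriv (deriv (gK θ K)) (z + e) * u θ H z e + 2 * deriv (gK θ K) (z + e) * u1 θ H z e
    + gK θ K (z + e) * u2 θ H K z e
    - deriv θ z * (-sin (chi θ z e) * (deriv θ (z + e)) ^ 2
      + cos (chi θ z e) * deriv (deriv θ) (z + e))

def v2 (θ H K : ℂ → ℂ) (z e : ℂ) : ℂ :=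
  gK θ K (z + e) * v θ H z e + cos (chi θ z e)

def v3 (θ H K : ℂ → ℂ) (z e : ℂ) : ℂ :=
  deriv (gK θ K) (z + e) * v θ H z e + gK θ K (z + e) * v1 θ H z e
    - sin (chi θ z e) * deriv θ (z + e)

def v4 (θ H K : ℂ → ℂ) (z e : ℂ) : ℂ :=
  deriv (deriv (gK θ K)) (z + e) * v θ H z e + 2 * deriv (gK θ K) (z + e) * v1 θ H z e
    + gK θ K (z + e) * v2 θ H K z e
    - cos (chi θ z e) * (deriv θ (z + e)) ^ 2 - sin (chi θ z e) * deriv (deriv θ) (z + e)

def v5 (θ H K : ℂ → ℂ) (z e : ℂ) : ℂ :=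
  deriv (deriv (deriv (gK θ K))) (z + e) * v θ H z e
    + 3 * deriv (deriv (gK θ K)) (z + e) * v1 θ H z e
    + 3 * deriv (gK θ K) (z + e) * v2 θ H K z e
    + gK θ K (z + e) * v3 θ H K z e
    + sin (chi θ z e) * (deriv θ (z + e)) ^ 3
    - 3 * cos (chi θ z e) * deriv θ (z + e) * deriv (deriv θ) (z + e)
    - sin (chi θ z e) * deriv (deriv (deriv θ)) (z + e)

variable (h : Ent θ H K)
include h

lemma Ent.dg : Differentiable ℂ (gK θ K) := by
  have := h.dK; have := h.dθ1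
  unfold gK
  fun_prop

lemma Ent.dg1 : Differentiable ℂ (deriv (gK θ K)) :=
  fun z => (h.dg.analyticAt z).deriv.differentiableAt
lemma Ent.dg2 : Differentiable ℂ (deriv (deriv (gK θ K))) :=
  fun z => (h.dg.analyticAt z).deriv.deriv.differentiableAt
lemma Ent.dg3 : Differentiable ℂ (deriv (deriv (deriv (gK θ K)))) :=
  fun z => (h.dg.analyticAt z).deriv.deriv.deriv.differentiableAt

lemma Ent.deriv_g (z : ℂ) :
    deriv (gK θ K) z = deriv K z - 4 * deriv θ z * deriv (deriv θ) z := by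
  have h1 : HasDerivAt (gK θ K) (deriv K z - 2 * ((2 : ℕ) * (deriv θ z) ^ (2 - 1)
      * deriv (deriv θ) z)) z := by
    exact (h.dK z).hasDerivAt.sub ((((h.dθ1 z).hasDerivAt).pow 2).const_mul 2)
  rw [h1.deriv]
  push_cast
  ring

lemma Ent.u_d1 (z e : ℂ) : HasDerivAt (u1 θ H z) (u2 θ H K z e) e := h.u1_deriv z e
lemma Ent.v_d1 (z e : ℂ) : HasDerivAt (v1 θ H z) (v2 θ H K z e) e := h.v1_deriv z e

lemma Ent.u_d2 (z e : ℂ) : HasDerivAt (u2 θ H K z) (u3 θ H K z e) e := by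
  have hc := h.chi_deriv z e
  have hg := (h.dg (z + e)).hasDerivAt.comp_const_add z e
  have := (hg.mul (h.u_deriv z e)).sub (hc.csin.const_mul (deriv θ z))
  refine this.congr_deriv ?_
  unfold u3
  ring

lemma Ent.u_d3 (z e : ℂ) : HasDerivAt (u3 θ H K z) (u4 θ H K z e) e := by
  have hc := h.chi_deriv z e
  have hg := (h.dg (z + e)).hasDerivAt.comp_const_add z e
  have hg1 := (h.dg1 (z + e)).hasDerivAt.comp_const_add z e
  have ht1 := ((h.dθ1 (z + e)).hasDerivAt.comp_const_add z e)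
  have := ((hg1.mul (h.u_deriv z e)).add (hg.mul (h.u_d1 z e))).sub
    ((hc.ccos.mul ht1).const_mul (deriv θ z))
  refine this.congr_deriv ?_
  unfold u4
  ring

lemma Ent.v_d2 (z e : ℂ) : HasDerivAt (v2 θ H K z) (v3 θ H K z e) e := by
  have hc := h.chi_deriv z e
  have hg := (h.dg (z + e)).hasDerivAt.comp_const_add z e
  have := (hg.mul (h.v_deriv z e)).add hc.ccos
  refine this.congr_deriv ?_
  unfold v3
  ring

lemma Ent.v_d3 (z e : ℂ) : HasDerivAt (v3 θ H K z) (v4 θ H K z e) e := by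
  have hc := h.chi_deriv z e
  have hg := (h.dg (z + e)).hasDerivAt.comp_const_add z e
  have hg1 := (h.dg1 (z + e)).hasDerivAt.comp_const_add z e
  have ht1 := ((h.dθ1 (z + e)).hasDerivAt.comp_const_add z e)
  have := ((hg1.mul (h.v_deriv z e)).add (hg.mul (h.v_d1 z e))).sub (hc.csin.mul ht1)
  refine this.congr_deriv ?_
  unfold v4
  ring

lemma Ent.v_d4 (z e : ℂ) : HasDerivAt (v4 θ H K z) (v5 θ H K z e) e := by
  have hc := h.chi_deriv z e
  have hg := (h.dg (z + e)).hasDerivAt.comp_const_add z e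
  have hg1 := (h.dg1 (z + e)).hasDerivAt.comp_const_add z e
  have hg2 := (h.dg2 (z + e)).hasDerivAt.comp_const_add z e
  have ht1 := ((h.dθ1 (z + e)).hasDerivAt.comp_const_add z e)
  have ht2 := ((h.dθ2 (z + e)).hasDerivAt.comp_const_add z e)
  have := ((((hg2.mul (h.v_deriv z e)).add ((hg1.const_mul 2).mul (h.v_d1 z e))).add
    (hg.mul (h.v_d2 z e))).sub (hc.ccos.mul (ht1.pow 2))).sub (hc.csin.mul ht2)
  refine this.congr_deriv ?_
  unfold v5
  simp only [Pi.pow_apply]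
  push_cast
  ring

/-! values at `e = 0` -/

omit h in
lemma u2_zero (z : ℂ) : u2 θ H K z 0 = 0 := by
  simp [u2, u_zero, chi_zero]

lemma Ent.u3_zero (z : ℂ) : u3 θ H K z 0 = gK θ K z - (deriv θ z) ^ 2 := by
  simp only [u3, u_zero, chi_zero, h.u1_zero, cos_zero, add_zero]
  ring

lemma Ent.u4_zero (z : ℂ) :
    u4 θ H K z 0 = 2 * deriv (gK θ K) z - deriv θ z * deriv (deriv θ) z := by
  simp only [u4, u_zero, u2_zero, chi_zero, h.u1_zero, cos_zero, sin_zero, add_zero]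
  ring

omit h in
lemma v2_zero (z : ℂ) : v2 θ H K z 0 = 1 := by
  simp [v2, v_zero, chi_zero]

omit h in
lemma v3_zero (z : ℂ) : v3 θ H K z 0 = 0 := by
  simp [v3, v_zero, v1_zero, chi_zero]

omit h in
lemma v4_zero (z : ℂ) : v4 θ H K z 0 = gK θ K z - (deriv θ z) ^ 2 := by
  simp [v4, v_zero, v1_zero, v2_zero, chi_zero]

omit h in
lemma v5_zero (z : ℂ) :
    v5 θ H K z 0 = 3 * deriv (gK θ K) z - 3 * deriv θ z * deriv (deriv θ) z := by
  simp [v5, v_zero, v1_zero, v2_zero, v3_zero, chi_zero]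

lemma Ent.u_cont : Continuous (fun p : ℂ × ℂ => u θ H p.1 p.2) := (u_contDiff h).continuous
lemma Ent.v_cont : Continuous (fun p : ℂ × ℂ => v θ H p.1 p.2) := (v_contDiff h).continuous
lemma Ent.chi_cont : Continuous (fun p : ℂ × ℂ => chi θ p.1 p.2) := by
  have := h.dθ.continuous
  unfold chi
  fun_prop

lemma Ent.u4_cont : Continuous (fun p : ℂ × ℂ => u4 θ H K p.1 p.2) := by
  have a0 := h.dθ.continuous
  have a1 := h.dθ1.continuous
  have a2 := h.dθ2.continuous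
  have b0 := h.dH.continuous
  have b1 := h.dH1.continuous
  have b2 := h.dH2.continuous
  have g0 := h.dg.continuous
  have g1 := h.dg1.continuous
  have g2 := h.dg2.continuous
  have c0 := h.u_cont
  have c2 := h.chi_cont
  unfold u4 u2 u1
  fun_prop

lemma Ent.v5_cont : Continuous (fun p : ℂ × ℂ => v5 θ H K p.1 p.2) := by
  have a0 := h.dθ.continuous
  have a1 := h.dθ1.continuous
  have a2 := h.dθ2.continuous
  have a3 := h.dθ3.continuous
  have b0 := h.dH.continuous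
  have b1 := h.dH1.continuous
  have b2 := h.dH2.continuous
  have g0 := h.dg.continuous
  have g1 := h.dg1.continuous
  have g2 := h.dg2.continuous
  have g3 := h.dg3.continuous
  have c0 := h.v_cont
  have c2 := h.chi_cont
  unfold v5 v3 v2 v1
  fun_prop

end

/-! ### limits -/

/-- `(z, e) → (t, 0)`, `e ≠ 0` -/
def nl (t : ℂ) : Filter (ℂ × ℂ) := 𝓝[{p : ℂ × ℂ | p.2 ≠ 0}] (t, 0)

lemma tendsto_of_o {F : ℂ × ℂ → ℂ} {t c : ℂ} {n : ℕ}
    (h : (fun p => F p - c * p.2 ^ n) =o[𝓝 ((t, 0) : ℂ × ℂ)] fun p : ℂ × ℂ => p.2 ^ n) :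
    Tendsto (fun p => F p / p.2 ^ n) (nl t) (𝓝 c) := by
  have h1 := (h.tendsto_div_nhds_zero.mono_left
    (nhdsWithin_le_nhds (s := {p : ℂ × ℂ | p.2 ≠ 0}))).add_const c
  rw [zero_add] at h1
  refine h1.congr' ?_
  filter_upwards [self_mem_nhdsWithin] with p hp
  have hp' : p.2 ≠ 0 := hp
  field_simp
  ring

lemma neg_tendsto (t : ℂ) :
    Tendsto (fun p : ℂ × ℂ => ((p.1, -p.2) : ℂ × ℂ)) (𝓝 (t, 0)) (𝓝 (t, 0)) := by
  have : ContinuousAt (fun p : ℂ × ℂ => ((p.1, -p.2) : ℂ × ℂ)) (t, 0) := by fun_prop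
  have h2 := this.tendsto
  simpa using h2

section
variable {θ H K : ℂ → ℂ} (h : Ent θ H K) (t : ℂ)
include h

lemma u_even_o : (fun p : ℂ × ℂ => (u θ H p.1 p.2 + u θ H p.1 (-p.2))
    - (2 * deriv (gK θ K) t - deriv θ t * deriv (deriv θ) t) / 12 * p.2 ^ 4)
    =o[𝓝 ((t, 0) : ℂ × ℂ)] fun p : ℂ × ℂ => p.2 ^ 4 := by
  have h1 := taylor_joint 4 (fun k => match k with
    | 0 => u θ H
    | 1 => u1 θ H
    | 2 => u2 θ H K
    | 3 => u3 θ H K
    | _ => u4 θ H K) t
    (by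
      intro k hk z e
      interval_cases k
      · exact h.u_deriv z e
      · exact h.u_d1 z e
      · exact h.u_d2 z e
      · exact h.u_d3 z e)
    h.u4_cont.continuousAt
  have h2 := h1.comp_tendsto (neg_tendsto t)
  have h3 : ((fun p : ℂ × ℂ => p.2 ^ 4) ∘ fun p : ℂ × ℂ => ((p.1, -p.2) : ℂ × ℂ))
      = fun p : ℂ × ℂ => p.2 ^ 4 := by
    ext p
    simp only [Function.comp_apply]
    ring
  rw [h3] at h2
  refine (h1.add h2).congr_left ?_
  intro p
  simp only [Function.comp_apply, Finset.sum_range_succ, Finset.range_zero, Finset.sum_empty,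
    Nat.factorial, u_zero, h.u1_zero, u2_zero, h.u3_zero, h.u4_zero]
  push_cast
  ring

lemma v_odd_o : (fun p : ℂ × ℂ => (v θ H p.1 p.2 - v θ H p.1 (-p.2))
    - (deriv (gK θ K) t - deriv θ t * deriv (deriv θ) t) / 20 * p.2 ^ 5)
    =o[𝓝 ((t, 0) : ℂ × ℂ)] fun p : ℂ × ℂ => p.2 ^ 5 := by
  have h1 := taylor_joint 5 (fun k => match k with
    | 0 => v θ H
    | 1 => v1 θ H
    | 2 => v2 θ H K
    | 3 => v3 θ H K
    | 4 => v4 θ H K
    | _ => v5 θ H K) t
    (by
      intro k hk z e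
      interval_cases k
      · exact h.v_deriv z e
      · exact h.v_d1 z e
      · exact h.v_d2 z e
      · exact h.v_d3 z e
      · exact h.v_d4 z e)
    h.v5_cont.continuousAt
  have h2 := h1.comp_tendsto (neg_tendsto t)
  have h3 : ((fun p : ℂ × ℂ => p.2 ^ 5) ∘ fun p : ℂ × ℂ => ((p.1, -p.2) : ℂ × ℂ))
      = fun p : ℂ × ℂ => -(p.2 ^ 5) := by
    ext p
    simp only [Function.comp_apply]
    ring
  rw [h3, isLittleO_neg_right] at h2
  refine (h1.sub h2).congr_left ?_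
  intro p
  simp only [Function.comp_apply, Finset.sum_range_succ, Finset.range_zero, Finset.sum_empty,
    Nat.factorial, v_zero, v1_zero, v2_zero, v3_zero, v4_zero, v5_zero]
  push_cast
  ring

lemma u_o : Tendsto (fun p : ℂ × ℂ => u θ H p.1 p.2 / p.2) (nl t) (𝓝 1) := by
  have h1 := taylor_joint 1 (fun k => match k with
    | 0 => u θ H
    | _ => u1 θ H) t
    (by
      intro k hk z e
      interval_cases k
      exact h.u_deriv z e)
    (by
      have b1 := h.dH1.continuous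
      have b2 := h.dH2.continuous
      have b0 := h.dH.continuous
      have a0 := h.dθ.continuous
      have a1 := h.dθ1.continuous
      have a2 := h.dθ2.continuous
      have c2 := h.chi_cont
      have : Continuous (fun p : ℂ × ℂ => u1 θ H p.1 p.2) := by
        unfold u1
        fun_prop
      exact this.continuousAt)
  have h2 : Tendsto (fun p : ℂ × ℂ => u θ H p.1 p.2 / p.2 ^ 1) (nl t) (𝓝 1) := by
    refine tendsto_of_o (h1.congr_left ?_)
    intro p
    simp [u_zero, h.u1_zero]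
  simpa using h2

lemma v_o : Tendsto (fun p : ℂ × ℂ => v θ H p.1 p.2 / p.2 ^ 2) (nl t) (𝓝 (1 / 2)) := by
  have h1 := taylor_joint 2 (fun k => match k with
    | 0 => v θ H
    | 1 => v1 θ H
    | _ => v2 θ H K) t
    (by
      intro k hk z e
      interval_cases k
      · exact h.v_deriv z e
      · exact h.v_d1 z e)
    (by
      have g0 := h.dg.continuous
      have c0 := h.v_cont
      have c2 := h.chi_cont
      have : Continuous (fun p : ℂ × ℂ => v2 θ H K p.1 p.2) := by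
        unfold v2
        fun_prop
      exact this.continuousAt)
  refine tendsto_of_o (h1.congr_left ?_)
  intro p
  simp [v_zero, v1_zero, v2_zero, Finset.sum_range_succ]

omit h in
lemma neg_tendsto' (t : ℂ) :
    Tendsto (fun p : ℂ × ℂ => ((p.1, -p.2) : ℂ × ℂ)) (nl t) (nl t) := by
  refine tendsto_nhdsWithin_iff.mpr ⟨(neg_tendsto t).mono_left nhdsWithin_le_nhds, ?_⟩
  filter_upwards [self_mem_nhdsWithin] with p hp
  exact neg_ne_zero.mpr hp

omit h in
lemma nl_ne (t : ℂ) : ∀ᶠ p in nl t, p.2 ≠ 0 := self_mem_nhdsWithin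

/-- oddness defect of `R` -/
theorem R_even_lim : Tendsto (fun p : ℂ × ℂ => (R θ H p.1 p.2 + R θ H p.1 (-p.2)) / p.2 ^ 4) (nl t)
    (𝓝 (deriv θ t * deriv (deriv θ) t / 8 - deriv K t / 30)) := by
  have a1 := tendsto_of_o (u_even_o h t)
  have a2 := tendsto_of_o (v_odd_o h t)
  have a3 := u_o h t
  have a4 := v_o h t
  have a5 := a3.comp (neg_tendsto' t)
  have e1 := a3.eventually_ne one_ne_zero
  have e2 := a5.eventually_ne one_ne_zero
  have a6 := ((a4.mul a1).sub (a2.mul a3)).div (a3.mul a5.neg) (by norm_num)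
  have e3 : ((1 / 2 : ℂ) * ((2 * deriv (gK θ K) t - deriv θ t * deriv (deriv θ) t) / 12)
      - (deriv (gK θ K) t - deriv θ t * deriv (deriv θ) t) / 20 * 1) / (1 * -1)
      = deriv θ t * deriv (deriv θ) t / 8 - deriv K t / 30 := by
    rw [h.deriv_g]
    ring
  rw [e3] at a6
  refine a6.congr' ?_
  filter_upwards [e1, e2, nl_ne t] with p h1 h2 h3
  have hu : u θ H p.1 p.2 ≠ 0 := fun h0 => h1 (by rw [h0, zero_div])
  have hu' : u θ H p.1 (-p.2) ≠ 0 := fun h0 => h2 (by simp only [Function.comp_apply]; rw [h0, zero_div])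
  simp only [Function.comp_apply, Pi.div_apply]
  unfold R
  field_simp
  ring

end

/-! ### the step -/

section
variable {θ H K : ℂ → ℂ}

lemma Ent.exists_good (h : Ent θ H K) (t : ℂ) : ∃ ρ, Good θ K t ρ := by
  have hc1 : Continuous fun s => ‖deriv θ s‖ := h.dθ1.continuous.norm
  have hc2 : Continuous fun s => ‖K s‖ := h.dK.continuous.norm
  obtain ⟨M1, hM1⟩ := (isCompact_closedBall t 1).exists_bound_of_continuousOn (f := deriv θ)
    h.dθ1.continuous.continuousOn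
  obtain ⟨M2, hM2⟩ := (isCompact_closedBall t 1).exists_bound_of_continuousOn (f := K)
    h.dK.continuous.continuousOn
  have ht : t ∈ closedBall t 1 := mem_closedBall_self (by norm_num)
  have m1 : 0 ≤ M1 := (norm_nonneg _).trans (hM1 t ht)
  have m2 : 0 ≤ M2 := (norm_nonneg _).trans (hM2 t ht)
  set M := M1 + M2 + 1 with hM
  have hM0 : 1 ≤ M := by linarith
  refine ⟨1 / (200 * M), by positivity, ?_, ?_⟩
  · intro s hs
    have hs' : s ∈ closedBall t 1 := by
      rw [mem_closedBall, dist_eq_norm]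
      refine hs.trans ?_
      rw [div_le_one (by positivity)]
      linarith
    have h1 := hM1 s hs'
    rw [mul_one_div, div_le_div_iff₀ (by positivity) (by norm_num)]
    nlinarith
  · intro s hs
    have hs' : s ∈ closedBall t 1 := by
      rw [mem_closedBall, dist_eq_norm]
      refine hs.trans ?_
      rw [div_le_one (by positivity)]
      linarith
    have h1 := hM2 s hs'
    have h2 : (1 / (200 * M)) ^ 2 ≤ 1 / (200 * M) := by
      have h3 : 1 / (200 * M) ≤ 1 := by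
        rw [div_le_one (by positivity)]
        linarith
      have h4 : 0 ≤ 1 / (200 * M) := by positivity
      nlinarith
    refine (mul_le_mul h1 h2 (by positivity) m2).trans ?_
    rw [mul_one_div, div_le_div_iff₀ (by positivity) (by norm_num)]
    nlinarith

variable {z : ℂ} {ρ : ℝ}

lemma R_lip2 (h : Ent θ H K) (g : Good θ K z ρ) {r : ℝ} (hr : 0 < r) (hr2 : 2 * r ≤ ρ) {s t : ℂ}
    (hs : ‖s‖ ≤ r) (ht : ‖t‖ ≤ r) :
    ‖(R θ H z s - R θ H z t) - (s - t) / 2‖ ≤ r ^ 2 / ρ ^ 2 * ‖s - t‖ := by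
  have hp := g.pos
  have key : ∀ x ∈ closedBall (0 : ℂ) r, HasDerivWithinAt (fun x => R θ H z x - x / 2)
      (deriv (fun x => R θ H z x - x / 2) x) (closedBall (0 : ℂ) r) x ∧
      ‖deriv (fun x => R θ H z x - x / 2) x‖ ≤ r ^ 2 / ρ ^ 2 := by
    intro x hx
    have hx' : ‖x‖ ≤ r := by simpa using hx
    have hd : ∀ y, ‖y‖ ≤ ρ → DifferentiableAt ℂ (fun x => R θ H z x - x / 2) y := by
      intro y hy
      obtain ⟨d, hd, -⟩ := R_deriv h g hy
      exact hd.differentiableAt.sub (by fun_prop)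
    refine ⟨(hd x (by linarith)).hasDerivAt.hasDerivWithinAt, ?_⟩
    have hcl : ∀ y ∈ closedBall x r, ‖y‖ ≤ 2 * r := by
      intro y hy
      rw [mem_closedBall, dist_eq_norm] at hy
      have := norm_add_le (y - x) x
      rw [sub_add_cancel] at this
      linarith
    have := Complex.norm_deriv_le_of_forall_mem_sphere_norm_le (c := x) (R := r) (C := r ^ 3 / ρ ^ 2)
      (f := fun x => R θ H z x - x / 2) hr
      (by
        refine DifferentiableOn.diffContOnCl ?_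
        rw [closure_ball x hr.ne']
        intro y hy
        exact (hd y ((hcl y hy).trans hr2)).differentiableWithinAt)
      (by
        intro y hy
        have h1 := hcl y (sphere_subset_closedBall hy)
        have h2 := R_near h g (s := y) (by linarith)
        refine h2.trans ?_
        have h3 : ‖y‖ ^ 3 ≤ (2 * r) ^ 3 := pow_le_pow_left₀ (norm_nonneg _) h1 3
        rw [mul_div_assoc', div_le_div_iff_of_pos_right (by positivity)]
        nlinarith [pow_pos hr 3])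
    refine this.trans (le_of_eq ?_)
    field_simp
  have := (convex_closedBall (0 : ℂ) r).norm_image_sub_le_of_norm_hasDerivWithin_le
      (f := fun x => R θ H z x - x / 2) (C := r ^ 2 / ρ ^ 2)
      (fun x hx => (key x hx).1) (fun x hx => (key x hx).2)
      (x := t) (y := s) (by simpa using ht) (by simpa using hs)
  have e : (R θ H z s - R θ H z t) - (s - t) / 2
      = (R θ H z s - s / 2) - (R θ H z t - t / 2) := by ring
  rw [e]
  exact this

/-- **the fourth order coefficient of the step** -/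
theorem st_lim (h : Ent θ H K) (t : ℂ) :
    Tendsto (fun p : ℂ × ℂ => (st θ H p.1 p.2 - p.2) / p.2 ^ 4) (nl t)
      (𝓝 (deriv K t / 15 - deriv θ t * deriv (deriv θ) t / 4)) := by
  obtain ⟨ρ, g⟩ := h.exists_good t
  have hp := g.pos
  have hQ := R_even_lim h t
  -- error term
  have ev : ∀ᶠ p in nl t, ‖(st θ H p.1 p.2 - p.2) / p.2 ^ 4
      - (-2) * ((R θ H p.1 p.2 + R θ H p.1 (-p.2)) / p.2 ^ 4)‖
      ≤ 45 / ρ ^ 2 * ‖p.2‖ ^ 2 * ‖(R θ H p.1 p.2 + R θ H p.1 (-p.2)) / p.2 ^ 4‖ := by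
    have c1 : ∀ᶠ p : ℂ × ℂ in nl t, ‖p.1 - t‖ < ρ / 2 := by
      have : ContinuousAt (fun p : ℂ × ℂ => ‖p.1 - t‖) (t, 0) := by fun_prop
      exact (this.eventually_lt continuousAt_const (by simpa using hp)).filter_mono
        nhdsWithin_le_nhds
    have c2 : ∀ᶠ p : ℂ × ℂ in nl t, ‖p.2‖ < ρ / 8 := by
      have : ContinuousAt (fun p : ℂ × ℂ => ‖p.2‖) (t, 0) := by fun_prop
      exact (this.eventually_lt continuousAt_const (by simpa using hp)).filter_mono
        nhdsWithin_le_nhds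
    filter_upwards [c1, c2, nl_ne t] with p h1 h2 h3
    have g' : Good θ K p.1 (ρ / 2) := g.mono (by linarith) (by linarith)
    set z := p.1
    set e := p.2
    have he0 : 0 < ‖e‖ := norm_pos_iff.mpr h3
    have s1 := st_spec h g' (e := e) (by linarith)
    have s2 := st_le h g' (e := e) (by linarith)
    set s := st θ H z e
    set Q := R θ H z e + R θ H z (-e) with hQd
    have s3 : R θ H z s - R θ H z e = -Q := by rw [s1.2, hQd]; ring
    have s4 := R_expand h g' (s := s) (t := e) (by linarith) (by linarith)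
    rw [s3, norm_neg] at s4
    have s5 := R_lip2 h g' (r := 3 / 2 * ‖e‖) (by positivity) (by linarith) (s := s) (t := e)
      s2 (by linarith)
    rw [s3] at s5
    have s6 : ‖(s - e) - (-2) * Q‖ ≤ 45 / ρ ^ 2 * ‖e‖ ^ 2 * ‖Q‖ := by
      have e1 : (s - e) - (-2) * Q = (-2) * (-Q - (s - e) / 2) := by ring
      rw [e1, norm_mul, norm_neg, Complex.norm_ofNat]
      have e2 : (3 / 2 * ‖e‖) ^ 2 / (ρ / 2) ^ 2 = 9 / ρ ^ 2 * ‖e‖ ^ 2 := by
        field_simp
        ring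
      rw [e2] at s5
      have e3 : 9 / ρ ^ 2 * ‖e‖ ^ 2 * ‖s - e‖ ≤ 9 / ρ ^ 2 * ‖e‖ ^ 2 * (5 / 2 * ‖Q‖) :=
        mul_le_mul_of_nonneg_left (by linarith) (by positivity)
      calc 2 * ‖-Q - (s - e) / 2‖ ≤ 2 * (9 / ρ ^ 2 * ‖e‖ ^ 2 * (5 / 2 * ‖Q‖)) := by linarith
        _ = 45 / ρ ^ 2 * ‖e‖ ^ 2 * ‖Q‖ := by ring
    have e4 : (s - e) / e ^ 4 - (-2) * (Q / e ^ 4) = ((s - e) - (-2) * Q) / e ^ 4 := by ring
    rw [e4, norm_div, norm_div]
    have h4 : 0 < ‖e ^ 4‖ := norm_pos_iff.mpr (pow_ne_zero 4 h3)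
    rw [div_le_iff₀ h4]
    refine s6.trans (le_of_eq ?_)
    field_simp
  have z1 : Tendsto (fun p : ℂ × ℂ => 45 / ρ ^ 2 * ‖p.2‖ ^ 2
      * ‖(R θ H p.1 p.2 + R θ H p.1 (-p.2)) / p.2 ^ 4‖) (nl t) (𝓝 0) := by
    have z2 : Tendsto (fun p : ℂ × ℂ => 45 / ρ ^ 2 * ‖p.2‖ ^ 2) (nl t) (𝓝 0) := by
      have : ContinuousAt (fun p : ℂ × ℂ => 45 / ρ ^ 2 * ‖p.2‖ ^ 2) (t, 0) := by fun_prop
      have h2 : Tendsto (fun p : ℂ × ℂ => 45 / ρ ^ 2 * ‖p.2‖ ^ 2) (𝓝 (t, 0)) (𝓝 0) := by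
        simpa using this.tendsto
      exact h2.mono_left nhdsWithin_le_nhds
    have := z2.mul hQ.norm
    rwa [zero_mul] at this
  have z3 : Tendsto (fun p : ℂ × ℂ => (st θ H p.1 p.2 - p.2) / p.2 ^ 4
      - (-2) * ((R θ H p.1 p.2 + R θ H p.1 (-p.2)) / p.2 ^ 4)) (nl t) (𝓝 0) :=
    squeeze_zero_norm' ev z1
  have z4 := z3.add (hQ.const_mul (-2))
  have e5 : (0 : ℂ) + -2 * (deriv θ t * deriv (deriv θ) t / 8 - deriv K t / 30)
      = deriv K t / 15 - deriv θ t * deriv (deriv θ) t / 4 := by ring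
  rw [e5] at z4
  refine z4.congr ?_
  intro p
  ring


end

end Crest.Agent.R102.StepE599
end
end

-- ▼ part R102/AP3B_599

/-!
Row 102, T1-E, (AP3), global form near the real axis:
`∂_w³ (b (t + w/2, w) - b (t - w/2, w)) at w = 0` is `(2/5) J (t) + const`,
`J = G + y²/8`, `G = K - 2 y²`.
-/

set_option autoImplicit false
open Complex Metric Set Filter Topology Asymptotics

noncomputable section
namespace Crest.Agent.R102.StepE599

/-! ### joint Taylor expansion, local form -/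

lemma int_o_loc {F F' : ℂ × ℂ → ℂ} {n : ℕ} {t : ℂ}
    (h0 : ∀ᶠ z in 𝓝 t, F (z, 0) = 0)
    (hd : ∀ᶠ p : ℂ × ℂ in 𝓝 (t, 0), HasDerivAt (fun e => F (p.1, e)) (F' p) p.2)
    (ho : F' =o[𝓝 ((t, 0) : ℂ × ℂ)] fun p => p.2 ^ n) :
    F =o[𝓝 ((t, 0) : ℂ × ℂ)] fun p => p.2 ^ (n + 1) := by
  rw [isLittleO_iff] at ho ⊢
  intro c hc
  have h0' : ∀ᶠ p : ℂ × ℂ in 𝓝 (t, 0), F (p.1, 0) = 0 :=
    (continuous_fst.tendsto ((t, 0) : ℂ × ℂ)).eventually h0
  obtain ⟨δ, hδ, hb⟩ := Metric.eventually_nhds_iff_ball.1 ((ho hc).and (hd.and h0'))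
  filter_upwards [Metric.ball_mem_nhds ((t, 0) : ℂ × ℂ) hδ] with p hp
  have hp0 := (hb p hp).2.2
  rw [← ball_prod_same] at hp
  obtain ⟨hp1, hp2⟩ := hp
  have hp2' : ‖p.2‖ < δ := by simpa using hp2
  have hmem : ∀ x ∈ closedBall (0 : ℂ) ‖p.2‖, ((p.1, x) : ℂ × ℂ) ∈ ball ((t, 0) : ℂ × ℂ) δ := by
    intro x hx
    have hx' : ‖x‖ ≤ ‖p.2‖ := by simpa using hx
    rw [← ball_prod_same]
    exact ⟨hp1, by simpa using lt_of_le_of_lt hx' hp2'⟩
  have := (convex_closedBall (0:ℂ) ‖p.2‖).norm_image_sub_le_of_norm_hasDerivWithin_le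
    (f := fun e => F (p.1, e)) (f' := fun e => F' (p.1, e)) (C := c * ‖p.2‖ ^ n)
    (fun x hx => ((hb _ (hmem x hx)).2.1).hasDerivWithinAt)
    (fun x hx => by
      have hx' : ‖x‖ ≤ ‖p.2‖ := by simpa using hx
      have h2 := (hb _ (hmem x hx)).1
      simp only [norm_pow] at h2
      refine h2.trans ?_
      exact mul_le_mul_of_nonneg_left (pow_le_pow_left₀ (norm_nonneg _) hx' n) hc.le)
    (x := 0) (y := p.2) (by simp) (by simp)
  rw [hp0, sub_zero, sub_zero] at this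
  rw [norm_pow, pow_succ]
  calc _ ≤ _ := this
    _ = _ := by ring

theorem taylor_loc (n : ℕ) : ∀ (f : ℕ → ℂ × ℂ → ℂ) (t : ℂ)
    (_ : ∀ k < n, ∀ᶠ p : ℂ × ℂ in 𝓝 (t, 0), HasDerivAt (fun e => f k (p.1, e)) (f (k + 1) p) p.2)
    (_ : ContinuousAt (f n) (t, 0)),
    (fun p : ℂ × ℂ => f 0 p - ∑ k ∈ Finset.range n, f k (p.1, 0) / (k.factorial : ℂ) * p.2 ^ k
      - f n (t, 0) / (n.factorial : ℂ) * p.2 ^ n) =o[𝓝 ((t, 0) : ℂ × ℂ)]
        fun p : ℂ × ℂ => p.2 ^ n := by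
  induction n with
  | zero =>
    intro f t _ hc
    simp only [Finset.range_zero, Finset.sum_empty, sub_zero, Nat.factorial_zero, Nat.cast_one,
      div_one, pow_zero, mul_one]
    rw [isLittleO_one_iff]
    have := hc.tendsto.sub_const (f 0 (t, 0))
    simpa using this
  | succ n ih =>
    intro f t hd hc
    have h1 := ih (fun k => f (k + 1)) t (fun k hk => hd (k + 1) (by omega)) hc
    refine int_o_loc (F := fun p => f 0 p - ∑ k ∈ Finset.range (n + 1),
      f k (p.1, 0) / (k.factorial : ℂ) * p.2 ^ k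
        - f (n + 1) (t, 0) / ((n + 1).factorial : ℂ) * p.2 ^ (n + 1))
      (F' := fun p => f 1 p - ∑ k ∈ Finset.range n,
        f (k + 1) (p.1, 0) / (k.factorial : ℂ) * p.2 ^ k
      - f (n + 1) (t, 0) / (n.factorial : ℂ) * p.2 ^ n) ?_ ?_ h1
    · refine Eventually.of_forall fun z => ?_
      simp only
      rw [Finset.sum_range_succ']
      simp
    · filter_upwards [hd 0 (by omega)] with p hp
      have key : ∀ (k : ℕ) (a e : ℂ), HasDerivAt (fun e : ℂ => a / ((k + 1).factorial : ℂ) * e ^ (k + 1))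
          (a / (k.factorial : ℂ) * e ^ k) e := by
        intro k a e
        have h2 := ((hasDerivAt_pow (k + 1) e).const_mul (a / ((k + 1).factorial : ℂ)))
        refine h2.congr_deriv ?_
        rw [Nat.factorial_succ]
        have h3 : ((k : ℂ) + 1) ≠ 0 := Nat.cast_add_one_ne_zero k
        have h4 : ((k.factorial : ℕ) : ℂ) ≠ 0 := by exact_mod_cast Nat.factorial_ne_zero k
        push_cast
        field_simp
      have h5 : HasDerivAt (fun e : ℂ => ∑ k ∈ Finset.range (n + 1),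
          f k (p.1, 0) / (k.factorial : ℂ) * e ^ k)
          (∑ k ∈ Finset.range n, f (k + 1) (p.1, 0) / (k.factorial : ℂ) * p.2 ^ k) p.2 := by
        have h6 : (fun e : ℂ => ∑ k ∈ Finset.range (n + 1), f k (p.1, 0) / (k.factorial : ℂ) * e ^ k)
            = fun e : ℂ => (∑ k ∈ Finset.range n,
              f (k + 1) (p.1, 0) / ((k + 1).factorial : ℂ) * e ^ (k + 1)) + f 0 (p.1, 0) := by
          ext e
          rw [Finset.sum_range_succ']
          simp
        rw [h6]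
        refine HasDerivAt.add_const _ ?_
        exact HasDerivAt.fun_sum fun k _ => key k (f (k + 1) (p.1, 0)) p.2
      exact (hp.sub h5).sub (key n (f (n + 1) (t, 0)) p.2)

/-! ### partial derivatives of analytic functions -/

lemma partial_an {U : Set (ℂ × ℂ)} (hU : IsOpen U) {F : ℂ × ℂ → ℂ} (hF : AnalyticOnNhd ℂ F U)
    (k : ℕ) : AnalyticOnNhd ℂ (fun p : ℂ × ℂ => iteratedDeriv k (fun w => F (p.1, w)) p.2) U ∧
      ∀ p ∈ U, HasDerivAt (fun e => iteratedDeriv k (fun w => F (p.1, w)) e)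
        (iteratedDeriv (k + 1) (fun w => F (p.1, w)) p.2) p.2 := by
  have step : ∀ k, AnalyticOnNhd ℂ (fun p : ℂ × ℂ => iteratedDeriv k (fun w => F (p.1, w)) p.2) U →
      ∀ p ∈ U, HasDerivAt (fun e => iteratedDeriv k (fun w => F (p.1, w)) e)
        (iteratedDeriv (k + 1) (fun w => F (p.1, w)) p.2) p.2 ∧
        iteratedDeriv (k + 1) (fun w => F (p.1, w)) p.2 =
        fderiv ℂ (fun p : ℂ × ℂ => iteratedDeriv k (fun w => F (p.1, w)) p.2) p (0, 1) := by
    intro k hk p hp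
    have h1 : HasDerivAt (fun e : ℂ => ((p.1, e) : ℂ × ℂ)) (0, 1) p.2 :=
      (hasDerivAt_const p.2 p.1).prodMk (hasDerivAt_id p.2)
    have h2 : HasFDerivAt (fun p : ℂ × ℂ => iteratedDeriv k (fun w => F (p.1, w)) p.2)
        (fderiv ℂ (fun p : ℂ × ℂ => iteratedDeriv k (fun w => F (p.1, w)) p.2) p) (p.1, p.2) :=
      (hk p hp).differentiableAt.hasFDerivAt
    have h3 := h2.comp_hasDerivAt p.2 h1
    have h4 : HasDerivAt (fun e => iteratedDeriv k (fun w => F (p.1, w)) e)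
        (fderiv ℂ (fun p : ℂ × ℂ => iteratedDeriv k (fun w => F (p.1, w)) p.2) p (0, 1)) p.2 := h3
    have h5 : iteratedDeriv (k + 1) (fun w => F (p.1, w)) p.2 =
        fderiv ℂ (fun p : ℂ × ℂ => iteratedDeriv k (fun w => F (p.1, w)) p.2) p (0, 1) := by
      rw [iteratedDeriv_succ]
      exact h4.deriv
    refine ⟨?_, h5⟩
    rw [h5]
    exact h4
  have main : ∀ k, AnalyticOnNhd ℂ (fun p : ℂ × ℂ => iteratedDeriv k (fun w => F (p.1, w)) p.2) U := by
    intro k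
    induction k with
    | zero => simpa [iteratedDeriv_zero] using hF
    | succ k ih =>
      have h1 : AnalyticOnNhd ℂ (fun p => fderiv ℂ (fun p : ℂ × ℂ =>
          iteratedDeriv k (fun w => F (p.1, w)) p.2) p (0, 1)) U := by
        intro p hp
        have h2 := (ih.fderiv) p hp
        exact ((ContinuousLinearMap.apply ℂ ℂ ((0, 1) : ℂ × ℂ)).analyticAt _).comp h2
      exact h1.congr hU (fun p hp => ((step k ih p hp).2).symm)
  exact ⟨main k, fun p hp => (step k (main k) p hp).1⟩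

/-- even derivatives of a locally odd function vanish at `0` -/
lemma iter_odd {f : ℂ → ℂ} (hf : ∀ᶠ w in 𝓝 (0 : ℂ), f (-w) = -f w) {k : ℕ} (hk : Even k) :
    iteratedDeriv k f 0 = 0 := by
  have h1 : (fun w => f (-w)) =ᶠ[𝓝 0] fun w => -f w := hf
  have h2 := h1.iteratedDeriv_eq k
  rw [iteratedDeriv_comp_neg, neg_zero, hk.neg_one_pow, one_smul] at h2
  have h3 : iteratedDeriv k (fun w => -f w) 0 = -iteratedDeriv k f 0 := by
    exact iteratedDeriv_fun_neg k f 0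
  rw [h3] at h2
  have h4 : (2 : ℂ) * iteratedDeriv k f 0 = 0 := by linear_combination h2
  exact (mul_eq_zero.mp h4).resolve_left two_ne_zero

/-- local form with little-o hypotheses -/
theorem coeff_local2 {θ H K : ℂ → ℂ} (h : Ent θ H K) {X : ℂ × ℂ → ℂ} {c : ℂ → ℂ} {t c' : ℂ}
    (hX : Tendsto (fun w : ℂ => X (t, w)) (𝓝[≠] 0) (𝓝 t))
    (h1 : (fun w : ℂ => X (t, w) - X (t - w, w) - (w + w ^ 3 * c (t - w / 2)))
      =o[𝓝[≠] 0] fun w => w ^ 4)
    (h2 : (fun w : ℂ => X (t + w, w) - X (t, w) - (w + w ^ 3 * c (t + w / 2)))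
      =o[𝓝[≠] 0] fun w => w ^ 4)
    (hlaw : ∀ᶠ w in 𝓝[≠] (0 : ℂ),
      X (t + w, w) = X (t, w) + st θ H (X (t, w)) (X (t, w) - X (t - w, w)))
    (hc : HasStrictDerivAt c c' t) :
    c' = deriv K t / 15 - deriv θ t * deriv (deriv θ) t / 4 := by
  have hne : ∀ᶠ w in 𝓝[≠] (0 : ℂ), w ≠ 0 := self_mem_nhdsWithin
  have hw0 : Tendsto (fun w : ℂ => w) (𝓝[≠] 0) (𝓝 0) := tendsto_id.mono_left nhdsWithin_le_nhds
  have k1 : Tendsto (fun w : ℂ => t - w / 2) (𝓝[≠] 0) (𝓝 t) := by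
    have : ContinuousAt (fun w : ℂ => t - w / 2) 0 := by fun_prop
    have h3 : Tendsto (fun w : ℂ => t - w / 2) (𝓝 0) (𝓝 t) := by simpa using this.tendsto
    exact h3.mono_left nhdsWithin_le_nhds
  have k2 : Tendsto (fun w : ℂ => t + w / 2) (𝓝[≠] 0) (𝓝 t) := by
    have : ContinuousAt (fun w : ℂ => t + w / 2) 0 := by fun_prop
    have h3 : Tendsto (fun w : ℂ => t + w / 2) (𝓝 0) (𝓝 t) := by simpa using this.tendsto
    exact h3.mono_left nhdsWithin_le_nhds
  have a1 := h1.tendsto_div_nhds_zero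
  have a2 := h2.tendsto_div_nhds_zero
  -- `e / w → 1`
  have e1 : Tendsto (fun w : ℂ => (X (t, w) - X (t - w, w)) / w) (𝓝[≠] 0) (𝓝 1) := by
    have b1 := (a1.mul (hw0.pow 3)).add
      (((hw0.pow 2).mul (hc.hasDerivAt.continuousAt.tendsto.comp k1)).const_add 1)
    have e : (0 : ℂ) * 0 ^ 3 + (1 + 0 ^ 2 * c t) = 1 := by ring
    rw [e] at b1
    refine b1.congr' ?_
    filter_upwards [hne] with w hw
    simp only [Function.comp_apply]
    field_simp
    ring
  have e2 : Tendsto (fun w : ℂ => X (t, w) - X (t - w, w)) (𝓝[≠] 0) (𝓝 0) := by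
    have := hw0.mul e1
    rw [zero_mul] at this
    refine this.congr' ?_
    filter_upwards [hne] with w hw
    field_simp
  have e3 : ∀ᶠ w in 𝓝[≠] (0 : ℂ), X (t, w) - X (t - w, w) ≠ 0 := by
    filter_upwards [e1.eventually_ne one_ne_zero] with w b h0
    rw [h0, zero_div] at b
    exact b rfl
  have e4 : Tendsto (fun w : ℂ => ((X (t, w), X (t, w) - X (t - w, w)) : ℂ × ℂ)) (𝓝[≠] 0) (nl t) := by
    refine tendsto_nhdsWithin_iff.mpr ⟨?_, e3⟩
    exact hX.prodMk_nhds e2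
  have e5 := (st_lim h t).comp e4
  have e6 := e5.mul (e1.pow 4)
  rw [one_pow, mul_one] at e6
  -- the other side
  have f1 : Tendsto (fun w : ℂ => (c (t + w / 2) - c (t - w / 2)) / w) (𝓝[≠] 0) (𝓝 c') := by
    have f3 := hc.isLittleO.comp_tendsto (k2.prodMk_nhds k1)
    have f4 : ((fun p : ℂ × ℂ => p.1 - p.2) ∘ fun w : ℂ => ((t + w / 2, t - w / 2) : ℂ × ℂ))
        =O[𝓝[≠] (0 : ℂ)] fun w : ℂ => w := by
      refine IsBigO.of_bound 1 (Eventually.of_forall fun w => le_of_eq ?_)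
      simp only [Function.comp_apply, one_mul]
      congr 1
      ring
    have f5 := (f3.trans_isBigO f4).tendsto_div_nhds_zero.add_const c'
    rw [zero_add] at f5
    refine f5.congr' ?_
    filter_upwards [hne] with w hw
    simp only [Function.comp_apply, ContinuousLinearMap.toSpanSingleton_apply, smul_eq_mul]
    field_simp
    ring
  have f2 := (f1.add a2).sub a1
  have e : c' + 0 - 0 = c' := by ring
  rw [e] at f2
  refine tendsto_nhds_unique (f2.congr' ?_) e6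
  filter_upwards [hlaw, e3, hne] with w cc d f
  simp only [Function.comp_apply]
  have c' : st θ H (X (t, w)) (X (t, w) - X (t - w, w)) = X (t + w, w) - X (t, w) := by
    linear_combination -cc
  rw [c', div_pow, div_mul_div_comm, mul_comm ((X (t, w) - X (t - w, w)) ^ 4),
    mul_div_mul_right _ _ (pow_ne_zero 4 d)]
  field_simp
  ring

/-! ### the strip -/

/-- the domain `|Im t| < ρ`, `|w| < r` -/
def PDm (ρ r : ℝ) : Set (ℂ × ℂ) := {p : ℂ × ℂ | |p.1.im| < ρ ∧ ‖p.2‖ < r}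

lemma isOpen_PDm (ρ r : ℝ) : IsOpen (PDm ρ r) := by
  have c1 : Continuous fun p : ℂ × ℂ => |p.1.im| := by fun_prop
  have c2 : Continuous fun p : ℂ × ℂ => ‖p.2‖ := by fun_prop
  exact (isOpen_lt c1 continuous_const).inter (isOpen_lt c2 continuous_const)

/-- label function near the real axis -/
structure LB (ρ r : ℝ) (b : ℂ × ℂ → ℂ) : Prop where
  r_pos : 0 < r
  diff : DifferentiableOn ℂ b (PDm ρ r)
  zero : ∀ t : ℂ, |t.im| < ρ → b (t, 0) = t
  even : ∀ t w : ℂ, |t.im| < ρ → ‖w‖ < r → b (t, -w) = b (t, w)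

/-- the step -/
def SS (b : ℂ × ℂ → ℂ) (p : ℂ × ℂ) : ℂ := b (p.1 + p.2 / 2, p.2) - b (p.1 - p.2 / 2, p.2)

/-- domain of the step -/
def UU (ρ r : ℝ) : Set (ℂ × ℂ) :=
  {p : ℂ × ℂ | (p.1 + p.2 / 2, p.2) ∈ PDm ρ r ∧ (p.1 - p.2 / 2, p.2) ∈ PDm ρ r}

/-- third derivative of the step -/
def c3 (b : ℂ × ℂ → ℂ) (t : ℂ) : ℂ :=
  iteratedDeriv 3 (fun w => b (t + w / 2, w) - b (t - w / 2, w)) 0

lemma isOpen_UU (ρ r : ℝ) : IsOpen (UU ρ r) := by
  have c1 : Continuous fun p : ℂ × ℂ => ((p.1 + p.2 / 2, p.2) : ℂ × ℂ) := by fun_prop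
  have c2 : Continuous fun p : ℂ × ℂ => ((p.1 - p.2 / 2, p.2) : ℂ × ℂ) := by fun_prop
  exact ((isOpen_PDm ρ r).preimage c1).inter ((isOpen_PDm ρ r).preimage c2)

section
variable {ρ r : ℝ} {b : ℂ × ℂ → ℂ} (L : LB ρ r b)
include L

lemma LB.mem0 {t : ℂ} (ht : |t.im| < ρ) : ((t, 0) : ℂ × ℂ) ∈ PDm ρ r :=
  ⟨ht, by simpa using L.r_pos⟩

lemma LB.mem {t : ℂ} (ht : |t.im| < ρ) : ((t, 0) : ℂ × ℂ) ∈ UU ρ r := by
  refine ⟨?_, ?_⟩
  · have e : ((t + 0 / 2, 0) : ℂ × ℂ) = (t, 0) := by simp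
    show ((t + 0 / 2, 0) : ℂ × ℂ) ∈ PDm ρ r
    rw [e]
    exact L.mem0 ht
  · have e : ((t - 0 / 2, 0) : ℂ × ℂ) = (t, 0) := by simp
    show ((t - 0 / 2, 0) : ℂ × ℂ) ∈ PDm ρ r
    rw [e]
    exact L.mem0 ht

lemma LB.SS_an : AnalyticOnNhd ℂ (SS b) (UU ρ r) := by
  refine Crest.Agent.R266.SCV.analyticOnNhd_of_differentiableOn (isOpen_UU ρ r) ?_
  have d1 : DifferentiableOn ℂ (fun p : ℂ × ℂ => b (p.1 + p.2 / 2, p.2)) (UU ρ r) :=
    L.diff.comp (f := fun p : ℂ × ℂ => ((p.1 + p.2 / 2, p.2) : ℂ × ℂ)) (by fun_prop)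
      (fun p hp => hp.1)
  have d2 : DifferentiableOn ℂ (fun p : ℂ × ℂ => b (p.1 - p.2 / 2, p.2)) (UU ρ r) :=
    L.diff.comp (f := fun p : ℂ × ℂ => ((p.1 - p.2 / 2, p.2) : ℂ × ℂ)) (by fun_prop)
      (fun p hp => hp.2)
  exact d1.sub d2

lemma LB.c3_an {t : ℂ} (ht : |t.im| < ρ) : AnalyticAt ℂ (c3 b) t := by
  have h1 := (partial_an (isOpen_UU ρ r) L.SS_an 3).1 (t, 0) (L.mem ht)
  have h2 : AnalyticAt ℂ (fun t : ℂ => ((t, 0) : ℂ × ℂ)) t := by fun_prop
  have e : c3 b = (fun p : ℂ × ℂ => iteratedDeriv 3 (fun w => SS b (p.1, w)) p.2) ∘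
      (fun t : ℂ => ((t, 0) : ℂ × ℂ)) := by
    funext t
    simp only [c3, SS, Function.comp_apply]
  rw [e]
  exact AnalyticAt.comp (f := fun t : ℂ => ((t, 0) : ℂ × ℂ)) h1 h2

lemma LB.z1 {z : ℂ} (hz : |z.im| < ρ) : iteratedDeriv 1 (fun w => SS b (z, w)) 0 = 1 := by
  have hD := (L.diff.differentiableAt ((isOpen_PDm ρ r).mem_nhds (L.mem0 hz))).hasFDerivAt
  generalize fderiv ℂ b (z, 0) = D at hD
  have d0 : D (1, 0) = 1 := by
    have h1 : HasDerivAt (fun s : ℂ => ((s, 0) : ℂ × ℂ)) (1, 0) z :=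
      (hasDerivAt_id z).prodMk (hasDerivAt_const z 0)
    have h2 := hD.comp_hasDerivAt z h1
    have h3 : HasDerivAt (fun s : ℂ => b (s, 0)) 1 z := by
      refine (hasDerivAt_id z).congr_of_eventuallyEq ?_
      have c2 : ContinuousAt (fun z : ℂ => |z.im|) z := by fun_prop
      filter_upwards [c2.eventually_lt continuousAt_const hz] with s hs
      exact L.zero s hs
    exact h2.unique h3
  have d1 : HasDerivAt (fun w : ℂ => b (z + w / 2, w)) (D (1 / 2, 1)) 0 := by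
    have h1 : HasDerivAt (fun w : ℂ => ((z + w / 2, w) : ℂ × ℂ)) (1 / 2, 1) 0 :=
      (((hasDerivAt_id (0 : ℂ)).div_const 2).const_add z).prodMk (hasDerivAt_id 0)
    have h2 : HasFDerivAt b D ((fun w : ℂ => ((z + w / 2, w) : ℂ × ℂ)) 0) := by simpa using hD
    exact h2.comp_hasDerivAt (f := fun w : ℂ => ((z + w / 2, w) : ℂ × ℂ)) 0 h1
  have d2 : HasDerivAt (fun w : ℂ => b (z - w / 2, w)) (D (-(1 / 2), 1)) 0 := by
    have h1 : HasDerivAt (fun w : ℂ => ((z - w / 2, w) : ℂ × ℂ)) (-(1 / 2), 1) 0 :=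
      (((hasDerivAt_id (0 : ℂ)).div_const 2).const_sub z).prodMk (hasDerivAt_id 0)
    have h2 : HasFDerivAt b D ((fun w : ℂ => ((z - w / 2, w) : ℂ × ℂ)) 0) := by simpa using hD
    exact h2.comp_hasDerivAt (f := fun w : ℂ => ((z - w / 2, w) : ℂ × ℂ)) 0 h1
  rw [iteratedDeriv_one]
  have d3 : deriv (fun w => SS b (z, w)) 0 = D (1 / 2, 1) - D (-(1 / 2), 1) := (d1.sub d2).deriv
  rw [d3, ← map_sub]
  have : ((1 / 2, 1) : ℂ × ℂ) - (-(1 / 2), 1) = (1, 0) := by
    ext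
    · simp only [Prod.fst_sub]; ring
    · simp
  rw [this, d0]

lemma LB.odd {z : ℂ} (hz : |z.im| < ρ) : ∀ᶠ w in 𝓝 (0 : ℂ), SS b (z, -w) = -SS b (z, w) := by
  have c1 : ContinuousAt (fun w : ℂ => ((z, w) : ℂ × ℂ)) 0 := by fun_prop
  filter_upwards [c1.eventually ((isOpen_UU ρ r).mem_nhds (L.mem hz))] with w hw
  have hw1 : |(z + w / 2).im| < ρ := hw.1.1
  have hw2 : |(z - w / 2).im| < ρ := hw.2.1
  have hw3 : ‖w‖ < r := hw.1.2
  have e1 := L.even (z + w / 2) w hw1 hw3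
  have e2 := L.even (z - w / 2) w hw2 hw3
  simp only [SS]
  have e3 : z + -w / 2 = z - w / 2 := by ring
  have e4 : z - -w / 2 = z + w / 2 := by ring
  rw [e3, e4, e1, e2]
  ring

/-- joint expansion of the step -/
lemma LB.expand {t : ℂ} (ht : |t.im| < ρ) :
    (fun p : ℂ × ℂ => SS b p - (p.2 + p.2 ^ 3 * (c3 b p.1 / 6)))
        =o[𝓝 ((t, 0) : ℂ × ℂ)] fun p : ℂ × ℂ => p.2 ^ 4 := by
  have hUt := L.mem ht
  have hT := taylor_loc 4 (fun k p => iteratedDeriv k (fun w => SS b (p.1, w)) p.2) t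
    (by
      intro k _
      filter_upwards [(isOpen_UU ρ r).mem_nhds hUt] with p hp
      exact (partial_an (isOpen_UU ρ r) L.SS_an k).2 p hp)
    ((partial_an (isOpen_UU ρ r) L.SS_an 4).1 (t, 0) hUt).continuousAt
  refine hT.congr' ?_ (EventuallyEq.refl _ _)
  have hev : ∀ᶠ z in 𝓝 t, |z.im| < ρ := by
    have c2 : ContinuousAt (fun z : ℂ => |z.im|) t := by fun_prop
    exact c2.eventually_lt continuousAt_const ht
  have hev2 : ∀ᶠ p : ℂ × ℂ in 𝓝 (t, 0), |p.1.im| < ρ :=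
    (continuous_fst.tendsto ((t, 0) : ℂ × ℂ)).eventually hev
  filter_upwards [hev2] with p hp
  simp only [Finset.sum_range_succ, Finset.range_zero, Finset.sum_empty, Nat.factorial]
  have z0 : iteratedDeriv 0 (fun w => SS b (p.1, w)) 0 = 0 := by
    simp [iteratedDeriv_zero, SS]
  have z3 : iteratedDeriv 3 (fun w => SS b (p.1, w)) 0 = c3 b p.1 := rfl
  have z2 : iteratedDeriv 2 (fun w => SS b (p.1, w)) 0 = 0 := iter_odd (L.odd hp) (by decide)
  have z4 : iteratedDeriv 4 (fun w => SS b (t, w)) 0 = 0 := iter_odd (L.odd ht) (by decide)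
  have z00 : iteratedDeriv 0 (fun w => SS b (p.1, w)) p.2 = SS b p := by
    rw [iteratedDeriv_zero]
  rw [z0, L.z1 hp, z2, z3, z4, z00]
  push_cast
  ring

lemma LB.tendsto {t : ℂ} (ht : |t.im| < ρ) : Tendsto (fun w : ℂ => b (t, w)) (𝓝[≠] 0) (𝓝 t) := by
  have hd := L.diff.differentiableAt ((isOpen_PDm ρ r).mem_nhds (L.mem0 ht))
  have c1 : ContinuousAt (fun w : ℂ => b (t, w)) 0 := by
    have c2 : ContinuousAt b ((fun w : ℂ => ((t, w) : ℂ × ℂ)) 0) := hd.continuousAt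
    exact ContinuousAt.comp (f := fun w : ℂ => ((t, w) : ℂ × ℂ)) c2 (by fun_prop)
  have h3 : Tendsto (fun w : ℂ => b (t, w)) (𝓝 0) (𝓝 t) := by
    have := c1.tendsto
    rwa [L.zero t ht] at this
  exact h3.mono_left nhdsWithin_le_nhds

end

variable {θ H K : ℂ → ℂ} {ρ r : ℝ} {b : ℂ × ℂ → ℂ}

/-- derivative of the coefficient -/
theorem LB.c3_deriv (h : Ent θ H K) (L : LB ρ r b) {t : ℂ} (ht : |t.im| < ρ)
    (hlaw : ∀ᶠ w in 𝓝[≠] (0 : ℂ),
      b (t + w, w) = b (t, w) + st θ H (b (t, w)) (b (t, w) - b (t - w, w))) :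
    HasDerivAt (c3 b) (6 * (deriv K t / 15 - deriv θ t * deriv (deriv θ) t / 4)) t := by
  have hc3a := L.c3_an ht
  have hT2 := L.expand ht
  have k1 : Tendsto (fun w : ℂ => ((t - w / 2, w) : ℂ × ℂ)) (𝓝[≠] 0) (𝓝 (t, 0)) := by
    have : ContinuousAt (fun w : ℂ => ((t - w / 2, w) : ℂ × ℂ)) 0 := by fun_prop
    have h3 : Tendsto (fun w : ℂ => ((t - w / 2, w) : ℂ × ℂ)) (𝓝 0) (𝓝 (t, 0)) := by
      simpa using this.tendsto
    exact h3.mono_left nhdsWithin_le_nhds
  have k2 : Tendsto (fun w : ℂ => ((t + w / 2, w) : ℂ × ℂ)) (𝓝[≠] 0) (𝓝 (t, 0)) := by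
    have : ContinuousAt (fun w : ℂ => ((t + w / 2, w) : ℂ × ℂ)) 0 := by fun_prop
    have h3 : Tendsto (fun w : ℂ => ((t + w / 2, w) : ℂ × ℂ)) (𝓝 0) (𝓝 (t, 0)) := by
      simpa using this.tendsto
    exact h3.mono_left nhdsWithin_le_nhds
  have o1 := hT2.comp_tendsto k1
  have o2 := hT2.comp_tendsto k2
  have p1 : (fun w : ℂ => b (t, w) - b (t - w, w) - (w + w ^ 3 * (c3 b (t - w / 2) / 6)))
      =o[𝓝[≠] 0] fun w => w ^ 4 := by
    refine o1.congr (fun w => ?_) (fun w => rfl)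
    simp only [Function.comp_apply, SS]
    have e1 : t - w / 2 + w / 2 = t := by ring
    have e2 : t - w / 2 - w / 2 = t - w := by ring
    rw [e1, e2]
  have p2 : (fun w : ℂ => b (t + w, w) - b (t, w) - (w + w ^ 3 * (c3 b (t + w / 2) / 6)))
      =o[𝓝[≠] 0] fun w => w ^ 4 := by
    refine o2.congr (fun w => ?_) (fun w => rfl)
    simp only [Function.comp_apply, SS]
    have e1 : t + w / 2 + w / 2 = t + w := by ring
    have e2 : t + w / 2 - w / 2 = t := by ring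
    rw [e1, e2]
  have hfin := coeff_local2 h (X := b) (c := fun z => c3 b z / 6) (c' := deriv (c3 b) t / 6)
    (L.tendsto ht) p1 p2 hlaw (hc3a.hasStrictDerivAt.div_const 6)
  have e6 : deriv (c3 b) t = 6 * (deriv K t / 15 - deriv θ t * deriv (deriv θ) t / 4) := by
    linear_combination 6 * hfin
  rw [← e6]
  exact hc3a.differentiableAt.hasDerivAt

/-- **(AP3)** near the real axis -/
theorem coeff_strip (h : Ent θ H K) (L : LB ρ r b)
    (hlaw : ∀ t : ℂ, |t.im| < ρ → ∀ᶠ w in 𝓝[≠] (0 : ℂ),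
      b (t + w, w) = b (t, w) + st θ H (b (t, w)) (b (t, w) - b (t - w, w))) :
    ∃ c : ℂ, ∀ t : ℂ, |t.im| < ρ →
      iteratedDeriv 3 (fun w => b (t + w / 2, w) - b (t - w / 2, w)) 0 =
        2 / 5 * ((K t - 2 * (deriv θ t) ^ 2) + (deriv θ t) ^ 2 / 8) + c := by
  set T : Set ℂ := {t : ℂ | |t.im| < ρ} with hT
  have hTo : IsOpen T := isOpen_lt (by fun_prop) continuous_const
  have hTc : IsPreconnected T := by
    have : T = Complex.imLm ⁻¹' (Ioo (-ρ) ρ) := by
      ext w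
      simp [hT, abs_lt]
    rw [this]
    exact ((convex_Ioo _ _).linear_preimage _).isPreconnected
  set Φ : ℂ → ℂ := fun t => c3 b t
    - 2 / 5 * ((K t - 2 * (deriv θ t) ^ 2) + (deriv θ t) ^ 2 / 8) with hΦ
  have hΦd : ∀ t ∈ T, HasDerivAt Φ 0 t := by
    intro t ht
    have h1 := L.c3_deriv h ht (hlaw t ht)
    have h2 := ((h.dθ1 t).hasDerivAt.pow 2)
    have h3 := (((h.dK t).hasDerivAt.sub (h2.const_mul 2)).add (h2.div_const 8)).const_mul (2 / 5 : ℂ)
    refine (h1.sub h3).congr_deriv ?_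
    push_cast
    ring
  obtain ⟨c, hc⟩ := hTo.exists_is_const_of_deriv_eq_zero hTc
    (fun t ht => (hΦd t ht).differentiableAt.differentiableWithinAt) (fun t ht => (hΦd t ht).deriv)
  refine ⟨c, fun t ht => ?_⟩
  have := hc t ht
  simp only [hΦ, c3] at this
  linear_combination this

end Crest.Agent.R102.StepE599
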