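import Mathlib

-- ▼ part R102/Bloch_948
section

/-! # Bloch's theorem (with explicit, non optimal constants)

* `landau`: if `‖f'‖ ≤ 2 ‖f' a‖` on `ball a R` then `f '' closedBall a (R/8)` contains
  `ball (f a) (R ‖f' a‖ / 32)`.
* `bloch`: the image of `ball c R` contains a ball of radius `R ‖f' c‖ / 128`.
* `norm_deriv_le_of_no_ball`: if the image of `ball c R` contains no ball of radius `1`, then
  `‖f' z‖ ≤ 128 / (R - ‖z - c‖)`.
-/

open Set Filter Metric Complex Topology

namespace Crest.Agent.R102.M948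

theorem landau {f : ℂ → ℂ} {a : ℂ} {R : ℝ} (hR : 0 < R) (hf : DifferentiableOn ℂ f (ball a R))
    (hb : ∀ z ∈ ball a R, ‖deriv f z‖ ≤ 2 * ‖deriv f a‖) :
    ball (f a) (R * ‖deriv f a‖ / 32) ⊆ f '' closedBall a (R / 8) := by
  set D : ℝ := ‖deriv f a‖ with hD
  rcases eq_or_lt_of_le (norm_nonneg (deriv f a)) with h0 | h0
  · have : D = 0 := by rw [hD]; exact h0.symm
    rw [this]; simp
  have hDpos : 0 < D := h0
  have hd : ∀ z ∈ ball a R, DifferentiableAt ℂ f z := fun z hz =>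
    hf.differentiableAt (isOpen_ball.mem_nhds hz)
  have hd' : DifferentiableOn ℂ (deriv f) (ball a R) := hf.deriv isOpen_ball
  have hmaps : MapsTo (deriv f) (ball a R) (closedBall (deriv f a) (3 * D)) := by
    intro z hz
    rw [mem_closedBall, dist_eq_norm]
    calc ‖deriv f z - deriv f a‖ ≤ ‖deriv f z‖ + ‖deriv f a‖ := norm_sub_le _ _
      _ ≤ 2 * D + D := by
        have := hb z hz
        linarith
      _ = 3 * D := by ring
  have hS : ∀ z ∈ closedBall a (R / 8), ‖deriv f z - deriv f a‖ ≤ 3 * D / 8 := by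
    intro z hz
    have hz' : z ∈ ball a R := by
      rw [mem_ball]; rw [mem_closedBall] at hz; linarith
    have h1 := dist_le_div_mul_dist_of_mapsTo_ball hd' hmaps hz'
    rw [dist_eq_norm] at h1
    refine h1.trans ?_
    rw [mem_closedBall] at hz
    calc 3 * D / R * dist z a ≤ 3 * D / R * (R / 8) := by gcongr
      _ = 3 * D / 8 := by field_simp
  -- the remainder
  set A : ℂ → ℂ := fun z => f z - deriv f a * z with hA
  have hsub : closedBall a (R / 8) ⊆ ball a R := by
    intro z hz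
    rw [mem_ball]; rw [mem_closedBall] at hz; linarith
  have hAd : ∀ z ∈ closedBall a (R / 8), HasDerivAt A (deriv f z - deriv f a) z := by
    intro z hz
    have h1 : HasDerivAt f (deriv f z) z := (hd z (hsub hz)).hasDerivAt
    have h2 : HasDerivAt (fun z : ℂ => deriv f a * z) (deriv f a) z := by
      simpa using (hasDerivAt_id z).const_mul (deriv f a)
    exact h1.sub h2
  have hAb : ∀ z ∈ closedBall a (R / 8), ‖A z - A a‖ ≤ 3 * D / 8 * ‖z - a‖ := by
    intro z hz
    refine Convex.norm_image_sub_le_of_norm_deriv_le (s := closedBall a (R / 8)) (𝕜 := ℂ)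
      (fun x hx => (hAd x hx).differentiableAt) ?_ (convex_closedBall a (R / 8))
      (mem_closedBall_self (by positivity)) hz
    intro x hx
    rw [(hAd x hx).deriv]
    exact hS x hx
  have hsph : ∀ z ∈ sphere a (R / 8), R * D / 16 ≤ ‖f z - f a‖ := by
    intro z hz
    have hzc : z ∈ closedBall a (R / 8) := sphere_subset_closedBall hz
    have h1 := hAb z hzc
    have h2 : ‖z - a‖ = R / 8 := by
      rw [mem_sphere, dist_eq_norm] at hz; exact hz
    have h3 : deriv f a * (z - a) = (f z - f a) - (A z - A a) := by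
      simp only [hA]; ring
    have h4 : D * (R / 8) = ‖(f z - f a) - (A z - A a)‖ := by
      rw [← h3, norm_mul, h2]
    have h5 : ‖(f z - f a) - (A z - A a)‖ ≤ ‖f z - f a‖ + ‖A z - A a‖ := norm_sub_le _ _
    rw [h2] at h1
    nlinarith [mul_pos hR hDpos]
  have hcl : DiffContOnCl ℂ f (ball a (R / 8)) := by
    refine ⟨hf.mono (ball_subset_ball (by linarith)), ?_⟩
    rw [closure_ball a (by positivity)]
    exact hf.continuousOn.mono hsub
  have hfr : ∃ᶠ z in 𝓝 a, f z ≠ f a := by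
    rw [Filter.Frequently]
    intro hev
    have hev' : f =ᶠ[𝓝 a] fun _ => f a := by
      filter_upwards [hev] with z hz
      by_contra h
      exact hz h
    have : deriv f a = 0 := by
      rw [hev'.deriv_eq]; simp
    rw [hD, this] at hDpos
    simp at hDpos
  have key := hcl.ball_subset_image_closedBall (by positivity) hsph hfr
  have e : R * D / 16 / 2 = R * D / 32 := by ring
  rw [e] at key
  exact key

theorem bloch {f : ℂ → ℂ} {c : ℂ} {R : ℝ} (hR : 0 < R) (hf : DifferentiableOn ℂ f (ball c R)) :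
    ∃ w, ball w (R * ‖deriv f c‖ / 128) ⊆ f '' ball c R := by
  have hd' : DifferentiableOn ℂ (deriv f) (ball c R) := hf.deriv isOpen_ball
  have hsub : closedBall c (R / 2) ⊆ ball c R := by
    intro z hz
    rw [mem_ball]; rw [mem_closedBall] at hz; linarith
  have hcont : ContinuousOn (fun z => (R / 2 - ‖z - c‖) * ‖deriv f z‖) (closedBall c (R / 2)) := by
    refine ContinuousOn.mul ?_ ?_
    · fun_prop
    · exact (hd'.continuousOn.mono hsub).norm
  obtain ⟨a, ha, hmax⟩ := (isCompact_closedBall c (R / 2)).exists_isMaxOn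
    ⟨c, mem_closedBall_self (by positivity)⟩ hcont
  have hmax' : ∀ z ∈ closedBall c (R / 2),
      (R / 2 - ‖z - c‖) * ‖deriv f z‖ ≤ (R / 2 - ‖a - c‖) * ‖deriv f a‖ := fun z hz => hmax hz
  have hc0 : R / 2 * ‖deriv f c‖ ≤ (R / 2 - ‖a - c‖) * ‖deriv f a‖ := by
    have := hmax' c (mem_closedBall_self (by positivity))
    simpa using this
  have hac : ‖a - c‖ ≤ R / 2 := by
    rw [mem_closedBall, dist_eq_norm] at ha; exact ha
  set ρ : ℝ := (R / 2 - ‖a - c‖) / 2 with hρ
  have hρ0 : 0 ≤ ρ := by rw [hρ]; linarith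
  refine ⟨f a, ?_⟩
  rcases eq_or_lt_of_le hρ0 with h0 | h0
  · have h1 : R / 2 - ‖a - c‖ = 0 := by linarith
    rw [h1, zero_mul] at hc0
    have h2 : ‖deriv f c‖ = 0 := by
      have := norm_nonneg (deriv f c)
      nlinarith
    rw [h2]; simp
  have hball : ball a ρ ⊆ ball c R := by
    intro z hz
    rw [mem_ball, dist_eq_norm] at hz ⊢
    have : ‖z - c‖ ≤ ‖z - a‖ + ‖a - c‖ := by
      have := norm_add_le (z - a) (a - c)
      simpa using this
    have h3 : ‖a - c‖ = R / 2 - 2 * ρ := by rw [hρ]; ring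
    nlinarith [norm_nonneg (a - c)]
  have hb : ∀ z ∈ ball a ρ, ‖deriv f z‖ ≤ 2 * ‖deriv f a‖ := by
    intro z hz
    rw [mem_ball, dist_eq_norm] at hz
    have h1 : ‖z - c‖ ≤ ‖z - a‖ + ‖a - c‖ := by
      have := norm_add_le (z - a) (a - c)
      simpa using this
    have h3 : ‖a - c‖ = R / 2 - 2 * ρ := by rw [hρ]; ring
    have h4 : ρ ≤ R / 2 - ‖z - c‖ := by linarith
    have h5 := hmax' z (by rw [mem_closedBall, dist_eq_norm]; linarith)
    have h6 : ρ * ‖deriv f z‖ ≤ (R / 2 - ‖z - c‖) * ‖deriv f z‖ :=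
      mul_le_mul_of_nonneg_right h4 (norm_nonneg _)
    have h7 : R / 2 - ‖a - c‖ = 2 * ρ := by rw [hρ]; ring
    rw [h7] at h5
    have h8 : ρ * ‖deriv f z‖ ≤ ρ * (2 * ‖deriv f a‖) := by linarith
    exact le_of_mul_le_mul_left h8 h0
  have hL := landau h0 (hf.mono hball) hb
  refine Subset.trans ?_ (hL.trans ?_)
  · apply ball_subset_ball
    have h7 : R / 2 - ‖a - c‖ = 2 * ρ := by rw [hρ]; ring
    rw [h7] at hc0
    linarith
  · apply image_mono
    intro z hz
    apply hball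
    rw [mem_ball]; rw [mem_closedBall] at hz; linarith

theorem norm_deriv_center_le {f : ℂ → ℂ} {c : ℂ} {R : ℝ} (hR : 0 < R)
    (hf : DifferentiableOn ℂ f (ball c R)) (hno : ∀ w, ¬ ball w 1 ⊆ f '' ball c R) :
    ‖deriv f c‖ ≤ 128 / R := by
  by_contra hlt
  push Not at hlt
  obtain ⟨w, hw⟩ := bloch hR hf
  refine hno w (Subset.trans (ball_subset_ball ?_) hw)
  rw [div_lt_iff₀ hR] at hlt
  linarith

theorem norm_deriv_le_of_no_ball {f : ℂ → ℂ} {c : ℂ} {R : ℝ}
    (hf : DifferentiableOn ℂ f (ball c R)) (hno : ∀ w, ¬ ball w 1 ⊆ f '' ball c R)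
    {z : ℂ} (hz : z ∈ ball c R) : ‖deriv f z‖ ≤ 128 / (R - ‖z - c‖) := by
  rw [mem_ball, dist_eq_norm] at hz
  have hsub : ball z (R - ‖z - c‖) ⊆ ball c R := by
    intro x hx
    rw [mem_ball, dist_eq_norm] at hx ⊢
    have := norm_add_le (x - z) (z - c)
    simp only [sub_add_sub_cancel] at this
    linarith
  refine norm_deriv_center_le (by linarith) (hf.mono hsub) fun w hw => hno w (hw.trans ?_)
  exact image_mono hsub

end Crest.Agent.R102.M948
end

-- ▼ part R102/Schottky_948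

/-! # Schottky's theorem

`schottky`: if `f` is holomorphic on `ball c R`, omits `0` and `1` and `‖f c‖ ≤ M`, then
`‖f z‖ ≤ Psi M θ` on `closedBall c (θ R)`, `0 ≤ θ < 1`, with the explicit
`Psi M θ = exp (π exp (π (3 + 2 M + 128 θ / (1 - θ))))`.
-/

open Set Filter Metric Complex Topology

namespace Crest.Agent.R102.M948

/-- holomorphic logarithm on a ball -/
theorem exists_log {u : ℂ → ℂ} {c : ℂ} {R : ℝ} (hu : DifferentiableOn ℂ u (ball c R))
    (h0 : ∀ z ∈ ball c R, u z ≠ 0) :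
    ∃ L : ℂ → ℂ, DifferentiableOn ℂ L (ball c R) ∧ ∀ z ∈ ball c R, Complex.exp (L z) = u z := by
  have hq : DifferentiableOn ℂ (fun z => deriv u z / u z) (ball c R) :=
    (hu.deriv isOpen_ball).div hu h0
  obtain ⟨g, hgc, hg⟩ := hq.isExactOn_ball.with_val_at c (Complex.log (u c))
  refine ⟨g, fun z hz => (hg z hz).differentiableAt.differentiableWithinAt, ?_⟩
  have hE : ∀ z ∈ ball c R, HasDerivAt (fun z => u z * Complex.exp (-g z)) 0 z := by
    intro z hz
    have h1 : HasDerivAt u (deriv u z) z :=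
      (hu.differentiableAt (isOpen_ball.mem_nhds hz)).hasDerivAt
    have h2 : HasDerivAt (fun z => Complex.exp (-g z))
        (Complex.exp (-g z) * (-(deriv u z / u z))) z := (hg z hz).neg.cexp
    have h3 := h1.mul h2
    have e : deriv u z * Complex.exp (-g z) +
        u z * (Complex.exp (-g z) * (-(deriv u z / u z))) = 0 := by
      field_simp [h0 z hz]
      ring
    rw [e] at h3
    exact h3
  intro z hz
  have hc : c ∈ ball c R := mem_ball_self (dist_nonneg.trans_lt hz)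
  have hconst : u z * Complex.exp (-g z) = u c * Complex.exp (-g c) := by
    have := Convex.norm_image_sub_le_of_norm_deriv_le (𝕜 := ℂ)
      (f := fun z => u z * Complex.exp (-g z)) (C := 0) (s := ball c R)
      (fun x hx => (hE x hx).differentiableAt) (fun x hx => by rw [(hE x hx).deriv]; simp)
      (convex_ball c R) hc hz
    rw [zero_mul] at this
    exact sub_eq_zero.mp (norm_le_zero_iff.mp this)
  rw [hgc, Complex.exp_neg (Complex.log (u c)), Complex.exp_log (h0 c hc),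
    mul_inv_cancel₀ (h0 c hc), Complex.exp_neg] at hconst
  field_simp at hconst
  exact hconst.symm

theorem abs_im_le_norm_cos (w : ℂ) : |w.im| ≤ ‖Complex.cos w‖ := by
  have h1 : |Real.sinh w.im| ≤ ‖Complex.cos w‖ := by
    rw [Complex.cos, norm_div]
    have h2 : ‖(2 : ℂ)‖ = 2 := by simp
    rw [h2]
    have h3 : ‖Complex.exp (w * I)‖ = Real.exp (-w.im) := by
      rw [Complex.norm_exp]; simp
    have h4 : ‖Complex.exp (-w * I)‖ = Real.exp (w.im) := by
      rw [Complex.norm_exp]; simp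
    have h5 : |‖Complex.exp (w * I)‖ - ‖-Complex.exp (-w * I)‖| ≤
        ‖Complex.exp (w * I) - -Complex.exp (-w * I)‖ := abs_norm_sub_norm_le _ _
    rw [norm_neg, h3, h4, sub_neg_eq_add] at h5
    rw [Real.sinh_eq, abs_div, abs_two]
    have h6 : |Real.exp w.im - Real.exp (-w.im)| = |Real.exp (-w.im) - Real.exp w.im| :=
      abs_sub_comm _ _
    rw [h6]
    linarith
  have h2 : |w.im| ≤ |Real.sinh w.im| := by
    rw [Real.abs_sinh]
    exact Real.self_le_sinh_iff.mpr (abs_nonneg _)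
  exact h2.trans h1

/-- if `f` omits `1` and `-1` on a ball then `f = cos (π F)` with a good value at the centre -/
theorem exists_cos {f : ℂ → ℂ} {c : ℂ} {R : ℝ} (hR : 0 < R)
    (hf : DifferentiableOn ℂ f (ball c R))
    (h1 : ∀ z ∈ ball c R, f z ≠ 1) (h2 : ∀ z ∈ ball c R, f z ≠ -1) :
    ∃ F : ℂ → ℂ, DifferentiableOn ℂ F (ball c R) ∧
      (∀ z ∈ ball c R, Complex.cos (Real.pi * F z) = f z) ∧ ‖F c‖ ≤ 1 + ‖f c‖ := by
  have hc : c ∈ ball c R := mem_ball_self hR
  obtain ⟨L1, hL1, hL1e⟩ := exists_log (u := fun z => 1 - f z ^ 2) (c := c) (R := R)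
    ((differentiableOn_const _).sub (hf.pow 2)) (fun z hz h => by
      have h3 : (1 - f z) * (1 + f z) = 0 := by ring_nf; ring_nf at h; exact h
      rcases mul_eq_zero.mp h3 with h4 | h4
      · exact h1 z hz (sub_eq_zero.mp h4).symm
      · exact h2 z hz (by linear_combination h4))
  set s : ℂ → ℂ := fun z => Complex.exp (L1 z / 2) with hs
  have hsd : DifferentiableOn ℂ s (ball c R) := (hL1.div_const 2).cexp
  have hs2 : ∀ z ∈ ball c R, s z ^ 2 = 1 - f z ^ 2 := by
    intro z hz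
    rw [← hL1e z hz, hs]
    simp only
    rw [← Complex.exp_nat_mul]
    congr 1
    push_cast
    ring
  have hprod : ∀ z ∈ ball c R, (f z + I * s z) * (f z - I * s z) = 1 := by
    intro z hz
    have := hs2 z hz
    linear_combination this - s z ^ 2 * Complex.I_sq
  obtain ⟨L, hL, hLe⟩ := exists_log (u := fun z => f z + I * s z) (c := c) (R := R)
    (hf.add ((differentiableOn_const _).mul hsd)) (fun z hz h => by
      have := hprod z hz
      rw [h, zero_mul] at this
      exact zero_ne_one this)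
  have hneg : ∀ z ∈ ball c R, Complex.exp (-L z) = f z - I * s z := by
    intro z hz
    rw [Complex.exp_neg, hLe z hz]
    exact inv_eq_of_mul_eq_one_right (hprod z hz)
  have hpi : (Real.pi : ℂ) ≠ 0 := by exact_mod_cast Real.pi_ne_zero
  set F0 : ℂ → ℂ := fun z => -(I * L z) / Real.pi with hF0
  have hcos0 : ∀ z ∈ ball c R, Complex.cos (Real.pi * F0 z) = f z := by
    intro z hz
    have e : (Real.pi : ℂ) * F0 z = -(I * L z) := by
      rw [hF0]; field_simp
    rw [e, Complex.cos]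
    have e1 : -(I * L z) * I = L z := by linear_combination -L z * Complex.I_sq
    have e2 : -(-(I * L z)) * I = -L z := by linear_combination L z * Complex.I_sq
    rw [e1, e2, hLe z hz, hneg z hz]
    ring
  set k : ℤ := round ((F0 c).re / 2) with hk
  refine ⟨fun z => F0 z - 2 * k, ?_, ?_, ?_⟩
  · exact (((hL.const_mul I).neg).div_const _).sub (differentiableOn_const _)
  · intro z hz
    have e : (Real.pi : ℂ) * (F0 z - 2 * k) = Real.pi * F0 z - k * (2 * Real.pi) := by ring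
    simp only
    rw [e, Complex.cos_sub_int_mul_two_pi]
    exact hcos0 z hz
  · have hre : |(F0 c - 2 * k).re| ≤ 1 := by
      have h3 := abs_sub_round ((F0 c).re / 2)
      rw [← hk] at h3
      have e : (F0 c - 2 * (k : ℂ)).re = 2 * ((F0 c).re / 2 - k) := by
        simp
        ring
      rw [e, abs_mul, abs_two]
      linarith
    have him : |(F0 c - 2 * k).im| ≤ ‖f c‖ := by
      have e : (F0 c - 2 * (k : ℂ)).im = (F0 c).im := by simp
      rw [e]
      have h3 := abs_im_le_norm_cos (Real.pi * F0 c)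
      rw [hcos0 c hc] at h3
      have e2 : ((Real.pi : ℂ) * F0 c).im = Real.pi * (F0 c).im := by
        simp
      rw [e2, abs_mul, abs_of_pos Real.pi_pos] at h3
      have h4 : |(F0 c).im| ≤ Real.pi * |(F0 c).im| := by
        have := Real.pi_gt_three
        nlinarith [abs_nonneg (F0 c).im]
      linarith
    have := Complex.norm_le_abs_re_add_abs_im (F0 c - 2 * k)
    simp only at this ⊢
    linarith

theorem cosh_ge (x : ℝ) : 1 + x ^ 2 / 2 ≤ Real.cosh x := by
  have h1 : Real.cosh x = 1 + 2 * Real.sinh (x / 2) ^ 2 := by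
    have h2 := Real.cosh_two_mul (x / 2)
    have h3 := Real.cosh_sq (x / 2)
    have e : 2 * (x / 2) = x := by ring
    rw [e] at h2
    rw [h2, h3]; ring
  have h2 : |x / 2| ≤ |Real.sinh (x / 2)| := by
    rw [Real.abs_sinh]
    exact Real.self_le_sinh_iff.mpr (abs_nonneg _)
  have h3 : (x / 2) ^ 2 ≤ Real.sinh (x / 2) ^ 2 := sq_le_sq.mpr h2
  rw [h1]
  nlinarith

theorem exists_cosh_nat_aux {b : ℝ} (hb : 0 ≤ b) :
    ∃ y : ℝ, |y - b| ≤ 1 / 2 ∧ ∃ n : ℕ, Real.cosh (Real.pi * y) = n := by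
  set φ : ℝ → ℝ := fun y => Real.cosh (Real.pi * y) with hφ
  have hc : ContinuousOn φ (Icc b (b + 1 / 2)) := by
    rw [hφ]; fun_prop
  have hstep : φ b + 1 ≤ φ (b + 1 / 2) := by
    have e : Real.pi * (b + 1 / 2) = Real.pi * b + Real.pi / 2 := by ring
    simp only [hφ]
    rw [e, Real.cosh_add]
    have h1 : 0 ≤ Real.sinh (Real.pi * b) := Real.sinh_nonneg_iff.mpr (by positivity)
    have h2 : 0 ≤ Real.sinh (Real.pi / 2) := Real.sinh_nonneg_iff.mpr (by positivity)
    have h3 : 1 ≤ Real.cosh (Real.pi * b) := Real.one_le_cosh _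
    have h4 : 2 ≤ Real.cosh (Real.pi / 2) := by
      have := cosh_ge (Real.pi / 2)
      have := Real.pi_gt_three
      nlinarith
    nlinarith [mul_nonneg h1 h2]
  have hn1 : φ b ≤ (⌈φ b⌉₊ : ℝ) := Nat.le_ceil _
  have hφ0 : 0 ≤ φ b := (Real.cosh_pos _).le
  have hn2 : (⌈φ b⌉₊ : ℝ) < φ b + 1 := Nat.ceil_lt_add_one hφ0
  have hmem : (⌈φ b⌉₊ : ℝ) ∈ Icc (φ b) (φ (b + 1 / 2)) := ⟨hn1, by linarith⟩
  obtain ⟨y, hy, hye⟩ := intermediate_value_Icc (by linarith) hc hmem
  refine ⟨y, ?_, _, hye⟩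
  rw [abs_le]
  constructor <;> linarith [hy.1, hy.2]

theorem exists_cosh_nat (b : ℝ) :
    ∃ y : ℝ, |y - b| ≤ 1 / 2 ∧ ∃ n : ℕ, Real.cosh (Real.pi * y) = n := by
  rcases le_total 0 b with hb | hb
  · exact exists_cosh_nat_aux hb
  · obtain ⟨y, hy, n, hn⟩ := exists_cosh_nat_aux (b := -b) (by linarith)
    refine ⟨-y, ?_, n, ?_⟩
    · have e : -y - b = -(y - -b) := by ring
      rw [e, abs_neg]; exact hy
    · rw [mul_neg, Real.cosh_neg]; exact hn

/-- every open disc of radius `1` contains a point `q` with `cos (π q)` an integer -/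
theorem exists_mem_ball_cos_int (w : ℂ) :
    ∃ q ∈ ball w 1, ∃ m : ℤ, Complex.cos (Real.pi * q) = m := by
  obtain ⟨y, hy, n, hn⟩ := exists_cosh_nat w.im
  set p : ℤ := round w.re with hp
  have hpr : |w.re - p| ≤ 1 / 2 := abs_sub_round w.re
  refine ⟨⟨p, y⟩, ?_, ?_⟩
  · rw [mem_ball, dist_eq_norm]
    have h1 : ‖(⟨p, y⟩ : ℂ) - w‖ ^ 2 = (p - w.re) ^ 2 + (y - w.im) ^ 2 := by
      rw [Complex.sq_norm, Complex.normSq_apply]
      simp
      ring
    have h2 : (p - w.re) ^ 2 ≤ (1 / 2) ^ 2 := by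
      rw [← sq_abs, abs_sub_comm]
      exact pow_le_pow_left₀ (abs_nonneg _) hpr 2
    have h3 : (y - w.im) ^ 2 ≤ (1 / 2) ^ 2 := by
      rw [← sq_abs]
      exact pow_le_pow_left₀ (abs_nonneg _) hy 2
    nlinarith [norm_nonneg ((⟨p, y⟩ : ℂ) - w)]
  · have e : (Real.pi : ℂ) * (⟨p, y⟩ : ℂ) = ((p * Real.pi : ℝ) : ℂ) + ((Real.pi * y : ℝ) : ℂ) * I := by
      apply Complex.ext <;> simp
      ring
    rw [e, Complex.cos_add_mul_I]
    have hs : Complex.sin ((p * Real.pi : ℝ) : ℂ) = 0 := by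
      rw [← Complex.ofReal_sin, Real.sin_int_mul_pi]; simp
    rw [hs, ← Complex.ofReal_cosh, hn, ← Complex.ofReal_cos, Real.cos_int_mul_pi]
    rcases Int.even_or_odd p with h | h
    · refine ⟨n, ?_⟩
      rw [h.neg_one_zpow]; simp
    · refine ⟨-n, ?_⟩
      rw [h.neg_one_zpow]; simp

theorem cos_pi_int (m : ℤ) : Complex.cos (Real.pi * m) = 1 ∨ Complex.cos (Real.pi * m) = -1 := by
  have e : (Real.pi : ℂ) * m = ((m * Real.pi : ℝ) : ℂ) := by push_cast; ring
  rw [e, ← Complex.ofReal_cos, Real.cos_int_mul_pi]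
  rcases Int.even_or_odd m with h | h
  · left; rw [h.neg_one_zpow]; simp
  · right; rw [h.neg_one_zpow]; simp

theorem norm_cos_le_exp (w : ℂ) : ‖Complex.cos w‖ ≤ Real.exp ‖w‖ := by
  rw [Complex.cos, norm_div]
  have h2 : ‖(2 : ℂ)‖ = 2 := by simp
  rw [h2, div_le_iff₀ (by norm_num)]
  have h3 := norm_add_le (Complex.exp (w * I)) (Complex.exp (-w * I))
  have h4 := Complex.norm_exp_le_exp_norm (w * I)
  have h5 := Complex.norm_exp_le_exp_norm (-w * I)
  rw [norm_mul, Complex.norm_I, mul_one] at h4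
  rw [norm_mul, norm_neg, Complex.norm_I, mul_one] at h5
  linarith

/-- The explicit Schottky bound. -/
noncomputable def Psi (M θ : ℝ) : ℝ :=
  Real.exp (Real.pi * Real.exp (Real.pi * (3 + 2 * M + 128 * θ / (1 - θ))))

theorem Psi_pos (M θ : ℝ) : 0 < Psi M θ := Real.exp_pos _

/-- representation `f = (1 + cos (π cos (π g)))/2`, with `g` Bloch -/
theorem exists_repr {f : ℂ → ℂ} {c : ℂ} {R : ℝ} (hR : 0 < R)
    (hf : DifferentiableOn ℂ f (ball c R))
    (h0 : ∀ z ∈ ball c R, f z ≠ 0) (h1 : ∀ z ∈ ball c R, f z ≠ 1) :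
    ∃ g : ℂ → ℂ, DifferentiableOn ℂ g (ball c R) ∧
      (∀ z ∈ ball c R, f z = (1 + Complex.cos (Real.pi * Complex.cos (Real.pi * g z))) / 2) ∧
      ‖g c‖ ≤ 3 + 2 * ‖f c‖ ∧ ∀ w, ¬ ball w 1 ⊆ g '' ball c R := by
  have hc : c ∈ ball c R := mem_ball_self hR
  obtain ⟨F, hF, hFc, hFn⟩ := exists_cos (f := fun z => 2 * f z - 1) hR
    ((hf.const_mul 2).sub (differentiableOn_const _))
    (fun z hz h => h1 z hz (by linear_combination h / 2))
    (fun z hz h => h0 z hz (by linear_combination h / 2))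
  have hFint : ∀ z ∈ ball c R, ∀ m : ℤ, F z ≠ m := by
    intro z hz m hm
    have h3 := hFc z hz
    rw [hm] at h3
    rcases cos_pi_int m with h4 | h4
    · rw [h4] at h3; exact h1 z hz (by linear_combination -h3 / 2)
    · rw [h4] at h3; exact h0 z hz (by linear_combination -h3 / 2)
  obtain ⟨g, hg, hgc, hgn⟩ := exists_cos (f := F) hR hF
    (fun z hz h => hFint z hz 1 (by rw [h]; simp))
    (fun z hz h => hFint z hz (-1) (by rw [h]; simp))
  refine ⟨g, hg, ?_, ?_, ?_⟩
  · intro z hz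
    rw [hgc z hz, hFc z hz]; ring
  · have h3 : ‖2 * f c - 1‖ ≤ 2 * ‖f c‖ + 1 := by
      refine (norm_sub_le _ _).trans ?_
      rw [norm_mul]; simp
    linarith
  · intro w hw
    obtain ⟨q, hq, m, hm⟩ := exists_mem_ball_cos_int w
    obtain ⟨z, hz, hzq⟩ := hw hq
    have h3 := hgc z hz
    rw [hzq, hm] at h3
    exact hFint z hz m h3.symm

/-- **Schottky's theorem** -/
theorem schottky {f : ℂ → ℂ} {c : ℂ} {R : ℝ} (hR : 0 < R)
    (hf : DifferentiableOn ℂ f (ball c R))
    (h0 : ∀ z ∈ ball c R, f z ≠ 0) (h1 : ∀ z ∈ ball c R, f z ≠ 1)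
    {M : ℝ} (hM : ‖f c‖ ≤ M) {θ : ℝ} (hθ0 : 0 ≤ θ) (hθ1 : θ < 1) :
    ∀ z ∈ closedBall c (θ * R), ‖f z‖ ≤ Psi M θ := by
  obtain ⟨g, hg, hrep, hgn, hgno⟩ := exists_repr hR hf h0 h1
  have hθ : 0 < 1 - θ := by linarith
  have hsub : closedBall c (θ * R) ⊆ ball c R := by
    intro z hz
    rw [mem_ball]; rw [mem_closedBall] at hz
    nlinarith
  intro z hz
  have hgz : ‖g z - g c‖ ≤ 128 / (R * (1 - θ)) * ‖z - c‖ := by
    refine Convex.norm_image_sub_le_of_norm_deriv_le (s := closedBall c (θ * R)) (𝕜 := ℂ)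
      (fun x hx => hg.differentiableAt (isOpen_ball.mem_nhds (hsub hx))) ?_
      (convex_closedBall _ _) (mem_closedBall_self (by positivity)) hz
    intro x hx
    refine (norm_deriv_le_of_no_ball hg hgno (hsub hx)).trans ?_
    rw [mem_closedBall, dist_eq_norm] at hx
    have : R * (1 - θ) ≤ R - ‖x - c‖ := by linarith
    gcongr
  have hz' : ‖z - c‖ ≤ θ * R := by
    rw [mem_closedBall, dist_eq_norm] at hz; exact hz
  have hgz2 : ‖g z - g c‖ ≤ 128 * θ / (1 - θ) := by
    refine hgz.trans ?_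
    calc 128 / (R * (1 - θ)) * ‖z - c‖ ≤ 128 / (R * (1 - θ)) * (θ * R) := by gcongr
      _ = 128 * θ / (1 - θ) := by field_simp
  have hgz3 : ‖g z‖ ≤ 3 + 2 * M + 128 * θ / (1 - θ) := by
    have : ‖g z‖ ≤ ‖g z - g c‖ + ‖g c‖ := by
      have := norm_add_le (g z - g c) (g c)
      simpa using this
    linarith
  rw [hrep z (hsub hz)]
  have hpi : ∀ w : ℂ, ‖(Real.pi : ℂ) * w‖ = Real.pi * ‖w‖ := by
    intro w
    rw [norm_mul, Complex.norm_real, Real.norm_of_nonneg Real.pi_pos.le]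
  have h5 : ‖Complex.cos (Real.pi * g z)‖ ≤
      Real.exp (Real.pi * (3 + 2 * M + 128 * θ / (1 - θ))) := by
    refine (norm_cos_le_exp _).trans ?_
    rw [hpi]
    gcongr
  have h6 : ‖Complex.cos (Real.pi * Complex.cos (Real.pi * g z))‖ ≤ Psi M θ := by
    refine (norm_cos_le_exp _).trans ?_
    rw [hpi, Psi]
    gcongr
  have h7 : 1 ≤ Psi M θ := by
    rw [Psi]; exact Real.one_le_exp (by positivity)
  rw [norm_div]
  have h2 : ‖(2 : ℂ)‖ = 2 := by simp
  rw [h2, div_le_iff₀ (by norm_num)]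
  refine (norm_add_le _ _).trans ?_
  rw [norm_one]
  linarith

end Crest.Agent.R102.M948
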