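import Crest.Agent.R102.C1Defs_821
import Crest.Agent.R102.Schottky_948
import Crest.Agent.R102.HartR_948

-- ▼ part R102/StepT_628
section

/-!
Row 102, part (C): **the label step omits all integers** (tool of helper877, typed by helper628).

`l = (φ, p)` a holomorphic family of lines, `B0`, `B1` two holomorphic labels on `l`
(`IncS θ H φ p Bᵢ`), `dφ ∧ dp ≠ 0`.  Then for every integer `k` either `B1 - B0 = k` identically or
`B1 - B0 ≠ k` everywhere.  Zeros of `θ'` are allowed.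
-/

set_option autoImplicit false

open Set Filter Topology

noncomputable section

namespace Crest.Agent.R102.StepT628

open Crest.Agent.R102.B821 Crest.Agent.R102.C1

/-- incidence function of `(label, φ, p)` -/
def Fi (θ H : ℂ → ℂ) (y : ℂ × ℂ × ℂ) : ℂ :=
  deriv θ y.1 * (y.2.2 - H y.1 * Complex.cos (y.2.1 - θ y.1)) -
    deriv H y.1 * Complex.sin (y.2.1 - θ y.1)

variable {θ H : ℂ → ℂ}

lemma incS_iff {φ p β : ℂ} : IncS θ H φ p β ↔ Fi θ H (β, φ, p) = 0 := by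
  unfold IncS Fi
  exact sub_eq_zero.symm

lemma analyticAt_Fi {y : ℂ × ℂ × ℂ} (hθ : AnalyticAt ℂ θ y.1) (hH : AnalyticAt ℂ H y.1) :
    AnalyticAt ℂ (Fi θ H) y := by
  have e1 : AnalyticAt ℂ (fun y : ℂ × ℂ × ℂ => y.1) y := analyticAt_fst
  have e2 : AnalyticAt ℂ (fun y : ℂ × ℂ × ℂ => y.2.1) y := analyticAt_fst.comp analyticAt_snd
  have e3 : AnalyticAt ℂ (fun y : ℂ × ℂ × ℂ => y.2.2) y := analyticAt_snd.comp analyticAt_snd
  have t0 : AnalyticAt ℂ (fun y : ℂ × ℂ × ℂ => θ y.1) y := hθ.comp e1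
  have t1 : AnalyticAt ℂ (fun y : ℂ × ℂ × ℂ => deriv θ y.1) y := hθ.deriv.comp e1
  have g0 : AnalyticAt ℂ (fun y : ℂ × ℂ × ℂ => H y.1) y := hH.comp e1
  have g1 : AnalyticAt ℂ (fun y : ℂ × ℂ × ℂ => deriv H y.1) y := hH.deriv.comp e1
  have c0 : AnalyticAt ℂ (fun y : ℂ × ℂ × ℂ => Complex.cos (y.2.1 - θ y.1)) y :=
    Complex.analyticAt_cos.comp (e2.sub t0)
  have s0 : AnalyticAt ℂ (fun y : ℂ × ℂ × ℂ => Complex.sin (y.2.1 - θ y.1)) y :=
    Complex.analyticAt_sin.comp (e2.sub t0)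
  exact (t1.mul (e3.sub (g0.mul c0))).sub (g1.mul s0)

lemma fderiv_Fi_phi {z φ p : ℂ} (hθ : AnalyticAt ℂ θ z) (hH : AnalyticAt ℂ H z) :
    fderiv ℂ (Fi θ H) (z, φ, p) (0, 1, 0) =
      deriv θ z * H z * Complex.sin (φ - θ z) - deriv H z * Complex.cos (φ - θ z) := by
  have h1 : HasFDerivAt (Fi θ H) (fderiv ℂ (Fi θ H) (z, φ, p)) (z, φ, p) :=
    (analyticAt_Fi (y := (z, φ, p)) hθ hH).differentiableAt.hasFDerivAt
  have h2 : HasDerivAt (fun s : ℂ => ((z, s, p) : ℂ × ℂ × ℂ)) (0, 1, 0) φ :=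
    (hasDerivAt_const _ _).prodMk ((hasDerivAt_id _).prodMk (hasDerivAt_const _ _))
  have h3 := h1.comp_hasDerivAt φ h2
  have c : HasDerivAt (fun s : ℂ => Complex.cos (s - θ z)) (-Complex.sin (φ - θ z)) φ := by
    simpa using ((hasDerivAt_id φ).sub_const (θ z)).ccos
  have d : HasDerivAt (fun s : ℂ => Complex.sin (s - θ z)) (Complex.cos (φ - θ z)) φ := by
    simpa using ((hasDerivAt_id φ).sub_const (θ z)).csin
  have h4 : HasDerivAt (fun s : ℂ => deriv θ z * (p - H z * Complex.cos (s - θ z)) -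
      deriv H z * Complex.sin (s - θ z))
      (deriv θ z * (-(H z * -Complex.sin (φ - θ z))) -
        deriv H z * Complex.cos (φ - θ z)) φ :=
    (((c.const_mul (H z)).const_sub p).const_mul (deriv θ z)).sub (d.const_mul (deriv H z))
  have h5 := h3.unique h4
  rw [h5]; ring

lemma fderiv_Fi_p {z φ p : ℂ} (hθ : AnalyticAt ℂ θ z) (hH : AnalyticAt ℂ H z) :
    fderiv ℂ (Fi θ H) (z, φ, p) (0, 0, 1) = deriv θ z := by
  have h1 : HasFDerivAt (Fi θ H) (fderiv ℂ (Fi θ H) (z, φ, p)) (z, φ, p) :=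
    (analyticAt_Fi (y := (z, φ, p)) hθ hH).differentiableAt.hasFDerivAt
  have h2 : HasDerivAt (fun s : ℂ => ((z, φ, s) : ℂ × ℂ × ℂ)) (0, 0, 1) p :=
    (hasDerivAt_const _ _).prodMk ((hasDerivAt_const _ _).prodMk (hasDerivAt_id _))
  have h3 := h1.comp_hasDerivAt p h2
  have h4 : HasDerivAt (fun s : ℂ => deriv θ z * (s - H z * Complex.cos (φ - θ z)) -
      deriv H z * Complex.sin (φ - θ z)) (deriv θ z * 1) p :=
    (((hasDerivAt_id p).sub_const _).const_mul (deriv θ z)).sub_const _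
  have h5 := h3.unique h4
  rw [h5]; ring

/-- **simple root**: a regular label on a regular line (`dφ ∧ dp ≠ 0`) is a simple root of the
incidence function -/
theorem simple_root {φ p b : ℂ × ℂ → ℂ} {x : ℂ × ℂ} (hφ : DifferentiableAt ℂ φ x)
    (hp : DifferentiableAt ℂ p x) (hb : DifferentiableAt ℂ b x) (hθ : AnalyticAt ℂ θ (b x))
    (hH : AnalyticAt ℂ H (b x))
    (hWR : deriv θ (b x) * deriv (deriv H) (b x) - deriv (deriv θ) (b x) * deriv H (b x) +
      deriv θ (b x) ^ 3 * H (b x) = -1)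
    (hinc : ∀ᶠ y in 𝓝 x, IncS θ H (φ y) (p y) (b y))
    (harea : q1 φ x * q2 p x - q2 φ x * q1 p x ≠ 0) :
    fderiv ℂ (Fi θ H) (b x, φ x, p x) (1, 0, 0) ≠ 0 := by
  intro hA
  set L := fderiv ℂ (Fi θ H) (b x, φ x, p x) with hL
  have h1 : HasFDerivAt (Fi θ H) L (b x, φ x, p x) :=
    (analyticAt_Fi (y := (b x, φ x, p x)) hθ hH).differentiableAt.hasFDerivAt
  have h2 : HasFDerivAt (fun y : ℂ × ℂ => ((b y, φ y, p y) : ℂ × ℂ × ℂ))
      ((fderiv ℂ b x).prod ((fderiv ℂ φ x).prod (fderiv ℂ p x))) x :=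
    hb.hasFDerivAt.prodMk (hφ.hasFDerivAt.prodMk hp.hasFDerivAt)
  have h3 := h1.comp x h2
  have h4 : HasFDerivAt (Fi θ H ∘ fun y : ℂ × ℂ => ((b y, φ y, p y) : ℂ × ℂ × ℂ))
      (0 : ℂ × ℂ →L[ℂ] ℂ) x := by
    refine (hasFDerivAt_const (0 : ℂ) x).congr_of_eventuallyEq ?_
    filter_upwards [hinc] with y hy
    exact incS_iff.1 hy
  have h5 := h3.unique h4
  have hdec : ∀ u v w : ℂ, L (u, v, w) = u * L (1, 0, 0) + v * L (0, 1, 0) + w * L (0, 0, 1) := by
    intro u v w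
    have : ((u, v, w) : ℂ × ℂ × ℂ) = u • (1, 0, 0) + v • (0, 1, 0) + w • (0, 0, 1) := by
      simp
    rw [this, map_add, map_add, map_smul, map_smul, map_smul]
    simp
  have h6 : ∀ v : ℂ × ℂ, fderiv ℂ φ x v * L (0, 1, 0) + fderiv ℂ p x v * L (0, 0, 1) = 0 := by
    intro v
    have h7 := congrArg (fun M : ℂ × ℂ →L[ℂ] ℂ => M v) h5
    simp only [ContinuousLinearMap.comp_apply, ContinuousLinearMap.prod_apply,
      zero_apply] at h7
    rw [hdec, hA, mul_zero, zero_add] at h7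
    exact h7
  have h7 := h6 (1, 0)
  have h8 := h6 (0, 1)
  have e1 : q1 φ x = fderiv ℂ φ x (1, 0) := rfl
  have e2 : q2 φ x = fderiv ℂ φ x (0, 1) := rfl
  have e3 : q1 p x = fderiv ℂ p x (1, 0) := rfl
  have e4 : q2 p x = fderiv ℂ p x (0, 1) := rfl
  rw [← e1, ← e3] at h7
  rw [← e2, ← e4] at h8
  have h9 : (q1 φ x * q2 p x - q2 φ x * q1 p x) * L (0, 1, 0) = 0 := by
    linear_combination q2 p x * h7 - q1 p x * h8
  have h10 : (q1 φ x * q2 p x - q2 φ x * q1 p x) * L (0, 0, 1) = 0 := by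
    linear_combination q1 φ x * h8 - q2 φ x * h7
  have h11 : L (0, 1, 0) = 0 := by
    rcases mul_eq_zero.1 h9 with h | h
    · exact absurd h harea
    · exact h
  have h12 : L (0, 0, 1) = 0 := by
    rcases mul_eq_zero.1 h10 with h | h
    · exact absurd h harea
    · exact h
  rw [hL, fderiv_Fi_p hθ hH] at h12
  rw [hL, fderiv_Fi_phi hθ hH, h12] at h11
  have h13 := incS_iff.1 hinc.self_of_nhds
  unfold Fi at h13
  simp only [h12] at h13
  have hsc := Complex.sin_sq_add_cos_sq (φ x - θ (b x))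
  have h14 : deriv H (b x) = 0 := by
    linear_combination (-deriv H (b x)) * hsc - Complex.sin (φ x - θ (b x)) * h13 -
      Complex.cos (φ x - θ (b x)) * h11
  rw [h12, h14] at hWR
  norm_num at hWR

/-- local uniqueness of the root of the incidence function -/
theorem root_unique {z₁ φ₁ p₁ : ℂ} (hθ : AnalyticAt ℂ θ z₁) (hH : AnalyticAt ℂ H z₁)
    (hA : fderiv ℂ (Fi θ H) (z₁, φ₁, p₁) (1, 0, 0) ≠ 0) :
    ∀ᶠ y : ℂ × ℂ × (ℂ × ℂ) in 𝓝 (z₁, z₁, (φ₁, p₁)),
      Fi θ H (y.1, y.2.2.1, y.2.2.2) = 0 → Fi θ H (y.2.1, y.2.2.1, y.2.2.2) = 0 → y.1 = y.2.1 := by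
  set L := fderiv ℂ (Fi θ H) (z₁, φ₁, p₁) with hL
  have h1 : HasStrictFDerivAt (Fi θ H) L (z₁, φ₁, p₁) :=
    (analyticAt_Fi (y := (z₁, φ₁, p₁)) hθ hH).hasStrictFDerivAt
  have h2 := h1.isLittleO.def (half_pos (norm_pos_iff.2 hA))
  have h3 : Tendsto (fun y : ℂ × ℂ × (ℂ × ℂ) =>
      (((y.1, y.2.2.1, y.2.2.2) : ℂ × ℂ × ℂ), ((y.2.1, y.2.2.1, y.2.2.2) : ℂ × ℂ × ℂ)))
      (𝓝 (z₁, z₁, (φ₁, p₁))) (𝓝 ((z₁, φ₁, p₁), (z₁, φ₁, p₁))) := by
    have : Continuous (fun y : ℂ × ℂ × (ℂ × ℂ) =>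
      (((y.1, y.2.2.1, y.2.2.2) : ℂ × ℂ × ℂ), ((y.2.1, y.2.2.1, y.2.2.2) : ℂ × ℂ × ℂ))) := by
      fun_prop
    exact this.tendsto (z₁, z₁, (φ₁, p₁))
  filter_upwards [h3.eventually h2] with y hy e1 e2
  simp only [e1, e2, sub_self, zero_sub, norm_neg] at hy
  have e3 : ((y.1, y.2.2.1, y.2.2.2) : ℂ × ℂ × ℂ) - (y.2.1, y.2.2.1, y.2.2.2) =
      (y.1 - y.2.1) • ((1, 0, 0) : ℂ × ℂ × ℂ) := by
    refine Prod.ext ?_ (Prod.ext ?_ ?_) <;> simp
  rw [e3, map_smul, norm_smul, norm_smul] at hy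
  have e4 : ‖((1, 0, 0) : ℂ × ℂ × ℂ)‖ = 1 := by
    simp [Prod.norm_def]
  rw [e4, mul_one] at hy
  by_contra hne
  have h5 : 0 < ‖y.1 - y.2.1‖ := norm_pos_iff.2 (sub_ne_zero.2 hne)
  have h6 : 0 < ‖L (1, 0, 0)‖ := norm_pos_iff.2 hA
  nlinarith

/-- the data of a table, extended to the label domain `V` -/
structure Lab (θ H : ℂ → ℂ) (V : Set ℂ) : Prop where
  open' : IsOpen V
  sh : ∀ z, z + 1 ∈ V ↔ z ∈ V
  θ_diff : DifferentiableOn ℂ θ V
  H_diff : DifferentiableOn ℂ H V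
  θ_per : ∀ z ∈ V, θ (z + 1) = θ z + 2 * Real.pi
  H_per : ∀ z ∈ V, H (z + 1) = H z
  wr : ∀ z ∈ V, deriv θ z * deriv (deriv H) z - deriv (deriv θ) z * deriv H z +
      deriv θ z ^ 3 * H z = -1

namespace Lab

variable {V : Set ℂ} (h : Lab θ H V)

include h

lemma θ_an {z : ℂ} (hz : z ∈ V) : AnalyticAt ℂ θ z := h.θ_diff.analyticAt (h.open'.mem_nhds hz)

lemma H_an {z : ℂ} (hz : z ∈ V) : AnalyticAt ℂ H z := h.H_diff.analyticAt (h.open'.mem_nhds hz)

lemma Fi_one {z φ p : ℂ} (hz : z ∈ V) : Fi θ H (z + 1, φ, p) = Fi θ H (z, φ, p) := by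
  have h1 : deriv θ (z + 1) = deriv θ z := by
    have h2 : (fun w => θ (w + 1)) =ᶠ[𝓝 z] fun w => θ w + 2 * Real.pi := by
      filter_upwards [h.open'.mem_nhds hz] with w hw
      exact h.θ_per w hw
    rw [← deriv_comp_add_const θ 1 z, h2.deriv_eq, deriv_add_const]
  have h3 : deriv H (z + 1) = deriv H z := by
    have h2 : (fun w => H (w + 1)) =ᶠ[𝓝 z] H := by
      filter_upwards [h.open'.mem_nhds hz] with w hw
      exact h.H_per w hw
    rw [← deriv_comp_add_const H 1 z, h2.deriv_eq]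
  unfold Fi
  simp only [h1, h3, h.θ_per z hz, h.H_per z hz]
  have e1 : φ - (θ z + 2 * Real.pi) = (φ - θ z) - 2 * Real.pi := by ring
  rw [e1, Complex.cos_sub_two_pi, Complex.sin_sub_two_pi]

lemma Fi_int (k : ℤ) {z φ p : ℂ} (hz : z ∈ V) :
    z + k ∈ V ∧ Fi θ H (z + k, φ, p) = Fi θ H (z, φ, p) := by
  induction k using Int.induction_on with
  | zero => simp [hz]
  | succ i ih =>
    obtain ⟨h1, h2⟩ := ih
    have e : z + ((i : ℤ) + 1 : ℤ) = (z + ((i : ℤ) : ℂ)) + 1 := by push_cast; ring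
    rw [e]
    exact ⟨(h.sh _).2 h1, by rw [h.Fi_one h1, h2]⟩
  | pred i ih =>
    obtain ⟨h1, h2⟩ := ih
    have e : z + (-(i : ℤ) : ℤ) = (z + (-(i : ℤ) - 1 : ℤ)) + 1 := by push_cast; ring
    rw [e] at h1 h2
    have h3 := (h.sh _).1 h1
    exact ⟨h3, by rw [← h2, h.Fi_one h3]⟩

end Lab

/-- **the label step**: `B1 - B0 = k` identically or nowhere -/
theorem step_dich {V : Set ℂ} (h : Lab θ H V) {D : Set (ℂ × ℂ)} (hD : IsOpen D)
    (hDc : IsPreconnected D) {φ p B0 B1 : ℂ × ℂ → ℂ} (hφ : DifferentiableOn ℂ φ D)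
    (hp : DifferentiableOn ℂ p D) (hB0 : DifferentiableOn ℂ B0 D)
    (hB1 : DifferentiableOn ℂ B1 D) (hV0 : ∀ x ∈ D, B0 x ∈ V) (hV1 : ∀ x ∈ D, B1 x ∈ V)
    (hi0 : ∀ x ∈ D, IncS θ H (φ x) (p x) (B0 x)) (hi1 : ∀ x ∈ D, IncS θ H (φ x) (p x) (B1 x))
    (harea : ∀ x ∈ D, q1 φ x * q2 p x - q2 φ x * q1 p x ≠ 0) (k : ℤ) :
    (∀ x ∈ D, B1 x - B0 x ≠ k) ∨ (∀ x ∈ D, B1 x - B0 x = k) := by
  by_cases hex : ∃ x ∈ D, B1 x - B0 x = k
  swap
  · left
    intro x hx he
    exact hex ⟨x, hx, he⟩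
  right
  obtain ⟨x, hx, he⟩ := hex
  have hxn := hD.mem_nhds hx
  have hA := simple_root (hφ.differentiableAt hxn) (hp.differentiableAt hxn)
    (hB0.differentiableAt hxn) (h.θ_an (hV0 x hx)) (h.H_an (hV0 x hx)) (h.wr _ (hV0 x hx))
    (by filter_upwards [hxn] with y hy; exact hi0 y hy) (harea x hx)
  have hR := root_unique (h.θ_an (hV0 x hx)) (h.H_an (hV0 x hx)) hA
  have hlim : Tendsto (fun y : ℂ × ℂ => ((B0 y, B1 y - k, (φ y, p y)) : ℂ × ℂ × (ℂ × ℂ)))
      (𝓝 x) (𝓝 (B0 x, B0 x, (φ x, p x))) := by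
    have e : B0 x = B1 x - k := by linear_combination -he
    nth_rewrite 2 [e]
    exact ((hB0.differentiableAt hxn).continuousAt.tendsto).prodMk_nhds
      ((((hB1.differentiableAt hxn).continuousAt.tendsto).sub_const _).prodMk_nhds
      (((hφ.differentiableAt hxn).continuousAt.tendsto).prodMk_nhds
      ((hp.differentiableAt hxn).continuousAt.tendsto)))
  have hev : ∀ᶠ y in 𝓝 x, B1 y - B0 y - k = 0 := by
    filter_upwards [hlim.eventually hR, hxn] with y hy hyD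
    have h1 := hy (incS_iff.1 (hi0 y hyD)) (by
      have h2 := (h.Fi_int (-k) (φ := φ y) (p := p y) (hV1 y hyD)).2
      have e : B1 y + ((-k : ℤ) : ℂ) = B1 y - k := by push_cast; ring
      rw [e] at h2
      rw [h2]
      exact incS_iff.1 (hi1 y hyD))
    have h1' : B0 y = B1 y - k := h1
    linear_combination -h1'
  have hd : DifferentiableOn ℂ (fun y => B1 y - B0 y - k) D :=
    DifferentiableOn.sub_const (DifferentiableOn.fun_sub hB1 hB0) _
  have han : AnalyticOnNhd ℂ (fun y => B1 y - B0 y - k) D :=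
    Crest.Agent.R266.SCV.analyticOnNhd_of_differentiableOn hD hd
  have h2 := han.eqOn_zero_of_preconnected_of_eventuallyEq_zero hDc hx hev
  intro y hy
  have h3 := h2 hy
  simp only [Pi.zero_apply] at h3
  linear_combination h3

/-- **the label step omits all integers** -/
theorem step_not_int {V : Set ℂ} (h : Lab θ H V) {D : Set (ℂ × ℂ)} (hD : IsOpen D)
    (hDc : IsPreconnected D) {φ p B0 B1 : ℂ × ℂ → ℂ} (hφ : DifferentiableOn ℂ φ D)
    (hp : DifferentiableOn ℂ p D) (hB0 : DifferentiableOn ℂ B0 D)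
    (hB1 : DifferentiableOn ℂ B1 D) (hV0 : ∀ x ∈ D, B0 x ∈ V) (hV1 : ∀ x ∈ D, B1 x ∈ V)
    (hi0 : ∀ x ∈ D, IncS θ H (φ x) (p x) (B0 x)) (hi1 : ∀ x ∈ D, IncS θ H (φ x) (p x) (B1 x))
    (harea : ∀ x ∈ D, q1 φ x * q2 p x - q2 φ x * q1 p x ≠ 0) {x₀ : ℂ × ℂ} (hx₀ : x₀ ∈ D)
    (h₀ : ∀ k : ℤ, B1 x₀ - B0 x₀ ≠ k) (k : ℤ) : ∀ x ∈ D, B1 x - B0 x ≠ k := by
  rcases step_dich h hD hDc hφ hp hB0 hB1 hV0 hV1 hi0 hi1 harea k with h1 | h1
  · exact h1
  · exact absurd (h1 x₀ hx₀) (h₀ k)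

end Crest.Agent.R102.StepT628
end
end

-- ▼ part R102/Pick_628
section

/-!
Row 102, part (C), T1-E, (AP): the one-variable parts (helper628, after helper516).

* `step_log` (1a): an odd step function `s(w) = w + O(w³)` on `|w| < r` which omits the integers
  for `w ≠ 0` satisfies `s = w exp g`, `|g| ≤ 128 log (K / r) (|w| / r)²` for `|w| < r / 8`;
* `picking` (1b): `y'' = G y`, `|G + y² / 8| ≤ 2 Γ²` on a strip ⇒ `|y| ≤ 18 Γ`, `|G| ≤ 43 Γ²`.
-/

set_option autoImplicit false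

open Set Filter Metric Topology
open Crest.Agent.R102.M948 (schottky Psi Psi_pos exists_log)

noncomputable section

namespace Crest.Agent.R102.Pick628

/-- a constant (huge) -/
def K0 : ℝ := Real.exp (Real.pi * (3 + 2 * 1 + 128 * (1 / 2) / (1 - 1 / 2)))

lemma K0_ge : 8 ≤ K0 := by
  unfold K0
  have h1 : (8 : ℝ) ≤ Real.pi * (3 + 2 * 1 + 128 * (1 / 2) / (1 - 1 / 2)) := by
    have := Real.pi_gt_three
    norm_num
    nlinarith
  have h2 := Real.add_one_le_exp (Real.pi * (3 + 2 * 1 + 128 * (1 / 2) / (1 - 1 / 2)))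
  linarith

lemma Psi_half : Psi 1 (1 / 2) = Real.exp (Real.pi * K0) := rfl

lemma exp_pi_I_eq_one {s : ℂ} (h : Complex.exp (Complex.I * Real.pi * s) = 1) :
    ∃ k : ℤ, s = k := by
  rw [Complex.exp_eq_one_iff] at h
  obtain ⟨n, hn⟩ := h
  refine ⟨2 * n, ?_⟩
  have hpi : (Real.pi : ℂ) ≠ 0 := by exact_mod_cast Real.pi_ne_zero
  have h1 : (Complex.I * Real.pi) * s = (Complex.I * Real.pi) * (2 * n) := by
    rw [hn]; ring
  have h2 := mul_left_cancel₀ (mul_ne_zero Complex.I_ne_zero hpi) h1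
  rw [h2]; push_cast; ring

lemma exp_pi_I_eq_neg_one {s : ℂ} (h : Complex.exp (Complex.I * Real.pi * s) = -1) :
    ∃ k : ℤ, s = k := by
  have h1 : Complex.exp (Complex.I * Real.pi * (s + 1)) = 1 := by
    rw [mul_add, Complex.exp_add, h, mul_one, mul_comm Complex.I (Real.pi : ℂ),
      Complex.exp_pi_mul_I]
    norm_num
  obtain ⟨k, hk⟩ := exp_pi_I_eq_one h1
  exact ⟨k - 1, by push_cast; rw [← hk]; ring⟩

/-- the step is bounded -/
theorem step_bound {r : ℝ} (hr : 0 < r) {s : ℂ → ℂ} (hs : DifferentiableOn ℂ s (ball 0 r))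
    (h0 : s 0 = 0)
    (hZ : ∀ w ∈ ball (0 : ℂ) r, w ≠ 0 → ∀ k : ℤ, s w ≠ k) {w : ℂ} (hw : ‖w‖ ≤ r / 4) :
    ‖s w‖ ≤ 8 * K0 * ‖w‖ / r := by
  have hK := K0_ge
  have him : ∀ w : ℂ, ‖w‖ ≤ r / 2 → -(s w).im ≤ K0 := by
    intro w hw
    set h : ℂ → ℂ := fun w => -Complex.exp (Complex.I * Real.pi * s w) with hh
    have hd : DifferentiableOn ℂ h (ball 0 r) := (hs.const_mul _).cexp.neg
    have hn0 : ∀ z ∈ ball (0 : ℂ) r, h z ≠ 0 := fun z _ =>
      neg_ne_zero.2 (Complex.exp_ne_zero _)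
    have hn1 : ∀ z ∈ ball (0 : ℂ) r, h z ≠ 1 := by
      intro z hz h1
      rw [hh] at h1
      have h2 : Complex.exp (Complex.I * Real.pi * s z) = -1 := by
        simp only at h1
        linear_combination -h1
      by_cases hz0 : z = 0
      · rw [hz0, h0, mul_zero, Complex.exp_zero] at h2
        norm_num at h2
      · obtain ⟨k, hk⟩ := exp_pi_I_eq_neg_one h2
        exact hZ z hz hz0 k hk
    have hc : ‖h 0‖ ≤ 1 := by
      rw [hh]; simp [h0]
    have h3 := schottky hr hd hn0 hn1 hc (θ := 1 / 2) (by norm_num) (by norm_num) w (by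
      rw [mem_closedBall, dist_zero_right]; linarith)
    rw [Psi_half, hh] at h3
    simp only at h3
    rw [norm_neg, Complex.norm_exp, Real.exp_le_exp] at h3
    have h4 : (Complex.I * Real.pi * s w).re = Real.pi * (-(s w).im) := by
      simp [Complex.mul_re, Complex.mul_im]
    rw [h4] at h3
    exact le_of_mul_le_mul_left h3 Real.pi_pos
  have hw4 : ‖w‖ < r / 2 := by linarith
  have h1 := Complex.borelCaratheodory_zero (f := fun w => Complex.I * s w) (R := r / 2)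
    (M := K0) (by linarith)
    ((hs.mono (ball_subset_ball (by linarith))).const_mul _) (fun z hz => by
      have hz' : ‖z‖ < r / 2 := by simpa using hz
      change (Complex.I * s z).re ≤ K0
      have : (Complex.I * s z).re = -(s z).im := by simp
      rw [this]; exact him z hz'.le) (by linarith) (z := w) (by simpa using hw4) (by simp [h0])
  simp only [norm_mul, Complex.norm_I, one_mul] at h1
  refine h1.trans ?_
  have h2 : 0 < r / 2 - ‖w‖ := by linarith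
  rw [div_le_div_iff₀ h2 hr]
  have : r ≤ 4 * (r / 2 - ‖w‖) := by linarith
  nlinarith [mul_nonneg (show (0:ℝ) ≤ 2 * K0 by linarith) (norm_nonneg w)]

/-- **(1a)** -/
theorem step_log {r : ℝ} (hr : 0 < r) (hr1 : r ≤ 1) {s : ℂ → ℂ}
    (hs : DifferentiableOn ℂ s (ball 0 r)) (h0 : s 0 = 0) (h1 : deriv s 0 = 1)
    (hodd : ∀ w ∈ ball (0 : ℂ) r, s (-w) = -s w)
    (hZ : ∀ w ∈ ball (0 : ℂ) r, w ≠ 0 → ∀ k : ℤ, s w ≠ k) :
    ∃ g : ℂ → ℂ, DifferentiableOn ℂ g (ball 0 (r / 4)) ∧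
      (∀ w ∈ ball (0 : ℂ) (r / 4), s w = w * Complex.exp (g w)) ∧
      ∀ w ∈ ball (0 : ℂ) (r / 8), ‖g w‖ ≤ 128 * Real.log (8 * K0 / r) * (‖w‖ / r) ^ 2 := by
  have hK := K0_ge
  set q : ℂ → ℂ := dslope s 0 with hq
  have hr4 : 0 < r / 4 := by linarith
  have hsub : ball (0 : ℂ) (r / 4) ⊆ ball 0 r := ball_subset_ball (by linarith)
  have hqd : DifferentiableOn ℂ q (ball 0 (r / 4)) :=
    (Complex.differentiableOn_dslope (ball_mem_nhds _ hr4)).2 (hs.mono hsub)
  have hsq : ∀ w, s w = w * q w := by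
    intro w
    have := sub_smul_dslope s 0 w
    rw [h0, sub_zero, sub_zero, smul_eq_mul] at this
    exact this.symm
  have hq0 : q 0 = 1 := by rw [hq, dslope_same, h1]
  have hqn : ∀ w ∈ ball (0 : ℂ) (r / 4), q w ≠ 0 := by
    intro w hw h
    by_cases hw0 : w = 0
    · rw [hw0, hq0] at h; exact one_ne_zero h
    · have h2 := hsq w
      rw [h, mul_zero] at h2
      exact hZ w (hsub hw) hw0 0 (by rw [h2]; simp)
  have hqb : ∀ w ∈ ball (0 : ℂ) (r / 4), ‖q w‖ ≤ 8 * K0 / r := by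
    intro w hw
    have hw' : ‖w‖ < r / 4 := by simpa using hw
    by_cases hw0 : w = 0
    · rw [hw0, hq0, norm_one, le_div_iff₀ hr]; linarith
    · have h2 := step_bound hr hs h0 hZ hw'.le
      rw [hsq w, norm_mul] at h2
      have h3 : 0 < ‖w‖ := norm_pos_iff.2 hw0
      have h4 : 8 * K0 * ‖w‖ / r = ‖w‖ * (8 * K0 / r) := by ring
      rw [h4] at h2
      exact le_of_mul_le_mul_left h2 h3
  obtain ⟨L, hL, hLe⟩ := exists_log hqd hqn
  set g : ℂ → ℂ := fun w => L w - L 0 with hg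
  have hge : ∀ w ∈ ball (0 : ℂ) (r / 4), Complex.exp (g w) = q w := by
    intro w hw
    have h2 := hLe 0 (mem_ball_self hr4)
    rw [hg]
    simp only
    rw [Complex.exp_sub, hLe w hw, h2, hq0, div_one]
  have hgd : DifferentiableOn ℂ g (ball 0 (r / 4)) := hL.sub_const _
  have hg0 : g 0 = 0 := by rw [hg]; simp
  set M : ℝ := Real.log (8 * K0 / r) with hM
  have hKr : 8 ≤ 8 * K0 / r := by
    rw [le_div_iff₀ hr]; nlinarith
  have hMpos : 0 < M := Real.log_pos (by linarith)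
  have hgre : ∀ w ∈ ball (0 : ℂ) (r / 4), (g w).re ≤ M := by
    intro w hw
    have h2 : Real.exp (g w).re ≤ 8 * K0 / r := by
      rw [← Complex.norm_exp, hge w hw]; exact hqb w hw
    rw [hM, Real.le_log_iff_exp_le (by linarith)]
    exact h2
  have hgb : ∀ w ∈ ball (0 : ℂ) (r / 8), ‖g w‖ ≤ 2 * M := by
    intro w hw
    have hw' : ‖w‖ < r / 8 := by simpa using hw
    have h2 := Complex.borelCaratheodory_zero hMpos hgd (fun z hz => hgre z hz) hr4
      (z := w) (by rw [mem_ball_zero_iff]; linarith) hg0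
    refine h2.trans ?_
    rw [div_le_iff₀ (by linarith)]
    nlinarith
  -- `g` is even
  have hneg : ∀ w ∈ ball (0 : ℂ) (r / 4), -w ∈ ball (0 : ℂ) (r / 4) := by
    intro w hw; simpa using hw
  have hqeven : ∀ w ∈ ball (0 : ℂ) (r / 4), q (-w) = q w := by
    intro w hw
    by_cases hw0 : w = 0
    · rw [hw0, neg_zero]
    · have h2 := hodd w (hsub hw)
      rw [hsq w, hsq (-w)] at h2
      have h3 : w * (q (-w) - q w) = 0 := by linear_combination -h2
      rcases mul_eq_zero.1 h3 with h | h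
      · exact absurd h hw0
      · exact sub_eq_zero.1 h
  have heven : ∀ w ∈ ball (0 : ℂ) (r / 4), g (-w) = g w := by
    set d : ℂ → ℂ := fun w => g (-w) - g w with hd
    have hdd : DifferentiableOn ℂ d (ball 0 (r / 4)) :=
      (hgd.comp differentiable_neg.differentiableOn hneg).sub hgd
    have hde : ∀ w ∈ ball (0 : ℂ) (r / 4), Complex.exp (d w) = 1 := by
      intro w hw
      rw [hd]
      simp only
      rw [Complex.exp_sub, hge _ (hneg w hw), hge w hw, hqeven w hw, div_self (hqn w hw)]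
    have hd' : ∀ w ∈ ball (0 : ℂ) (r / 4), deriv d w = 0 := by
      intro w hw
      have hwn := isOpen_ball.mem_nhds hw
      have h2 := ((hdd.differentiableAt hwn).hasDerivAt).cexp
      have h3 : HasDerivAt (fun x => Complex.exp (d x)) 0 w := by
        refine (hasDerivAt_const w (1 : ℂ)).congr_of_eventuallyEq ?_
        filter_upwards [hwn] with x hx
        exact hde x hx
      have h4 := h2.unique h3
      rw [hde w hw, one_mul] at h4
      exact h4
    intro w hw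
    have h5 := Convex.norm_image_sub_le_of_norm_deriv_le (𝕜 := ℂ) (f := d) (C := 0)
      (s := ball 0 (r / 4)) (fun x hx => hdd.differentiableAt (isOpen_ball.mem_nhds hx))
      (fun x hx => by rw [hd' x hx]; simp) (convex_ball _ _) (mem_ball_self hr4) hw
    rw [zero_mul] at h5
    have h6 : d w - d 0 = 0 := norm_le_zero_iff.1 h5
    have h7 : d 0 = 0 := by rw [hd]; simp
    rw [h7, sub_zero] at h6
    exact sub_eq_zero.1 h6
  have hg1 : deriv g 0 = 0 := by
    have h2 : (fun w => g (-w)) =ᶠ[𝓝 0] g := by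
      filter_upwards [ball_mem_nhds (0 : ℂ) hr4] with w hw
      exact heven w hw
    have h3 := h2.deriv_eq
    rw [deriv_comp_neg, neg_zero] at h3
    have h4 : (2 : ℂ) * deriv g 0 = 0 := by linear_combination -h3
    simpa using h4
  refine ⟨g, hgd, fun w hw => by rw [hge w hw]; exact hsq w, fun w hw => ?_⟩
  have hlo : (fun w => g w - g 0) =o[𝓝 0] (fun w : ℂ => ‖w - 0‖ ^ 1) := by
    have h2 : HasDerivAt g 0 0 := by
      have h2' := (hgd.differentiableAt (ball_mem_nhds _ hr4)).hasDerivAt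
      rwa [hg1] at h2'
    have h3 := h2.isLittleO
    simp only [smul_zero, sub_zero] at h3 ⊢
    simpa using h3.norm_right
  have h8 := Complex.dist_le_mul_div_pow_of_mapsTo_ball_of_isLittleO (f := g) (c := 0) (z := w)
    (R₁ := r / 8) (R₂ := 2 * M) (n := 1) (hgd.mono (ball_subset_ball (by linarith)))
    (fun z hz => by rw [hg0, mem_closedBall, dist_zero_right]; exact hgb z hz) hlo hw
  rw [hg0, dist_zero_right, dist_zero_right] at h8
  refine h8.trans (le_of_eq ?_)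
  have h9 : ‖w‖ / (r / 8) = 8 * (‖w‖ / r) := by field_simp
  rw [h9]
  ring

/-- consequences: `s / w` and the third derivative -/
theorem step_est {r : ℝ} (hr : 0 < r) (hr1 : r ≤ 1) {s : ℂ → ℂ}
    (hs : DifferentiableOn ℂ s (ball 0 r)) (h0 : s 0 = 0) (h1 : deriv s 0 = 1)
    (hodd : ∀ w ∈ ball (0 : ℂ) r, s (-w) = -s w)
    (hZ : ∀ w ∈ ball (0 : ℂ) r, w ≠ 0 → ∀ k : ℤ, s w ≠ k) :
    (∀ w ∈ ball (0 : ℂ) (r / 8), 128 * Real.log (8 * K0 / r) * (‖w‖ / r) ^ 2 ≤ 1 →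
      ‖s w - w‖ ≤ 256 * Real.log (8 * K0 / r) * (‖w‖ / r) ^ 2 * ‖w‖) ∧
    ‖iteratedDeriv 3 s 0‖ ≤ 1536 * Real.log (8 * K0 / r) / r ^ 2 := by
  have hK := K0_ge
  obtain ⟨g, hgd, hsg, hgb⟩ := step_log hr hr1 hs h0 h1 hodd hZ
  set M : ℝ := Real.log (8 * K0 / r) with hM
  have hM1 : 1 ≤ M := by
    rw [hM, Real.le_log_iff_exp_le (by positivity)]
    have h2 : Real.exp 1 ≤ 8 := by
      have := Real.exp_one_lt_d9
      linarith
    refine h2.trans ?_
    rw [le_div_iff₀ hr]; nlinarith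
  have key : ∀ w ∈ ball (0 : ℂ) (r / 8), 128 * M * (‖w‖ / r) ^ 2 ≤ 1 →
      ‖s w - w‖ ≤ 256 * M * (‖w‖ / r) ^ 2 * ‖w‖ := by
    intro w hw hle
    have hgw := hgb w hw
    have hw4 : w ∈ ball (0 : ℂ) (r / 4) := ball_subset_ball (by linarith) hw
    have h3 := Complex.norm_exp_sub_one_le (hgw.trans hle)
    have h4 : s w - w = (Complex.exp (g w) - 1) * w := by rw [hsg w hw4]; ring
    rw [h4, norm_mul]
    have h5 : ‖Complex.exp (g w) - 1‖ ≤ 256 * M * (‖w‖ / r) ^ 2 := by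
      refine h3.trans ?_
      linarith
    exact mul_le_mul_of_nonneg_right h5 (norm_nonneg _)
  refine ⟨key, ?_⟩
  -- Cauchy on the circle `128 M (ρ / r)² = 1`
  set ρ : ℝ := r / Real.sqrt (128 * M) with hρ
  have hsq : 0 < Real.sqrt (128 * M) := Real.sqrt_pos.2 (by linarith)
  have hsq8 : 8 < Real.sqrt (128 * M) := by
    rw [Real.lt_sqrt (by norm_num)]; nlinarith
  have hρ0 : 0 < ρ := div_pos hr hsq
  have hρ8 : ρ < r / 8 := by
    rw [hρ]; exact div_lt_div_of_pos_left hr (by norm_num) hsq8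
  have hρ2 : 128 * M * (ρ / r) ^ 2 = 1 := by
    have h2 : ρ / r = 1 / Real.sqrt (128 * M) := by
      rw [hρ]; field_simp
    rw [h2, div_pow, one_pow, Real.sq_sqrt (by linarith)]
    field_simp
  have hdc : DiffContOnCl ℂ (fun w => s w - w) (ball 0 ρ) := by
    have h2 : DifferentiableOn ℂ (fun w => s w - w) (ball 0 r) :=
      DifferentiableOn.fun_sub hs differentiableOn_id
    refine DifferentiableOn.diffContOnCl (h2.mono ?_)
    refine closure_ball_subset_closedBall.trans (closedBall_subset_ball ?_)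
    linarith
  have hC : ∀ z ∈ sphere (0 : ℂ) ρ, ‖s z - z‖ ≤ 2 * ρ := by
    intro z hz
    have hz' : ‖z‖ = ρ := by simpa using hz
    have h2 := key z (by rw [mem_ball_zero_iff, hz']; exact hρ8) (by rw [hz', hρ2])
    rw [hz'] at h2
    refine h2.trans (le_of_eq ?_)
    linear_combination 2 * ρ * hρ2
  have h3 := Complex.norm_iteratedDeriv_le_of_forall_mem_sphere_norm_le 3 hρ0 hdc hC
  have h4 : iteratedDeriv 3 (fun w => s w - w) 0 = iteratedDeriv 3 s 0 := by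
    have h5 : ContDiffAt ℂ 3 s 0 :=
      ((hs.analyticAt (ball_mem_nhds _ hr)).contDiffAt)
    have h6 : ContDiffAt ℂ 3 (fun w : ℂ => w) 0 := contDiffAt_id
    rw [iteratedDeriv_fun_sub h5 h6]
    have h7 : iteratedDeriv 3 (fun w : ℂ => w) 0 = 0 := by
      rw [iteratedDeriv_succ', iteratedDeriv_succ']
      simp
    rw [h7, sub_zero]
  rw [h4] at h3
  refine h3.trans (le_of_eq ?_)
  have h8 : ρ ^ 2 = r ^ 2 / (128 * M) := by
    rw [hρ, div_pow, Real.sq_sqrt (by linarith)]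
  have h9 : ρ ^ 3 = r ^ 2 / (128 * M) * ρ := by rw [← h8]; ring
  rw [h9]
  have : (Nat.factorial 3 : ℝ) = 6 := by norm_num [Nat.factorial]
  rw [this]
  field_simp
  ring

/-- **(1b) picking** -/
theorem picking {y G : ℂ → ℂ} {h₁ Γ : ℝ} (hΓ : 0 < Γ) (hy : Differentiable ℂ y)
    (hper : ∀ z, y (z + 1) = y z) (hyG : ∀ z, |z.im| < h₁ → deriv (deriv y) z = G z * y z)
    (hJ : ∀ z, |z.im| < h₁ → ‖G z + y z ^ 2 / 8‖ ≤ 2 * Γ ^ 2) :
    ∀ z, |z.im| ≤ h₁ - 1 / Γ → ‖y z‖ ≤ 18 * Γ ∧ ‖G z‖ ≤ 43 * Γ ^ 2 := by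
  -- weight
  set lam : ℂ → ℝ := fun z => min 1 (Γ * (h₁ - |z.im|)) with hlam
  have hlamc : Continuous lam := by
    rw [hlam]; fun_prop
  have key : ∀ z, |z.im| ≤ h₁ → ‖y z‖ * lam z ≤ 18 * Γ := by
    by_contra hcon
    push Not at hcon
    obtain ⟨z₀, hz₀, hlt⟩ := hcon
    -- maximum on the closed strip
    set Kc : Set ℂ := (Icc (0 : ℝ) 1 ×ℂ Icc (-h₁) h₁) with hKc
    have hKcomp : IsCompact Kc := isCompact_Icc.reProdIm isCompact_Icc
    have hperZ : ∀ (n : ℤ) (z : ℂ), y (z + n) = y z := by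
      intro n z
      induction n using Int.induction_on with
      | zero => simp
      | succ i ih =>
        have e : z + ((i : ℤ) + 1 : ℤ) = (z + ((i : ℤ) : ℂ)) + 1 := by push_cast; ring
        rw [e, hper, ih]
      | pred i ih =>
        have e : z + (-(i : ℤ) : ℤ) = (z + (-(i : ℤ) - 1 : ℤ)) + 1 := by push_cast; ring
        rw [e, hper] at ih
        exact ih
    have hshift : ∀ z : ℂ, |z.im| ≤ h₁ → ∃ z' ∈ Kc, ‖y z'‖ * lam z' = ‖y z‖ * lam z := by
      intro z hz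
      refine ⟨z + ((-⌊z.re⌋ : ℤ) : ℂ), ?_, ?_⟩
      · rw [hKc, Complex.mem_reProdIm]
        have h1 := Int.floor_le z.re
        have h2 := (Int.lt_floor_add_one z.re).le
        refine ⟨?_, ?_⟩
        · simp only [Complex.add_re, Int.cast_neg, Complex.neg_re, Complex.intCast_re]
          exact ⟨by linarith, by linarith⟩
        · simp only [Complex.add_im, Complex.intCast_im, add_zero]
          exact abs_le.1 hz
      · rw [hperZ, hlam]
        simp
    have hKne : Kc.Nonempty := by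
      obtain ⟨z', hz', _⟩ := hshift z₀ hz₀
      exact ⟨z', hz'⟩
    obtain ⟨zs, hzs, hmax⟩ := hKcomp.exists_isMaxOn hKne
      ((hy.continuous.norm.mul hlamc).continuousOn (s := Kc))
    have hmax' : ∀ z : ℂ, |z.im| ≤ h₁ → ‖y z‖ * lam z ≤ ‖y zs‖ * lam zs := by
      intro z hz
      obtain ⟨z', hz', he⟩ := hshift z hz
      rw [← he]
      exact hmax hz'
    set η : ℝ := ‖y zs‖ with hη
    have hbig : 18 * Γ < η * lam zs := hlt.trans_le (hmax' z₀ hz₀)
    have hlam1 : ∀ z, lam z ≤ 1 := fun z => min_le_left _ _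
    have hη0 : 0 ≤ η := norm_nonneg _
    have hlampos : 0 < lam zs := by
      by_contra h
      push Not at h
      nlinarith
    have hηpos : 0 < η := by
      rcases hη0.eq_or_lt with h | h
      · rw [← h, zero_mul] at hbig; linarith
      · exact h
    have hη18 : 18 * Γ < η := by
      have := mul_le_mul_of_nonneg_left (hlam1 zs) hη0
      linarith
    -- the rescaled function
    have hLip : ∀ z, lam zs - Γ * ‖z - zs‖ ≤ lam z := by
      intro z
      have h1 : |z.im| ≤ |zs.im| + ‖z - zs‖ := by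
        have h2 := Complex.abs_im_le_norm (z - zs)
        rw [Complex.sub_im] at h2
        have h3 := abs_sub_abs_le_abs_sub z.im zs.im
        linarith
      have h4 : 0 ≤ Γ * ‖z - zs‖ := by positivity
      rw [hlam]
      simp only
      refine le_min ?_ ?_
      · have := min_le_left (1 : ℝ) (Γ * (h₁ - |zs.im|))
        linarith
      · have := min_le_right (1 : ℝ) (Γ * (h₁ - |zs.im|))
        nlinarith
    have h9 : ∀ z, ‖z - zs‖ ≤ 9 / η → |z.im| < h₁ ∧ ‖y z‖ ≤ 2 * η := by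
      intro z hz
      have h1 := hLip z
      have h2 : Γ * ‖z - zs‖ ≤ lam zs / 2 := by
        have h3 : Γ * ‖z - zs‖ ≤ Γ * (9 / η) := by gcongr
        have h4 : Γ * (9 / η) ≤ lam zs / 2 := by
          rw [← mul_div_assoc, div_le_iff₀ hηpos]
          nlinarith
        linarith
      have h3 : lam zs / 2 ≤ lam z := by linarith
      have h4 : 0 < lam z := by linarith
      have h5 : |z.im| < h₁ := by
        have h6 : lam z ≤ Γ * (h₁ - |z.im|) := min_le_right _ _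
        have h7 : 0 < Γ * (h₁ - |z.im|) := lt_of_lt_of_le h4 h6
        have h8 := pos_of_mul_pos_right h7 hΓ.le
        linarith
      refine ⟨h5, ?_⟩
      have h6 := hmax' z h5.le
      have h7 : ‖y z‖ * (lam zs / 2) ≤ η * lam zs :=
        (mul_le_mul_of_nonneg_left h3 (norm_nonneg _)).trans h6
      have h8 : ‖y z‖ * lam zs ≤ (2 * η) * lam zs := by linarith
      exact le_of_mul_le_mul_right h8 hlampos
    -- Cauchy for the second derivative
    have hcau := Complex.norm_iteratedDeriv_le_of_forall_mem_sphere_norm_le 2 (c := zs)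
      (R := 9 / η) (C := 2 * η) (by positivity) hy.diffContOnCl (fun z hz => by
        have : ‖z - zs‖ = 9 / η := by rwa [mem_sphere, dist_eq_norm] at hz
        exact (h9 z this.le).2)
    have e2 : iteratedDeriv 2 y zs = deriv (deriv y) zs := by
      rw [iteratedDeriv_succ, iteratedDeriv_one]
    have hin := (h9 zs (by rw [sub_self, norm_zero]; positivity)).1
    rw [e2, hyG zs hin] at hcau
    have hJs := hJ zs hin
    have h10 : ‖G zs‖ ≤ 4 / 81 * η ^ 2 := by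
      have h11 : ‖G zs * y zs‖ = ‖G zs‖ * η := norm_mul _ _
      rw [h11] at hcau
      have h12 : ((Nat.factorial 2 : ℕ) : ℝ) * (2 * η) / (9 / η) ^ 2 = 4 / 81 * η ^ 2 * η := by
        have : ((Nat.factorial 2 : ℕ) : ℝ) = 2 := by norm_num [Nat.factorial]
        rw [this]; field_simp; ring
      rw [h12] at hcau
      exact le_of_mul_le_mul_right hcau hηpos
    have h13 : ‖y zs ^ 2 / 8‖ = η ^ 2 / 8 := by
      rw [norm_div, norm_pow]; simp [hη]
    have h14 : ‖y zs ^ 2 / 8‖ ≤ ‖G zs + y zs ^ 2 / 8‖ + ‖G zs‖ := by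
      have := norm_sub_le (G zs + y zs ^ 2 / 8) (G zs)
      simpa using this
    rw [h13] at h14
    nlinarith
  intro z hz
  have hz' : |z.im| ≤ h₁ := by
    have : 0 < 1 / Γ := by positivity
    linarith
  have hl1 : lam z = 1 := by
    rw [hlam]
    simp only
    refine min_eq_left ?_
    have h1 : 1 / Γ ≤ h₁ - |z.im| := by linarith
    rw [div_le_iff₀ hΓ] at h1
    linarith
  have h1 := key z hz'
  rw [hl1, mul_one] at h1
  refine ⟨h1, ?_⟩
  have hlt : |z.im| < h₁ := by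
    have : 0 < 1 / Γ := by positivity
    linarith
  have h2 := hJ z hlt
  have h3 : ‖G z‖ ≤ ‖G z + y z ^ 2 / 8‖ + ‖y z ^ 2 / 8‖ := by
    have := norm_sub_le (G z + y z ^ 2 / 8) (y z ^ 2 / 8)
    simpa using this
  have h4 : ‖y z ^ 2 / 8‖ = ‖y z‖ ^ 2 / 8 := by
    rw [norm_div, norm_pow]; simp
  rw [h4] at h3
  have h5 : ‖y z‖ ^ 2 ≤ (18 * Γ) ^ 2 := by gcongr
  nlinarith

end Crest.Agent.R102.Pick628
end
end

-- ▼ part R102/APJ_628

/-!
Row 102, part (C), T1-E, **(AP): a priori bounds** (helper628, after helper516, helper877).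

`φ, p` (lines) and `B` (labels) holomorphic on a box `{a < Im t < h} × {|w| < r}`: then the label
steps are `w (1 + O(L (|w| / r)²))`, `L = log (8 K₀ / r)`, and `|y|, |G|^{1/2} ≤ C L^{1/2} / r` on
`|Im z| ≤ h - 2 r`.
-/

set_option autoImplicit false

open Set Filter Topology Metric
open scoped ComplexConjugate

noncomputable section

namespace Crest.Agent.R102.APJ628

open Crest.Agent.R102.B821 Crest.Agent.R102.C1 Crest.Agent.R102.StepT628
  Crest.Agent.R102.Pick628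

/-- horizontal strip `a < Im t < b` -/
def Sab (a b : ℝ) : Set ℂ := {t | a < t.im ∧ t.im < b}

lemma isOpen_Sab (a b : ℝ) : IsOpen (Sab a b) :=
  (isOpen_lt continuous_const Complex.continuous_im).inter
    (isOpen_lt Complex.continuous_im continuous_const)

lemma convex_Sab (a b : ℝ) : Convex ℝ (Sab a b) := by
  have h1 : Sab a b = Complex.im ⁻¹' (Ioo a b) := by
    ext z
    exact Iff.rfl
  rw [h1]
  exact (convex_Ioo a b).is_linear_preimage ⟨Complex.add_im, fun r z => by simp⟩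

lemma preconnected_punctured {r : ℝ} (hr : 0 < r) :
    IsPreconnected (ball (0 : ℂ) r \ {0}) := by
  have h1 : ball (0 : ℂ) r \ {0} = Complex.exp '' {z | z.re < Real.log r} := by
    ext w
    constructor
    · rintro ⟨h1, h2⟩
      have h3 : w ≠ 0 := h2
      refine ⟨Complex.log w, ?_, Complex.exp_log h3⟩
      change (Complex.log w).re < Real.log r
      rw [Complex.log_re]
      rw [mem_ball_zero_iff] at h1
      exact Real.log_lt_log (norm_pos_iff.2 h3) h1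
    · rintro ⟨z, hz, rfl⟩
      refine ⟨?_, Complex.exp_ne_zero z⟩
      rw [mem_ball_zero_iff, Complex.norm_exp]
      have hz' : z.re < Real.log r := hz
      calc Real.exp z.re < Real.exp (Real.log r) := Real.exp_lt_exp.2 hz'
        _ = r := Real.exp_log hr
  rw [h1]
  have h2 : Convex ℝ {z : ℂ | z.re < Real.log r} := convex_halfSpace_re_lt _
  exact h2.isPreconnected.image _ Complex.continuous_exp.continuousOn

/-- the step function -/
def stp (B : ℂ × ℂ → ℂ) (x : ℂ × ℂ) : ℂ := B (x.1 + x.2 / 2, x.2) - B (x.1 - x.2 / 2, x.2)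

/-- lines and labels on a box -/
structure Box (θ H : ℂ → ℂ) (a h r : ℝ) (φ p B : ℂ × ℂ → ℂ) : Prop where
  r_pos : 0 < r
  r_le : r ≤ 1
  a_lt : a < -r
  h_gt : r < h
  φ_diff : DifferentiableOn ℂ φ (Sab a h ×ˢ ball 0 r)
  p_diff : DifferentiableOn ℂ p (Sab a h ×ˢ ball 0 r)
  B_diff : DifferentiableOn ℂ B (Sab (a + r / 2) (h - r / 2) ×ˢ ball 0 r)
  inc : ∀ t w : ℂ, t ∈ Sab (a + r) (h - r) → ‖w‖ < r →
    IncS θ H (φ (t, w)) (p (t, w)) (B (t + w / 2, w))
  inc' : ∀ t w : ℂ, t ∈ Sab (a + r) (h - r) → ‖w‖ < r →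
    IncS θ H (φ (t, w)) (p (t, w)) (B (t - w / 2, w))
  area : ∀ t w : ℂ, t ∈ Sab (a + r) (h - r) → ‖w‖ < r → w ≠ 0 →
    q1 φ (t, w) * q2 p (t, w) - q2 φ (t, w) * q1 p (t, w) ≠ 0
  B_zero : ∀ t ∈ Sab (a + r / 2) (h - r / 2), B (t, 0) = t
  B_even : ∀ t w : ℂ, t ∈ Sab (a + r / 2) (h - r / 2) → ‖w‖ < r → B (t, -w) = B (t, w)

namespace Box

variable {θ H : ℂ → ℂ} {a h r : ℝ} {φ p B : ℂ × ℂ → ℂ} (X : Box θ H a h r φ p B)
include X

omit X in
lemma shift_mem {a h r : ℝ} {t w : ℂ} (ht : t ∈ Sab (a + r) (h - r)) (hw : ‖w‖ < r) :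
    t + w / 2 ∈ Sab (a + r / 2) (h - r / 2) ∧ t - w / 2 ∈ Sab (a + r / 2) (h - r / 2) := by
  have h1 : |(w / 2).im| < r / 2 := by
    refine (Complex.abs_im_le_norm _).trans_lt ?_
    rw [norm_div]; simp only [Complex.norm_ofNat]; linarith
  obtain ⟨h2, h3⟩ := abs_lt.1 h1
  obtain ⟨h4, h5⟩ := ht
  refine ⟨⟨?_, ?_⟩, ⟨?_, ?_⟩⟩
  · rw [Complex.add_im]; linarith
  · rw [Complex.add_im]; linarith
  · rw [Complex.sub_im]; linarith
  · rw [Complex.sub_im]; linarith

lemma stp_diff : DifferentiableOn ℂ (stp B) (Sab (a + r) (h - r) ×ˢ ball 0 r) := by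
  have h1 : DifferentiableOn ℂ (fun x : ℂ × ℂ => B (x.1 + x.2 / 2, x.2))
      (Sab (a + r) (h - r) ×ˢ ball 0 r) :=
    X.B_diff.comp (by fun_prop) (fun x hx => ⟨(shift_mem hx.1 (by simpa using hx.2)).1, hx.2⟩)
  have h2 : DifferentiableOn ℂ (fun x : ℂ × ℂ => B (x.1 - x.2 / 2, x.2))
      (Sab (a + r) (h - r) ×ˢ ball 0 r) :=
    X.B_diff.comp (by fun_prop) (fun x hx => ⟨(shift_mem hx.1 (by simpa using hx.2)).2, hx.2⟩)
  exact DifferentiableOn.fun_sub h1 h2

lemma slice_diff {t : ℂ} (ht : t ∈ Sab (a + r) (h - r)) :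
    DifferentiableOn ℂ (fun w => stp B (t, w)) (ball 0 r) :=
  X.stp_diff.comp (by fun_prop) (fun w hw => ⟨ht, hw⟩)

omit X in
lemma stp_zero (t : ℂ) : stp B (t, 0) = 0 := by
  unfold stp; simp

lemma stp_odd {t w : ℂ} (ht : t ∈ Sab (a + r) (h - r)) (hw : ‖w‖ < r) :
    stp B (t, -w) = -stp B (t, w) := by
  unfold stp
  simp only
  have e1 : t + -w / 2 = t - w / 2 := by ring
  have e2 : t - -w / 2 = t + w / 2 := by ring
  rw [e1, e2, X.B_even _ _ (shift_mem ht hw).1 hw, X.B_even _ _ (shift_mem ht hw).2 hw]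
  ring

lemma slice_deriv {t : ℂ} (ht : t ∈ Sab (a + r) (h - r)) :
    deriv (fun w => stp B (t, w)) 0 = 1 := by
  have hr := X.r_pos
  have ht' : t ∈ Sab (a + r / 2) (h - r / 2) := by
    have := (shift_mem (w := 0) ht (by simpa using hr)).1
    simpa using this
  have hO : IsOpen (Sab (a + r / 2) (h - r / 2) ×ˢ ball (0 : ℂ) r) :=
    (isOpen_Sab _ _).prod isOpen_ball
  have hB : HasFDerivAt B (fderiv ℂ B (t, 0)) (t, 0) :=
    (X.B_diff.differentiableAt (hO.mem_nhds ⟨ht', mem_ball_self hr⟩)).hasFDerivAt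
  set L := fderiv ℂ B (t, 0) with hL
  have c1 : HasDerivAt (fun w : ℂ => ((t + w / 2, w) : ℂ × ℂ)) (1 / 2, 1) 0 :=
    (((hasDerivAt_id (0 : ℂ)).div_const 2).const_add t).prodMk (hasDerivAt_id 0)
  have c2 : HasDerivAt (fun w : ℂ => ((t - w / 2, w) : ℂ × ℂ)) (-(1 / 2), 1) 0 :=
    (((hasDerivAt_id (0 : ℂ)).div_const 2).const_sub t).prodMk (hasDerivAt_id 0)
  have hB1 : HasFDerivAt B L ((fun w : ℂ => ((t + w / 2, w) : ℂ × ℂ)) 0) := by simpa using hB
  have hB2 : HasFDerivAt B L ((fun w : ℂ => ((t - w / 2, w) : ℂ × ℂ)) 0) := by simpa using hB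
  have d1 : HasDerivAt (fun w : ℂ => B (t + w / 2, w)) (L (1 / 2, 1)) 0 :=
    HasFDerivAt.comp_hasDerivAt (0 : ℂ) hB1 c1
  have d2 : HasDerivAt (fun w : ℂ => B (t - w / 2, w)) (L (-(1 / 2), 1)) 0 :=
    HasFDerivAt.comp_hasDerivAt (0 : ℂ) hB2 c2
  have d3 := d1.fun_sub d2
  have e1 : deriv (fun w => stp B (t, w)) 0 = L (1 / 2, 1) - L (-(1 / 2), 1) := d3.deriv
  rw [e1, ← map_sub]
  have e2 : ((1 / 2 : ℂ), (1 : ℂ)) - (-(1 / 2), 1) = (1, 0) := by
    refine Prod.ext ?_ ?_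
    · simp; norm_num
    · simp
  rw [e2]
  have c3 : HasDerivAt (fun z : ℂ => ((z, 0) : ℂ × ℂ)) (1, 0) t :=
    (hasDerivAt_id t).prodMk (hasDerivAt_const _ _)
  have d4 := hB.comp_hasDerivAt t c3
  have d5 : HasDerivAt (B ∘ fun z : ℂ => ((z, 0) : ℂ × ℂ)) 1 t := by
    refine (hasDerivAt_id t).congr_of_eventuallyEq ?_
    filter_upwards [(isOpen_Sab _ _).mem_nhds ht'] with z hz
    exact X.B_zero z hz
  exact d4.unique d5

/-- **the label step omits the integers** -/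
lemma stp_not_int (hLab : Lab θ H univ) {t w : ℂ} (ht : t ∈ Sab (a + r) (h - r)) (hw : ‖w‖ < r)
    (hw0 : w ≠ 0) (k : ℤ) : stp B (t, w) ≠ k := by
  have hr := X.r_pos
  have ha := X.a_lt
  have hh := X.h_gt
  set D : Set (ℂ × ℂ) := Sab (a + r) (h - r) ×ˢ (ball (0 : ℂ) r \ {0}) with hD
  have hDo : IsOpen D := (isOpen_Sab _ _).prod (isOpen_ball.sdiff isClosed_singleton)
  have hDc : IsPreconnected D :=
    (convex_Sab _ _).isPreconnected.prod (preconnected_punctured hr)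
  have hsub : D ⊆ Sab (a + r) (h - r) ×ˢ ball (0 : ℂ) r := prod_mono Subset.rfl sdiff_subset
  have hsub2 : Sab (a + r) (h - r) ×ˢ ball (0 : ℂ) r ⊆ Sab a h ×ˢ ball (0 : ℂ) r := by
    rintro x ⟨⟨h1, h2⟩, h3⟩
    exact ⟨⟨by linarith, by linarith⟩, h3⟩
  have h0mem : (0 : ℂ) ∈ Sab (a + r) (h - r) := by
    constructor
    · simp only [Complex.zero_im]; linarith
    · simp only [Complex.zero_im]; linarith
  -- a good base point
  have hlim : Tendsto (fun w : ℂ => stp B (0, w) / w) (𝓝[≠] 0) (𝓝 1) := by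
    have h1 : HasDerivAt (fun w => stp B (0, w)) 1 0 := by
      have h2 := ((X.slice_diff h0mem).differentiableAt (ball_mem_nhds _ hr)).hasDerivAt
      rwa [X.slice_deriv h0mem] at h2
    have h2 := hasDerivAt_iff_tendsto_slope.1 h1
    refine h2.congr' ?_
    filter_upwards [self_mem_nhdsWithin] with w _
    rw [slope_def_field, stp_zero, sub_zero, sub_zero]
  have hex : ∃ w : ℂ, w ≠ 0 ∧ ‖w‖ < r ∧ ∀ k : ℤ, stp B (0, w) ≠ k := by
    have e1 : ∀ᶠ w in 𝓝[≠] (0 : ℂ), ‖stp B (0, w) / w - 1‖ < 1 / 2 := by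
      have := hlim.eventually (Metric.ball_mem_nhds (1 : ℂ) (show (0 : ℝ) < 1 / 2 by norm_num))
      filter_upwards [this] with w hw
      rwa [dist_eq_norm] at hw
    have e2 : ∀ᶠ w in 𝓝[≠] (0 : ℂ), ‖w‖ < min r (1 / 2) := by
      have : ∀ᶠ w in 𝓝 (0 : ℂ), ‖w‖ < min r (1 / 2) := by
        have h3 : Tendsto (fun w : ℂ => ‖w‖) (𝓝 0) (𝓝 ‖(0 : ℂ)‖) := continuous_norm.tendsto 0
        rw [norm_zero] at h3
        exact h3.eventually (Iio_mem_nhds (lt_min hr (by norm_num)))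
      exact this.filter_mono nhdsWithin_le_nhds
    obtain ⟨w, ⟨h1, h2⟩, h3⟩ := ((e1.and e2).and self_mem_nhdsWithin).exists
    have hw0 : w ≠ 0 := h3
    have hwn : 0 < ‖w‖ := norm_pos_iff.2 hw0
    refine ⟨w, hw0, h2.trans_le (min_le_left _ _), fun k hk => ?_⟩
    have h4 : stp B (0, w) - w = (stp B (0, w) / w - 1) * w := by field_simp
    have h5 : ‖stp B (0, w) - w‖ < ‖w‖ / 2 := by
      rw [h4, norm_mul]; nlinarith
    have h6 : ‖w‖ < 1 / 2 := h2.trans_le (min_le_right _ _)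
    rw [hk] at h5
    have h7 : ‖(k : ℂ)‖ < 1 := by
      have := norm_add_le ((k : ℂ) - w) w
      rw [sub_add_cancel] at this
      linarith
    have h8 : 0 < ‖(k : ℂ)‖ := by
      have := norm_sub_le (k : ℂ) ((k : ℂ) - w)
      rw [sub_sub_cancel] at this
      linarith
    rw [Complex.norm_intCast] at h7 h8
    have h9 : |k| < 1 := by exact_mod_cast h7
    have h10 : 0 < |k| := by exact_mod_cast h8
    omega
  obtain ⟨w₀, hw₀0, hw₀r, hw₀k⟩ := hex
  refine step_not_int hLab hDo hDc (φ := φ) (p := p) (B0 := fun x => B (x.1 - x.2 / 2, x.2))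
    (B1 := fun x => B (x.1 + x.2 / 2, x.2)) (X.φ_diff.mono (hsub.trans hsub2))
    (X.p_diff.mono (hsub.trans hsub2)) ?_ ?_ (fun _ _ => mem_univ _) (fun _ _ => mem_univ _)
    ?_ ?_ ?_ (x₀ := (0, w₀)) ⟨h0mem, by simpa using hw₀r, hw₀0⟩ hw₀k k (t, w)
    ⟨ht, by simpa using hw, hw0⟩
  · exact X.B_diff.comp (by fun_prop)
      (fun x hx => ⟨(shift_mem hx.1 (by simpa using hx.2.1)).2, hx.2.1⟩)
  · exact X.B_diff.comp (by fun_prop)
      (fun x hx => ⟨(shift_mem hx.1 (by simpa using hx.2.1)).1, hx.2.1⟩)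
  · intro x hx
    exact X.inc' x.1 x.2 hx.1 (by simpa using hx.2.1)
  · intro x hx
    exact X.inc x.1 x.2 hx.1 (by simpa using hx.2.1)
  · intro x hx
    exact X.area x.1 x.2 hx.1 (by simpa using hx.2.1) hx.2.2

/-- **(AP), steps** -/
theorem step (hLab : Lab θ H univ) {t : ℂ} (ht : t ∈ Sab (a + r) (h - r)) :
    (∀ w ∈ ball (0 : ℂ) (r / 8), 128 * Real.log (8 * K0 / r) * (‖w‖ / r) ^ 2 ≤ 1 →
      ‖stp B (t, w) - w‖ ≤ 256 * Real.log (8 * K0 / r) * (‖w‖ / r) ^ 2 * ‖w‖) ∧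
    ‖iteratedDeriv 3 (fun w => stp B (t, w)) 0‖ ≤ 1536 * Real.log (8 * K0 / r) / r ^ 2 :=
  step_est X.r_pos X.r_le (X.slice_diff ht) (stp_zero t) (X.slice_deriv ht)
    (fun w hw => X.stp_odd ht (by simpa using hw))
    (fun w hw hw0 k => X.stp_not_int hLab ht (by simpa using hw) hw0 k)

/-- **(AP), the curve** -/
theorem curve (hLab : Lab θ H univ) {G : ℂ → ℂ} (hG : Differentiable ℂ G)
    (hyG : ∀ z, deriv (deriv (deriv θ)) z = G z * deriv θ z)
    (yper : ∀ z, deriv θ (z + 1) = deriv θ z) (yconj : ∀ z, deriv θ (conj z) = conj (deriv θ z))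
    (Gconj : ∀ z, G (conj z) = conj (G z)) {c₀ : ℂ}
    (hAP3 : ∀ x : ℝ, iteratedDeriv 3 (fun w => stp B (x, w)) 0 =
      2 / 5 * (G x + deriv θ x ^ 2 / 8) + c₀) :
    ∀ z : ℂ, |z.im| ≤ h - 2 * r →
      ‖deriv θ z‖ ≤ 18 * (Real.sqrt ((1920 + 2 * ‖c₀‖) * Real.log (8 * K0 / r)) / r) ∧
      ‖G z‖ ≤ 43 * ((1920 + 2 * ‖c₀‖) * Real.log (8 * K0 / r) / r ^ 2) := by
  have hr := X.r_pos
  have hr1 := X.r_le
  have ha := X.a_lt
  have hh := X.h_gt
  have hK := K0_ge
  have hθ : Differentiable ℂ θ := differentiableOn_univ.1 hLab.θ_diff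
  have hy : Differentiable ℂ (deriv θ) := by
    have := hLab.θ_diff.deriv isOpen_univ
    exact differentiableOn_univ.1 this
  set M : ℝ := Real.log (8 * K0 / r) with hM
  have hM1 : 1 ≤ M := by
    rw [hM, Real.le_log_iff_exp_le (by positivity)]
    have h2 : Real.exp 1 ≤ 8 := by
      have := Real.exp_one_lt_d9
      linarith
    refine h2.trans ?_
    rw [le_div_iff₀ hr]; nlinarith
  -- the identity extends to the box
  have hid : ∀ t ∈ Sab (a + r) (h - r), iteratedDeriv 3 (fun w => stp B (t, w)) 0 =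
      2 / 5 * (G t + deriv θ t ^ 2 / 8) + c₀ := by
    have hc := M948.differentiableOn_coefT (isOpen_Sab (a + r) (h - r)) hr X.stp_diff 3
    have h1 : AnalyticOnNhd ℂ (M948.coefT (stp B) 0 3) (Sab (a + r) (h - r)) :=
      hc.analyticOnNhd (isOpen_Sab _ _)
    have h2 : AnalyticOnNhd ℂ (fun t => ((3).factorial : ℂ)⁻¹ *
        (2 / 5 * (G t + deriv θ t ^ 2 / 8) + c₀)) (Sab (a + r) (h - r)) := by
      have h3 : Differentiable ℂ (fun t => ((3).factorial : ℂ)⁻¹ *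
        (2 / 5 * (G t + deriv θ t ^ 2 / 8) + c₀)) := by fun_prop
      exact fun t _ => h3.analyticAt t
    have h0mem : (0 : ℂ) ∈ Sab (a + r) (h - r) := by
      constructor
      · simp only [Complex.zero_im]; linarith
      · simp only [Complex.zero_im]; linarith
    have hfreq : ∃ᶠ t in 𝓝[≠] (0 : ℂ), M948.coefT (stp B) 0 3 t =
        ((3).factorial : ℂ)⁻¹ * (2 / 5 * (G t + deriv θ t ^ 2 / 8) + c₀) := by
      have hseq : Tendsto (fun n : ℕ => ((((1 : ℝ) / (n + 1) : ℝ)) : ℂ)) atTop (𝓝[≠] 0) := by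
        refine tendsto_nhdsWithin_iff.2 ⟨?_, ?_⟩
        · have h3 := tendsto_one_div_add_atTop_nhds_zero_nat (𝕜 := ℝ)
          have h4 := (Complex.continuous_ofReal.tendsto 0).comp h3
          exact h4
        · refine Eventually.of_forall fun n => ?_
          have : (0 : ℝ) < 1 / ((n : ℝ) + 1) := by positivity
          exact Complex.ofReal_ne_zero.2 this.ne'
      refine hseq.frequently (Eventually.frequently (Eventually.of_forall fun n => ?_))
      unfold M948.coefT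
      rw [hAP3]
    have h4 := h1.eqOn_of_preconnected_of_frequently_eq h2 (convex_Sab _ _).isPreconnected
      h0mem hfreq
    intro t ht
    have h5 := h4 ht
    unfold M948.coefT at h5
    have h6 : ((3).factorial : ℂ)⁻¹ ≠ 0 := by
      simp [Nat.factorial]
    exact mul_left_cancel₀ h6 h5
  -- bound of `J`
  set A : ℝ := (1920 + 2 * ‖c₀‖) * M with hA
  have hA1 : 1 ≤ A := by
    have := norm_nonneg c₀
    rw [hA]; nlinarith
  have hJup : ∀ t ∈ Sab (a + r) (h - r), ‖G t + deriv θ t ^ 2 / 8‖ ≤ 2 * (A / r ^ 2) := by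
    intro t ht
    have h1 := (X.step hLab ht).2
    rw [← hM] at h1
    have h2 := hid t ht
    have h3 : G t + deriv θ t ^ 2 / 8 =
        5 / 2 * (iteratedDeriv 3 (fun w => stp B (t, w)) 0 - c₀) := by
      rw [h2]; ring
    rw [h3, norm_mul]
    have h4 : ‖(5 / 2 : ℂ)‖ = 5 / 2 := by
      rw [norm_div]; simp
    rw [h4]
    have h5 := norm_sub_le (iteratedDeriv 3 (fun w => stp B (t, w)) 0) c₀
    have h6 : ‖c₀‖ ≤ ‖c₀‖ * M / r ^ 2 := by
      rw [le_div_iff₀ (by positivity)]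
      have : r ^ 2 ≤ 1 := by nlinarith
      have := norm_nonneg c₀
      nlinarith
    have h7 : 2 * (A / r ^ 2) = 5 / 2 * (1536 * M / r ^ 2) + 4 * (‖c₀‖ * M / r ^ 2) := by
      rw [hA]; ring
    rw [h7]
    have h8 : 0 ≤ ‖c₀‖ * M / r ^ 2 := by positivity
    nlinarith
  set Γ : ℝ := Real.sqrt A / r with hΓ
  have hsA : 1 ≤ Real.sqrt A := by
    rw [Real.one_le_sqrt]; exact hA1
  have hΓpos : 0 < Γ := by rw [hΓ]; positivity
  have hΓ2 : Γ ^ 2 = A / r ^ 2 := by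
    rw [hΓ, div_pow, Real.sq_sqrt (by linarith)]
  have hΓ1 : 1 / Γ ≤ r := by
    rw [hΓ, one_div, inv_div, div_le_iff₀ (by positivity)]
    nlinarith
  have hJ : ∀ z : ℂ, |z.im| < h - r → ‖G z + deriv θ z ^ 2 / 8‖ ≤ 2 * Γ ^ 2 := by
    intro z hz
    rw [hΓ2]
    obtain ⟨h1, h2⟩ := abs_lt.1 hz
    rcases le_total 0 z.im with h3 | h3
    · exact hJup z ⟨by linarith, h2⟩
    · have h4 := hJup (conj z) ⟨by rw [Complex.conj_im]; linarith,
        by rw [Complex.conj_im]; linarith⟩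
      rw [Gconj, yconj] at h4
      have h5 : conj (G z) + conj (deriv θ z) ^ 2 / 8 = conj (G z + deriv θ z ^ 2 / 8) := by
        rw [map_add, map_div₀, map_pow]
        congr 2
        exact (Complex.conj_ofNat 8).symm
      rw [h5, RCLike.norm_conj] at h4
      exact h4
  have h9 := picking (y := deriv θ) (G := G) (h₁ := h - r) hΓpos hy yper
    (fun z _ => hyG z) hJ
  intro z hz
  have h10 := h9 z (by linarith)
  refine ⟨h10.1, ?_⟩
  have h11 := h10.2
  rw [hΓ2] at h11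
  exact h11

end Box

end Crest.Agent.R102.APJ628
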