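import Mathlib
import Crest.Agent.R102.Hol_575

-- ▼ part R102/AlgA_985
section

/-!
Row 102, part (C), (RAT) section 6, leaf RAT-3a, algebraic part: a primitive element with all
denominators cleared.
-/

set_option linter.unusedSectionVars false
set_option linter.unusedVariables false

namespace Crest.Agent.R102.Alg985

open Polynomial

section abs

variable {k R : Type*} [Field k] [CommRing R] [IsDomain R] [CharZero R] [Algebra k R]
  (B A : Subalgebra k R)
  (K M : Type*) [Field K] [Field M] [Algebra B K] [IsFractionRing B K] [Algebra R M]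
  [IsFractionRing R M] [Algebra K M] [IsScalarTower B K M]

theorem hBM : Function.Injective (algebraMap B M) := by
  rw [IsScalarTower.algebraMap_eq B R M]
  exact (IsFractionRing.injective R M).comp Subtype.val_injective

/-- denominators cleared -/
theorem clear_poly (p : K[X]) :
    ∃ b : B, b ≠ 0 ∧ ∃ q : B[X], q.map (algebraMap B K) = C (algebraMap B K b) * p := by
  obtain ⟨b, hb, h⟩ := IsLocalization.integerNormalization_spec (nonZeroDivisors B) p
  refine ⟨b, nonZeroDivisors.ne_zero hb, IsLocalization.integerNormalization (nonZeroDivisors B) p,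
    ?_⟩
  rw [h]
  ext i
  simp [Algebra.smul_def]

/-- elements algebraic over `B` are integral over `K` -/
theorem int_of_alg (a : R) (ha : IsAlgebraic B a) : IsIntegral K (algebraMap R M a) := by
  have h1 : IsAlgebraic B (algebraMap R M a) := ha.algebraMap
  exact (h1.extendScalars (IsFractionRing.injective B K)).isIntegral

theorem frac_of_adjoin (hBA : B ≤ A) (s : Set R) (hs : s ⊆ A) (z : M)
    (hz : z ∈ Algebra.adjoin K (algebraMap R M '' s)) :
    ∃ b : B, b ≠ 0 ∧ ∃ a ∈ A, algebraMap B M b * z = algebraMap R M a := by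
  have hBMi := hBM B M
  have e0 : ∀ b : B, algebraMap R M (b : R) = algebraMap B M b := fun b =>
    (IsScalarTower.algebraMap_apply B R M b).symm
  refine Algebra.adjoin_induction
    (p := fun z _ => ∃ b : B, b ≠ 0 ∧ ∃ a ∈ A, algebraMap B M b * z = algebraMap R M a)
    ?_ ?_ ?_ ?_ hz
  · rintro _ ⟨a, ha, rfl⟩
    exact ⟨1, one_ne_zero, a, hs ha, by simp⟩
  · intro c
    obtain ⟨b, b', hb', rfl⟩ := IsFractionRing.div_surjective (A := B) c
    refine ⟨b', nonZeroDivisors.ne_zero hb', b, hBA b.2, ?_⟩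
    have hne : algebraMap B M b' ≠ 0 := by
      rw [Ne, map_eq_zero_iff _ hBMi]
      exact nonZeroDivisors.ne_zero hb'
    rw [map_div₀, ← IsScalarTower.algebraMap_apply B K M, ← IsScalarTower.algebraMap_apply B K M,
      mul_div_cancel₀ _ hne, e0]
  · rintro z z' _ _ ⟨b, hb, a, ha, h1⟩ ⟨b', hb', a', ha', h2⟩
    refine ⟨b * b', mul_ne_zero hb hb', b' * a + b * a',
      A.add_mem (A.mul_mem (hBA b'.2) ha) (A.mul_mem (hBA b.2) ha'), ?_⟩
    rw [map_add, map_mul, map_mul, map_mul, ← h1, ← h2, e0, e0]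
    ring
  · rintro z z' _ _ ⟨b, hb, a, ha, h1⟩ ⟨b', hb', a', ha', h2⟩
    refine ⟨b * b', mul_ne_zero hb hb', a * a', A.mul_mem ha ha', ?_⟩
    rw [map_mul, map_mul, ← h1, ← h2]
    ring

theorem exists_theta (hBA : B ≤ A) (hA : A.FG) (halg : ∀ a ∈ A, IsAlgebraic B a) :
    ∃ θ ∈ A, (∀ a ∈ A, algebraMap R M a ∈ Algebra.adjoin K {algebraMap R M θ}) := by
  classical
  have hRM : Function.Injective (algebraMap R M) := IsFractionRing.injective R M
  have hBMi := hBM B M
  have hcB : CharZero B := ⟨fun m n h => by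
    have := congrArg (Subtype.val : B → R) h
    exact_mod_cast this⟩
  have hcK : CharZero K :=
    charZero_of_injective_algebraMap (IsFractionRing.injective B K)
  obtain ⟨s, hs⟩ := hA
  let S : Set M := algebraMap R M '' (s : Set R)
  have hSfin : S.Finite := s.finite_toSet.image _
  have hsA : ∀ a ∈ s, a ∈ A := fun a ha => by
    rw [← hs]
    exact Algebra.subset_adjoin ha
  have hSint : ∀ z ∈ S, IsIntegral K z := by
    rintro _ ⟨a, ha, rfl⟩
    exact int_of_alg B K M a (halg a (hsA a ha))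
  let L : IntermediateField K M := IntermediateField.adjoin K S
  have hfS : Finite S := hSfin
  have hfd : FiniteDimensional K L := IntermediateField.finiteDimensional_adjoin hSint
  have hLS : L.toSubalgebra = Algebra.adjoin K S :=
    IntermediateField.adjoin_toSubalgebra_of_isAlgebraic fun z hz => (hSint z hz).isAlgebraic
  have hAL : ∀ a ∈ A, algebraMap R M a ∈ L := by
    intro a ha
    rw [← hs] at ha
    refine Algebra.adjoin_induction (p := fun a _ => algebraMap R M a ∈ L) ?_ ?_ ?_ ?_ ha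
    · intro a ha
      exact IntermediateField.subset_adjoin K S ⟨a, ha, rfl⟩
    · intro c
      have hc : algebraMap k R c ∈ B := B.algebraMap_mem c
      have : algebraMap R M (algebraMap k R c) =
          algebraMap K M (algebraMap B K ⟨_, hc⟩) := by
        rw [← IsScalarTower.algebraMap_apply B K M, IsScalarTower.algebraMap_apply B R M]
        rfl
      rw [this]
      exact L.algebraMap_mem _
    · intro a b _ _ h1 h2
      rw [map_add]
      exact L.add_mem h1 h2
    · intro a b _ _ h1 h2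
      rw [map_mul]
      exact L.mul_mem h1 h2
  have : Algebra.IsSeparable K L := Algebra.IsAlgebraic.isSeparable_of_perfectField
  obtain ⟨α, hα⟩ := Field.exists_primitive_element K L
  obtain ⟨bα, hbα, θ, hθ, hθα⟩ := frac_of_adjoin B A K M hBA (s : Set R) (fun a ha => hsA a ha)
    (α : M) (by
      have := α.2
      rw [← IntermediateField.mem_toSubalgebra, hLS] at this
      exact this)
  refine ⟨θ, hθ, ?_⟩
  set t : M := algebraMap R M θ with ht
  have htint : IsIntegral K t := int_of_alg B K M θ (halg θ hθ)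
  have hne : algebraMap B K bα ≠ 0 := by
    rw [Ne, map_eq_zero_iff _ (IsFractionRing.injective B K)]
    exact hbα
  have htα : (α : M) = algebraMap K M (algebraMap B K bα)⁻¹ * t := by
    rw [← hθα, ← mul_assoc, IsScalarTower.algebraMap_apply B K M, ← map_mul,
      inv_mul_cancel₀ hne, map_one, one_mul]
  have hgen : ∀ z ∈ L, z ∈ Algebra.adjoin K {t} := by
    intro z hz
    have h1 : (⟨z, hz⟩ : L) ∈ IntermediateField.adjoin K {α} := by
      rw [hα]
      trivial
    have h2 : (⟨z, hz⟩ : L) ∈ Algebra.adjoin K {α} := by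
      have h3 := IntermediateField.adjoin_simple_toSubalgebra_of_isAlgebraic
        (IsAlgebraic.of_finite K α)
      rw [← IntermediateField.mem_toSubalgebra, h3] at h1
      exact h1
    have h4 : z ∈ (Algebra.adjoin K {α}).map L.val := ⟨⟨z, hz⟩, h2, rfl⟩
    rw [← Algebra.adjoin_image] at h4
    refine Algebra.adjoin_le ?_ h4
    rintro _ ⟨y, hy, rfl⟩
    rw [Set.mem_singleton_iff.mp hy]
    change (α : M) ∈ _
    rw [htα]
    exact (Algebra.adjoin K {t}).mul_mem ((Algebra.adjoin K {t}).algebraMap_mem _)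
      (Algebra.subset_adjoin rfl)
  exact fun a ha => hgen _ (hAL a ha)

/-- primitive data: `θ` generates `Frac A` over `Frac B`, denominators cleared -/
structure PD (B A : Subalgebra k R) (θ : R) (P : B[X]) (b0 : B) : Prop where
  deg : 1 ≤ P.natDegree
  root : aeval θ P = 0
  b0_ne : b0 ≠ 0
  lead : P.leadingCoeff ∣ b0
  sep : ∃ U V : B[X], U * P + V * derivative P = C b0
  ker : ∀ f : B[X], aeval θ f = 0 → ∃ b : B, b ≠ 0 ∧ ∃ g : B[X], C b * f = P * g
  exp : ∀ a ∈ A, ∃ (n : ℕ) (f : B[X]), (b0 : R) ^ n * a = aeval θ f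

include K M in
theorem pd_core (θ : R) (hθ : IsAlgebraic B θ) :
    ∃ P : B[X], 1 ≤ P.natDegree ∧ aeval θ P = 0 ∧
      (P.natDegree = 1 → ∃ b b' : R, b ∈ B ∧ b' ∈ B ∧ b ≠ 0 ∧ b * θ = b') ∧
      ∃ b0 : B, b0 ≠ 0 ∧ P.leadingCoeff ∣ b0 ∧
      (∃ U V : B[X], U * P + V * derivative P = C b0) ∧
      (∀ f : B[X], aeval θ f = 0 → ∃ b : B, b ≠ 0 ∧ ∃ g : B[X], C b * f = P * g) := by
  classical
  have hRM : Function.Injective (algebraMap R M) := IsFractionRing.injective R M
  have hBMi := hBM B M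
  have hBK : Function.Injective (algebraMap B K) := IsFractionRing.injective B K
  have hKM : Function.Injective (algebraMap K M) := (algebraMap K M).injective
  have hcB : CharZero B := ⟨fun m n h => by
    have := congrArg (Subtype.val : B → R) h
    exact_mod_cast this⟩
  have hcK : CharZero K := charZero_of_injective_algebraMap hBK
  have e0 : ∀ b : B, algebraMap R M (b : R) = algebraMap B M b := fun b =>
    (IsScalarTower.algebraMap_apply B R M b).symm
  have hmapinj : Function.Injective (Polynomial.map (algebraMap B K)) :=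
    Polynomial.map_injective _ hBK
  set t : M := algebraMap R M θ with ht
  have htint : IsIntegral K t := int_of_alg B K M θ hθ
  have haeval : ∀ f : B[X], algebraMap R M (aeval θ f) = aeval t (f.map (algebraMap B K)) := by
    intro f
    rw [Polynomial.aeval_map_algebraMap, ht, Polynomial.aeval_algebraMap_apply]
  set P1 := minpoly K t with hP1
  have hP1m : P1.Monic := minpoly.monic htint
  have hdeg1 : 1 ≤ P1.natDegree := by
    have := minpoly.natDegree_pos htint
    rw [← hP1] at this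
    omega
  obtain ⟨b, hb, P, hP⟩ := clear_poly B K P1
  have hbK : algebraMap B K b ≠ 0 := by
    rw [Ne, map_eq_zero_iff _ hBK]
    exact hb
  have hPdeg : P.natDegree = P1.natDegree := by
    rw [← Polynomial.natDegree_map_eq_of_injective hBK P, hP,
      Polynomial.natDegree_C_mul hbK]
  have hPlead : P.leadingCoeff = b := by
    apply hBK
    rw [← Polynomial.leadingCoeff_map_of_injective hBK, hP, Polynomial.leadingCoeff_mul,
      hP1m.leadingCoeff, Polynomial.leadingCoeff_C, mul_one]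
  have hPθ : aeval θ P = 0 := by
    apply hRM
    rw [haeval, hP, map_mul, minpoly.aeval, mul_zero, map_zero]
  -- separability
  have hsep : P1.Separable := (minpoly.irreducible htint).separable
  obtain ⟨U1, V1, hUV⟩ := hsep
  obtain ⟨u, hu, U, hU⟩ := clear_poly B K U1
  obtain ⟨v, hv, V, hV⟩ := clear_poly B K V1
  have hsep2 : (C v * U) * P + (C u * V) * derivative P = C (u * v * b) := by
    apply hmapinj
    rw [Polynomial.map_add, Polynomial.map_mul, Polynomial.map_mul, Polynomial.map_mul,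
      Polynomial.map_mul, ← Polynomial.derivative_map, hP, hU, hV, Polynomial.map_C,
      Polynomial.map_C, Polynomial.map_C, Polynomial.derivative_C_mul, map_mul, map_mul, map_mul,
      map_mul]
    linear_combination (C (algebraMap B K u) * C (algebraMap B K v) * C (algebraMap B K b)) * hUV
  -- kernel
  have hker : ∀ f : B[X], aeval θ f = 0 → ∃ b : B, b ≠ 0 ∧ ∃ g : B[X], C b * f = P * g := by
    intro f hf
    have h1 : aeval t (f.map (algebraMap B K)) = 0 := by
      rw [← haeval, hf, map_zero]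
    obtain ⟨g1, hg1⟩ := minpoly.dvd K t h1
    obtain ⟨c, hc, g, hg⟩ := clear_poly B K g1
    refine ⟨b * c, mul_ne_zero hb hc, g, hmapinj ?_⟩
    rw [Polynomial.map_mul, Polynomial.map_mul, hP, hg, Polynomial.map_C, hg1, map_mul, map_mul]
    ring
  refine ⟨P, by omega, hPθ, ?_, u * v * b, mul_ne_zero (mul_ne_zero hu hv) hb, ?_,
    ⟨_, _, hsep2⟩, hker⟩
  · intro h1
    refine ⟨(P.coeff 1 : B), (-P.coeff 0 : B), (P.coeff 1).2, (-P.coeff 0).2, ?_, ?_⟩
    · intro h2
      have h3 : P.coeff 1 = 0 := Subtype.ext h2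
      have h4 : P.leadingCoeff = P.coeff 1 := by rw [leadingCoeff, h1]
      rw [← h4, hPlead] at h3
      exact hb h3
    · have h2 := hPθ
      rw [Polynomial.aeval_eq_sum_range, h1, Finset.sum_range_succ, Finset.sum_range_one] at h2
      simp only [pow_zero, pow_one] at h2
      have e1 : P.coeff 0 • (1 : R) = (P.coeff 0 : R) := by
        rw [Algebra.smul_def, mul_one]; rfl
      have e2 : P.coeff 1 • θ = (P.coeff 1 : R) * θ := by
        rw [Algebra.smul_def]; rfl
      rw [e1, e2] at h2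
      push_cast
      linear_combination h2
  · rw [hPlead]
    exact ⟨u * v, by ring⟩

include K M in
/-- **primitive element with cleared denominators.** -/
theorem exists_pd_aux (hBA : B ≤ A) (hA : A.FG) (halg : ∀ a ∈ A, IsAlgebraic B a) :
    ∃ θ ∈ A, ∃ (P : B[X]) (b0 : B), PD B A θ P b0 := by
  classical
  have hRM : Function.Injective (algebraMap R M) := IsFractionRing.injective R M
  have e0 : ∀ b : B, algebraMap R M (b : R) = algebraMap B M b := fun b =>
    (IsScalarTower.algebraMap_apply B R M b).symm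
  obtain ⟨θ, hθ, hgen⟩ := exists_theta B A K M hBA hA halg
  obtain ⟨P, hdeg, hroot, -, b1, hb1, hlead, ⟨U, V, hUV⟩, hker⟩ :=
    pd_core B K M θ (halg θ hθ)
  have haeval : ∀ f : B[X], algebraMap R M (aeval θ f) =
      aeval (algebraMap R M θ) (f.map (algebraMap B K)) := by
    intro f
    rw [Polynomial.aeval_map_algebraMap, Polynomial.aeval_algebraMap_apply]
  -- expressions of elements of `A`
  have hexp : ∀ a ∈ A, ∃ c : B, c ≠ 0 ∧ ∃ f : B[X], (c : R) * a = aeval θ f := by
    intro a ha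
    have h1 := hgen a ha
    rw [Algebra.adjoin_singleton_eq_range_aeval] at h1
    obtain ⟨f1, hf1⟩ := h1
    obtain ⟨c, hc, f, hf⟩ := clear_poly B K f1
    refine ⟨c, hc, f, hRM ?_⟩
    rw [haeval, hf, map_mul, map_mul, aeval_C, e0, IsScalarTower.algebraMap_apply B K M]
    congr 1
    exact hf1.symm
  obtain ⟨s, hs⟩ := hA
  have hsA : ∀ a ∈ s, a ∈ A := fun a ha => by
    rw [← hs]
    exact Algebra.subset_adjoin ha
  choose! c hc0 f hf using hexp
  obtain ⟨b0, hb0def⟩ : ∃ b0 : B, b0 = b1 * ∏ a ∈ s, c a := ⟨_, rfl⟩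
  have hb0 : b0 ≠ 0 := by
    rw [hb0def]
    refine mul_ne_zero hb1 ?_
    exact Finset.prod_ne_zero_iff.mpr fun a ha => hc0 a (hsA a ha)
  refine ⟨θ, hθ, P, b0, hdeg, hroot, hb0, ?_, ?_, hker, ?_⟩
  · rw [hb0def]
    exact hlead.mul_right _
  · refine ⟨C (∏ a ∈ s, c a) * U, C (∏ a ∈ s, c a) * V, ?_⟩
    have : C b0 = C (∏ a ∈ s, c a) * C b1 := by
      rw [← C_mul]
      congr 1
      rw [hb0def]
      ring
    rw [this, ← hUV]
    ring
  · intro a ha
    rw [← hs] at ha
    refine Algebra.adjoin_induction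
      (p := fun a _ => ∃ (n : ℕ) (f : B[X]), (b0 : R) ^ n * a = aeval θ f) ?_ ?_ ?_ ?_ ha
    · intro a ha
      have hdvd : c a ∣ b0 := (Finset.dvd_prod_of_mem c ha).trans ⟨b1, by
        rw [hb0def]; ring⟩
      obtain ⟨e, he⟩ := hdvd
      refine ⟨1, C e * f a, ?_⟩
      rw [map_mul, ← hf a (hsA a ha), aeval_C, pow_one, he]
      change (c a : R) * (e : R) * a = (e : R) * _
      ring
    · intro r
      refine ⟨0, C ⟨algebraMap k R r, B.algebraMap_mem r⟩, ?_⟩
      rw [aeval_C, pow_zero, one_mul]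
      rfl
    · rintro a a' _ _ ⟨n, f, h1⟩ ⟨n', f', h2⟩
      refine ⟨n + n', C b0 ^ n' * f + C b0 ^ n * f', ?_⟩
      rw [map_add, map_mul, map_mul, ← h1, ← h2, map_pow, map_pow, aeval_C]
      change _ = (b0 : R) ^ n' * _ + (b0 : R) ^ n * _
      ring
    · rintro a a' _ _ ⟨n, f, h1⟩ ⟨n', f', h2⟩
      refine ⟨n + n', f * f', ?_⟩
      rw [map_mul, ← h1, ← h2]
      ring

end abs

section main

variable {k R : Type*} [Field k] [CommRing R] [IsDomain R] [CharZero R] [Algebra k R]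
  (B A : Subalgebra k R)

theorem exists_pd (hBA : B ≤ A) (hA : A.FG) (halg : ∀ a ∈ A, IsAlgebraic B a) :
    ∃ θ ∈ A, ∃ (P : B[X]) (b0 : B), PD B A θ P b0 := by
  let K := FractionRing B
  let M := FractionRing R
  have hBM : Function.Injective (algebraMap B M) := by
    rw [IsScalarTower.algebraMap_eq B R M]
    exact (IsFractionRing.injective R M).comp Subtype.val_injective
  have : FaithfulSMul B M := (faithfulSMul_iff_algebraMap_injective B M).mpr hBM
  let _ : Algebra K M := FractionRing.liftAlgebra B M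
  have : IsScalarTower B K M := FractionRing.isScalarTower_liftAlgebra B M
  exact exists_pd_aux B A K M hBA hA halg

/-- `B[f]` as a subalgebra over `k` -/
def adj (f : R) : Subalgebra k R where
  carrier := {a | ∃ g : B[X], a = aeval f g}
  mul_mem' := by
    rintro _ _ ⟨g, rfl⟩ ⟨h, rfl⟩
    exact ⟨g * h, (map_mul _ _ _).symm⟩
  add_mem' := by
    rintro _ _ ⟨g, rfl⟩ ⟨h, rfl⟩
    exact ⟨g + h, (map_add _ _ _).symm⟩
  algebraMap_mem' := fun r => ⟨C ⟨algebraMap k R r, B.algebraMap_mem r⟩, by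
    rw [aeval_C]; rfl⟩

theorem le_adj (f : R) : B ≤ adj B f := fun b hb => ⟨C ⟨b, hb⟩, by rw [aeval_C]; rfl⟩

theorem mem_adj (f : R) : f ∈ adj B f := ⟨X, by rw [aeval_X]⟩

theorem pd_core' (θ : R) (hθ : IsAlgebraic B θ) :
    ∃ P : B[X], 1 ≤ P.natDegree ∧ aeval θ P = 0 ∧
      (P.natDegree = 1 → ∃ b b' : R, b ∈ B ∧ b' ∈ B ∧ b ≠ 0 ∧ b * θ = b') ∧
      ∃ b0 : B, b0 ≠ 0 ∧ P.leadingCoeff ∣ b0 ∧
      (∃ U V : B[X], U * P + V * derivative P = C b0) ∧
      (∀ f : B[X], aeval θ f = 0 → ∃ b : B, b ≠ 0 ∧ ∃ g : B[X], C b * f = P * g) := by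
  let K := FractionRing B
  let M := FractionRing R
  have hBM : Function.Injective (algebraMap B M) := by
    rw [IsScalarTower.algebraMap_eq B R M]
    exact (IsFractionRing.injective R M).comp Subtype.val_injective
  have : FaithfulSMul B M := (faithfulSMul_iff_algebraMap_injective B M).mpr hBM
  let _ : Algebra K M := FractionRing.liftAlgebra B M
  have : IsScalarTower B K M := FractionRing.isScalarTower_liftAlgebra B M
  exact pd_core B K M θ hθ

/-- primitive data of `B[f]` over `B`, of degree `≥ 2` if `f` is not a fraction -/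
theorem exists_pd_adj (f : R) (hf : IsAlgebraic B f)
    (hx : ∀ b b' : R, b ∈ B → b' ∈ B → b ≠ 0 → b * f ≠ b') :
    ∃ (P : B[X]) (b0 : B), PD B (adj B f) f P b0 ∧ 2 ≤ P.natDegree := by
  obtain ⟨P, hdeg, hroot, h1, b1, hb1, hlead, hsep, hker⟩ := pd_core' B f hf
  have h2 : 2 ≤ P.natDegree := by
    by_contra hlt
    obtain ⟨b, b', hb, hb', hne, h3⟩ := h1 (by omega)
    exact hx b b' hb hb' hne h3
  have hexp : ∀ a ∈ adj B f, ∃ (n : ℕ) (g : B[X]), (b1 : R) ^ n * a = aeval f g := by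
    rintro a ⟨g, hg⟩
    exact ⟨0, g, by rw [pow_zero, one_mul, hg]⟩
  exact ⟨P, b1, ⟨hdeg, hroot, hb1, hlead, hsep, hker, hexp⟩, h2⟩

end main

end Crest.Agent.R102.Alg985
end

-- ▼ part R102/Alg_985
section

/-!
Row 102, part (C), (RAT) section 6, leaf RAT-3a = (ALG): a non trivial algebraic extension of
algebras of holomorphic functions has a non trivial embedding at a generic point, and this
embedding commutes with the derivations.
-/

set_option linter.unusedSectionVars false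
set_option linter.unusedVariables false

namespace Crest.Agent.R102.Alg985

open Set Topology TopologicalSpace Polynomial H3

section comm

/-- algebraic homs injective on the base are injective -/
theorem tau_injective {R R' : Type*} [CommRing R] [IsDomain R] [CommRing R'] [IsDomain R']
    [Algebra ℂ R] [Algebra ℂ R'] (B A : Subalgebra ℂ R) (hBA : B ≤ A)
    (halg : ∀ a ∈ A, IsAlgebraic B a) (τ : A →+* R')
    (hτ : ∀ b : A, (b : R) ∈ B → τ b = 0 → b = 0) : Function.Injective τ := by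
  rw [injective_iff_map_eq_zero]
  intro a ha
  by_contra hne
  have hneR : (a : R) ≠ 0 := fun h => hne (Subtype.ext h)
  -- a relation with nonzero constant term
  have key : ∀ n : ℕ, ∀ P : B[X], P ≠ 0 → P.natDegree ≤ n → aeval (a : R) P = 0 → False := by
    intro n
    induction n with
    | zero =>
      intro P hP hn h0
      rw [Polynomial.eq_C_of_natDegree_le_zero hn, aeval_C] at h0
      apply hP
      rw [Polynomial.eq_C_of_natDegree_le_zero hn]
      have : P.coeff 0 = 0 := Subtype.ext h0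
      rw [this, C_0]
    | succ n ih =>
      intro P hP hn h0
      have hc : P.coeff 0 = 0 := by
        have h1 : aeval (a : R) P = (a : R) * aeval (a : R) P.divX + (P.coeff 0 : R) := by
          conv_lhs => rw [← P.divX_mul_X_add]
          rw [map_add, map_mul, aeval_X, aeval_C, mul_comm]
          rfl
        have hmem : aeval (a : R) P.divX ∈ A := by
          have : ∀ Q : B[X], aeval (a : R) Q ∈ A := by
            intro Q
            induction Q using Polynomial.induction_on' with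
            | add p q hp hq =>
              rw [map_add]
              exact A.add_mem hp hq
            | monomial m b =>
              rw [aeval_monomial]
              exact A.mul_mem (hBA b.2) (A.pow_mem a.2 m)
          exact this _
        have hA2 : (⟨(P.coeff 0 : R), hBA (P.coeff 0).2⟩ : A) = - (a * ⟨_, hmem⟩) := by
          apply Subtype.ext
          change (P.coeff 0 : R) = - ((a : R) * aeval (a : R) P.divX)
          rw [h0] at h1
          linear_combination -h1
        have h2 : τ ⟨(P.coeff 0 : R), hBA (P.coeff 0).2⟩ = 0 := by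
          rw [hA2, map_neg, map_mul, ha, zero_mul, neg_zero]
        have h3 := hτ _ (P.coeff 0).2 h2
        have h3' : (P.coeff 0 : R) = 0 := congrArg Subtype.val h3
        exact Subtype.ext h3'
      have h4 : P = P.divX * X := by
        conv_lhs => rw [← P.divX_mul_X_add, hc, C_0, add_zero]
      refine ih P.divX ?_ ?_ ?_
      · intro h5
        rw [h5, zero_mul] at h4
        exact hP h4
      · rw [natDegree_divX_eq_natDegree_tsub_one]
        omega
      · rw [h4, map_mul, aeval_X] at h0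
        exact (mul_eq_zero.mp h0).resolve_right hneR
  obtain ⟨P, hP, h0⟩ := halg a a.2
  exact key _ P hP le_rfl h0

/-- an algebraic embedding commutes with the derivations as soon as it does so on the base -/
theorem tau_comm {R R' : Type*} [CommRing R] [IsDomain R] [CommRing R'] [IsDomain R']
    [CharZero R] [Algebra ℂ R] [Algebra ℂ R'] (B A : Subalgebra ℂ R) (hBA : B ≤ A)
    (halg : ∀ a ∈ A, IsAlgebraic B a) (τ : A →+* R') (hτ : Function.Injective τ)
    (D : Derivation ℂ R R) (D' : Derivation ℂ R' R') (hDA : ∀ a ∈ A, D a ∈ A)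
    (hB : ∀ b : A, (b : R) ∈ B → τ ⟨D b, hDA b b.2⟩ = D' (τ b)) :
    ∀ a : A, τ ⟨D a, hDA a a.2⟩ = D' (τ a) := by
  intro a
  have hmem : ∀ Q : B[X], aeval (a : R) Q ∈ A := by
    intro Q
    induction Q using Polynomial.induction_on' with
    | add p q hp hq =>
      rw [map_add]
      exact A.add_mem hp hq
    | monomial m b =>
      rw [aeval_monomial]
      exact A.mul_mem (hBA b.2) (A.pow_mem a.2 m)
  have key : ∀ P : B[X], ∃ q : A,
      D (aeval (a : R) P) = q + aeval (a : R) (derivative P) * D a ∧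
      D' (τ ⟨_, hmem P⟩) = τ q + τ ⟨_, hmem (derivative P)⟩ * D' (τ a) := by
    intro P
    induction P using Polynomial.induction_on with
    | C b =>
      refine ⟨⟨D (b : R), hDA _ (hBA b.2)⟩, ?_, ?_⟩
      · rw [aeval_C, derivative_C, map_zero, zero_mul, add_zero]
        rfl
      · have h1 := hB ⟨(b : R), hBA b.2⟩ b.2
        rw [h1]
        have h2 : (⟨aeval (a : R) (derivative (C b)), hmem (derivative (C b))⟩ : A) = 0 := by
          apply Subtype.ext
          change aeval (a : R) (derivative (C b)) = 0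
          rw [derivative_C, map_zero]
        rw [h2, map_zero, zero_mul, add_zero]
        congr 2
        apply Subtype.ext
        change aeval (a : R) (C b) = b
        rw [aeval_C]
        rfl
    | add p q hp hq =>
      obtain ⟨u, h1, h2⟩ := hp
      obtain ⟨v, h3, h4⟩ := hq
      refine ⟨u + v, ?_, ?_⟩
      · rw [map_add, map_add, h1, h3, derivative_add, map_add]
        push_cast
        ring
      · have e1 : (⟨aeval (a : R) (p + q), hmem (p + q)⟩ : A) =
            ⟨_, hmem p⟩ + ⟨_, hmem q⟩ := Subtype.ext (map_add _ _ _)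
        have e2 : (⟨aeval (a : R) (derivative (p + q)), hmem (derivative (p + q))⟩ : A) =
            ⟨_, hmem (derivative p)⟩ + ⟨_, hmem (derivative q)⟩ := Subtype.ext (by
          change aeval (a : R) (derivative (p + q)) = _
          rw [derivative_add, map_add]
          rfl)
        rw [e1, e2, map_add, map_add, h2, h4, map_add, map_add]
        ring
    | monomial n b ih =>
      obtain ⟨u, h1, h2⟩ := ih
      have e0 : (C b * X ^ (n + 1) : B[X]) = (C b * X ^ n) * X := by ring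
      rw [e0]
      obtain ⟨Q, hQ⟩ : ∃ Q : B[X], Q = C b * X ^ n := ⟨_, rfl⟩
      revert h1 h2
      rw [← hQ]
      intro h1 h2
      refine ⟨u * a, ?_, ?_⟩
      · have e3 : derivative (Q * X) = derivative Q * X + Q := by
          rw [derivative_mul, derivative_X, mul_one]
        rw [e3, map_mul, aeval_X, D.leibniz, h1, map_add, map_mul, aeval_X]
        simp only [smul_eq_mul]
        push_cast
        ring
      · have e1 : (⟨aeval (a : R) (Q * X), hmem (Q * X)⟩ : A) = ⟨_, hmem Q⟩ * a :=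
          Subtype.ext (by
            change aeval (a : R) (Q * X) = _
            rw [map_mul, aeval_X]
            rfl)
        have e2 : (⟨aeval (a : R) (derivative (Q * X)), hmem (derivative (Q * X))⟩ : A) =
            ⟨_, hmem (derivative Q)⟩ * a + ⟨_, hmem Q⟩ := Subtype.ext (by
          change aeval (a : R) (derivative (Q * X)) = _
          rw [derivative_mul, derivative_X, mul_one, map_add, map_mul, aeval_X]
          rfl)
        rw [e1, e2, map_mul τ, D'.leibniz, h2, map_add τ, map_mul τ, map_mul τ]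
        simp only [smul_eq_mul]
        ring
  -- a relation of minimal degree
  obtain ⟨P, hP, h0, hmin⟩ : ∃ P : B[X], P ≠ 0 ∧ aeval (a : R) P = 0 ∧
      aeval (a : R) (derivative P) ≠ 0 := by
    have hcB : CharZero B := ⟨fun m n h => by
      have := congrArg (Subtype.val : B → R) h
      exact_mod_cast this⟩
    obtain ⟨P0, hP0, hP00⟩ := halg a a.2
    classical
    have hex : ∃ n, ∃ P : B[X], P ≠ 0 ∧ aeval (a : R) P = 0 ∧ P.natDegree = n :=
      ⟨_, P0, hP0, hP00, rfl⟩
    obtain ⟨P, hP, h0, hn⟩ := Nat.find_spec hex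
    refine ⟨P, hP, h0, fun hd => ?_⟩
    have hdeg : P.natDegree ≠ 0 := by
      intro h1
      rw [Polynomial.eq_C_of_natDegree_eq_zero h1, aeval_C] at h0
      apply hP
      rw [Polynomial.eq_C_of_natDegree_eq_zero h1]
      have : P.coeff 0 = 0 := Subtype.ext h0
      rw [this, C_0]
    have hd0 : derivative P ≠ 0 := by
      intro h2
      exact hdeg (Polynomial.derivative_eq_zero.mp h2)
    have hlt : (derivative P).natDegree < Nat.find hex := by
      rw [← hn]
      exact Polynomial.natDegree_derivative_lt hdeg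
    exact Nat.find_min hex hlt ⟨_, hd0, hd, rfl⟩
  obtain ⟨q, h1, h2⟩ := key P
  rw [h0, map_zero] at h1
  have e1 : (⟨aeval (a : R) P, hmem P⟩ : A) = 0 := Subtype.ext h0
  rw [e1, map_zero, map_zero] at h2
  have h3 : q + ⟨_, hmem (derivative P)⟩ * (⟨D a, hDA a a.2⟩ : A) = 0 := Subtype.ext h1.symm
  have h4 := congrArg τ h3
  rw [map_add, map_mul, map_zero] at h4
  have hne : τ ⟨_, hmem (derivative P)⟩ ≠ 0 := by
    intro h5
    have := (injective_iff_map_eq_zero τ).mp hτ _ h5
    exact hmin (congrArg Subtype.val this)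
  have h6 : τ ⟨_, hmem (derivative P)⟩ * (τ ⟨D a, hDA a a.2⟩ - D' (τ a)) = 0 := by
    linear_combination h4 + h2
  exact sub_eq_zero.mp ((mul_eq_zero.mp h6).resolve_left hne)

end comm

end Crest.Agent.R102.Alg985
end

-- ▼ part R102/AlgB_985
section

/-!
Row 102, (RAT), leaf R1 = ALG, analytic part: extension of embeddings.
-/

set_option linter.unusedSectionVars false
set_option linter.unusedVariables false

namespace Crest.Agent.R102.Alg985

open Set Topology TopologicalSpace Polynomial H3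
open scoped ContDiff

variable {E : Type*} [NormedAddCommGroup E] [NormedSpace ℂ E]

theorem res_injective {W W' : Opens E} (hW : IsPreconnected (W : Set E)) (hle : W' ≤ W)
    (hne : (W' : Set E).Nonempty) : Function.Injective (Hol.res hle) := by
  rw [injective_iff_map_eq_zero]
  intro f hf
  obtain ⟨w, hw⟩ := hne
  refine Hol.eq_zero_of_eventually hW f ⟨w, hle hw⟩ ?_
  filter_upwards [W'.isOpen.mem_nhds hw] with y hy
  rw [ext0_of_mem _ (hle hy)]
  have := congrArg (fun F : Hol W' => (F : W' → ℂ) ⟨y, hy⟩) hf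
  simpa using this

/-- a nonzero function is nonzero at some point of every nonempty open subset -/
theorem exists_ne {W U : Opens E} (hW : IsPreconnected (W : Set E)) (hle : U ≤ W)
    (hne : (U : Set E).Nonempty) (f : Hol W) (hf : f ≠ 0) :
    ∃ w : E, ∃ h : w ∈ U, (f : W → ℂ) ⟨w, hle h⟩ ≠ 0 := by
  by_contra hcon
  push Not at hcon
  apply hf
  apply res_injective hW hle hne
  rw [map_zero]
  ext w
  exact hcon w w.2

theorem isUnit_of_root {p : ℂ[X]} {c y : ℂ} {U V : ℂ[X]} (h : U * p + V * derivative p = C c)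
    (hc : c ≠ 0) (hy : p.eval y = 0) : (derivative p).eval y ≠ 0 := by
  intro h0
  have := congrArg (Polynomial.eval y) h
  rw [eval_add, eval_mul, eval_mul, hy, h0, mul_zero, mul_zero, add_zero, eval_C] at this
  exact hc this.symm

/-- choice of a root -/
theorem exists_root' (p : ℂ[X]) (hdeg : 1 ≤ p.natDegree) (c : ℂ) (U V : ℂ[X])
    (h : U * p + V * derivative p = C c) (hc : c ≠ 0) (g : ℂ) :
    ∃ y : ℂ, p.eval y = 0 ∧ (derivative p).eval y ≠ 0 ∧ (2 ≤ p.natDegree → y ≠ g) := by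
  have hex : ∀ q : ℂ[X], 1 ≤ q.natDegree → ∃ y, q.eval y = 0 := by
    intro q hq
    obtain ⟨y, hy⟩ := IsAlgClosed.exists_root q (by
      have h3 : q.degree ≠ ((0 : ℕ) : WithBot ℕ) :=
        Polynomial.degree_ne_of_natDegree_ne (by omega)
      exact h3)
    exact ⟨y, hy⟩
  obtain ⟨y1, hy1⟩ := hex p hdeg
  by_cases h2 : 2 ≤ p.natDegree
  · obtain ⟨q, hq⟩ := Polynomial.dvd_iff_isRoot.mpr hy1
    have hp0 : p ≠ 0 := by
      rintro rfl
      simp at hdeg
    have hq0 : q ≠ 0 := by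
      rintro rfl
      rw [mul_zero] at hq
      exact hp0 hq
    have hdq : 1 ≤ q.natDegree := by
      have h3 : p.natDegree = 1 + q.natDegree := by
        conv_lhs => rw [hq]
        rw [Polynomial.natDegree_mul (Polynomial.X_sub_C_ne_zero y1) hq0,
          Polynomial.natDegree_X_sub_C]
      omega
    obtain ⟨y2, hy2⟩ := hex q hdq
    have hpy2 : p.eval y2 = 0 := by rw [hq, eval_mul, hy2, mul_zero]
    have h12 : y2 ≠ y1 := by
      rintro rfl
      refine isUnit_of_root h hc hy1 ?_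
      rw [hq, derivative_mul, eval_add, eval_mul, eval_mul, hy2]
      simp
    by_cases hg : y1 = g
    · exact ⟨y2, hpy2, isUnit_of_root h hc hpy2, fun _ => hg ▸ h12⟩
    · exact ⟨y1, hy1, isUnit_of_root h hc hy1, fun _ => hg⟩
  · exact ⟨y1, hy1, isUnit_of_root h hc hy1, fun h3 => absurd h3 h2⟩

variable [CompleteSpace E]

/-- the analytic implicit function theorem for a polynomial with analytic coefficients -/
theorem exists_chi (d : ℕ) (c : ℕ → E → ℂ) (w0 : E) (hc : ∀ i, i ≤ d → AnalyticAt ℂ (c i) w0)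
    (p : ℂ[X]) (hp : p = ∑ i ∈ Finset.range (d + 1), C (c i w0) * X ^ i) (y0 : ℂ)
    (h0 : p.eval y0 = 0) (h1 : (derivative p).eval y0 ≠ 0) :
    ∃ χ : E → ℂ, AnalyticAt ℂ χ w0 ∧ χ w0 = y0 ∧
      ∀ᶠ w in 𝓝 w0, ∑ i ∈ Finset.range (d + 1), c i w * χ w ^ i = 0 := by
  let n : E × ℂ → ℂ := fun v => ∑ i ∈ Finset.range (d + 1), c i v.1 * v.2 ^ i
  have han : AnalyticAt ℂ n (w0, y0) := by
    have : n = ∑ i ∈ Finset.range (d + 1), fun v : E × ℂ => c i v.1 * v.2 ^ i := by
      funext v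
      simp [n, Finset.sum_apply]
    rw [this]
    refine Finset.analyticAt_sum _ fun i hi => ?_
    have hi' : i ≤ d := by
      have := Finset.mem_range.mp hi
      omega
    exact ((hc i hi').fun_comp_of_eq analyticAt_fst rfl).mul (analyticAt_snd.pow i)
  have hcd : ContDiffAt ℂ ω n (w0, y0) := han.contDiffAt
  have hline : ∀ y, n (w0, y) = p.eval y := by
    intro y
    rw [hp, eval_finsetSum]
    simp [n]
  have hder : fderiv ℂ n (w0, y0) (0, 1) = (derivative p).eval y0 := by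
    have e1 : HasDerivAt (fun y : ℂ => n (w0, y)) (fderiv ℂ n (w0, y0) (0, 1)) y0 := by
      have e2 : HasDerivAt (fun y : ℂ => (w0, y)) ((0 : E), (1 : ℂ)) y0 :=
        (hasDerivAt_const y0 w0).prodMk (hasDerivAt_id y0)
      exact (han.differentiableAt.hasFDerivAt).comp_hasDerivAt y0 e2
    have e3 : HasDerivAt (fun y : ℂ => n (w0, y)) ((derivative p).eval y0) y0 := by
      simp only [hline]
      exact p.hasDerivAt y0
    exact e1.unique e3
  have hinv : (fderiv ℂ n (w0, y0) ∘L ContinuousLinearMap.inr ℂ E ℂ).IsInvertible := by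
    refine ⟨ContinuousLinearEquiv.unitsEquivAut ℂ (Units.mk0 _ (hder ▸ h1)), ?_⟩
    ext
    simp
  have hω : (ω : WithTop ℕ∞) ≠ 0 := by simp
  refine ⟨hcd.implicitFunction hω hinv, ?_, ?_, ?_⟩
  · exact (hcd.contDiffAt_implicitFunction hω hinv).analyticAt
  · exact hcd.implicitFunction_apply_self hω hinv
  · have := hcd.eventually_apply_implicitFunction hω hinv
    filter_upwards [this] with w hw
    rw [hline, h0] at hw
    exact hw

/-- **extension of an embedding to a primitive extension**, at a generic point -/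
theorem ext_step {R : Type*} [CommRing R] [IsDomain R] [Algebra ℂ R] (B A : Subalgebra ℂ R)
    (hBA : B ≤ A) (θ : R) (hθ : θ ∈ A) (P : B[X]) (b0 : B) (hpd : PD B A θ P b0)
    {W : Opens E} (hW : IsPreconnected (W : Set E)) (hne : (W : Set E).Nonempty)
    (σ : B →ₐ[ℂ] Hol W) (hσ : Function.Injective σ) (g : Hol W) :
    ∃ (W' : Opens E) (hle : W' ≤ W), (W' : Set E).Nonempty ∧ IsPreconnected (W' : Set E) ∧
      ∃ τ : A →ₐ[ℂ] Hol W', (∀ b : B, τ ⟨b, hBA b.2⟩ = Hol.res hle (σ b)) ∧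
        (2 ≤ P.natDegree → τ ⟨θ, hθ⟩ ≠ Hol.res hle g) := by
  classical
  have hWne : Nonempty W := hne.to_subtype
  have hdomW : IsDomain (Hol W) := Hol.isDomain hW
  -- a good point
  have hb0 : σ b0 ≠ 0 := by
    rw [Ne, map_eq_zero_iff _ hσ]
    exact hpd.b0_ne
  obtain ⟨w0, hw0, hval⟩ := exists_ne hW le_rfl hne _ hb0
  set s0 : B →+* ℂ := (evH (⟨w0, hw0⟩ : W)).toRingHom.comp σ.toRingHom with hs0
  have hs0b : ∀ b : B, s0 b = ext0 (σ b : W → ℂ) w0 := by
    intro b
    rw [ext0_of_mem _ hw0]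
    rfl
  have hs0b0 : s0 b0 ≠ 0 := hval
  set p : ℂ[X] := P.map s0 with hp
  obtain ⟨U, V, hUV⟩ := hpd.sep
  have hUV' : U.map s0 * p + V.map s0 * derivative p = C (s0 b0) := by
    have := congrArg (Polynomial.map s0) hUV
    rw [Polynomial.map_add, Polynomial.map_mul, Polynomial.map_mul, Polynomial.map_C,
      ← Polynomial.derivative_map] at this
    exact this
  have hlead : s0 P.leadingCoeff ≠ 0 := by
    obtain ⟨c, hc⟩ := hpd.lead
    intro h0
    apply hs0b0
    rw [hc, map_mul, h0, zero_mul]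
  have hdeg : p.natDegree = P.natDegree := Polynomial.natDegree_map_of_leadingCoeff_ne_zero _ hlead
  obtain ⟨y0, hy0, hy0', hy0g⟩ := exists_root' p (hdeg ▸ hpd.deg) (s0 b0) _ _ hUV' hs0b0
    ((g : W → ℂ) ⟨w0, hw0⟩)
  -- the implicit function
  obtain ⟨χ, hχ, hχ0, hχn⟩ := exists_chi P.natDegree (fun i => ext0 (σ (P.coeff i) : W → ℂ)) w0
    (fun i _ => Hol.an _ w0 hw0) p (by
      rw [hp]
      conv_lhs => rw [P.as_sum_range_C_mul_X_pow]
      rw [Polynomial.map_sum]
      refine Finset.sum_congr rfl fun i _ => ?_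
      rw [Polynomial.map_mul, Polynomial.map_C, Polynomial.map_pow, Polynomial.map_X, hs0b])
    y0 hy0 hy0'
  have hcont : ContinuousAt (ext0 (σ b0 : W → ℂ)) w0 := (Hol.an (σ b0) w0 hw0).continuousAt
  have hb0w : ext0 (σ b0 : W → ℂ) w0 ≠ 0 := by
    rw [← hs0b]
    exact hs0b0
  have hev : ∀ᶠ w in 𝓝 w0, w ∈ W ∧ AnalyticAt ℂ χ w ∧
      (∑ i ∈ Finset.range (P.natDegree + 1), ext0 (σ (P.coeff i) : W → ℂ) w * χ w ^ i = 0) ∧
      ext0 (σ b0 : W → ℂ) w ≠ 0 := by
    filter_upwards [W.isOpen.mem_nhds hw0, hχ.eventually_analyticAt, hχn, hcont.eventually_ne hb0w]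
      with w h1 h2 h3 h4 using ⟨h1, h2, h3, h4⟩
  obtain ⟨r, hr, hball⟩ := Metric.eventually_nhds_iff_ball.mp hev
  let W' : Opens E := ⟨Metric.ball w0 r, Metric.isOpen_ball⟩
  have hmem : ∀ w : E, w ∈ W' ↔ w ∈ Metric.ball w0 r := fun w => Iff.rfl
  have hle : W' ≤ W := fun w hw => (hball w hw).1
  have hne' : (W' : Set E).Nonempty := ⟨w0, Metric.mem_ball_self hr⟩
  have hpre : IsPreconnected (W' : Set E) := by
    have h1 : Convex ℝ (Metric.ball w0 r) := by
      let _ : NormedSpace ℝ E := NormedSpace.restrictScalars ℝ ℂ E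
      exact convex_ball w0 r
    exact h1.isPreconnected
  have hW'ne : Nonempty W' := hne'.to_subtype
  have hdomW' : IsDomain (Hol W') := Hol.isDomain hpre
  let χH : Hol W' := Hol.ofFun χ (fun w hw => (hball w hw).2.1)
  let ρ : B →+* Hol W' := (Hol.res hle).toRingHom.comp σ.toRingHom
  have hρinj : Function.Injective ρ := (res_injective hW hle hne').comp hσ
  let ev : B[X] →+* Hol W' := Polynomial.eval₂RingHom ρ χH
  have hevC : ∀ b, ev (C b) = ρ b := fun b => Polynomial.eval₂_C _ _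
  have hevX : ev X = χH := Polynomial.eval₂_X _ _
  have hevP : ev P = 0 := by
    change Polynomial.eval₂ ρ χH P = 0
    rw [Polynomial.eval₂_eq_sum_range]
    ext w
    have h3 := (hball w w.2).2.2.1
    have h4 : ((∑ i ∈ Finset.range (P.natDegree + 1), ρ (P.coeff i) * χH ^ i : Hol W') : W' → ℂ) w
        = ∑ i ∈ Finset.range (P.natDegree + 1), ext0 (σ (P.coeff i) : W → ℂ) w * χ w ^ i := by
      have h5 : ((∑ i ∈ Finset.range (P.natDegree + 1), ρ (P.coeff i) * χH ^ i : Hol W') :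
          W' → ℂ) w = evH w (∑ i ∈ Finset.range (P.natDegree + 1), ρ (P.coeff i) * χH ^ i) := rfl
      rw [h5, map_sum]
      refine Finset.sum_congr rfl fun i _ => ?_
      rw [map_mul, map_pow, ext0_of_mem _ (hle w.2)]
      rfl
    rw [h4, h3]
    rfl
  have hker : ∀ f : B[X], aeval θ f = 0 → ev f = 0 := by
    intro f hf
    obtain ⟨b, hb, g, hg⟩ := hpd.ker f hf
    have h1 := congrArg ev hg
    rw [map_mul, map_mul, hevP, zero_mul, hevC] at h1
    refine (mul_eq_zero.mp h1).resolve_left ?_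
    rw [map_eq_zero_iff _ hρinj]
    exact hb
  have hunit : IsUnit (ρ b0) := by
    refine Hol.isUnit _ fun w => ?_
    have h3 := (hball w w.2).2.2.2
    rw [ext0_of_mem _ (hle w.2)] at h3
    exact h3
  obtain ⟨β, hβ⟩ := hunit.exists_right_inv
  -- the extension
  have hchoice : ∀ a : A, ∃ nf : ℕ × B[X], (b0 : R) ^ nf.1 * a = aeval θ nf.2 := fun a => by
    obtain ⟨n, f, h⟩ := hpd.exp a a.2
    exact ⟨(n, f), h⟩
  choose nf hnf using hchoice
  let τ0 : A → Hol W' := fun a => β ^ (nf a).1 * ev (nf a).2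
  have hτ0 : ∀ (a : A) (n : ℕ) (f : B[X]), (b0 : R) ^ n * a = aeval θ f →
      τ0 a = β ^ n * ev f := by
    intro a n f h
    have h1 := hker (C b0 ^ n * (nf a).2 - C b0 ^ (nf a).1 * f) (by
      rw [map_sub, map_mul, map_mul, ← hnf a, ← h, map_pow, map_pow, aeval_C]
      change (b0 : R) ^ n * _ - (b0 : R) ^ (nf a).1 * _ = 0
      ring)
    rw [map_sub, map_mul, map_mul, map_pow, map_pow, hevC, sub_eq_zero] at h1
    have h2 : β ^ n * (ρ b0) ^ n = 1 := by rw [← mul_pow, mul_comm, hβ, one_pow]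
    have h3 : β ^ (nf a).1 * (ρ b0) ^ (nf a).1 = 1 := by rw [← mul_pow, mul_comm, hβ, one_pow]
    change β ^ (nf a).1 * ev (nf a).2 = _
    calc β ^ (nf a).1 * ev (nf a).2
        = (β ^ n * (ρ b0) ^ n) * (β ^ (nf a).1 * ev (nf a).2) := by rw [h2, one_mul]
      _ = β ^ n * β ^ (nf a).1 * ((ρ b0) ^ n * ev (nf a).2) := by ring
      _ = β ^ n * (β ^ (nf a).1 * (ρ b0) ^ (nf a).1) * ev f := by rw [h1]; ring
      _ = β ^ n * ev f := by rw [h3, mul_one]
  have hτC : ∀ b : B, τ0 ⟨b, hBA b.2⟩ = ρ b := by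
    intro b
    rw [hτ0 ⟨b, hBA b.2⟩ 0 (C b) (by rw [pow_zero, one_mul, aeval_C]; rfl), pow_zero, one_mul, hevC]
  let τ : A →ₐ[ℂ] Hol W' :=
    { toFun := τ0
      map_one' := by
        rw [hτ0 1 0 1 (by simp), pow_zero, one_mul, map_one]
      map_mul' := fun a a' => by
        rw [hτ0 (a * a') ((nf a).1 + (nf a').1) ((nf a).2 * (nf a').2) (by
          rw [map_mul, ← hnf, ← hnf]
          push_cast
          ring), map_mul]
        change _ = (β ^ (nf a).1 * ev (nf a).2) * (β ^ (nf a').1 * ev (nf a').2)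
        ring
      map_zero' := by
        rw [hτ0 0 0 0 (by simp), map_zero, mul_zero]
      map_add' := fun a a' => by
        rw [hτ0 (a + a') ((nf a).1 + (nf a').1)
          (C b0 ^ (nf a').1 * (nf a).2 + C b0 ^ (nf a).1 * (nf a').2) (by
          rw [map_add, map_mul, map_mul, ← hnf, ← hnf, map_pow, map_pow, aeval_C]
          change _ = (b0 : R) ^ _ * _ + (b0 : R) ^ _ * _
          push_cast
          ring), map_add, map_mul, map_mul, map_pow, map_pow, hevC]
        have h2 : ∀ n, β ^ n * (ρ b0) ^ n = 1 := fun n => by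
          rw [← mul_pow, mul_comm, hβ, one_pow]
        change _ = (β ^ (nf a).1 * ev (nf a).2) + (β ^ (nf a').1 * ev (nf a').2)
        rw [pow_add]
        linear_combination (β ^ (nf a).1 * ev (nf a).2) * h2 (nf a').1 +
          (β ^ (nf a').1 * ev (nf a').2) * h2 (nf a).1
      commutes' := fun r => by
        have h1 := hτC ⟨algebraMap ℂ R r, B.algebraMap_mem r⟩
        have h2 : (algebraMap ℂ A r) = ⟨algebraMap ℂ R r, hBA (B.algebraMap_mem r)⟩ := rfl
        rw [h2, h1]
        change Hol.res hle (σ (algebraMap ℂ B r)) = _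
        rw [AlgHom.commutes, AlgHom.commutes] }
  refine ⟨W', hle, hne', hpre, τ, hτC, fun h2 heq => ?_⟩
  have h3 : τ ⟨θ, hθ⟩ = χH := by
    change τ0 _ = _
    rw [hτ0 ⟨θ, hθ⟩ 0 X (by rw [pow_zero, one_mul, aeval_X]), pow_zero, one_mul, hevX]
  rw [h3] at heq
  have h4 := congrArg (fun F : Hol W' => (F : W' → ℂ) ⟨w0, Metric.mem_ball_self hr⟩) heq
  have h5 : χ w0 = (g : W → ℂ) ⟨w0, hw0⟩ := h4
  rw [hχ0] at h5
  exact hy0g (hdeg ▸ h2) h5

end Crest.Agent.R102.Alg985
end

-- ▼ part R102/AlgC_985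

/-!
Row 102, (RAT), leaf R1 = ALG, field form.
-/

set_option linter.unusedSectionVars false
set_option linter.unusedVariables false

namespace Crest.Agent.R102.Alg985

open Set Topology TopologicalSpace Polynomial H3

variable {E : Type*} [NormedAddCommGroup E] [NormedSpace ℂ E]

section fields

variable {M : Type*} [Field M] [Algebra ℂ M]

/-- algebraic over `ℂ(S)` implies algebraic over `ℂ[S]` -/
theorem alg_of_alg_adjoin (S : Set M) (a : M)
    (h : IsAlgebraic (IntermediateField.adjoin ℂ S) a) : IsAlgebraic (Algebra.adjoin ℂ S) a := by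
  open IntermediateField.algebraAdjoinAdjoin in
  exact (IsFractionRing.isAlgebraic_iff (Algebra.adjoin ℂ S) (IntermediateField.adjoin ℂ S) M).mpr h

/-- extension of an injective homomorphism to the fraction field -/
theorem exists_field_hom {M' : Type*} [Field M'] [Algebra ℂ M'] (T : Set M)
    (τ : Algebra.adjoin ℂ T →ₐ[ℂ] M') (hτ : Function.Injective τ) :
    ∃ τ' : IntermediateField.adjoin ℂ T →ₐ[ℂ] M', ∀ a (ha : a ∈ Algebra.adjoin ℂ T),
      τ' ⟨a, IntermediateField.algebra_adjoin_le_adjoin ℂ T ha⟩ = τ ⟨a, ha⟩ := by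
  open IntermediateField.algebraAdjoinAdjoin in
  refine ⟨IsFractionRing.liftAlgHom (K := IntermediateField.adjoin ℂ T) (g := τ) hτ,
    fun a ha => ?_⟩
  have := IsFractionRing.lift_algebraMap (K := IntermediateField.adjoin ℂ T) (g := τ.toRingHom) hτ
    ⟨a, ha⟩
  exact this

end fields

/-- the map induced on fraction fields -/
theorem exists_rho {W W' : Opens E} [IsDomain (Hol W)] [IsDomain (Hol W')]
    (hW : IsPreconnected (W : Set E)) (hle : W' ≤ W) (hne : (W' : Set E).Nonempty) :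
    ∃ ρ : FractionRing (Hol W) →ₐ[ℂ] FractionRing (Hol W'), ∀ g : Hol W,
      ρ (algebraMap _ _ g) = algebraMap _ _ (Hol.res hle g) := by
  let φ : Hol W →ₐ[ℂ] FractionRing (Hol W') :=
    (IsScalarTower.toAlgHom ℂ (Hol W') (FractionRing (Hol W'))).comp (Hol.res hle)
  have hφ : Function.Injective φ :=
    (IsFractionRing.injective (Hol W') (FractionRing (Hol W'))).comp (res_injective hW hle hne)
  refine ⟨IsFractionRing.liftAlgHom (K := FractionRing (Hol W)) (g := φ) hφ, fun g => ?_⟩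
  exact IsFractionRing.lift_algebraMap (K := FractionRing (Hol W)) (g := φ.toRingHom) hφ g


/-- the derivations, field form -/
theorem comm_field {M M' : Type*} [Field M] [Field M'] [Algebra ℂ M] [Algebra ℂ M']
    (K L : IntermediateField ℂ M) (hKL : K ≤ L) (halg : ∀ f ∈ L, IsAlgebraic K f)
    (ρ : M →ₐ[ℂ] M') (τ : L →ₐ[ℂ] M') (hτK : ∀ (f : M) (hf : f ∈ K), τ ⟨f, hKL hf⟩ = ρ f)
    (D : Derivation ℂ M M) (D' : Derivation ℂ M' M') (hDL : ∀ f ∈ L, D f ∈ L)
    (hDK : ∀ f ∈ K, D f ∈ K) (hDρ : ∀ f ∈ L, D' (ρ f) = ρ (D f)) (f : M) (hf : f ∈ L) :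
    τ ⟨D f, hDL f hf⟩ = D' (τ ⟨f, hf⟩) := by
  have hcM : CharZero M := charZero_of_injective_algebraMap (algebraMap ℂ M).injective
  let τ' : L.toSubalgebra →+* M' := τ.toRingHom
  have h := tau_comm (R := M) (R' := M') K.toSubalgebra L.toSubalgebra hKL
    (fun a ha => halg a ha) τ' τ.toRingHom.injective D D' hDL (fun b hb => by
      have h1 : τ ⟨b, hKL hb⟩ = ρ b := hτK b hb
      have h2 : τ ⟨D b, hKL (hDK b hb)⟩ = ρ (D b) := hτK (D b) (hDK b hb)
      change τ ⟨D b, _⟩ = D' (τ ⟨b, _⟩)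
      rw [h1, hDρ b b.2]
      exact h2)
  exact h ⟨f, hf⟩

variable [CompleteSpace E]

/-- core of ALG -/
theorem alg_core {R : Type*} [CommRing R] [IsDomain R] [CharZero R] [Algebra ℂ R]
    (B A : Subalgebra ℂ R) (hBA : B ≤ A) (hA : A.FG) (halgB : ∀ a ∈ A, IsAlgebraic B a)
    (f0 : R) (hf0 : f0 ∈ A) (hx : ∀ b b' : R, b ∈ B → b' ∈ B → b ≠ 0 → b * f0 ≠ b')
    {W1 : Opens E} (hW1p : IsPreconnected (W1 : Set E)) (hW1ne : (W1 : Set E).Nonempty)
    (σA : A →ₐ[ℂ] Hol W1) (hσA : Function.Injective σA) :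
    ∃ (W3 : Opens E) (hle : W3 ≤ W1), (W3 : Set E).Nonempty ∧
      IsPreconnected (W3 : Set E) ∧ ∃ τ : A →ₐ[ℂ] Hol W3, Function.Injective τ ∧
      (∀ (b : R) (hb : b ∈ B), τ ⟨b, hBA hb⟩ = Hol.res hle (σA ⟨b, hBA hb⟩)) ∧
      τ ⟨f0, hf0⟩ ≠ Hol.res hle (σA ⟨f0, hf0⟩) := by
  classical
  have hn1 : Nonempty W1 := hW1ne.to_subtype
  have hdom1 : IsDomain (Hol W1) := Hol.isDomain hW1p
  let σ : B →ₐ[ℂ] Hol W1 := σA.comp (Subalgebra.inclusion hBA)
  have hσ : ∀ b : B, σ b = σA ⟨b, hBA b.2⟩ := fun b => rfl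
  have hσinj : Function.Injective σ := hσA.comp (Subalgebra.inclusion_injective hBA)
  clear_value σ
  -- first step
  obtain ⟨P, b0, hpd, hP2⟩ := exists_pd_adj B f0 (halgB f0 hf0) hx
  obtain ⟨W2, hle2, hW2ne, hW2p, τ1, hτ1, hτ1f⟩ := ext_step B (adj B f0) (le_adj B f0) f0
    (mem_adj B f0) P b0 hpd hW1p hW1ne σ hσinj (σA ⟨f0, hf0⟩)
  have hn2 : Nonempty W2 := hW2ne.to_subtype
  have hdom2 : IsDomain (Hol W2) := Hol.isDomain hW2p
  have hadjA : adj B f0 ≤ A := by
    rintro _ ⟨g, rfl⟩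
    induction g using Polynomial.induction_on' with
    | add p q hp hq =>
      rw [map_add]
      exact A.add_mem hp hq
    | monomial m b =>
      rw [aeval_monomial]
      exact A.mul_mem (hBA b.2) (A.pow_mem hf0 m)
  have hτ1inj : Function.Injective τ1 := by
    refine tau_injective B (adj B f0) (le_adj B f0) (fun a ha => halgB a (hadjA ha))
      τ1.toRingHom ?_
    intro b hb h0
    have h1 : τ1 b = Hol.res hle2 (σ ⟨b, hb⟩) := hτ1 ⟨b, hb⟩
    have h2 : Hol.res hle2 (σ ⟨b, hb⟩) = 0 := by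
      rw [← h1]
      exact h0
    have h3 := (injective_iff_map_eq_zero _).mp (res_injective hW1p hle2 hW2ne) _ h2
    have h4 := (injective_iff_map_eq_zero σ).mp hσinj _ h3
    have h5 : (b : R) = 0 := congrArg Subtype.val h4
    exact Subtype.ext h5
  -- second step
  have halg1 : ∀ a ∈ A, IsAlgebraic (adj B f0) a := by
    intro a ha
    obtain ⟨p, hp, hpa⟩ := halgB a ha
    refine ⟨p.map (Subalgebra.inclusion (le_adj B f0)).toRingHom, ?_, ?_⟩
    · rw [Ne, Polynomial.map_eq_zero_iff (Subalgebra.inclusion_injective (le_adj B f0))]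
      exact hp
    · rw [Polynomial.aeval_def, Polynomial.eval₂_map]
      exact hpa
  obtain ⟨θ, hθ, P', b0', hpd'⟩ := exists_pd (adj B f0) A hadjA hA halg1
  obtain ⟨W3, hle3, hW3ne, hW3p, τ2, hτ2, -⟩ := ext_step (adj B f0) A hadjA θ hθ P' b0' hpd'
    hW2p hW2ne τ1 hτ1inj 0
  have hn3 : Nonempty W3 := hW3ne.to_subtype
  have hdom3 : IsDomain (Hol W3) := Hol.isDomain hW3p
  have hle31 : W3 ≤ W1 := hle3.trans hle2
  have hτ2B : ∀ (b : R) (hb : b ∈ B), τ2 ⟨b, hBA hb⟩ = Hol.res hle31 (σ ⟨b, hb⟩) := by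
    intro b hb
    have h1 := hτ2 ⟨b, le_adj B f0 hb⟩
    have h2 := hτ1 ⟨b, hb⟩
    rw [h2] at h1
    exact h1
  have hτ2inj : Function.Injective τ2 := by
    refine tau_injective B A hBA halgB τ2.toRingHom ?_
    intro b hb h0
    have h1 : τ2 b = Hol.res hle31 (σ ⟨b, hb⟩) := hτ2B b hb
    have h2 : Hol.res hle31 (σ ⟨b, hb⟩) = 0 := by
      rw [← h1]
      exact h0
    have h3 := (injective_iff_map_eq_zero _).mp (res_injective hW1p hle31 hW3ne) _ h2
    have h4 := (injective_iff_map_eq_zero σ).mp hσinj _ h3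
    have h5 : (b : R) = 0 := congrArg Subtype.val h4
    exact Subtype.ext h5
  refine ⟨W3, hle31, hW3ne, hW3p, τ2, hτ2inj, ?_, ?_⟩
  · intro b hb
    rw [hτ2B b hb, hσ]
  · intro heq
    have h3 : τ2 ⟨f0, hf0⟩ = Hol.res hle3 (τ1 ⟨f0, mem_adj B f0⟩) := hτ2 ⟨f0, mem_adj B f0⟩
    apply hτ1f hP2
    apply res_injective hW2p hle3 hW3ne
    rw [← h3]
    exact heq

section top

variable {M M1 M3 R1 R3 : Type*} [Field M] [Field M1] [Field M3] [Algebra ℂ M] [Algebra ℂ M1]
  [Algebra ℂ M3] [CommRing R1] [CommRing R3] [Algebra ℂ R1] [Algebra ℂ R3] [Algebra R1 M1]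
  [Algebra R3 M3] [IsScalarTower ℂ R1 M1] [IsScalarTower ℂ R3 M3]

/-- the subalgebra of elements with regular image -/
theorem reg_adjoin (T : Set M) (ρ1 : M →ₐ[ℂ] M1) (hT : ∀ t ∈ T, ∃ h : R1, ρ1 t = algebraMap _ _ h)
    (a : M) (ha : a ∈ Algebra.adjoin ℂ T) : ∃ h : R1, ρ1 a = algebraMap _ _ h := by
  refine Algebra.adjoin_induction (p := fun a _ => ∃ h : R1, ρ1 a = algebraMap _ _ h)
    ?_ ?_ ?_ ?_ ha
  · intro t ht
    exact hT t ht
  · intro c
    exact ⟨algebraMap ℂ R1 c, by rw [ρ1.commutes, ← IsScalarTower.algebraMap_apply]⟩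
  · rintro a b _ _ ⟨h, hh⟩ ⟨h', hh'⟩
    exact ⟨h + h', by rw [map_add, map_add, hh, hh']⟩
  · rintro a b _ _ ⟨h, hh⟩ ⟨h', hh'⟩
    exact ⟨h * h', by rw [map_mul, map_mul, hh, hh']⟩

/-- elements whose image under `ρ` is regular, abstract form -/
theorem exists_sigma' (hinj : Function.Injective (algebraMap R1 M1))
    (ρ : M →ₐ[ℂ] M1) (C : Subalgebra ℂ M)
    (hC : ∀ c ∈ C, ∃ h : R1, ρ c = algebraMap _ _ h) :
    ∃ σ : C →ₐ[ℂ] R1, Function.Injective σ ∧ ∀ c : C, algebraMap R1 M1 (σ c) = ρ c := by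
  choose f hf using fun c : C => hC c c.2
  refine ⟨{
    toFun := f
    map_one' := hinj (by rw [← hf]; simp)
    map_mul' := fun a b => hinj (by rw [← hf, map_mul, ← hf, ← hf]; simp)
    map_zero' := hinj (by rw [← hf]; simp)
    map_add' := fun a b => hinj (by rw [← hf, map_add, ← hf, ← hf]; simp)
    commutes' := fun r => hinj (by
      rw [← hf, ← IsScalarTower.algebraMap_apply]
      exact ρ.commutes r) }, ?_, fun c => (hf c).symm⟩
  intro a b hab
  have h1 : f a = f b := hab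
  have h2 : ρ a = ρ b := by rw [hf a, hf b, h1]
  exact Subtype.ext (ρ.toRingHom.injective h2)

/-- passing to fields of fractions -/
theorem alg_top (hinj3 : Function.Injective (algebraMap R3 M3)) (SK T : Set M)
    (hSKT : SK ⊆ T) (f0 : M) (hf0 : f0 ∈ T) (ρ1 : M →ₐ[ℂ] M1)
    (σA : Algebra.adjoin ℂ T →ₐ[ℂ] R1) (hσA : ∀ c, algebraMap R1 M1 (σA c) = ρ1 c)
    (res : R1 →ₐ[ℂ] R3) (ρ13 : M1 →ₐ[ℂ] M3)
    (hρ13 : ∀ g : R1, ρ13 (algebraMap _ _ g) = algebraMap _ _ (res g))
    (τ2 : Algebra.adjoin ℂ T →ₐ[ℂ] R3) (hτ2inj : Function.Injective τ2)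
    (hBA : Algebra.adjoin ℂ SK ≤ Algebra.adjoin ℂ T)
    (hτ2B : ∀ (b : M) (hb : b ∈ Algebra.adjoin ℂ SK), τ2 ⟨b, hBA hb⟩ = res (σA ⟨b, hBA hb⟩))
    (hf0A : f0 ∈ Algebra.adjoin ℂ T) (hτ2f : τ2 ⟨f0, hf0A⟩ ≠ res (σA ⟨f0, hf0A⟩)) :
    ∃ τ : IntermediateField.adjoin ℂ T →ₐ[ℂ] M3,
      (∀ (f : M) (hf : f ∈ IntermediateField.adjoin ℂ SK)
        (hf' : f ∈ IntermediateField.adjoin ℂ T), τ ⟨f, hf'⟩ = ρ13 (ρ1 f)) ∧
      (∀ (hf' : f0 ∈ IntermediateField.adjoin ℂ T), τ ⟨f0, hf'⟩ ≠ ρ13 (ρ1 f0)) ∧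
      (∀ (t : M) (ht : t ∈ T) (ht' : t ∈ IntermediateField.adjoin ℂ T), ∃ h : R3,
        τ ⟨t, ht'⟩ = algebraMap _ _ h) := by
  have hAL := IntermediateField.algebra_adjoin_le_adjoin ℂ T
  let τ3 : Algebra.adjoin ℂ T →ₐ[ℂ] M3 := (IsScalarTower.toAlgHom ℂ R3 M3).comp τ2
  have hτ3 : ∀ a, τ3 a = algebraMap _ _ (τ2 a) := fun a => rfl
  obtain ⟨τ, hτ⟩ := exists_field_hom T τ3 (hinj3.comp hτ2inj)
  refine ⟨τ, ?_, ?_, ?_⟩
  · intro f hf hf'
    obtain ⟨r, hr, s, hs, hfrs⟩ := IntermediateField.mem_adjoin_iff_div.mp hf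
    have key : ∀ (b : M) (hb : b ∈ Algebra.adjoin ℂ SK),
        τ ⟨b, hAL (hBA hb)⟩ = ρ13 (ρ1 b) := by
      intro b hb
      rw [hτ b (hBA hb), hτ3, hτ2B b hb, ← hρ13, hσA]
    by_cases hs0 : s = 0
    · have h0 : f = 0 := by rw [hfrs, hs0, div_zero]
      subst h0
      rw [map_zero, map_zero]
      exact map_zero τ
    · have h1 : (⟨s, hAL (hBA hs)⟩ : IntermediateField.adjoin ℂ T) * ⟨f, hf'⟩ =
          ⟨r, hAL (hBA hr)⟩ := by
        apply Subtype.ext
        change s * f = r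
        rw [hfrs, mul_div_cancel₀ _ hs0]
      have h2 := congrArg τ h1
      rw [map_mul, key s hs, key r hr] at h2
      have h3 : s * f = r := congrArg Subtype.val h1
      rw [← h3, map_mul, map_mul] at h2
      have hne : ρ13 (ρ1 s) ≠ 0 := by
        rw [_root_.map_ne_zero, _root_.map_ne_zero]
        exact hs0
      exact mul_left_cancel₀ hne h2
  · intro hf' heq
    rw [hτ f0 hf0A, hτ3] at heq
    apply hτ2f
    apply hinj3
    rw [heq, ← hρ13, hσA]
  · intro t ht ht'
    exact ⟨τ2 ⟨t, Algebra.subset_adjoin ht⟩, hτ t (Algebra.subset_adjoin ht)⟩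

end top

/-- ALG for abstract fields -/
theorem alg_mid {M M1 : Type*} [Field M] [Algebra ℂ M] [Field M1] [Algebra ℂ M1] (SK T : Set M)
    (hTfin : T.Finite)
    (hSKT : SK ⊆ T) (f0 : M) (hf0 : f0 ∈ T) (hf0K : f0 ∉ IntermediateField.adjoin ℂ SK)
    (halg : ∀ f ∈ IntermediateField.adjoin ℂ T, IsAlgebraic (IntermediateField.adjoin ℂ SK) f)
    {W1 : Opens E} (hW1p : IsPreconnected (W1 : Set E)) (hW1ne : (W1 : Set E).Nonempty)
    [Algebra (Hol W1) M1] [IsScalarTower ℂ (Hol W1) M1]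
    (hinj1 : Function.Injective (algebraMap (Hol W1) M1)) (ρ1 : M →ₐ[ℂ] M1)
    (hT : ∀ t ∈ T, ∃ h : Hol W1, ρ1 t = algebraMap _ _ h) :
    ∃ (σA : Algebra.adjoin ℂ T →ₐ[ℂ] Hol W1) (_ : ∀ c, algebraMap (Hol W1) M1 (σA c) = ρ1 c)
      (W3 : Opens E) (hle : W3 ≤ W1), (W3 : Set E).Nonempty ∧
      IsPreconnected (W3 : Set E) ∧
      ∃ (τ2 : Algebra.adjoin ℂ T →ₐ[ℂ] Hol W3), Function.Injective τ2 ∧
      ∃ (hBA : Algebra.adjoin ℂ SK ≤ Algebra.adjoin ℂ T), 
      (∀ (b : M) (hb : b ∈ Algebra.adjoin ℂ SK),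
        τ2 ⟨b, hBA hb⟩ = Hol.res hle (σA ⟨b, hBA hb⟩)) ∧
      ∃ (hf0A : f0 ∈ Algebra.adjoin ℂ T), τ2 ⟨f0, hf0A⟩ ≠ Hol.res hle (σA ⟨f0, hf0A⟩) := by
  have hcM : CharZero M := charZero_of_injective_algebraMap (algebraMap ℂ M).injective
  have hAL := IntermediateField.algebra_adjoin_le_adjoin ℂ T
  obtain ⟨σA, hσAinj, hσA⟩ := exists_sigma' hinj1 ρ1 (Algebra.adjoin ℂ T)
    (reg_adjoin T ρ1 hT)
  have hBA : Algebra.adjoin ℂ SK ≤ Algebra.adjoin ℂ T := Algebra.adjoin_mono hSKT
  have halgB : ∀ a ∈ Algebra.adjoin ℂ T, IsAlgebraic (Algebra.adjoin ℂ SK) a := fun a ha =>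
    alg_of_alg_adjoin SK a (halg a (hAL ha))
  have hf0A : f0 ∈ Algebra.adjoin ℂ T := Algebra.subset_adjoin hf0
  have hx : ∀ b b' : M, b ∈ Algebra.adjoin ℂ SK → b' ∈ Algebra.adjoin ℂ SK → b ≠ 0 →
      b * f0 ≠ b' := by
    intro b b' hb hb' hne h
    apply hf0K
    have h1 : f0 = b' / b := by
      rw [← h, mul_div_cancel_left₀ _ hne]
    rw [h1]
    exact IntermediateField.mem_adjoin_iff_div.mpr ⟨b', hb', b, hb, rfl⟩
  have hAfg : (Algebra.adjoin ℂ T).FG := by
    have h := Subalgebra.fg_adjoin_finset (R := ℂ) hTfin.toFinset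
    rwa [Set.Finite.coe_toFinset] at h
  obtain ⟨W3, hle, hW3ne, hW3p, τ2, hτ2inj, hτ2B, hτ2f⟩ := alg_core (Algebra.adjoin ℂ SK)
    (Algebra.adjoin ℂ T) hBA hAfg halgB f0 hf0A hx hW1p hW1ne σA hσAinj
  exact ⟨σA, hσA, W3, hle, hW3ne, hW3p, τ2, hτ2inj, hBA, hτ2B, hf0A, hτ2f⟩

/-- choice of the first ball -/
theorem exists_W1 {W : Opens E} (hW : IsPreconnected (W : Set E)) [IsDomain (Hol W)]
    (T : Set (FractionRing (Hol W))) (hT : T.Finite)
    (U : Opens E) (hUne : (U : Set E).Nonempty) (hUW : U ≤ W) :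
    ∃ (W1 : Opens E) (hle : W1 ≤ W) (_ : IsDomain (Hol W1)), W1 ≤ U ∧ (W1 : Set E).Nonempty ∧
      IsPreconnected (W1 : Set E) ∧
      ∃ ρ1 : FractionRing (Hol W) →ₐ[ℂ] FractionRing (Hol W1),
        (∀ g : Hol W, ρ1 (algebraMap _ _ g) = algebraMap _ _ (Hol.res hle g)) ∧
        ∀ t ∈ T, ∃ h : Hol W1, ρ1 t = algebraMap _ _ h := by
  classical
  obtain ⟨b, hb⟩ := IsLocalization.exist_integer_multiples_of_finset (nonZeroDivisors (Hol W))
    hT.toFinset
  obtain ⟨z, hzU, hz⟩ := exists_ne hW hUW hUne (b : Hol W) (nonZeroDivisors.ne_zero b.2)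
  have hcont : ContinuousAt (ext0 ((b : Hol W) : W → ℂ)) z :=
    (Hol.an (b : Hol W) z (hUW hzU)).continuousAt
  have hz' : ext0 ((b : Hol W) : W → ℂ) z ≠ 0 := by
    rw [ext0_of_mem _ (hUW hzU)]
    exact hz
  obtain ⟨r, hr, hball⟩ := Metric.mem_nhds_iff.mp
    (Filter.inter_mem (hcont.eventually_ne hz') (U.isOpen.mem_nhds hzU))
  let W1 : Opens E := ⟨Metric.ball z r, Metric.isOpen_ball⟩
  have hW1U : W1 ≤ U := fun w hw => (hball hw).2
  have hle : W1 ≤ W := hW1U.trans hUW
  have hW1ne : (W1 : Set E).Nonempty := ⟨z, Metric.mem_ball_self hr⟩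
  have hW1p : IsPreconnected (W1 : Set E) := (convex_ball z r).isPreconnected
  have hn1 : Nonempty W1 := hW1ne.to_subtype
  have hdom1 : IsDomain (Hol W1) := Hol.isDomain hW1p
  obtain ⟨ρ1, hρ1⟩ := exists_rho hW hle hW1ne
  refine ⟨W1, hle, hdom1, hW1U, hW1ne, hW1p, ρ1, hρ1, ?_⟩
  intro t ht
  obtain ⟨g, hg⟩ := hb t (by simpa using ht)
  have hunit : IsUnit (Hol.res hle (b : Hol W)) := by
    apply Hol.isUnit
    intro x
    have h1 := (hball x.2).1
    have h2 : ext0 ((b : Hol W) : W → ℂ) (x : E) ≠ 0 := h1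
    rw [ext0_of_mem _ (hle x.2)] at h2
    exact h2
  obtain ⟨u, hu⟩ := hunit
  refine ⟨Hol.res hle g * ((u⁻¹ : (Hol W1)ˣ) : Hol W1), ?_⟩
  have h3 : algebraMap (Hol W) (FractionRing (Hol W)) (b : Hol W) * t =
      algebraMap _ _ g := by
    rw [hg]
    exact (Algebra.smul_def (b : Hol W) t).symm
  have h4 := congrArg ρ1 h3
  rw [map_mul, hρ1, hρ1] at h4
  have h5 : Hol.res hle (b : Hol W) * (Hol.res hle g * ((u⁻¹ : (Hol W1)ˣ) : Hol W1)) =
      Hol.res hle g := by
    rw [← hu, mul_left_comm, Units.mul_inv, mul_one]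
  have h6 := congrArg (algebraMap (Hol W1) (FractionRing (Hol W1))) h5
  rw [map_mul] at h6
  have hne : algebraMap (Hol W1) (FractionRing (Hol W1)) (Hol.res hle (b : Hol W)) ≠ 0 := by
    rw [Ne, IsFractionRing.to_map_eq_zero_iff, ← hu]
    exact u.ne_zero
  exact mul_left_cancel₀ hne (h4.trans h6.symm)

set_option maxHeartbeats 2000000 in
/-- **ALG** (leaf R1 of theorem RAT) -/
theorem alg_main {W : Opens E} (hW : IsPreconnected (W : Set E)) [IsDomain (Hol W)]
    (K L : IntermediateField ℂ (FractionRing (Hol W))) (hKL : K ≤ L) (hK : K.FG) (hL : L.FG)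
    (halg : ∀ f ∈ L, IsAlgebraic K f) (f0 : FractionRing (Hol W)) (hf0L : f0 ∈ L)
    (hf0K : f0 ∉ K) (S : Set (FractionRing (Hol W))) (hSfin : S.Finite)
    (hS : S ⊆ (L : Set (FractionRing (Hol W))))
    (U : Opens E) (hUne : (U : Set E).Nonempty) (hUW : U ≤ W) :
    ∃ (W' : Opens E) (hle : W' ≤ W) (_ : IsDomain (Hol W')), W' ≤ U ∧
      (W' : Set E).Nonempty ∧ IsPreconnected (W' : Set E) ∧
      ∃ (ρ : FractionRing (Hol W) →ₐ[ℂ] FractionRing (Hol W'))
        (τ : L →ₐ[ℂ] FractionRing (Hol W')),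
      (∀ g : Hol W, ρ (algebraMap _ _ g) = algebraMap _ _ (Hol.res hle g)) ∧
      (∀ (f : FractionRing (Hol W)) (hf : f ∈ K), τ ⟨f, hKL hf⟩ = ρ f) ∧
      τ ⟨f0, hf0L⟩ ≠ ρ f0 ∧
      (∀ (s : FractionRing (Hol W)) (hs : s ∈ S), (∃ h : Hol W', ρ s = algebraMap _ _ h) ∧
        ∃ h : Hol W', τ ⟨s, hS hs⟩ = algebraMap _ _ h) ∧
      (∀ (D : Derivation ℂ (FractionRing (Hol W)) (FractionRing (Hol W)))
        (D' : Derivation ℂ (FractionRing (Hol W')) (FractionRing (Hol W')))
        (hDL : ∀ f ∈ L, D f ∈ L), (∀ f ∈ K, D f ∈ K) → (∀ f ∈ L, D' (ρ f) = ρ (D f)) →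
        ∀ (f : FractionRing (Hol W)) (hf : f ∈ L), τ ⟨D f, hDL f hf⟩ = D' (τ ⟨f, hf⟩)) := by
  classical
  obtain ⟨SK, hSK⟩ := hK
  obtain ⟨SL, hSL⟩ := hL
  obtain ⟨T, hT⟩ : ∃ T : Set (FractionRing (Hol W)), T = (SK : Set (FractionRing (Hol W))) ∪
    (SL : Set (FractionRing (Hol W))) ∪ S ∪ {f0} := ⟨_, rfl⟩
  have hTfin : T.Finite := by
    rw [hT]
    exact (((SK.finite_toSet.union SL.finite_toSet).union hSfin).union (Set.finite_singleton f0))
  have hSKT : (SK : Set (FractionRing (Hol W))) ⊆ T := by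
    rw [hT]
    exact fun x hx => Or.inl (Or.inl (Or.inl hx))
  have hSLT : (SL : Set (FractionRing (Hol W))) ⊆ T := by
    rw [hT]
    exact fun x hx => Or.inl (Or.inl (Or.inr hx))
  have hST : S ⊆ T := by
    rw [hT]
    exact fun x hx => Or.inl (Or.inr hx)
  have hf0T : f0 ∈ T := by
    rw [hT]
    exact Or.inr rfl
  have hSKL : (SK : Set (FractionRing (Hol W))) ⊆ L := by
    intro x hx
    apply hKL
    rw [← hSK]
    exact IntermediateField.subset_adjoin ℂ _ hx
  have hTL : T ⊆ (L : Set (FractionRing (Hol W))) := by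
    rw [hT]
    rintro x (((hx | hx) | hx) | hx)
    · exact hSKL hx
    · have h1 : x ∈ IntermediateField.adjoin ℂ (SL : Set (FractionRing (Hol W))) :=
        IntermediateField.subset_adjoin ℂ _ hx
      rwa [hSL] at h1
    · exact hS hx
    · have h1 : x = f0 := hx
      rw [h1]
      exact hf0L
  have hLT : L = IntermediateField.adjoin ℂ T := by
    apply le_antisymm
    · rw [← hSL]
      exact IntermediateField.adjoin.mono ℂ _ _ hSLT
    · exact IntermediateField.adjoin_le_iff.mpr hTL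
  subst hLT
  subst hSK
  clear hT hSL
  obtain ⟨W1, hle1, hdom1, hW1U, hW1ne, hW1p, ρ1, hρ1, hreg1⟩ :=
    exists_W1 hW T hTfin U hUne hUW
  have hinj1 := IsFractionRing.injective (Hol W1) (FractionRing (Hol W1))
  obtain ⟨σA, hσA, W3, hle3, hW3ne, hW3p, τ2, hτ2inj, hBA, hτ2B, hf0A, hτ2f⟩ :=
    alg_mid (SK : Set (FractionRing (Hol W))) T hTfin hSKT f0 hf0T hf0K halg hW1p hW1ne hinj1
      ρ1 hreg1
  have hn3 : Nonempty W3 := hW3ne.to_subtype
  have hdom3 : IsDomain (Hol W3) := Hol.isDomain hW3p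
  have hinj3 := IsFractionRing.injective (Hol W3) (FractionRing (Hol W3))
  obtain ⟨ρ13, hρ13⟩ := exists_rho hW1p hle3 hW3ne
  obtain ⟨τ, hτK, hτf, hτT⟩ := alg_top hinj3 (SK : Set (FractionRing (Hol W))) T hSKT f0 hf0T ρ1
    σA hσA (Hol.res hle3) ρ13 hρ13 τ2 hτ2inj hBA hτ2B hf0A hτ2f
  refine ⟨W3, hle3.trans hle1, hdom3, hle3.trans hW1U, hW3ne, hW3p, ρ13.comp ρ1, τ, ?_, ?_, ?_,
    ?_, ?_⟩
  · intro g
    rw [AlgHom.comp_apply, hρ1, hρ13]
    rfl
  · intro f hf
    exact hτK f hf (hKL hf)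
  · exact hτf hf0L
  · intro s hs
    refine ⟨?_, hτT s (hST hs) (hS hs)⟩
    obtain ⟨h, hh⟩ := hreg1 s (hST hs)
    exact ⟨Hol.res hle3 h, by rw [AlgHom.comp_apply, hh, hρ13]⟩
  · intro D D' hDL hDK hDρ f hf
    exact comm_field (IntermediateField.adjoin ℂ (SK : Set (FractionRing (Hol W))))
      (IntermediateField.adjoin ℂ T) hKL halg (ρ13.comp ρ1) τ
      (fun f hf => hτK f hf (hKL hf)) D D' hDL hDK hDρ f hf

end Crest.Agent.R102.Alg985
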