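import Mathlib

-- ▼ part R102/AlgD_151
section

/-!
# Row 102: algebraicity and derivations (helper151)

`k ⊆ K` fields, `D` a `k`-derivation of `K`, `cl k f` = elements of `K` algebraic over `k(f)`.

* `mem_of_rel`, `cl_trans`, `rel_of_mem` : matroid calculus for one transcendental
* `der_mem` : `x ∈ cl k f`, `D f ≠ 0` ⟹ `D x / D f ∈ cl k f`  (characteristic 0)
* `curve_rel` : a relation between the isotropic coordinates of a curve gives one between `E`, `y`
* `supp_rel` : the same from the support function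
-/

set_option autoImplicit false

noncomputable section

open Polynomial IntermediateField

namespace Crest.Agent.R102.AlgD151

variable {k K : Type*} [Field k] [Field K] [Algebra k K]

/-- elements algebraic over `k(f)` -/
def cl (k : Type*) {K : Type*} [Field k] [Field K] [Algebra k K] (f : K) :
    IntermediateField k⟮f⟯ K := algebraicClosure k⟮f⟯ K

lemma mem_cl {f x : K} : x ∈ cl k f ↔ IsAlgebraic k⟮f⟯ x := mem_algebraicClosure_iff

lemma base_mem {f x : K} (hx : x ∈ k⟮f⟯) : x ∈ cl k f :=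
  mem_cl.2 (isAlgebraic_algebraMap (⟨x, hx⟩ : k⟮f⟯))

lemma self_mem (f : K) : f ∈ cl k f := base_mem (mem_adjoin_simple_self k f)

lemma const_mem (f : K) (a : k) : algebraMap k K a ∈ cl k f :=
  base_mem (IntermediateField.algebraMap_mem _ a)

lemma mem_of_pow {f x : K} {n : ℕ} (hn : 0 < n) (h : x ^ n ∈ cl k f) : x ∈ cl k f := by
  rw [mem_cl] at h ⊢
  exact IsAlgebraic.of_pow hn h

lemma mem_cl_iff {f x : K} :
    x ∈ cl k f ↔ x ∈ (AlgebraicIndependent.matroid k K).closure {f} := by
  rw [AlgebraicIndependent.matroid_closure_eq, SetLike.mem_coe,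
    Subalgebra.mem_algebraicClosure, mem_cl]
  exact IntermediateField.isAlgebraic_adjoin_iff


/-- two elements of `cl k f` are algebraically dependent over `k` -/
lemma rel_of_mem {f x₁ x₂ : K} (h₁ : x₁ ∈ cl k f) (h₂ : x₂ ∈ cl k f) :
    ∃ P : MvPolynomial (Fin 2) k, P ≠ 0 ∧ MvPolynomial.aeval ![x₁, x₂] P = 0 := by
  by_contra! hcon
  have hind : AlgebraicIndependent k ![x₁, x₂] := by
    rw [algebraicIndependent_iff]
    intro p hp
    by_contra h
    exact hcon p h hp
  have hne : x₁ ≠ x₂ := by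
    intro h
    have := hind.injective (a₁ := (0 : Fin 2)) (a₂ := 1) (by simpa using h)
    exact absurd this (by decide)
  have hI : (AlgebraicIndependent.matroid k K).Indep {x₁, x₂} := by
    rw [AlgebraicIndependent.matroid_indep_iff]
    have h3 := hind.to_subtype_range
    have h4 : Set.range ![x₁, x₂] = {x₁, x₂} := by
      simp [Set.pair_comm]
    rw [h4] at h3
    exact h3
  rw [mem_cl_iff] at h₁ h₂
  have hsub : ({x₁, x₂} : Set K) ⊆ (AlgebraicIndependent.matroid k K).closure {f} := by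
    intro z hz
    rcases hz with rfl | hz
    · exact h₁
    · rw [Set.mem_singleton_iff] at hz
      rw [hz]; exact h₂
  have h5 := hI.encard_le_eRk_of_subset hsub
  rw [Matroid.eRk_closure_eq, Set.encard_pair hne] at h5
  have h6 : (AlgebraicIndependent.matroid k K).eRk {f} ≤ 1 := by
    refine (Matroid.eRk_le_encard _ _).trans ?_
    rw [Set.encard_singleton]
  have h7 := h5.trans h6
  norm_num at h7

/-- a relation gives membership -/
lemma mem_of_rel {f x : K} (hf : Transcendental k f) {P : MvPolynomial (Fin 2) k} (hP : P ≠ 0)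
    (h : MvPolynomial.aeval ![f, x] P = 0) : x ∈ cl k f := by
  rw [mem_cl_iff]
  have hI : (AlgebraicIndependent.matroid k K).Indep {f} := by
    rw [AlgebraicIndependent.matroid_indep_iff]
    exact (algebraicIndependent_singleton_iff (⟨f, rfl⟩ : ({f} : Set K))).2 hf
  by_contra hcon
  have hxf : x ≠ f := by
    rintro rfl
    exact hcon (Matroid.mem_closure_of_mem _ rfl)
  have h1 : (AlgebraicIndependent.matroid k K).Indep (insert x {f}) := by
    rw [hI.insert_indep_iff]
    left
    exact ⟨Set.mem_univ _, hcon⟩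
  rw [AlgebraicIndependent.matroid_indep_iff] at h1
  -- transport to `![f, x]`
  let e : Fin 2 → (insert x {f} : Set K) := ![⟨f, by simp⟩, ⟨x, by simp⟩]
  have he : Function.Injective e := by
    intro i j hij
    fin_cases i <;> fin_cases j <;> simp [e, Subtype.ext_iff, hxf, hxf.symm] at hij ⊢
  have h2 := AlgebraicIndependent.comp h1 e he
  have h3 : (fun i : Fin 2 => id ((e i : (insert x {f} : Set K)) : K)) = ![f, x] := by
    funext i
    fin_cases i <;> simp [e]
  have h4 : AlgebraicIndependent k ![f, x] := by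
    rw [← h3]; exact h2
  rw [algebraicIndependent_iff] at h4
  exact hP (h4 P h)

/-- derivations kill algebraic elements -/
lemma transcendental_of_der [CharZero k] (D : Derivation k K K) {f : K} (hf : D f ≠ 0) :
    Transcendental k f := by
  intro h
  have hs := (minpoly.irreducible h.isIntegral).separable
  have h1 := hs.aeval_derivative_ne_zero (minpoly.aeval k f)
  have h2 : D (aeval f (minpoly k f)) = aeval f (derivative (minpoly k f)) • D f :=
    Derivation.map_aeval D (minpoly k f) f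
  rw [minpoly.aeval, map_zero, smul_eq_mul] at h2
  rcases mul_eq_zero.1 h2.symm with h3 | h3
  · exact h1 h3
  · exact hf h3

/-- Leibniz for `aeval` with non-constant coefficients -/
lemma der_aeval (D : Derivation k K K) (F : IntermediateField k K) (x : K) (p : F[X]) :
    D (aeval x p) = p.sum (fun i c => D (algebraMap F K c) * x ^ i) +
      aeval x (derivative p) * D x := by
  induction p using Polynomial.induction_on' with
  | add p q hp hq =>
    rw [map_add, map_add, hp, hq, derivative_add, map_add,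
      Polynomial.sum_add_index p q _ (by simp) (by intro a b c; simp [add_mul])]
    ring
  | monomial n a =>
    rw [Polynomial.sum_monomial_index _ _ (by simp), aeval_monomial, Derivation.leibniz,
      Derivation.leibniz_pow, derivative_monomial, aeval_monomial]
    simp only [smul_eq_mul, nsmul_eq_mul, map_mul, map_natCast]
    ring

/-- the derivation `D / D f` preserves `k(f)` -/
lemma der_base (D : Derivation k K K) {f x : K} (hf : D f ≠ 0) (hx : x ∈ k⟮f⟯) :
    D x / D f ∈ k⟮f⟯ := by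
  induction hx using IntermediateField.adjoin_induction with
  | mem x hx =>
    rw [Set.mem_singleton_iff] at hx
    rw [hx, div_self hf]
    exact one_mem _
  | algebraMap a => simp
  | add x y hx hy h1 h2 =>
    rw [map_add, add_div]; exact add_mem h1 h2
  | inv x hx h1 =>
    rw [Derivation.leibniz_inv, smul_eq_mul]
    have h2 : -x⁻¹ ^ 2 * D x / D f = -(x⁻¹ ^ 2 * (D x / D f)) := by ring
    rw [h2]
    exact neg_mem (mul_mem (pow_mem (inv_mem hx) 2) h1)
  | mul x y hx hy h1 h2 =>
    rw [Derivation.leibniz, smul_eq_mul, smul_eq_mul]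
    have h3 : (x * D y + y * D x) / D f = x * (D y / D f) + y * (D x / D f) := by ring
    rw [h3]
    exact add_mem (mul_mem hx h2) (mul_mem hy h1)

/-- **`D / D f` preserves the algebraic closure of `k(f)`** -/
theorem der_mem [CharZero k] (D : Derivation k K K) {f x : K} (hf : D f ≠ 0)
    (hx : x ∈ cl k f) : D x / D f ∈ cl k f := by
  have hx' := mem_cl.1 hx
  have : CharZero k⟮f⟯ := charZero_of_injective_algebraMap (algebraMap k k⟮f⟯).injective
  set p := minpoly k⟮f⟯ x with hp
  have hs : p.Separable := (minpoly.irreducible hx'.isIntegral).separable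
  have h1 : aeval x (derivative p) ≠ 0 := hs.aeval_derivative_ne_zero (minpoly.aeval _ x)
  have h2 := der_aeval D k⟮f⟯ x p
  rw [hp, minpoly.aeval, map_zero, ← hp] at h2
  have h3 : D x / D f = -(p.sum (fun i c => D (algebraMap k⟮f⟯ K c) / D f * x ^ i)) /
      aeval x (derivative p) := by
    rw [eq_div_iff h1]
    have h4 : p.sum (fun i c => D (algebraMap k⟮f⟯ K c) / D f * x ^ i) =
        p.sum (fun i c => D (algebraMap k⟮f⟯ K c) * x ^ i) / D f := by
      rw [Polynomial.sum_def, Polynomial.sum_def, Finset.sum_div]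
      exact Finset.sum_congr rfl fun i _ => by ring
    rw [h4]
    field_simp
    linear_combination -h2
  rw [h3]
  refine div_mem (neg_mem ?_) ?_
  · rw [Polynomial.sum_def]
    refine sum_mem fun i _ => mul_mem ?_ (pow_mem hx i)
    exact base_mem (der_base D hf (p.coeff i).2)
  · rw [aeval_eq_sum_range]
    refine sum_mem fun i _ => ?_
    rw [Algebra.smul_def]
    exact mul_mem (base_mem ((derivative p).coeff i).2) (pow_mem hx i)

/-- **curve form**: `D Z = E / y²`, `D Zc = 1 / (E y²)`, `D E = i y E`, and a relation between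
`Z`, `Zc` : then `E`, `y` are algebraic over `k(Z)` and satisfy a relation -/
theorem curve_rel [CharZero k] (D : Derivation k K K) {Z Zc E y : K} {i : k} (hi : i ≠ 0)
    (hE0 : E ≠ 0) (hy0 : y ≠ 0) (hZ : D Z = E / y ^ 2) (hZc : D Zc = 1 / (E * y ^ 2))
    (hE : D E = algebraMap k K i * y * E) {P : MvPolynomial (Fin 2) k} (hP : P ≠ 0)
    (h : MvPolynomial.aeval ![Z, Zc] P = 0) :
    E ∈ cl k Z ∧ y ∈ cl k Z ∧
      ∃ Q : MvPolynomial (Fin 2) k, Q ≠ 0 ∧ MvPolynomial.aeval ![E, y] Q = 0 := by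
  have hDZ : D Z ≠ 0 := by rw [hZ]; exact div_ne_zero hE0 (pow_ne_zero 2 hy0)
  have h1 : Zc ∈ cl k Z := mem_of_rel (transcendental_of_der D hDZ) hP h
  have h2 := der_mem D hDZ h1
  have h3 : D Zc / D Z = (E ^ 2)⁻¹ := by
    rw [hZ, hZc]; field_simp
  rw [h3] at h2
  have h4 : E ∈ cl k Z := by
    have := inv_mem h2
    rw [inv_inv] at this
    exact mem_of_pow two_pos this
  have h5 := der_mem D hDZ h4
  have hi' : algebraMap k K i ≠ 0 := by
    simpa using hi
  have h6 : D E / D Z = algebraMap k K i * y ^ 3 := by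
    rw [hE, hZ]; field_simp
  rw [h6] at h5
  have h7 : y ∈ cl k Z := by
    have := mul_mem (inv_mem (const_mem (k := k) Z i)) h5
    rw [← mul_assoc, inv_mul_cancel₀ hi', one_mul] at this
    exact mem_of_pow (by norm_num : 0 < 3) this
  exact ⟨h4, h7, rel_of_mem h4 h7⟩


end Crest.Agent.R102.AlgD151
end
end

-- ▼ part R102/T7inf_151
section

/-!
# Row 102, T7, case `h₀ = ∞` (helper151)

`θ` entire, `y = θ'`, `E = exp (i θ)`; an algebraic relation `P (E, y) = 0`, `P ≠ 0`, forces `y` to be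
constant (so the table is a circle).

* `doubling` : the doubling (Brody / Zalcman) lemma for a continuous unbounded function
* `est` : at a doubling point `y` is almost constant and `E` is almost `E₀ e^{i ζ}` at scale `1 / y₀`
* `core`, `t7inf`, `t7inf_mv`
-/

set_option autoImplicit false

noncomputable section

open Complex Filter Topology Metric

namespace Crest.Agent.R102.T7151

/-- **doubling lemma** -/
lemma doubling {y : ℂ → ℂ} (hy : Continuous y) (hu : ∀ M : ℝ, ∃ z, M < ‖y z‖) (N : ℝ)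
    (hN : 0 < N) :
    ∃ z, N ≤ ‖y z‖ ∧ ∀ z', ‖z' - z‖ ≤ N / ‖y z‖ → ‖y z'‖ ≤ 2 * ‖y z‖ := by
  by_contra! hcon
  obtain ⟨z0, hz0⟩ := hu N
  choose! g hg1 hg2 using hcon
  set s : ℕ → ℂ := fun k => g^[k] z0 with hs
  have hsucc : ∀ k, s (k + 1) = g (s k) := fun k => Function.iterate_succ_apply' g k z0
  have hb : ∀ k : ℕ, 2 ^ k * N ≤ ‖y (s k)‖ := by
    intro k
    induction k with
    | zero => simpa [hs] using hz0.le
    | succ k ih =>
      have h0 : (1 : ℝ) ≤ 2 ^ k := one_le_pow₀ (by norm_num)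
      have h1 : N ≤ ‖y (s k)‖ := le_trans (by nlinarith) ih
      have h2 := hg2 (s k) h1
      rw [hsucc, pow_succ]
      linarith
  have hpos : ∀ k : ℕ, 0 < 2 ^ k * N := fun k => by positivity
  have hd : ∀ k : ℕ, dist (s k) (s (k + 1)) ≤ 1 * (1 / 2) ^ k := by
    intro k
    have h0 : (1 : ℝ) ≤ 2 ^ k := one_le_pow₀ (by norm_num)
    have h1 : N ≤ ‖y (s k)‖ := le_trans (by nlinarith) (hb k)
    have h2 := hg1 (s k) h1
    rw [dist_comm, dist_eq_norm, hsucc]
    refine h2.trans ?_
    rw [div_le_iff₀ (lt_of_lt_of_le (hpos k) (hb k))]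
    calc N = 1 * (1 / 2) ^ k * (2 ^ k * N) := by
          rw [one_mul, ← mul_assoc, ← mul_pow]; norm_num
      _ ≤ 1 * (1 / 2) ^ k * ‖y (s k)‖ := by gcongr; exact hb k
  obtain ⟨z, hz⟩ := cauchySeq_tendsto_of_complete
    (cauchySeq_of_le_geometric (1 / 2) 1 (by norm_num) hd)
  have h3 : Tendsto (fun k => ‖y (s k)‖) atTop (𝓝 ‖y z‖) := (hy.norm.tendsto z).comp hz
  have h4 : Tendsto (fun k => ‖y (s k)‖) atTop atTop :=
    tendsto_atTop_mono hb ((tendsto_pow_atTop_atTop_of_one_lt (by norm_num)).atTop_mul_const hN)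
  exact not_tendsto_nhds_of_tendsto_atTop h4 _ h3

lemma est {th : ℂ → ℂ} (hth : Differentiable ℂ th) {z0 : ℂ} {N : ℝ} (hN : 0 < N)
    (h0 : N ≤ ‖deriv th z0‖)
    (h1 : ∀ z, ‖z - z0‖ ≤ N / ‖deriv th z0‖ → ‖deriv th z‖ ≤ 2 * ‖deriv th z0‖)
    {R : ℝ} (hR : 0 < R) (hRN : 2 * R ≤ N) {ζ : ℂ} (hζ : ‖ζ‖ ≤ R) :
    ‖deriv th (z0 + ζ / deriv th z0) / deriv th z0 - 1‖ ≤ 4 * R / N ∧
      ‖th (z0 + ζ / deriv th z0) - th z0 - ζ‖ ≤ 4 * R ^ 2 / N := by
  set y : ℂ → ℂ := deriv th with hydef
  have hy : Differentiable ℂ y := by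
    intro z
    exact (hth.analyticAt z).deriv.differentiableAt
  set a : ℝ := ‖y z0‖ with ha
  have ha0 : 0 < a := lt_of_lt_of_le hN h0
  have hy0 : y z0 ≠ 0 := norm_pos_iff.1 ha0
  set ρ : ℝ := N / (2 * a) with hρ
  have hρ0 : 0 < ρ := by positivity
  have e2 : 2 * ρ = N / a := by rw [hρ]; field_simp
  have hder : ∀ z ∈ closedBall z0 ρ, ‖deriv y z‖ ≤ 4 * a ^ 2 / N := by
    intro z hz
    rw [mem_closedBall, dist_eq_norm] at hz
    have h3 := Complex.norm_deriv_le_of_forall_mem_sphere_norm_le (c := z) (f := y) (C := 2 * a) hρ0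
      hy.diffContOnCl (by
        intro w hw
        rw [mem_sphere, dist_eq_norm] at hw
        refine h1 w ?_
        rw [← e2]
        calc ‖w - z0‖ = ‖(w - z) + (z - z0)‖ := by ring_nf
          _ ≤ ‖w - z‖ + ‖z - z0‖ := norm_add_le _ _
          _ ≤ 2 * ρ := by linarith)
    refine h3.trans (le_of_eq ?_)
    rw [hρ]
    field_simp
    ring
  have key : ∀ t : ℂ, ‖t‖ ≤ R → ‖y (z0 + t / y z0) / y z0 - 1‖ ≤ 4 * R / N := by
    intro t ht
    have hm : z0 + t / y z0 ∈ closedBall z0 ρ := by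
      rw [mem_closedBall, dist_eq_norm, add_sub_cancel_left, norm_div, ← ha, hρ,
        div_le_div_iff₀ ha0 (by positivity)]
      nlinarith
    have h4 := (convex_closedBall z0 ρ).norm_image_sub_le_of_norm_deriv_le
      (fun z _ => hy z) hder (mem_closedBall_self hρ0.le) hm
    rw [add_sub_cancel_left, norm_div, ← ha] at h4
    have h5 : y (z0 + t / y z0) / y z0 - 1 = (y (z0 + t / y z0) - y z0) / y z0 := by
      field_simp
    rw [h5, norm_div, ← ha, div_le_iff₀ ha0]
    refine h4.trans ?_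
    calc 4 * a ^ 2 / N * (‖t‖ / a) ≤ 4 * a ^ 2 / N * (R / a) := by gcongr
      _ = 4 * R / N * a := by field_simp
  refine ⟨key ζ hζ, ?_⟩
  set g : ℂ → ℂ := fun t => th (z0 + t / y z0) - t with hg
  have hgd : ∀ t, HasDerivAt g (y (z0 + t / y z0) / y z0 - 1) t := by
    intro t
    have h6 : HasDerivAt (fun t : ℂ => z0 + t / y z0) (1 / y z0) t := by
      simpa using ((hasDerivAt_id t).div_const (y z0)).const_add z0
    have h7 := ((hth (z0 + t / y z0)).hasDerivAt.comp t h6).sub (hasDerivAt_id t)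
    refine h7.congr_deriv ?_
    rw [← hydef]
    ring
  have h8 := (convex_closedBall (0 : ℂ) R).norm_image_sub_le_of_norm_deriv_le (f := g)
    (C := 4 * R / N) (x := 0) (y := ζ) (fun t _ => (hgd t).differentiableAt) (by
      intro t ht
      rw [(hgd t).deriv]
      exact key t (by simpa using ht)) (mem_closedBall_self hR.le) (by simpa using hζ)
  have h9 : g ζ - g 0 = th (z0 + ζ / y z0) - th z0 - ζ := by
    simp only [hg, zero_div, add_zero, sub_zero]
    ring
  rw [h9, sub_zero] at h8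
  refine h8.trans ?_
  calc 4 * R / N * ‖ζ‖ ≤ 4 * R / N * R := by gcongr
    _ = 4 * R ^ 2 / N := by ring

theorem core {σ : Type*} (S : Finset σ) (kk jj : σ → ℕ)
    (hinj : ∀ s ∈ S, ∀ s' ∈ S, kk s = kk s' → jj s = jj s' → s = s')
    (c : σ → ℂ) (hS : S.Nonempty) (hc : ∀ s ∈ S, c s ≠ 0) (th : ℂ → ℂ)
    (hth : Differentiable ℂ th)
    (h : ∀ z, ∑ s ∈ S, c s * Complex.exp (I * th z) ^ kk s * deriv th z ^ jj s = 0) :
    ∀ z, deriv th z = deriv th 0 := by
  classical
  set y : ℂ → ℂ := deriv th with hydef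
  have hy : Differentiable ℂ y := fun z => (hth.analyticAt z).deriv.differentiableAt
  by_contra! hne
  obtain ⟨z1, hz1⟩ := hne
  -- `y` is unbounded
  have hu : ∀ M : ℝ, ∃ z, M < ‖y z‖ := by
    by_contra! hb
    obtain ⟨M, hM⟩ := hb
    refine hz1 (hy.apply_eq_apply_of_bounded ?_ z1 0)
    exact (isBounded_iff_forall_norm_le.2 ⟨M, by rintro _ ⟨z, rfl⟩; exact hM z⟩)
  -- doubling points
  have hdb : ∀ n : ℕ, ∃ z, (n : ℝ) + 1 ≤ ‖y z‖ ∧
      ∀ z', ‖z' - z‖ ≤ ((n : ℝ) + 1) / ‖y z‖ → ‖y z'‖ ≤ 2 * ‖y z‖ :=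
    fun n => doubling hy.continuous hu _ (by positivity)
  choose zs hzs1 hzs2 using hdb
  set E : ℂ → ℂ := fun z => Complex.exp (I * th z) with hE
  have hEne : ∀ z, E z ≠ 0 := fun z => Complex.exp_ne_zero _
  have hyne : ∀ n, y (zs n) ≠ 0 := fun n => by
    rw [← norm_pos_iff]
    exact lt_of_lt_of_le (by positivity) (hzs1 n)
  have hynlim : Tendsto (fun n => ‖y (zs n)‖) atTop atTop :=
    tendsto_atTop_mono hzs1 (tendsto_atTop_add_const_right _ _ tendsto_natCast_atTop_atTop)
  -- largest monomial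
  set m : ℕ → σ → ℂ := fun n s => E (zs n) ^ kk s * y (zs n) ^ jj s with hm
  have hmne : ∀ n s, m n s ≠ 0 := fun n s =>
    mul_ne_zero (pow_ne_zero _ (hEne _)) (pow_ne_zero _ (hyne n))
  have hmax : ∀ n, ∃ s : S, ∀ s' ∈ S, ‖m n s'‖ ≤ ‖m n s‖ := by
    intro n
    obtain ⟨s, hs, hs'⟩ := S.exists_max_image (fun s => ‖m n s‖) hS
    exact ⟨⟨s, hs⟩, hs'⟩
  choose f hf using hmax
  obtain ⟨s0, hs0⟩ := Finite.exists_infinite_fiber f
  have hfreq : ∃ᶠ n in atTop, f n = s0 := by
    rw [Nat.frequently_atTop_iff_infinite]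
    exact Set.infinite_coe_iff.1 hs0
  obtain ⟨φ, hφ, hφs⟩ := extraction_of_frequently_atTop hfreq
  -- limits of the ratios
  set r : ℕ → (S → ℂ) := fun n s => m (φ n) s / m (φ n) s0 with hr
  have hrb : ∀ n, r n ∈ closedBall (0 : S → ℂ) 1 := by
    intro n
    rw [mem_closedBall, dist_zero_right, pi_norm_le_iff_of_nonneg zero_le_one]
    intro s
    simp only [hr]
    rw [norm_div, div_le_one (norm_pos_iff.2 (hmne _ _))]
    have := hf (φ n) s s.2
    rwa [hφs n] at this
  obtain ⟨ρ, -, ψ, hψ, hρ⟩ := tendsto_subseq_of_bounded isBounded_closedBall hrb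
  have hρs : ∀ s : S, Tendsto (fun n => m (φ (ψ n)) s / m (φ (ψ n)) s0) atTop (𝓝 (ρ s)) :=
    fun s => (tendsto_pi_nhds.1 hρ) s
  set ν : ℕ → ℕ := fun n => φ (ψ n) with hν
  have hνm : StrictMono ν := hφ.comp hψ
  have hνt : Tendsto ν atTop atTop := hνm.tendsto_atTop
  -- the limit relation
  have hlim : ∀ ζ : ℂ, ∑ s : S, c s * ρ s * Complex.exp (I * ζ) ^ kk s = 0 := by
    intro ζ
    set R : ℝ := ‖ζ‖ + 1 with hR
    have hR0 : 0 < R := by positivity
    set a : ℕ → ℂ := fun n => zs n + ζ / y (zs n) with hadef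
    have hev : ∀ᶠ n : ℕ in atTop,
        ‖y (a n) / y (zs n) - 1‖ ≤ 4 * R / ((n : ℝ) + 1) ∧
          ‖th (a n) - th (zs n) - ζ‖ ≤ 4 * R ^ 2 / ((n : ℝ) + 1) := by
      obtain ⟨n0, hn0⟩ := exists_nat_ge (2 * R)
      filter_upwards [eventually_ge_atTop n0] with n hn
      have h2 : 2 * R ≤ (n : ℝ) + 1 := by
        have : (n0 : ℝ) ≤ n := by exact_mod_cast hn
        linarith
      exact est hth (by positivity) (hzs1 n) (hzs2 n) hR0 h2 (by linarith)
    have hz : ∀ C : ℝ, Tendsto (fun n : ℕ => C / ((n : ℝ) + 1)) atTop (𝓝 0) := fun C =>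
      tendsto_const_nhds.div_atTop
        (tendsto_atTop_add_const_right _ _ tendsto_natCast_atTop_atTop)
    have hY : Tendsto (fun n => y (a n) / y (zs n)) atTop (𝓝 1) := by
      rw [tendsto_iff_norm_sub_tendsto_zero]
      exact squeeze_zero' (Eventually.of_forall fun _ => norm_nonneg _)
        (hev.mono fun n hn => hn.1) (hz _)
    have hT : Tendsto (fun n => th (a n) - th (zs n)) atTop (𝓝 ζ) := by
      rw [tendsto_iff_norm_sub_tendsto_zero]
      exact squeeze_zero' (Eventually.of_forall fun _ => norm_nonneg _)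
        (hev.mono fun n hn => hn.2) (hz _)
    have hEE : Tendsto (fun n => E (a n) / E (zs n)) atTop (𝓝 (Complex.exp (I * ζ))) := by
      have h3 : ∀ n, E (a n) / E (zs n) = Complex.exp (I * (th (a n) - th (zs n))) := by
        intro n
        rw [hE, ← Complex.exp_sub]
        congr 1
        ring
      simp_rw [h3]
      exact (Complex.continuous_exp.tendsto _).comp (hT.const_mul I)
    have hsum : ∀ n, ∑ s : S, c s * (m (ν n) s / m (ν n) s0) *
        ((E (a (ν n)) / E (zs (ν n))) ^ kk s * (y (a (ν n)) / y (zs (ν n))) ^ jj s) = 0 := by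
      intro n
      have h4 := h (a (ν n))
      rw [← Finset.sum_coe_sort] at h4
      have h5 : ∑ s : S, c s * (m (ν n) s / m (ν n) s0) *
          ((E (a (ν n)) / E (zs (ν n))) ^ kk s * (y (a (ν n)) / y (zs (ν n))) ^ jj s) =
          (∑ s : S, c s * E (a (ν n)) ^ kk s * y (a (ν n)) ^ jj s) / m (ν n) s0 := by
        rw [Finset.sum_div]
        refine Finset.sum_congr rfl fun s _ => ?_
        have e1 := hEne (zs (ν n))
        have e2 := hyne (ν n)
        have e3 := hmne (ν n) s0
        simp only [hm] at e3 ⊢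
        rw [div_pow, div_pow]
        field_simp
      rw [h5, h4, zero_div]
    have hlim2 : Tendsto (fun n => ∑ s : S, c s * (m (ν n) s / m (ν n) s0) *
        ((E (a (ν n)) / E (zs (ν n))) ^ kk s * (y (a (ν n)) / y (zs (ν n))) ^ jj s)) atTop
        (𝓝 (∑ s : S, c s * ρ s * (Complex.exp (I * ζ) ^ kk s * 1 ^ jj s))) := by
      refine tendsto_finsetSum _ fun s _ => ?_
      exact ((hρs s).const_mul _).mul
        (((hEE.comp hνt).pow _).mul ((hY.comp hνt).pow _))
    simp_rw [hsum] at hlim2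
    have h6 := tendsto_nhds_unique hlim2 tendsto_const_nhds
    simpa using h6
  -- the polynomial in `w = exp (i ζ)`
  set Q : Polynomial ℂ := ∑ s : S, Polynomial.monomial (kk s) (c s * ρ s) with hQ
  have hQ0 : Q = 0 := by
    refine Polynomial.eq_zero_of_infinite_isRoot Q ?_
    have h7 : {w : ℂ | w ≠ 0} ⊆ {x | Polynomial.IsRoot Q x} := by
      intro w hw
      have h8 := hlim (-I * Complex.log w)
      have h9 : I * (-I * Complex.log w) = Complex.log w := by
        rw [← mul_assoc]; simp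
      rw [h9, Complex.exp_log hw] at h8
      simp only [Set.mem_ofPred_eq, Polynomial.IsRoot.def, hQ, Polynomial.eval_finsetSum,
        Polynomial.eval_monomial]
      exact h8
    exact (Set.Infinite.mono h7 (Set.finite_singleton (0 : ℂ)).infinite_compl)
  have hcoef : Q.coeff (kk s0) = c s0 := by
    rw [hQ, Polynomial.finsetSum_coeff, Finset.sum_eq_single s0]
    · rw [Polynomial.coeff_monomial, if_pos rfl]
      have h10 : Tendsto (fun n => m (ν n) s0 / m (ν n) s0) atTop (𝓝 (ρ s0)) := hρs s0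
      have h11 : ρ s0 = 1 := by
        refine tendsto_nhds_unique h10 ?_
        simp_rw [div_self (hmne _ _)]
        exact tendsto_const_nhds
      rw [h11, mul_one]
    · intro s _ hs
      rw [Polynomial.coeff_monomial]
      split_ifs with hk
      · -- same `E`-degree, different `y`-degree
        have hjne : jj s ≠ jj s0 := fun hj =>
          hs (Subtype.ext (hinj s s.2 s0 s0.2 hk hj))
        have hratio : ∀ n, m (ν n) s / m (ν n) s0 =
            y (zs (ν n)) ^ jj s / y (zs (ν n)) ^ jj s0 := by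
          intro n
          simp only [hm, hk]
          exact mul_div_mul_left _ _ (pow_ne_zero _ (hEne _))
        have hle : ∀ n, ‖m (ν n) s / m (ν n) s0‖ ≤ 1 := by
          intro n
          have := hrb (ψ n)
          rw [mem_closedBall, dist_zero_right, pi_norm_le_iff_of_nonneg zero_le_one] at this
          exact this s
        have hlt : jj s < jj s0 := by
          by_contra hge
          have hgt : jj s0 < jj s := lt_of_le_of_ne (not_lt.1 hge) (Ne.symm hjne)
          obtain ⟨n, hn⟩ := ((hynlim.comp hνt).eventually_gt_atTop 1).exists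
          have h12 := hle n
          rw [hratio n, ← Nat.add_sub_of_le hgt.le, pow_add,
            mul_div_cancel_left₀ _ (pow_ne_zero _ (hyne _)), norm_pow] at h12
          exact absurd h12 (not_le.2 (one_lt_pow₀ hn (Nat.sub_ne_zero_of_lt hgt)))
        have h13 : ρ s = 0 := by
          refine tendsto_nhds_unique (hρs s) ?_
          have h14 : ∀ n, m (ν n) s / m (ν n) s0 = (y (zs (ν n)) ^ (jj s0 - jj s))⁻¹ := by
            intro n
            rw [hratio n]
            conv_lhs => rw [← Nat.add_sub_of_le hlt.le]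
            rw [pow_add]
            have := pow_ne_zero (jj s) (hyne (ν n))
            rw [div_mul_eq_div_div, div_self this, one_div]
          have h15 : Tendsto (fun n => (y (zs (ν n)) ^ (jj s0 - jj s))⁻¹) atTop (𝓝 0) := by
            rw [tendsto_zero_iff_norm_tendsto_zero]
            have h16 : Tendsto (fun n => ‖y (zs (ν n))‖ ^ (jj s0 - jj s)) atTop atTop :=
              (tendsto_pow_atTop (Nat.sub_ne_zero_of_lt hlt)).comp (hynlim.comp hνt)
            refine (h16.inv_tendsto_atTop).congr fun n => ?_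
            simp [norm_pow]
          exact h15.congr fun n => (h14 n).symm
        rw [h13, mul_zero]
      · rfl
    · intro h17
      exact absurd (Finset.mem_univ _) h17
  rw [hQ0, Polynomial.coeff_zero] at hcoef
  exact hc s0 s0.2 hcoef.symm

/-- **T7, `h₀ = ∞`**: a polynomial relation between `E = exp (i θ)` and `y = θ'`, `θ` entire, forces
`y` to be constant -/
theorem t7inf_mv (th : ℂ → ℂ) (hth : Differentiable ℂ th) (P : MvPolynomial (Fin 2) ℂ)
    (hP : P ≠ 0)
    (h : ∀ z, MvPolynomial.eval ![Complex.exp (I * th z), deriv th z] P = 0) :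
    ∀ z, deriv th z = deriv th 0 := by
  classical
  refine core P.support (fun d => d 0) (fun d => d 1) ?_ (fun d => P.coeff d)
    (by
      rw [Finset.nonempty_iff_ne_empty]
      intro he
      exact hP (MvPolynomial.support_eq_empty.1 he))
    (fun d hd => MvPolynomial.mem_support_iff.1 hd) th hth ?_
  · intro d _ d' _ h0 h1
    ext i
    fin_cases i
    · exact h0
    · exact h1
  · intro z
    have := h z
    rw [MvPolynomial.eval_eq'] at this
    rw [← this]
    refine Finset.sum_congr rfl fun d _ => ?_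
    rw [Fin.prod_univ_two]
    simp [mul_assoc]

end Crest.Agent.R102.T7151
end
end

-- ▼ part R102/MGerm_151

/-!
# Row 102: the field of meromorphic germs, transfer of algebraic relations (helper151)

* `MG z₀` : the differential field of germs of meromorphic functions at `z₀`
* `curve_fun` : for functions meromorphic at `z₀` with `Z' = E/y²`, `Zc' = 1/(E y²)`,
  `E' = i y E` : a relation `P(Z, Zc) = 0` near `z₀` gives a relation `Q(E, y) = 0` near `z₀`
* `supp_fun` : the same from a relation between `E` and the support function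
* `entire_const`, `entire_const'` : case `h₀ = ∞` of T7 in both forms
-/

set_option autoImplicit false

noncomputable section

open Filter Topology

namespace Crest.Agent.R102.MGerm151

/-- ring of germs of meromorphic functions -/
def mgr (z₀ : ℂ) : Subring (Germ (𝓝[≠] z₀) ℂ) where
  carrier := {g | ∃ f : ℂ → ℂ, MeromorphicAt f z₀ ∧ (f : Germ (𝓝[≠] z₀) ℂ) = g}
  mul_mem' := by
    rintro _ _ ⟨f, hf, rfl⟩ ⟨g, hg, rfl⟩
    exact ⟨f * g, hf.mul hg, rfl⟩
  one_mem' := ⟨fun _ => 1, MeromorphicAt.const 1 z₀, rfl⟩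
  add_mem' := by
    rintro _ _ ⟨f, hf, rfl⟩ ⟨g, hg, rfl⟩
    exact ⟨f + g, hf.add hg, rfl⟩
  zero_mem' := ⟨fun _ => 0, MeromorphicAt.const 0 z₀, rfl⟩
  neg_mem' := by
    rintro _ ⟨f, hf, rfl⟩
    exact ⟨-f, hf.neg, rfl⟩

/-- field of germs of meromorphic functions -/
def MG (z₀ : ℂ) : Type := mgr z₀

variable {z₀ : ℂ}

instance instCR : CommRing (MG z₀) := inferInstanceAs (CommRing (mgr z₀))

/-- the germ of a function -/
def mk (f : ℂ → ℂ) (hf : MeromorphicAt f z₀) : MG z₀ := ⟨(f : Germ (𝓝[≠] z₀) ℂ), f, hf, rfl⟩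

lemma mk_eq {f g : ℂ → ℂ} {hf : MeromorphicAt f z₀} {hg : MeromorphicAt g z₀} :
    mk f hf = mk g hg ↔ f =ᶠ[𝓝[≠] z₀] g := by
  constructor
  · intro h
    exact Germ.coe_eq.1 (congrArg (Subtype.val : mgr z₀ → Germ (𝓝[≠] z₀) ℂ) h)
  · intro h
    exact Subtype.ext (Germ.coe_eq.2 h)

lemma exists_mk (x : MG z₀) : ∃ f, ∃ hf : MeromorphicAt f z₀, x = mk f hf := by
  obtain ⟨_, f, hf, rfl⟩ := x
  exact ⟨f, hf, rfl⟩

lemma mk_mul {f g : ℂ → ℂ} (hf : MeromorphicAt f z₀) (hg : MeromorphicAt g z₀) :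
    mk f hf * mk g hg = mk (f * g) (hf.mul hg) := rfl

lemma mk_add {f g : ℂ → ℂ} (hf : MeromorphicAt f z₀) (hg : MeromorphicAt g z₀) :
    mk f hf + mk g hg = mk (f + g) (hf.add hg) := rfl

lemma mk_one : (1 : MG z₀) = mk (fun _ => 1) (MeromorphicAt.const 1 z₀) := rfl

lemma mk_zero : (0 : MG z₀) = mk (fun _ => 0) (MeromorphicAt.const 0 z₀) := rfl

lemma unit_or_zero (x : MG z₀) : IsUnit x ∨ x = 0 := by
  obtain ⟨f, hf, rfl⟩ := exists_mk x
  rcases hf.eventually_eq_zero_or_eventually_ne_zero with h | h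
  · right
    rw [mk_zero, mk_eq]
    exact h
  · left
    refine IsUnit.of_mul_eq_one (mk f⁻¹ hf.inv) ?_
    rw [mk_mul, mk_one, mk_eq]
    filter_upwards [h] with z hz
    simp [hz]

instance instNT : Nontrivial (MG z₀) := by
  refine ⟨⟨1, 0, ?_⟩⟩
  rw [mk_one, mk_zero, Ne, mk_eq]
  intro h
  obtain ⟨z, hz⟩ := h.exists
  exact one_ne_zero hz

instance instField : Field (MG z₀) := Field.ofIsUnitOrEqZero unit_or_zero

/-- constants -/
def constHom : ℂ →+* MG z₀ where
  toFun c := mk (fun _ => c) (MeromorphicAt.const c z₀)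
  map_one' := rfl
  map_zero' := rfl
  map_mul' _ _ := rfl
  map_add' _ _ := rfl

instance instAlg : Algebra ℂ (MG z₀) := (constHom (z₀ := z₀)).toAlgebra

lemma algebraMap_eq (c : ℂ) :
    algebraMap ℂ (MG z₀) c = mk (fun _ => c) (MeromorphicAt.const c z₀) := rfl

lemma mk_inv {f : ℂ → ℂ} (hf : MeromorphicAt f z₀) : (mk f hf)⁻¹ = mk f⁻¹ hf.inv := by
  rcases hf.eventually_eq_zero_or_eventually_ne_zero with h | h
  · have h1 : mk f hf = 0 := by
      rw [mk_zero, mk_eq]; exact h
    have h2 : mk f⁻¹ hf.inv = 0 := by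
      rw [mk_zero, mk_eq]
      filter_upwards [h] with z hz
      simp [hz]
    rw [h1, h2, inv_zero]
  · refine inv_eq_of_mul_eq_one_right ?_
    rw [mk_mul, mk_one, mk_eq]
    filter_upwards [h] with z hz
    simp [hz]

/-- derivative of a germ -/
def dg (x : MG z₀) : MG z₀ :=
  mk (deriv (exists_mk x).choose) (exists_mk x).choose_spec.choose.deriv

lemma dg_mk {f : ℂ → ℂ} (hf : MeromorphicAt f z₀) : dg (mk f hf) = mk (deriv f) hf.deriv := by
  unfold dg
  rw [mk_eq]
  have h := (exists_mk (mk f hf)).choose_spec.choose_spec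
  rw [mk_eq] at h
  exact h.symm.nhdsNE_deriv

/-- the derivation -/
def D : Derivation ℂ (MG z₀) (MG z₀) where
  toFun := dg
  map_add' := by
    intro x y
    obtain ⟨f, hf, rfl⟩ := exists_mk x
    obtain ⟨g, hg, rfl⟩ := exists_mk y
    rw [mk_add, dg_mk, dg_mk, dg_mk, mk_add, mk_eq]
    filter_upwards [hf.eventually_analyticAt, hg.eventually_analyticAt] with z h1 h2
    exact deriv_add h1.differentiableAt h2.differentiableAt
  map_smul' := by
    intro c x
    obtain ⟨f, hf, rfl⟩ := exists_mk x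
    rw [RingHom.id_apply, Algebra.smul_def, Algebra.smul_def, algebraMap_eq, dg_mk, mk_mul, mk_mul,
      dg_mk, mk_eq]
    filter_upwards [hf.eventually_analyticAt] with z h1
    exact deriv_const_mul c h1.differentiableAt
  map_one_eq_zero' := by
    change dg (1 : MG z₀) = 0
    rw [mk_one, dg_mk, mk_zero, mk_eq]
    exact Filter.Eventually.of_forall fun z => by simp
  leibniz' := by
    intro x y
    change dg (x * y) = x • dg y + y • dg x
    obtain ⟨f, hf, rfl⟩ := exists_mk x
    obtain ⟨g, hg, rfl⟩ := exists_mk y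
    rw [smul_eq_mul, smul_eq_mul, mk_mul, dg_mk, dg_mk, dg_mk, mk_mul, mk_mul, mk_add, mk_eq]
    filter_upwards [hf.eventually_analyticAt, hg.eventually_analyticAt] with z h1 h2
    rw [deriv_mul h1.differentiableAt h2.differentiableAt]
    simp only [Pi.add_apply, Pi.mul_apply]
    ring

lemma D_mk {f : ℂ → ℂ} (hf : MeromorphicAt f z₀) : D (mk f hf) = mk (deriv f) hf.deriv :=
  dg_mk hf

lemma mk_pow {f : ℂ → ℂ} (hf : MeromorphicAt f z₀) (n : ℕ) :
    mk f hf ^ n = mk (f ^ n) (hf.pow n) := by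
  induction n with
  | zero =>
    rw [pow_zero, mk_one, mk_eq]
    exact Filter.Eventually.of_forall fun z => by simp
  | succ n ih =>
    rw [pow_succ, ih, mk_mul, mk_eq]
    exact Filter.Eventually.of_forall fun z => by simp [pow_succ]

lemma mero_eval {f g : ℂ → ℂ} (hf : MeromorphicAt f z₀) (hg : MeromorphicAt g z₀)
    (P : MvPolynomial (Fin 2) ℂ) :
    ∃ h : MeromorphicAt (fun z => MvPolynomial.eval ![f z, g z] P) z₀,
      MvPolynomial.aeval ![mk f hf, mk g hg] P = mk _ h := by
  induction P using MvPolynomial.induction_on with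
  | C a =>
    refine ⟨by simp, ?_⟩
    rw [MvPolynomial.aeval_C, algebraMap_eq, mk_eq]
    exact Filter.Eventually.of_forall fun z => by simp
  | add p q hp hq =>
    obtain ⟨h1, h2⟩ := hp
    obtain ⟨h3, h4⟩ := hq
    refine ⟨by simp only [map_add]; exact h1.add h3, ?_⟩
    rw [map_add, h2, h4, mk_add, mk_eq]
    exact Filter.Eventually.of_forall fun z => by simp
  | mul_X p i hp =>
    obtain ⟨h1, h2⟩ := hp
    fin_cases i
    · refine ⟨by simp only [map_mul, MvPolynomial.eval_X]; exact h1.mul hf, ?_⟩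
      rw [map_mul, h2, MvPolynomial.aeval_X]
      simp only [Fin.zero_eta, Fin.isValue, Matrix.cons_val_zero]
      rw [mk_mul, mk_eq]
      exact Filter.Eventually.of_forall fun z => by simp
    · refine ⟨by simp only [map_mul, MvPolynomial.eval_X]; exact h1.mul hg, ?_⟩
      rw [map_mul, h2, MvPolynomial.aeval_X]
      simp only [Fin.mk_one, Fin.isValue, Matrix.cons_val_one, Matrix.cons_val_fin_one]
      rw [mk_mul, mk_eq]
      exact Filter.Eventually.of_forall fun z => by simp

lemma aeval_eq_zero {f g : ℂ → ℂ} (hf : MeromorphicAt f z₀) (hg : MeromorphicAt g z₀)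
    (P : MvPolynomial (Fin 2) ℂ) :
    MvPolynomial.aeval ![mk f hf, mk g hg] P = 0 ↔
      ∀ᶠ z in 𝓝[≠] z₀, MvPolynomial.eval ![f z, g z] P = 0 := by
  obtain ⟨h, h1⟩ := mero_eval hf hg P
  rw [h1, mk_zero, mk_eq]
  exact Iff.rfl

/-- **curve form for functions** -/
theorem curve_fun {Z Zc E y : ℂ → ℂ} (hZm : MeromorphicAt Z z₀) (hZcm : MeromorphicAt Zc z₀)
    (hEm : MeromorphicAt E z₀) (hym : MeromorphicAt y z₀)
    (hE0 : ∃ᶠ z in 𝓝[≠] z₀, E z ≠ 0) (hy0 : ∃ᶠ z in 𝓝[≠] z₀, y z ≠ 0)
    (hZ : ∀ᶠ z in 𝓝[≠] z₀, deriv Z z = E z / y z ^ 2)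
    (hZc : ∀ᶠ z in 𝓝[≠] z₀, deriv Zc z = 1 / (E z * y z ^ 2))
    (hE : ∀ᶠ z in 𝓝[≠] z₀, deriv E z = Complex.I * y z * E z)
    {P : MvPolynomial (Fin 2) ℂ} (hP : P ≠ 0)
    (h : ∀ᶠ z in 𝓝[≠] z₀, MvPolynomial.eval ![Z z, Zc z] P = 0) :
    ∃ Q : MvPolynomial (Fin 2) ℂ, Q ≠ 0 ∧
      ∀ᶠ z in 𝓝[≠] z₀, MvPolynomial.eval ![E z, y z] Q = 0 := by
  have hE0' : mk E hEm ≠ 0 := by
    rw [mk_zero, Ne, mk_eq]
    intro h1
    exact hE0 (h1.mono fun z hz hn => hn hz)
  have hy0' : mk y hym ≠ 0 := by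
    rw [mk_zero, Ne, mk_eq]
    intro h1
    exact hy0 (h1.mono fun z hz hn => hn hz)
  obtain ⟨-, -, Q, hQ, hQ0⟩ := AlgD151.curve_rel (k := ℂ) D (Z := mk Z hZm) (Zc := mk Zc hZcm)
    (E := mk E hEm) (y := mk y hym) (i := Complex.I) Complex.I_ne_zero hE0' hy0'
    (by
      rw [D_mk, div_eq_mul_inv, mk_pow, mk_inv, mk_mul, mk_eq]
      filter_upwards [hZ] with z hz
      simp [hz, div_eq_mul_inv])
    (by
      rw [D_mk, one_div, mk_pow, mk_mul, mk_inv, mk_eq]
      filter_upwards [hZc] with z hz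
      simp [hz])
    (by
      rw [D_mk, algebraMap_eq, mk_mul, mk_mul, mk_eq]
      filter_upwards [hE] with z hz
      simp [hz]) hP ((aeval_eq_zero hZm hZcm P).2 h)
  exact ⟨Q, hQ, (aeval_eq_zero hEm hym Q).1 hQ0⟩


lemma diff_eval {f g : ℂ → ℂ} (hf : Differentiable ℂ f) (hg : Differentiable ℂ g)
    (Q : MvPolynomial (Fin 2) ℂ) :
    Differentiable ℂ (fun z => MvPolynomial.eval ![f z, g z] Q) := by
  induction Q using MvPolynomial.induction_on with
  | C a => simp
  | add p q hp hq =>
    simp only [map_add]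
    exact hp.add hq
  | mul_X p i hp =>
    fin_cases i
    · simp only [map_mul, MvPolynomial.eval_X]
      exact hp.mul hf
    · simp only [map_mul, MvPolynomial.eval_X]
      exact hp.mul hg

/-- identity theorem for polynomial relations between entire functions -/
lemma entire_rel {f g : ℂ → ℂ} (hf : Differentiable ℂ f) (hg : Differentiable ℂ g)
    {Q : MvPolynomial (Fin 2) ℂ}
    (h : ∀ᶠ z in 𝓝[≠] z₀, MvPolynomial.eval ![f z, g z] Q = 0) (z : ℂ) :
    MvPolynomial.eval ![f z, g z] Q = 0 := by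
  have h1 : AnalyticOnNhd ℂ (fun z => MvPolynomial.eval ![f z, g z] Q) Set.univ :=
    (diff_eval hf hg Q).differentiableOn.analyticOnNhd isOpen_univ
  exact h1.eqOn_zero_of_preconnected_of_frequently_eq_zero isPreconnected_univ
    (Set.mem_univ z₀) h.frequently (Set.mem_univ z)

/-- **case `h₀ = ∞` of T7, curve form**: `θ` entire, the isotropic coordinates of the curve
satisfy a polynomial relation near one point: then `θ'` is constant. -/
theorem entire_curve {th Z Zc : ℂ → ℂ} (hth : Differentiable ℂ th) (hZm : MeromorphicAt Z z₀)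
    (hZcm : MeromorphicAt Zc z₀)
    (hZ : ∀ᶠ z in 𝓝[≠] z₀, deriv Z z = Complex.exp (Complex.I * th z) / deriv th z ^ 2)
    (hZc : ∀ᶠ z in 𝓝[≠] z₀, deriv Zc z = 1 / (Complex.exp (Complex.I * th z) * deriv th z ^ 2))
    {P : MvPolynomial (Fin 2) ℂ} (hP : P ≠ 0)
    (h : ∀ᶠ z in 𝓝[≠] z₀, MvPolynomial.eval ![Z z, Zc z] P = 0) (z : ℂ) :
    deriv th z = deriv th 0 := by
  have hd : Differentiable ℂ (deriv th) := by
    have h1 := (hth.differentiableOn (s := Set.univ)).deriv isOpen_univ
    exact differentiableOn_univ.1 h1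
  have hE : Differentiable ℂ (fun z => Complex.exp (Complex.I * th z)) := by fun_prop
  by_cases hy : ∃ᶠ z in 𝓝[≠] z₀, deriv th z ≠ 0
  · obtain ⟨Q, hQ, hQ0⟩ := curve_fun (E := fun z => Complex.exp (Complex.I * th z))
      (y := deriv th) hZm hZcm (hE.analyticAt z₀).meromorphicAt
      (hd.analyticAt z₀).meromorphicAt
      (Filter.Eventually.frequently (Filter.Eventually.of_forall fun z => Complex.exp_ne_zero _))
      hy hZ hZc
      (Filter.Eventually.of_forall fun z => by
        have h1 : HasDerivAt (fun z => Complex.exp (Complex.I * th z))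
            (Complex.exp (Complex.I * th z) * (Complex.I * deriv th z)) z :=
          ((hth z).hasDerivAt.const_mul Complex.I).cexp
        rw [h1.deriv]; ring) hP h
    exact T7151.t7inf_mv th hth Q hQ (entire_rel hE hd hQ0) z
  · have h1 : ∀ᶠ z in 𝓝[≠] z₀, deriv th z = 0 := by
      rw [Filter.not_frequently] at hy
      simpa using hy
    have h2 : AnalyticOnNhd ℂ (deriv th) Set.univ :=
      hd.differentiableOn.analyticOnNhd isOpen_univ
    have h3 := h2.eqOn_zero_of_preconnected_of_frequently_eq_zero isPreconnected_univ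
      (Set.mem_univ z₀) h1.frequently
    rw [h3 (Set.mem_univ z), h3 (Set.mem_univ 0)]
    rfl


end Crest.Agent.R102.MGerm151
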