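import Crest.Agent.R102.ConeChain_300
import Crest.Agent.R102.Step5Defs_613

/-!
Row 102, T1-B, step 5 / III.3 **CHAIN** (helper864): Schottky chains inside the tilted sawtooth
`S5.Saw` (product cones `Im w > lam * depth` over the points of `P`), from a point of the sawtooth to
the tilted ray `S5.ray e r`.

* `saw_chain`      : `HE F q ≤ C (r / D)^S HE F (ray e r)`, `q` in the narrower cone of `e' ∈ P`.
* `saw_chain_inf`  : the same with `infDist (Re q.1, Re q.2) P`.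
* `saw_side`       : the resulting bound for `f`, `‖f‖ ≤ exp (N * HE F)`.
-/

set_option autoImplicit false

open Set Filter Metric Complex Topology

namespace Crest.Agent.R102.Chain864

open Crest.Agent.R102.G864 Crest.Agent.R102.F300 Crest.Agent.R102.S5

/-- horizontal distance to the vertical line over `e` -/
noncomputable def X (q : ℂ × ℂ) (e : ℝ × ℝ) : ℝ := |q.1.re - e.1| + ‖q.2 - (e.2 : ℂ)‖


theorem isOpen_Saw (P : Set (ℝ × ℝ)) (lam d : ℝ) : IsOpen (Saw P lam d) := by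
  have e : Saw P lam d = {q : ℂ × ℂ | q.1.im < 0} ∩ {q | -d < q.1.im} ∩
      {q | lam * (-q.1.im) < q.2.im} ∩
      ⋃ e ∈ P, {q | lam * (|q.1.re - e.1| + ‖q.2 - (e.2 : ℂ)‖) < -q.1.im} := by
    ext q
    simp only [Saw, Set.mem_ofPred_eq, mem_inter_iff, mem_iUnion, exists_prop]
    tauto
  rw [e]
  refine IsOpen.inter (IsOpen.inter (IsOpen.inter ?_ ?_) ?_) ?_
  · exact isOpen_lt (by fun_prop) (by fun_prop)
  · exact isOpen_lt (by fun_prop) (by fun_prop)
  · exact isOpen_lt (by fun_prop) (by fun_prop)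
  · refine isOpen_biUnion fun e _ => isOpen_lt ?_ (by fun_prop)
    fun_prop

/-- balls inside the sawtooth -/
theorem ball_sub_Saw {P : Set (ℝ × ℝ)} {lam d : ℝ} (hlam : 0 ≤ lam) {e : ℝ × ℝ} (he : e ∈ P)
    {q : ℂ × ℂ} {ρ : ℝ} (h1 : ρ ≤ -q.1.im) (h2 : -q.1.im + ρ ≤ d)
    (h3 : (1 + lam) * ρ ≤ q.2.im - lam * (-q.1.im)) (h4 : (1 + 2 * lam) * ρ ≤ -q.1.im - lam * X q e) :
    ball q ρ ⊆ Saw P lam d := by
  intro y hy
  rw [mem_ball, dist_eq_norm, Prod.norm_def, max_lt_iff] at hy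
  obtain ⟨hy1, hy2⟩ := hy
  have e1 : |y.1.re - q.1.re| < ρ := (abs_re_le_norm (y - q).1).trans_lt hy1
  have e2 : |y.1.im - q.1.im| < ρ := (abs_im_le_norm (y - q).1).trans_lt hy1
  have e3 : ‖y.2 - q.2‖ < ρ := hy2
  have e4 : |y.2.im - q.2.im| < ρ := (abs_im_le_norm (y - q).2).trans_lt hy2
  have hρ : 0 < ρ := (abs_nonneg _).trans_lt e1
  rw [abs_lt] at e2 e4
  refine ⟨by linarith, by linarith, ?_, e, he, ?_⟩
  · nlinarith
  · have t1 : |y.1.re - e.1| ≤ |y.1.re - q.1.re| + |q.1.re - e.1| := by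
      have := abs_add_le (y.1.re - q.1.re) (q.1.re - e.1)
      simpa using this
    have t2 : ‖y.2 - e.2‖ ≤ ‖y.2 - q.2‖ + ‖q.2 - e.2‖ := by
      have := norm_add_le (y.2 - q.2) (q.2 - (e.2 : ℂ))
      simpa using this
    have t3 : |y.1.re - e.1| + ‖y.2 - (e.2 : ℂ)‖ ≤ X q e + 2 * ρ := by
      unfold X; linarith
    have t4 := mul_le_mul_of_nonneg_left t3 hlam
    nlinarith

/-- the shift along the tilted direction -/
noncomputable def sh (q : ℂ × ℂ) (τ : ℝ) : ℂ × ℂ := (q.1 - τ * I, q.2 + (τ / 4 : ℝ) * I)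

theorem sh_re (q : ℂ × ℂ) (τ : ℝ) : (sh q τ).1.re = q.1.re := by simp [sh]
theorem sh_im (q : ℂ × ℂ) (τ : ℝ) : (sh q τ).1.im = q.1.im - τ := by simp [sh]
theorem sh_im2 (q : ℂ × ℂ) (τ : ℝ) : (sh q τ).2.im = q.2.im + τ / 4 := by simp [sh]
theorem sh_zero (q : ℂ × ℂ) : sh q 0 = q := by simp [sh]

theorem X_sh (q : ℂ × ℂ) (e : ℝ × ℝ) {τ : ℝ} (hτ : 0 ≤ τ) : X (sh q τ) e ≤ X q e + τ / 4 := by
  unfold X
  rw [sh_re]
  have : ‖(sh q τ).2 - (e.2 : ℂ)‖ ≤ ‖q.2 - (e.2 : ℂ)‖ + τ / 4 := by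
    have e1 : (sh q τ).2 - (e.2 : ℂ) = (q.2 - e.2) + ((τ / 4 : ℝ) : ℂ) * I := by
      simp only [sh]; ring
    rw [e1]
    refine (norm_add_le _ _).trans ?_
    rw [norm_mul, norm_I, mul_one, norm_real, Real.norm_eq_abs, abs_of_nonneg (by linarith)]
  linarith

theorem norm_sh_sub (q : ℂ × ℂ) (τ τ' : ℝ) : ‖sh q τ - sh q τ'‖ = |τ - τ'| := by
  have e : sh q τ - sh q τ' = ((-(τ - τ') : ℝ) * I, (((τ - τ') / 4 : ℝ) : ℂ) * I) := by
    refine Prod.ext ?_ ?_
    · simp only [sh, Prod.fst_sub]; push_cast; ring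
    · simp only [sh, Prod.snd_sub]; push_cast; ring
  rw [e, Prod.norm_def]
  simp only [norm_mul, norm_I, mul_one, norm_real, Real.norm_eq_abs, abs_neg, abs_div]
  rw [max_eq_left]
  have : |(4 : ℝ)| = 4 := by norm_num
  rw [this]
  have := abs_nonneg (τ - τ')
  linarith

/-- **the tilted descent** -/
theorem HE_tilt {lam μ : ℝ} (hlam : 0 ≤ lam) (hlam1 : lam ≤ 1 / 8) (hμ : 0 < μ) (hμ1 : μ ≤ 1 / 8)
    {P : Set (ℝ × ℝ)} {d : ℝ} {F : ℂ × ℂ → ℂ} (h : OmE (Saw P lam d) F) {e : ℝ × ℝ} (he : e ∈ P)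
    {q : ℂ × ℂ} {D : ℝ} (hD : D = -q.1.im) (hD0 : 0 < D) (h1 : (lam + μ) * D ≤ q.2.im)
    (h2 : lam * X q e ≤ (1 - μ) * D) {T : ℝ} (hT : 0 ≤ T) (h3 : (1 + μ / 2) * (D + T) ≤ d) :
    HE F q ≤ K1 * ((D + T) / D) ^ (Real.log K1 / Real.log (1 + μ / 4)) * HE F (sh q T) := by
  have hK := one_le_K1
  have hKp : 0 < K1 := by linarith
  have hL : 0 < Real.log (1 + μ / 4) := Real.log_pos (by linarith)
  have hβ : 1 < 1 + μ / 4 := by linarith
  have hβ0 : 0 < 1 + μ / 4 := by linarith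
  -- one step
  have hstep : ∀ τ τ' : ℝ, 0 ≤ τ → τ ≤ τ' → D + τ' ≤ (1 + μ / 4) * (D + τ) → τ' ≤ T →
      HE F (sh q τ) ≤ K1 * HE F (sh q τ') := by
    intro τ τ' h0 h01 h02 h03
    have hDτ : 0 < D + τ' := by linarith
    refine HE_step h (r := μ / 2 * (D + τ')) (by positivity) ?_ ?_
    · have hX := X_sh q e (h0.trans h01)
      refine ball_sub_Saw hlam he ?_ ?_ ?_ ?_
      · rw [sh_im]; nlinarith
      · rw [sh_im]
        have : (1 + μ / 2) * (D + τ') ≤ (1 + μ / 2) * (D + T) :=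
          mul_le_mul_of_nonneg_left (by linarith) (by linarith)
        nlinarith
      · rw [sh_im, sh_im2, ← sub_nonneg]
        have h5 : -(q.1.im - τ') = D + τ' := by linarith
        rw [h5]
        have h6 : 0 ≤ (1 / 4 - lam - μ) * τ' := mul_nonneg (by linarith) (by linarith)
        have h7 : (1 + lam) * (μ / 2 * (D + τ')) ≤ μ * (D + τ') := by
          have : 0 ≤ μ * (D + τ') := by positivity
          nlinarith
        nlinarith
      · rw [sh_im, ← sub_nonneg]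
        have h5 : -(q.1.im - τ') = D + τ' := by linarith
        rw [h5]
        have h6 : lam * X (sh q τ') e ≤ (1 - μ) * D + lam * (τ' / 4) := by
          have := mul_le_mul_of_nonneg_left hX hlam
          linarith
        have h7 : (1 + 2 * lam) * (μ / 2 * (D + τ')) ≤ μ * (D + τ') := by
          have : 0 ≤ μ * (D + τ') := by positivity
          nlinarith
        have h8 : 0 ≤ (1 - lam / 4 - μ) * τ' := mul_nonneg (by linarith) (by linarith)
        nlinarith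
    · rw [norm_sh_sub, abs_sub_comm, abs_of_nonneg (by linarith)]
      have : 0 ≤ μ * (τ' - τ) := by
        apply mul_nonneg hμ.le; linarith
      nlinarith
  -- iterate
  have hiter : ∀ (N : ℕ) (τ τ' : ℝ), 0 ≤ τ → τ ≤ τ' → D + τ' ≤ (1 + μ / 4) ^ N * (D + τ) → τ' ≤ T →
      HE F (sh q τ) ≤ K1 ^ N * HE F (sh q τ') := by
    intro N
    induction N with
    | zero =>
      intro a b hb hba hab ha
      have : a = b := le_antisymm hba (by simpa using hab)
      rw [this]; simp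
    | succ N ih =>
      intro a b ha hab hb hbT
      by_cases hc : D + b ≤ (1 + μ / 4) * (D + a)
      · have h1 := hstep a b ha hab hc hbT
        have h4 : K1 ≤ K1 ^ (N + 1) := by
          calc K1 = K1 ^ 1 := (pow_one _).symm
            _ ≤ K1 ^ (N + 1) := pow_le_pow_right₀ hK (by omega)
        exact h1.trans (mul_le_mul_of_nonneg_right h4 (zero_le_one.trans (one_le_HE F _)))
      · push Not at hc
        have hm : D + ((1 + μ / 4) * (D + a) - D) = (1 + μ / 4) * (D + a) := by ring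
        have hma : a ≤ (1 + μ / 4) * (D + a) - D := by
          have : 0 ≤ μ / 4 * (D + a) := by positivity
          linarith
        have h1 := hstep a ((1 + μ / 4) * (D + a) - D) ha hma hm.le (by linarith)
        have h2 := ih ((1 + μ / 4) * (D + a) - D) b (ha.trans hma) (by linarith)
          (by rw [hm]; rw [pow_succ] at hb; nlinarith) hbT
        calc HE F (sh q a) ≤ K1 * HE F (sh q ((1 + μ / 4) * (D + a) - D)) := h1
          _ ≤ K1 * (K1 ^ N * HE F (sh q b)) := mul_le_mul_of_nonneg_left h2 hKp.le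
          _ = K1 ^ (N + 1) * HE F (sh q b) := by ring
  have hrd : 1 ≤ (D + T) / D := by rw [le_div_iff₀ hD0]; linarith
  have hrdp : 0 < (D + T) / D := by linarith
  set N : ℕ := ⌈Real.log ((D + T) / D) / Real.log (1 + μ / 4)⌉₊ with hN
  have hlog0 : 0 ≤ Real.log ((D + T) / D) / Real.log (1 + μ / 4) :=
    div_nonneg (Real.log_nonneg hrd) hL.le
  have hN1 : Real.log ((D + T) / D) / Real.log (1 + μ / 4) ≤ N := Nat.le_ceil _
  have hN2 : (N : ℝ) < Real.log ((D + T) / D) / Real.log (1 + μ / 4) + 1 := Nat.ceil_lt_add_one hlog0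
  have hpow : D + T ≤ (1 + μ / 4) ^ N * D := by
    have h1 : Real.log ((D + T) / D) ≤ N * Real.log (1 + μ / 4) := by
      rwa [div_le_iff₀ hL] at hN1
    have h2 : (D + T) / D ≤ (1 + μ / 4) ^ N := by
      rw [← Real.log_le_log_iff hrdp (by positivity), Real.log_pow]
      exact h1
    rwa [div_le_iff₀ hD0] at h2
  have h3 := hiter N 0 T le_rfl hT (by simpa using hpow) le_rfl
  rw [sh_zero] at h3
  have h4 : K1 ^ N ≤ K1 * ((D + T) / D) ^ (Real.log K1 / Real.log (1 + μ / 4)) := by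
    have e1 : ((D + T) / D) ^ (Real.log K1 / Real.log (1 + μ / 4))
        = K1 ^ (Real.log ((D + T) / D) / Real.log (1 + μ / 4)) := by
      rw [Real.rpow_def_of_pos hrdp, Real.rpow_def_of_pos hKp]
      congr 1
      ring
    rw [e1, ← Real.rpow_natCast K1 N]
    calc K1 ^ (N : ℝ) ≤ K1 ^ (1 + Real.log ((D + T) / D) / Real.log (1 + μ / 4)) :=
          Real.rpow_le_rpow_of_exponent_le hK (by linarith)
      _ = K1 * K1 ^ (Real.log ((D + T) / D) / Real.log (1 + μ / 4)) := by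
          rw [Real.rpow_add hKp, Real.rpow_one]
  exact h3.trans (mul_le_mul_of_nonneg_right h4 (zero_le_one.trans (one_le_HE F _)))

theorem ray_eq (e : ℝ × ℝ) (s : ℝ) :
    ray e s = ((e.1 : ℂ) - s * I, (e.2 : ℂ) + (s / 4 : ℝ) * I) := by
  unfold ray bl
  refine Prod.ext ?_ ?_
  · simp only; ring
  · simp only; push_cast; ring







/-- **CHAIN** as consumed by the disc estimate (669 #27769): `C, S, K` do not depend on `lam` -/
def SawChain : Prop := ∀ μ : ℝ, 0 < μ → μ ≤ 1/4 → ∃ C S K : ℝ, 1 ≤ C ∧ 1 ≤ S ∧ 1 ≤ K ∧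
  ∀ lam : ℝ, 0 < lam → lam ≤ μ/8 → ∀ (P : Set (ℝ × ℝ)) (ρ₀ : ℝ), 0 < ρ₀ → ∀ F : ℂ × ℂ → ℂ,
    DifferentiableOn ℂ F (S5.Saw P lam ρ₀) → (∀ q ∈ S5.Saw P lam ρ₀, F q ≠ 0 ∧ F q ≠ 1) →
    ∀ (e e' : ℝ × ℝ), e' ∈ P → ∀ (q : ℂ × ℂ) (r : ℝ), 0 < -q.1.im → μ * (-q.1.im) ≤ q.2.im →
      2 * lam * (|q.1.re - e'.1| + ‖q.2 - (e'.2 : ℂ)‖) ≤ -q.1.im →
      |q.1.re - e.1| + ‖q.2 - (e.2 : ℂ)‖ ≤ r → -q.1.im ≤ r → 2 * (K * r) < ρ₀ →
      1 + |Real.log ‖F q‖| ≤
        C * (r / (-q.1.im)) ^ S * (1 + |Real.log ‖F (S5.ray e (K * r))‖|)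

theorem sawChain : SawChain := by
  intro μ hμ hμ1
  have hK := one_le_K1
  have hKp : 0 < K1 := by linarith
  have hL : 0 < Real.log (1 + μ / 2 / 4) := Real.log_pos (by linarith)
  have hS0 : 0 ≤ Real.log K1 / Real.log (1 + μ / 2 / 4) := div_nonneg (Real.log_nonneg hK) hL.le
  obtain ⟨S, hS⟩ : ∃ S : ℝ, S = Real.log K1 / Real.log (1 + μ / 2 / 4) := ⟨_, rfl⟩
  rw [← hS] at hS0
  obtain ⟨K, hKd⟩ : ∃ K : ℝ, K = 32 / μ := ⟨_, rfl⟩
  have hKμ : K * μ = 32 := by rw [hKd]; field_simp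
  have hK32 : 128 ≤ K := by
    rw [hKd, le_div_iff₀ hμ]; linarith
  have hKS : (1 : ℝ) ≤ (2 * K) ^ S := Real.one_le_rpow (by linarith) hS0
  refine ⟨K1 * (2 * K) ^ S * K1, S + 1, K, ?_, by linarith, by linarith, ?_⟩
  · have h1 : 1 ≤ K1 * (2 * K) ^ S := by nlinarith
    nlinarith
  intro lam hlam hlamμ P ρ₀ hρ₀ F hF hF01 e e' he' q r hD0' h1 h2 hX hDr hKr
  have h : OmE (Saw P lam ρ₀) F :=
    ⟨isOpen_Saw P lam ρ₀, hF, fun z hz => (hF01 z hz).1, fun z hz => (hF01 z hz).2⟩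
  obtain ⟨D, hD⟩ : ∃ D : ℝ, D = -q.1.im := ⟨_, rfl⟩
  rw [← hD] at hD0' h1 h2 hDr ⊢
  have hD0 : 0 < D := hD0'
  have hr : 0 < r := hD0.trans_le hDr
  have hKr0 : 0 < K * r := by positivity
  have h2' : lam * X q e' ≤ D / 2 := by unfold X; linarith
  -- the descent
  have s1 : HE F q ≤ K1 * ((D + K * r) / D) ^ S * HE F (sh q (K * r)) := by
    rw [hS]
    refine HE_tilt hlam.le (by linarith) (μ := μ / 2) (by positivity) (by linarith) h he' hD hD0
      ?_ ?_ hKr0.le ?_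
    · nlinarith
    · nlinarith
    · nlinarith
  -- the last step
  obtain ⟨T, hT⟩ : ∃ T : ℝ, T = K * r := ⟨_, rfl⟩
  have hμT : μ * T = 32 * r := by rw [hT, ← mul_assoc, mul_comm μ K, hKμ]
  have hT128 : 128 * r ≤ T := by rw [hT]; nlinarith
  have hball : ball (sh q T) (μ / 4 * (D + T)) ⊆ Saw P lam ρ₀ := by
    have hXs := X_sh q e' (τ := T) (by linarith)
    have hlX := mul_le_mul_of_nonneg_left hXs hlam.le
    have hDT : 0 < D + T := by linarith
    have hμ4 : μ / 4 * (D + T) ≤ 1 / 16 * (D + T) :=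
      mul_le_mul_of_nonneg_right (by linarith) hDT.le
    have h5 : -(q.1.im - T) = D + T := by rw [hD]; ring
    have hl32 : lam ≤ 1 / 32 := by linarith
    have hpos : 0 ≤ μ / 4 * (D + T) := by positivity
    refine ball_sub_Saw hlam.le he' ?_ ?_ ?_ ?_
    · rw [sh_im, h5]; linarith
    · rw [sh_im, h5]; linarith
    · rw [sh_im, sh_im2, h5]
      have a1 : (1 + lam) * (μ / 4 * (D + T)) ≤ (1 + 1 / 32) * (μ / 4 * (D + T)) :=
        mul_le_mul_of_nonneg_right (by linarith) hpos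
      have a2 : lam * (D + T) ≤ μ / 8 * (D + T) := mul_le_mul_of_nonneg_right hlamμ hDT.le
      have a3 : μ * T ≤ 1 / 4 * T := mul_le_mul_of_nonneg_right hμ1 (by linarith)
      nlinarith
    · rw [sh_im, h5]
      have a1 : (1 + 2 * lam) * (μ / 4 * (D + T)) ≤ (1 + 2 * (1 / 32)) * (μ / 4 * (D + T)) :=
        mul_le_mul_of_nonneg_right (by linarith) hpos
      have a2 : lam * (T / 4) ≤ 1 / 32 * (T / 4) :=
        mul_le_mul_of_nonneg_right hl32 (by linarith)
      linarith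
  have hdist : ‖sh q T - ray e T‖ ≤ μ / 4 * (D + T) / 4 := by
    have ev : sh q T - ray e T = (q.1 - e.1, q.2 - e.2) := by
      rw [ray_eq]
      refine Prod.ext ?_ ?_
      · simp only [sh, Prod.fst_sub]; ring
      · simp only [sh, Prod.snd_sub]; ring
    have hX0 : |q.1.re - e.1| + ‖q.2 - (e.2 : ℂ)‖ ≤ r := hX
    have b1 : ‖q.1 - (e.1 : ℂ)‖ ≤ |q.1.re - e.1| + D := by
      refine (norm_le_abs_re_add_abs_im _).trans ?_
      simp only [sub_re, ofReal_re, sub_im, ofReal_im, sub_zero]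
      have : |q.1.im| = D := by rw [hD, abs_of_neg (by linarith)]
      rw [this]
    have b2 := norm_nonneg (q.2 - (e.2 : ℂ))
    have b3 := abs_nonneg (q.1.re - e.1)
    have b4 : 2 * r ≤ μ / 4 * (D + T) / 4 := by nlinarith
    rw [ev, Prod.norm_def]
    refine max_le ?_ ?_
    · simp only; linarith
    · simp only; linarith
  have s2 : HE F (sh q T) ≤ K1 * HE F (ray e T) := by
    refine HE_step h (w := ray e T) (r := μ / 4 * (D + T) / 2) ?_ ?_ ?_
    · have : 0 < D + T := by linarith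
      positivity
    · refine (ball_subset_ball' ?_).trans hball
      rw [dist_comm, dist_eq_norm]
      have : 0 ≤ μ / 4 * (D + T) := by
        have : 0 < D + T := by linarith
        positivity
      linarith
    · linarith
  rw [← hT] at s1
  have hrD : 1 ≤ r / D := by rw [le_div_iff₀ hD0]; linarith
  have hrD0 : 0 < r / D := by linarith
  have hle : ((D + T) / D) ^ S ≤ (2 * K) ^ S * (r / D) ^ (S + 1) := by
    have a1 : (D + T) / D ≤ 2 * K * (r / D) := by
      rw [add_div, div_self hD0.ne', hT, mul_div_assoc]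
      nlinarith
    have a0 : 0 ≤ (D + T) / D := div_nonneg (by linarith) hD0.le
    calc ((D + T) / D) ^ S ≤ (2 * K * (r / D)) ^ S :=
          Real.rpow_le_rpow a0 a1 hS0
      _ = (2 * K) ^ S * (r / D) ^ S := Real.mul_rpow (by linarith) hrD0.le
      _ ≤ (2 * K) ^ S * (r / D) ^ (S + 1) := by
          gcongr
          · linarith
  have hH0 := zero_le_one.trans (one_le_HE F (ray e T))
  have hH1 := zero_le_one.trans (one_le_HE F (sh q T))
  rw [← hT]
  calc HE F q ≤ K1 * ((D + T) / D) ^ S * HE F (sh q T) := s1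
    _ ≤ K1 * ((2 * K) ^ S * (r / D) ^ (S + 1)) * (K1 * HE F (ray e T)) := by gcongr
    _ = K1 * (2 * K) ^ S * K1 * (r / D) ^ (S + 1) * HE F (ray e T) := by ring

end Crest.Agent.R102.Chain864
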