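import Crest.Agent.R102.LP_472

-- ▼ part R102/FatouA_472
section

/-!
# Poisson integrals on the half plane: nontangential limits at Lebesgue points
-/

namespace Crest.Agent.R102.LP472

open MeasureTheory Set Filter Topology Complex
open scoped Real

theorem pk_le {v : ℝ} (hv : 0 < v) (u t : ℝ) : pk u v t ≤ (π * v)⁻¹ := by
  unfold pk
  have hpi := Real.pi_pos
  have : v / ((t - u) ^ 2 + v ^ 2) ≤ v⁻¹ := by
    rw [div_le_iff₀ (by positivity)]
    have : v⁻¹ * ((t - u) ^ 2 + v ^ 2) = v⁻¹ * (t - u) ^ 2 + v := by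
      field_simp
    rw [this]
    have : 0 ≤ v⁻¹ * (t - u) ^ 2 := by positivity
    linarith
  calc π⁻¹ * (v / ((t - u) ^ 2 + v ^ 2)) ≤ π⁻¹ * v⁻¹ := by gcongr
    _ = (π * v)⁻¹ := by rw [mul_inv]

theorem continuous_pk {v : ℝ} (hv : 0 < v) (u : ℝ) : Continuous (pk u v) := by
  unfold pk
  apply continuous_const.mul
  apply continuous_const.div (by fun_prop)
  intro t
  positivity

/-- Poisson integral of a complex function. -/
noncomputable def PI (φ : ℝ → ℂ) (z : ℂ) : ℂ := ∫ t, (pk z.re z.im t : ℂ) * φ t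

theorem integrable_pk_mul {φ : ℝ → ℂ} (hφ : AEStronglyMeasurable φ volume) {M : ℝ}
    (hM : ∀ t, ‖φ t‖ ≤ M) {v : ℝ} (hv : 0 < v) (u : ℝ) :
    Integrable fun t => (pk u v t : ℂ) * φ t := by
  refine (((integrable_pk hv u).ofReal (𝕜 := ℂ)).mul_bdd (c := M) hφ ?_)
  exact Eventually.of_forall hM

/-- Poisson mass outside of an interval -/
theorem setIntegral_pk_compl_le {v N b x u : ℝ} (hv : 0 < v) (hb : 0 < b)
    (hu : |u - x| ≤ (N - b) * v) :
    ∫ t in (Icc (x - N * v) (x + N * v))ᶜ, pk u v t ≤ 1 - 2 / π * Real.arctan b := by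
  apply setIntegral_pk_le_of_disjoint hv hb
  intro t ht
  by_contra hcon
  push Not at hcon
  apply ht
  have h1 := abs_lt.1 hcon
  have h2 := abs_le.1 hu
  constructor <;> nlinarith

/-- basic estimate of the Poisson integral against a constant -/
theorem norm_PI_sub_le {φ : ℝ → ℂ} (hφ : AEStronglyMeasurable φ volume) {M : ℝ}
    (hM : ∀ t, ‖φ t‖ ≤ M) (x : ℝ) {z : ℂ} (hz : 0 < z.im) {N b : ℝ} (hb : 0 < b) (hN : b < N)
    (hu : |z.re - x| ≤ (N - b) * z.im) :
    ‖PI φ z - φ x‖ ≤ (2 * N / π) * (⨍ t in Metric.closedBall x (N * z.im), ‖φ t - φ x‖) +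
      2 * M * (1 - 2 / π * Real.arctan b) := by
  have hv := hz
  set u := z.re
  set v := z.im
  have hN0 : 0 < N := hb.trans hN
  have hint := integrable_pk_mul hφ hM hv u
  have hpk := integrable_pk hv u
  have h1 : PI φ z - φ x = ∫ t, (pk u v t : ℂ) * (φ t - φ x) := by
    have e1 : (∫ t, (pk u v t : ℂ) * φ x) = φ x := by
      rw [integral_mul_const, integral_complex_ofReal, integral_pk hv u]; simp
    calc PI φ z - φ x = (∫ t, (pk u v t : ℂ) * φ t) - ∫ t, (pk u v t : ℂ) * φ x := by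
          rw [e1]; rfl
      _ = ∫ t, ((pk u v t : ℂ) * φ t - (pk u v t : ℂ) * φ x) :=
          (integral_sub hint (hpk.ofReal.mul_const _)).symm
      _ = _ := by congr 1; ext t; ring
  have hdm : AEStronglyMeasurable (fun t => φ t - φ x) volume :=
    hφ.sub aestronglyMeasurable_const
  have hdb : ∀ t, ‖φ t - φ x‖ ≤ 2 * M := fun t => by
    have := norm_sub_le (φ t) (φ x)
    have := hM t
    have := hM x
    linarith
  have hd : Integrable fun t => pk u v t * ‖φ t - φ x‖ := by
    refine hpk.mul_bdd (c := 2 * M) hdm.norm ?_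
    exact Eventually.of_forall fun t => by simpa using hdb t
  have h2 : ‖PI φ z - φ x‖ ≤ ∫ t, pk u v t * ‖φ t - φ x‖ := by
    rw [h1]
    refine (norm_integral_le_integral_norm _).trans_eq ?_
    congr 1
    ext t
    rw [norm_mul, Complex.norm_real, Real.norm_of_nonneg (pk_nonneg hv u t)]
  set S := Icc (x - N * v) (x + N * v) with hS
  have h3 : (∫ t, pk u v t * ‖φ t - φ x‖) = (∫ t in S, pk u v t * ‖φ t - φ x‖) +
      ∫ t in Sᶜ, pk u v t * ‖φ t - φ x‖ := (integral_add_compl measurableSet_Icc hd).symm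
  have hM0 : 0 ≤ M := (norm_nonneg _).trans (hM x)
  have h4 : (∫ t in Sᶜ, pk u v t * ‖φ t - φ x‖) ≤ 2 * M * (1 - 2 / π * Real.arctan b) := by
    calc (∫ t in Sᶜ, pk u v t * ‖φ t - φ x‖) ≤ ∫ t in Sᶜ, pk u v t * (2 * M) := by
          refine setIntegral_mono hd.integrableOn (hpk.mul_const _).integrableOn ?_
          intro t
          exact mul_le_mul_of_nonneg_left (hdb t) (pk_nonneg hv u t)
      _ = 2 * M * ∫ t in Sᶜ, pk u v t := by rw [integral_mul_const]; ring
      _ ≤ _ := by
          have := setIntegral_pk_compl_le (N := N) (x := x) hv hb hu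
          gcongr
  have hint2 : IntegrableOn (fun t => ‖φ t - φ x‖) S := by
    have hfin : IsFiniteMeasure (volume.restrict S) := ⟨by
      rw [Measure.restrict_apply_univ, hS, Real.volume_Icc]; exact ENNReal.ofReal_lt_top⟩
    refine Integrable.of_bound hdm.norm.restrict (2 * M) ?_
    exact Eventually.of_forall fun t => by simpa using hdb t
  have h5 : (∫ t in S, pk u v t * ‖φ t - φ x‖) ≤ (π * v)⁻¹ * ∫ t in S, ‖φ t - φ x‖ := by
    rw [← integral_const_mul]
    refine setIntegral_mono hd.integrableOn (hint2.const_mul _) ?_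
    intro t
    exact mul_le_mul_of_nonneg_right (pk_le hv u t) (norm_nonneg _)
  have hvol : volume.real S = 2 * (N * v) := by
    rw [hS, Measure.real, Real.volume_Icc, ENNReal.toReal_ofReal (by nlinarith)]
    ring
  have h6 : (∫ t in S, ‖φ t - φ x‖) = 2 * (N * v) *
      (⨍ t in Metric.closedBall x (N * z.im), ‖φ t - φ x‖) := by
    rw [Real.closedBall_eq_Icc, setAverage_eq]
    change _ = 2 * (N * v) * ((volume.real S)⁻¹ • _)
    rw [hvol, smul_eq_mul, ← mul_assoc, mul_inv_cancel₀ (by positivity), one_mul]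
  have h7 : (π * v)⁻¹ * (2 * (N * v)) = 2 * N / π := by
    have := Real.pi_pos
    field_simp
  calc ‖PI φ z - φ x‖ ≤ (∫ t in S, pk u v t * ‖φ t - φ x‖) +
      ∫ t in Sᶜ, pk u v t * ‖φ t - φ x‖ := by rw [← h3]; exact h2
    _ ≤ (π * v)⁻¹ * (2 * (N * v) * (⨍ t in Metric.closedBall x (N * z.im), ‖φ t - φ x‖)) +
      2 * M * (1 - 2 / π * Real.arctan b) := by
        rw [← h6]; exact add_le_add h5 h4
    _ = _ := by rw [← mul_assoc, h7]

/-- limit of the vertical parameter along a cone -/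
theorem tendsto_im_Cone (b h x : ℝ) {N : ℝ} (hN : 0 < N) :
    Tendsto (fun z : ℂ => N * z.im) (𝓝[Cone b h x] (x : ℂ)) (𝓝[>] 0) := by
  rw [tendsto_nhdsWithin_iff]
  constructor
  · have h1 : Tendsto (fun z : ℂ => N * z.im) (𝓝 (x : ℂ)) (𝓝 (N * (x : ℂ).im)) :=
      (continuous_const.mul Complex.continuous_im).tendsto _
    simp only [ofReal_im, mul_zero] at h1
    exact h1.mono_left nhdsWithin_le_nhds
  · filter_upwards [self_mem_nhdsWithin] with z hz
    exact mul_pos hN hz.1

theorem PI_tendsto_of_lebesgue {φ : ℝ → ℂ} (hφ : AEStronglyMeasurable φ volume) {M : ℝ}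
    (hM : ∀ t, ‖φ t‖ ≤ M) {x : ℝ}
    (hx : Tendsto (fun r => ⨍ t in Metric.closedBall x r, ‖φ t - φ x‖) (𝓝[>] 0) (𝓝 0)) (b : ℝ)
    (h : ℝ) : Tendsto (PI φ) (𝓝[Cone b h x] (x : ℂ)) (𝓝 (φ x)) := by
  have hM0 : 0 ≤ M := (norm_nonneg _).trans (hM x)
  rw [Metric.tendsto_nhds]
  intro ε hε
  -- choose d with small tail
  have hlim : Tendsto (fun d : ℝ => 2 * M * (1 - 2 / π * Real.arctan d)) atTop (𝓝 0) := by
    have h1 : Tendsto Real.arctan atTop (𝓝 (π / 2)) :=
      tendsto_nhds_of_tendsto_nhdsWithin Real.tendsto_arctan_atTop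
    have h2 : Tendsto (fun b : ℝ => 2 * M * (1 - 2 / π * Real.arctan b)) atTop
        (𝓝 (2 * M * (1 - 2 / π * (π / 2)))) := (((h1.const_mul _).const_sub _).const_mul _)
    have h3 : 2 * M * (1 - 2 / π * (π / 2)) = 0 := by
      have := Real.pi_ne_zero
      field_simp; ring
    rwa [h3] at h2
  obtain ⟨d, hd1, hd0⟩ := ((hlim.eventually (gt_mem_nhds (show (0 : ℝ) < ε / 2 by positivity))).and
      (eventually_gt_atTop 0)).exists
  set N : ℝ := d + |b| + 1 with hN
  have hb0 := abs_nonneg b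
  have hN0 : 0 < N := by positivity
  have hNd : d < N := by rw [hN]; linarith
  have h1 := (hx.comp (tendsto_im_Cone b h x hN0)).const_mul (2 * N / π)
  rw [mul_zero] at h1
  filter_upwards [h1.eventually (gt_mem_nhds (show (0 : ℝ) < ε / 2 by positivity)),
    self_mem_nhdsWithin] with z hz1 hz2
  rw [dist_eq_norm]
  have h2 := norm_PI_sub_le hφ hM x hz2.1 hd0 hNd (by
    have h3 := hz2.2.2.le
    have h4 : b ≤ N - d := by rw [hN]; linarith [le_abs_self b]
    have h5 := hz2.1
    nlinarith)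
  simp only [Function.comp] at hz1
  linarith

/-- a.e. nontangential limits of Poisson integrals of bounded functions -/
theorem ae_PI_tendsto {φ : ℝ → ℂ} (hφ : AEStronglyMeasurable φ volume) {M : ℝ}
    (hM : ∀ t, ‖φ t‖ ≤ M) :
    ∀ᵐ x : ℝ, ∀ b h : ℝ, Tendsto (PI φ) (𝓝[Cone b h x] (x : ℂ)) (𝓝 (φ x)) := by
  have hloc : LocallyIntegrable φ volume := by
    rw [locallyIntegrable_iff]
    intro k hk
    have hfin : IsFiniteMeasure (volume.restrict k) := ⟨by
      rw [Measure.restrict_apply_univ]; exact hk.measure_lt_top⟩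
    exact Integrable.of_bound hφ.restrict M (Eventually.of_forall hM)
  have hae := IsUnifLocDoublingMeasure.ae_tendsto_average_norm_sub (μ := volume) hloc 0
  filter_upwards [hae] with x hx b h
  apply PI_tendsto_of_lebesgue hφ hM
  refine hx (fun _ => x) (fun r => r) tendsto_id ?_
  filter_upwards [self_mem_nhdsWithin] with r hr
  simp

end Crest.Agent.R102.LP472
end

-- ▼ part R102/FatouB_472
section

/-!
# weak limits of uniformly bounded families supported in a set of finite measure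
-/

namespace Crest.Agent.R102.LP472

open MeasureTheory Set Filter Topology Complex
open scoped Real InnerProductSpace

theorem memLp_of_supp {K : Set ℝ} (hKm : MeasurableSet K) (hKfin : volume K ≠ ⊤) {M : ℝ}
    {φ : ℝ → ℂ} (hφ : AEStronglyMeasurable φ volume) (hM : ∀ t, ‖φ t‖ ≤ M)
    (hs : ∀ t ∉ K, φ t = 0) : MemLp φ 2 volume := by
  have hfin : IsFiniteMeasure (volume.restrict K) := ⟨by
    rw [Measure.restrict_apply_univ]; exact hKfin.lt_top⟩
  have h1 : MemLp φ 2 (volume.restrict K) := MemLp.of_bound hφ.restrict M (ae_of_all _ hM)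
  have h2 : K.indicator φ = φ := by
    ext t
    by_cases ht : t ∈ K
    · simp [ht]
    · simp [ht, hs t ht]
  rw [← h2]
  exact (memLp_indicator_iff_restrict hKm).2 h1

theorem eLpNorm_le_of_supp {K : Set ℝ} (hKm : MeasurableSet K) {M : ℝ}
    {φ : ℝ → ℂ} (hM : ∀ t, ‖φ t‖ ≤ M)
    (hs : ∀ t ∉ K, φ t = 0) :
    eLpNorm φ 2 volume ≤ volume K ^ (2 : ENNReal).toReal⁻¹ * ENNReal.ofReal M := by
  have h2 : K.indicator φ = φ := by
    ext t
    by_cases ht : t ∈ K
    · simp [ht]
    · simp [ht, hs t ht]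
  have h3 : eLpNorm φ 2 volume = eLpNorm φ 2 (volume.restrict K) := by
    conv_lhs => rw [← h2]
    exact eLpNorm_indicator_eq_eLpNorm_restrict hKm
  rw [h3]
  have := eLpNorm_le_of_ae_bound (p := 2) (μ := volume.restrict K) (f := φ) (C := M) (ae_of_all _ hM)
  rwa [Measure.restrict_apply_univ] at this

theorem exists_weak_limit {K : Set ℝ} (hKm : MeasurableSet K) (hKfin : volume K ≠ ⊤) {M : ℝ}
    (hM0 : 0 ≤ M) (φ : ℝ → ℝ → ℂ) (𝒰 : Ultrafilter ℝ)
    (hφ : ∀ᶠ s in (𝒰 : Filter ℝ), AEStronglyMeasurable (φ s) volume ∧ (∀ t, ‖φ s t‖ ≤ M) ∧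
      ∀ t ∉ K, φ s t = 0) :
    ∃ ψ : ℝ → ℂ, AEStronglyMeasurable ψ volume ∧ (∀ t, ‖ψ t‖ ≤ M) ∧
      ∀ g : ℝ → ℝ, MemLp g 2 volume →
        Tendsto (fun s => ∫ t, (g t : ℂ) * φ s t) 𝒰 (𝓝 (∫ t, (g t : ℂ) * ψ t)) := by
  classical
  set R : ENNReal := volume K ^ (2 : ENNReal).toReal⁻¹ * ENNReal.ofReal M with hR
  have hRfin : R ≠ ⊤ := by
    rw [hR]
    apply ENNReal.mul_ne_top _ ENNReal.ofReal_ne_top
    apply ENNReal.rpow_ne_top_of_nonneg _ hKfin
    simp
  set Φ : ℝ → Lp ℂ 2 (volume : Measure ℝ) := fun s =>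
    if h : MemLp (φ s) 2 volume then h.toLp (φ s) else 0 with hΦ
  set T : ℝ → WeakDual ℂ (Lp ℂ 2 (volume : Measure ℝ)) := fun s =>
    StrongDual.toWeakDual (InnerProductSpace.toDual ℂ (Lp ℂ 2 (volume : Measure ℝ)) (Φ s)) with hT
  have hcomp := WeakDual.isCompact_closedBall (𝕜 := ℂ)
    (0 : StrongDual ℂ (Lp ℂ 2 (volume : Measure ℝ))) R.toReal
  have hmem : ∀ᶠ s in (𝒰 : Filter ℝ), T s ∈ (WeakDual.toStrongDual ⁻¹'
      Metric.closedBall (0 : StrongDual ℂ (Lp ℂ 2 (volume : Measure ℝ))) R.toReal) := by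
    filter_upwards [hφ] with s hs
    have h1 : MemLp (φ s) 2 volume := memLp_of_supp hKm hKfin hs.1 hs.2.1 hs.2.2
    rw [mem_preimage, mem_closedBall_zero_iff]
    have h2 : WeakDual.toStrongDual (T s) =
        InnerProductSpace.toDual ℂ (Lp ℂ 2 (volume : Measure ℝ)) (Φ s) := rfl
    rw [h2, LinearIsometryEquiv.norm_map]
    have h3 : Φ s = h1.toLp (φ s) := by simp only [hΦ, dif_pos h1]
    rw [h3, Lp.norm_toLp]
    exact ENNReal.toReal_mono hRfin (eLpNorm_le_of_supp hKm hs.2.1 hs.2.2)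
  have hU : ((𝒰.map T : Ultrafilter _) : Filter _) ≤ 𝓟 (WeakDual.toStrongDual ⁻¹'
      Metric.closedBall (0 : StrongDual ℂ (Lp ℂ 2 (volume : Measure ℝ))) R.toReal) := by
    rw [le_principal_iff, Ultrafilter.coe_map, Filter.mem_map]
    exact hmem
  obtain ⟨Λ, -, hΛ⟩ := hcomp.ultrafilter_le_nhds _ hU
  have hTL : Tendsto T 𝒰 (𝓝 Λ) := by
    rw [Ultrafilter.coe_map] at hΛ
    exact hΛ
  set Ψ : Lp ℂ 2 (volume : Measure ℝ) :=
    (InnerProductSpace.toDual ℂ (Lp ℂ 2 (volume : Measure ℝ))).symm (WeakDual.toStrongDual Λ)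
    with hΨ
  have hlim : ∀ g : Lp ℂ 2 (volume : Measure ℝ),
      Tendsto (fun s => ⟪Φ s, g⟫_ℂ) 𝒰 (𝓝 ⟪Ψ, g⟫_ℂ) := by
    intro g
    have h1 : Tendsto (fun s => T s g) 𝒰 (𝓝 (Λ g)) :=
      ((WeakDual.eval_continuous g).tendsto Λ).comp hTL
    have h2 : ⟪Ψ, g⟫_ℂ = Λ g := InnerProductSpace.toDual_symm_apply
    rw [h2]
    exact h1
  -- in terms of integrals
  have hint : ∀ g : ℝ → ℝ, MemLp g 2 volume →
        Tendsto (fun s => ∫ t, (g t : ℂ) * φ s t) 𝒰 (𝓝 (∫ t, (g t : ℂ) * Ψ t)) := by
    intro g hg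
    have hgc : MemLp (fun t => (g t : ℂ)) 2 volume := hg.ofReal
    have e0 : ∀ (F : Lp ℂ 2 (volume : Measure ℝ)) (f : ℝ → ℂ), F =ᵐ[volume] f →
        (starRingEnd ℂ) ⟪F, hgc.toLp _⟫_ℂ = ∫ t, (g t : ℂ) * f t := by
      intro F f hF
      rw [L2.inner_def, ← integral_conj]
      apply integral_congr_ae
      filter_upwards [hF, hgc.coeFn_toLp] with t h1 h2
      rw [h1, h2]
      simp [mul_comm]
    have h1 := ((Complex.continuous_conj.tendsto _).comp (hlim (hgc.toLp _)))
    rw [e0 Ψ Ψ (ae_eq_refl _)] at h1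
    refine h1.congr' ?_
    filter_upwards [hφ] with s hs
    have h1 : MemLp (φ s) 2 volume := memLp_of_supp hKm hKfin hs.1 hs.2.1 hs.2.2
    have h3 : Φ s = h1.toLp (φ s) := by simp only [hΦ, dif_pos h1]
    simp only [Function.comp]
    rw [h3]
    exact e0 _ _ h1.coeFn_toLp
  -- a.e. bound
  have hΨloc : LocallyIntegrable (Ψ : ℝ → ℂ) volume :=
    (Lp.memLp Ψ).locallyIntegrable (by norm_num)
  have hball : ∀ x r : ℝ, ‖∫ t in Metric.closedBall x r, Ψ t‖ ≤
      M * volume.real (Metric.closedBall x r) := by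
    intro x r
    set A := Metric.closedBall x r with hA
    have hAm : MeasurableSet A := Metric.isClosed_closedBall.measurableSet
    have hAfin : volume A ≠ ⊤ := measure_closedBall_lt_top.ne
    have hg : MemLp (A.indicator (fun _ => (1 : ℝ))) 2 volume :=
      memLp_indicator_const 2 hAm 1 (Or.inr hAfin)
    have h1 := (hint _ hg).norm
    have e1 : ∀ f : ℝ → ℂ, (∫ t, ((A.indicator (fun _ => (1 : ℝ)) t : ℝ) : ℂ) * f t) =
        ∫ t in A, f t := by
      intro f
      rw [← integral_indicator hAm]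
      congr 1
      ext t
      by_cases ht : t ∈ A
      · simp [ht]
      · simp [ht]
    rw [e1] at h1
    apply le_of_tendsto h1
    filter_upwards [hφ] with s hs
    rw [e1]
    exact norm_setIntegral_le_of_norm_le_const hAfin.lt_top (fun t _ => hs.2.1 t)
  have hbd : ∀ᵐ x : ℝ, ‖Ψ x‖ ≤ M := by
    have hae := IsUnifLocDoublingMeasure.ae_tendsto_average (μ := volume) hΨloc 0
    filter_upwards [hae] with x hx
    have h1 := hx (l := 𝓝[>] (0 : ℝ)) (fun _ => x) (fun r => r) tendsto_id (by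
      filter_upwards [self_mem_nhdsWithin] with r hr
      simp)
    apply le_of_tendsto h1.norm
    filter_upwards [self_mem_nhdsWithin] with r hr
    rw [setAverage_eq, norm_smul]
    have hpos : 0 < volume.real (Metric.closedBall x r) := by
      rw [Real.closedBall_eq_Icc, Measure.real, Real.volume_Icc, ENNReal.toReal_ofReal]
      · have : (0 : ℝ) < r := hr
        linarith
      · have : (0 : ℝ) < r := hr
        linarith
    rw [norm_inv, Real.norm_of_nonneg hpos.le, inv_mul_le_iff₀ hpos]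
    rw [mul_comm]
    exact hball x r
  refine ⟨fun t => if ‖Ψ t‖ ≤ M then Ψ t else 0, ?_, ?_, ?_⟩
  · refine (Lp.aestronglyMeasurable Ψ).congr ?_
    filter_upwards [hbd] with t ht
    rw [if_pos ht]
  · intro t
    by_cases ht : ‖Ψ t‖ ≤ M
    · simp only [if_pos ht]; exact ht
    · simp only [if_neg ht, norm_zero]; exact hM0
  · intro g hg
    have h1 : (∫ t, (g t : ℂ) * (if ‖Ψ t‖ ≤ M then Ψ t else 0)) = ∫ t, (g t : ℂ) * Ψ t := by
      apply integral_congr_ae
      filter_upwards [hbd] with t ht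
      rw [if_pos ht]
    rw [h1]
    exact hint g hg

end Crest.Agent.R102.LP472
end

-- ▼ part R102/FatouC_472
section

/-!
# Calderón's comparison of a bounded holomorphic function in a sawtooth domain with the Poisson
integral of its boundary values
-/

namespace Crest.Agent.R102.LP472

open MeasureTheory Set Filter Topology Complex
open scoped Real

/-- holomorphic function whose real part is the Poisson integral of the real function `ψ`. -/
noncomputable def OmW (ψ : ℝ → ℝ) (z : ℂ) : ℂ :=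
  (-(π : ℂ)⁻¹ * I) * ∫ t, (ψ t : ℂ) * ((t : ℂ) - z)⁻¹

theorem continuous_cauchy {z : ℂ} (hz : 0 < z.im) :
    Continuous fun t : ℝ => ((t : ℂ) - z)⁻¹ :=
  (Complex.continuous_ofReal.sub continuous_const).inv₀ (ofReal_sub_ne hz)

theorem norm_cauchy_le {z : ℂ} (hz : 0 < z.im) (t : ℝ) : ‖((t : ℂ) - z)⁻¹‖ ≤ z.im⁻¹ := by
  have h3 : |((t : ℂ) - z).im| ≤ ‖(t : ℂ) - z‖ := Complex.abs_im_le_norm _
  have h4 : |((t : ℂ) - z).im| = z.im := by simp [abs_of_pos hz]
  rw [h4] at h3
  rw [norm_inv]
  gcongr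

theorem integrable_mul_cauchy {ψ : ℝ → ℝ} (hψ : Integrable ψ) {z : ℂ} (hz : 0 < z.im) :
    Integrable (fun t : ℝ => (ψ t : ℂ) * ((t : ℂ) - z)⁻¹) :=
  hψ.ofReal.mul_bdd (c := z.im⁻¹) (continuous_cauchy hz).aestronglyMeasurable
    (ae_of_all _ (norm_cauchy_le hz))

theorem OmW_re {ψ : ℝ → ℝ} (hψ : Integrable ψ) {z : ℂ} (hz : 0 < z.im) :
    (OmW ψ z).re = ∫ t, pk z.re z.im t * ψ t := by
  unfold OmW
  have hI := integrable_mul_cauchy hψ hz
  have h1 : ((-(π : ℂ)⁻¹ * I) * ∫ t, (ψ t : ℂ) * ((t : ℂ) - z)⁻¹).re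
      = π⁻¹ * (∫ t, (ψ t : ℂ) * ((t : ℂ) - z)⁻¹).im := by
    rw [Complex.mul_re]
    have e : (-(π : ℂ)⁻¹ * I) = ((-(π)⁻¹ : ℝ) : ℂ) * I := by push_cast; ring
    rw [e]
    simp
  rw [h1]
  have h2 : (∫ t, (ψ t : ℂ) * ((t : ℂ) - z)⁻¹).im = ∫ t, ((ψ t : ℂ) * ((t : ℂ) - z)⁻¹).im := by
    have := (Complex.imCLM.integral_comp_comm hI)
    simpa using this.symm
  rw [h2, ← integral_const_mul]
  congr 1
  ext t
  unfold pk
  rw [Complex.im_ofReal_mul, Complex.inv_im]
  simp only [sub_im, ofReal_im, zero_sub, neg_neg, Complex.normSq_apply, sub_re, ofReal_re]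
  have : (t - z.re) * (t - z.re) + -z.im * -z.im = (t - z.re) ^ 2 + z.im ^ 2 := by ring
  rw [this]
  ring

theorem OmW_differentiableAt {ψ : ℝ → ℝ} (hψ : Integrable ψ) {z : ℂ} (hz : 0 < z.im) :
    DifferentiableAt ℂ (OmW ψ) z := by
  unfold OmW
  apply DifferentiableAt.const_mul
  set r := z.im / 2 with hr
  have hrpos : 0 < r := by positivity
  have hball : ∀ w ∈ Metric.ball z r, r ≤ w.im := by
    intro w hw
    have h1 : |w.im - z.im| ≤ ‖w - z‖ := by
      have := Complex.abs_im_le_norm (w - z); simpa using this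
    have h2 : ‖w - z‖ < r := by simpa [dist_eq_norm] using hw
    have := (abs_le.1 (h1.trans h2.le)).1
    rw [hr] at this ⊢
    linarith
  have key := hasDerivAt_integral_of_dominated_loc_of_deriv_le (μ := volume)
    (F := fun (w : ℂ) (t : ℝ) => (ψ t : ℂ) * ((t : ℂ) - w)⁻¹)
    (F' := fun (w : ℂ) (t : ℝ) => (ψ t : ℂ) * (((t : ℂ) - w) ^ 2)⁻¹) (x₀ := z)
    (bound := fun t => |ψ t| * (r ^ 2)⁻¹) (s := Metric.ball z r) (Metric.ball_mem_nhds z hrpos)
    (Metric.isOpen_ball.eventually_mem (Metric.mem_ball_self hrpos) |>.mono fun w hw =>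
      (integrable_mul_cauchy hψ (lt_of_lt_of_le hrpos (hball w hw))).aestronglyMeasurable)
    (integrable_mul_cauchy hψ hz)
    (by
      have hc : Continuous fun t : ℝ => (((t : ℂ) - z) ^ 2)⁻¹ :=
        ((Complex.continuous_ofReal.sub continuous_const).pow 2).inv₀
          (fun t => pow_ne_zero 2 (ofReal_sub_ne hz t))
      exact hψ.ofReal.aestronglyMeasurable.mul hc.aestronglyMeasurable)
    (by
      refine Eventually.of_forall fun t w hw => ?_
      have h1 := hball w hw
      have h2 : r ≤ ‖(t : ℂ) - w‖ := by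
        have h3 : |((t : ℂ) - w).im| ≤ ‖(t : ℂ) - w‖ := Complex.abs_im_le_norm _
        have h4 : |((t : ℂ) - w).im| = w.im := by
          simp [abs_of_pos (lt_of_lt_of_le hrpos h1)]
        rw [h4] at h3; linarith
      rw [norm_mul, norm_inv, norm_pow, Complex.norm_real, Real.norm_eq_abs]
      gcongr)
    (hψ.abs.mul_const _)
    (by
      refine Eventually.of_forall fun t w hw => ?_
      have hne : (t : ℂ) - w ≠ 0 := ofReal_sub_ne (lt_of_lt_of_le hrpos (hball w hw)) t
      have h1 : HasDerivAt (fun w : ℂ => (t : ℂ) - w) (-1) w := by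
        simpa using (hasDerivAt_id w).const_sub (t : ℂ)
      have h2 : HasDerivAt (fun w : ℂ => ((t : ℂ) - w)⁻¹) (- -1 / ((t : ℂ) - w) ^ 2) w :=
        h1.inv hne
      have h3 : (- -1 / ((t : ℂ) - w) ^ 2) = (((t : ℂ) - w) ^ 2)⁻¹ := by
        rw [neg_neg, one_div]
      rw [h3] at h2
      exact h2.const_mul _)
  exact key.2.differentiableAt

/-- Union of the cones over `K`. -/
def Saw (a h : ℝ) (K : Set ℝ) : Set ℂ := ⋃ x ∈ K, Cone a h x

theorem mem_Saw {a h : ℝ} {K : Set ℝ} {z : ℂ} : z ∈ Saw a h K ↔ ∃ x ∈ K, z ∈ Cone a h x := by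
  simp [Saw]

theorem isOpen_Saw (a h : ℝ) (K : Set ℝ) : IsOpen (Saw a h K) :=
  isOpen_biUnion fun x _ => isOpen_Cone a h x

theorem Saw_subset_Hull (a h : ℝ) (K : Set ℝ) : Saw a h K ⊆ Hull a h K := by
  intro z hz
  obtain ⟨x, hx, h1, h2, h3⟩ := mem_Saw.1 hz
  exact ⟨h1.le, h2.le, x, hx, h3.le⟩

theorem Saw_mono {a h h' : ℝ} {K : Set ℝ} (hh : h' ≤ h) : Saw a h' K ⊆ Saw a h K := by
  intro z hz
  obtain ⟨x, hx, h1⟩ := mem_Saw.1 hz
  exact mem_Saw.2 ⟨x, hx, Cone_mono hh h1⟩

/-- Calderón comparison : `g` is holomorphic on the shifted sawtooth `U = {w | w + i s₀ ∈ ...}`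
(all we need is: the upward shifts of the closed hull, up to `σ₀`, stay in the open set `U`). -/
theorem comparison {U : Set ℂ} (hU : IsOpen U) {g : ℂ → ℂ} (hg : DifferentiableOn ℂ g U)
    {M : ℝ} (hM : ∀ z ∈ U, ‖g z‖ ≤ M) (hM0 : 0 ≤ M) {a h σ₀ : ℝ} (ha : 0 < a) (hh : 0 < h)
    (hσ₀ : 0 < σ₀) {K : Set ℝ} (hK : IsCompact K)
    (hsub : ∀ z ∈ Hull a h K, ∀ σ ∈ Icc 0 σ₀, z + (σ : ℂ) * I ∈ U) :
    ∀ z ∈ Saw a h K, (g z).re - (∫ t, pk z.re z.im t * K.indicator (fun t => (g t).re) t) ≤
      2 * M * (1 - (G K (2 / π * Real.arctan (a / 2)) h z).re) := by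
  classical
  set c : ℝ := 2 / π * Real.arctan (a / 2) with hcdef
  have hpi := Real.pi_pos
  have hc : 0 < c := by
    have := Real.arctan_pos.2 (show 0 < a / 2 by positivity)
    positivity
  have hc1 : c ≤ 1 := by
    have h1 := (Real.arctan_lt_pi_div_two (a / 2)).le
    calc c ≤ 2 / π * (π / 2) := by rw [hcdef]; gcongr
      _ = 1 := by field_simp
  -- boundary function
  set ψ : ℝ → ℝ := K.indicator (fun t => (g t).re) with hψdef
  have hKH : ∀ x ∈ K, (x : ℂ) ∈ Hull a h K := fun x hx =>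
    ⟨by simp, by simpa using hh.le, x, hx, by simp⟩
  have hKU : ∀ x ∈ K, (x : ℂ) ∈ U := fun x hx => by
    have := hsub x (hKH x hx) 0 ⟨le_rfl, hσ₀.le⟩
    simpa using this
  have hgK : ContinuousOn (fun t : ℝ => (g t).re) K := by
    intro t ht
    have h1 : ContinuousAt g (t : ℂ) := (hg.differentiableAt (hU.mem_nhds (hKU t ht))).continuousAt
    have h2 : ContinuousAt (fun t : ℝ => g t) t :=
      ContinuousAt.comp (f := fun t : ℝ => (t : ℂ)) h1 Complex.continuous_ofReal.continuousAt
    exact (Complex.continuous_re.continuousAt.comp h2).continuousWithinAt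
  have hψint : Integrable ψ := by
    rw [hψdef, integrable_indicator_iff hK.measurableSet]
    exact hgK.integrableOn_compact hK
  have hψM : ∀ t, |ψ t| ≤ M := by
    intro t
    by_cases ht : t ∈ K
    · rw [hψdef, indicator_of_mem ht]
      exact (Complex.abs_re_le_norm _).trans (hM _ (hKU t ht))
    · rw [hψdef, indicator_of_notMem ht]; simpa using hM0
  have hPψ : ∀ {z : ℂ}, 0 < z.im → |∫ t, pk z.re z.im t * ψ t| ≤ M := by
    intro z hz
    have hb : ∀ t, ‖pk z.re z.im t * ψ t‖ ≤ pk z.re z.im t * M := fun t => by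
      rw [norm_mul, Real.norm_of_nonneg (pk_nonneg hz _ _)]
      exact mul_le_mul_of_nonneg_left (hψM t) (pk_nonneg hz _ _)
    have h1 := norm_integral_le_of_norm_le ((integrable_pk hz z.re).mul_const M) (ae_of_all _ hb)
    rw [integral_mul_const, integral_pk hz, one_mul] at h1
    simpa using h1
  -- shorthand
  set B : ℂ → ℝ := fun z => 1 - (G K c h z).re with hB
  have hB0 : ∀ {z : ℂ}, 0 < z.im → 0 ≤ B z := fun {z} hz => by
    have := G_re_le_one hK hc hh hz
    simp only [hB]; linarith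
  have hBom : ∀ {z : ℂ}, 0 < z.im → 1 - ∫ t in K, pk z.re z.im t ≤ B z := fun {z} hz => by
    simp only [hB]
    rw [G_re hK _ hz]
    have h1 := setIntegral_pk_le_one hz z.re K
    have h2 : 1 - ∫ t in K, pk z.re z.im t ≤ c⁻¹ * (1 - ∫ t in K, pk z.re z.im t) := by
      have h3 : 1 ≤ c⁻¹ := (one_le_inv₀ hc).2 hc1
      nlinarith
    have h3 : 0 ≤ z.im / h := by positivity
    linarith
  -- the compact set of shifted points
  set H2 : Set ℂ := (fun p : ℂ × ℝ => p.1 + (p.2 : ℂ) * I) '' (Hull a h K ×ˢ Icc 0 σ₀) with hH2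
  have hH2c : IsCompact H2 :=
    ((isCompact_Hull ha hK).prod isCompact_Icc).image (by fun_prop)
  have hH2U : H2 ⊆ U := by
    rintro _ ⟨⟨w, σ⟩, ⟨hw, hσ⟩, rfl⟩
    exact hsub w hw σ hσ
  have huc : UniformContinuousOn g H2 :=
    hH2c.uniformContinuousOn_of_continuous (hg.continuousOn.mono hH2U)
  have hKH2 : ∀ x ∈ K, (x : ℂ) ∈ H2 := fun x hx =>
    ⟨((x : ℂ), (0 : ℝ)), ⟨hKH x hx, ⟨le_rfl, hσ₀.le⟩⟩, by simp⟩
  -- closure of the sawtooth
  have hcl : closure (Saw a h K) ⊆ Hull a h K :=
    closure_minimal (Saw_subset_Hull a h K) (isCompact_Hull ha hK).isClosed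
  have hbd : Bornology.IsBounded (Saw a h K) :=
    (isCompact_Hull ha hK).isBounded.subset (Saw_subset_Hull a h K)
  have imS : ∀ (w : ℂ) (s : ℝ), (w + s * I).im = w.im + s := fun w s => by simp
  have reS : ∀ (w : ℂ) (s : ℝ), (w + s * I).re = w.re := fun w s => by simp
  intro z hz
  have hzim : 0 < z.im := by
    obtain ⟨x, hx, h1⟩ := mem_Saw.1 hz; exact h1.1
  have hzU : z ∈ U := by
    have := hsub z (Saw_subset_Hull a h K hz) 0 ⟨le_rfl, hσ₀.le⟩
    simpa using this
  -- the holomorphic function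
  set Fn : ℂ → ℂ := fun w => g w - OmW ψ w - (2 * M : ℝ) * (1 - G K c h w) with hFn
  have hFnre : ∀ {w : ℂ}, 0 < w.im → (Fn w).re = (g w).re - (∫ t, pk w.re w.im t * ψ t) -
      2 * M * B w := by
    intro w hw
    simp only [hFn, hB]
    rw [Complex.sub_re, Complex.sub_re, OmW_re hψint hw, Complex.re_ofReal_mul, Complex.sub_re,
      Complex.one_re]
  have hFnd : ∀ w ∈ U, 0 < w.im → DifferentiableAt ℂ Fn w := by
    intro w hw hw0
    have h1 := hg.differentiableAt (hU.mem_nhds hw)
    have h2 := OmW_differentiableAt hψint hw0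
    have h3 := G_differentiableAt hK c h hw0
    exact (h1.sub h2).sub ((h3.const_sub 1).const_mul _)
  suffices hmain : ∀ ε > 0, (Fn z).re ≤ ε by
    have h1 : (Fn z).re ≤ 0 := le_of_forall_pos_le_add fun ε hε => by
      rw [zero_add]; exact hmain ε hε
    rw [hFnre hzim] at h1
    simp only [hB] at h1
    linarith
  intro ε hε
  -- uniform continuity
  obtain ⟨δ, hδ, hδg⟩ := Metric.uniformContinuousOn_iff_le.1 huc (ε / 4) (by positivity)
  -- tail
  have hlim : Tendsto (fun d : ℝ => 2 * M * (1 - 2 / π * Real.arctan d)) atTop (𝓝 0) := by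
    have h1 : Tendsto Real.arctan atTop (𝓝 (π / 2)) :=
      tendsto_nhds_of_tendsto_nhdsWithin Real.tendsto_arctan_atTop
    have h2 : Tendsto (fun b : ℝ => 2 * M * (1 - 2 / π * Real.arctan b)) atTop
        (𝓝 (2 * M * (1 - 2 / π * (π / 2)))) := (((h1.const_mul _).const_sub _).const_mul _)
    have h3 : 2 * M * (1 - 2 / π * (π / 2)) = 0 := by
      have := Real.pi_ne_zero
      field_simp; ring
    rwa [h3] at h2
  obtain ⟨d, hd1, hd0⟩ := ((hlim.eventually (gt_mem_nhds (show (0 : ℝ) < ε / 4 by positivity))).and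
      (eventually_gt_atTop 0)).exists
  -- smallness of σ
  have shift : ∀ σ : ℝ, 0 < σ → σ < σ₀ → (a + d + 2) * (2 * σ) < δ →
      (Fn (z + σ * I)).re ≤ ε := by
    intro σ hσ hσ1 hσ2
    have hdiff : DifferentiableOn ℂ (fun w => Complex.exp (Fn (w + σ * I)))
        (closure (Saw a h K)) := by
      intro w hw
      have hw' := hcl hw
      have hwU : w + σ * I ∈ U := hsub w hw' σ ⟨hσ.le, hσ1.le⟩
      have him : 0 < (w + σ * I).im := by rw [imS]; have := hw'.1; linarith
      have hsh : DifferentiableAt ℂ (fun w : ℂ => w + σ * I) w := by fun_prop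
      have e1 : DifferentiableAt ℂ (fun w : ℂ => Fn (w + σ * I)) w :=
        DifferentiableAt.comp (g := Fn) (f := fun w : ℂ => w + σ * I) w (hFnd _ hwU him) hsh
      exact e1.cexp.differentiableWithinAt
    have hfr : ∀ w ∈ frontier (Saw a h K), ‖Complex.exp (Fn (w + σ * I))‖ ≤ Real.exp ε := by
      intro w hw
      rw [Complex.norm_exp]
      apply Real.exp_le_exp.2
      have hwcl : w ∈ closure (Saw a h K) := frontier_subset_closure hw
      have hwn : w ∉ Saw a h K := by
        have := hw.2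
        rwa [(isOpen_Saw a h K).interior_eq] at this
      obtain ⟨h1, h2, x, hx, h3⟩ := hcl hwcl
      have him : 0 < (w + σ * I).im := by rw [imS]; linarith
      have hwU : w + σ * I ∈ U := hsub w (hcl hwcl) σ ⟨hσ.le, hσ1.le⟩
      rw [hFnre him]
      have hgM : (g (w + σ * I)).re ≤ M :=
        (le_abs_self _).trans ((Complex.abs_re_le_norm _).trans (hM _ hwU))
      rcases lt_or_ge w.im σ with hlt | hge
      · -- bottom
        set u := (w + σ * I).re with hu
        set v := (w + σ * I).im with hv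
        have hvle : v ≤ 2 * σ := by rw [hv, imS]; linarith
        have huw : u = w.re := by rw [hu, reS]
        have hux : |u - x| ≤ a * v := by
          rw [huw, hv, imS]; nlinarith
        -- g close to g x
        have hd1' : dist (g (w + σ * I)) (g x) ≤ ε / 4 := by
          apply hδg _ ⟨(w, σ), ⟨hcl hwcl, ⟨hσ.le, hσ1.le⟩⟩, rfl⟩ _ (hKH2 x hx)
          rw [dist_eq_norm]
          have e1 : ‖w + σ * I - x‖ ≤ |(w + σ * I - x).re| + |(w + σ * I - x).im| :=
            Complex.norm_le_abs_re_add_abs_im _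
          rw [Complex.sub_re, Complex.sub_im, Complex.ofReal_re, Complex.ofReal_im, sub_zero,
            ← hu, ← hv, abs_of_pos him] at e1
          nlinarith
        have hgre : (g (w + σ * I)).re ≤ ψ x + ε / 4 := by
          have e1 : (g (w + σ * I)).re - (g x).re ≤ ε / 4 := by
            have e2 := Complex.abs_re_le_norm (g (w + σ * I) - g x)
            rw [Complex.sub_re] at e2
            rw [dist_eq_norm] at hd1'
            exact (le_abs_self _).trans (e2.trans hd1')
          have e3 : ψ x = (g x).re := by rw [hψdef, indicator_of_mem hx]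
          rw [e3]; linarith
        -- Poisson integral close to ψ x
        have hpk := integrable_pk him u
        have hP : ψ x * (∫ t in K, pk u v t) - ε / 2 ≤ ∫ t, pk u v t * ψ t := by
          have e1 : (∫ t, pk u v t * ψ t) = ∫ t in K, pk u v t * ψ t := by
            rw [← integral_indicator hK.measurableSet]
            congr 1
            ext t
            by_cases ht : t ∈ K
            · simp [ht]
            · rw [indicator_of_notMem ht, hψdef, indicator_of_notMem ht, mul_zero]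
          have e2 : (∫ t in K, pk u v t * ψ t) - ψ x * (∫ t in K, pk u v t) =
              ∫ t in K, pk u v t * (ψ t - ψ x) := by
            rw [← integral_const_mul, ← integral_sub]
            · congr 1
              ext t
              ring
            · exact (hpk.mul_bdd (c := M) hψint.aestronglyMeasurable (ae_of_all _ (by
                intro t; simpa using hψM t))).integrableOn
            · exact (hpk.const_mul _).integrableOn
          set N : ℝ := d + a with hN
          set S := Icc (x - N * v) (x + N * v) with hS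
          have e3 : ∀ t ∈ K, pk u v t * (ψ x - ψ t) ≤
              pk u v t * (ε / 4) + Sᶜ.indicator (fun t => pk u v t * (2 * M)) t := by
            intro t ht
            have hpn := pk_nonneg him u t
            by_cases hts : t ∈ S
            · rw [indicator_of_notMem (by simpa using hts), add_zero]
              apply mul_le_mul_of_nonneg_left _ hpn
              have e4 : dist (g (x : ℂ)) (g (t : ℂ)) ≤ ε / 4 := by
                apply hδg _ (hKH2 x hx) _ (hKH2 t ht)
                rw [dist_eq_norm, ← Complex.ofReal_sub, Complex.norm_real, Real.norm_eq_abs]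
                have e5 : |x - t| ≤ N * v := by
                  rw [abs_le]; constructor <;> linarith [hts.1, hts.2]
                have hN0 : 0 ≤ N := by positivity
                calc |x - t| ≤ N * v := e5
                  _ ≤ N * (2 * σ) := by gcongr
                  _ ≤ (a + d + 2) * (2 * σ) := by
                      apply mul_le_mul_of_nonneg_right _ (by positivity)
                      rw [hN]; linarith
                  _ ≤ δ := hσ2.le
              have e6 : ψ x = (g x).re := by rw [hψdef, indicator_of_mem hx]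
              have e7 : ψ t = (g t).re := by rw [hψdef, indicator_of_mem ht]
              rw [e6, e7, ← Complex.sub_re]
              rw [dist_eq_norm] at e4
              exact (le_abs_self _).trans ((Complex.abs_re_le_norm _).trans e4)
            · rw [indicator_of_mem (by simpa using hts)]
              have e4 : ψ x - ψ t ≤ 2 * M := by
                have := abs_le.1 (hψM x)
                have := abs_le.1 (hψM t)
                linarith
              have e5 : pk u v t * (ψ x - ψ t) ≤ pk u v t * (2 * M) :=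
                mul_le_mul_of_nonneg_left e4 hpn
              have e6 : 0 ≤ pk u v t * (ε / 4) := by positivity
              linarith
          have e8 : (∫ t in K, pk u v t * (ψ x - ψ t)) ≤ ε / 2 := by
            have i1 : IntegrableOn (fun t => pk u v t * (ψ x - ψ t)) K := by
              refine (hpk.mul_bdd (c := 2 * M) ?_ ?_).integrableOn
              · exact aestronglyMeasurable_const.sub hψint.aestronglyMeasurable
              · refine ae_of_all _ fun t => ?_
                rw [Real.norm_eq_abs]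
                have h1 := abs_le.1 (hψM x)
                have h2 := abs_le.1 (hψM t)
                rw [abs_le]; constructor <;> linarith
            have i2 : Integrable (fun t => pk u v t * (ε / 4)) := hpk.mul_const _
            have i3 : Integrable (Sᶜ.indicator (fun t => pk u v t * (2 * M))) :=
              (hpk.mul_const _).indicator measurableSet_Icc.compl
            calc (∫ t in K, pk u v t * (ψ x - ψ t)) ≤
                ∫ t in K, (pk u v t * (ε / 4) + Sᶜ.indicator (fun t => pk u v t * (2 * M)) t) :=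
                  setIntegral_mono_on i1 (i2.add i3).integrableOn hK.measurableSet e3
              _ ≤ ∫ t, (pk u v t * (ε / 4) + Sᶜ.indicator (fun t => pk u v t * (2 * M)) t) := by
                  apply setIntegral_le_integral (i2.add i3)
                  refine ae_of_all _ fun t => ?_
                  have hpn := pk_nonneg him u t
                  have q1 : 0 ≤ Sᶜ.indicator (fun t => pk u v t * (2 * M)) t := by
                    apply indicator_nonneg
                    intro s _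
                    have := pk_nonneg him u s
                    positivity
                  have q2 : 0 ≤ pk u v t * (ε / 4) := by positivity
                  exact add_nonneg q2 q1
              _ = ε / 4 + 2 * M * ∫ t in Sᶜ, pk u v t := by
                  rw [integral_add i2 i3, integral_mul_const, integral_pk him u,
                    integral_indicator measurableSet_Icc.compl, integral_mul_const]
                  ring
              _ ≤ ε / 4 + 2 * M * (1 - 2 / π * Real.arctan d) := by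
                  have := setIntegral_pk_compl_le (N := N) (x := x) (u := u) him hd0 (by
                    rw [hN]; simpa using hux)
                  gcongr
              _ ≤ ε / 2 := by linarith
          have e9 : (∫ t in K, pk u v t * (ψ t - ψ x)) = - ∫ t in K, pk u v t * (ψ x - ψ t) := by
            rw [← integral_neg]; congr 1; ext t; ring
          rw [e1]
          linarith
        have hψx : ψ x ≤ M := (abs_le.1 (hψM x)).2
        have hBw := hBom him
        have hm1 := setIntegral_pk_le_one him u K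
        have hkey : ψ x - ψ x * (∫ t in K, pk u v t) ≤ M * B (w + σ * I) := by
          calc ψ x - ψ x * (∫ t in K, pk u v t) = ψ x * (1 - ∫ t in K, pk u v t) := by ring
            _ ≤ M * (1 - ∫ t in K, pk u v t) := by
                apply mul_le_mul_of_nonneg_right hψx; linarith
            _ ≤ M * B (w + σ * I) := by gcongr
        have hB1 := mul_nonneg hM0 (hB0 him)
        linarith
      · -- the barrier
        have hG1 : (G K c h (w + σ * I)).re ≤ 0 := by
          rcases le_or_gt h w.im with h5 | h5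
          · exact G_re_nonpos_top hK hc hh (by rw [imS]; linarith)
          · apply G_re_nonpos_side hK (by positivity) hh him
            intro t ht
            rw [imS, reS]
            have h6 : w ∉ Cone a h t := fun hcon => hwn (mem_Saw.2 ⟨t, ht, hcon⟩)
            have h7 : a * w.im ≤ |w.re - t| := by
              by_contra hcon
              push Not at hcon
              exact h6 ⟨by linarith, h5, hcon⟩
            nlinarith
        have hB1 : 1 ≤ B (w + σ * I) := by simp only [hB]; linarith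
        have hP := (abs_le.1 (hPψ him)).1
        have : 2 * M * 1 ≤ 2 * M * B (w + σ * I) := by gcongr
        linarith
    have hmax := Complex.norm_le_of_forall_mem_frontier_norm_le hbd hdiff.diffContOnCl hfr
        (subset_closure hz)
    rw [Complex.norm_exp] at hmax
    exact Real.exp_le_exp.1 hmax
  -- let σ → 0
  have hcont : ContinuousAt (fun σ : ℝ => (Fn (z + σ * I)).re) 0 := by
    have hsh : ContinuousAt (fun s : ℝ => z + (s : ℂ) * I) 0 := by fun_prop
    have hz0 : z + ((0 : ℝ) : ℂ) * I = z := by simp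
    have hfc : ContinuousAt Fn (z + ((0 : ℝ) : ℂ) * I) := by
      rw [hz0]; exact (hFnd z hzU hzim).continuousAt
    have e1 : ContinuousAt (fun s : ℝ => Fn (z + (s : ℂ) * I)) 0 :=
      ContinuousAt.comp (f := fun s : ℝ => z + (s : ℂ) * I) hfc hsh
    exact Complex.continuous_re.continuousAt.comp e1
  have hlim2 : Tendsto (fun σ : ℝ => (Fn (z + σ * I)).re) (𝓝[>] 0) (𝓝 (Fn z).re) := by
    have := hcont.tendsto
    simp only [Complex.ofReal_zero, zero_mul, add_zero] at this
    exact this.mono_left nhdsWithin_le_nhds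
  apply le_of_tendsto hlim2
  have hE1 : ∀ᶠ y in 𝓝[>] (0 : ℝ), y ∈ Ioo 0 σ₀ := Ioo_mem_nhdsGT hσ₀
  have hE2 : ∀ᶠ y in 𝓝[>] (0 : ℝ), y ∈ Ioo 0 (δ / (2 * (a + d + 2))) :=
    Ioo_mem_nhdsGT (by positivity)
  filter_upwards [hE1, hE2] with s hs1 hs2
  apply shift s hs1.1 hs1.2
  have := hs2.2
  rw [lt_div_iff₀ (by positivity)] at this
  linarith

end Crest.Agent.R102.LP472
end

-- ▼ part R102/Fatou_472

/-!
# Local Fatou theorem (Privalov's form, all apertures)

`fatou_local`: `f` holomorphic on the open set `V`; if at every point `x` of an arbitrary set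
`E ⊆ ℝ` some truncated cone of the fixed aperture `a` lies in `V` and `f` is bounded on it, then
for almost every `x ∈ E` and EVERY aperture `b` a truncated cone lies in `V` and `f` has a limit
along it (the same limit for all apertures).
-/

namespace Crest.Agent.R102.LP472

open MeasureTheory Set Filter Topology Complex
open scoped Real

theorem Cone_subset_ball {b δ x r : ℝ} (hb : 0 < b) (hδ : (b + 1) * δ ≤ r) :
    Cone b δ x ⊆ Metric.ball (x : ℂ) r := by
  intro z hz
  rw [Metric.mem_ball, dist_eq_norm]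
  have e1 : ‖z - x‖ ≤ |(z - x).re| + |(z - x).im| := Complex.norm_le_abs_re_add_abs_im _
  simp only [sub_re, ofReal_re, sub_im, ofReal_im, sub_zero] at e1
  rw [abs_of_pos hz.1] at e1
  have e2 := hz.2.1
  have e3 := hz.2.2
  nlinarith

theorem eventually_Cone {b h x : ℝ} (hb : 0 < b) (hh : 0 < h) {p : ℂ → Prop}
    (hp : ∀ᶠ z in 𝓝[Cone b h x] (x : ℂ), p z) : ∃ δ > 0, δ ≤ h ∧ ∀ z ∈ Cone b δ x, p z := by
  rw [Filter.Eventually, Metric.mem_nhdsWithin_iff] at hp
  obtain ⟨r, hr, hsub⟩ := hp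
  refine ⟨min h (r / (b + 1)), by positivity, min_le_left _ _, fun z hz => ?_⟩
  apply hsub
  refine ⟨Cone_subset_ball hb ?_ hz, Cone_mono (min_le_left _ _) hz⟩
  calc (b + 1) * min h (r / (b + 1)) ≤ (b + 1) * (r / (b + 1)) := by
        gcongr; exact min_le_right _ _
    _ = r := by field_simp

theorem memLp_pk {v : ℝ} (hv : 0 < v) (u : ℝ) : MemLp (pk u v) 2 volume := by
  rw [memLp_two_iff_integrable_sq (continuous_pk hv u).aestronglyMeasurable]
  refine ((integrable_pk hv u).mul_const (π * v)⁻¹).mono'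
    ((continuous_pk hv u).pow 2).aestronglyMeasurable (ae_of_all _ fun t => ?_)
  rw [norm_pow, Real.norm_of_nonneg (pk_nonneg hv u t), sq]
  exact mul_le_mul_of_nonneg_left (pk_le hv u t) (pk_nonneg hv u t)

theorem core_fatou {V : Set ℂ} (hV : IsOpen V) {f : ℂ → ℂ} (hf : DifferentiableOn ℂ f V)
    {a h : ℝ} (ha : 0 < a) (hh : 0 < h) {K : Set ℝ} (hK : IsCompact K) {M : ℝ} (hM0 : 0 ≤ M)
    (hV1 : ∀ x ∈ K, Cone a h x ⊆ V) (hb : ∀ x ∈ K, ∀ z ∈ Cone a h x, ‖f z‖ ≤ M) :
    ∀ᵐ x : ℝ, x ∈ K → ∃ l : ℂ, ∀ b > 0, ∃ δ > 0, Cone b δ x ⊆ V ∧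
      Tendsto f (𝓝[Cone b δ x] (x : ℂ)) (𝓝 l) := by
  classical
  have hpi := Real.pi_pos
  set h' : ℝ := h / 2 with hh'
  have hh'0 : 0 < h' := by positivity
  set c : ℝ := 2 / π * Real.arctan (a / 2) with hcdef
  have hc : 0 < c := by
    have := Real.arctan_pos.2 (show 0 < a / 2 by positivity)
    positivity
  have hSV : Saw a h K ⊆ V := by
    intro z hz
    obtain ⟨x, hx, h1⟩ := mem_Saw.1 hz
    exact hV1 x hx h1
  have hSM : ∀ z ∈ Saw a h K, ‖f z‖ ≤ M := by
    intro z hz
    obtain ⟨x, hx, h1⟩ := mem_Saw.1 hz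
    exact hb x hx z h1
  -- boundary functions
  set φ : ℝ → ℝ → ℂ := fun s => K.indicator (fun t => f (t + s * I)) with hφ
  have imS : ∀ (w : ℂ) (s : ℝ), (w + s * I).im = w.im + s := fun w s => by simp
  have reS : ∀ (w : ℂ) (s : ℝ), (w + s * I).re = w.re := fun w s => by simp
  have hup : ∀ w ∈ Hull a h' K, ∀ s : ℝ, 0 < s → s < h / 2 → w + s * I ∈ Saw a h K := by
    rintro w ⟨h1, h2, x, hx, h3⟩ s hs1 hs2
    refine mem_Saw.2 ⟨x, hx, ?_, ?_, ?_⟩
    · rw [imS]; linarith
    · rw [imS]; rw [hh'] at h2; linarith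
    · rw [imS, reS]; nlinarith
  have hKH : ∀ x ∈ K, (x : ℂ) ∈ Hull a h' K := fun x hx =>
    ⟨by simp, by simpa using hh'0.le, x, hx, by simp⟩
  have hφm : ∀ s : ℝ, 0 < s → s < h / 4 → AEStronglyMeasurable (φ s) volume := by
    intro s hs1 hs2
    simp only [hφ]
    rw [aestronglyMeasurable_indicator_iff hK.measurableSet]
    apply ContinuousOn.aestronglyMeasurable _ hK.measurableSet
    intro t ht
    have h1 : (t : ℂ) + s * I ∈ V := hSV (hup _ (hKH t ht) s hs1 (by linarith))
    have h2 : ContinuousAt f ((t : ℂ) + s * I) := (hf.differentiableAt (hV.mem_nhds h1)).continuousAt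
    have h3 : ContinuousAt (fun t : ℝ => (t : ℂ) + s * I) t := by fun_prop
    exact (ContinuousAt.comp (f := fun t : ℝ => (t : ℂ) + s * I) h2 h3).continuousWithinAt
  have hφM : ∀ s : ℝ, 0 < s → s < h / 4 → ∀ t, ‖φ s t‖ ≤ M := by
    intro s hs1 hs2 t
    by_cases ht : t ∈ K
    · simp only [hφ, indicator_of_mem ht]
      exact hSM _ (hup _ (hKH t ht) s hs1 (by linarith))
    · simp only [hφ, indicator_of_notMem ht, norm_zero]; exact hM0
  -- comparison for the shifted functions
  have hcmp : ∀ s : ℝ, 0 < s → s < h / 4 → ∀ z ∈ Saw a h' K,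
      ‖f (z + s * I) - PI (φ s) z‖ ≤ 2 * M * (1 - (G K c h' z).re) := by
    intro s hs1 hs2 z hz
    have hzim : 0 < z.im := by
      obtain ⟨x, hx, h1⟩ := mem_Saw.1 hz; exact h1.1
    set w := f (z + s * I) - PI (φ s) z with hw
    obtain ⟨e, he, hew⟩ : ∃ e : ℂ, ‖e‖ = 1 ∧ e * w = ‖w‖ := by
      by_cases hw0 : w = 0
      · exact ⟨1, by simp, by simp [hw0]⟩
      · have hn : ‖w‖ ≠ 0 := norm_ne_zero_iff.2 hw0
        refine ⟨(starRingEnd ℂ) w / ‖w‖, ?_, ?_⟩
        · rw [norm_div, RCLike.norm_conj, Complex.norm_real, norm_norm, div_self hn]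
        · rw [div_mul_eq_mul_div, mul_comm, Complex.mul_conj, Complex.normSq_eq_norm_sq]
          push_cast
          have : (‖w‖ : ℂ) ≠ 0 := by exact_mod_cast hn
          field_simp
    set U : Set ℂ := {z | z + s * I ∈ Saw a h K} with hUdef
    have hU : IsOpen U := (isOpen_Saw a h K).preimage (by fun_prop)
    have hgd : DifferentiableOn ℂ (fun z => e * f (z + s * I)) U := by
      intro z hz
      have h1 := hf.differentiableAt (hV.mem_nhds (hSV hz))
      have hsh : DifferentiableAt ℂ (fun w : ℂ => w + s * I) z := by fun_prop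
      have e1 : DifferentiableAt ℂ (fun w : ℂ => f (w + s * I)) z :=
        DifferentiableAt.comp (g := f) (f := fun w : ℂ => w + s * I) z h1 hsh
      exact (e1.const_mul e).differentiableWithinAt
    have hgM : ∀ z ∈ U, ‖e * f (z + s * I)‖ ≤ M := by
      intro z hz
      rw [norm_mul, he, one_mul]
      exact hSM _ hz
    have hsub : ∀ z ∈ Hull a h' K, ∀ σ ∈ Icc 0 (h / 8), z + (σ : ℂ) * I ∈ U := by
      intro z hz σ hσ
      have e1 : z + (σ : ℂ) * I + s * I = z + ((σ + s : ℝ) : ℂ) * I := by push_cast; ring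
      simp only [hUdef, mem_ofPred_eq]
      rw [e1]
      exact hup z hz (σ + s) (by linarith [hσ.1]) (by linarith [hσ.2])
    have hmain := comparison hU hgd hgM hM0 ha hh'0 (show 0 < h / 8 by positivity) hK hsub z hz
    have e1 : (∫ t, pk z.re z.im t * K.indicator (fun t : ℝ => (e * f (t + s * I)).re) t) =
        (e * PI (φ s) z).re := by
      unfold PI
      rw [← integral_const_mul]
      have hi : Integrable fun t => e * ((pk z.re z.im t : ℂ) * φ s t) :=
        (integrable_pk_mul (hφm s hs1 hs2) (hφM s hs1 hs2) hzim z.re).const_mul e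
      have h1 : (∫ t, e * ((pk z.re z.im t : ℂ) * φ s t)).re =
          ∫ t, (e * ((pk z.re z.im t : ℂ) * φ s t)).re := by
        have := Complex.reCLM.integral_comp_comm hi
        simpa using this.symm
      rw [h1]
      congr 1
      ext t
      by_cases ht : t ∈ K
      · simp only [hφ, indicator_of_mem ht]
        rw [mul_left_comm, Complex.re_ofReal_mul]
      · simp only [hφ, indicator_of_notMem ht]; simp
    rw [e1, ← Complex.sub_re, ← mul_sub, ← hw, hew, Complex.ofReal_re] at hmain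
    exact hmain
  -- the weak limit
  set 𝒰 : Ultrafilter ℝ := Ultrafilter.of (𝓝[>] (0 : ℝ)) with h𝒰
  have hUle : (𝒰 : Filter ℝ) ≤ 𝓝[>] (0 : ℝ) := Ultrafilter.of_le _
  have hev : ∀ᶠ s in (𝒰 : Filter ℝ), s ∈ Ioo 0 (h / 4) :=
    hUle (Ioo_mem_nhdsGT (by positivity))
  obtain ⟨ψ, hψm, hψM, hψlim⟩ := exists_weak_limit hK.measurableSet hK.measure_lt_top.ne hM0 φ 𝒰
    (by
      filter_upwards [hev] with s hs
      refine ⟨hφm s hs.1 hs.2, hφM s hs.1 hs.2, fun t ht => ?_⟩
      simp only [hφ, indicator_of_notMem ht])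
  have hfin : ∀ z ∈ Saw a h' K, ‖f z - PI ψ z‖ ≤ 2 * M * (1 - (G K c h' z).re) := by
    intro z hz
    have hzim : 0 < z.im := by
      obtain ⟨x, hx, h1⟩ := mem_Saw.1 hz; exact h1.1
    have hzV : z ∈ V := hSV (Saw_mono (by rw [hh']; linarith) hz)
    have h1 : Tendsto (fun s : ℝ => f (z + s * I)) 𝒰 (𝓝 (f z)) := by
      have hsh : ContinuousAt (fun s : ℝ => z + (s : ℂ) * I) 0 := by fun_prop
      have hz0 : z + ((0 : ℝ) : ℂ) * I = z := by simp
      have hfc : ContinuousAt f (z + ((0 : ℝ) : ℂ) * I) := by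
        rw [hz0]; exact (hf.differentiableAt (hV.mem_nhds hzV)).continuousAt
      have e1 : ContinuousAt (fun s : ℝ => f (z + (s : ℂ) * I)) 0 :=
        ContinuousAt.comp (f := fun s : ℝ => z + (s : ℂ) * I) hfc hsh
      have := e1.tendsto
      simp only [Complex.ofReal_zero, zero_mul, add_zero] at this
      exact this.mono_left (hUle.trans nhdsWithin_le_nhds)
    have h2 : Tendsto (fun s : ℝ => PI (φ s) z) 𝒰 (𝓝 (PI ψ z)) :=
      hψlim _ (memLp_pk hzim z.re)
    apply le_of_tendsto (h1.sub h2).norm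
    filter_upwards [hev] with s hs
    exact hcmp s hs.1 hs.2 z hz
  -- a.e. statements
  have hae1 := ae_PI_tendsto hψm hψM
  have hae2 := ae_PI_tendsto (φ := K.indicator (fun _ => (1 : ℂ))) (M := 1)
    ((aestronglyMeasurable_indicator_iff hK.measurableSet).2 aestronglyMeasurable_const) (by
      intro t
      by_cases ht : t ∈ K
      · simp [ht]
      · simp [ht])
  filter_upwards [hae1, hae2] with x hx1 hx2 hxK
  refine ⟨ψ x, fun b hb0 => ?_⟩
  -- B tends to 0 in the cone
  have hB : Tendsto (fun z => 1 - (G K c h' z).re) (𝓝[Cone b 1 x] (x : ℂ)) (𝓝 0) := by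
    have h1 := (Complex.continuous_re.tendsto _).comp (hx2 b 1)
    rw [indicator_of_mem hxK, Complex.one_re] at h1
    have h2 : Tendsto (fun z : ℂ => z.im) (𝓝[Cone b 1 x] (x : ℂ)) (𝓝 0) := by
      have := (Complex.continuous_im.tendsto (x : ℂ)).mono_left
        (nhdsWithin_le_nhds (s := Cone b 1 x))
      simpa using this
    have h3 : Tendsto (fun z : ℂ => c⁻¹ * (1 - (PI (K.indicator (fun _ => (1 : ℂ))) z).re) +
        z.im / h') (𝓝[Cone b 1 x] (x : ℂ)) (𝓝 (c⁻¹ * (1 - 1) + 0 / h')) :=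
      ((h1.const_sub 1).const_mul _).add (h2.div_const _)
    rw [sub_self, mul_zero, zero_div, add_zero] at h3
    refine h3.congr' ?_
    filter_upwards [self_mem_nhdsWithin] with z hz
    rw [G_re hK c hz.1]
    have e1 : (PI (K.indicator (fun _ => (1 : ℂ))) z).re = ∫ t in K, pk z.re z.im t := by
      unfold PI
      have e2 : (fun t => (pk z.re z.im t : ℂ) * K.indicator (fun _ => (1 : ℂ)) t) =
          fun t => ((K.indicator (pk z.re z.im) t : ℝ) : ℂ) := by
        ext t
        by_cases ht : t ∈ K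
        · simp [ht]
        · simp [ht]
      rw [e2, integral_complex_ofReal, Complex.ofReal_re, integral_indicator hK.measurableSet]
    rw [e1]
    ring
  have hinSaw : ∀ᶠ z in 𝓝[Cone b 1 x] (x : ℂ), z ∈ Saw a h' K := by
    have h2 : Tendsto (fun z : ℂ => z.im) (𝓝[Cone b 1 x] (x : ℂ)) (𝓝 0) := by
      have := (Complex.continuous_im.tendsto (x : ℂ)).mono_left
        (nhdsWithin_le_nhds (s := Cone b 1 x))
      simpa using this
    filter_upwards [hB.eventually (gt_mem_nhds (show (0 : ℝ) < 1 by norm_num)),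
      h2.eventually (gt_mem_nhds hh'0), self_mem_nhdsWithin] with z hz1 hz2 hz3
    by_contra hcon
    have hG1 : (G K c h' z).re ≤ 0 := by
      apply G_re_nonpos_side hK (by positivity) hh'0 hz3.1
      intro t ht
      have h6 : z ∉ Cone a h' t := fun hc => hcon (mem_Saw.2 ⟨t, ht, hc⟩)
      have h7 : a * z.im ≤ |z.re - t| := by
        by_contra hcon2
        push Not at hcon2
        exact h6 ⟨hz3.1, hz2, hcon2⟩
      have := hz3.1
      nlinarith
    linarith
  obtain ⟨δ, hδ, hδ1, hδS⟩ := eventually_Cone hb0 one_pos hinSaw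
  refine ⟨δ, hδ, fun z hz => hSV (Saw_mono (by rw [hh']; linarith) (hδS z hz)), ?_⟩
  have hmono : 𝓝[Cone b δ x] (x : ℂ) ≤ 𝓝[Cone b 1 x] (x : ℂ) :=
    nhdsWithin_mono _ (Cone_mono hδ1)
  have hd : Tendsto (fun z => f z - PI ψ z) (𝓝[Cone b δ x] (x : ℂ)) (𝓝 0) := by
    have h1 := (hB.mono_left hmono).const_mul (2 * M)
    rw [mul_zero] at h1
    refine squeeze_zero_norm' ?_ h1
    filter_upwards [self_mem_nhdsWithin] with z hz
    exact hfin z (hδS z hz)
  have h2 := hd.add ((hx1 b 1).mono_left hmono)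
  rw [zero_add] at h2
  refine h2.congr fun z => ?_
  ring

/-- **Local Fatou theorem** (Privalov). -/
theorem fatou_local {V : Set ℂ} (hV : IsOpen V) {f : ℂ → ℂ} (hf : DifferentiableOn ℂ f V)
    {a : ℝ} (ha : 0 < a) {E : Set ℝ}
    (hE : ∀ x ∈ E, ∃ h > 0, ∃ M : ℝ, Cone a h x ⊆ V ∧ ∀ z ∈ Cone a h x, ‖f z‖ ≤ M) :
    ∀ᵐ x : ℝ, x ∈ E → ∃ l : ℂ, ∀ b > 0, ∃ h > 0, Cone b h x ⊆ V ∧
      Tendsto f (𝓝[Cone b h x] (x : ℂ)) (𝓝 l) := by
  set F : ℕ → Set ℝ := fun k =>
    {x | ∀ z ∈ Cone a (1 / (k + 1)) x, z ∈ V ∧ ‖f z‖ ≤ k} with hF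
  have hFcl : ∀ k, IsClosed (F k) := by
    intro k
    apply IsSeqClosed.isClosed
    intro xs x hxs hx z hz
    have h1 : ∀ᶠ n in atTop, z ∈ Cone a (1 / (k + 1)) (xs n) := by
      have h2 : Tendsto (fun n => |z.re - xs n|) atTop (𝓝 |z.re - x|) :=
        (tendsto_const_nhds.sub hx).abs
      filter_upwards [h2.eventually (gt_mem_nhds hz.2.2)] with n hn
      exact ⟨hz.1, hz.2.1, hn⟩
    obtain ⟨n, hn⟩ := h1.exists
    exact hxs n z hn
  have hEF : ∀ x ∈ E, ∃ k, x ∈ F k := by
    intro x hx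
    obtain ⟨h, hh, M, hcV, hcM⟩ := hE x hx
    obtain ⟨k1, hk1⟩ := exists_nat_one_div_lt hh
    obtain ⟨k2, hk2⟩ := exists_nat_ge M
    refine ⟨max k1 k2, fun z hz => ?_⟩
    have hzc : z ∈ Cone a h x := by
      refine Cone_mono ?_ hz
      refine le_trans ?_ hk1.le
      apply one_div_le_one_div_of_le (by positivity)
      have : (k1 : ℝ) ≤ (max k1 k2 : ℕ) := by exact_mod_cast le_max_left _ _
      linarith
    refine ⟨hcV hzc, (hcM z hzc).trans (hk2.trans ?_)⟩
    exact_mod_cast le_max_right _ _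
  have hcore : ∀ k R : ℕ, ∀ᵐ x : ℝ, x ∈ F k ∩ Icc (-(R : ℝ)) R → ∃ l : ℂ, ∀ b > 0, ∃ h > 0,
      Cone b h x ⊆ V ∧ Tendsto f (𝓝[Cone b h x] (x : ℂ)) (𝓝 l) := by
    intro k R
    have hKc : IsCompact (F k ∩ Icc (-(R : ℝ)) R) := isCompact_Icc.inter_left (hFcl k)
    exact core_fatou hV hf ha (h := 1 / (k + 1)) (by positivity) hKc (M := k) (Nat.cast_nonneg k)
      (fun x hx z hz => (hx.1 z hz).1) (fun x hx z hz => (hx.1 z hz).2)
  have hall := ae_all_iff.2 fun k => ae_all_iff.2 fun R => hcore k R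
  filter_upwards [hall] with x hx hxE
  obtain ⟨k, hk⟩ := hEF x hxE
  obtain ⟨R, hR⟩ := exists_nat_ge |x|
  exact hx k R ⟨hk, (abs_le.1 hR).1, (abs_le.1 hR).2⟩

/-- **Fatou's theorem** for a bounded holomorphic function in a region containing truncated cones. -/
theorem fatou_bounded {V : Set ℂ} (hV : IsOpen V) {f : ℂ → ℂ} (hf : DifferentiableOn ℂ f V)
    {M : ℝ} (hM : ∀ z ∈ V, ‖f z‖ ≤ M) {a : ℝ} (ha : 0 < a) {E : Set ℝ}
    (hE : ∀ x ∈ E, ∃ h > 0, Cone a h x ⊆ V) :
    ∀ᵐ x : ℝ, x ∈ E → ∃ l : ℂ, ∀ b > 0, ∃ h > 0, Cone b h x ⊆ V ∧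
      Tendsto f (𝓝[Cone b h x] (x : ℂ)) (𝓝 l) :=
  fatou_local hV hf ha fun x hx => by
    obtain ⟨h, hh, hc⟩ := hE x hx
    exact ⟨h, hh, M, hc, fun z hz => hM z (hc hz)⟩

end Crest.Agent.R102.LP472
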