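import Crest.Agent.R102.LemG6_864
import Crest.Agent.R102.LemGDefs_672
import Mathlib
import Crest.Agent.R102.LemGAsm_672
import Crest.Agent.R102.Fatou_472
import Crest.Agent.R102.Schottky_948
import Crest.Agent.R102.SharpS_864
import Crest.Agent.R102.SupDefs_115
import Crest.Agent.R102.BigMontel_948
import Crest.Agent.R102.Blow_971
import Crest.Agent.R102.Chain_864
import Crest.Agent.R102.Step5_613

-- ▼ part R102/LemG7_864
section

/-! # Lemma G: dyadic covering and iteration (weak type with a power) -/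

open Set Filter Metric Complex Topology MeasureTheory

namespace Crest.Agent.R102.G864

theorem JJ_fin (n : ℕ) (k : ℤ) : volume (JJ n k) ≠ ⊤ := by
  rw [JJ_vol]; exact ENNReal.ofReal_ne_top

theorem JJ_real (n : ℕ) (k : ℤ) : volume.real (JJ n k) = 1 / 2 ^ n := by
  rw [Measure.real, JJ_vol, ENNReal.toReal_ofReal (by positivity)]

/-- splitting into the two halves -/
theorem JJ_split (n : ℕ) (k : ℤ) : JJ n k = JJ (n + 1) (2 * k) ∪ JJ (n + 1) (2 * k + 1) := by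
  ext x
  unfold JJ
  simp only [mem_union, mem_ofPred_eq, bx_eq_iff]
  push_cast
  rw [pow_succ]
  constructor
  · rintro ⟨h1, h2⟩
    rcases lt_or_ge (x * (2 ^ n * 2)) (2 * k + 1) with h | h
    · left; constructor <;> linarith
    · right; constructor <;> linarith
  · rintro (⟨h1, h2⟩ | ⟨h1, h2⟩)
    · constructor <;> linarith
    · constructor <;> linarith

theorem JJ_disj (n : ℕ) {k k' : ℤ} (h : k ≠ k') : Disjoint (JJ n k) (JJ n k') := by
  rw [Set.disjoint_left]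
  intro x hx hx'
  exact h (hx.symm.trans hx')

/-- most of the interval is covered -/
def Big (E : Set ℝ) (n : ℕ) (k : ℤ) : Prop :=
  volume.real (JJ n k \ E) ≤ 1 / 2048 * (1 / 2 ^ n)

/-- intervals which are not big but have a big child -/
def Hat (E : Set ℝ) (n1 N : ℕ) : Set ℝ :=
  {x | ∃ m, n1 ≤ m ∧ m < N ∧ ¬ Big E m (bx m x) ∧
    ∃ y, bx m y = bx m x ∧ Big E (m + 1) (bx (m + 1) y)}

theorem real_split (E : Set ℝ) (hE : MeasurableSet E) (n : ℕ) (k : ℤ) :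
    volume.real (E ∩ JJ n k) + volume.real (JJ n k \ E) = 1 / 2 ^ n := by
  rw [← JJ_real n k, inter_comm]
  exact measureReal_inter_add_sdiff hE (JJ_fin n k)

theorem real_children (A : Set ℝ) (n : ℕ) (k : ℤ) :
    volume.real (A ∩ JJ n k) =
      volume.real (A ∩ JJ (n + 1) (2 * k)) + volume.real (A ∩ JJ (n + 1) (2 * k + 1)) := by
  have h0 : volume (A ∩ JJ n k) ≠ ⊤ := measure_ne_top_of_subset inter_subset_right (JJ_fin _ _)
  have h1 := measureReal_inter_add_sdiff (s := A ∩ JJ n k) (JJ_meas (n + 1) (2 * k)) h0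
  have e1 : (A ∩ JJ n k) ∩ JJ (n + 1) (2 * k) = A ∩ JJ (n + 1) (2 * k) := by
    ext x
    constructor
    · rintro ⟨⟨a, _⟩, c⟩; exact ⟨a, c⟩
    · rintro ⟨a, c⟩
      exact ⟨⟨a, by rw [JJ_split]; exact Or.inl c⟩, c⟩
  have e2 : (A ∩ JJ n k) \ JJ (n + 1) (2 * k) = A ∩ JJ (n + 1) (2 * k + 1) := by
    ext x
    constructor
    · rintro ⟨⟨a, b⟩, c⟩
      rw [JJ_split] at b
      rcases b with b | b
      · exact absurd b c
      · exact ⟨a, b⟩
    · rintro ⟨a, b⟩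
      refine ⟨⟨a, by rw [JJ_split]; exact Or.inr b⟩, ?_⟩
      exact Set.disjoint_right.mp (JJ_disj (n + 1) (show 2 * k ≠ 2 * k + 1 by omega)) b
  rw [e1, e2] at h1
  exact h1.symm

theorem covering {E : Set ℝ} (hE : MeasurableSet E) {n1 N : ℕ}
    (hEN : ∀ x y, bx N x = bx N y → x ∈ E → y ∈ E) : ∀ (d n : ℕ) (k : ℤ), n + d = N → n1 ≤ n →
    ¬ Big E n k → volume.real (E ∩ JJ n k) ≤ 2047 / 2048 * volume.real (Hat E n1 N ∩ JJ n k) := by
  intro d
  induction d with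
  | zero =>
    intro n k hn hn1 hb
    rw [add_zero] at hn
    subst hn
    have : E ∩ JJ n k = ∅ := by
      by_contra hcon
      obtain ⟨x, hx1, hx2⟩ := nonempty_iff_ne_empty.mpr hcon
      apply hb
      have h0 : JJ n k \ E = ∅ := by
        ext y
        constructor
        · rintro ⟨h1, h2⟩
          exact h2 (hEN x y (hx2.trans h1.symm) hx1)
        · exact fun h => h.elim
      unfold Big
      rw [h0, measureReal_empty]
      positivity
    rw [this, measureReal_empty]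
    positivity
  | succ d ih =>
    intro n k hn hn1 hb
    by_cases hc : Big E (n + 1) (2 * k) ∨ Big E (n + 1) (2 * k + 1)
    · have hsub : Hat E n1 N ∩ JJ n k = JJ n k := by
        apply inter_eq_right.mpr
        intro x hx
        have hx' : bx n x = k := hx
        refine ⟨n, hn1, by omega, by rw [hx']; exact hb, ?_⟩
        rcases hc with hc | hc
        · refine ⟨((2 * k : ℤ) : ℝ) / 2 ^ (n + 1), ?_, by rw [bx_left]; exact hc⟩
          rw [hx']
          have : (((2 * k : ℤ) : ℝ) / 2 ^ (n + 1)) ∈ JJ n k := by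
            rw [JJ_split]; exact Or.inl (bx_left _ _)
          exact this
        · refine ⟨((2 * k + 1 : ℤ) : ℝ) / 2 ^ (n + 1), ?_, by rw [bx_left]; exact hc⟩
          rw [hx']
          have : (((2 * k + 1 : ℤ) : ℝ) / 2 ^ (n + 1)) ∈ JJ n k := by
            rw [JJ_split]; exact Or.inr (bx_left _ _)
          exact this
      rw [hsub, JJ_real]
      have h1 := real_split E hE n k
      unfold Big at hb
      push Not at hb
      linarith
    · push Not at hc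
      rw [real_children E, real_children (Hat E n1 N)]
      have i1 := ih (n + 1) (2 * k) (by omega) (by omega) hc.1
      have i2 := ih (n + 1) (2 * k + 1) (by omega) (by omega) hc.2
      linarith

section Iter

variable {Ω : Set ℂ} {F : ℂ → ℂ} {n1 : ℕ} {k1 : ℤ} {N : ℕ} {lam : ℝ}

theorem EE_N (x y : ℝ) (hxy : bx N x = bx N y) (hx : x ∈ EE Ω F n1 k1 N lam) :
    y ∈ EE Ω F n1 k1 N lam := by
  obtain ⟨h0, m, h1, h2, h3, h4⟩ := hx
  refine ⟨?_, m, h1, h2, ?_, ?_⟩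
  · rw [← bx_anc hxy (h1.trans h2)]; exact h0
  · intro j hj hj'
    rw [← bx_anc hxy (hj'.trans h2)]; exact h3 j hj hj'
  · rw [← bx_anc hxy h2]; exact h4

/-- the gain -/
theorem gain (h : Om Ω F) (hN : n1 ≤ N) (hroot : Up Ω F n1 k1) (hlam : 0 < lam)
    (hbig : UU F n1 k1 < lam / (2 * KK ^ 34)) :
    volume.real (EE Ω F n1 k1 N lam) ≤
      2047 / 2048 * volume.real (EE Ω F n1 k1 N (lam / (2 * KK ^ 36))) := by
  have hK := one_le_KK
  have hK0 : 0 < KK := by linarith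
  set E := EE Ω F n1 k1 N lam with hE
  have hEJ : E ⊆ JJ n1 k1 := fun x hx => hx.1
  have hbigE : ∀ {n : ℕ} {k : ℤ}, Big E n k →
      volume (JJ n k \ E) ≤ ENNReal.ofReal (1 / 2048 * (1 / 2 ^ n)) := by
    intro n k hb
    have hfin : volume (JJ n k \ E) ≠ ⊤ := measure_ne_top_of_subset sdiff_subset (JJ_fin n k)
    rw [← ENNReal.ofReal_toReal hfin]
    exact ENNReal.ofReal_le_ofReal hb
  have hnb : ¬ Big E n1 k1 := by
    intro hb
    have := one_step h hN hroot hlam (hbigE hb)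
    linarith
  obtain ⟨d, hd⟩ := Nat.exists_eq_add_of_le hN
  have hcov := covering (n1 := n1) (N := N) EE_meas (fun x y hxy hx => EE_N x y hxy hx) d n1 k1
    hd.symm le_rfl hnb
  rw [← hE, inter_eq_left.mpr hEJ] at hcov
  refine hcov.trans ?_
  apply mul_le_mul_of_nonneg_left _ (by norm_num)
  apply measureReal_mono _ (measure_ne_top_of_subset (fun x hx => hx.1) (JJ_fin n1 k1))
  rintro x ⟨⟨m, m1, m2, hnb', y, hy, hbig'⟩, hx⟩
  -- a point of E in the big child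
  have hne : (JJ (m + 1) (bx (m + 1) y) ∩ E).Nonempty := by
    by_contra hcon
    rw [not_nonempty_iff_eq_empty] at hcon
    have h1 := real_split E EE_meas (m + 1) (bx (m + 1) y)
    rw [inter_comm, hcon, measureReal_empty] at h1
    unfold Big at hbig'
    have : (0 : ℝ) < 1 / 2 ^ (m + 1) := by positivity
    linarith
  -- no point of JJ m is reached before m + 1
  have hlate : ∀ s ∈ E, bx m s = bx m x → ∃ m', m + 1 ≤ m' ∧ m' ≤ N ∧
      (∀ j, n1 ≤ j → j ≤ m' → Up Ω F j (bx j s)) ∧ lam ≤ UU F m' (bx m' s) := by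
    intro s hs hsx
    obtain ⟨s0, m', s1, s2, s3, s4⟩ := hs
    refine ⟨m', ?_, s2, s3, s4⟩
    by_contra hcon
    push Not at hcon
    apply hnb'
    have h0 : JJ m (bx m x) \ E = ∅ := by
      ext w
      constructor
      · rintro ⟨w1, w2⟩
        apply w2
        have hw : bx m w = bx m s := w1.trans hsx.symm
        refine ⟨?_, m', s1, s2, ?_, ?_⟩
        · rw [bx_anc hw m1]; exact s0
        · intro j hj hj'
          rw [bx_anc hw (by omega)]; exact s3 j hj hj'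
        · rw [bx_anc hw (by omega)]; exact s4
      · exact fun h => h.elim
    unfold Big
    rw [h0, measureReal_empty]
    positivity
  obtain ⟨t, ht1, ht2⟩ := hne
  have htm1 : bx (m + 1) t = bx (m + 1) y := ht1
  have htm : bx m t = bx m x := (bx_anc htm1 (Nat.le_succ m)).trans hy
  obtain ⟨m', c1, c2, c3, c4⟩ := hlate t ht2 htm
  have hupc : Up Ω F (m + 1) (bx (m + 1) y) := by
    rw [← htm1]; exact c3 (m + 1) (by omega) c1
  have hup : Up Ω F m (bx m t) := c3 m m1 (by omega)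
  have hsub : JJ (m + 1) (bx (m + 1) y) \ EE Ω F (m + 1) (bx (m + 1) y) N lam ⊆
      JJ (m + 1) (bx (m + 1) y) \ E := by
    rintro s ⟨s1, s2⟩
    refine ⟨s1, fun hs => s2 ?_⟩
    have hs1 : bx (m + 1) s = bx (m + 1) y := s1
    obtain ⟨m'', d1, d2, d3, d4⟩ := hlate s hs ((bx_anc hs1 (Nat.le_succ m)).trans hy)
    exact ⟨hs1, m'', d1, d2, fun j hj hj' => d3 j (by omega) hj', d4⟩
  have hone := one_step h (show m + 1 ≤ N by omega) hupc hlam
    ((measure_mono hsub).trans (hbigE hbig'))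
  have hmeet : UU F (m + 1) (bx (m + 1) t) ≤ KK ^ 2 * UU F m (bx m t) := by
    obtain ⟨w1, w2⟩ := TB_succ m t
    exact (c3 (m + 1) (by omega) c1).meet h hup w2 w1
  rw [htm1] at hmeet
  refine ⟨hx, m, m1, m2.le, ?_, ?_⟩
  · intro j hj hj'
    rw [← bx_anc htm hj']
    exact c3 j hj (by omega)
  · rw [← htm]
    have h2 := hone.trans hmeet
    rw [div_le_iff₀ (by positivity)] at h2 ⊢
    calc lam ≤ KK ^ 2 * UU F m (bx m t) * (2 * KK ^ 34) := h2
      _ = UU F m (bx m t) * (2 * KK ^ 36) := by ring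

theorem EE_real_le : volume.real (EE Ω F n1 k1 N lam) ≤ 1 / 2 ^ n1 := by
  rw [← JJ_real n1 k1]
  exact measureReal_mono (fun x hx => hx.1) (JJ_fin n1 k1)

theorem iter (h : Om Ω F) (hN : n1 ≤ N) (hroot : Up Ω F n1 k1) : ∀ (j : ℕ) (lam : ℝ), 0 < lam →
    UU F n1 k1 < lam / (2 * KK ^ 36) ^ j / (2 * KK ^ 34) →
    volume.real (EE Ω F n1 k1 N lam) ≤ (2047 / 2048) ^ (j + 1) * (1 / 2 ^ n1) := by
  have hK := one_le_KK
  have hK0 : 0 < KK := by linarith
  intro j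
  induction j with
  | zero =>
    intro lam hlam h1
    rw [pow_zero, div_one] at h1
    calc volume.real (EE Ω F n1 k1 N lam) ≤ 2047 / 2048 * _ := gain h hN hroot hlam h1
      _ ≤ 2047 / 2048 * (1 / 2 ^ n1) := by gcongr; exact EE_real_le
      _ = _ := by ring
  | succ j ih =>
    intro lam hlam h1
    have hb : (1 : ℝ) ≤ 2 * KK ^ 36 := by
      have : (1 : ℝ) ≤ KK ^ 36 := one_le_pow₀ hK
      linarith
    have h2 : UU F n1 k1 < lam / (2 * KK ^ 34) := by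
      refine h1.trans_le ?_
      gcongr
      exact div_le_self hlam.le (one_le_pow₀ hb)
    have h3 := ih (lam / (2 * KK ^ 36)) (by positivity) (by
      refine lt_of_lt_of_eq h1 ?_
      rw [pow_succ]
      field_simp)
    calc volume.real (EE Ω F n1 k1 N lam) ≤ 2047 / 2048 * _ := gain h hN hroot hlam h2
      _ ≤ 2047 / 2048 * ((2047 / 2048) ^ (j + 1) * (1 / 2 ^ n1)) := by gcongr
      _ = _ := by ring

/-- the exponent -/
noncomputable def TH : ℝ := Real.log (2048 / 2047) / Real.log (2 * KK ^ 36)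

theorem two_le : (2 : ℝ) ≤ 2 * KK ^ 36 := by
  have : (1 : ℝ) ≤ KK ^ 36 := one_le_pow₀ one_le_KK
  linarith

theorem TH_pos : 0 < TH := by
  have := two_le
  unfold TH
  apply div_pos (Real.log_pos (by norm_num)) (Real.log_pos (by linarith))

theorem TH_eq (j : ℕ) : ((2047 : ℝ) / 2048) ^ j = ((2 * KK ^ 36) ^ j)⁻¹ ^ TH := by
  have h2 := two_le
  have hpos : (0 : ℝ) < 2 * KK ^ 36 := by linarith
  have hl : 0 < Real.log (2 * KK ^ 36) := Real.log_pos (by linarith)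
  rw [Real.rpow_def_of_pos (by positivity), Real.log_inv, Real.log_pow, ← Real.exp_log
    (show (0 : ℝ) < (2047 / 2048) ^ j by positivity), Real.log_pow]
  congr 1
  have : Real.log (2047 / 2048) = - Real.log (2048 / 2047) := by
    rw [← Real.log_inv]; norm_num
  rw [this]
  unfold TH
  field_simp

/-- WEAK TYPE with a power, finite depth -/
theorem weakN (h : Om Ω F) (hN : n1 ≤ N) (hroot : Up Ω F n1 k1) {l : ℝ} (hl : 1 ≤ l) :
    volume.real (EE Ω F n1 k1 N (l * UU F n1 k1)) ≤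
      (2 * KK ^ 34) ^ TH * l ^ (-TH) * (1 / 2 ^ n1) := by
  classical
  have hK := one_le_KK
  have hK0 : 0 < KK := by linarith
  have hU : 0 < UU F n1 k1 := by have := hroot.2; linarith
  have hT := TH_pos
  have h2 := two_le
  have hB : (0 : ℝ) < 2 * KK ^ 34 := by positivity
  have hex : ∃ n : ℕ, l / (2 * KK ^ 36) ^ n ≤ 2 * KK ^ 34 := by
    obtain ⟨n, hn⟩ := pow_unbounded_of_one_lt (l / (2 * KK ^ 34)) (show (1 : ℝ) < 2 * KK ^ 36 by linarith)
    refine ⟨n, ?_⟩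
    rw [div_le_iff₀ (by positivity)]
    rw [div_lt_iff₀ hB] at hn
    linarith
  have hs := Nat.find_spec hex
  have hmin := fun j (hj : j < Nat.find hex) => Nat.find_min hex hj
  set n := Nat.find hex
  have hfin : ((2047 : ℝ) / 2048) ^ n ≤ (2 * KK ^ 34) ^ TH * l ^ (-TH) := by
    rw [TH_eq, Real.rpow_neg (by linarith), ← div_eq_mul_inv, ← Real.div_rpow hB.le (by linarith)]
    apply Real.rpow_le_rpow (by positivity) _ hT.le
    rw [inv_eq_one_div, div_le_div_iff₀ (by positivity) (by linarith)]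
    rw [div_le_iff₀ (by positivity)] at hs
    linarith
  have hkey : volume.real (EE Ω F n1 k1 N (l * UU F n1 k1)) ≤
      (2047 / 2048) ^ n * (1 / 2 ^ n1) := by
    rcases Nat.eq_zero_or_pos n with h0 | h0
    · rw [h0, pow_zero, one_mul]; exact EE_real_le
    · obtain ⟨j, hj⟩ : ∃ j, n = j + 1 := ⟨n - 1, by omega⟩
      rw [hj]
      apply iter h hN hroot j _ (by positivity)
      have h3 := hmin j (by omega)
      push Not at h3
      rw [lt_div_iff₀ hB]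
      calc UU F n1 k1 * (2 * KK ^ 34) < UU F n1 k1 * (l / (2 * KK ^ 36) ^ j) := by gcongr
        _ = l * UU F n1 k1 / (2 * KK ^ 36) ^ j := by ring
  refine hkey.trans ?_
  gcongr

/-- WEAK TYPE with a power -/
theorem weak (h : Om Ω F) (hroot : Up Ω F n1 k1) {l : ℝ} (hl : 1 ≤ l) :
    volume {x | bx n1 x = k1 ∧ ∃ m, n1 ≤ m ∧ (∀ j, n1 ≤ j → j ≤ m → Up Ω F j (bx j x)) ∧
      l * UU F n1 k1 ≤ UU F m (bx m x)} ≤
      ENNReal.ofReal ((2 * KK ^ 34) ^ TH * l ^ (-TH) / 2 ^ n1) := by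
  have hK0 : 0 < KK := by linarith [one_le_KK]
  have he : {x | bx n1 x = k1 ∧ ∃ m, n1 ≤ m ∧ (∀ j, n1 ≤ j → j ≤ m → Up Ω F j (bx j x)) ∧
      l * UU F n1 k1 ≤ UU F m (bx m x)} =
      ⋃ N : ℕ, EE Ω F n1 k1 (n1 + N) (l * UU F n1 k1) := by
    ext x
    simp only [mem_iUnion, mem_ofPred_eq]
    constructor
    · rintro ⟨h0, m, h1, h2, h3⟩
      exact ⟨m - n1, h0, m, h1, by omega, h2, h3⟩
    · rintro ⟨N, h0, m, h1, _, h2, h3⟩
      exact ⟨h0, m, h1, h2, h3⟩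
  have hmono : Monotone (fun N : ℕ => EE Ω F n1 k1 (n1 + N) (l * UU F n1 k1)) := by
    intro a b hab x hx
    obtain ⟨h0, m, h1, h2, h3, h4⟩ := hx
    exact ⟨h0, m, h1, by omega, h3, h4⟩
  rw [he, hmono.measure_iUnion]
  apply iSup_le
  intro N
  have h1 := weakN h (show n1 ≤ n1 + N by omega) hroot hl
  have hfin : volume (EE Ω F n1 k1 (n1 + N) (l * UU F n1 k1)) ≠ ⊤ :=
    measure_ne_top_of_subset (fun x hx => hx.1) (JJ_fin n1 k1)
  rw [← ENNReal.ofReal_toReal hfin]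
  apply ENNReal.ofReal_le_ofReal
  refine h1.trans (le_of_eq ?_)
  ring

end Iter

end Crest.Agent.R102.G864
end

-- ▼ part R102/T3All_864
section

/-! # `T3All`: the weak type estimate in the literal form of `LemGDefs_672` -/

open Set Filter Metric Complex Topology MeasureTheory

namespace Crest.Agent.R102.G864

theorem bx_672 (n : ℕ) (x : ℝ) : LemG672.bx n x = bx n x := by
  unfold LemG672.bx bx; rw [mul_comm]

theorem zp_672 (n : ℕ) (k : ℤ) : LemG672.zp n k = zc n k := rfl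


theorem Om_672 {W : Set ℂ} {F : ℂ → ℂ} (h : LemG672.Omit W F) : Om W F :=
  ⟨h.1, h.2.1, fun z hz => (h.2.2 z hz).1, fun z hz => (h.2.2 z hz).2⟩

theorem Av_672 {W : Set ℂ} {n : ℕ} {k : ℤ} (h : LemG672.Av W n k) : Avl W n k := by
  intro w hw
  refine (ball_subset_ball' ?_).trans h
  rw [zp_672, dist_eq_norm]
  obtain ⟨w1, w2, w3, w4⟩ := hw
  have hp : (0 : ℝ) < 2 ^ n := by positivity
  have e1 : (w - zc n k).re * 2 ^ n = w.re * 2 ^ n - (k + 1 / 2) := by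
    unfold zc; rw [Complex.sub_re]; simp only; field_simp
  have e2 : (w - zc n k).im * 2 ^ n = w.im * 2 ^ n - 1 := by
    unfold zc; rw [Complex.sub_im]; simp only; field_simp
  have h1 : (‖w - zc n k‖ * 2 ^ n) ^ 2 ≤ (71 / 100) ^ 2 := by
    rw [mul_pow, Complex.sq_norm, Complex.normSq_apply]
    have : ((w - zc n k).re * (w - zc n k).re + (w - zc n k).im * (w - zc n k).im) * (2 ^ n) ^ 2 =
        ((w - zc n k).re * 2 ^ n) ^ 2 + ((w - zc n k).im * 2 ^ n) ^ 2 := by ring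
    rw [this, e1, e2]
    nlinarith
  have h2 : ‖w - zc n k‖ * 2 ^ n ≤ 71 / 100 := by
    apply le_of_sq_le_sq h1 (by norm_num) |> fun h => h
  have h3 : ‖w - zc n k‖ ≤ (71 / 100) / 2 ^ n := by rw [le_div_iff₀ hp]; exact h2
  calc 1 / 32 / 2 ^ n + ‖w - zc n k‖ ≤ 1 / 32 / 2 ^ n + (71 / 100) / 2 ^ n := by linarith
    _ = (1 / 32 + 71 / 100) * (1 / 2 ^ n) := by ring
    _ ≤ 3 / 4 * (1 / 2 ^ n) := by gcongr; norm_num

theorem near_one {w : ℂ} {e : ℝ} (he : e ≤ 1 / 2) (h : ‖w - 1‖ < e) :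
    1 + |Real.log ‖w‖| ≤ 2 := by
  have h1 : ‖w‖ ≤ 3 / 2 := by
    have := norm_add_le (w - 1) 1
    rw [sub_add_cancel, norm_one] at this
    linarith
  have h2 : 1 / 2 ≤ ‖w‖ := by
    have := norm_sub_norm_le (1 : ℂ) w
    rw [norm_one, norm_sub_rev] at this
    linarith
  have h0 : 0 < ‖w‖ := by linarith
  have h3 : |Real.log ‖w‖| ≤ 1 := by
    rw [abs_le]
    constructor
    · have h4 := Real.log_le_sub_one_of_pos (inv_pos.mpr h0)
      rw [Real.log_inv] at h4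
      have h5 : ‖w‖⁻¹ ≤ 2 := by
        rw [inv_le_comm₀ h0 (by norm_num)]; linarith
      linarith
    · have := Real.log_le_sub_one_of_pos h0
      linarith
  linarith

theorem HH_succ {Ω : Set ℂ} {F : ℂ → ℂ} (h : Om Ω F) {n : ℕ} {x : ℝ} (h1 : Avl Ω n (bx n x))
    (h2 : Avl Ω (n + 1) (bx (n + 1) x)) :
    HH F (zc (n + 1) (bx (n + 1) x)) ≤ K2 ^ 2 * HH F (zc n (bx n x)) := by
  obtain ⟨w1, w2⟩ := TB_succ n x
  have a := HH_box h h1 (zc_mem _ _) w1
  have b := HH_box h h2 w2 (zc_mem _ _)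
  have hK := one_le_K2
  calc _ ≤ K2 * HH F (⟨x, 1 / 2 ^ (n + 1)⟩ : ℂ) := b
    _ ≤ K2 * (K2 * HH F (zc n (bx n x))) := by
        apply mul_le_mul_of_nonneg_left a; linarith
    _ = _ := by ring

/-- along a tall run starting in the cusp at infinity everything is in the cusp at infinity -/
theorem allUp {Ω : Set ℂ} {F : ℂ → ℂ} (h : Om Ω F) {n m : ℕ} {x : ℝ} 
    (hav : ∀ j, n ≤ j → j ≤ m → Avl Ω j (bx j x))
    (ht : ∀ j, n ≤ j → j ≤ m → KK ≤ |Real.log ‖F (zc j (bx j x))‖|)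
    (h0 : 0 ≤ Real.log ‖F (zc n (bx n x))‖) : ∀ j, n ≤ j → j ≤ m → Up Ω F j (bx j x) := by
  intro j hj
  induction j, hj using Nat.le_induction with
  | base =>
    intro hm
    refine ⟨hav n le_rfl hm, ?_⟩
    have := ht n le_rfl hm
    rwa [abs_of_nonneg h0] at this
  | succ j hj ih =>
    intro hm
    have hup := ih (by omega)
    have hav' := hav (j + 1) (by omega) hm
    refine ⟨hav', ?_⟩
    rcases le_total 0 (Real.log ‖F (zc (j + 1) (bx (j + 1) x))‖) with h1 | h1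
    · have := ht (j + 1) (by omega) hm
      rwa [abs_of_nonneg h1] at this
    · exfalso
      have h2 : Up Ω (fun z => (F z)⁻¹) (j + 1) (bx (j + 1) x) := by
        refine ⟨hav', ?_⟩
        have := ht (j + 1) (by omega) hm
        rw [abs_of_nonpos h1] at this
        unfold UU
        simp only
        rw [norm_inv, Real.log_inv]
        exact this
      obtain ⟨w1, w2⟩ := TB_succ j x
      have h3 := hup.pos h w1
      have h4 := h2.pos h.inv w2
      rw [norm_inv, Real.log_inv] at h4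
      linarith

theorem tall_run {Ω : Set ℂ} {F : ℂ → ℂ} (h : Om Ω F) {T e l : ℝ} (hT : 1 + KK + 2 * K2 ^ 2 ≤ T)
    (he : e ≤ 1 / 2) {n : ℕ} {k : ℤ} {x : ℝ} {m : ℕ}
    (hav : ∀ j, n ≤ j → j ≤ m → Avl Ω j (bx j x))
    (hth : ∀ j, n ≤ j → j ≤ m → ¬ (HH F (zc j (bx j x)) ≤ T ∧ e ≤ ‖F (zc j (bx j x)) - 1‖))
    (hmax : max (l * HH F (zc n k)) 3 ≤ HH F (zc m (bx m x))) :
    ∀ j, n ≤ j → j ≤ m → KK ≤ |Real.log ‖F (zc j (bx j x))‖| := by
  have hK := one_le_K2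
  have hKK := one_le_KK
  have hnear : ∀ i, n ≤ i → i ≤ m → HH F (zc i (bx i x)) ≤ T → HH F (zc i (bx i x)) ≤ 2 := by
    intro i hi hi' hT'
    have h1 := hth i hi hi'
    push Not at h1
    exact near_one he (h1 hT')
  have htall : ∀ j, n ≤ j → j ≤ m → T < HH F (zc j (bx j x)) := by
    intro j hj hj'
    by_contra hcon
    push Not at hcon
    have hall : ∀ i, j ≤ i → i ≤ m → HH F (zc i (bx i x)) ≤ 2 := by
      intro i hi
      induction i, hi using Nat.le_induction with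
      | base => intro _; exact hnear j hj hj' hcon
      | succ i hi ih =>
        intro him
        have h1 := ih (by omega)
        have h2 := HH_succ h (hav i (by omega) (by omega)) (hav (i + 1) (by omega) him)
        apply hnear (i + 1) (by omega) him
        have h3 : K2 ^ 2 * HH F (zc i (bx i x)) ≤ K2 ^ 2 * 2 := by
          apply mul_le_mul_of_nonneg_left h1; positivity
        linarith
    have h1 := hall m hj' le_rfl
    have h2 := le_of_max_le_right hmax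
    linarith
  intro j hj hj'
  have h1 := htall j hj hj'
  unfold HH at h1
  have : 0 ≤ K2 ^ 2 := by positivity
  linarith

theorem run_up {Ω : Set ℂ} {F : ℂ → ℂ} (h : Om Ω F) {l : ℝ} (hl : 1 ≤ l)
    {n : ℕ} {k : ℤ} {x : ℝ} {m : ℕ} (hx : bx n x = k) (hm : n ≤ m)
    (hav : ∀ j, n ≤ j → j ≤ m → Avl Ω j (bx j x))
    (habs : ∀ j, n ≤ j → j ≤ m → KK ≤ |Real.log ‖F (zc j (bx j x))‖|)
    (hmax : max (l * HH F (zc n k)) 3 ≤ HH F (zc m (bx m x)))
    (h0 : 0 ≤ Real.log ‖F (zc n k)‖) :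
    (∀ j, n ≤ j → j ≤ m → Up Ω F j (bx j x)) ∧ l * UU F n k ≤ UU F m (bx m x) := by
  have hK := one_le_K2
  have hKK := one_le_KK
  have hup := allUp h hav habs (by rw [hx]; exact h0)
  refine ⟨hup, ?_⟩
  have h1 := le_of_max_le_left hmax
  have hn := (hup n le_rfl hm).2
  have hm' := (hup m hm le_rfl).2
  rw [hx] at hn
  unfold UU at hn hm' ⊢
  unfold HH at h1
  rw [abs_of_nonneg (by linarith), abs_of_nonneg (by linarith)] at h1
  nlinarith

/-- the case distinction is on the sign at the root; `G = F` or `G = 1/F` -/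
theorem t3_aux {W : Set ℂ} {F G : ℂ → ℂ} (hF : Om W F) (hG : Om W G)
    (hGl : ∀ z, |Real.log ‖G z‖| = |Real.log ‖F z‖|) {T e l : ℝ}
    (hT : 1 + KK + 2 * K2 ^ 2 ≤ T) (he : e ≤ 1 / 2) (hl : 1 ≤ l) {n : ℕ} {k : ℤ}
    (h0 : 0 ≤ Real.log ‖G (zc n k)‖) :
    volume (LemG672.RunSet (LemG672.Hf F) (LemG672.Av W) (LemG672.Th F T e) 3 l n k) ≤
      ENNReal.ofReal ((2 * KK ^ 34) ^ TH * l ^ (-TH) / 2 ^ n) := by
  have hGH : ∀ z, HH G z = HH F z := by
    intro z; unfold HH; rw [hGl]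
  by_cases hne : (LemG672.RunSet (LemG672.Hf F) (LemG672.Av W) (LemG672.Th F T e) 3 l n k).Nonempty
  · have hsub : ∀ x ∈ LemG672.RunSet (LemG672.Hf F) (LemG672.Av W) (LemG672.Th F T e) 3 l n k,
        bx n x = k ∧ ∃ m, n ≤ m ∧ (∀ j, n ≤ j → j ≤ m → Up W G j (bx j x)) ∧
          l * UU G n k ≤ UU G m (bx m x) := by
      rintro x ⟨hx, m, hm, hrun, hmax⟩
      have hxk : bx n x = k := by
        have : x ∈ JJ n k := by rw [JJ_eq]; exact hx
        exact this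
      simp only [bx_672] at hrun hmax
      have hav : ∀ j, n ≤ j → j ≤ m → Avl W j (bx j x) := fun j hj hj' => Av_672 (hrun j hj hj').1
      have hab := tall_run hF hT he hav (fun j hj hj' => (hrun j hj hj').2) hmax
      obtain ⟨c1, c2⟩ := run_up hG hl hxk hm hav
        (fun j hj hj' => by rw [hGl]; exact hab j hj hj')
        (by rw [hGH, hGH]; exact hmax) h0
      exact ⟨hxk, m, hm, c1, c2⟩
    obtain ⟨x, hx⟩ := hne
    obtain ⟨e1, m, e2, e3, _⟩ := hsub x hx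
    have hroot : Up W G n k := by
      have := e3 n le_rfl e2
      rwa [e1] at this
    exact (measure_mono hsub).trans (weak hG hroot hl)
  · rw [not_nonempty_iff_eq_empty] at hne
    rw [hne, measure_empty]
    exact bot_le

/-- **T3** -/
theorem t3All : LemG672.T3All := by
  have hK := one_le_K2
  have hKK := one_le_KK
  refine ⟨1 + KK + 2 * K2 ^ 2, 1 / 2, by nlinarith, by norm_num, ?_⟩
  intro T e hT he0 he
  refine ⟨(2 * KK ^ 34) ^ TH, TH, 3, TH_pos, ?_⟩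
  intro W F hF n k hAv l hl
  have h := Om_672 hF
  rcases le_total 0 (Real.log ‖F (zc n k)‖) with h0 | h0
  · exact t3_aux h h (fun _ => rfl) hT he hl h0
  · refine t3_aux h h.inv (fun z => ?_) hT he hl (n := n) (k := k) ?_
    · rw [norm_inv, Real.log_inv, abs_neg]
    · rw [norm_inv, Real.log_inv]; linarith

end Crest.Agent.R102.G864
end

-- ▼ part R102/TreeG_196
section

/-!
# LEMMA G, parts (b), (d) as a pure dyadic tree lemma (helper196)

No function theory.  `H` is the height `1 + |log|F||` at the Whitney box `(n,k)`, `Av` says that the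
box is available (inside the sawtooth domain), `Th` that it is thick.  Input: thick boxes have
bounded height, children do not grow by more than `K`, and the weak type estimate for excursions
which start at a non thick box.
-/

open MeasureTheory Set Filter Topology
open scoped ENNReal

namespace Crest.Agent.R102.TreeG196

/-- dyadic index of `x` at generation `n` -/
noncomputable def bx (n : ℕ) (x : ℝ) : ℤ := ⌊(2:ℝ)^n * x⌋

theorem bx_succ (n : ℕ) (x : ℝ) : bx n x = bx (n+1) x / 2 := by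
  unfold bx
  have : (2:ℝ)^(n+1) * x = ((2:ℕ):ℝ) * ((2:ℝ)^n * x) := by push_cast; ring
  rw [this]
  exact (Int.natCast_mul_floor_div_cancel (by norm_num) _).symm

theorem bx_mono {n m : ℕ} (h : n ≤ m) {x y : ℝ} (hxy : bx m x = bx m y) : bx n x = bx n y := by
  induction h with
  | refl => exact hxy
  | step h ih => exact ih (by rw [bx_succ, bx_succ _ y, hxy])

/-- the dyadic interval -/
def I (n : ℕ) (k : ℤ) : Set ℝ := {x | bx n x = k}

theorem mem_I {n : ℕ} {k : ℤ} {x : ℝ} : x ∈ I n k ↔ bx n x = k := Iff.rfl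


theorem I_eq (n : ℕ) (k : ℤ) : I n k = Ico ((k:ℝ)/2^n) (((k:ℝ)+1)/2^n) := by
  ext x
  simp only [I, bx, mem_ofPred_eq, mem_Ico, Int.floor_eq_iff]
  have h2 : (0:ℝ) < 2^n := by positivity
  rw [div_le_iff₀ h2, lt_div_iff₀ h2, mul_comm x]

theorem meas_I (n : ℕ) (k : ℤ) : MeasurableSet (I n k) := by
  rw [I_eq]; exact measurableSet_Ico

theorem vol_I (n : ℕ) (k : ℤ) : volume (I n k) = ENNReal.ofReal (1/2^n) := by
  rw [I_eq, Real.volume_Ico]
  congr 1
  ring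

/-- selection of first boxes -/
theorem sel (X : Set ℝ) (Q : ℕ → ℤ → Prop) (p : ℝ≥0∞) (n : ℕ) (k : ℤ)
    (h : ∀ m, n ≤ m → ∀ x, bx n x = k → Q m (bx m x) →
      volume (I m (bx m x) ∩ X) ≤ p * volume (I m (bx m x))) :
    volume (I n k ∩ X ∩ {x | ∃ m, n ≤ m ∧ Q m (bx m x)}) ≤ p * volume (I n k) := by
  classical
  set F : Set (ℕ × ℤ) := {q | n ≤ q.1 ∧ ∃ x, bx n x = k ∧ bx q.1 x = q.2 ∧ Q q.1 (bx q.1 x) ∧
    ∀ j, n ≤ j → j < q.1 → ¬ Q j (bx j x)} with hF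
  have hFc : F.Countable := F.to_countable
  have hsub : I n k ∩ X ∩ {x | ∃ m, n ≤ m ∧ Q m (bx m x)} ⊆ ⋃ q ∈ F, (I q.1 q.2 ∩ X) := by
    rintro x ⟨⟨hxk, hxX⟩, hx⟩
    have hx' : ∃ m, n ≤ m ∧ Q m (bx m x) := hx
    have hs := Nat.find_spec hx'
    have hm := fun j (hj : j < Nat.find hx') => Nat.find_min hx' hj
    refine mem_biUnion (x := (Nat.find hx', bx (Nat.find hx') x)) ?_ ⟨rfl, hxX⟩
    refine ⟨hs.1, x, hxk, rfl, hs.2, ?_⟩
    intro j hnj hj hQ
    exact hm j hj ⟨hnj, hQ⟩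
  have hdisj : F.PairwiseDisjoint (fun q => I q.1 q.2) := by
    have key : ∀ q ∈ F, ∀ q' ∈ F, q.1 ≤ q'.1 → ∀ z, z ∈ I q.1 q.2 → z ∈ I q'.1 q'.2 → q = q' := by
      rintro ⟨m, l⟩ ⟨hm, x, hxk, hxl, hQ, hmin⟩ ⟨m', l'⟩ ⟨hm', x', hxk', hxl', hQ', hmin'⟩ hle z hz hz'
      simp only [mem_I] at hz hz' hxl hxl' hle hm hm' hQ hmin hQ' hmin'
      rcases hle.lt_or_eq with hlt | heq
      · exfalso
        apply hmin' m hm hlt
        have : bx m x' = bx m z := bx_mono hle (by rw [hxl', hz'])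
        rw [this, hz, ← hxl]; exact hQ
      · subst heq
        rw [Prod.mk.injEq]
        exact ⟨rfl, by rw [← hz, ← hz']⟩
    intro q hq q' hq' hne
    rw [Function.onFun, Set.disjoint_left]
    intro z hz hz'
    rcases le_total q.1 q'.1 with hle | hle
    · exact hne (key q hq q' hq' hle z hz hz')
    · exact hne (key q' hq' q hq hle z hz' hz).symm
  calc volume (I n k ∩ X ∩ {x | ∃ m, n ≤ m ∧ Q m (bx m x)})
      ≤ volume (⋃ q ∈ F, (I q.1 q.2 ∩ X)) := measure_mono hsub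
    _ ≤ ∑' q : F, volume (I q.1.1 q.1.2 ∩ X) := measure_biUnion_le _ hFc _
    _ ≤ ∑' q : F, p * volume (I q.1.1 q.1.2) := by
        refine ENNReal.tsum_le_tsum ?_
        rintro ⟨⟨m, l⟩, hm, x, hxk, hxl, hQ, hmin⟩
        simp only at hm hxl hQ ⊢
        rw [← hxl]
        exact h m hm x hxk hQ
    _ = p * ∑' q : F, volume (I q.1.1 q.1.2) := ENNReal.tsum_mul_left
    _ = p * volume (⋃ q ∈ F, I q.1 q.2) := by
        rw [measure_biUnion hFc hdisj (fun q _ => meas_I _ _)]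
    _ ≤ p * volume (I n k) := by
        gcongr
        refine iUnion₂_subset ?_
        rintro ⟨m, l⟩ ⟨hm, x, hxk, hxl, hQ, hmin⟩ z hz
        simp only [mem_I] at hz hxl hm ⊢
        rw [← hxk]
        exact bx_mono hm (by rw [hz, hxl])

/-- the data of the tree -/
structure Data (K H0 C θ : ℝ) (N0 : ℕ) (H : ℕ → ℤ → ℝ) (Av Th : ℕ → ℤ → Prop) : Prop where
  thick : ∀ n k, N0 ≤ n → Av n k → Th n k → H n k ≤ H0
  child : ∀ n x, N0 ≤ n → Av n (bx n x) → Av (n+1) (bx (n+1) x) →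
    H (n+1) (bx (n+1) x) ≤ K * H n (bx n x)
  weak : ∀ n k l, N0 ≤ n → Av n k → ¬ Th n k → 1 ≤ l →
    volume {x | bx n x = k ∧ ∃ m, n ≤ m ∧ (∀ j, n ≤ j → j ≤ m → Av j (bx j x) ∧ ¬ Th j (bx j x)) ∧
      l * H n k ≤ H m (bx m x)} ≤ ENNReal.ofReal (C * l^(-θ)) * volume (I n k)

/-- `b = 2^{1/16}` -/
noncomputable def b : ℝ := (2:ℝ)^((1:ℝ)/16)

theorem b_pos : 0 < b := by unfold b; positivity
theorem one_lt_b : 1 < b := by
  unfold b
  exact Real.one_lt_rpow (by norm_num) (by norm_num)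
theorem b_le_two : b ≤ 2 := by
  unfold b
  calc (2:ℝ)^((1:ℝ)/16) ≤ (2:ℝ)^(1:ℝ) :=
        Real.rpow_le_rpow_of_exponent_le (by norm_num) (by norm_num)
    _ = 2 := Real.rpow_one _

theorem lastThick {P : ℕ → Prop} {n : ℕ} (hn : P n) (m : ℕ) (hm : n ≤ m) :
    ∃ j, n ≤ j ∧ j ≤ m ∧ P j ∧ ∀ i, j < i → i ≤ m → ¬ P i := by
  induction m, hm using Nat.le_induction with
  | base => exact ⟨n, le_rfl, le_rfl, hn, fun i h1 h2 => absurd h2 (not_le.2 h1)⟩
  | succ m hm ih =>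
    by_cases h : P (m+1)
    · exact ⟨m+1, by omega, le_rfl, h, fun i h1 h2 => absurd h2 (not_le.2 h1)⟩
    · obtain ⟨j, h1, h2, h3, h4⟩ := ih
      refine ⟨j, h1, by omega, h3, fun i hi hi' => ?_⟩
      rcases Nat.lt_or_ge i (m+1) with h5 | h5
      · exact h4 i hi (by omega)
      · have : i = m+1 := le_antisymm hi' h5
        rw [this]; exact h

section
variable {K H0 C θ : ℝ} {N0 : ℕ} {H : ℕ → ℤ → ℝ} {Av Th : ℕ → ℤ → Prop}

/-- part (b): growth at rate `b^{m-n}` below a thick box -/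
theorem stepb (hK : 1 ≤ K) (hH0 : 1 ≤ H0) (hC : 0 ≤ C) (hθ : 0 < θ)
    (D : Data K H0 C θ N0 H Av Th) {n : ℕ} {k : ℤ} (hn : N0 ≤ n) (hth : Th n k)
    {l : ℝ} (hl : K * H0 ≤ l) :
    volume {x | bx n x = k ∧ ∃ m, n ≤ m ∧ (∀ j, n ≤ j → j ≤ m → Av j (bx j x)) ∧
      l * b^(m-n) < H m (bx m x)} ≤
      ENNReal.ofReal (C * (K*H0)^θ / (1 - b^(-θ)) * l^(-θ)) * volume (I n k) := by
  have hKH : 1 ≤ K * H0 := by nlinarith
  have hKH0 : 0 < K * H0 := by linarith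
  have hl1 : 1 ≤ l := le_trans hKH hl
  have hl0 : 0 < l := by linarith
  have hb := one_lt_b
  have hr0 : 0 ≤ b^(-θ) := (Real.rpow_pos_of_pos b_pos _).le
  have hr1 : b^(-θ) < 1 := Real.rpow_lt_one_of_one_lt_of_neg hb (by linarith)
  set X : ℕ → Set ℝ := fun i => {x | ∃ m, n+i+1 ≤ m ∧
    (∀ j, n+i+1 ≤ j → j ≤ m → Av j (bx j x) ∧ ¬ Th j (bx j x)) ∧
      (l * b^i / (K*H0)) * H (n+i+1) (bx (n+i+1) x) ≤ H m (bx m x)} with hX
  set Q : ℕ → ℕ → ℤ → Prop := fun i m a => m = n+i+1 ∧ Av m a ∧ ¬ Th m a with hQ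
  have hsub : {x | bx n x = k ∧ ∃ m, n ≤ m ∧ (∀ j, n ≤ j → j ≤ m → Av j (bx j x)) ∧
      l * b^(m-n) < H m (bx m x)} ⊆
      ⋃ i : ℕ, (I n k ∩ X i ∩ {x | ∃ m, n ≤ m ∧ Q i m (bx m x)}) := by
    rintro x ⟨hxk, m, hm, hav, hH⟩
    obtain ⟨j, hj1, hj2, hj3, hj4⟩ :=
      lastThick (P := fun j => Th j (bx j x)) (by simpa [hxk] using hth) m hm
    have hbm : (1:ℝ) ≤ b^(m-n) := one_le_pow₀ hb.le
    have hHj : H j (bx j x) ≤ H0 := D.thick j _ (by omega) (hav j hj1 hj2) hj3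
    have hjm : j < m := by
      rcases hj2.lt_or_eq with h | h
      · exact h
      · exfalso
        rw [h] at hHj
        have : H0 ≤ K * H0 := by nlinarith
        nlinarith
    have hH1 : H (j+1) (bx (j+1) x) ≤ K * H0 := by
      have := D.child j x (by omega) (hav j hj1 hj2) (hav (j+1) (by omega) (by omega))
      nlinarith
    obtain ⟨i, rfl⟩ : ∃ i, j = n + i := ⟨j - n, by omega⟩
    refine mem_iUnion.2 ⟨i, ⟨hxk, ?_⟩, ?_⟩
    · refine ⟨m, by omega, fun a ha ha' => ⟨hav a (by omega) ha', hj4 a (by omega) ha'⟩, ?_⟩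
      have h1 : (l * b^i / (K*H0)) * H (n+i+1) (bx (n+i+1) x) ≤ (l * b^i / (K*H0)) * (K*H0) := by
        have : 0 ≤ l * b^i / (K*H0) := by have := b_pos; positivity
        exact mul_le_mul_of_nonneg_left hH1 this
      have h2 : (l * b^i / (K*H0)) * (K*H0) = l * b^i := by field_simp
      have h3 : l * b^i ≤ l * b^(m-n) := by
        apply mul_le_mul_of_nonneg_left _ hl0.le
        exact pow_le_pow_right₀ hb.le (by omega)
      linarith
    · exact ⟨n+i+1, by omega, rfl, hav _ (by omega) (by omega), hj4 _ (by omega) (by omega)⟩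
  have hW : ∀ i : ℕ, volume (I n k ∩ X i ∩ {x | ∃ m, n ≤ m ∧ Q i m (bx m x)}) ≤
      ENNReal.ofReal (C * (K*H0)^θ * l^(-θ) * (b^(-θ))^i) * volume (I n k) := by
    intro i
    refine sel (X i) (Q i) _ n k ?_
    rintro m hm x hxk ⟨rfl, hav, hnt⟩
    have hbi : (1:ℝ) ≤ b^i := one_le_pow₀ hb.le
    have hle : 1 ≤ l * b^i / (K*H0) := by
      rw [le_div_iff₀ hKH0]
      nlinarith
    have := D.weak (n+i+1) (bx (n+i+1) x) (l * b^i / (K*H0)) (by omega) hav hnt hle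
    have hpow : (l * b^i / (K*H0))^(-θ) = (K*H0)^θ * l^(-θ) * (b^(-θ))^i := by
      rw [Real.div_rpow (by have := b_pos; positivity) hKH0.le,
        Real.mul_rpow hl0.le (by have := b_pos; positivity), Real.rpow_neg hKH0.le θ]
      rw [← Real.rpow_natCast b i, ← Real.rpow_natCast (b^(-θ)) i, ← Real.rpow_mul b_pos.le,
        ← Real.rpow_mul b_pos.le]
      rw [div_inv_eq_mul, mul_comm (i:ℝ) (-θ)]
      ring
    calc volume (I (n+i+1) (bx (n+i+1) x) ∩ X i)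
        ≤ volume {y | bx (n+i+1) y = bx (n+i+1) x ∧ ∃ m, n+i+1 ≤ m ∧
            (∀ j, n+i+1 ≤ j → j ≤ m → Av j (bx j y) ∧ ¬ Th j (bx j y)) ∧
            (l * b^i / (K*H0)) * H (n+i+1) (bx (n+i+1) x) ≤ H m (bx m y)} := by
          apply measure_mono
          rintro y ⟨hy1, m, hm, hy2, hy3⟩
          rw [mem_I] at hy1
          rw [hy1] at hy3
          exact ⟨hy1, m, hm, hy2, hy3⟩
      _ ≤ _ := this
      _ = _ := by rw [hpow]; congr 2; ring
  calc volume _ ≤ volume (⋃ i : ℕ, (I n k ∩ X i ∩ {x | ∃ m, n ≤ m ∧ Q i m (bx m x)})) :=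
        measure_mono hsub
    _ ≤ ∑' i : ℕ, volume (I n k ∩ X i ∩ {x | ∃ m, n ≤ m ∧ Q i m (bx m x)}) := measure_iUnion_le _
    _ ≤ ∑' i : ℕ, ENNReal.ofReal (C * (K*H0)^θ * l^(-θ) * (b^(-θ))^i) * volume (I n k) :=
        ENNReal.tsum_le_tsum hW
    _ = (∑' i : ℕ, ENNReal.ofReal (C * (K*H0)^θ * l^(-θ) * (b^(-θ))^i)) * volume (I n k) :=
        ENNReal.tsum_mul_right
    _ = ENNReal.ofReal (∑' i : ℕ, C * (K*H0)^θ * l^(-θ) * (b^(-θ))^i) * volume (I n k) := by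
        rw [ENNReal.ofReal_tsum_of_nonneg]
        · intro i; positivity
        · exact (summable_geometric_of_lt_one hr0 hr1).mul_left _
    _ = _ := by
        rw [tsum_mul_left, tsum_geometric_of_lt_one hr0 hr1]
        congr 2
        field_simp

/-- `S ≤ L`: the height at the ancestors is at most `L * 2^{(n-j)/2}`; `b^8 = √2`. -/
def SLe (N0 : ℕ) (H : ℕ → ℤ → ℝ) (L : ℝ) (n : ℕ) (x : ℝ) : Prop :=
  ∀ j, N0 ≤ j → j ≤ n → H j (bx j x) ≤ L * (b^8)^(n-j)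

theorem SLe_congr {L : ℝ} {n : ℕ} {x y : ℝ} (h : bx n x = bx n y) (hx : SLe N0 H L n x) :
    SLe N0 H L n y := by
  intro j h1 h2
  rw [← bx_mono h2 h]
  exact hx j h1 h2

theorem SLe_mono {L L' : ℝ} {n : ℕ} {x : ℝ} (h : L ≤ L') (hx : SLe N0 H L n x) :
    SLe N0 H L' n x := by
  intro j h1 h2
  refine (hx j h1 h2).trans ?_
  have := b_pos
  gcongr

/-- the points to which the statement applies -/
def B (N0 : ℕ) (Av Th : ℕ → ℤ → Prop) : Set ℝ :=
  {x | (∀ n, N0 ≤ n → Av n (bx n x)) ∧ ∀ N, ∃ n, N ≤ n ∧ Th n (bx n x)}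

/-- part (d1): one step of the descent -/
theorem stepd (hK : 1 ≤ K) (hH0 : 1 ≤ H0) (hC : 0 ≤ C) (hθ : 0 < θ)
    (D : Data K H0 C θ N0 H Av Th) {n : ℕ} {k : ℤ} (hn : N0 ≤ n) (hth : Th n k)
    {M : ℝ} (hM : K * H0 ≤ M) (hM2 : 2 ≤ M) (hS : ∀ x, bx n x = k → SLe N0 H (M^8) n x) :
    volume (I n k ∩ B N0 Av Th ∩ {x | ∀ m, n ≤ m → Th m (bx m x) → ¬ SLe N0 H (M^4) m x}) ≤
      ENNReal.ofReal ((C * (K*H0)^θ / (1 - b^(-θ)) + C) * M^(-θ)) * volume (I n k) := by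
  have hKH : 1 ≤ K * H0 := by nlinarith
  have hH0M : H0 ≤ M := by nlinarith
  have hM1 : 1 ≤ M := by linarith
  have hM0 : 0 < M := by linarith
  have hb := one_lt_b
  have hb0 := b_pos
  -- choice of r
  obtain ⟨r, hr1, hr2⟩ : ∃ r : ℕ, M ≤ b^r ∧ b^r ≤ 2 * M := by
    have hex : ∃ r : ℕ, M ≤ b^r := by
      obtain ⟨r, hr⟩ := pow_unbounded_of_one_lt M hb
      exact ⟨r, hr.le⟩
    classical
    refine ⟨Nat.find hex, Nat.find_spec hex, ?_⟩
    rcases Nat.eq_zero_or_pos (Nat.find hex) with h | h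
    · rw [h, pow_zero]; linarith
    · obtain ⟨q, hq⟩ : ∃ q, Nat.find hex = q + 1 := ⟨Nat.find hex - 1, by omega⟩
      have := Nat.find_min hex (m := q) (by omega)
      rw [hq, pow_succ]
      have hb2 := b_le_two
      push Not at this
      have hq0 : 0 < b^q := by positivity
      nlinarith
  have hs1 : (1:ℝ) ≤ b^8 := one_le_pow₀ hb.le
  set X : Set ℝ := {x | ∃ m, n+r ≤ m ∧
    (∀ j, n+r ≤ j → j ≤ m → Av j (bx j x) ∧ ¬ Th j (bx j x)) ∧
      M * H (n+r) (bx (n+r) x) ≤ H m (bx m x)} with hX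
  set Q : ℕ → ℤ → Prop := fun m a => m = n+r ∧ Av m a ∧ ¬ Th m a with hQ
  have hsub : I n k ∩ B N0 Av Th ∩ {x | ∀ m, n ≤ m → Th m (bx m x) → ¬ SLe N0 H (M^4) m x} ⊆
      {x | bx n x = k ∧ ∃ m, n ≤ m ∧ (∀ j, n ≤ j → j ≤ m → Av j (bx j x)) ∧
      M * b^(m-n) < H m (bx m x)} ∪ (I n k ∩ X ∩ {x | ∃ m, n ≤ m ∧ Q m (bx m x)}) := by
    rintro x ⟨⟨hxk, hxB⟩, hbad⟩
    by_contra hcon
    rw [mem_union, not_or] at hcon
    obtain ⟨hc1, hc2⟩ := hcon
    have hav : ∀ j, n ≤ j → Av j (bx j x) := fun j hj => hxB.1 j (by omega)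
    have hgr : ∀ m, n ≤ m → H m (bx m x) ≤ M * b^(m-n) := by
      intro m hm
      by_contra h
      exact hc1 ⟨hxk, m, hm, fun j hj _ => hav j hj, not_le.1 h⟩
    -- bound at generation n+r
    have hS1 : SLe N0 H (2*M^2) (n+r) x := by
      intro j hj1 hj2
      rcases le_total j n with hjn | hjn
      · have h1 := hS x hxk j hj1 hjn
        have h2 : (b^8)^(n+r-j) = (b^8)^(n-j) * (b^r)^8 := by
          rw [show n+r-j = (n-j) + r by omega, pow_add, ← pow_mul, ← pow_mul, ← pow_mul,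
            mul_comm r 8]
        have h3 : M^8 ≤ (b^r)^8 := by gcongr
        have h4 : 0 ≤ (b^8)^(n-j) := by positivity
        calc H j (bx j x) ≤ M^8 * (b^8)^(n-j) := h1
          _ ≤ (b^r)^8 * (b^8)^(n-j) := by gcongr
          _ = 1 * (b^8)^(n+r-j) := by rw [h2]; ring
          _ ≤ 2*M^2 * (b^8)^(n+r-j) := by
              have : (1:ℝ) ≤ 2*M^2 := by nlinarith
              gcongr
      · have h1 := hgr j hjn
        have h2 : b^(j-n) ≤ b^r := pow_le_pow_right₀ hb.le (by omega)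
        have h3 : (1:ℝ) ≤ (b^8)^(n+r-j) := one_le_pow₀ hs1
        calc H j (bx j x) ≤ M * b^(j-n) := h1
          _ ≤ M * (2*M) := by gcongr; exact h2.trans hr2
          _ = 2*M^2 * 1 := by ring
          _ ≤ 2*M^2 * (b^8)^(n+r-j) := by gcongr
    -- first thick after n+r
    classical
    have hex : ∃ m, n+r ≤ m ∧ Th m (bx m x) := hxB.2 (n+r)
    set m := Nat.find hex with hmdef
    obtain ⟨hm1, hm2⟩ := Nat.find_spec hex
    have hm3 : ∀ j, n+r ≤ j → j < m → ¬ Th j (bx j x) := fun j hj1 hj2 hj3 =>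
      Nat.find_min hex hj2 ⟨hj1, hj3⟩
    rw [← hmdef] at hm1 hm2
    refine hbad m (by omega) hm2 ?_
    rcases hm1.eq_or_lt with heq | hlt
    · rw [← heq]
      refine SLe_mono ?_ hS1
      nlinarith [mul_nonneg hM0.le hM0.le, sq_nonneg (M^2-2), pow_pos hM0 2]
    · -- the run n+r..m-1 is non thick
      have hrun : ∀ i, n+r ≤ i → i < m → H i (bx i x) ≤ M * (2*M^2) := by
        intro i hi1 hi2
        have hbase : H (n+r) (bx (n+r) x) ≤ 2*M^2 := by
          have := hS1 (n+r) (by omega) le_rfl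
          simpa using this
        by_contra hcon
        push Not at hcon
        apply hc2
        refine ⟨⟨hxk, i, hi1, fun j hj1 hj2 => ⟨hav j (by omega), hm3 j hj1 (by omega)⟩, ?_⟩,
          n+r, by omega, rfl, hav _ (by omega), hm3 _ le_rfl hlt⟩
        nlinarith
      intro j hj1 hj2
      rcases le_total j (n+r) with hjn | hjn
      · have h1 := hS1 j hj1 hjn
        have h2 : (b^8)^(n+r-j) ≤ (b^8)^(m-j) := pow_le_pow_right₀ hs1 (by omega)
        have h3 : 2*M^2 ≤ M^4 := by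
          nlinarith [mul_nonneg hM0.le hM0.le, sq_nonneg (M^2-2), pow_pos hM0 2]
        calc H j (bx j x) ≤ 2*M^2 * (b^8)^(n+r-j) := h1
          _ ≤ M^4 * (b^8)^(m-j) := by gcongr
      · have h3 : (1:ℝ) ≤ (b^8)^(m-j) := one_le_pow₀ hs1
        rcases hj2.lt_or_eq with hjm | hjm
        · have h1 := hrun j hjn hjm
          have h4 : M * (2*M^2) ≤ M^4 := by nlinarith [pow_pos hM0 3]
          calc H j (bx j x) ≤ M^4 * 1 := by linarith
            _ ≤ M^4 * (b^8)^(m-j) := by gcongr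
        · have h1 : H j (bx j x) ≤ H0 := D.thick j _ (by omega) (hav j (by omega))
            (by rw [hjm]; exact hm2)
          have h4 : M ≤ M^4 := by
            calc M = M^1 := (pow_one M).symm
              _ ≤ M^4 := pow_le_pow_right₀ hM1 (by norm_num)
          calc H j (bx j x) ≤ M^4 * 1 := by linarith
            _ ≤ M^4 * (b^8)^(m-j) := by gcongr
  have hW : volume (I n k ∩ X ∩ {x | ∃ m, n ≤ m ∧ Q m (bx m x)}) ≤
      ENNReal.ofReal (C * M^(-θ)) * volume (I n k) := by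
    refine sel X Q _ n k ?_
    rintro m hm x hxk ⟨rfl, hav, hnt⟩
    refine le_trans (measure_mono ?_)
      (D.weak (n+r) (bx (n+r) x) M (by omega) hav hnt hM1)
    rintro y ⟨hy1, m, hm, hy2, hy3⟩
    rw [mem_I] at hy1
    rw [hy1] at hy3
    exact ⟨hy1, m, hm, hy2, hy3⟩
  have hr1' : b^(-θ) < 1 := Real.rpow_lt_one_of_one_lt_of_neg hb (by linarith)
  have hden : 0 < 1 - b^(-θ) := by linarith
  have hKHt : 0 ≤ (K*H0)^θ := Real.rpow_nonneg (by linarith) _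
  have hMt : 0 ≤ M^(-θ) := Real.rpow_nonneg hM0.le _
  calc _ ≤ volume ({x | bx n x = k ∧ ∃ m, n ≤ m ∧ (∀ j, n ≤ j → j ≤ m → Av j (bx j x)) ∧
      M * b^(m-n) < H m (bx m x)} ∪ (I n k ∩ X ∩ {x | ∃ m, n ≤ m ∧ Q m (bx m x)})) :=
        measure_mono hsub
    _ ≤ _ := measure_union_le _ _
    _ ≤ ENNReal.ofReal (C * (K*H0)^θ / (1 - b^(-θ)) * M^(-θ)) * volume (I n k) +
        ENNReal.ofReal (C * M^(-θ)) * volume (I n k) :=
        add_le_add (stepb hK hH0 hC hθ D hn hth hM) hW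
    _ = _ := by
        rw [← add_mul, ← ENNReal.ofReal_add (by positivity) (by positivity)]
        congr 2; ring

/-- part (d2): the iteration -/
theorem iter (hK : 1 ≤ K) (hH0 : 1 ≤ H0) (hC : 0 ≤ C) (hθ : 0 < θ)
    (D : Data K H0 C θ N0 H Av Th) {m : ℝ} (hm : K * H0 ≤ m) (hm2 : 2 ≤ m)
    (hq : m^(-θ) ≤ 1/2) (hq2 : (C * (K*H0)^θ / (1 - b^(-θ)) + C) * m^(-θ) ≤ 1/4) (i : ℕ) :
    ∀ {n : ℕ} {k : ℤ}, N0 ≤ n → Th n k →
      (∀ x, bx n x = k → SLe N0 H ((m^(2^i))^4) n x) →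
      volume (I n k ∩ (B N0 Av Th ∩ {x | ∀ j, n ≤ j → Th j (bx j x) → ¬ SLe N0 H (m^4) j x})) ≤
        ENNReal.ofReal (1/2 - 1/2 * (1/2)^i) * volume (I n k) := by
  have hm1 : 1 ≤ m := by linarith
  have hm0 : 0 < m := by linarith
  induction i with
  | zero =>
    intro n k hn hth hS
    have : I n k ∩ (B N0 Av Th ∩ {x | ∀ j, n ≤ j → Th j (bx j x) → ¬ SLe N0 H (m^4) j x}) = ∅ := by
      rw [eq_empty_iff_forall_notMem]
      rintro x ⟨hxk, hxB, hbad⟩
      rw [mem_I] at hxk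
      refine hbad n le_rfl (by rw [hxk]; exact hth) ?_
      have := hS x hxk
      simpa using this
    rw [this]
    simp
  | succ i ih =>
    intro n k hn hth hS
    set M : ℝ := m^(2^i) with hM
    have hmM : m ≤ M := by
      rw [hM]
      exact le_self_pow₀ hm1 (by positivity)
    have hS' : ∀ x, bx n x = k → SLe N0 H (M^8) n x := by
      intro x hx
      have := hS x hx
      have h2 : (m^(2^(i+1)))^4 = M^8 := by
        rw [hM, ← pow_mul, ← pow_mul]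
        congr 1
        ring
      rwa [h2] at this
    have hd := stepd hK hH0 hC hθ D hn hth (hm.trans hmM) (hm2.trans hmM) hS'
    set Q : ℕ → ℤ → Prop := fun j a => Th j a ∧ ∀ y, bx j y = a → SLe N0 H (M^4) j y with hQ
    set Bad : Set ℝ := {x | ∀ j, n ≤ j → Th j (bx j x) → ¬ SLe N0 H (m^4) j x} with hBad
    have hsub : I n k ∩ (B N0 Av Th ∩ Bad) ⊆
        (I n k ∩ B N0 Av Th ∩ {x | ∀ m, n ≤ m → Th m (bx m x) → ¬ SLe N0 H (M^4) m x}) ∪
        (I n k ∩ (B N0 Av Th ∩ Bad) ∩ {x | ∃ j, n ≤ j ∧ Q j (bx j x)}) := by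
      rintro x ⟨hxk, hxB, hbad⟩
      by_cases h : ∃ j, n ≤ j ∧ Q j (bx j x)
      · exact Or.inr ⟨⟨hxk, hxB, hbad⟩, h⟩
      · left
        refine ⟨⟨hxk, hxB⟩, ?_⟩
        intro j hj hthj hSj
        exact h ⟨j, hj, hthj, fun y hy => SLe_congr hy.symm hSj⟩
    have hsel : volume (I n k ∩ (B N0 Av Th ∩ Bad) ∩ {x | ∃ j, n ≤ j ∧ Q j (bx j x)}) ≤
        ENNReal.ofReal (1/2 - 1/2 * (1/2)^i) * volume (I n k) := by
      refine sel _ Q _ n k ?_
      rintro j hj x hxk ⟨hthj, hSj⟩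
      refine le_trans (measure_mono ?_) (ih (by omega) hthj hSj)
      rintro y ⟨hy, hyB, hybad⟩
      exact ⟨hy, hyB, fun a ha => hybad a (by omega)⟩
    have hr1' : b^(-θ) < 1 := Real.rpow_lt_one_of_one_lt_of_neg one_lt_b (by linarith)
    have hden : 0 < 1 - b^(-θ) := by linarith
    have hKHt : 0 ≤ (K*H0)^θ := Real.rpow_nonneg (by nlinarith) _
    set A : ℝ := C * (K*H0)^θ / (1 - b^(-θ)) + C with hA
    have hA0 : 0 ≤ A := by positivity
    set q : ℝ := m^(-θ) with hqdef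
    have hq0 : 0 ≤ q := Real.rpow_nonneg hm0.le _
    have hMq : M^(-θ) = q^(2^i) := by
      rw [hM, hqdef, ← Real.rpow_natCast, ← Real.rpow_natCast, ← Real.rpow_mul hm0.le,
        ← Real.rpow_mul hm0.le, mul_comm]
    have hpw : q^(2^i) ≤ q * (1/2)^i := by
      have h1 : q^(2^i) ≤ q^(i+1) :=
        pow_le_pow_of_le_one hq0 (by linarith) (Nat.lt_two_pow_self)
      have h2 : q^i ≤ (1/2)^i := pow_le_pow_left₀ hq0 hq i
      calc q^(2^i) ≤ q^(i+1) := h1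
        _ = q * q^i := by ring
        _ ≤ q * (1/2)^i := by gcongr
    have hfin : A * M^(-θ) ≤ 1/4 * (1/2)^i := by
      rw [hMq]
      calc A * q^(2^i) ≤ A * (q * (1/2)^i) := by gcongr
        _ = (A * q) * (1/2)^i := by ring
        _ ≤ 1/4 * (1/2)^i := by gcongr
    have hhalf : ((1:ℝ)/2)^i ≤ 1 := pow_le_one₀ (by norm_num) (by norm_num)
    calc _ ≤ _ := measure_mono hsub
      _ ≤ _ := measure_union_le _ _
      _ ≤ ENNReal.ofReal (A * M^(-θ)) * volume (I n k) +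
          ENNReal.ofReal (1/2 - 1/2 * (1/2)^i) * volume (I n k) := add_le_add hd hsel
      _ = ENNReal.ofReal (A * M^(-θ) + (1/2 - 1/2 * (1/2)^i)) * volume (I n k) := by
          rw [← add_mul, ← ENNReal.ofReal_add]
          · rw [hMq]; positivity
          · linarith
      _ ≤ _ := by
          gcongr
          rw [pow_succ]
          linarith

/-- density step: the bad set is null -/
theorem null (hK : 1 ≤ K) (hH0 : 1 ≤ H0) (hC : 0 ≤ C) (hθ : 0 < θ)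
    (D : Data K H0 C θ N0 H Av Th) {m : ℝ} (hm : K * H0 ≤ m) (hm2 : 2 ≤ m)
    (hq : m^(-θ) ≤ 1/2) (hq2 : (C * (K*H0)^θ / (1 - b^(-θ)) + C) * m^(-θ) ≤ 1/4) (N : ℕ) :
    volume (B N0 Av Th ∩ {x | ∀ j, N ≤ j → Th j (bx j x) → ¬ SLe N0 H (m^4) j x}) = 0 := by
  set E : Set ℝ := B N0 Av Th ∩ {x | ∀ j, N ≤ j → Th j (bx j x) → ¬ SLe N0 H (m^4) j x} with hE
  by_contra hne
  have hm1 : 1 ≤ m := by linarith
  -- a density point
  have hae := IsUnifLocDoublingMeasure.ae_tendsto_measure_inter_div (volume : Measure ℝ) E 1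
  have hmem : ∃ x ∈ E, ∀ {ι : Type} {l : Filter ι} (w : ι → ℝ) (δ : ι → ℝ),
      Tendsto δ l (𝓝[>] 0) → (∀ᶠ j in l, x ∈ Metric.closedBall (w j) (1 * δ j)) →
      Tendsto (fun j => volume (E ∩ Metric.closedBall (w j) (δ j)) /
        volume (Metric.closedBall (w j) (δ j))) l (𝓝 1) := by
    by_contra hcon
    push Not at hcon
    apply hne
    rw [ae_iff] at hae
    have h1 : E ⊆ E ∩ {a | ¬∀ {ι : Type} {l : Filter ι} (w : ι → ℝ) (δ : ι → ℝ),
      Tendsto δ l (𝓝[>] 0) → (∀ᶠ j in l, a ∈ Metric.closedBall (w j) (1 * δ j)) →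
      Tendsto (fun j => volume (E ∩ Metric.closedBall (w j) (δ j)) /
        volume (Metric.closedBall (w j) (δ j))) l (𝓝 1)} := by
      intro x hx
      refine ⟨hx, ?_⟩
      obtain ⟨ι, l, w, δ, h1, h2, h3⟩ := hcon x hx
      intro h
      exact h3 (h w δ h1 h2)
    have h2 := Measure.le_restrict_apply (μ := volume) E
      {a | ¬∀ {ι : Type} {l : Filter ι} (w : ι → ℝ) (δ : ι → ℝ),
      Tendsto δ l (𝓝[>] 0) → (∀ᶠ j in l, a ∈ Metric.closedBall (w j) (1 * δ j)) →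
      Tendsto (fun j => volume (E ∩ Metric.closedBall (w j) (δ j)) /
        volume (Metric.closedBall (w j) (δ j))) l (𝓝 1)}
    rw [hae, inter_comm] at h2
    exact le_antisymm ((measure_mono h1).trans h2) bot_le
  obtain ⟨x, hxE, hx⟩ := hmem
  set w : ℕ → ℝ := fun n => ((bx n x : ℝ) + 1/2) / 2^n with hw
  set δ : ℕ → ℝ := fun n => (1/2) / 2^n with hδ
  have hball : ∀ n, Metric.closedBall (w n) (δ n) = Icc ((bx n x : ℝ)/2^n) (((bx n x : ℝ)+1)/2^n) := by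
    intro n
    rw [Real.closedBall_eq_Icc, hw, hδ]
    congr 1
    · simp only; ring
    · simp only; ring
  have hIx : ∀ n, x ∈ I n (bx n x) := fun n => rfl
  have hlim := hx w δ (l := atTop) (by
    rw [tendsto_nhdsWithin_iff]
    constructor
    · have h1 : Tendsto (fun n : ℕ => (1/2:ℝ) * (1/2)^n) atTop (𝓝 ((1/2) * 0)) :=
        (tendsto_pow_atTop_nhds_zero_of_lt_one (by norm_num) (by norm_num)).const_mul _
      rw [mul_zero] at h1
      refine h1.congr (fun n => ?_)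
      rw [hδ]; simp only
      rw [one_div, inv_pow]; ring
    · filter_upwards with n
      rw [hδ]; simp only [mem_Ioi]; positivity) (by
    filter_upwards with n
    rw [one_mul, hball]
    have := hIx n
    rw [I_eq] at this
    exact ⟨this.1, this.2.le⟩)
  have hev : ∀ᶠ n in atTop, ENNReal.ofReal (1/2) < volume (E ∩ Metric.closedBall (w n) (δ n)) /
        volume (Metric.closedBall (w n) (δ n)) := by
    refine hlim.eventually_const_lt ?_
    rw [← ENNReal.ofReal_one]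
    exact (ENNReal.ofReal_lt_ofReal_iff (by norm_num)).2 (by norm_num)
  obtain ⟨N1, hN1⟩ := eventually_atTop.1 hev
  obtain ⟨n, hn, hth⟩ := hxE.1.2 (max N1 (max N N0))
  have hnN1 : N1 ≤ n := le_trans (le_max_left _ _) hn
  have hnN : N ≤ n := le_trans ((le_max_left _ _).trans (le_max_right _ _)) hn
  have hnN0 : N0 ≤ n := le_trans ((le_max_right _ _).trans (le_max_right _ _)) hn
  have h1 := hN1 n hnN1
  -- finite S
  obtain ⟨i, hi⟩ : ∃ i : ℕ, ∑ j ∈ Finset.range (n+1), |H j (bx j x)| ≤ (i:ℝ) := exists_nat_ge _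
  have hSx : SLe N0 H ((m^(2^i))^4) n x := by
    intro j hj1 hj2
    have h2 : |H j (bx j x)| ≤ ∑ j ∈ Finset.range (n+1), |H j (bx j x)| :=
      Finset.single_le_sum (f := fun j => |H j (bx j x)|) (fun _ _ => abs_nonneg _)
        (Finset.mem_range.2 (by omega))
    have h3 : (i:ℝ) ≤ m^(2^i) := by
      have h4 : (i:ℝ) ≤ ((2^i : ℕ) : ℝ) := by exact_mod_cast (Nat.lt_two_pow_self).le
      have h5 : (((2^i : ℕ) : ℕ) : ℝ) ≤ ((2^(2^i) : ℕ) : ℝ) := by
        exact_mod_cast (Nat.lt_two_pow_self).le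
      have h6 : ((2^(2^i) : ℕ) : ℝ) ≤ m^(2^i) := by
        push_cast
        exact pow_le_pow_left₀ (by norm_num) hm2 _
      linarith
    have h7 : (1:ℝ) ≤ m^(2^i) := one_le_pow₀ hm1
    have h8 : m^(2^i) ≤ (m^(2^i))^4 := le_self_pow₀ h7 (by norm_num)
    have h9 : (1:ℝ) ≤ (b^8)^(n-j) := one_le_pow₀ (one_le_pow₀ one_lt_b.le)
    have h10 : 0 ≤ (m^(2^i))^4 := by linarith
    have h11 := le_abs_self (H j (bx j x))
    nlinarith
  have h2 := iter hK hH0 hC hθ D hm hm2 hq hq2 i (k := bx n x) hnN0 hth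
    (fun y hy => SLe_congr hy.symm hSx)
  have hvolball : volume (Metric.closedBall (w n) (δ n)) = volume (I n (bx n x)) := by
    rw [hball, I_eq, Real.volume_Icc, Real.volume_Ico]
  have hvolI : volume (I n (bx n x)) ≠ 0 := by
    rw [vol_I]
    exact (ENNReal.ofReal_pos.2 (by positivity)).ne'
  have hvolI' : volume (I n (bx n x)) ≠ ⊤ := by
    rw [vol_I]
    exact ENNReal.ofReal_ne_top
  have h3 : volume (E ∩ Metric.closedBall (w n) (δ n)) ≤
      ENNReal.ofReal (1/2) * volume (I n (bx n x)) := by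
    have hsub : E ∩ Metric.closedBall (w n) (δ n) ⊆
        (I n (bx n x) ∩ (B N0 Av Th ∩ {x | ∀ j, n ≤ j → Th j (bx j x) → ¬ SLe N0 H (m^4) j x})) ∪
        {(((bx n x : ℝ)+1)/2^n)} := by
      rintro y ⟨hyE, hyb⟩
      rw [hball] at hyb
      rcases hyb.2.lt_or_eq with h | h
      · left
        refine ⟨by rw [I_eq]; exact ⟨hyb.1, h⟩, hyE.1, fun j hj => hyE.2 j (by omega)⟩
      · right; exact h
    calc _ ≤ _ := measure_mono hsub
      _ ≤ _ := measure_union_le _ _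
      _ ≤ ENNReal.ofReal (1/2 - 1/2 * (1/2)^i) * volume (I n (bx n x)) + 0 := by
          refine add_le_add h2 ?_
          rw [Real.volume_singleton]
      _ ≤ _ := by
          rw [add_zero]
          gcongr
          have : (0:ℝ) ≤ 1/2 * (1/2)^i := by positivity
          linarith
  rw [hvolball] at h1
  have h4 : volume (E ∩ Metric.closedBall (w n) (δ n)) / volume (I n (bx n x)) ≤
      ENNReal.ofReal (1/2) := by
    exact ENNReal.div_le_of_le_mul h3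
  exact absurd h1 (not_lt.2 h4)

end

/-- **LEMMA G, tree part** ((b) + (d)).  The constant depends only on `K, H0, C, θ`. -/
theorem tree {K H0 C θ : ℝ} (hK : 1 ≤ K) (hH0 : 1 ≤ H0) (hC : 0 ≤ C) (hθ : 0 < θ) :
    ∃ Cs : ℝ, 1 ≤ Cs ∧ ∀ (N0 : ℕ) (H : ℕ → ℤ → ℝ) (Av Th : ℕ → ℤ → Prop),
      Data K H0 C θ N0 H Av Th →
      ∀ᵐ x : ℝ, (∀ n, N0 ≤ n → Av n (bx n x)) → (∀ N, ∃ n, N ≤ n ∧ Th n (bx n x)) →
        ∀ N, ∃ n, N ≤ n ∧ Th n (bx n x) ∧
          ∀ j, N0 ≤ j → j ≤ n → H j (bx j x) ≤ Cs * (2:ℝ)^(((n:ℝ)-j)/2) := by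
  -- choice of m
  have hr1' : b^(-θ) < 1 := Real.rpow_lt_one_of_one_lt_of_neg one_lt_b (by linarith)
  have hden : 0 < 1 - b^(-θ) := by linarith
  have hKHt : 0 ≤ (K*H0)^θ := Real.rpow_nonneg (by nlinarith) _
  obtain ⟨A, hA⟩ : ∃ A, A = C * (K*H0)^θ / (1 - b^(-θ)) + C := ⟨_, rfl⟩
  have hA0 : 0 ≤ A := by rw [hA]; positivity
  have ht := tendsto_rpow_neg_atTop hθ
  have h1 : ∀ᶠ m : ℝ in atTop, m^(-θ) ≤ 1/2 := (ht.eventually_le_const (by norm_num))
  have h2 : ∀ᶠ m : ℝ in atTop, A * m^(-θ) ≤ 1/4 := by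
    have := ht.const_mul A
    rw [mul_zero] at this
    exact this.eventually_le_const (by norm_num)
  obtain ⟨m, ⟨⟨hm1, hm2⟩, hm3⟩, hm4⟩ := (((h1.and h2).and (eventually_ge_atTop (2:ℝ))).and
    (eventually_ge_atTop (K*H0))).exists
  refine ⟨m^4, one_le_pow₀ (by linarith), ?_⟩
  intro N0 H Av Th D
  have hall : ∀ᵐ x : ℝ, ∀ N : ℕ,
      x ∉ B N0 Av Th ∩ {x | ∀ j, N ≤ j → Th j (bx j x) → ¬ SLe N0 H (m^4) j x} := by
    rw [ae_all_iff]
    intro N
    have := null hK hH0 hC hθ D hm4 hm3 hm1 (by rw [← hA]; exact hm2) N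
    exact measure_eq_zero_iff_ae_notMem.1 this
  filter_upwards [hall] with x hx hav hth N
  have h3 := hx N
  by_contra hcon
  push Not at hcon
  apply h3
  refine ⟨⟨hav, hth⟩, ?_⟩
  intro j hj hthj hS
  obtain ⟨a, ha1, ha2, ha3⟩ := hcon j hj hthj
  have h4 := hS a ha1 ha2
  have h5 : ((b^8)^(j-a) : ℝ) = (2:ℝ)^(((j:ℝ)-a)/2) := by
    rw [← pow_mul, ← Real.rpow_natCast b]
    unfold b
    rw [← Real.rpow_mul (by norm_num)]
    congr 1
    push_cast [Nat.cast_sub ha2]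
    ring
  rw [h5] at h4
  exact absurd h4 (not_le.2 ha3)

/-- the form of 672 #24574: the weak type estimate is only known above a level `H1`. -/
theorem tree_H1 {K H0 H1 C θ : ℝ} (hK : 1 ≤ K) (hH0 : 1 ≤ H0) (hθ : 0 < θ) :
    ∃ Cs : ℝ, 1 ≤ Cs ∧ ∀ (N0 : ℕ) (H : ℕ → ℤ → ℝ) (Av Th : ℕ → ℤ → Prop),
      (∀ n k, 1 ≤ H n k) →
      (∀ n k, N0 ≤ n → Av n k → Th n k → H n k ≤ H0) →
      (∀ n x, N0 ≤ n → Av n (bx n x) → Av (n+1) (bx (n+1) x) →
        H (n+1) (bx (n+1) x) ≤ K * H n (bx n x)) →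
      (∀ n k l, N0 ≤ n → Av n k → 1 ≤ l →
        volume {x | x ∈ I n k ∧ ∃ m, n ≤ m ∧
          (∀ j, n ≤ j → j ≤ m → Av j (bx j x) ∧ ¬ Th j (bx j x)) ∧
          max (l * H n k) H1 ≤ H m (bx m x)} ≤ ENNReal.ofReal (C * l^(-θ) / 2^n)) →
      ∀ᵐ x : ℝ, (∀ n, N0 ≤ n → Av n (bx n x)) → (∀ N, ∃ n, N ≤ n ∧ Th n (bx n x)) →
        ∀ N, ∃ n, N ≤ n ∧ Th n (bx n x) ∧
          ∀ j, N0 ≤ j → j ≤ n → H j (bx j x) ≤ Cs * (2:ℝ)^(((n:ℝ)-j)/2) := by
  set H1' : ℝ := max H1 1 with hH1'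
  have hH1'1 : 1 ≤ H1' := le_max_right _ _
  set C' : ℝ := max C (H1'^θ) with hC'
  have hC'0 : 0 ≤ C' := le_trans (Real.rpow_nonneg (by linarith) _) (le_max_right _ _)
  obtain ⟨Cs, hCs, h⟩ := tree (C := C') hK hH0 hC'0 hθ
  refine ⟨Cs, hCs, ?_⟩
  intro N0 H Av Th h1 hT1 hT2 hT3
  refine h N0 H Av Th ⟨hT1, hT2, ?_⟩
  intro n k l hn hav hnt hl
  have hl0 : 0 < l := by linarith
  rw [vol_I, ← ENNReal.ofReal_mul (by positivity)]
  rcases le_or_gt H1 (l * H n k) with hle | hlt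
  · have h2 := hT3 n k l hn hav hl
    rw [max_eq_left hle] at h2
    refine h2.trans (ENNReal.ofReal_le_ofReal ?_)
    rw [div_eq_mul_one_div]
    gcongr
    exact le_max_left _ _
  · have h3 : l ≤ H1' := by
      have := h1 n k
      have h4 : H1 ≤ H1' := le_max_left _ _
      nlinarith
    have h4 : 1 ≤ C' * l^(-θ) := by
      have h5 : H1'^θ * H1'^(-θ) = 1 := by
        rw [← Real.rpow_add (by linarith)]; simp
      have h6 : H1'^(-θ) ≤ l^(-θ) := Real.rpow_le_rpow_of_nonpos hl0 h3 (by linarith)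
      have h7 : 0 ≤ H1'^θ := Real.rpow_nonneg (by linarith) _
      calc 1 = H1'^θ * H1'^(-θ) := h5.symm
        _ ≤ C' * l^(-θ) := by
          gcongr
          exact le_max_right _ _
    calc _ ≤ volume (I n k) := measure_mono (fun x hx => hx.1)
      _ = ENNReal.ofReal (1/2^n) := vol_I n k
      _ ≤ _ := by
        apply ENNReal.ofReal_le_ofReal
        have : (0:ℝ) ≤ 1/2^n := by positivity
        nlinarith

end Crest.Agent.R102.TreeG196
end

-- ▼ part R102/Tree_196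
section

/-! # The literal `Tree` of LemGDefs_672 (helper196) -/

open Set Filter Metric MeasureTheory
open scoped Topology ENNReal

namespace Crest.Agent.R102.Tree196

open LemG672 in
theorem bx_eq (n : ℕ) (x : ℝ) : LemG672.bx n x = TreeG196.bx n x := rfl

theorem Iv_eq (n : ℕ) (k : ℤ) : LemG672.Iv n k = TreeG196.I n k := (TreeG196.I_eq n k).symm

/-- the pure tree lemma, literally -/
theorem tree : LemG672.Tree := by
  intro K H0 H1 C θ hθ
  obtain ⟨Cs, -, h⟩ := TreeG196.tree_H1 (K := max K 1) (H0 := max H0 1) (H1 := H1) (C := C) (θ := θ)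
    (le_max_right _ _) (le_max_right _ _) hθ
  refine ⟨Cs, ?_⟩
  intro H A T h1 hT1 hT2 hT3 n0
  have key := h n0 H A T h1 (fun n k _ _ hth => (hT1 n k hth).trans (le_max_left _ _)) ?_ ?_
  · filter_upwards [key] with x hx hav hth
    rw [frequently_atTop] at hth ⊢
    intro N
    obtain ⟨n, hn, hthn, hj⟩ := hx hav (fun N => by
      obtain ⟨n, hn, h⟩ := hth N
      exact ⟨n, hn, h⟩) N
    exact ⟨n, hn, hthn, hj⟩
  · intro n x hn hav hav'
    have hp : TreeG196.bx n x = TreeG196.bx (n+1) x / 2 := TreeG196.bx_succ n x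
    rw [hp] at hav ⊢
    have h2 := (hT2 n (TreeG196.bx (n+1) x) hav hav').1
    have h3 := h1 n (TreeG196.bx (n+1) x / 2)
    have h4 : K ≤ max K 1 := le_max_left _ _
    nlinarith
  · intro n k l hn hav hl
    have h2 := hT3 n k hav l hl
    unfold LemG672.RunSet at h2
    simp only [Iv_eq, bx_eq] at h2
    exact h2

end Crest.Agent.R102.Tree196
end

-- ▼ part R102/InfThick_239
section

/-! # LEMMA G (a): infinitely many thick boxes, or a limit different from `0`, `1` -/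

open Set Filter Metric MeasureTheory
open scoped Topology ENNReal

namespace Crest.Agent.R102.InfThick239

open LemG672 LP472

/-- a point of the narrow cone at `x` is in the large closed ball of the dyadic box over `x` -/
theorem mem_closedBall_zp {x : ℝ} {z : ℂ} {n : ℕ} (h1 : 1 / 2 * (1 / 2 ^ n : ℝ) ≤ z.im)
    (h2 : z.im ≤ 1 / 2 ^ n) (h3 : |z.re - x| ≤ 1 / 100 * z.im) :
    z ∈ closedBall (zp n (bx n x)) (98 / 100 * (3 / 4 * (1 / 2 ^ n))) := by
  have hp : (0 : ℝ) < 1 / 2 ^ n := by positivity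
  set p : ℝ := 1 / 2 ^ n with hpdef
  have hre : |z.re - (zp n (bx n x)).re| ≤ 51 / 100 * p := by
    have e1 := zp_bx n x
    have e2 : z.re - (zp n (bx n x)).re = (z.re - x) - ((zp n (bx n x)).re - x) := by ring
    rw [e2]
    refine (abs_sub _ _).trans ?_
    rw [← hpdef] at e1
    nlinarith
  have him : |z.im - (zp n (bx n x)).im| ≤ 1 / 2 * p := by
    rw [zp_im, ← hpdef, abs_le]
    constructor <;> linarith
  rw [mem_closedBall, dist_eq_norm]
  have hsq : ‖z - zp n (bx n x)‖ ^ 2 ≤ (98 / 100 * (3 / 4 * p)) ^ 2 := by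
    rw [← Complex.normSq_eq_norm_sq, Complex.normSq_apply, Complex.sub_re, Complex.sub_im]
    have a1 := abs_le.1 hre
    have a2 := abs_le.1 him
    nlinarith [abs_le.1 hre, abs_le.1 him]
  exact abs_le_of_sq_le_sq' hsq (by positivity) |>.2

/-- height of a point is in a dyadic window -/
theorem exists_dyadic {N : ℕ} {y : ℝ} (h0 : 0 < y) (h1 : y < 1 / 2 ^ N) :
    ∃ n, N ≤ n ∧ 1 / 2 * (1 / 2 ^ n : ℝ) ≤ y ∧ y ≤ 1 / 2 ^ n := by
  obtain ⟨m, hm⟩ : ∃ m : ℕ, (1 / 2 : ℝ) ^ m < y := exists_pow_lt_of_lt_one h0 (by norm_num)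
  classical
  have hex : ∃ m : ℕ, (1 / 2 : ℝ) ^ m ≤ y := ⟨m, hm.le⟩
  set k := Nat.find hex with hk
  have hk1 : (1 / 2 : ℝ) ^ k ≤ y := Nat.find_spec hex
  have hk0 : N < k := by
    by_contra hcon
    push Not at hcon
    have : (1 / 2 : ℝ) ^ N ≤ (1 / 2 : ℝ) ^ k := pow_le_pow_of_le_one (by norm_num) (by norm_num) hcon
    rw [← one_div_pow] at h1
    linarith
  have hk2 : y < (1 / 2 : ℝ) ^ (k - 1) := by
    have := Nat.find_min hex (m := k - 1) (by omega)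
    push Not at this
    exact this
  refine ⟨k - 1, by omega, ?_, ?_⟩
  · have : (1 / 2 : ℝ) ^ k = 1 / 2 * (1 / 2 ^ (k - 1)) := by
      rw [← one_div_pow, ← pow_succ']
      congr 1; omega
    linarith
  · rw [← one_div_pow]; exact hk2.le

theorem bounded_cone {W : Set ℂ} {F : ℂ → ℂ} (hF : Omit W F) {x : ℝ} {N : ℕ}
    (hA : ∀ n, N ≤ n → Av W n (bx n x)) {M : ℝ} (hM : ∀ n, N ≤ n → ‖F (zp n (bx n x))‖ ≤ M) :
    ∀ z ∈ Cone (1 / 100) (1 / 2 ^ N) x, z ∈ W ∧ ‖F z‖ ≤ M948.Psi M (98 / 100) := by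
  intro z hz
  obtain ⟨n, hn, h1, h2⟩ := exists_dyadic hz.1 hz.2.1
  have h3 := mem_closedBall_zp h1 h2 hz.2.2.le
  have hp : (0 : ℝ) < 1 / 2 ^ n := by positivity
  have hb := hA n hn
  refine ⟨hb (closedBall_subset_ball (by nlinarith) h3), ?_⟩
  exact M948.schottky (by positivity) (hF.2.1.mono hb) (fun z hz => (hF.2.2 z (hb hz)).1)
    (fun z hz => (hF.2.2 z (hb hz)).2) (hM n hn) (by norm_num) (by norm_num) z h3

theorem bx_div (n : ℕ) (x : ℝ) : bx n x = bx (n + 1) x / 2 := by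
  unfold bx
  rw [pow_succ', mul_assoc]
  set y : ℝ := (2 : ℝ) ^ n * x
  rw [Int.floor_eq_iff]
  have h1 := Int.floor_le (2 * y)
  have h2 := Int.lt_floor_add_one (2 * y)
  have h3 : 2 * (⌊2 * y⌋ / 2) ≤ ⌊2 * y⌋ := by omega
  have h4 : ⌊2 * y⌋ ≤ 2 * (⌊2 * y⌋ / 2) + 1 := by omega
  have h3' : (2 : ℝ) * ((⌊2 * y⌋ / 2 : ℤ) : ℝ) ≤ (⌊2 * y⌋ : ℝ) := by exact_mod_cast h3
  have h4' : (⌊2 * y⌋ : ℝ) ≤ 2 * ((⌊2 * y⌋ / 2 : ℤ) : ℝ) + 1 := by exact_mod_cast h4
  constructor <;> linarith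

theorem omit_inv {W : Set ℂ} {F : ℂ → ℂ} (hF : Omit W F) : Omit W (fun z => (F z)⁻¹) := by
  refine ⟨hF.1, ?_, fun z hz => ⟨inv_ne_zero (hF.2.2 z hz).1, ?_⟩⟩
  · exact hF.2.1.inv fun z hz => (hF.2.2 z hz).1
  · intro h
    exact (hF.2.2 z hz).2 (inv_eq_one.1 h)

/-- Privalov: a zero free function has a.e. no limit `0` -/
theorem ae_not_tendsto_zero {W : Set ℂ} (hW : IsOpen W) {f : ℂ → ℂ} (hf : DifferentiableOn ℂ f W)
    (h0 : ∀ z ∈ W, f z ≠ 0) {a : ℝ} (ha : 0 < a) :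
    ∀ᵐ x : ℝ, ¬ ∃ h > 0, Cone a h x ⊆ W ∧ Tendsto f (𝓝[Cone a h x] (x : ℂ)) (𝓝 0) := by
  by_contra hcon
  have hE : volume {x : ℝ | ∃ h > 0, Cone a h x ⊆ W ∧
      Tendsto f (𝓝[Cone a h x] (x : ℂ)) (𝓝 0)} ≠ 0 := by
    intro h
    apply hcon
    rw [ae_iff]
    simpa using h
  obtain ⟨z, hz, he⟩ := lusin_privalov hW hf ha hE (fun x hx => hx)
  exact h0 z hz he.self_of_nhds

/-- limits of `F` are a.e. different from `0` and `1` -/
theorem ae_limit {W : Set ℂ} {F : ℂ → ℂ} (hF : Omit W F) {E : Set ℝ}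
    (hE : ∀ x ∈ E, ∃ h > 0, ∃ M : ℝ, Cone (1 / 100) h x ⊆ W ∧
      ∀ z ∈ Cone (1 / 100) h x, ‖F z‖ ≤ M) :
    ∀ᵐ x : ℝ, x ∈ E → ∃ l : ℂ, l ≠ 0 ∧ l ≠ 1 ∧ ∀ b > 0, ∃ h > 0, Cone b h x ⊆ W ∧
      Tendsto F (𝓝[Cone b h x] (x : ℂ)) (𝓝 l) := by
  have h1 := fatou_local hF.1 hF.2.1 (a := 1 / 100) (by norm_num) hE
  have h2 := ae_not_tendsto_zero hF.1 hF.2.1 (fun z hz => (hF.2.2 z hz).1) (a := 1) one_pos
  have h3 := ae_not_tendsto_zero hF.1 (f := fun z => F z - 1) (hF.2.1.sub_const 1)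
    (fun z hz => sub_ne_zero.2 (hF.2.2 z hz).2) (a := 1) one_pos
  filter_upwards [h1, h2, h3] with x hx1 hx2 hx3 hxE
  obtain ⟨l, hl⟩ := hx1 hxE
  obtain ⟨h, hh, hc, ht⟩ := hl 1 one_pos
  refine ⟨l, ?_, ?_, hl⟩
  · rintro rfl
    exact hx2 ⟨h, hh, hc, ht⟩
  · rintro rfl
    exact hx3 ⟨h, hh, hc, by simpa using ht.sub_const 1⟩

theorem nhdsWithin_Cone {b h h' x : ℝ} (hh : 0 < h) (hh' : 0 < h') :
    𝓝[Cone b h x] (x : ℂ) = 𝓝[Cone b h' x] (x : ℂ) := by
  have key : ∀ {h h' : ℝ}, 0 < h → 0 < h' →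
      𝓝[Cone b h x] (x : ℂ) ≤ 𝓝[Cone b h' x] (x : ℂ) := by
    intro h h' hh hh'
    rw [nhdsWithin, nhdsWithin, le_inf_iff]
    refine ⟨inf_le_left, ?_⟩
    rw [le_principal_iff, mem_inf_principal]
    have : {z : ℂ | z.im < h'} ∈ 𝓝 (x : ℂ) :=
      (isOpen_lt Complex.continuous_im continuous_const).mem_nhds (by simpa using hh')
    filter_upwards [this] with z hz hzc
    exact ⟨hzc.1, hz, hzc.2.2⟩
  exact le_antisymm (key hh hh') (key hh' hh)

theorem infThick : InfThick := by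
  set Q : ℝ := M948.Psi 2 (98 / 100) with hQ
  have hQ0 : 0 < Q := M948.Psi_pos _ _
  refine ⟨max 2 (1 + Real.log Q), 1, le_trans (by norm_num) (le_max_left _ _), one_pos, ?_⟩
  intro T e hT he he1 W F hF a h P ha hh hP
  have hT2 : 2 ≤ T := (le_max_left _ _).trans hT
  have hTQ : 1 + Real.log Q ≤ T := (le_max_right _ _).trans hT
  -- heights
  obtain ⟨N0, hN0⟩ : ∃ N0 : ℕ, ∀ n, N0 ≤ n → 7 / 4 * (1 / 2 ^ n : ℝ) ≤ h := by
    obtain ⟨m, hm⟩ : ∃ m : ℕ, (1 / 2 : ℝ) ^ m < h / 2 :=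
      exists_pow_lt_of_lt_one (by positivity) (by norm_num)
    refine ⟨m, fun n hn => ?_⟩
    have h1 : (1 / 2 : ℝ) ^ n ≤ (1 / 2 : ℝ) ^ m :=
      pow_le_pow_of_le_one (by norm_num) (by norm_num) hn
    rw [← one_div_pow]
    linarith
  have hAv : ∀ x ∈ P, ∀ n, N0 ≤ n → Av W n (bx n x) := fun x hx n hn =>
    av_of_cone ha (hP x hx) (hN0 n hn)
  -- the two bounded classes
  set E1 : Set ℝ := {x | x ∈ P ∧ ∃ N, N0 ≤ N ∧ ∀ n, N ≤ n → ‖F (zp n (bx n x))‖ ≤ 2} with hE1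
  set E2 : Set ℝ := {x | x ∈ P ∧ ∃ N, N0 ≤ N ∧ ∀ n, N ≤ n → ‖(F (zp n (bx n x)))⁻¹‖ ≤ 2} with hE2
  have hF' := omit_inv hF
  have k1 := ae_limit hF (E := E1) (by
    rintro x ⟨hx, N, hN, hb⟩
    have := bounded_cone hF (fun n hn => hAv x hx n (hN.trans hn)) hb
    exact ⟨1 / 2 ^ N, by positivity, _, fun z hz => (this z hz).1, fun z hz => (this z hz).2⟩)
  have k2 := ae_limit hF' (E := E2) (by
    rintro x ⟨hx, N, hN, hb⟩
    have := bounded_cone hF' (fun n hn => hAv x hx n (hN.trans hn)) hb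
    exact ⟨1 / 2 ^ N, by positivity, _, fun z hz => (this z hz).1, fun z hz => (this z hz).2⟩)
  filter_upwards [k1, k2] with x hx1 hx2 hxP
  by_cases hfr : ∃ᶠ n in atTop, Th F T e n (bx n x)
  · exact Or.inl hfr
  right
  rw [not_frequently, eventually_atTop] at hfr
  obtain ⟨N1, hN1⟩ := hfr
  set N := max N0 N1 with hNdef
  have hnt : ∀ n, N ≤ n → ‖F (zp n (bx n x))‖ ≤ 2 ∨ Q < ‖F (zp n (bx n x))‖ := by
    intro n hn
    have h1 := hN1 n ((le_max_right _ _).trans hn)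
    by_contra hcon
    push Not at hcon
    obtain ⟨h2, h3⟩ := hcon
    apply h1
    have hpos : 0 < ‖F (zp n (bx n x))‖ := by linarith
    constructor
    · unfold Hf
      have hl : 0 ≤ Real.log ‖F (zp n (bx n x))‖ := Real.log_nonneg (by linarith)
      rw [abs_of_nonneg hl]
      have := Real.log_le_log hpos h3
      linarith
    · have := norm_sub_norm_le (F (zp n (bx n x))) 1
      rw [norm_one] at this
      linarith
  have hstep : ∀ n, N ≤ n → ‖F (zp n (bx n x))‖ ≤ 2 → ‖F (zp (n + 1) (bx (n + 1) x))‖ ≤ 2 := by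
    intro n hn h2
    rcases hnt (n + 1) (by omega) with h3 | h3
    · exact h3
    exfalso
    have hb : Av W n (bx n x) := hAv x hxP n ((le_max_left _ _).trans hn)
    have hp : (0 : ℝ) < 1 / 2 ^ n := by positivity
    have hmem : zp (n + 1) (bx (n + 1) x) ∈
        closedBall (zp n (bx n x)) (98 / 100 * (3 / 4 * (1 / 2 ^ n))) := by
      have e1 : bx n x = bx (n + 1) x / 2 := bx_div n x
      rw [mem_closedBall, dist_eq_norm, e1]
      have := zp_child n (bx (n + 1) x)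
      linarith
    have := M948.schottky (by positivity) (hF.2.1.mono hb) (fun z hz => (hF.2.2 z (hb hz)).1)
      (fun z hz => (hF.2.2 z (hb hz)).2) h2 (by norm_num) (by norm_num) _ hmem
    linarith
  have hb0 : 0 < a := by linarith
  by_cases hsm : ∃ n, N ≤ n ∧ ‖F (zp n (bx n x))‖ ≤ 2
  · obtain ⟨n0, hn0, hs⟩ := hsm
    have hall : ∀ n, n0 ≤ n → ‖F (zp n (bx n x))‖ ≤ 2 := by
      intro n hn
      induction n, hn using Nat.le_induction with
      | base => exact hs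
      | succ m hm ih => exact hstep m (hn0.trans hm) ih
    obtain ⟨l, hl0, hl1, hl⟩ := hx1 ⟨hxP, n0, (le_max_left _ _).trans hn0, hall⟩
    obtain ⟨h', hh', _, ht⟩ := hl a hb0
    rw [nhdsWithin_Cone hh' hh] at ht
    exact ⟨l, hl0, hl1, ht⟩
  · push Not at hsm
    obtain ⟨l, hl0, hl1, hl⟩ := hx2 ⟨hxP, N, le_max_left _ _, fun n hn => by
      have := hsm n hn
      rw [norm_inv]
      calc ‖F (zp n (bx n x))‖⁻¹ ≤ 2⁻¹ := by gcongr
        _ ≤ 2 := by norm_num⟩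
    obtain ⟨h', hh', _, ht⟩ := hl a hb0
    rw [nhdsWithin_Cone hh' hh] at ht
    refine ⟨l⁻¹, inv_ne_zero hl0, fun h => hl1 (inv_eq_one.1 h), ?_⟩
    simpa using ht.inv₀ hl0

end Crest.Agent.R102.InfThick239
end

-- ▼ part R102/LemG_672
section

/-! # LEMMA G (thick scales), complete

Leaves: `G864.sharpSchottky`, `G864.t3All` (864), `Tree196.tree` (196), `InfThick239.infThick`
(239), assembly `LemG672.asm` (672). -/

namespace Crest.Agent.R102.LemG672

theorem lemmaG : LemmaG :=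
  asm Crest.Agent.R102.G864.sharpSchottky Crest.Agent.R102.G864.t3All
    Crest.Agent.R102.Tree196.tree Crest.Agent.R102.InfThick239.infThick

end Crest.Agent.R102.LemG672
end

-- ▼ part R102/AltAeA_613
section

/-!
Row 102, T1-B, III.2, leaf 3 `AltAe` (helper613), first half: one point, one slice, measurability.
-/

set_option autoImplicit false
set_option linter.unusedVariables false

open Set Filter Topology Metric Complex MeasureTheory

noncomputable section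

namespace Crest.Agent.R102.Alt613

open Crest.Agent.R102.S5 Crest.Agent.R102.Sup115

/-- radial limit different from `0, 1` -/
def Rad (F : ℂ × ℂ → ℂ) (e : ℝ × ℝ) : Prop :=
  ∃ r : ℂ, r ≠ 0 ∧ r ≠ 1 ∧ Tendsto (fun s : ℝ => F (ray e s)) (𝓝[>] 0) (𝓝 r)

/-- thick control (second alternative), up to height `h` -/
def Thk (T e0 Cs h : ℝ) (F : ℂ × ℂ → ℂ) (e : ℝ × ℝ) : Prop :=
  ∃ᶠ s : ℝ in 𝓝[>] 0, |Real.log ‖F (ray e s)‖| ≤ T ∧ e0 ≤ ‖F (ray e s) - 1‖ ∧
      ∀ s' : ℝ, s ≤ s' → s' < h →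
        1 + |Real.log ‖F (ray e s')‖| ≤ Cs * (s' / s) ^ (1 / 2 : ℝ)

/-- the same with rational numbers -/
def ThkQ (T e0 Cs h : ℝ) (F : ℂ × ℂ → ℂ) (e : ℝ × ℝ) : Prop :=
  ∀ n : ℕ, ∃ s : ℚ, (0 : ℝ) < s ∧ (s : ℝ) < 1 / ((n : ℝ) + 1) ∧ (s : ℝ) < h ∧
    |Real.log ‖F (ray e s)‖| ≤ T ∧ e0 ≤ ‖F (ray e s) - 1‖ ∧
      ∀ s' : ℚ, (s : ℝ) ≤ s' → (s' : ℝ) < h →
        1 + |Real.log ‖F (ray e s')‖| ≤ Cs * ((s' : ℝ) / s) ^ (1 / 2 : ℝ)

theorem thkQ_of_thk {T e0 Cs h : ℝ} {F : ℂ × ℂ → ℂ} {e : ℝ × ℝ} (he0 : 0 < e0) (hh : 0 < h)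
    (hc : ContinuousOn (fun s : ℝ => F (ray e s)) (Ioo 0 h))
    (h0 : ∀ s ∈ Ioo 0 h, F (ray e s) ≠ 0) (H : Thk T e0 Cs h F e) :
    ThkQ (T + 1) (e0 / 2) (2 * Cs) h F e := by
  intro n
  have hsm : ∀ᶠ s : ℝ in 𝓝[>] 0, s ∈ Ioo (0 : ℝ) (min (1 / ((n : ℝ) + 1)) h) :=
    Ioo_mem_nhdsGT (lt_min (by positivity) hh)
  obtain ⟨s, ⟨hs1, hs2, hs3⟩, hs4⟩ := (H.and_eventually hsm).exists
  have hs0 : 0 < s := hs4.1
  have hsn : s < 1 / ((n : ℝ) + 1) := hs4.2.trans_le (min_le_left _ _)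
  have hsh : s < h := hs4.2.trans_le (min_le_right _ _)
  have hcs : ContinuousAt (fun s : ℝ => F (ray e s)) s := hc.continuousAt (Ioo_mem_nhds hs0 hsh)
  have hF0 := h0 s ⟨hs0, hsh⟩
  have hlog : ContinuousAt (fun s : ℝ => |Real.log ‖F (ray e s)‖|) s :=
    (hcs.norm.log (norm_ne_zero_iff.2 hF0)).abs
  have hm1 : ContinuousAt (fun s : ℝ => ‖F (ray e s) - 1‖) s := (hcs.sub continuousAt_const).norm
  have e1 : ∀ᶠ q in 𝓝 s, |Real.log ‖F (ray e q)‖| < T + 1 :=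
    hlog.eventually_lt_const (by linarith)
  have e2 : ∀ᶠ q in 𝓝 s, e0 / 2 < ‖F (ray e q) - 1‖ :=
    hm1.eventually_const_lt (by linarith)
  have e3 : ∀ᶠ q in 𝓝 s, q < min (min (1 / ((n : ℝ) + 1)) h) (4 * s) :=
    (gt_mem_nhds (by rw [lt_min_iff]; exact ⟨lt_min hsn hsh, by linarith⟩))
  obtain ⟨δ, hδ, hball⟩ := Metric.eventually_nhds_iff.1 (e1.and (e2.and e3))
  obtain ⟨q, hq1, hq2⟩ := exists_rat_btwn (show s < s + δ by linarith)
  have hq := hball (y := (q : ℝ)) (by rw [Real.dist_eq, abs_lt]; constructor <;> linarith)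
  obtain ⟨hqa, hqb, hqc⟩ := hq
  rw [lt_min_iff, lt_min_iff] at hqc
  have hq0 : (0 : ℝ) < q := hs0.trans hq1
  refine ⟨q, hq0, hqc.1.1, hqc.1.2, hqa.le, hqb.le, fun s' h1 h2 => ?_⟩
  have h3 := hs3 s' (hq1.le.trans h1) h2
  have hs'0 : (0 : ℝ) < s' := hq0.trans_le h1
  have hCs : 0 ≤ Cs := by
    have h4 := hs3 s le_rfl hsh
    rw [div_self hs0.ne', Real.one_rpow, mul_one] at h4
    have := abs_nonneg (Real.log ‖F (ray e s)‖)
    linarith
  refine h3.trans ?_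
  have h5 : (s' : ℝ) / s = ((s' : ℝ) / q) * ((q : ℝ) / s) := by field_simp
  have h6 : ((q : ℝ) / s) ^ (1 / 2 : ℝ) ≤ 2 := by
    have h7 : (q : ℝ) / s ≤ 4 := by rw [div_le_iff₀ hs0]; exact hqc.2.le
    calc ((q : ℝ) / s) ^ (1 / 2 : ℝ) ≤ (4 : ℝ) ^ (1 / 2 : ℝ) :=
          Real.rpow_le_rpow (by positivity) h7 (by norm_num)
      _ = 2 := by
        rw [show (4 : ℝ) = 2 ^ (2 : ℝ) by norm_num, ← Real.rpow_mul (by norm_num)]
        norm_num
  rw [h5, Real.mul_rpow (by positivity) (by positivity)]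
  have h8 : 0 ≤ ((s' : ℝ) / q) ^ (1 / 2 : ℝ) := by positivity
  calc Cs * (((s' : ℝ) / q) ^ (1 / 2 : ℝ) * ((q : ℝ) / s) ^ (1 / 2 : ℝ))
      ≤ Cs * (((s' : ℝ) / q) ^ (1 / 2 : ℝ) * 2) := by gcongr
    _ = _ := by ring

theorem thk_of_thkQ {T e0 Cs h : ℝ} {F : ℂ × ℂ → ℂ} {e : ℝ × ℝ} (hh : 0 < h)
    (hc : ContinuousOn (fun s : ℝ => F (ray e s)) (Ioo 0 h))
    (h0 : ∀ s ∈ Ioo 0 h, F (ray e s) ≠ 0) (H : ThkQ T e0 Cs h F e) :
    Thk T e0 Cs h F e := by
  unfold Thk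
  rw [Filter.frequently_iff]
  intro U hU
  obtain ⟨ε, hε, hεU⟩ := mem_nhdsGT_iff_exists_Ioo_subset.1 hU
  obtain ⟨n, hn⟩ := exists_nat_one_div_lt (show (0 : ℝ) < ε from hε)
  obtain ⟨s, hs0, hsn, hsh, h1, h2, h3⟩ := H n
  refine ⟨s, hεU ⟨hs0, hsn.trans hn⟩, h1, h2, fun s' hs1 hs2 => ?_⟩
  by_contra hcon
  push Not at hcon
  have hs'0 : 0 < s' := hs0.trans_le hs1
  have hcs : ContinuousAt (fun s : ℝ => F (ray e s)) s' := hc.continuousAt (Ioo_mem_nhds hs'0 hs2)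
  have hlog : ContinuousAt (fun s : ℝ => 1 + |Real.log ‖F (ray e s)‖|) s' :=
    continuousAt_const.add (hcs.norm.log (norm_ne_zero_iff.2 (h0 s' ⟨hs'0, hs2⟩))).abs
  have hR : ContinuousAt (fun s' : ℝ => Cs * (s' / s) ^ (1 / 2 : ℝ)) s' :=
    continuousAt_const.mul ((continuousAt_id.div_const _).rpow_const (Or.inr (by norm_num)))
  have e1 : ∀ᶠ q in 𝓝 s', Cs * (q / s) ^ (1 / 2 : ℝ) < 1 + |Real.log ‖F (ray e q)‖| :=
    hR.eventually_lt hlog hcon
  obtain ⟨δ, hδ, hball⟩ := Metric.eventually_nhds_iff.1 (e1.and (gt_mem_nhds hs2))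
  obtain ⟨q, hq1, hq2⟩ := exists_rat_btwn (show s' < s' + δ by linarith)
  have hq := hball (y := (q : ℝ)) (by rw [Real.dist_eq, abs_lt]; constructor <;> linarith)
  have := h3 q (hs1.trans hq1.le) hq.2
  linarith [hq.1]

/-- convergence along rationals is enough -/
theorem tendsto_of_rat {c : ℝ → ℂ} {h : ℝ} (hh : 0 < h) (hc : ContinuousOn c (Ioo 0 h)) {r : ℂ}
    (H : Tendsto (fun s : ℚ => c s) (comap ((↑) : ℚ → ℝ) (𝓝[>] 0)) (𝓝 r)) :
    Tendsto c (𝓝[>] 0) (𝓝 r) := by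
  rw [Metric.tendsto_nhds] at H ⊢
  intro ε hε
  have h1 := H (ε / 2) (by positivity)
  rw [Filter.eventually_comap] at h1
  obtain ⟨δ, hδ, hball⟩ := mem_nhdsGT_iff_exists_Ioo_subset.1 h1
  have hδ' : (0 : ℝ) < δ := hδ
  filter_upwards [Ioo_mem_nhdsGT (lt_min hδ' hh)] with s hs
  by_contra hcon
  push Not at hcon
  have hs0 : 0 < s := hs.1
  have hsδ : s < δ := hs.2.trans_le (min_le_left _ _)
  have hsh : s < h := hs.2.trans_le (min_le_right _ _)
  have hcs : ContinuousAt c s := hc.continuousAt (Ioo_mem_nhds hs0 hsh)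
  have e1 : ∀ᶠ q in 𝓝 s, ε / 2 < dist (c q) r :=
    (hcs.dist continuousAt_const).eventually_const_lt (by linarith)
  obtain ⟨η, hη, hb⟩ := Metric.eventually_nhds_iff.1 (e1.and (gt_mem_nhds hsδ))
  obtain ⟨q, hq1, hq2⟩ := exists_rat_btwn (show s < s + η by linarith)
  have hq := hb (y := (q : ℝ)) (by rw [Real.dist_eq, abs_lt]; constructor <;> linarith)
  have h3 := hball (show (q : ℝ) ∈ Ioo 0 δ from ⟨hs0.trans hq1, hq.2⟩) q rfl
  linarith [hq.1]

theorem ray_eq (e : ℝ × ℝ) (s : ℝ) : ray e s = ((e.1 : ℂ) - s * I, (e.2 : ℂ) + s / 4 * I) := by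
  unfold ray bl
  ext
  · simp; ring
  · simp; ring

theorem continuous_ray : Continuous fun x : (ℝ × ℝ) × ℝ => ray x.1 x.2 := by
  unfold ray bl
  fun_prop

theorem ray_mem_Saw {P : Set (ℝ × ℝ)} {lam d : ℝ} (hl : 0 < lam) (hl1 : lam ≤ 1 / 64)
    {e : ℝ × ℝ} (he : e ∈ P) {s : ℝ} (hs : 0 < s) (hsd : s < d) : ray e s ∈ Saw P lam d := by
  rw [ray_eq]
  have h1 : ((e.1 : ℂ) - s * I).im = -s := by simp
  have h2 : ((e.2 : ℂ) + s / 4 * I).im = s / 4 := by
    simp [Complex.add_im, Complex.mul_im]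
  have h3 : ((e.1 : ℂ) - s * I).re - e.1 = 0 := by simp
  have h4 : ‖((e.2 : ℂ) + s / 4 * I) - (e.2 : ℂ)‖ = s / 4 := by
    rw [add_sub_cancel_left, norm_mul, Complex.norm_I, mul_one, norm_div, Complex.norm_real,
      Real.norm_eq_abs, abs_of_pos hs]
    norm_num
  refine ⟨?_, ?_, ?_, e, he, ?_⟩
  · show ((e.1 : ℂ) - s * I).im < 0
    rw [h1]; linarith
  · show -d < ((e.1 : ℂ) - s * I).im
    rw [h1]; linarith
  · show lam * (-((e.1 : ℂ) - s * I).im) < ((e.2 : ℂ) + s / 4 * I).im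
    rw [h1, h2]; nlinarith
  · show lam * (|((e.1 : ℂ) - s * I).re - e.1| + ‖((e.2 : ℂ) + s / 4 * I) - (e.2 : ℂ)‖) <
      -((e.1 : ℂ) - s * I).im
    rw [h1, h3, h4, abs_zero]
    nlinarith

section meas

variable {P : Set (ℝ × ℝ)} {lam d : ℝ} {F : ℂ × ℂ → ℂ}

/-- the value of `F` on the ray, extended by `0` -/
def fr (P : Set (ℝ × ℝ)) (h : ℝ) (F : ℂ × ℂ → ℂ) (s : ℚ) : ℝ × ℝ → ℂ :=
  P.indicator fun e => if (0 : ℝ) < s ∧ (s : ℝ) < h then F (ray e s) else 0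

theorem cont_ray_P (hl : 0 < lam) (hl1 : lam ≤ 1 / 64)
    (hF : DifferentiableOn ℂ F (Saw P lam d)) {s : ℝ} (hs : 0 < s) (hsd : s < d) :
    ContinuousOn (fun e => F (ray e s)) P := by
  refine hF.continuousOn.comp (Continuous.continuousOn ?_) fun e he => ray_mem_Saw hl hl1 he hs hsd
  exact continuous_ray.comp (continuous_id.prodMk continuous_const)

theorem cont_ray_s (hl : 0 < lam) (hl1 : lam ≤ 1 / 64)
    (hF : DifferentiableOn ℂ F (Saw P lam d)) {e : ℝ × ℝ} (he : e ∈ P) {h : ℝ} (hh : h ≤ d) :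
    ContinuousOn (fun s : ℝ => F (ray e s)) (Ioo 0 h) := by
  refine hF.continuousOn.comp (Continuous.continuousOn ?_) fun s hs =>
    ray_mem_Saw hl hl1 he hs.1 (hs.2.trans_le hh)
  exact continuous_ray.comp (continuous_const.prodMk continuous_id)

theorem meas_fr (hP : IsClosed P) (hl : 0 < lam) (hl1 : lam ≤ 1 / 64)
    (hF : DifferentiableOn ℂ F (Saw P lam d)) {h : ℝ} (hh : h ≤ d) (s : ℚ) :
    Measurable (fr P h F s) := by
  unfold fr
  by_cases hs : (0 : ℝ) < s ∧ (s : ℝ) < h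
  · simp only [hs, and_self, if_true]
    have hc := cont_ray_P hl hl1 hF hs.1 (hs.2.trans_le hh)
    classical
    have : Measurable (P.piecewise (fun e => F (ray e s)) fun _ => (0 : ℂ)) :=
      hc.measurable_piecewise continuousOn_const hP.measurableSet
    have h2 : (P.indicator fun e => F (ray e s)) = P.piecewise (fun e => F (ray e s)) 0 :=
      Set.piecewise_eq_indicator.symm
    rw [h2]
    exact this
  · simp only [hs, if_false]
    have : (P.indicator fun _ : ℝ × ℝ => (0 : ℂ)) = fun _ => 0 := by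
      ext e; simp
    rw [this]
    exact measurable_const

/-- measurability of the thick set -/
theorem meas_thkQ (hP : IsClosed P) (hl : 0 < lam) (hl1 : lam ≤ 1 / 64)
    (hF : DifferentiableOn ℂ F (Saw P lam d)) {h : ℝ} (hh : h ≤ d) (T e0 Cs : ℝ) :
    MeasurableSet {e : ℝ × ℝ | e ∈ P ∧ ThkQ T e0 Cs h F e} := by
  have hfr := meas_fr hP hl hl1 hF hh
  have key : {e : ℝ × ℝ | e ∈ P ∧ ThkQ T e0 Cs h F e} = P ∩ ⋂ n : ℕ, ⋃ s : ℚ,
      {e | ((0 : ℝ) < s ∧ (s : ℝ) < 1 / ((n : ℝ) + 1) ∧ (s : ℝ) < h) ∧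
        |Real.log ‖fr P h F s e‖| ≤ T ∧ e0 ≤ ‖fr P h F s e - 1‖} ∩ ⋂ s' : ℚ,
        {e | (s : ℝ) ≤ s' ∧ (s' : ℝ) < h →
          1 + |Real.log ‖fr P h F s' e‖| ≤ Cs * ((s' : ℝ) / s) ^ (1 / 2 : ℝ)} := by
    ext e
    simp only [Set.mem_ofPred_eq, mem_inter_iff, mem_iInter, mem_iUnion, ThkQ]
    refine and_congr_right fun he => forall_congr' fun n => exists_congr fun s => ?_
    constructor
    · rintro ⟨h1, h2, h3, h4, h5, h6⟩
      have hf : fr P h F s e = F (ray e s) := by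
        unfold fr
        rw [Set.indicator_of_mem he, if_pos ⟨h1, h3⟩]
      refine ⟨⟨⟨h1, h2, h3⟩, by rw [hf]; exact h4, by rw [hf]; exact h5⟩, fun s' hs' => ?_⟩
      have hf' : fr P h F s' e = F (ray e s') := by
        unfold fr
        rw [Set.indicator_of_mem he, if_pos ⟨h1.trans_le hs'.1, hs'.2⟩]
      rw [hf']
      exact h6 s' hs'.1 hs'.2
    · rintro ⟨⟨⟨h1, h2, h3⟩, h4, h5⟩, h6⟩
      have hf : fr P h F s e = F (ray e s) := by
        unfold fr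
        rw [Set.indicator_of_mem he, if_pos ⟨h1, h3⟩]
      rw [hf] at h4 h5
      refine ⟨h1, h2, h3, h4, h5, fun s' hs1 hs2 => ?_⟩
      have hf' : fr P h F s' e = F (ray e s') := by
        unfold fr
        rw [Set.indicator_of_mem he, if_pos ⟨h1.trans_le hs1, hs2⟩]
      have := h6 s' ⟨hs1, hs2⟩
      rwa [hf'] at this
  rw [key]
  refine hP.measurableSet.inter (MeasurableSet.iInter fun n => MeasurableSet.iUnion fun s => ?_)
  refine MeasurableSet.inter ?_ (MeasurableSet.iInter fun s' => ?_)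
  · refine (MeasurableSet.const _).inter (MeasurableSet.inter ?_ ?_)
    · have m1 : Measurable fun e => |Real.log ‖fr P h F s e‖| :=
        (Real.measurable_log.comp (hfr s).norm).abs
      exact measurableSet_le m1 measurable_const
    · have m2 : Measurable fun e => ‖fr P h F s e - 1‖ := ((hfr s).sub_const 1).norm
      exact measurableSet_le measurable_const m2
  · by_cases hs : (s : ℝ) ≤ s' ∧ (s' : ℝ) < h
    · have : {e : ℝ × ℝ | (s : ℝ) ≤ s' ∧ (s' : ℝ) < h →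
          1 + |Real.log ‖fr P h F s' e‖| ≤ Cs * ((s' : ℝ) / s) ^ (1 / 2 : ℝ)} =
          {e | 1 + |Real.log ‖fr P h F s' e‖| ≤ Cs * ((s' : ℝ) / s) ^ (1 / 2 : ℝ)} := by
        ext e; simp [hs]
      rw [this]
      have m1 : Measurable fun e => 1 + |Real.log ‖fr P h F s' e‖| :=
        ((Real.measurable_log.comp (hfr s').norm).abs).const_add 1
      exact measurableSet_le m1 measurable_const
    · have : {e : ℝ × ℝ | (s : ℝ) ≤ s' ∧ (s' : ℝ) < h →
          1 + |Real.log ‖fr P h F s' e‖| ≤ Cs * ((s' : ℝ) / s) ^ (1 / 2 : ℝ)} = univ :=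
        eq_univ_of_forall fun e he => absurd he hs
      rw [this]
      exact MeasurableSet.univ

/-- measurability of the set of points with a radial limit `≠ 0, 1` -/
theorem meas_rad (hP : IsClosed P) (hl : 0 < lam) (hl1 : lam ≤ 1 / 64) (hd : 0 < d)
    (hF : DifferentiableOn ℂ F (Saw P lam d)) (h01 : ∀ q ∈ Saw P lam d, F q ≠ 0 ∧ F q ≠ 1) :
    MeasurableSet {e : ℝ × ℝ | e ∈ P ∧ Rad F e} := by
  have hfr := meas_fr hP hl hl1 hF (le_refl d)
  set l : Filter ℚ := comap ((↑) : ℚ → ℝ) (𝓝[>] 0) with hl'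
  have hlne : l.NeBot := by
    rw [hl', Filter.comap_neBot_iff]
    intro t ht
    obtain ⟨ε, hε, hεt⟩ := mem_nhdsGT_iff_exists_Ioo_subset.1 ht
    obtain ⟨q, hq1, hq2⟩ := exists_rat_btwn (show (0 : ℝ) < ε from hε)
    exact ⟨q, hεt ⟨hq1, hq2⟩⟩
  have hsm : ∀ᶠ s : ℚ in l, (0 : ℝ) < s ∧ (s : ℝ) < d := by
    have : ∀ᶠ s : ℝ in 𝓝[>] 0, 0 < s ∧ s < d := Ioo_mem_nhdsGT hd
    exact this.comap _
  have hev : ∀ e ∈ P, ∀ᶠ s : ℚ in l, fr P d F s e = F (ray e s) := by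
    intro e he
    filter_upwards [hsm] with s hs
    unfold fr
    rw [Set.indicator_of_mem he, if_pos hs]
  have m1 : MeasurableSet {e | ∃ c, Tendsto (fun s : ℚ => fr P d F s e) l (𝓝 c)} :=
    MeasureTheory.measurableSet_exists_tendsto hfr
  have m2 : MeasurableSet {e | ∃ c, Tendsto (fun s : ℚ => (fr P d F s e)⁻¹) l (𝓝 c)} :=
    MeasureTheory.measurableSet_exists_tendsto fun s => (hfr s).inv
  have m3 : MeasurableSet {e | ∃ c, Tendsto (fun s : ℚ => (fr P d F s e - 1)⁻¹) l (𝓝 c)} :=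
    MeasureTheory.measurableSet_exists_tendsto fun s => ((hfr s).sub_const 1).inv
  have key : {e : ℝ × ℝ | e ∈ P ∧ Rad F e} = P ∩
      ({e | ∃ c, Tendsto (fun s : ℚ => fr P d F s e) l (𝓝 c)} ∩
      ({e | ∃ c, Tendsto (fun s : ℚ => (fr P d F s e)⁻¹) l (𝓝 c)} ∩
      {e | ∃ c, Tendsto (fun s : ℚ => (fr P d F s e - 1)⁻¹) l (𝓝 c)})) := by
    ext e
    constructor
    · rintro ⟨he, r, hr0, hr1, hr⟩
      have h1 : Tendsto (fun s : ℚ => F (ray e s)) l (𝓝 r) := hr.comp tendsto_comap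
      have h2 : Tendsto (fun s : ℚ => fr P d F s e) l (𝓝 r) :=
        h1.congr' ((hev e he).mono fun s hs => hs.symm)
      exact ⟨he, ⟨r, h2⟩, ⟨r⁻¹, h2.inv₀ hr0⟩, ⟨(r - 1)⁻¹, (h2.sub_const 1).inv₀ (sub_ne_zero.2 hr1)⟩⟩
    · rintro ⟨he, ⟨c1, h1⟩, ⟨c2, h2⟩, ⟨c3, h3⟩⟩
      have hne : ∀ᶠ s : ℚ in l, fr P d F s e ≠ 0 ∧ fr P d F s e - 1 ≠ 0 := by
        filter_upwards [hev e he, hsm] with s hs1 hs2
        have := h01 _ (ray_mem_Saw hl hl1 he hs2.1 hs2.2)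
        rw [hs1]
        exact ⟨this.1, sub_ne_zero.2 this.2⟩
      have e1 : c1 * c2 = 1 := by
        refine tendsto_nhds_unique (h1.mul h2) (tendsto_const_nhds.congr' ?_)
        filter_upwards [hne] with s hs
        rw [mul_inv_cancel₀ hs.1]
      have e2 : (c1 - 1) * c3 = 1 := by
        refine tendsto_nhds_unique ((h1.sub_const 1).mul h3) (tendsto_const_nhds.congr' ?_)
        filter_upwards [hne] with s hs
        rw [mul_inv_cancel₀ hs.2]
      refine ⟨he, c1, fun h => ?_, fun h => ?_, ?_⟩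
      · rw [h, zero_mul] at e1
        exact zero_ne_one e1
      · rw [h, sub_self, zero_mul] at e2
        exact zero_ne_one e2
      · exact tendsto_of_rat hd (cont_ray_s hl hl1 hF he le_rfl) (h1.congr' (hev e he))
  rw [key]
  exact hP.measurableSet.inter (m1.inter (m2.inter m3))

end meas

/-! ### slices -/

section slice

open Crest.Agent.R102.LemG672 Crest.Agent.R102.LP472

variable {P : Set (ℝ × ℝ)} {lam d : ℝ} {F : ℂ × ℂ → ℂ}

/-- the point of the tilted line `v` over `x` -/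
def pt (v x : ℝ) : ℝ × ℝ := (-x, v + x / 4)

/-- the tilted slice -/
def sl (F : ℂ × ℂ → ℂ) (v : ℝ) (z : ℂ) : ℂ := F (-z, (v : ℂ) + z / 4)

theorem sl_ray (F : ℂ × ℂ → ℂ) (v x s : ℝ) : sl F v ⟨x, s⟩ = F (ray (pt v x) s) := by
  unfold sl
  rw [ray_eq]
  congr 1
  have h : (⟨x, s⟩ : ℂ) = x + s * I := Complex.mk_eq_add_mul_I x s
  ext1
  · simp [pt, h]
    ring
  · simp [pt, h]
    ring

theorem cone_sub (hl : 0 < lam) (hl1 : lam ≤ 1 / 64) {v x : ℝ} (hx : pt v x ∈ P) {h : ℝ}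
    (hh : h ≤ d) {z : ℂ} (hz : z ∈ Cone 6 h x) : (-z, (v : ℂ) + z / 4) ∈ Saw P lam d := by
  obtain ⟨h1, h2, h3⟩ := hz
  have e1 : (-z).im = -z.im := by simp
  have e2 : ((v : ℂ) + z / 4).im = z.im / 4 := by simp
  refine ⟨?_, ?_, ?_, pt v x, hx, ?_⟩
  · show (-z).im < 0
    rw [e1]; linarith
  · show -d < (-z).im
    rw [e1]; linarith
  · show lam * (-(-z).im) < ((v : ℂ) + z / 4).im
    rw [e1, e2]; nlinarith
  · show lam * (|(-z).re - (pt v x).1| + ‖((v : ℂ) + z / 4) - ((pt v x).2 : ℂ)‖) < -(-z).im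
    have e3 : (-z).re - (pt v x).1 = -(z.re - x) := by simp [pt]; ring
    have e4 : ((v : ℂ) + z / 4) - ((pt v x).2 : ℂ) = (z - x) / 4 := by
      simp [pt]; ring
    have e5 : ‖(z - x : ℂ)‖ ≤ |z.re - x| + z.im := by
      have := Complex.norm_le_abs_re_add_abs_im (z - x : ℂ)
      simp only [Complex.sub_re, Complex.ofReal_re, Complex.sub_im, Complex.ofReal_im,
        sub_zero] at this
      rwa [abs_of_pos h1] at this
    rw [e3, e4, abs_neg, e1, norm_div]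
    have e6 : ‖(4 : ℂ)‖ = 4 := by norm_num
    rw [e6]
    have h4 := abs_nonneg (z.re - x)
    nlinarith

/-- LEMMA G on one tilted line -/
theorem slice_ae {T e0 Cs : ℝ}
    (hG : ∀ (W : Set ℂ) (F : ℂ → ℂ), Omit W F → ∀ (a h : ℝ) (P : Set ℝ),
      6 ≤ a → 0 < h → h ≤ 1 → (∀ x ∈ P, Cone a h x ⊆ W) → ∀ᵐ x : ℝ, x ∈ P →
      (∃ r : ℂ, r ≠ 0 ∧ r ≠ 1 ∧ Tendsto F (𝓝[Cone a h x] (x : ℂ)) (𝓝 r)) ∨
      (∃ᶠ s : ℝ in 𝓝[>] 0, |Real.log ‖F (⟨x, s⟩ : ℂ)‖| ≤ T ∧ e0 ≤ ‖F (⟨x, s⟩ : ℂ) - 1‖ ∧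
        ∀ s' : ℝ, s ≤ s' → s' ≤ h / 2 →
          1 + |Real.log ‖F (⟨x, s'⟩ : ℂ)‖| ≤ Cs * (s' / s) ^ (1 / 2 : ℝ)))
    (hl : 0 < lam) (hl1 : lam ≤ 1 / 64) (hd : 0 < d)
    (hF : DifferentiableOn ℂ F (Saw P lam d)) (h01 : ∀ q ∈ Saw P lam d, F q ≠ 0 ∧ F q ≠ 1)
    (v : ℝ) : ∀ᵐ x : ℝ, pt v x ∈ P → Rad F (pt v x) ∨ Thk T e0 Cs (min d 1 / 2) F (pt v x) := by
  set W : Set ℂ := {z | (-z, (v : ℂ) + z / 4) ∈ Saw P lam d} with hW
  have hcont : Continuous fun z : ℂ => ((-z, (v : ℂ) + z / 4) : ℂ × ℂ) := by fun_prop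
  have hWo : IsOpen W := (Chain864.isOpen_Saw P lam d).preimage hcont
  have hdiff : DifferentiableOn ℂ (sl F v) W := by
    refine hF.comp (g := F) (f := fun z : ℂ => ((-z, (v : ℂ) + z / 4) : ℂ × ℂ)) ?_ fun z hz => hz
    fun_prop
  have hd1 : 0 < min d 1 := lt_min hd one_pos
  have H := hG W (sl F v) ⟨hWo, hdiff, fun z hz => h01 _ hz⟩ 6 (min d 1) {x | pt v x ∈ P} le_rfl
    hd1 (min_le_right _ _) fun x hx z hz => cone_sub hl hl1 hx (min_le_left _ _) hz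
  filter_upwards [H] with x hx hxP
  rcases hx hxP with ⟨r, hr0, hr1, hr⟩ | h2
  · refine Or.inl ⟨r, hr0, hr1, ?_⟩
    have hray : Tendsto (fun s : ℝ => (⟨x, s⟩ : ℂ)) (𝓝[>] 0) (𝓝[Cone 6 (min d 1) x] (x : ℂ)) := by
      refine tendsto_nhdsWithin_of_tendsto_nhds_of_eventually_within _ ?_ ?_
      · have h3 : Tendsto (fun s : ℝ => ((x : ℂ) + s * I)) (𝓝[>] 0) (𝓝 ((x : ℂ) + (0 : ℝ) * I)) := by
          refine Tendsto.mono_left ?_ nhdsWithin_le_nhds
          exact (Continuous.tendsto (by fun_prop) (0 : ℝ))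
        simp only [Complex.ofReal_zero, zero_mul, add_zero] at h3
        refine h3.congr fun s => ?_
        rw [Complex.mk_eq_add_mul_I]
      · filter_upwards [Ioo_mem_nhdsGT hd1] with s hs
        refine ⟨hs.1, hs.2, ?_⟩
        show |x - x| < 6 * s
        rw [sub_self, abs_zero]
        linarith [hs.1]
    have h4 := hr.comp hray
    refine h4.congr fun s => ?_
    exact sl_ray F v x s
  · refine Or.inr (h2.mono fun s hs => ?_)
    simp only [sl_ray] at hs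
    exact ⟨hs.1, hs.2.1, fun s' h3 h4 => hs.2.2 s' h3 h4.le⟩

end slice

/-! ### Fubini on the tilted lines -/

/-- the tilted coordinates -/
def tc (p : ℝ × ℝ) : ℝ × ℝ := (-p.1, p.2 + p.1 / 4)

theorem mp_tc : MeasurePreserving tc (volume : Measure (ℝ × ℝ)) volume := by
  have h := MeasurePreserving.skew_product (μa := (volume : Measure ℝ)) (μc := (volume : Measure ℝ))
    (μd := (volume : Measure ℝ)) (f := fun x : ℝ => -x)
    (Measure.measurePreserving_neg (volume : Measure ℝ))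
    (g := fun x v : ℝ => v + x / 4) (by unfold Function.uncurry; fun_prop)
    (Eventually.of_forall fun x => by
      exact (measurePreserving_add_right (volume : Measure ℝ) (x / 4)).map_eq)
  exact h

theorem null_of_slices {N : Set (ℝ × ℝ)} (hN : MeasurableSet N)
    (hs : ∀ v : ℝ, ∀ᵐ x : ℝ, pt v x ∉ N) : volume N = 0 := by
  rw [← mp_tc.measure_preimage hN.nullMeasurableSet]
  rw [Measure.volume_eq_prod, Measure.prod_apply_symm (mp_tc.measurable hN)]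
  rw [lintegral_eq_zero_iff' ?_]
  · refine Eventually.of_forall fun v => ?_
    have h1 := hs v
    rw [ae_iff] at h1
    simp only [not_not] at h1
    exact h1
  · exact (measurable_measure_prodMk_right (mp_tc.measurable hN)).aemeasurable

/-- **planar form of LEMMA G.** -/
theorem planar {T e0 Cs : ℝ} (he0 : 0 < e0)
    (hsl : ∀ (P : Set (ℝ × ℝ)) (lam d : ℝ) (F : ℂ × ℂ → ℂ), 0 < lam → lam ≤ 1 / 64 → 0 < d →
      DifferentiableOn ℂ F (Saw P lam d) → (∀ q ∈ Saw P lam d, F q ≠ 0 ∧ F q ≠ 1) →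
      ∀ v : ℝ, ∀ᵐ x : ℝ, pt v x ∈ P → Rad F (pt v x) ∨ Thk T e0 Cs (min d 1 / 2) F (pt v x))
    {P : Set (ℝ × ℝ)} {lam d : ℝ} {F : ℂ × ℂ → ℂ} (hP : IsClosed P) (hl : 0 < lam)
    (hl1 : lam ≤ 1 / 64) (hd : 0 < d)
    (hF : DifferentiableOn ℂ F (Saw P lam d)) (h01 : ∀ q ∈ Saw P lam d, F q ≠ 0 ∧ F q ≠ 1) :
    ∀ᵐ e : ℝ × ℝ, e ∈ P → Rad F e ∨ Thk (T + 1) (e0 / 2) (2 * Cs) (min d 1 / 2) F e := by
  set h : ℝ := min d 1 / 2 with hh
  have hh0 : 0 < h := by rw [hh]; have : 0 < min d 1 := lt_min hd one_pos; linarith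
  have hhd : h ≤ d := by
    rw [hh]
    have h1 : min d 1 ≤ d := min_le_left _ _
    have h2 : 0 < min d 1 := lt_min hd one_pos
    linarith
  have hcs : ∀ e ∈ P, ContinuousOn (fun s : ℝ => F (ray e s)) (Ioo 0 h) := fun e he =>
    cont_ray_s hl hl1 hF he hhd
  have hne : ∀ e ∈ P, ∀ s ∈ Ioo (0 : ℝ) h, F (ray e s) ≠ 0 := fun e he s hs =>
    (h01 _ (ray_mem_Saw hl hl1 he hs.1 (hs.2.trans_le hhd))).1
  set N : Set (ℝ × ℝ) := P \ ({e | e ∈ P ∧ Rad F e} ∪
    {e | e ∈ P ∧ ThkQ (T + 1) (e0 / 2) (2 * Cs) h F e}) with hN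
  have hNm : MeasurableSet N := hP.measurableSet.diff
    ((meas_rad hP hl hl1 hd hF h01).union (meas_thkQ hP hl hl1 hF hhd _ _ _))
  have hN0 : volume N = 0 := by
    refine null_of_slices hNm fun v => ?_
    filter_upwards [hsl P lam d F hl hl1 hd hF h01 v] with x hx hxN
    obtain ⟨hxP, hxn⟩ := hxN
    rcases hx hxP with h1 | h1
    · exact hxn (Or.inl ⟨hxP, h1⟩)
    · exact hxn (Or.inr ⟨hxP, thkQ_of_thk he0 hh0 (hcs _ hxP) (hne _ hxP) h1⟩)
  rw [ae_iff]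
  refine measure_mono_null (fun e he => ?_) hN0
  simp only [Set.mem_ofPred_eq, Classical.not_imp, not_or] at he
  refine ⟨he.1, fun hc => ?_⟩
  rcases hc with hc | hc
  · exact he.2.1 hc.2
  · exact he.2.2 (thk_of_thkQ hh0 (hcs _ he.1) (hne _ he.1) hc.2)

end Crest.Agent.R102.Alt613
end
end

-- ▼ part R102/AltAe_613

/-!
Row 102, T1-B, III.2, leaf 3 (helper613): `altAe : Sup115.AltAe`.
-/

set_option autoImplicit false
set_option linter.unusedVariables false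

open Set Filter Topology Metric Complex MeasureTheory

noncomputable section

namespace Crest.Agent.R102.Alt613

open Crest.Agent.R102.S5 Crest.Agent.R102.Sup115 Crest.Agent.R264 Crest.Agent.R266.SCV

/-- open truncated product cone -/
def DM (M : ℝ) : Set (ℂ × ℂ) :=
  {y | y.1.im < 0 ∧ -y.1.im < 2 ∧ -y.1.im < M * y.2.im ∧ |y.1.re| + ‖y.2‖ < M * (-y.1.im)}

theorem isOpen_DM (M : ℝ) : IsOpen (DM M) := by
  have c1 : Continuous fun y : ℂ × ℂ => y.1.im := Complex.continuous_im.comp continuous_fst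
  have c2 : Continuous fun y : ℂ × ℂ => y.2.im := Complex.continuous_im.comp continuous_snd
  have c3 : Continuous fun y : ℂ × ℂ => y.1.re := Complex.continuous_re.comp continuous_fst
  exact (isOpen_lt c1 continuous_const).inter ((isOpen_lt c1.neg continuous_const).inter
    ((isOpen_lt c1.neg (continuous_const.mul c2)).inter
      (isOpen_lt (c3.abs.add continuous_snd.norm) (continuous_const.mul c1.neg))))

theorem convex_DM (M : ℝ) : Convex ℝ (DM M) := by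
  intro x hx y hy s t hs ht hst
  obtain ⟨x1, x2, x3, x4⟩ := hx
  obtain ⟨y1, y2, y3, y4⟩ := hy
  have e1 : (s • x + t • y).1.im = s * x.1.im + t * y.1.im := by simp
  have e2 : (s • x + t • y).2.im = s * x.2.im + t * y.2.im := by simp
  have e3 : (s • x + t • y).1.re = s * x.1.re + t * y.1.re := by simp
  have e4 : ‖(s • x + t • y).2‖ ≤ s * ‖x.2‖ + t * ‖y.2‖ := by
    have : (s • x + t • y).2 = s • x.2 + t • y.2 := rfl
    rw [this]
    refine (norm_add_le _ _).trans ?_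
    rw [norm_smul, norm_smul, Real.norm_eq_abs, Real.norm_eq_abs, abs_of_nonneg hs,
      abs_of_nonneg ht]
  have e5 : |(s • x + t • y).1.re| ≤ s * |x.1.re| + t * |y.1.re| := by
    rw [e3]
    refine (abs_add_le _ _).trans ?_
    rw [abs_mul, abs_mul, abs_of_nonneg hs, abs_of_nonneg ht]
  have ht' : t = 1 - s := by linarith
  rcases hs.eq_or_lt with rfl | hs'
  · have ht1 : t = 1 := by linarith
    subst ht1
    refine ⟨?_, ?_, ?_, ?_⟩
    · rw [e1]; linarith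
    · rw [e1]; linarith
    · rw [e1, e2]; linarith
    · rw [e1]
      simp only [zero_mul, zero_add, one_mul] at e4 e5 ⊢
      linarith
  · rcases ht.eq_or_lt with rfl | ht''
    · have hs1 : s = 1 := by linarith
      subst hs1
      refine ⟨?_, ?_, ?_, ?_⟩
      · rw [e1]; linarith
      · rw [e1]; linarith
      · rw [e1, e2]; linarith
      · rw [e1]
        simp only [zero_mul, add_zero, one_mul] at e4 e5 ⊢
        linarith
    · refine ⟨?_, ?_, ?_, ?_⟩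
      · rw [e1]; nlinarith
      · rw [e1]; nlinarith
      · rw [e1, e2]
        have a1 := mul_lt_mul_of_pos_left x3 hs'
        have a2 := mul_lt_mul_of_pos_left y3 ht''
        nlinarith
      · rw [e1]
        have a1 := mul_lt_mul_of_pos_left x4 hs'
        have a2 := mul_lt_mul_of_pos_left y4 ht''
        nlinarith

theorem bl_Cn {M : ℝ} {e : ℝ × ℝ} {s : ℝ} (hs : 0 < s) {y : ℂ × ℂ} (hy : y ∈ DM M) :
    bl e s y ∈ Cn e M ∧ -(2 * s) < (bl e s y).1.im := by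
  obtain ⟨h1, h2, h3, h4⟩ := hy
  refine ⟨⟨?_, ?_, ?_⟩, ?_⟩
  · rw [bl_im1]; nlinarith
  · rw [bl_im1, bl_im2]
    have := mul_le_mul_of_nonneg_left h3.le hs.le
    linarith
  · rw [bl_re1, bl_sub2, bl_im1, S5.norm_smul' hs, abs_mul, abs_of_pos hs]
    have := mul_le_mul_of_nonneg_left h4.le hs.le
    linarith
  · rw [bl_im1]; nlinarith

theorem bp_DM {M : ℝ} (hM : 5 ≤ M) {t : ℝ} (ht : 0 < t) (ht2 : t < 2) :
    ((-(t : ℂ) * I, (t : ℂ) / 4 * I) : ℂ × ℂ) ∈ DM M := by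
  have h1 : (-(t : ℂ) * I).im = -t := by simp
  have h2 : ((t : ℂ) / 4 * I).im = t / 4 := by simp
  have h3 : (-(t : ℂ) * I).re = 0 := by simp
  have h4 : ‖(t : ℂ) / 4 * I‖ = t / 4 := by
    rw [norm_mul, Complex.norm_I, mul_one, norm_div, Complex.norm_real, Real.norm_eq_abs,
      abs_of_pos ht]
    norm_num
  refine ⟨?_, ?_, ?_, ?_⟩
  · show (-(t : ℂ) * I).im < 0
    rw [h1]; linarith
  · show -(-(t : ℂ) * I).im < 2
    rw [h1]; linarith
  · show -(-(t : ℂ) * I).im < M * ((t : ℂ) / 4 * I).im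
    rw [h1, h2]; nlinarith
  · show |(-(t : ℂ) * I).re| + ‖(t : ℂ) / 4 * I‖ < M * -(-(t : ℂ) * I).im
    rw [h1, h3, h4, abs_zero]; nlinarith

theorem bl_bp (e : ℝ × ℝ) (s t : ℝ) : bl e s (-(t : ℂ) * I, (t : ℂ) / 4 * I) = ray e (s * t) := by
  rw [ray_eq]
  unfold bl
  ext1
  · push_cast; ring
  · push_cast; ring

section point

variable {F : ℂ × ℂ → ℂ} {e : ℝ × ℝ} {r : ℂ}

theorem fam (hcone : ∀ M : ℝ, ∃ δ > 0, ∀ q ∈ Cn e M, -δ < q.1.im →
      DifferentiableAt ℂ F q ∧ F q ≠ 0 ∧ F q ≠ 1) (M : ℝ) :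
    ∀ᶠ s : ℝ in 𝓝[>] 0, DifferentiableOn ℂ (fun y => F (bl e s y)) (DM M) ∧
      (∀ y ∈ DM M, F (bl e s y) ≠ 0) ∧ ∀ y ∈ DM M, F (bl e s y) ≠ 1 := by
  obtain ⟨δ, hδ, h⟩ := hcone M
  filter_upwards [Ioo_mem_nhdsGT (show (0 : ℝ) < δ / 2 by linarith)] with s hs
  have key : ∀ y ∈ DM M, DifferentiableAt ℂ F (bl e s y) ∧ F (bl e s y) ≠ 0 ∧
      F (bl e s y) ≠ 1 := fun y hy => by
    have := bl_Cn (e := e) hs.1 hy
    exact h _ this.1 (by linarith [this.2, hs.2])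
  exact ⟨fun y hy => ((key y hy).1.comp y (bl_diff e s y)).differentiableWithinAt,
    fun y hy => (key y hy).2.1, fun y hy => (key y hy).2.2⟩

theorem loc_bdd (hcone : ∀ M : ℝ, ∃ δ > 0, ∀ q ∈ Cn e M, -δ < q.1.im →
      DifferentiableAt ℂ F q ∧ F q ≠ 0 ∧ F q ≠ 1)
    (hr : Tendsto (fun s : ℝ => F (ray e s)) (𝓝[>] 0) (𝓝 r)) {M : ℝ} (hM : 5 ≤ M) :
    ∀ z ∈ DM M, ∃ ρ > 0, ∃ C : ℝ, ball z ρ ⊆ DM M ∧
      ∀ᶠ s : ℝ in 𝓝[>] 0, ∀ w ∈ ball z ρ, ‖F (bl e s w)‖ ≤ C := by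
  have hf := fam hcone M
  refine M948.bounded_everywhere (𝓝[>] (0 : ℝ)) (isOpen_DM M) (convex_DM M).isPreconnected
    (f := fun s y => F (bl e s y)) (hf.mono fun s hs => hs.1) (hf.mono fun s hs => hs.2.1)
    (hf.mono fun s hs => hs.2.2) (p := (-((1 : ℝ) : ℂ) * I, ((1 : ℝ) : ℂ) / 4 * I))
    (bp_DM hM one_pos (by norm_num)) (M₀ := ‖r‖ + 1) ?_
  have h1 : ∀ᶠ s : ℝ in 𝓝[>] 0, ‖F (ray e s)‖ < ‖r‖ + 1 :=
    hr.norm.eventually_lt_const (by linarith)
  filter_upwards [h1] with s hs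
  show ‖F (bl e s (-((1 : ℝ) : ℂ) * I, ((1 : ℝ) : ℂ) / 4 * I))‖ ≤ ‖r‖ + 1
  rw [bl_bp, mul_one]
  exact hs.le

/-- **Lindelöf in the slice** -/
theorem lindelof (hcone : ∀ M : ℝ, ∃ δ > 0, ∀ q ∈ Cn e M, -δ < q.1.im →
      DifferentiableAt ℂ F q ∧ F q ≠ 0 ∧ F q ≠ 1)
    (hr : Tendsto (fun s : ℝ => F (ray e s)) (𝓝[>] 0) (𝓝 r)) {M : ℝ} (hM : 5 ≤ M)
    {K : Set (ℂ × ℂ)} (hK : IsCompact K) (hKD : K ⊆ DM M) (hKs : ∀ y ∈ K, y.2 = -y.1 / 4)
    {ε : ℝ} (hε : 0 < ε) : ∀ᶠ s : ℝ in 𝓝[>] 0, ∀ y ∈ K, dist (F (bl e s y)) r < ε := by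
  by_contra hcon
  rw [Filter.Eventually, Filter.mem_iff_ultrafilter] at hcon
  push Not at hcon
  obtain ⟨u, hu, hns⟩ := hcon
  have hf := fam hcone M
  obtain ⟨g, hg, hgl⟩ := M948.montel_loc_ultra u (isOpen_DM M) (f := fun s y => F (bl e s y))
    (hu (hf.mono fun s hs => hs.1)) (fun z hz => by
      obtain ⟨ρ, hρ, C, hsub, hC⟩ := loc_bdd hcone hr hM z hz
      exact ⟨ρ, hρ, C, hsub, hu hC⟩)
  have hne : (u : Filter ℝ).NeBot := u.neBot
  -- `g = r` on the ray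
  have hray : ∀ t : ℝ, 0 < t → t < 2 → g (-(t : ℂ) * I, (t : ℂ) / 4 * I) = r := by
    intro t ht ht2
    refine tendsto_nhds_unique (hgl.tendsto_at (bp_DM hM ht ht2)) ?_
    have h1 : Tendsto (fun s : ℝ => s * t) (𝓝[>] 0) (𝓝[>] 0) := by
      refine tendsto_nhdsWithin_of_tendsto_nhds_of_eventually_within _ ?_ ?_
      · have : Tendsto (fun s : ℝ => s * t) (𝓝 0) (𝓝 (0 * t)) := tendsto_id.mul_const t
        rw [zero_mul] at this
        exact this.mono_left nhdsWithin_le_nhds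
      · filter_upwards [self_mem_nhdsWithin] with s hs
        exact mul_pos hs ht
    have h2 : Tendsto (fun s : ℝ => F (ray e (s * t))) u (𝓝 r) := (hr.comp h1).mono_left hu
    refine h2.congr fun s => ?_
    rw [bl_bp]
  -- `g = r` on the slice
  set σ : ℂ → ℂ × ℂ := fun ζ => (-ζ, ζ / 4) with hσ
  have hσc : Continuous σ := by rw [hσ]; fun_prop
  have hσd : Differentiable ℂ σ := by rw [hσ]; fun_prop
  have hHo : IsOpen (σ ⁻¹' DM M) := (isOpen_DM M).preimage hσc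
  have hHc : IsPreconnected (σ ⁻¹' DM M) := by
    refine Convex.isPreconnected ?_
    intro x hx y hy s t hs ht hst
    have := convex_DM M hx hy hs ht hst
    show σ (s • x + t • y) ∈ DM M
    have h1 : σ (s • x + t • y) = s • σ x + t • σ y := by
      rw [hσ]
      ext1
      · simp only [Prod.fst_add, Prod.smul_fst, Complex.real_smul]
        ring
      · simp only [Prod.snd_add, Prod.smul_snd, Complex.real_smul]
        ring
    rw [h1]
    exact this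
  have hslice : ∀ ζ ∈ σ ⁻¹' DM M, g (σ ζ) = r := by
    have hgd : DifferentiableOn ℂ (fun ζ => g (σ ζ)) (σ ⁻¹' DM M) :=
      hg.comp hσd.differentiableOn fun ζ hζ => hζ
    have hσI : ∀ t : ℝ, σ ((t : ℂ) * I) = (-(t : ℂ) * I, (t : ℂ) / 4 * I) := fun t => by
      rw [hσ]
      ext1
      · simp only; ring
      · simp only; ring
    have hI : I ∈ σ ⁻¹' DM M := by
      have := bp_DM hM (t := 1) one_pos (by norm_num)
      rw [← hσI] at this
      simpa using this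
    have hfreq : ∃ᶠ ζ in 𝓝[≠] I, g (σ ζ) = r := by
      have ht : Tendsto (fun t : ℝ => (t : ℂ) * I) (𝓝[≠] 1) (𝓝[≠] I) := by
        refine tendsto_nhdsWithin_of_tendsto_nhds_of_eventually_within _ ?_ ?_
        · have h1 : Tendsto (fun t : ℝ => (t : ℂ) * I) (𝓝 1) (𝓝 (((1 : ℝ) : ℂ) * I)) :=
            Continuous.tendsto (by fun_prop) 1
          rw [Complex.ofReal_one, one_mul] at h1
          exact h1.mono_left nhdsWithin_le_nhds
        · filter_upwards [self_mem_nhdsWithin] with t ht h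
          refine ht ?_
          rw [mem_singleton_iff] at h ⊢
          have h2 : (t : ℂ) = 1 := mul_right_cancel₀ Complex.I_ne_zero (by rw [h, one_mul])
          exact_mod_cast h2
      refine ht.frequently (Eventually.frequently ?_)
      have h1 : ∀ᶠ t : ℝ in 𝓝[≠] 1, t ∈ Ioo (0 : ℝ) 2 :=
        mem_nhdsWithin_of_mem_nhds (Ioo_mem_nhds one_pos (by norm_num))
      filter_upwards [h1] with t ht
      rw [hσI]
      exact hray t ht.1 ht.2
    have := (hgd.analyticOnNhd hHo).eqOn_of_preconnected_of_frequently_eq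
      (analyticOnNhd_const (v := r)) hHc hI hfreq
    exact fun ζ hζ => this hζ
  -- uniform convergence on `K`
  have hunif := (tendstoLocallyUniformlyOn_iff_forall_isCompact (isOpen_DM M)).1 hgl K hKD hK
  have h3 := (Metric.tendstoUniformlyOn_iff.1 hunif) ε hε
  refine hns ?_
  filter_upwards [h3] with s hs y hy
  have h4 := hs y hy
  have h5 : y = σ (-y.1) := by
    rw [hσ]
    ext1
    · simp
    · simp only
      exact hKs y hy
  have h6 : g y = r := by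
    rw [h5]
    refine hslice _ ?_
    show σ (-y.1) ∈ DM M
    rw [← h5]
    exact hKD hy
  rw [h6, dist_comm] at h4
  exact h4

end point

/-! ### the upgrade to all cones -/

/-- the function in tilted coordinates -/
def Ft (F : ℂ × ℂ → ℂ) (t w : ℂ) : ℂ := F (t, w - t / 4)

/-- the tilt of a real point -/
def tl (p : ℝ × ℝ) : ℝ × ℝ := (p.1, p.2 - p.1 / 4)

/-- the complex tilt -/
def tlc (y : ℂ × ℂ) : ℂ × ℂ := (y.1, y.2 - y.1 / 4)

/-- its inverse -/
def tlc' (y : ℂ × ℂ) : ℂ × ℂ := (y.1, y.2 + y.1 / 4)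

theorem tlc_tlc' (y : ℂ × ℂ) : tlc (tlc' y) = y := by
  unfold tlc tlc'
  ext1 <;> simp

theorem tlc'_tlc (y : ℂ × ℂ) : tlc' (tlc y) = y := by
  unfold tlc tlc'
  ext1 <;> simp

theorem blw_eq (F : ℂ × ℂ → ℂ) (p : ℝ × ℝ) (η : ℝ) (y : ℂ × ℂ) :
    Blow971.blw (Ft F) (fun _ => 0) p η y = F (bl (tl p) η (tlc y)) := by
  unfold Blow971.blw Ft bl tl tlc
  congr 1
  ext1
  · simp
  · simp
    ring

theorem nt_of_rad {F : ℂ × ℂ → ℂ} {p : ℝ × ℝ} {r : ℂ}
    (hcone : ∀ M : ℝ, ∃ δ > 0, ∀ q ∈ Cn (tl p) M, -δ < q.1.im →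
      DifferentiableAt ℂ F q ∧ F q ≠ 0 ∧ F q ≠ 1)
    (hr : Tendsto (fun s : ℝ => F (ray (tl p) s)) (𝓝[>] 0) (𝓝 r)) :
    Blow971.NT (Ft F) (fun _ => 0) p r := by
  intro A hA ε hε
  set M : ℝ := 5 + 2 * A with hM
  set σ : ℂ → ℂ × ℂ := fun ζ => (-ζ, ζ / 4) with hσ
  have hσc : Continuous σ := by rw [hσ]; fun_prop
  set K0 : Set ℂ := (fun ξ : ℝ => (ξ : ℂ) + I) '' Icc (-A) A with hK0
  have hK0c : IsCompact K0 := isCompact_Icc.image (by fun_prop)
  have hKD : σ '' K0 ⊆ DM M := by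
    rintro _ ⟨_, ⟨ξ, hξ, rfl⟩, rfl⟩
    have h1 : |ξ| ≤ A := abs_le.2 hξ
    have e1 : (-((ξ : ℂ) + I)).im = -1 := by simp
    have e2 : (((ξ : ℂ) + I) / 4).im = 1 / 4 := by simp
    have e3 : (-((ξ : ℂ) + I)).re = -ξ := by simp
    have e4 : ‖((ξ : ℂ) + I) / 4‖ ≤ (A + 1) / 4 := by
      rw [norm_div]
      have h2 : ‖(ξ : ℂ) + I‖ ≤ |ξ| + 1 := by
        refine (norm_add_le _ _).trans ?_
        rw [Complex.norm_real, Complex.norm_I, Real.norm_eq_abs]
      have h3 : ‖(4 : ℂ)‖ = 4 := by norm_num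
      rw [h3]
      linarith
    refine ⟨?_, ?_, ?_, ?_⟩
    · show (-((ξ : ℂ) + I)).im < 0
      rw [e1]; norm_num
    · show -(-((ξ : ℂ) + I)).im < 2
      rw [e1]; norm_num
    · show -(-((ξ : ℂ) + I)).im < M * (((ξ : ℂ) + I) / 4).im
      rw [e1, e2, hM]; linarith
    · show |(-((ξ : ℂ) + I)).re| + ‖((ξ : ℂ) + I) / 4‖ < M * -(-((ξ : ℂ) + I)).im
      rw [e1, e3, abs_neg, hM]; linarith
  have hev := lindelof hcone hr (M := M) (by rw [hM]; linarith) (hK0c.image hσc) hKD (by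
    rintro _ ⟨ζ, -, rfl⟩
    simp [hσ]) hε
  obtain ⟨δ, hδ, hδs⟩ := mem_nhdsGT_iff_exists_Ioo_subset.1 hev
  refine ⟨δ, hδ, fun t ht => ?_⟩
  obtain ⟨h1, h2, h3⟩ := ht
  simp only at h1 h2 h3
  set s : ℝ := -t.im with hs
  have hs0 : 0 < s := by rw [hs]; linarith
  have hsδ : s < δ := by rw [hs]; linarith
  have hsc : (s : ℂ) ≠ 0 := by exact_mod_cast hs0.ne'
  set ξ : ℝ := (p.1 - t.re) / s with hξ
  have hξA : |ξ| ≤ A := by
    rw [hξ, abs_div, abs_of_pos hs0, div_le_iff₀ hs0, abs_sub_comm]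
    have : A * (0 - t.im) = A * s := by rw [hs]; ring
    rw [this] at h3
    exact h3
  have hζ : ((p.1 : ℂ) - t) = s * ((ξ : ℂ) + I) := by
    apply Complex.ext
    · simp [hξ]
      field_simp
    · simp [hs]
  have hpt : (t, (p.2 : ℂ) - t / 4) = bl (tl p) s (σ ((ξ : ℂ) + I)) := by
    unfold bl tl
    rw [hσ]
    ext1
    · show t = (p.1 : ℂ) + s * (-((ξ : ℂ) + I))
      linear_combination -hζ
    · show (p.2 : ℂ) - t / 4 = ((p.2 - p.1 / 4 : ℝ) : ℂ) + s * (((ξ : ℂ) + I) / 4)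
      push_cast
      linear_combination hζ / 4
  have := hδs (show s ∈ Ioo 0 δ from ⟨hs0, hsδ⟩) _ (mem_image_of_mem σ
    (mem_image_of_mem _ (show ξ ∈ Icc (-A) A from abs_le.1 hξA)))
  unfold Ft
  rw [hpt]
  exact this.le

theorem Cn_mono {e : ℝ × ℝ} {M : ℝ} : Cn e M ⊆ Cn e (max M 1) := by
  rintro q ⟨h1, h2, h3⟩
  have h4 : 0 ≤ M * (-q.1.im) := le_trans (by positivity) h3
  have hD : 0 < -q.1.im := by linarith
  have hM : 0 ≤ M := nonneg_of_mul_nonneg_left h4 hD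
  have h5 : 0 < M * q.2.im := by linarith
  have h6 : 0 < q.2.im := by
    by_contra hc
    push Not at hc
    nlinarith
  refine ⟨h1, h2.trans ?_, h3.trans ?_⟩
  · exact mul_le_mul_of_nonneg_right (le_max_left _ _) h6.le
  · exact mul_le_mul_of_nonneg_right (le_max_left _ _) hD.le

/-- from constant blow-ups to limits in the cones -/
theorem cones_of_blow {F : ℂ × ℂ → ℂ} {p : ℝ × ℝ} {r : ℂ}
    (hcone : ∀ M : ℝ, ∃ δ > 0, ∀ q ∈ Cn (tl p) M, -δ < q.1.im →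
      DifferentiableAt ℂ F q ∧ F q ≠ 0 ∧ F q ≠ 1)
    (hr : Tendsto (fun s : ℝ => F (ray (tl p) s)) (𝓝[>] 0) (𝓝 r))
    (hblow : ∀ al : ℝ,
      (∀ ε : ℝ, 0 < ε → ∀ᶠ z : ℝ in 𝓝 (0 : ℝ), (0 : ℝ) + al * z - ε * |z| ≤ 0) →
      ∀ Ω : Set (ℂ × ℂ), IsPreconnected Ω →
      (∀ q ∈ Ω, ∃ r > 0, ∃ C : ℝ, ∀ᶠ η in 𝓝[>] (0 : ℝ),
        DifferentiableOn ℂ (Blow971.blw (Ft F) (fun _ => 0) p η) (ball q r) ∧
          ∀ y ∈ ball q r, ‖Blow971.blw (Ft F) (fun _ => 0) p η y‖ ≤ C) →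
      ∀ (T1 : ℂ) (ζ1 : ℝ), (T1, (ζ1 : ℂ)) ∈ Ω → T1.im < al * ζ1 →
      ∀ K : Set (ℂ × ℂ), IsCompact K → K ⊆ Ω →
      ∀ ε > 0, ∀ᶠ η in 𝓝[>] (0 : ℝ), ∀ y ∈ K,
        ‖Blow971.blw (Ft F) (fun _ => 0) p η y - r‖ ≤ ε) :
    ∀ M : ℝ, Tendsto F (𝓝[Cn (tl p) M] (((tl p).1 : ℂ), ((tl p).2 : ℂ))) (𝓝 r) := by
  have hcc : Continuous tlc := by unfold tlc; fun_prop
  have hcc' : Continuous tlc' := by unfold tlc'; fun_prop
  have hdc : Differentiable ℂ tlc := by unfold tlc; fun_prop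
  suffices H : ∀ M : ℝ, 1 ≤ M →
      Tendsto F (𝓝[Cn (tl p) M] (((tl p).1 : ℂ), ((tl p).2 : ℂ))) (𝓝 r) by
    intro M
    exact (H (max M 1) (le_max_right _ _)).mono_left (nhdsWithin_mono _ Cn_mono)
  intro M hM
  set e : ℝ × ℝ := tl p with he
  set M1 : ℝ := M + 5 with hM1
  have hM15 : 5 ≤ M1 := by rw [hM1]; linarith
  have hf := fam hcone M1
  -- the domain
  have hΩmem : ∀ y, y ∈ tlc' '' DM M1 ↔ tlc y ∈ DM M1 := fun y => by
    constructor
    · rintro ⟨z, hz, rfl⟩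
      rw [tlc_tlc']
      exact hz
    · intro hy
      exact ⟨tlc y, hy, tlc'_tlc y⟩
  have hΩc : IsPreconnected (tlc' '' DM M1) :=
    (convex_DM M1).isPreconnected.image _ hcc'.continuousOn
  -- the compact set
  set K' : Set (ℂ × ℂ) := {y | y.1.im = -1 ∧ 1 ≤ M * y.2.im ∧ |y.1.re| + ‖y.2‖ ≤ M} with hK'
  have c1 : Continuous fun y : ℂ × ℂ => y.1.im := Complex.continuous_im.comp continuous_fst
  have c2 : Continuous fun y : ℂ × ℂ => y.2.im := Complex.continuous_im.comp continuous_snd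
  have c3 : Continuous fun y : ℂ × ℂ => y.1.re := Complex.continuous_re.comp continuous_fst
  have hK'cl : IsClosed K' := (isClosed_eq c1 continuous_const).inter
    ((isClosed_le continuous_const (continuous_const.mul c2)).inter
      (isClosed_le (c3.abs.add continuous_snd.norm) continuous_const))
  have hK'c : IsCompact K' := by
    refine Metric.isCompact_of_isClosed_isBounded hK'cl ?_
    refine (Metric.isBounded_closedBall (x := (0 : ℂ × ℂ)) (r := M + 1)).subset ?_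
    rintro y ⟨h1, h2, h3⟩
    rw [mem_closedBall, dist_zero_right, Prod.norm_def, sup_le_iff]
    constructor
    · have := Complex.norm_le_abs_re_add_abs_im y.1
      rw [h1] at this
      have h4 : |(-1 : ℝ)| = 1 := by norm_num
      have h5 := norm_nonneg y.2
      linarith
    · have h5 := abs_nonneg y.1.re
      linarith
  have hK'D : K' ⊆ DM M1 := by
    rintro y ⟨h1, h2, h3⟩
    have h4 : 0 < y.2.im := by
      by_contra hc
      push Not at hc
      nlinarith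
    refine ⟨by rw [h1]; norm_num, by rw [h1]; norm_num, ?_, ?_⟩
    · rw [h1, hM1]; nlinarith
    · rw [h1, hM1]; linarith
  have key : ∀ ε > 0, ∀ᶠ η : ℝ in 𝓝[>] 0, ∀ y ∈ K', ‖F (bl e η y) - r‖ ≤ ε := by
    intro ε hε
    have h1 := hblow 0 (fun ε' hε' => Eventually.of_forall fun z => by
        have : 0 ≤ ε' * |z| := by positivity
        linarith) (tlc' '' DM M1) hΩc (fun q hq => by
          have hq' := (hΩmem q).1 hq
          obtain ⟨ρ, hρ, C, hsub, hC⟩ := loc_bdd hcone hr hM15 (tlc q) hq'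
          obtain ⟨ρ', hρ', hsub'⟩ := Metric.isOpen_iff.1 ((isOpen_ball (x := tlc q) (ε := ρ)).preimage
            hcc) q (mem_ball_self hρ : tlc q ∈ ball (tlc q) ρ)
          refine ⟨ρ', hρ', C, ?_⟩
          filter_upwards [hf, hC] with s hs1 hs2
          have hfun : Blow971.blw (Ft F) (fun _ => 0) p s = fun y => F (bl e s (tlc y)) :=
            funext fun y => blw_eq F p s y
          rw [hfun]
          refine ⟨?_, fun y hy => hs2 _ (hsub' hy)⟩
          exact hs1.1.comp hdc.differentiableOn fun y hy => hsub (hsub' hy))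
        (-I) 0 (by
          rw [hΩmem]
          have h2 := bp_DM hM15 (t := 1) one_pos (by norm_num)
          have h3 : tlc (-I, ((0 : ℝ) : ℂ)) = (-((1 : ℝ) : ℂ) * I, ((1 : ℝ) : ℂ) / 4 * I) := by
            unfold tlc
            ext1
            · simp
            · simp
              ring
          rw [h3]
          exact h2) (by simp) (tlc' '' K') (hK'c.image hcc')
        (image_mono hK'D) ε hε
    filter_upwards [h1] with η hη y hy
    have := hη (tlc' y) (mem_image_of_mem _ hy)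
    rw [blw_eq, tlc_tlc'] at this
    exact this
  rw [Metric.tendsto_nhdsWithin_nhds]
  intro ε hε
  obtain ⟨δ, hδ, hδs⟩ := mem_nhdsGT_iff_exists_Ioo_subset.1 (key (ε / 2) (by positivity))
  refine ⟨δ, hδ, fun {q} hq hdist => ?_⟩
  obtain ⟨h1, h2, h3⟩ := hq
  set D : ℝ := -q.1.im with hD
  have hD0 : 0 < D := by rw [hD]; linarith
  have hDδ : D < δ := by
    rw [Prod.dist_eq, max_lt_iff] at hdist
    have h4 := (Complex.abs_im_le_norm (q.1 - (e.1 : ℂ)))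
    rw [← dist_eq_norm] at h4
    have h5 : (q.1 - (e.1 : ℂ)).im = -D := by simp [hD]
    rw [h5, abs_neg, abs_of_pos hD0] at h4
    linarith [hdist.1]
  have hDc : (D : ℂ) ≠ 0 := by exact_mod_cast hD0.ne'
  set y : ℂ × ℂ := ((q.1 - (e.1 : ℂ)) / D, (q.2 - (e.2 : ℂ)) / D) with hy
  have hbl : bl e D y = q := by
    unfold bl
    rw [hy]
    ext1
    · show (e.1 : ℂ) + D * ((q.1 - (e.1 : ℂ)) / D) = q.1
      field_simp
      ring
    · show (e.2 : ℂ) + D * ((q.2 - (e.2 : ℂ)) / D) = q.2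
      field_simp
      ring
  have i1 := bl_im1 e D y
  have i2 := bl_im2 e D y
  have i3 := bl_re1 e D y
  have i4 := bl_sub2 e D y
  rw [hbl] at i1 i2 i3 i4
  have hyK : y ∈ K' := by
    refine ⟨?_, ?_, ?_⟩
    · have : D * y.1.im = D * (-1) := by rw [← i1, hD]; ring
      exact mul_left_cancel₀ hD0.ne' this
    · rw [i2] at h2
      have : D * 1 ≤ D * (M * y.2.im) := by
        calc D * 1 = D := mul_one _
          _ ≤ M * (D * y.2.im) := h2
          _ = _ := by ring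
      exact le_of_mul_le_mul_left this hD0
    · rw [i3, i4, S5.norm_smul' hD0, abs_mul, abs_of_pos hD0] at h3
      have : D * (|y.1.re| + ‖y.2‖) ≤ D * M := by linarith
      exact le_of_mul_le_mul_left this hD0
  have := hδs (show D ∈ Ioo 0 δ from ⟨hD0, hDδ⟩) y hyK
  rw [hbl] at this
  rw [dist_eq_norm]
  linarith

/-- the inverse of the tilt -/
def tli (e : ℝ × ℝ) : ℝ × ℝ := (e.1, e.2 + e.1 / 4)

theorem tl_tli (e : ℝ × ℝ) : tl (tli e) = e := by
  unfold tl tli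
  ext <;> simp

theorem mp_tli : MeasurePreserving tli (volume : Measure (ℝ × ℝ)) volume := by
  have h := MeasurePreserving.skew_product (μa := (volume : Measure ℝ)) (μc := (volume : Measure ℝ))
    (μd := (volume : Measure ℝ)) (f := fun x : ℝ => x)
    (MeasurePreserving.id (volume : Measure ℝ))
    (g := fun x v : ℝ => v + x / 4) (by unfold Function.uncurry; fun_prop)
    (Eventually.of_forall fun x => by
      exact (measurePreserving_add_right (volume : Measure ℝ) (x / 4)).map_eq)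
  exact h

/-- a.e. point with a radial limit has limits in all cones -/
theorem upgrade (F : ℂ × ℂ → ℂ) (P : Set (ℝ × ℝ))
    (hcone : ∀ e ∈ P, ∀ M : ℝ, ∃ δ > 0, ∀ q ∈ Cn e M, -δ < q.1.im →
      DifferentiableAt ℂ F q ∧ F q ≠ 0 ∧ F q ≠ 1) :
    ∀ᵐ e : ℝ × ℝ, e ∈ P → Rad F e → ∃ r : ℂ, r ≠ 0 ∧ r ≠ 1 ∧ ∀ M : ℝ,
      Tendsto F (𝓝[Cn e M] ((e.1 : ℂ), (e.2 : ℂ))) (𝓝 r) := by
  classical
  set P1 : Set (ℝ × ℝ) := {p | tl p ∈ P ∧ Rad F (tl p)} with hP1
  set b : ℝ × ℝ → ℂ := fun p => if h : Rad F (tl p) then h.choose else 0 with hb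
  have hbs : ∀ p ∈ P1, b p ≠ 0 ∧ b p ≠ 1 ∧
      Tendsto (fun s : ℝ => F (ray (tl p) s)) (𝓝[>] 0) (𝓝 (b p)) := by
    intro p hp
    have : b p = hp.2.choose := dif_pos hp.2
    rw [this]
    exact hp.2.choose_spec
  have H := Blow971.blow_complex (Ft F) (fun _ => 0) P1 b fun p hp =>
    nt_of_rad (hcone _ hp.1) (hbs p hp).2.2
  have H2 : ∀ᵐ p : ℝ × ℝ, p ∈ P1 → ∃ r : ℂ, r ≠ 0 ∧ r ≠ 1 ∧ ∀ M : ℝ,
      Tendsto F (𝓝[Cn (tl p) M] (((tl p).1 : ℂ), ((tl p).2 : ℂ))) (𝓝 r) := by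
    filter_upwards [H] with p hp hpP
    exact ⟨b p, (hbs p hpP).1, (hbs p hpP).2.1,
      cones_of_blow (hcone _ hpP.1) (hbs p hpP).2.2 (hp hpP)⟩
  have H3 := mp_tli.quasiMeasurePreserving.ae H2
  filter_upwards [H3] with e he heP hR
  have h1 : tli e ∈ P1 := by
    refine ⟨?_, ?_⟩
    · rw [tl_tli]; exact heP
    · rw [tl_tli]; exact hR
  have := he h1
  rwa [tl_tli] at this

/-- **LEAF 3 of SUP.** -/
theorem altAe : AltAe := by
  obtain ⟨Cs, T, e0, he0, hG⟩ := LemG672.lemmaG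
  refine ⟨T + 1, e0 / 2, max 1 (2 * Cs), by positivity, le_max_left _ _, ?_⟩
  intro P lam d F hP hl hl1 hd hF h01 hcone
  have H1 := planar (T := T) (Cs := Cs) he0 (fun P lam d F hl hl1 hd hF h01 v =>
    slice_ae hG hl hl1 hd hF h01 v) hP hl hl1 hd hF h01
  filter_upwards [H1, upgrade F P hcone] with e h1 h2 heP
  rcases h1 heP with h | h
  · exact Or.inl (h2 heP h)
  · refine Or.inr ⟨min d 1 / 2, ?_, ?_⟩
    · have : 0 < min d 1 := lt_min hd one_pos
      linarith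
    · have h3 : ∃ᶠ s : ℝ in 𝓝[>] 0, (|Real.log ‖F (ray e s)‖| ≤ T + 1 ∧
          e0 / 2 ≤ ‖F (ray e s) - 1‖ ∧ ∀ s' : ℝ, s ≤ s' → s' < min d 1 / 2 →
            1 + |Real.log ‖F (ray e s')‖| ≤ 2 * Cs * (s' / s) ^ (1 / 2 : ℝ)) ∧ 0 < s :=
        h.and_eventually self_mem_nhdsWithin
      refine h3.mono fun s hs => ?_
      refine ⟨hs.1.1, hs.1.2.1, fun s' h4 h5 => (hs.1.2.2 s' h4 h5).trans ?_⟩
      have h6 : 0 ≤ (s' / s) ^ (1 / 2 : ℝ) :=
        Real.rpow_nonneg (div_nonneg (hs.2.le.trans h4) hs.2.le) _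
      exact mul_le_mul_of_nonneg_right (le_max_right _ _) h6

end Crest.Agent.R102.Alt613
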