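import Mathlib
import Crest.Agent.R102.BEndA_802

-- ▼ part R102/DiscExt_802
section

/-!
Row 102: **continuation of a germ to a disc** (Mathlib only).

`ext_sphere`: a holomorphic function on `ball c r` which extends across every point of the circle
extends to a larger ball.
`disc_ext`: a germ at `c` such that every extension to a smaller ball `ball c r`, `r < R`, extends
across every point of the circle, extends to `ball c R`.
-/

set_option autoImplicit false

open Set Filter Topology Metric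

noncomputable section

namespace Crest.Agent.R102.DiscExt802

lemma ext_sphere {c : ℂ} {r : ℝ} (hr : 0 < r) {f : ℂ → ℂ} (hf : DifferentiableOn ℂ f (ball c r))
    (h : ∀ x ∈ sphere c r, ∃ ε > 0, ∃ g : ℂ → ℂ, DifferentiableOn ℂ g (ball x ε) ∧
      EqOn g f (ball x ε ∩ ball c r)) :
    ∃ r' > r, ∃ F : ℂ → ℂ, DifferentiableOn ℂ F (ball c r') ∧ EqOn F f (ball c r) := by
  have h' : ∀ x : closedBall c r, ∃ ε > 0, ∃ g : ℂ → ℂ, DifferentiableOn ℂ g (ball (x : ℂ) ε) ∧
      EqOn g f (ball (x : ℂ) ε ∩ ball c r) := by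
    rintro ⟨x, hx⟩
    rcases (mem_closedBall.1 hx).lt_or_eq with h1 | h1
    · refine ⟨r - dist x c, sub_pos.2 h1, f, hf.mono ?_, fun z _ => rfl⟩
      exact ball_subset_ball' (by simp)
    · exact h x h1
  choose ε hε g hg1 hg2 using h'
  obtain ⟨δ, hδ, hδ'⟩ := lebesgue_number_lemma_of_metric (isCompact_closedBall c r)
    (c := fun i : closedBall c r => ball (i : ℂ) (ε i)) (fun i => isOpen_ball)
    (fun x hx => mem_iUnion.2 ⟨⟨x, hx⟩, mem_ball_self (hε _)⟩)
  have hG : ∀ x : ℂ, ∃ G : ℂ → ℂ, x ∈ closedBall c r → DifferentiableOn ℂ G (ball x δ) ∧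
      EqOn G f (ball x δ ∩ ball c r) := by
    intro x
    by_cases hx : x ∈ closedBall c r
    · obtain ⟨i, hi⟩ := hδ' x hx
      exact ⟨g i, fun _ => ⟨(hg1 i).mono hi, (hg2 i).mono (inter_subset_inter_left _ hi)⟩⟩
    · exact ⟨f, fun h => absurd h hx⟩
  choose G hG using hG
  set κ : ℝ := r / (r + δ / 4) with hκ
  have hκ0 : 0 < κ := by positivity
  have hκ1 : κ < 1 := by rw [hκ, div_lt_one (by positivity)]; linarith
  set π : ℂ → ℂ := fun z => c + κ * (z - c) with hπ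
  have p1 : ∀ z ∈ ball c (r + δ / 4), π z ∈ ball c r := by
    intro z hz
    rw [mem_ball, dist_eq_norm] at hz ⊢
    simp only [hπ, add_sub_cancel_left]
    rw [norm_mul, Complex.norm_real, Real.norm_eq_abs, abs_of_pos hκ0, hκ]
    have h1 : r / (r + δ / 4) * ‖z - c‖ < r / (r + δ / 4) * (r + δ / 4) := by gcongr
    rwa [div_mul_cancel₀ _ (by positivity)] at h1
  have p2 : ∀ z ∈ ball c (r + δ / 4), dist z (π z) < δ / 4 := by
    intro z hz
    rw [mem_ball, dist_eq_norm] at hz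
    rw [dist_eq_norm]
    have h1 : z - π z = ((1 - κ : ℝ) : ℂ) * (z - c) := by
      simp only [hπ]; push_cast; ring
    rw [h1, norm_mul, Complex.norm_real, Real.norm_eq_abs, abs_of_pos (by linarith)]
    have h2 : (1 - κ) * ‖z - c‖ < (1 - κ) * (r + δ / 4) :=
      mul_lt_mul_of_pos_left hz (by linarith)
    have h3 : (1 - κ) * (r + δ / 4) = δ / 4 := by
      rw [hκ]; field_simp; ring
    linarith
  have p3 : ∀ z w, dist (π z) (π w) ≤ dist z w := by
    intro z w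
    rw [dist_eq_norm, dist_eq_norm]
    have h1 : π z - π w = (κ : ℂ) * (z - w) := by simp only [hπ]; ring
    rw [h1, norm_mul, Complex.norm_real, Real.norm_eq_abs, abs_of_pos hκ0]
    exact mul_le_of_le_one_left (norm_nonneg _) hκ1.le
  refine ⟨r + δ / 4, by linarith, fun z => G (π z) z, ?_, ?_⟩
  · intro z hz
    refine DifferentiableAt.differentiableWithinAt ?_
    have hπz := ball_subset_closedBall (p1 z hz)
    have hzb : z ∈ ball (π z) δ := by
      rw [mem_ball]; linarith [p2 z hz]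
    have h1 : DifferentiableAt ℂ (G (π z)) z :=
      (hG _ hπz).1.differentiableAt (isOpen_ball.mem_nhds hzb)
    refine h1.congr_of_eventuallyEq ?_
    filter_upwards [isOpen_ball.mem_nhds hz, ball_mem_nhds z (show (0 : ℝ) < δ / 4 by positivity)]
      with w hw hwz
    have hπw := ball_subset_closedBall (p1 w hw)
    have hpp : dist (π w) (π z) < δ / 4 := (p3 w z).trans_lt hwz
    have hK : IsPreconnected (ball (π w) δ ∩ ball (π z) δ) :=
      ((convex_ball _ _).inter (convex_ball _ _)).isPreconnected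
    have hKo : IsOpen (ball (π w) δ ∩ ball (π z) δ) := isOpen_ball.inter isOpen_ball
    have hz0 : π z ∈ ball (π w) δ ∩ ball (π z) δ := by
      refine ⟨?_, mem_ball_self hδ⟩
      rw [mem_ball, dist_comm]; linarith
    have heq := AnalyticOnNhd.eqOn_of_preconnected_of_eventuallyEq (𝕜 := ℂ)
      (f := G (π w)) (g := G (π z)) (U := ball (π w) δ ∩ ball (π z) δ)
      (((hG _ hπw).1.mono inter_subset_left).analyticOnNhd hKo)
      (((hG _ hπz).1.mono inter_subset_right).analyticOnNhd hKo) hK hz0 (by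
        filter_upwards [hKo.mem_nhds hz0, isOpen_ball.mem_nhds (p1 z hz)] with u hu hu'
        rw [(hG _ hπw).2 ⟨hu.1, hu'⟩, (hG _ hπz).2 ⟨hu.2, hu'⟩])
    refine heq ⟨?_, ?_⟩
    · rw [mem_ball]; linarith [p2 w hw]
    · rw [mem_ball]
      have h3 : dist w (π z) ≤ dist w z + dist z (π z) := dist_triangle _ _ _
      have h4 : dist w z < δ / 4 := hwz
      linarith [p2 z hz]
  · intro z hz
    have hz' : z ∈ ball c (r + δ / 4) := ball_subset_ball (by linarith) hz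
    refine (hG _ (ball_subset_closedBall (p1 z hz'))).2 ⟨?_, hz⟩
    rw [mem_ball]; linarith [p2 z hz']

theorem disc_ext {c : ℂ} {R : ℝ} (hR : 0 < R) {B : ℂ → ℂ} (hB : AnalyticAt ℂ B c)
    (key : ∀ r, 0 < r → r < R → ∀ f : ℂ → ℂ, DifferentiableOn ℂ f (ball c r) →
      (∀ᶠ t in 𝓝 c, f t = B t) → ∀ x ∈ sphere c r, ∃ ε > 0, ∃ g : ℂ → ℂ,
        DifferentiableOn ℂ g (ball x ε) ∧ EqOn g f (ball x ε ∩ ball c r)) :
    ∃ F : ℂ → ℂ, DifferentiableOn ℂ F (ball c R) ∧ ∀ᶠ t in 𝓝 c, F t = B t := by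
  obtain ⟨p, r₀, hp⟩ := hB
  have hrad : 0 < p.radius := hp.r_pos.trans_le hp.r_le
  set F : ℂ → ℂ := fun t => p.sum (t - c) with hF
  have hFp : HasFPowerSeriesOnBall F p c p.radius := by
    have := (p.hasFPowerSeriesOnBall hrad).comp_sub c
    rwa [zero_add] at this
  have hFB : ∀ᶠ t in 𝓝 c, F t = B t := by
    have h1 := (hFp.mono hp.r_pos hp.r_le).unique hp
    filter_upwards [Metric.eball_mem_nhds c hp.r_pos] with t ht
    exact h1 ht
  by_cases hle : ENNReal.ofReal R ≤ p.radius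
  · refine ⟨F, ?_, hFB⟩
    have h1 : ball c R ⊆ Metric.eball c p.radius := by
      rw [← Metric.eball_ofReal]
      exact Metric.eball_subset_eball hle
    exact hFp.analyticOnNhd.differentiableOn.mono h1
  · exfalso
    push Not at hle
    have hfin : p.radius ≠ ⊤ := (hle.trans_le le_top).ne
    set r : ℝ := p.radius.toReal with hr
    have hrr : ENNReal.ofReal r = p.radius := ENNReal.ofReal_toReal hfin
    have hr0 : 0 < r := ENNReal.toReal_pos hrad.ne' hfin
    have hrR : r < R := by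
      rw [← hrr] at hle
      exact (ENNReal.ofReal_lt_ofReal_iff hR).1 hle
    have hFd : DifferentiableOn ℂ F (ball c r) := by
      have h1 : ball c r ⊆ Metric.eball c p.radius := by
        rw [← Metric.eball_ofReal, hrr]
      exact hFp.analyticOnNhd.differentiableOn.mono h1
    obtain ⟨r', hr', F', hF'd, hF'e⟩ := ext_sphere hr0 hFd (key r hr0 hrR F hFd hFB)
    have hr''0 : 0 < (r + r') / 2 := by linarith
    set r'' : NNReal := ⟨(r + r') / 2, hr''0.le⟩ with hr''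
    have h1 : HasFPowerSeriesOnBall F' (cauchyPowerSeries F' c r'') c r'' := by
      refine DifferentiableOn.hasFPowerSeriesOnBall (hF'd.mono ?_) ?_
      · refine closedBall_subset_ball ?_
        change (r + r') / 2 < r'
        linarith
      · exact hr''0
    have h2 : HasFPowerSeriesAt F p c := ⟨_, hFp⟩
    have h3 : HasFPowerSeriesAt F' p c := by
      refine h2.congr ?_
      filter_upwards [ball_mem_nhds c hr0] with t ht
      exact (hF'e ht).symm
    have h4 := HasFPowerSeriesAt.eq_formalMultilinearSeries h3 ⟨_, h1⟩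
    have h5 := h1.r_le
    rw [← h4, ← hrr] at h5
    have h6 : ((r'' : NNReal) : ENNReal) = ENNReal.ofReal ((r + r') / 2) := by
      rw [ENNReal.ofReal_eq_coe_nnreal hr''0.le]
      rfl
    rw [h6] at h5
    have h7 := (ENNReal.ofReal_le_ofReal_iff hr0.le).1 h5
    linarith

end Crest.Agent.R102.DiscExt802
end
end

-- ▼ part R102/BEndB_802

/-!
Row 102, Case B, (END), part B: **the label extends to every disc on which the vertex is
meromorphic** (one variable).
-/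

set_option autoImplicit false

open Set Filter Topology Metric

noncomputable section

namespace Crest.Agent.R102.BEnd802

open Crest.Agent.R102.Rule982 Crest.Agent.R102.DiscExt802

/-- `B` is an admissible label at `t`: holomorphic, interior, and `γ(B) = (P, Q)` near `t` -/
def Adm (h : ℝ) (ψ H P Q B : ℂ → ℂ) (t : ℂ) : Prop :=
  AnalyticAt ℂ B t ∧ B t ∈ Sg h ∧ ∀ᶠ s in 𝓝[≠] t, P s * deriv ψ (B s) = Zn ψ H 1 (B s) ∧
    Q s * deriv ψ (B s) = Zn ψ H (-1) (B s)

lemma Adm.eventually {h : ℝ} {ψ H P Q B : ℂ → ℂ} {t : ℂ} (hA : Adm h ψ H P Q B t) :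
    ∀ᶠ s in 𝓝 t, Adm h ψ H P Q B s := by
  obtain ⟨h1, h2, h3⟩ := hA
  have h4 := eventually_nhdsWithin_iff.1 h3
  filter_upwards [h1.eventually_analyticAt, h1.continuousAt.eventually ((isOpen_Sg h).mem_nhds h2),
    h4.eventually_nhds] with s h5 h6 h7
  refine ⟨h5, h6, ?_⟩
  by_cases hst : s = t
  · rw [hst]; exact h3
  · have h8 : ∀ᶠ u in 𝓝 s, u ≠ t := isOpen_ne.mem_nhds hst
    have h9 : ∀ᶠ u in 𝓝 s, P u * deriv ψ (B u) = Zn ψ H 1 (B u) ∧
        Q u * deriv ψ (B u) = Zn ψ H (-1) (B u) := by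
      filter_upwards [h7, h8] with u hu1 hu2
      exact hu1 hu2
    exact h9.filter_mono nhdsWithin_le_nhds

/-- at a point where `P, Q` are holomorphic the relation holds in a full neighbourhood -/
lemma Adm.full {h : ℝ} {ψ H P Q B : ℂ → ℂ} (hψ : DifferentiableOn ℂ ψ (Sg h))
    (hH : DifferentiableOn ℂ H (Sg h)) {t : ℂ} (hA : Adm h ψ H P Q B t)
    (hP : AnalyticAt ℂ P t) (hQ : AnalyticAt ℂ Q t) :
    ∀ᶠ s in 𝓝 t, P s * deriv ψ (B s) = Zn ψ H 1 (B s) ∧
      Q s * deriv ψ (B s) = Zn ψ H (-1) (B s) := by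
  obtain ⟨h1, h2, h3⟩ := hA
  have hSo := isOpen_Sg h
  have c1 : ContinuousAt (fun s => deriv ψ (B s)) t :=
    ContinuousAt.comp ((hψ.deriv hSo).differentiableAt (hSo.mem_nhds h2)).continuousAt
      h1.continuousAt
  have c2 : ∀ e, ContinuousAt (fun s => Zn ψ H e (B s)) t := fun e =>
    ContinuousAt.comp ((diffOn_Zn hψ hH e).differentiableAt (hSo.mem_nhds h2)).continuousAt
      h1.continuousAt
  have e1 : P t * deriv ψ (B t) = Zn ψ H 1 (B t) := by
    have h4 : Tendsto (fun s => P s * deriv ψ (B s)) (𝓝[≠] t) (𝓝 (P t * deriv ψ (B t))) :=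
      (hP.continuousAt.mul c1).tendsto.mono_left nhdsWithin_le_nhds
    have h5 : Tendsto (fun s => Zn ψ H 1 (B s)) (𝓝[≠] t) (𝓝 (Zn ψ H 1 (B t))) :=
      (c2 1).tendsto.mono_left nhdsWithin_le_nhds
    exact tendsto_nhds_unique (h4.congr' (h3.mono fun s hs => hs.1)) h5
  have e2 : Q t * deriv ψ (B t) = Zn ψ H (-1) (B t) := by
    have h4 : Tendsto (fun s => Q s * deriv ψ (B s)) (𝓝[≠] t) (𝓝 (Q t * deriv ψ (B t))) :=
      (hQ.continuousAt.mul c1).tendsto.mono_left nhdsWithin_le_nhds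
    have h5 : Tendsto (fun s => Zn ψ H (-1) (B s)) (𝓝[≠] t) (𝓝 (Zn ψ H (-1) (B t))) :=
      (c2 (-1)).tendsto.mono_left nhdsWithin_le_nhds
    exact tendsto_nhds_unique (h4.congr' (h3.mono fun s hs => hs.2)) h5
  have h4 := eventually_nhdsWithin_iff.1 h3
  filter_upwards [h4] with s hs
  by_cases hst : s = t
  · rw [hst]; exact ⟨e1, e2⟩
  · exact hs hst

lemma mero_ne {f : ℂ → ℂ} {c : ℂ} {R : ℝ} (hf : MeromorphicOn f (ball c R)) {t₀ : ℂ}
    (ht₀ : t₀ ∈ ball c R) (hne : ∃ᶠ t in 𝓝[≠] t₀, f t ≠ 0) :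
    ∀ t ∈ ball c R, ∀ᶠ s in 𝓝[≠] t, f s ≠ 0 := by
  have hc : IsConnected (ball c R) := ⟨⟨t₀, ht₀⟩, (convex_ball c R).isPreconnected⟩
  have h1 := (hf.exists_meromorphicOrderAt_ne_top_iff_forall hc).1 ⟨⟨t₀, ht₀⟩, by
    intro h2
    rw [meromorphicOrderAt_eq_top_iff] at h2
    exact hne (h2.mono fun x hx h => h hx)⟩
  intro t ht
  exact (meromorphicOrderAt_ne_top_iff_eventually_ne_zero (hf t ht)).1 (h1 ⟨t, ht⟩)

/-- near every point of the disc everything is fine off the point -/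
def Good (P Q : ℂ → ℂ) (x : ℂ) (ε : ℝ) : Prop :=
  ∀ t ∈ ball x ε, t ≠ x → AnalyticAt ℂ P t ∧ AnalyticAt ℂ Q t ∧ deriv P t ≠ 0 ∧ deriv Q t ≠ 0 ∧
    deriv (fun t => deriv P t / deriv Q t) t ≠ 0

lemma good {h : ℝ} {ψ H P Q B : ℂ → ℂ} (hψ : DifferentiableOn ℂ ψ (Sg h))
    (hH : DifferentiableOn ℂ H (Sg h)) {c₀ : ℂ} (hc : c₀ ≠ 0) (rel : Rel h ψ H c₀) {c : ℂ} {R : ℝ}
    (hR : 0 < R) (hP : MeromorphicOn P (ball c R)) (hQ : MeromorphicOn Q (ball c R))
    (hA : Adm h ψ H P Q B c) (hnc : ∃ᶠ t in 𝓝 c, deriv B t ≠ 0) :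
    ∀ x ∈ ball c R, ∃ ε > 0, ball x ε ⊆ ball c R ∧ Good P Q x ε := by
  have hcb : c ∈ ball c R := mem_ball_self hR
  have hPd : MeromorphicOn (deriv P) (ball c R) := fun t ht => (hP t ht).deriv
  have hQd : MeromorphicOn (deriv Q) (ball c R) := fun t ht => (hQ t ht).deriv
  have hM : MeromorphicOn (fun t => deriv P t / deriv Q t) (ball c R) := fun t ht =>
    (hPd t ht).div (hQd t ht)
  have hMd : MeromorphicOn (deriv fun t => deriv P t / deriv Q t) (ball c R) := fun t ht =>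
    (hM t ht).deriv
  have hB' : ∀ᶠ t in 𝓝[≠] c, deriv B t ≠ 0 := by
    rcases hA.1.deriv.eventually_eq_zero_or_eventually_ne_zero with h1 | h1
    · exact absurd h1 (fun h2 => hnc (h2.mono fun t ht h3 => h3 ht))
    · exact h1
  have hev : ∀ᶠ t in 𝓝[≠] c, deriv P t ≠ 0 ∧ deriv Q t ≠ 0 ∧
      deriv (fun t => deriv P t / deriv Q t) t ≠ 0 := by
    have h1 : ∀ᶠ t in 𝓝[≠] c, Adm h ψ H P Q B t := hA.eventually.filter_mono nhdsWithin_le_nhds
    filter_upwards [h1, hB', (hP c hcb).eventually_analyticAt, (hQ c hcb).eventually_analyticAt]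
      with t h2 h3 h4 h5
    have h6 := h2.full hψ hH h4 h5
    have h7 := (local_id hψ hH hc rel h2.1 h2.2.1 h6).self_of_nhds
    obtain ⟨i1, i2, i3, i4, i5, i6, i7⟩ := h7
    have j1 : deriv P t ≠ 0 := by
      rw [i6.deriv]
      exact mul_ne_zero (div_ne_zero (mul_ne_zero (neg_ne_zero.2 hc) (Complex.exp_ne_zero _))
        (pow_ne_zero 2 i3)) h3
    have j2 : deriv Q t ≠ 0 := by
      rw [i7.deriv]
      exact mul_ne_zero (div_ne_zero (mul_ne_zero (neg_ne_zero.2 hc) (Complex.exp_ne_zero _))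
        (pow_ne_zero 2 i3)) h3
    have j3 : ∀ᶠ s in 𝓝 t, deriv P s ≠ 0 := h4.deriv.continuousAt.eventually_ne j1
    have h8 := (local_id2 hψ hH hc rel h2.1 h2.2.1 h6 j3).self_of_nhds
    refine ⟨j1, j2, fun h9 => ?_⟩
    have h10 := h8.2.2.1
    unfold Ff at h10
    rw [h9, zero_div, zero_pow (by norm_num), mul_zero, zero_div] at h10
    exact pow_ne_zero 6 h3 h10.symm
  have f1 := mero_ne hPd hcb (hev.mono fun t ht => ht.1).frequently
  have f2 := mero_ne hQd hcb (hev.mono fun t ht => ht.2.1).frequently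
  have f3 := mero_ne hMd hcb (hev.mono fun t ht => ht.2.2).frequently
  intro x hx
  have h1 : ∀ᶠ t in 𝓝[≠] x, AnalyticAt ℂ P t ∧ AnalyticAt ℂ Q t ∧ deriv P t ≠ 0 ∧
      deriv Q t ≠ 0 ∧ deriv (fun t => deriv P t / deriv Q t) t ≠ 0 := by
    filter_upwards [(hP x hx).eventually_analyticAt, (hQ x hx).eventually_analyticAt, f1 x hx,
      f2 x hx, f3 x hx] with t h1 h2 h3 h4 h5
    exact ⟨h1, h2, h3, h4, h5⟩
  have h2 := (eventually_nhdsWithin_iff.1 h1).and (isOpen_ball.mem_nhds hx)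
  obtain ⟨ε, hε, hεε⟩ := Metric.eventually_nhds_iff_ball.1 h2
  exact ⟨ε, hε, fun t ht => (hεε t ht).2, fun t ht htx => (hεε t ht).1 htx⟩

/-- local step -/
lemma step {h : ℝ} {ψ H P Q f : ℂ → ℂ} (hψ : DifferentiableOn ℂ ψ (Sg h))
    (hH : DifferentiableOn ℂ H (Sg h)) {c₀ : ℂ} (hc : c₀ ≠ 0) (rel : Rel h ψ H c₀)
    (hNB : NB h ψ H) {x : ℂ} {ε : ℝ} (hε : 0 < ε) (hg : Good P Q x ε) {t₀ : ℂ}
    (ht₀ : t₀ ∈ ball x ε) (hne : t₀ ≠ x) (hA : Adm h ψ H P Q f t₀) :
    ∃ β : ℂ → ℂ, DifferentiableOn ℂ β (ball x ε) ∧ (∀ t ∈ ball x ε, Adm h ψ H P Q β t) ∧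
      ∀ᶠ t in 𝓝 t₀, β t = f t := by
  have h0 := hg t₀ ht₀ hne
  obtain ⟨β, b1, b2, b3, b4⟩ := ext_ball hψ hH hc rel hNB hε (fun t ht htn => (hg t ht htn).1)
    (fun t ht htn => (hg t ht htn).2.1) (fun t ht htn => (hg t ht htn).2.2.1)
    (fun t ht htn => (hg t ht htn).2.2.2.1) (fun t ht htn => (hg t ht htn).2.2.2.2) ht₀ hne hA.1
    hA.2.1 (hA.full hψ hH h0.1 h0.2.1)
  refine ⟨β, b1, fun t ht => ⟨b1.analyticAt (isOpen_ball.mem_nhds ht), b2 t ht, ?_⟩, b4⟩
  by_cases htx : t = x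
  · rw [htx, eventually_nhdsWithin_iff]
    filter_upwards [ball_mem_nhds x hε] with s hs hsx
    exact b3 s hs hsx
  · refine Filter.Eventually.filter_mono nhdsWithin_le_nhds ?_
    filter_upwards [isOpen_ball.mem_nhds ht, isOpen_ne.mem_nhds htx] with s hs hsx
    exact b3 s hs hsx

/-- extensions are admissible -/
lemma adm_of_ext {h : ℝ} {ψ H P Q B : ℂ → ℂ} (hψ : DifferentiableOn ℂ ψ (Sg h))
    (hH : DifferentiableOn ℂ H (Sg h)) {c₀ : ℂ} (hc : c₀ ≠ 0) (rel : Rel h ψ H c₀)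
    (hNB : NB h ψ H) {c : ℂ} {R : ℝ}
    (hgood : ∀ x ∈ ball c R, ∃ ε > 0, ball x ε ⊆ ball c R ∧ Good P Q x ε)
    (hA : Adm h ψ H P Q B c) {r : ℝ} (hr : 0 < r) (hrR : r ≤ R) {f : ℂ → ℂ}
    (hf : DifferentiableOn ℂ f (ball c r)) (hfB : ∀ᶠ t in 𝓝 c, f t = B t) :
    ∀ t ∈ ball c r, Adm h ψ H P Q f t := by
  set Λ : Set ℂ := {t | ∀ᶠ s in 𝓝 t, Adm h ψ H P Q f s} with hΛ
  have hΛo : IsOpen Λ := isOpen_setOfPred_eventually_nhds
  have hΛm : ∀ t, Adm h ψ H P Q f t → t ∈ Λ := fun t ht => ht.eventually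
  have hcr : c ∈ ball c r := mem_ball_self hr
  have start : c ∈ Λ := by
    refine hΛm c ⟨hf.analyticAt (ball_mem_nhds c hr), ?_, ?_⟩
    · rw [hfB.self_of_nhds]; exact hA.2.1
    · filter_upwards [hA.2.2, hfB.filter_mono nhdsWithin_le_nhds] with s h1 h2
      rw [h2]; exact h1
  have key : closure Λ ∩ ball c r ⊆ Λ := by
    rintro x ⟨hxc, hxr⟩
    obtain ⟨ε, hε, -, hg⟩ := hgood x (ball_subset_ball hrR hxr)
    have hnb : ball x ε ∩ ball c r ∈ 𝓝 x := (isOpen_ball.inter isOpen_ball).mem_nhds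
      ⟨mem_ball_self hε, hxr⟩
    obtain ⟨t₀, ht₀, ht₀b⟩ : ∃ t ∈ Λ, t ∈ ball x ε ∩ ball c r :=
      ((mem_closure_iff_frequently.1 hxc).and_eventually hnb).exists
    by_cases htx : t₀ = x
    · rw [← htx]; exact ht₀
    · obtain ⟨β, b1, b2, b3⟩ := step hψ hH hc rel hNB hε hg ht₀b.1 htx ht₀.self_of_nhds
      have hKo : IsOpen (ball x ε ∩ ball c r) := isOpen_ball.inter isOpen_ball
      have heq := AnalyticOnNhd.eqOn_of_preconnected_of_eventuallyEq (𝕜 := ℂ)
        (f := f) (g := β) (U := ball x ε ∩ ball c r)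
        ((hf.mono inter_subset_right).analyticOnNhd hKo)
        ((b1.mono inter_subset_left).analyticOnNhd hKo)
        ((convex_ball _ _).inter (convex_ball _ _)).isPreconnected ht₀b
        (b3.mono fun t ht => ht.symm)
      have hev : ∀ᶠ t in 𝓝 x, f t = β t := by
        filter_upwards [hnb] with t ht
        exact heq ht
      have hβ := b2 x (mem_ball_self hε)
      refine hΛm x ⟨hf.analyticAt (isOpen_ball.mem_nhds hxr), ?_, ?_⟩
      · rw [hev.self_of_nhds]; exact hβ.2.1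
      · filter_upwards [hβ.2.2, hev.filter_mono nhdsWithin_le_nhds] with s h1 h2
        rw [h2]; exact h1
  have hsub : ball c r ⊆ Λ :=
    (convex_ball c r).isPreconnected.subset_of_closure_inter_subset hΛo ⟨c, hcr, start⟩ key
  exact fun t ht => (hsub ht).self_of_nhds

/-- **(DISC)** the label extends to every disc on which the vertex is meromorphic, with values in
the open strip -/
theorem disc {h : ℝ} {ψ H P Q B : ℂ → ℂ} (hψ : DifferentiableOn ℂ ψ (Sg h))
    (hH : DifferentiableOn ℂ H (Sg h)) {c₀ : ℂ} (hc : c₀ ≠ 0) (rel : Rel h ψ H c₀)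
    (hNB : NB h ψ H) {c : ℂ} {R : ℝ} (hR : 0 < R) (hP : MeromorphicOn P (ball c R))
    (hQ : MeromorphicOn Q (ball c R)) (hA : Adm h ψ H P Q B c)
    (hnc : ∃ᶠ t in 𝓝 c, deriv B t ≠ 0) :
    ∃ F : ℂ → ℂ, DifferentiableOn ℂ F (ball c R) ∧ (∀ t ∈ ball c R, Adm h ψ H P Q F t) ∧
      ∀ᶠ t in 𝓝 c, F t = B t := by
  have hgood := good hψ hH hc rel hR hP hQ hA hnc
  obtain ⟨F, hF1, hF2⟩ := disc_ext hR hA.1 (by
    intro r hr hrR f hf hfB x hx
    have hAf := adm_of_ext hψ hH hc rel hNB hgood hA hr hrR.le hf hfB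
    have hxR : x ∈ ball c R := by
      rw [mem_ball, mem_sphere.1 hx]; exact hrR
    obtain ⟨ε, hε, -, hg⟩ := hgood x hxR
    have hxcl : x ∈ closure (ball c r) := by
      rw [closure_ball c hr.ne']
      exact sphere_subset_closedBall hx
    obtain ⟨t₀, ht₀, ht₀b⟩ : ∃ t ∈ ball c r, t ∈ ball x ε :=
      ((mem_closure_iff_frequently.1 hxcl).and_eventually (ball_mem_nhds x hε)).exists
    have htx : t₀ ≠ x := by
      rintro rfl
      rw [mem_ball, mem_sphere.1 hx] at ht₀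
      exact lt_irrefl _ ht₀
    obtain ⟨β, b1, b2, b3⟩ := step hψ hH hc rel hNB hε hg ht₀b htx (hAf t₀ ht₀)
    refine ⟨ε, hε, β, b1, ?_⟩
    have hKo : IsOpen (ball x ε ∩ ball c r) := isOpen_ball.inter isOpen_ball
    exact AnalyticOnNhd.eqOn_of_preconnected_of_eventuallyEq (𝕜 := ℂ)
      (f := β) (g := f) (U := ball x ε ∩ ball c r)
      ((b1.mono inter_subset_left).analyticOnNhd hKo)
      ((hf.mono inter_subset_right).analyticOnNhd hKo)
      ((convex_ball _ _).inter (convex_ball _ _)).isPreconnected ⟨ht₀b, ht₀⟩ b3)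
  exact ⟨F, hF1, adm_of_ext hψ hH hc rel hNB hgood hA hR le_rfl hF1 hF2, hF2⟩

end Crest.Agent.R102.BEnd802
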