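import Mathlib
import Crest.Agent.R102.Mer_88
import Crest.Agent.R102.BEndA_802
import Crest.Agent.R102.MerF_217

-- ▼ part R102/JX_802
section

/-!
Row 102, (END): the interface `JX` = joint extension of the label.
-/

set_option autoImplicit false

open Set Filter Topology Metric

noncomputable section

namespace Crest.Agent.R102.BEnd802

open Crest.Agent.R102.Mer88

/-- **joint extension of the label** at the leaf `w0`: if the label `B` is holomorphic on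
`ball c r × ball w0 δ` with values in `V` and the vertex `γ(B) = (P, Q)` is meromorphic on
`ball c R × ball w0 δ`, then `B` extends to `ball c R' × ball w0 δ'`, `R' < R`. -/
def JX (V : Set ℂ) (θ H : ℂ → ℂ) (w0 : ℂ) : Prop :=
  ∀ (c : ℂ) (r R R' δ : ℝ) (B P Q : ℂ × ℂ → ℂ), 0 < r → r < R' → R' < R → 0 < δ →
    DifferentiableOn ℂ B (ball c r ×ˢ ball w0 δ) → (∀ x ∈ ball c r ×ˢ ball w0 δ, B x ∈ V) →
    (∀ w ∈ ball w0 δ, ∃ t ∈ ball c r, deriv (fun t => B (t, w)) t ≠ 0) →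
    (∀ x ∈ ball c R ×ˢ ball w0 δ, MerAt P x ∧ MerAt Q x) →
    (∀ x ∈ ball c r ×ˢ ball w0 δ,
      Rep P (fun x => Zn θ H 1 (B x)) (fun x => deriv θ (B x)) x ∧
      Rep Q (fun x => Zn θ H (-1) (B x)) (fun x => deriv θ (B x)) x) →
    ∃ δ' > 0, δ' ≤ δ ∧ ∃ Bt : ℂ × ℂ → ℂ, DifferentiableOn ℂ Bt (ball c R' ×ˢ ball w0 δ') ∧
      (∀ x ∈ ball c R' ×ˢ ball w0 δ', Bt x ∈ V) ∧ EqOn Bt B (ball c r ×ˢ ball w0 δ')

end Crest.Agent.R102.BEnd802
end
end

-- ▼ part R102/Slice_802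

/-!
Row 102, Case B, (END): **leaves `w ≠ w0`** of meromorphic functions of `(t, w)` near `(c, w0)`.

* `MerAt.inv` (unconditional: `0⁻¹ = 0`), `MerAt.neg/sub/div`;
* `nz_slices`: `NZ D (c, w0)` ⇒ for `0 < ‖w - w0‖ < ρ'` the leaf `D (·, w)` has isolated zeros;
* `rep_slices`, `mero_slices`: `Rep`, `MerAt` restrict to the leaves `w ≠ w0` near `w0`;
* `mero_slices_compact`: uniformly on a compact set of the leaf `w = w0`.
-/

set_option autoImplicit false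

open Set Filter Topology Metric

noncomputable section

namespace Crest.Agent.R102.Slice802

open Crest.Agent.R102.Mer88 Crest.Agent.R102.MerF217

section alg

variable {E : Type*} [NormedAddCommGroup E] [NormedSpace ℂ E]

theorem MerAt.inv {f : E → ℂ} {c : E} (h : MerAt f c) : MerAt (fun x => (f x)⁻¹) c := by
  obtain ⟨P, Q, hP, hQ, hR⟩ := h
  by_cases hPn : NZ P c
  · exact ⟨Q, P, hQ.1, hPn, Rep.inv hPn hR⟩
  · have h1 : ∀ᶠ x in 𝓝 c, P x = 0 := by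
      by_contra hcon
      rw [not_eventually] at hcon
      exact hPn ⟨hP, hcon⟩
    obtain ⟨D, hD, hR⟩ := hR
    refine ⟨fun _ => 0, fun _ => 1, analyticAt_const, nz_one c, fun x => D x * Q x, hD.mul hQ, ?_⟩
    filter_upwards [h1, hR] with x hx hx' h0
    have h2 := hx' (left_ne_zero_of_mul h0)
    rw [hx] at h2
    have h3 : f x = 0 := (mul_eq_zero.1 h2).resolve_left (right_ne_zero_of_mul h0)
    rw [h3]; simp

theorem MerAt.neg {f : E → ℂ} {c : E} (h : MerAt f c) : MerAt (fun x => -f x) c := by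
  have h1 := MerAt.mul (merAt_const (-1) c) h
  refine (show (fun x => -f x) = fun x => (-1 : ℂ) * f x from ?_) ▸ h1
  funext x; ring

theorem MerAt.sub {f g : E → ℂ} {c : E} (h : MerAt f c) (h' : MerAt g c) :
    MerAt (fun x => f x - g x) c := by
  have h1 := MerAt.add h (MerAt.neg h')
  refine (show (fun x => f x - g x) = fun x => f x + -g x from ?_) ▸ h1
  funext x; ring

theorem MerAt.div {f g : E → ℂ} {c : E} (h : MerAt f c) (h' : MerAt g c) :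
    MerAt (fun x => f x / g x) c := by
  have h1 := MerAt.mul h (MerAt.inv h')
  refine (show (fun x => f x / g x) = fun x => f x * (g x)⁻¹ from ?_) ▸ h1
  funext x; rw [div_eq_mul_inv]

end alg

/-! ### slices -/

lemma ball_prod_eq (c w0 : ℂ) (ρ : ℝ) : ball ((c, w0) : ℂ × ℂ) ρ = ball c ρ ×ˢ ball w0 ρ :=
  (ball_prod_same c w0 ρ).symm

lemma an_slice {D : ℂ × ℂ → ℂ} {t w : ℂ} (hD : AnalyticAt ℂ D (t, w)) :
    AnalyticAt ℂ (fun s => D (s, w)) t := by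
  have h1 : AnalyticAt ℂ (fun s : ℂ => ((s, w) : ℂ × ℂ)) t := analyticAt_id.prod analyticAt_const
  exact AnalyticAt.fun_comp (g := D) hD h1

lemma an_slice' {D : ℂ × ℂ → ℂ} {t w : ℂ} (hD : AnalyticAt ℂ D (t, w)) :
    AnalyticAt ℂ (fun v => D (t, v)) w := by
  have h1 : AnalyticAt ℂ (fun v : ℂ => ((t, v) : ℂ × ℂ)) w := analyticAt_const.prod analyticAt_id
  exact AnalyticAt.fun_comp (g := D) hD h1

/-- leaves of a function which is not identically zero -/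
theorem nz_slices {D : ℂ × ℂ → ℂ} {c w0 : ℂ} (hD : NZ D (c, w0)) {p : ℂ × ℂ → Prop}
    (hp : ∀ᶠ x in 𝓝 (c, w0), p x) :
    ∃ ρ > 0, ∀ w ∈ ball w0 ρ, w ≠ w0 → ∀ t ∈ ball c ρ, p (t, w) ∧ ∀ᶠ s in 𝓝[≠] t,
      p (s, w) ∧ D (s, w) ≠ 0 := by
  obtain ⟨ρ0, hρ0, h0⟩ := Metric.eventually_nhds_iff_ball.1 (hD.1.eventually_analyticAt.and hp)
  have h1 : ∀ t ∈ ball c ρ0, ∀ w ∈ ball w0 ρ0, AnalyticAt ℂ D (t, w) ∧ p (t, w) := by
    intro t ht w hw
    exact h0 (t, w) (by rw [ball_prod_eq]; exact ⟨ht, hw⟩)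
  obtain ⟨⟨t1, w1⟩, hx1, hx1b⟩ := (hD.2.and_eventually (ball_mem_nhds (c, w0) hρ0)).exists
  have hx1c : ((t1, w1) : ℂ × ℂ) ∈ ball ((c, w0) : ℂ × ℂ) ρ0 := hx1b
  rw [ball_prod_eq] at hx1c
  obtain ⟨ht1, hw1⟩ := hx1c
  -- the function `w ↦ D (t1, w)`
  have h2 : ∀ᶠ w in 𝓝[≠] w0, D (t1, w) ≠ 0 := by
    have ha : AnalyticOnNhd ℂ (fun w => D (t1, w)) (ball w0 ρ0) := fun w hw =>
      an_slice' (h1 t1 ht1 w hw).1
    rcases (ha w0 (mem_ball_self hρ0)).eventually_eq_zero_or_eventually_ne_zero with h3 | h3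
    · exfalso
      exact hx1 (ha.eqOn_zero_of_preconnected_of_eventuallyEq_zero
        (convex_ball w0 ρ0).isPreconnected (mem_ball_self hρ0) h3 hw1)
    · exact h3
  rw [eventually_nhdsWithin_iff] at h2
  obtain ⟨ρ1, hρ1, h3⟩ := Metric.eventually_nhds_iff_ball.1 h2
  refine ⟨min ρ0 ρ1, lt_min hρ0 hρ1, fun w hw hwn t ht => ?_⟩
  have hw0 : w ∈ ball w0 ρ0 := ball_subset_ball (min_le_left _ _) hw
  have ht0 : t ∈ ball c ρ0 := ball_subset_ball (min_le_left _ _) ht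
  refine ⟨(h1 t ht0 w hw0).2, ?_⟩
  have h4 : D (t1, w) ≠ 0 := h3 w (ball_subset_ball (min_le_right _ _) hw) hwn
  have ha : AnalyticOnNhd ℂ (fun s => D (s, w)) (ball c ρ0) := fun s hs =>
    an_slice (h1 s hs w hw0).1
  have h5 : ∀ᶠ s in 𝓝[≠] t, D (s, w) ≠ 0 := by
    rcases (ha t ht0).eventually_eq_zero_or_eventually_ne_zero with h6 | h6
    · exfalso
      exact h4 (ha.eqOn_zero_of_preconnected_of_eventuallyEq_zero
        (convex_ball c ρ0).isPreconnected ht0 h6 ht1)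
    · exact h6
  filter_upwards [h5, nhdsWithin_le_nhds (isOpen_ball.mem_nhds ht0)] with s hs hs'
  exact ⟨(h1 s hs' w hw0).2, hs⟩

/-- representations restrict to the leaves -/
theorem rep_slices {f P Q : ℂ × ℂ → ℂ} {c w0 : ℂ} (h : Rep f P Q (c, w0)) :
    ∃ ρ > 0, ∀ w ∈ ball w0 ρ, w ≠ w0 → ∀ t ∈ ball c ρ, ∀ᶠ s in 𝓝[≠] t,
      Q (s, w) * f (s, w) = P (s, w) := by
  obtain ⟨D, hD, h1⟩ := h
  obtain ⟨ρ, hρ, h2⟩ := nz_slices hD h1
  refine ⟨ρ, hρ, fun w hw hwn t ht => ?_⟩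
  filter_upwards [(h2 w hw hwn t ht).2] with s hs
  exact hs.1 hs.2

/-- meromorphic functions restrict to the leaves -/
theorem mero_slices {f : ℂ × ℂ → ℂ} {c w0 : ℂ} (h : MerAt f (c, w0)) :
    ∃ ρ > 0, ∀ w ∈ ball w0 ρ, w ≠ w0 → ∀ t ∈ ball c ρ, MeromorphicAt (fun s => f (s, w)) t := by
  obtain ⟨P, Q, hP, hQ, D, hD, h1⟩ := h
  obtain ⟨ρ, hρ, h2⟩ := nz_slices (hD.mul hQ)
    (h1.and (hP.eventually_analyticAt.and hQ.1.eventually_analyticAt))
  refine ⟨ρ, hρ, fun w hw hwn t ht => ?_⟩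
  obtain ⟨⟨-, h3, h4⟩, h5⟩ := h2 w hw hwn t ht
  have h6 : MeromorphicAt (fun s => P (s, w) / Q (s, w)) t :=
    (an_slice h3).meromorphicAt.div (an_slice h4).meromorphicAt
  refine h6.congr ?_
  filter_upwards [h5] with s hs
  have h7 := hs.1.1 (left_ne_zero_of_mul hs.2)
  have h8 : Q (s, w) ≠ 0 := right_ne_zero_of_mul hs.2
  rw [← h7]
  field_simp

/-- uniformly on a compact set -/
theorem mero_slices_compact {f : ℂ × ℂ → ℂ} {w0 : ℂ} {K : Set ℂ} (hK : IsCompact K)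
    (h : ∀ c ∈ K, MerAt f (c, w0)) :
    ∃ ρ > 0, ∀ w ∈ ball w0 ρ, w ≠ w0 → ∀ t ∈ K, MeromorphicAt (fun s => f (s, w)) t := by
  refine hK.induction_on (p := fun S => ∃ ρ > 0, ∀ w ∈ ball w0 ρ, w ≠ w0 → ∀ t ∈ S,
    MeromorphicAt (fun s => f (s, w)) t) ?_ ?_ ?_ ?_
  · exact ⟨1, one_pos, fun _ _ _ t ht => absurd ht (notMem_empty t)⟩
  · rintro S T hST ⟨ρ, hρ, h1⟩
    exact ⟨ρ, hρ, fun w hw hwn t ht => h1 w hw hwn t (hST ht)⟩
  · rintro S T ⟨ρ, hρ, h1⟩ ⟨ρ', hρ', h2⟩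
    refine ⟨min ρ ρ', lt_min hρ hρ', fun w hw hwn t ht => ?_⟩
    rcases ht with ht | ht
    · exact h1 w (ball_subset_ball (min_le_left _ _) hw) hwn t ht
    · exact h2 w (ball_subset_ball (min_le_right _ _) hw) hwn t ht
  · intro c hc
    obtain ⟨ρ, hρ, h1⟩ := mero_slices (h c hc)
    exact ⟨ball c ρ, nhdsWithin_le_nhds (ball_mem_nhds c hρ), ρ, hρ, h1⟩

end Crest.Agent.R102.Slice802
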