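import Mathlib
import Crest.Agent.R102.HartR_948
import Crest.Agent.R102.Slice_802_Mg
import Crest.Agent.R102.BEndB_802
import Crest.Agent.R102.SpineDefs_478
import Crest.Agent.R102.C1G_821

-- ▼ part R102/Joint_802
section

/-!
Row 102, Case B, (END): **joint holomorphic extension** from the leaves `w ≠ w0`.
Convention of `HartR_948`: `f (w, t)`.
-/

set_option autoImplicit false

open Set Filter Topology Metric

noncomputable section

namespace Crest.Agent.R102.Joint802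

open Crest.Agent.R102.M948

/-- uniform coefficient bounds give a joint extension -/
theorem joint_of_coef {f : ℂ × ℂ → ℂ} {w0 t0 : ℂ} {δ r0 K R R' : ℝ} (hδ : 0 < δ) (hr0 : 0 < r0)
    (hf : DifferentiableOn ℂ f (ball w0 δ ×ˢ ball t0 r0)) (hR'0 : 0 < R') (hR' : R' < R)
    (hK : ∀ n, ∀ w ∈ ball w0 δ, ‖coefT f t0 n w‖ ≤ K * (1 / R) ^ n) :
    ∃ G : ℂ × ℂ → ℂ, DifferentiableOn ℂ G (ball w0 δ ×ˢ ball t0 R') ∧
      ∀ w ∈ ball w0 δ, ∀ t ∈ ball t0 (min r0 R'), G (w, t) = f (w, t) := by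
  have hR0 : 0 < R := hR'0.trans hR'
  refine ⟨fun p => ∑' n, coefT f t0 n p.1 * (p.2 - t0) ^ n, ?_, ?_⟩
  · have hopen : IsOpen (ball w0 δ ×ˢ ball t0 R') := isOpen_ball.prod isOpen_ball
    have hK0 : 0 ≤ K := by
      have := (norm_nonneg _).trans (hK 0 w0 (mem_ball_self hδ))
      simpa using this
    have hsumm : Summable (fun n : ℕ => K * (R' / R) ^ n) :=
      (summable_geometric_of_lt_one (by positivity) ((div_lt_one hR0).2 hR')).mul_left _
    have hbd : ∀ n : ℕ, ∀ p ∈ ball w0 δ ×ˢ ball t0 R',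
        ‖coefT f t0 n p.1 * (p.2 - t0) ^ n‖ ≤ K * (R' / R) ^ n := by
      intro n p hp
      have h1 := hK n p.1 hp.1
      have h2 : ‖p.2 - t0‖ ≤ R' := by
        have := hp.2; rw [mem_ball, dist_eq_norm] at this; exact this.le
      rw [norm_mul, norm_pow]
      calc ‖coefT f t0 n p.1‖ * ‖p.2 - t0‖ ^ n ≤ K * (1 / R) ^ n * R' ^ n := by gcongr
        _ = K * (R' / R) ^ n := by rw [mul_assoc, ← mul_pow]; congr 2; ring
    refine (Crest.Agent.R266.SCV.analyticOnNhd_of_tendstoLocallyUniformlyOn hopen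
      (tendstoUniformlyOn_tsum_nat hsumm hbd).tendstoLocallyUniformlyOn
      (Eventually.of_forall (fun N => ?_))).differentiableOn
    refine DifferentiableOn.fun_sum (fun n _ => ?_)
    refine DifferentiableOn.mul ?_ (by fun_prop)
    exact (differentiableOn_coefT isOpen_ball hr0 hf n).comp
      (differentiable_fst.differentiableOn) (fun p hp => hp.1)
  · intro w hw t ht
    have h1 := Complex.hasSum_taylorSeries_on_ball (slice_differentiableOn hf hw)
      (z := t) (ball_subset_ball (min_le_left _ _) ht)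
    have he : (fun n => coefT f t0 n w * (t - t0) ^ n) =
        (fun n : ℕ => (n.factorial : ℂ)⁻¹ • (t - t0) ^ n •
          iteratedDeriv n (fun s => f (w, s)) t0) := by
      ext n
      unfold coefT; simp only [smul_eq_mul]; ring
    show ∑' n, coefT f t0 n w * (t - t0) ^ n = f (w, t)
    rw [he]
    exact h1.tsum_eq

/-- **joint extension from the leaves `w ≠ w0`** -/
theorem joint_ext {f : ℂ × ℂ → ℂ} {w0 t0 : ℂ} {δ r0 M R R' : ℝ} (hδ : 0 < δ) (hr0 : 0 < r0)
    (hf : DifferentiableOn ℂ f (ball w0 δ ×ˢ ball t0 r0)) (hR'0 : 0 < R') (hR' : R' < R)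
    (hF : ∀ w ∈ ball w0 δ, w ≠ w0 → ∃ g : ℂ → ℂ, DifferentiableOn ℂ g (ball t0 R) ∧
      (∀ t ∈ ball t0 R, ‖g t‖ ≤ M) ∧ ∀ᶠ t in 𝓝 t0, g t = f (w, t)) :
    ∃ G : ℂ × ℂ → ℂ, DifferentiableOn ℂ G (ball w0 δ ×ˢ ball t0 R') ∧
      ∀ w ∈ ball w0 δ, ∀ t ∈ ball t0 (min r0 R'), G (w, t) = f (w, t) := by
  obtain ⟨R1, hR1a, hR1b⟩ := exists_between hR'
  have hR10 : 0 < R1 := hR'0.trans hR1a
  have h1 : ∀ n, ∀ w ∈ ball w0 δ, w ≠ w0 → ‖coefT f t0 n w‖ ≤ M * (1 / R1) ^ n := by
    intro n w hw hwn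
    obtain ⟨g, hg, hgM, hgf⟩ := hF w hw hwn
    have h2 : coefT f t0 n w = coefT (fun p => g p.2) t0 n w := by
      unfold coefT
      congr 1
      have h3 : (fun s => f (w, s)) =ᶠ[𝓝 t0] (fun s => g s) := by
        filter_upwards [hgf] with s hs; exact hs.symm
      exact h3.iteratedDeriv_eq n
    rw [h2]
    exact norm_coefT_le (f := fun p => g p.2) (t0 := t0) (w := w) (r := R1) (M := M) hR10
      ((hg.mono (closedBall_subset_ball hR1b)).diffContOnCl_ball (le_refl _))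
      (fun t ht => hgM t ((closedBall_subset_ball hR1b) (sphere_subset_closedBall ht))) n
  refine joint_of_coef (K := M) (R := R1) hδ hr0 hf hR'0 hR1a ?_
  intro n w hw
  by_cases hwn : w = w0
  · rw [hwn]
    have hc : ContinuousAt (coefT f t0 n) w0 :=
      ((differentiableOn_coefT isOpen_ball hr0 hf n).differentiableAt
        (ball_mem_nhds w0 hδ)).continuousAt
    have h2 : Tendsto (fun w => ‖coefT f t0 n w‖) (𝓝[≠] w0) (𝓝 ‖coefT f t0 n w0‖) :=
      (hc.norm.tendsto).mono_left nhdsWithin_le_nhds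
    refine le_of_tendsto h2 ?_
    filter_upwards [self_mem_nhdsWithin, nhdsWithin_le_nhds (ball_mem_nhds w0 hδ)] with v hv hv2
    exact h1 n v hv2 hv
  · exact h1 n w hw hwn

end Crest.Agent.R102.Joint802
end
end

-- ▼ part R102/BEndC_802
section

/-!
Row 102, Case B, (END), part C: **joint extension of the label in the strip case**:
`NB h θ H` ⇒ `JX (Sg h) θ H w0` for every `w0`.
-/

set_option autoImplicit false

open Set Filter Topology Metric

noncomputable section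

namespace Crest.Agent.R102.BEnd802

open Crest.Agent.R102.Rule982 Crest.Agent.R102.Mer88 Crest.Agent.R102.Slice802
  Crest.Agent.R102.Joint802

/-- the derivative of a map of a ball to the strip -/
lemma deriv_bound_ball {h : ℝ} {F : ℂ → ℂ} {z : ℂ} {d : ℝ} (hd : 0 < d)
    (hF : DifferentiableOn ℂ F (ball z d)) (hS : ∀ w ∈ ball z d, F w ∈ Sg h) :
    ‖deriv F z‖ ≤ 2 * Real.exp h * Real.exp h / d := by
  have hR : 0 < d / 2 := by positivity
  have hsub : closedBall z (d / 2) ⊆ ball z d := closedBall_subset_ball (by linarith)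
  have hB : ∀ w ∈ ball z d, HasDerivAt F (deriv F w) w := fun w hw =>
    (hF.differentiableAt (isOpen_ball.mem_nhds hw)).hasDerivAt
  set G : ℂ → ℂ := fun z => Complex.exp (Complex.I * F z) with hG
  have hGd : ∀ w ∈ ball z d, HasDerivAt G (Complex.exp (Complex.I * F w) *
      (Complex.I * deriv F w)) w := fun w hw => ((hB w hw).const_mul Complex.I).cexp
  have hn : ∀ z, ‖G z‖ = Real.exp (-(F z).im) := by
    intro z
    simp only [hG]
    rw [Complex.norm_exp]
    congr 1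
    simp [Complex.mul_re]
  have h1 : ‖deriv G z‖ ≤ Real.exp h / (d / 2) := by
    refine Complex.norm_deriv_le_of_forall_mem_sphere_norm_le hR ?_ ?_
    · refine DifferentiableOn.diffContOnCl ?_
      rw [closure_ball _ hR.ne']
      exact fun w hw => (hGd w (hsub hw)).differentiableAt.differentiableWithinAt
    · intro w hw
      rw [hn]
      have h2 : |(F w).im| < h := hS w (hsub (sphere_subset_closedBall hw))
      exact Real.exp_le_exp.2 (by linarith [neg_abs_le (F w).im])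
  rw [(hGd z (mem_ball_self hd)).deriv, norm_mul, norm_mul, Complex.norm_I, one_mul] at h1
  have h3 : Real.exp (-h) ≤ ‖Complex.exp (Complex.I * F z)‖ := by
    have := hn z
    simp only [hG] at this
    rw [this]
    have h2 : |(F z).im| < h := hS z (mem_ball_self hd)
    exact Real.exp_le_exp.2 (by linarith [le_abs_self (F z).im])
  have h4 : Real.exp (-h) * ‖deriv F z‖ ≤ Real.exp h / (d / 2) :=
    (mul_le_mul_of_nonneg_right h3 (norm_nonneg _)).trans h1
  have h5 : Real.exp h * Real.exp (-h) = 1 := by rw [← Real.exp_add]; simp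
  calc ‖deriv F z‖ = Real.exp h * (Real.exp (-h) * ‖deriv F z‖) := by rw [← mul_assoc, h5, one_mul]
    _ ≤ Real.exp h * (Real.exp h / (d / 2)) :=
        mul_le_mul_of_nonneg_left h4 (Real.exp_pos _).le
    _ = _ := by field_simp

lemma growth {h : ℝ} {F : ℂ → ℂ} {c : ℂ} {R1 R2 : ℝ} (hR2 : 0 < R2) (hR : R2 < R1)
    (hF : DifferentiableOn ℂ F (ball c R1)) (hS : ∀ w ∈ ball c R1, F w ∈ Sg h) {t : ℂ}
    (ht : t ∈ ball c R2) :
    ‖F t‖ ≤ ‖F c‖ + 2 * Real.exp h * Real.exp h / (R1 - R2) * R2 := by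
  have h1 : ‖F t - F c‖ ≤ 2 * Real.exp h * Real.exp h / (R1 - R2) * ‖t - c‖ := by
    refine Convex.norm_image_sub_le_of_norm_deriv_le (𝕜 := ℂ) (s := ball c R2) ?_ ?_
      (convex_ball c R2) (mem_ball_self hR2) ht
    · intro w hw
      exact hF.differentiableAt (isOpen_ball.mem_nhds (ball_subset_ball hR.le hw))
    · intro w hw
      have hsub : ball w (R1 - R2) ⊆ ball c R1 := by
        refine ball_subset_ball' ?_
        have : dist w c < R2 := hw
        linarith
      exact deriv_bound_ball (sub_pos.2 hR) (hF.mono hsub) fun u hu => hS u (hsub hu)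
  have h2 : ‖t - c‖ ≤ R2 := by
    rw [mem_ball, dist_eq_norm] at ht; exact ht.le
  have h3 : 0 < R1 - R2 := sub_pos.2 hR
  have h4 : ‖F t‖ ≤ ‖F c‖ + ‖F t - F c‖ := by
    have := norm_add_le (F c) (F t - F c)
    rwa [add_sub_cancel] at this
  refine h4.trans ?_
  gcongr
  exact h1.trans (by gcongr)

/-- interior values at the exceptional leaf -/
lemma strict_of_closed {h : ℝ} {F : ℂ → ℂ} {c : ℂ} {R : ℝ}
    (hF : DifferentiableOn ℂ F (ball c R)) (hle : ∀ t ∈ ball c R, |(F t).im| ≤ h)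
    (hc : |(F c).im| < h) : ∀ t ∈ ball c R, F t ∈ Sg h := by
  intro t ht
  have hR : 0 < R := by
    rcases le_or_gt R 0 with h1 | h1
    · rw [ball_eq_empty.2 h1] at ht; exact absurd ht (notMem_empty _)
    · exact h1
  -- the norm of `exp (e F)`, `e = ± i`
  have main : ∀ e : ℂ, (∀ z ∈ ball c R, (e * F z).re ≤ h) → (e * F c).re < h →
      (e * F t).re < h := by
    intro e h1 h2
    by_contra hcon
    push Not at hcon
    have h3 : (e * F t).re = h := le_antisymm (h1 t ht) hcon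
    have hd : DifferentiableOn ℂ (fun z => Complex.exp (e * F z)) (ball c R) :=
      (hF.const_mul e).cexp
    have hmax : IsMaxOn (norm ∘ fun z => Complex.exp (e * F z)) (ball c R) t := by
      intro z hz
      simp only [Function.comp_apply, Set.mem_ofPred_eq]
      rw [Complex.norm_exp, Complex.norm_exp, h3]
      exact Real.exp_le_exp.2 (h1 z hz)
    have h4 := Complex.norm_eqOn_of_isPreconnected_of_isMaxOn (convex_ball c R).isPreconnected
      isOpen_ball hd ht hmax (mem_ball_self hR)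
    simp only [Function.comp_apply, Function.const_apply] at h4
    rw [Complex.norm_exp, Complex.norm_exp, h3] at h4
    have h5 := Real.exp_injective h4
    linarith
  have e1 : ∀ z, (-Complex.I * F z).re = (F z).im := fun z => by simp [Complex.mul_re]
  have e2 : ∀ z, (Complex.I * F z).re = -(F z).im := fun z => by simp [Complex.mul_re]
  have m1 := main (-Complex.I) (fun z hz => by
    rw [e1]; exact (le_abs_self _).trans (hle z hz)) (by
    rw [e1]; exact (le_abs_self _).trans_lt hc)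
  have m2 := main Complex.I (fun z hz => by
    rw [e2]; exact (neg_le_abs _).trans (hle z hz)) (by
    rw [e2]; exact (neg_le_abs _).trans_lt hc)
  rw [e1] at m1
  rw [e2] at m2
  exact abs_lt.2 ⟨by linarith, m1⟩

/-- **(JOINT)** in the strip -/
theorem jx_strip {h : ℝ} {θ H : ℂ → ℂ} (hθ : DifferentiableOn ℂ θ (Sg h))
    (hH : DifferentiableOn ℂ H (Sg h)) {c₀ : ℂ} (hc₀ : c₀ ≠ 0) (rel : Rel h θ H c₀)
    (hNB : NB h θ H) (w0 : ℂ) : JX (Sg h) θ H w0 := by
  intro c r R R' δ B P Q hr hrR' hR'R hδ hB hBV hnc hmer hrep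
  have hR'0 : 0 < R' := hr.trans hrR'
  obtain ⟨R1, hR'1, hR1R⟩ := exists_between hR'R
  obtain ⟨R2, hR'2, hR21⟩ := exists_between hR'1
  have hR10 : 0 < R1 := hR'0.trans hR'1
  have hR20 : 0 < R2 := hR'0.trans hR'2
  have hcr : c ∈ ball c r := mem_ball_self hr
  have hw0 : w0 ∈ ball w0 δ := mem_ball_self hδ
  have hBo : IsOpen (ball c r ×ˢ ball w0 δ) := isOpen_ball.prod isOpen_ball
  -- meromorphic slices
  obtain ⟨ρ1, hρ1, s1⟩ := mero_slices_compact (f := P) (w0 := w0) (isCompact_closedBall c R1)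
    (fun t ht => (hmer (t, w0) ⟨closedBall_subset_ball hR1R ht, hw0⟩).1)
  obtain ⟨ρ2, hρ2, s2⟩ := mero_slices_compact (f := Q) (w0 := w0) (isCompact_closedBall c R1)
    (fun t ht => (hmer (t, w0) ⟨closedBall_subset_ball hR1R ht, hw0⟩).2)
  obtain ⟨ρ3, hρ3, s3⟩ := rep_slices (hrep (c, w0) ⟨hcr, hw0⟩).1
  obtain ⟨ρ4, hρ4, s4⟩ := rep_slices (hrep (c, w0) ⟨hcr, hw0⟩).2
  -- the bound at the centre
  have hcont : ContinuousAt (fun w => ‖B (c, w)‖) w0 := by
    have h1 : ContinuousAt B (c, w0) := (hB.differentiableAt (hBo.mem_nhds ⟨hcr, hw0⟩)).continuousAt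
    exact (ContinuousAt.comp' (f := fun w : ℂ => ((c, w) : ℂ × ℂ)) h1 (by fun_prop)).norm
  have hbd := hcont.eventually (gt_mem_nhds (lt_add_one ‖B (c, w0)‖))
  obtain ⟨ρ5, hρ5, s5⟩ := Metric.eventually_nhds_iff_ball.1 hbd
  set δ' : ℝ := min δ (min ρ1 (min ρ2 (min ρ3 (min ρ4 ρ5)))) with hδ'
  have hδ'0 : 0 < δ' := by
    rw [hδ']
    exact lt_min hδ (lt_min hρ1 (lt_min hρ2 (lt_min hρ3 (lt_min hρ4 hρ5))))
  have d0 : δ' ≤ δ := min_le_left _ _
  have d1 : δ' ≤ ρ1 := (min_le_right _ _).trans (min_le_left _ _)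
  have d2 : δ' ≤ ρ2 := (min_le_right _ _).trans ((min_le_right _ _).trans (min_le_left _ _))
  have d3 : δ' ≤ ρ3 := (min_le_right _ _).trans ((min_le_right _ _).trans
    ((min_le_right _ _).trans (min_le_left _ _)))
  have d4 : δ' ≤ ρ4 := (min_le_right _ _).trans ((min_le_right _ _).trans
    ((min_le_right _ _).trans ((min_le_right _ _).trans (min_le_left _ _))))
  have d5 : δ' ≤ ρ5 := (min_le_right _ _).trans ((min_le_right _ _).trans
    ((min_le_right _ _).trans ((min_le_right _ _).trans (min_le_right _ _))))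
  have hBs : ∀ w ∈ ball w0 δ', DifferentiableOn ℂ (fun t => B (t, w)) (ball c r) := by
    intro w hw
    exact hB.comp (by fun_prop : DifferentiableOn ℂ (fun t : ℂ => ((t, w) : ℂ × ℂ)) (ball c r))
      (fun t ht => ⟨ht, ball_subset_ball d0 hw⟩)
  -- the extensions of the leaves
  have hF : ∀ w ∈ ball w0 δ', w ≠ w0 → ∃ g : ℂ → ℂ, DifferentiableOn ℂ g (ball c R1) ∧
      (∀ t ∈ ball c R1, g t ∈ Sg h) ∧ ∀ᶠ t in 𝓝 c, g t = B (t, w) := by
    intro w hw hwn
    have hBw := hBs w hw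
    have hA : Adm h θ H (fun t => P (t, w)) (fun t => Q (t, w)) (fun t => B (t, w)) c := by
      refine ⟨hBw.analyticAt (ball_mem_nhds c hr), hBV (c, w) ⟨hcr, ball_subset_ball d0 hw⟩, ?_⟩
      filter_upwards [s3 w (ball_subset_ball d3 hw) hwn c (mem_ball_self hρ3),
        s4 w (ball_subset_ball d4 hw) hwn c (mem_ball_self hρ4)] with s h1 h2
      exact ⟨by rw [mul_comm]; exact h1, by rw [mul_comm]; exact h2⟩
    have hne : ∃ᶠ t in 𝓝 c, deriv (fun t => B (t, w)) t ≠ 0 := by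
      obtain ⟨t1, ht1, hne1⟩ := hnc w (ball_subset_ball d0 hw)
      intro hcon
      have ha : AnalyticOnNhd ℂ (deriv fun t => B (t, w)) (ball c r) :=
        (hBw.analyticOnNhd isOpen_ball).deriv
      refine hne1 (ha.eqOn_zero_of_preconnected_of_eventuallyEq_zero
        (convex_ball c r).isPreconnected hcr ?_ ht1)
      filter_upwards [hcon] with t ht
      exact not_not.1 ht
    obtain ⟨F, f1, f2, f3⟩ := disc hθ hH hc₀ rel hNB hR10
      (fun t ht => s1 w (ball_subset_ball d1 hw) hwn t (ball_subset_closedBall ht))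
      (fun t ht => s2 w (ball_subset_ball d2 hw) hwn t (ball_subset_closedBall ht)) hA hne
    exact ⟨F, f1, fun t ht => (f2 t ht).2.1, f3⟩
  -- joint extension
  set K : ℝ := ‖B (c, w0)‖ + 1 + 2 * Real.exp h * Real.exp h / (R1 - R2) * R2 with hK
  have hfsw : DifferentiableOn ℂ (fun x : ℂ × ℂ => B (x.2, x.1)) (ball w0 δ' ×ˢ ball c r) := by
    exact hB.comp (by fun_prop : DifferentiableOn ℂ (fun x : ℂ × ℂ => ((x.2, x.1) : ℂ × ℂ)) _)
      (fun x hx => ⟨hx.2, ball_subset_ball d0 hx.1⟩)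
  obtain ⟨G, hG1, hG2⟩ := joint_ext (f := fun x : ℂ × ℂ => B (x.2, x.1)) (M := K) hδ'0 hr hfsw
    hR'0 hR'2 (by
      intro w hw hwn
      obtain ⟨F, f1, f2, f3⟩ := hF w hw hwn
      refine ⟨F, f1.mono (ball_subset_ball hR21.le), fun t ht => ?_, f3⟩
      have h1 := growth hR20 hR21 f1 f2 ht
      have h2 : ‖F c‖ < ‖B (c, w0)‖ + 1 := by
        rw [f3.self_of_nhds]
        exact s5 w (ball_subset_ball d5 hw)
      rw [hK]
      linarith)
  have hmin : min r R' = r := min_eq_left hrR'.le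
  rw [hmin] at hG2
  have hGs : ∀ w ∈ ball w0 δ', DifferentiableOn ℂ (fun t => G (w, t)) (ball c R') := by
    intro w hw
    exact hG1.comp (by fun_prop : DifferentiableOn ℂ (fun t : ℂ => ((w, t) : ℂ × ℂ)) (ball c R'))
      (fun t ht => ⟨hw, ht⟩)
  have hcR' : c ∈ ball c R' := mem_ball_self hR'0
  have hval : ∀ w ∈ ball w0 δ', w ≠ w0 → ∀ t ∈ ball c R', G (w, t) ∈ Sg h := by
    intro w hw hwn t ht
    obtain ⟨F, f1, f2, f3⟩ := hF w hw hwn
    have heq := AnalyticOnNhd.eqOn_of_preconnected_of_eventuallyEq (𝕜 := ℂ)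
      (f := fun t => G (w, t)) (g := F) (U := ball c R')
      ((hGs w hw).analyticOnNhd isOpen_ball)
      ((f1.mono (ball_subset_ball hR'1.le)).analyticOnNhd isOpen_ball)
      (convex_ball c R').isPreconnected hcR' (by
        filter_upwards [f3, ball_mem_nhds c hr] with s hs hs'
        rw [hs]
        exact hG2 w hw s hs')
    have h1 : G (w, t) = F t := heq ht
    rw [h1]
    exact f2 t (ball_subset_ball hR'1.le ht)
  have hval0 : ∀ t ∈ ball c R', G (w0, t) ∈ Sg h := by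
    have hw0' : w0 ∈ ball w0 δ' := mem_ball_self hδ'0
    refine strict_of_closed (F := fun t => G (w0, t)) (hGs w0 hw0') ?_ ?_
    · intro t ht
      have hc1 : ContinuousAt (fun w => |(G (w, t)).im|) w0 := by
        have h1 : ContinuousAt G (w0, t) :=
          (hG1.differentiableAt ((isOpen_ball.prod isOpen_ball).mem_nhds ⟨hw0', ht⟩)).continuousAt
        have h2 : ContinuousAt (fun w : ℂ => G (w, t)) w0 :=
          ContinuousAt.comp' (f := fun w : ℂ => ((w, t) : ℂ × ℂ)) h1 (by fun_prop)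
        exact (continuous_abs.comp Complex.continuous_im).continuousAt.comp h2
      have h2 : Tendsto (fun w => |(G (w, t)).im|) (𝓝[≠] w0) (𝓝 |(G (w0, t)).im|) :=
        hc1.tendsto.mono_left nhdsWithin_le_nhds
      refine le_of_tendsto h2 ?_
      filter_upwards [self_mem_nhdsWithin, nhdsWithin_le_nhds (ball_mem_nhds w0 hδ'0)]
        with w hw1 hw2
      exact (hval w hw2 hw1 t ht).le
    · have h1 : G (w0, c) = B (c, w0) := hG2 w0 hw0' c hcr
      simp only [h1]
      exact hBV (c, w0) ⟨hcr, hw0⟩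
  refine ⟨δ', hδ'0, d0, fun x => G (x.2, x.1), ?_, ?_, ?_⟩
  · exact hG1.comp (by fun_prop : DifferentiableOn ℂ (fun x : ℂ × ℂ => ((x.2, x.1) : ℂ × ℂ)) _)
      (fun x hx => ⟨hx.2, hx.1⟩)
  · rintro ⟨t, w⟩ ⟨ht, hw⟩
    by_cases hwn : w = w0
    · simp only [hwn]
      exact hval0 t ht
    · exact hval w hw hwn t ht
  · rintro ⟨t, w⟩ ⟨ht, hw⟩
    exact hG2 w hw t ht

end Crest.Agent.R102.BEnd802
end
end

-- ▼ part R102/ChainD_88
section

/-!
Row 102, part (C), leaf T2-D (helper88): finite chains.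

* `run_int`  : a predicate on `ℤ` true at `0` and false somewhere on both sides has a maximal run;
* `rot`      : density of an irrational rotation, both directions, 1-periodic open sets of `ℝ`;
* `run_rot`  : every singular point of a horizontal line with one regular point lies on a finite run;
* `run_box`  : the same over a box `g1 ≤ Re t ≤ g2` with gaps on both sides (tilted lines).
-/

set_option autoImplicit false

open Set Filter Topology Metric

noncomputable section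

namespace Crest.Agent.R102.ChainD88

theorem run_nat {P : ℕ → Prop} (h0 : P 0) (h : ∃ k, ¬ P k) :
    ∃ b, (∀ n ≤ b, P n) ∧ ¬ P (b + 1) := by
  classical
  obtain ⟨k, hk⟩ : ∃ k, Nat.find h = k + 1 := by
    refine Nat.exists_eq_succ_of_ne_zero (fun h1 => ?_)
    exact (h1 ▸ Nat.find_spec h) h0
  refine ⟨k, fun n hn => ?_, ?_⟩
  · by_contra h2
    have := Nat.find_min' h h2
    omega
  · rw [← hk]; exact Nat.find_spec h

/-- maximal run of a predicate on `ℤ` around `0` -/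
theorem run_int {P : ℤ → Prop} (h0 : P 0) (hneg : ∃ k : ℕ, ¬ P (-k)) (hpos : ∃ k : ℕ, ¬ P k) :
    ∃ a b : ℤ, a ≤ 0 ∧ 0 ≤ b ∧ (∀ n, a ≤ n → n ≤ b → P n) ∧ ¬ P (a - 1) ∧ ¬ P (b + 1) := by
  obtain ⟨b, hb1, hb2⟩ := run_nat (P := fun k => P (k : ℤ)) (by simpa using h0) hpos
  obtain ⟨a, ha1, ha2⟩ := run_nat (P := fun k => P (-(k : ℤ))) (by simpa using h0) hneg
  refine ⟨-(a : ℤ), b, by omega, by omega, fun n h1 h2 => ?_, ?_, ?_⟩
  · rcases le_total 0 n with hn | hn
    · obtain ⟨m, rfl⟩ := Int.eq_ofNat_of_zero_le hn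
      exact hb1 m (by omega)
    · obtain ⟨m, hm⟩ := Int.eq_ofNat_of_zero_le (by omega : 0 ≤ -n)
      have h3 := ha1 m (by omega)
      have h4 : n = -(m : ℤ) := by omega
      rw [h4]; exact h3
  · have h3 : -(a : ℤ) - 1 = -((a + 1 : ℕ) : ℤ) := by push_cast; ring
    rw [h3]; exact ha2
  · have h3 : (b : ℤ) + 1 = ((b + 1 : ℕ) : ℤ) := by push_cast; ring
    rw [h3]; exact hb2

theorem per_int {J : Set ℝ} (hper : ∀ x, x ∈ J ↔ x + 1 ∈ J) (m : ℤ) (x : ℝ) :
    x ∈ J ↔ x + m ∈ J := by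
  induction m using Int.induction_on with
  | zero => simp
  | succ k ih =>
    rw [ih, hper (x + ((k : ℤ) : ℝ))]
    have h : x + ((k : ℤ) : ℝ) + 1 = x + (((k : ℤ) + 1 : ℤ) : ℝ) := by
      push_cast; ring
    rw [h]
  | pred k ih =>
    rw [ih, hper (x + ((-(k : ℤ) - 1 : ℤ) : ℝ))]
    have h : x + ((-(k : ℤ) - 1 : ℤ) : ℝ) + 1 = x + ((-(k : ℤ) : ℤ) : ℝ) := by
      push_cast; ring
    rw [h]

/-- forward density of an irrational rotation -/
theorem rot_pos {w0 : ℝ} (hw : Irrational w0) {J : Set ℝ} (hJ : IsOpen J) (hne : J.Nonempty)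
    (hper : ∀ x, x ∈ J ↔ x + 1 ∈ J) (s : ℝ) : ∃ l : ℕ, 1 ≤ l ∧ s + l * w0 ∈ J := by
  obtain ⟨x, hx⟩ := hne
  obtain ⟨ε, hε, hball⟩ := Metric.isOpen_iff.1 hJ x hx
  obtain ⟨n, hn⟩ := exists_nat_one_div_lt hε
  obtain ⟨j, k, hk0, hkn, hjk⟩ := Real.exists_int_int_abs_mul_sub_le w0 (n := n + 1) (by omega)
  set d : ℝ := k * w0 - j with hd
  have hd0 : d ≠ 0 := by
    intro h0
    refine hw ⟨(j : ℚ) / k, ?_⟩
    have hk : (k : ℝ) ≠ 0 := by exact_mod_cast hk0.ne'
    push_cast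
    rw [div_eq_iff hk]
    linarith
  have hdε : |d| < ε := by
    refine hjk.trans_lt (lt_of_le_of_lt ?_ hn)
    push_cast
    exact one_div_le_one_div_of_le (by positivity) (by linarith)
  -- choose an integer `m` with `(x + m - s) / d ≥ 1`
  obtain ⟨m, hm⟩ : ∃ m : ℤ, 1 ≤ (x + m - s) / d := by
    rcases lt_or_gt_of_ne hd0 with h | h
    · obtain ⟨m, hm⟩ := exists_int_lt (d + s - x)
      refine ⟨m, ?_⟩
      rw [one_le_div_of_neg h]
      linarith
    · obtain ⟨m, hm⟩ := exists_int_gt (d + s - x)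
      refine ⟨m, ?_⟩
      rw [one_le_div h]
      linarith
  set q : ℤ := ⌊(x + m - s) / d⌋ with hq
  have hq1 : 1 ≤ q := Int.le_floor.2 (by exact_mod_cast hm)
  have hq2 : |s + q * d - (x + m)| < ε := by
    have h1 : s + q * d - (x + m) = -((x + m - s) / d - q) * d := by
      field_simp
      try ring
    rw [h1, abs_mul, abs_neg]
    have h2 : |(x + m - s) / d - q| ≤ 1 := by
      rw [abs_le]
      have := Int.floor_le ((x + m - s) / d)
      have := Int.lt_floor_add_one ((x + m - s) / d)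
      constructor <;> linarith
    calc |(x + m - s) / d - q| * |d| ≤ 1 * |d| := by gcongr
      _ < ε := by rw [one_mul]; exact hdε
  have h3 : s + q * d - m ∈ J := by
    refine hball ?_
    rw [mem_ball, Real.dist_eq]
    rwa [show s + q * d - m - x = s + q * d - (x + m) by ring]
  obtain ⟨l, hl⟩ := Int.eq_ofNat_of_zero_le (by positivity : 0 ≤ q * k)
  refine ⟨l, ?_, ?_⟩
  · have : 1 ≤ q * k := by nlinarith
    rw [hl] at this
    exact_mod_cast this
  · have h4 : s + l * w0 = s + q * d - m + ((q * j + m : ℤ) : ℝ) := by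
      have h5 : (l : ℝ) = q * k := by
        have : ((q * k : ℤ) : ℝ) = ((l : ℤ) : ℝ) := by rw [hl]
        push_cast at this
        exact this.symm
      rw [h5, hd]; push_cast; ring
    rw [h4, ← per_int hper]
    exact h3

/-- density of an irrational rotation, both directions -/
theorem rot {w0 : ℝ} (hw : Irrational w0) {J : Set ℝ} (hJ : IsOpen J) (hne : J.Nonempty)
    (hper : ∀ x, x ∈ J ↔ x + 1 ∈ J) (s : ℝ) :
    (∃ k : ℕ, 1 ≤ k ∧ s - k * w0 ∈ J) ∧ ∃ l : ℕ, 1 ≤ l ∧ s + l * w0 ∈ J := by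
  refine ⟨?_, rot_pos hw hJ hne hper s⟩
  obtain ⟨k, hk, hk2⟩ := rot_pos hw.neg hJ hne hper s
  exact ⟨k, hk, by rw [sub_eq_add_neg, ← mul_neg]; exact hk2⟩

/-- **finite runs, irrational rotation**: `S` = singular set; on the line `Im t = U` the regular
points form an open nonempty 1-periodic set. -/
theorem run_rot {w0 : ℝ} (hw : Irrational w0) {S : Set ℂ} {U : ℝ}
    (hopen : IsOpen {x : ℝ | (x : ℂ) + U * Complex.I ∉ S})
    (hne : ∃ x : ℝ, (x : ℂ) + U * Complex.I ∉ S)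
    (hper : ∀ x : ℝ, (x : ℂ) + U * Complex.I ∈ S ↔ ((x + 1 : ℝ) : ℂ) + U * Complex.I ∈ S)
    {s : ℂ} (hs : s ∈ S) (hsU : s.im = U) :
    ∃ a b : ℤ, a ≤ 0 ∧ 0 ≤ b ∧ (∀ n : ℤ, a ≤ n → n ≤ b → s + n * w0 ∈ S) ∧
      s + (a - 1 : ℤ) * w0 ∉ S ∧ s + (b + 1 : ℤ) * w0 ∉ S := by
  have hs0 : s = (s.re : ℂ) + U * Complex.I := by rw [← hsU]; exact (Complex.re_add_im s).symm
  obtain ⟨⟨k, -, hk⟩, l, -, hl⟩ := rot hw hopen hne (fun x => not_congr (hper x)) s.re
  refine run_int (P := fun n : ℤ => s + n * w0 ∈ S) (by simpa using hs) ⟨k, ?_⟩ ⟨l, ?_⟩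
  · intro h
    apply hk
    have : s + ((-(k : ℤ) : ℤ) : ℂ) * w0 = ((s.re - k * w0 : ℝ) : ℂ) + U * Complex.I := by
      conv_lhs => rw [hs0]
      push_cast; ring
    rw [← this]; exact h
  · intro h
    apply hl
    have : s + (((l : ℤ) : ℤ) : ℂ) * w0 = ((s.re + l * w0 : ℝ) : ℂ) + U * Complex.I := by
      conv_lhs => rw [hs0]
      push_cast; ring
    rw [← this]; exact h


end Crest.Agent.R102.ChainD88
end
end

-- ▼ part R102/BEndD_802

/-!
Row 102, Cases B and E, (END), part D: **climbing**: if the line `l(t, w)` is regular at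
`(s, w0)`, the labels are regular below, and the next line `l(t + w, w)` is meromorphic at
`(s, w0)`, then `l` is regular at `(s + w0, w0)`.
-/

set_option autoImplicit false

open Set Filter Topology Metric
open scoped ComplexConjugate

noncomputable section

namespace Crest.Agent.R102.BEnd802

open Crest.Agent.R102.T5 Crest.Agent.R102.G576 Crest.Agent.R102.A929 Crest.Agent.R102.B821
open Crest.Agent.R102.C0 Crest.Agent.R102.C1 Crest.Agent.R102.Mer88 Crest.Agent.R102.MerF217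
open Crest.Agent.R102.Slice802 Crest.Agent.R102.Spine

/-! ### geometry -/

lemma isOpen_Tube (s w0 : ℂ) (e : ℝ) : IsOpen (Tube s w0 e) := by
  have h1 : IsOpen {x : ℂ × ℂ | |x.1.re - s.re| < e} := isOpen_lt (by fun_prop) continuous_const
  have h2 : IsOpen {x : ℂ × ℂ | -e < x.1.im} := isOpen_lt continuous_const (by fun_prop)
  have h3 : IsOpen {x : ℂ × ℂ | x.1.im < s.im + e} := isOpen_lt (by fun_prop) continuous_const
  have h4 : IsOpen {x : ℂ × ℂ | ‖x.2 - w0‖ < e} := isOpen_lt (by fun_prop) continuous_const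
  exact h1.inter (h2.inter (h3.inter h4))

lemma convex_Tube (s w0 : ℂ) (e : ℝ) : Convex ℝ (Tube s w0 e) := by
  have h1 : Tube s w0 e = (({t : ℂ | s.re - e < t.re} ∩ {t | t.re < s.re + e}) ∩
      ({t | -e < t.im} ∩ {t | t.im < s.im + e})) ×ˢ ball w0 e := by
    ext x
    simp only [Tube, Set.mem_ofPred_eq, mem_prod, mem_inter_iff, mem_ball, dist_eq_norm, abs_lt]
    constructor
    · rintro ⟨⟨a, b⟩, c, d, f⟩
      exact ⟨⟨⟨by linarith, by linarith⟩, c, d⟩, f⟩
    · rintro ⟨⟨⟨a, b⟩, c, d⟩, f⟩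
      exact ⟨⟨by linarith, by linarith⟩, c, d, f⟩
  rw [h1]
  exact (((convex_halfSpace_re_gt _).inter (convex_halfSpace_re_lt _)).inter
    ((convex_halfSpace_im_gt _).inter (convex_halfSpace_im_lt _))).prod (convex_ball _ _)

lemma isOpen_PD (ρ r : ℝ) : IsOpen (PD ρ r) := by
  have h1 : IsOpen {x : ℂ × ℂ | |x.1.im| < ρ} := isOpen_lt (by fun_prop) continuous_const
  have h2 : IsOpen {x : ℂ × ℂ | ‖x.2‖ < r} := isOpen_lt (by fun_prop) continuous_const
  exact h1.inter h2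

lemma convex_PD (ρ r : ℝ) : Convex ℝ (PD ρ r) := by
  have h1 : PD ρ r = ({t : ℂ | -ρ < t.im} ∩ {t | t.im < ρ}) ×ˢ ball (0 : ℂ) r := by
    ext x
    simp only [PD, Set.mem_ofPred_eq, mem_prod, mem_inter_iff, mem_ball, dist_zero_right, abs_lt]
  rw [h1]
  exact ((convex_halfSpace_im_gt _).inter (convex_halfSpace_im_lt _)).prod (convex_ball _ _)

lemma diffOn_ZnV {V : Set ℂ} (hV : IsOpen V) {ψ H : ℂ → ℂ} (hψ : DifferentiableOn ℂ ψ V)
    (hH : DifferentiableOn ℂ H V) (s : ℂ) : DifferentiableOn ℂ (Zn ψ H s) V := by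
  have h1 : DifferentiableOn ℂ (deriv ψ) V := hψ.deriv hV
  have h2 : DifferentiableOn ℂ (deriv H) V := hH.deriv hV
  unfold Zn
  exact (((hψ.const_mul (s * Complex.I)).cexp).const_mul (s * Complex.I)).mul
    ((hH.mul h1).add (h2.const_mul (s * Complex.I)))

section fam

variable {q : C(ℂ, ℂ)} {η ρ r Bc : ℝ} {b φ p : ℂ × ℂ → ℂ} {m₀ : ℂ → ℂ} {V : Set ℂ} {θ H : ℂ → ℂ}

/-- the isotropic coordinates on `Str η` -/
lemma Zn_eq (D : Datum q η) (E : VExt q η V θ H) {z : ℂ} (hz : z ∈ Str η) :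
    Zn θ H 1 z = deriv θ z * Zs q 1 z ∧ Zn θ H (-1) z = deriv θ z * Zs q (-1) z := by
  have h1 := dθ_eq D E hz
  have h2 := dH_eq D E hz
  have h3 := E.H_eq z hz
  have h4 := E.θ_eq z hz
  have e1 : Complex.exp (-(Complex.I * Tc q z)) * Complex.exp (Complex.I * Tc q z) = 1 := by
    rw [← Complex.exp_add]; simp
  have e2 : (1 : ℂ) * Complex.I * Tc q z = Complex.I * Tc q z := by ring
  have e3 : (-1 : ℂ) * Complex.I * Tc q z = -(Complex.I * Tc q z) := by ring
  have hH2 : Hc q z = -(Complex.I * (Complex.exp (-(Complex.I * Tc q z)) * Zs q 1 z -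
      Complex.exp (Complex.I * Tc q z) * Zs q (-1) z)) / 2 := by
    unfold Hc
    have hI := Complex.I_ne_zero
    field_simp
    linear_combination (Complex.exp (-(Complex.I * Tc q z)) * Zs q 1 z -
      Complex.exp (Complex.I * Tc q z) * Zs q (-1) z) * Complex.I_sq
  unfold Zn
  rw [h1, h2, h3, h4, e2, e3, hH2]
  unfold Cc
  have hI := Complex.I_sq
  constructor
  · linear_combination (Complex.exp (q z) * Zs q 1 z) * e1 - (Complex.exp (Complex.I * Tc q z) *
      Complex.exp (-(Complex.I * Tc q z)) * Zs q 1 z * Complex.exp (q z)) * hI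
  · linear_combination (Complex.exp (q z) * Zs q (-1) z) * e1 - (Complex.exp (Complex.I * Tc q z) *
      Complex.exp (-(Complex.I * Tc q z)) * Zs q (-1) z * Complex.exp (q z)) * hI

/-- **the label extends** across the height of the meromorphic line -/
theorem label_up (hL : LineFam q η ρ r Bc b φ p m₀) (hV : VExt q η V θ H) {w0 : ℂ}
    (hw0 : ‖w0‖ < r) (hw0i : w0.im = 0) {s : ℂ} (hs : 0 < s.im) {e : ℝ} (he : 0 < e)
    {Gφ Gp : ℂ × ℂ → ℂ}
    (hGφ : DifferentiableOn ℂ Gφ (Tube s w0 e)) (hGp : DifferentiableOn ℂ Gp (Tube s w0 e))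
    (eφ : ∀ x ∈ Tube s w0 e, x ∈ PD ρ r → Gφ x = φ x)
    (ep : ∀ x ∈ Tube s w0 e, x ∈ PD ρ r → Gp x = p x)
    {E P : ℂ × ℂ → ℂ} (hEP : ∀ x ∈ Tube s w0 e, MerAt E x ∧ MerAt P x)
    (hE0 : ∀ᶠ x in 𝓝 (((s.re : ℂ), w0) : ℂ × ℂ),
      E x = Complex.exp (Complex.I * φ (x.1 + x.2, x.2)) ∧ P x = p (x.1 + x.2, x.2))
    (hne : ∃ᶠ x in 𝓝 (((s.re : ℂ), w0) : ℂ × ℂ), Complex.exp (Complex.I * φ x) ^ 2 ≠
      Complex.exp (Complex.I * φ (x.1 + x.2, x.2)) ^ 2)
    (hb : ∀ s' : ℂ, 0 ≤ s'.im → s'.im < s.im → RegAt ρ r b V s' w0) (hJ : JX V θ H w0) :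
    ∃ e3 > 0, e3 ≤ e ∧ ∃ β : ℂ × ℂ → ℂ, DifferentiableOn ℂ β (Tube s w0 e3) ∧
      (∀ x ∈ Tube s w0 e3, β x ∈ V) ∧
      ∀ᶠ x in 𝓝 (((s.re : ℂ), w0) : ℂ × ℂ), β x = b (x.1 + x.2 / 2, x.2) := by
  have D := hL.dat
  have hρ := hL.ρ_pos
  have hVo := hV.open'
  -- the meromorphic coordinates of the vertex
  set Zc : ℂ × ℂ → ℂ := fun x => (2 * Complex.I * P x * E x -
    2 * Complex.I * Gp x * Complex.exp (Complex.I * Gφ x)) /
      (Complex.exp (Complex.I * Gφ x) ^ 2 - E x ^ 2) with hZc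
  set Z : ℂ × ℂ → ℂ := fun x => Complex.exp (Complex.I * Gφ x) ^ 2 * Zc x +
    2 * Complex.I * Gp x * Complex.exp (Complex.I * Gφ x) with hZ
  have hGφa := Crest.Agent.R266.SCV.analyticOnNhd_of_differentiableOn (isOpen_Tube s w0 e) hGφ
  have hGpa := Crest.Agent.R266.SCV.analyticOnNhd_of_differentiableOn (isOpen_Tube s w0 e) hGp
  have hZm : ∀ x ∈ Tube s w0 e, MerAt Z x ∧ MerAt Zc x := by
    intro x hx
    obtain ⟨hE, hP⟩ := hEP x hx
    have b1 : AnalyticAt ℂ (fun x => Complex.exp (Complex.I * Gφ x)) x :=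
      (analyticAt_const.mul (hGφa x hx)).cexp
    have a3 : MerAt (fun x => Complex.exp (Complex.I * Gφ x) ^ 2) x :=
      merAt_of_analyticAt (b1.pow 2)
    have a2 : MerAt (fun x => 2 * Complex.I * Gp x * Complex.exp (Complex.I * Gφ x)) x :=
      merAt_of_analyticAt ((analyticAt_const.mul (hGpa x hx)).mul b1)
    have a4 : MerAt (fun x => 2 * Complex.I * P x * E x) x :=
      MerAt.mul (MerAt.mul (merAt_const (2 * Complex.I) x) hP) hE
    have a5 : MerAt (fun x => E x ^ 2) x := by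
      have := MerAt.mul hE hE
      simpa only [pow_two] using this
    have a6 : MerAt Zc x := MerAt.div (MerAt.sub a4 a2) (MerAt.sub a3 a5)
    exact ⟨MerAt.add (MerAt.mul a3 a6) a2, a6⟩
  -- the label below
  set σ : ℝ := min (e / 8) (s.im / 2) with hσ
  have hσ0 : 0 < σ := lt_min (by positivity) (by positivity)
  have hσe : σ ≤ e / 8 := min_le_left _ _
  have hσs : σ ≤ s.im / 2 := min_le_right _ _
  set c : ℂ := s - σ * Complex.I with hc
  have hcre : c.re = s.re := by simp [hc]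
  have hcim : c.im = s.im - σ := by simp [hc]
  set s' : ℂ := c + w0 / 2 with hs'
  have hs're : s'.re = s.re + w0.re / 2 := by
    rw [hs', Complex.add_re, hcre]; simp
  have hs'im : s'.im = s.im - σ := by
    rw [hs', Complex.add_im, hcim]; simp [hw0i]
  obtain ⟨eσ, heσ, Gb, g1, g2, g3⟩ := hb s' (by rw [hs'im]; linarith) (by rw [hs'im]; linarith)
  set e' : ℝ := min (eσ / 2) (min e (min ρ (r - ‖w0‖))) with he'
  have he'0 : 0 < e' := lt_min (by positivity) (lt_min he (lt_min hρ (sub_pos.2 hw0)))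
  have k1 : e' ≤ eσ / 2 := min_le_left _ _
  have k2 : e' ≤ e := (min_le_right _ _).trans (min_le_left _ _)
  have k3 : e' ≤ ρ := (min_le_right _ _).trans ((min_le_right _ _).trans (min_le_left _ _))
  have k4 : e' ≤ r - ‖w0‖ := (min_le_right _ _).trans ((min_le_right _ _).trans (min_le_right _ _))
  set T' : Set (ℂ × ℂ) := Tube c w0 e' with hT'
  have hT'o : IsOpen T' := isOpen_Tube c w0 e'
  have hT'c : Convex ℝ T' := convex_Tube c w0 e'
  have himw : ∀ x : ℂ × ℂ, ‖x.2 - w0‖ < e' → |x.2.im| < e' ∧ |x.2.re - w0.re| < e' := by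
    intro x hx
    have h1 := Complex.abs_im_le_norm (x.2 - w0)
    have h2 := Complex.abs_re_le_norm (x.2 - w0)
    rw [Complex.sub_im, hw0i, sub_zero] at h1
    rw [Complex.sub_re] at h2
    exact ⟨h1.trans_lt hx, h2.trans_lt hx⟩
  have hmap : ∀ x ∈ T', ((x.1 + x.2 / 2, x.2) : ℂ × ℂ) ∈ Tube s' w0 eσ := by
    rintro x ⟨h1, h2, h3, h4⟩
    obtain ⟨h5, h6⟩ := himw x h4
    rw [hcre] at h1
    rw [hcim] at h3
    have h1' := abs_lt.1 h1
    have h5' := abs_lt.1 h5
    have h6' := abs_lt.1 h6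
    have r1 : (x.1 + x.2 / 2).re = x.1.re + x.2.re / 2 := by simp
    have r2 : (x.1 + x.2 / 2).im = x.1.im + x.2.im / 2 := by simp
    refine ⟨?_, ?_, ?_, ?_⟩
    · show |(x.1 + x.2 / 2).re - s'.re| < eσ
      rw [r1, hs're, abs_lt]
      constructor <;> linarith
    · show -eσ < (x.1 + x.2 / 2).im
      rw [r2]; linarith
    · show (x.1 + x.2 / 2).im < s'.im + eσ
      rw [r2, hs'im]; linarith
    · show ‖x.2 - w0‖ < eσ
      linarith
  set βσ : ℂ × ℂ → ℂ := fun x => Gb (x.1 + x.2 / 2, x.2) with hβσ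
  have hsh : Differentiable ℂ (fun x : ℂ × ℂ => ((x.1 + x.2 / 2, x.2) : ℂ × ℂ)) := by fun_prop
  have hβd : DifferentiableOn ℂ βσ T' := g1.comp hsh.differentiableOn hmap
  have hβV : ∀ x ∈ T', βσ x ∈ V := fun x hx => g2 _ (hmap x hx)
  have hβb : ∀ x ∈ T', ((x.1 + x.2 / 2, x.2) : ℂ × ℂ) ∈ PD ρ r → βσ x = b (x.1 + x.2 / 2, x.2) :=
    fun x hx hx' => g3 _ (hmap x hx) hx'
  have hx0T' : (((s.re : ℂ), w0) : ℂ × ℂ) ∈ T' := by
    refine ⟨?_, ?_, ?_, ?_⟩
    · simp [hcre, he'0]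
    · simp [he'0]
    · show ((s.re : ℂ)).im < c.im + e'
      rw [Complex.ofReal_im, hcim]; linarith
    · simp [he'0]
  have hT'T : T' ⊆ Tube s w0 e := by
    rintro x ⟨h1, h2, h3, h4⟩
    rw [hcre] at h1
    rw [hcim] at h3
    exact ⟨by linarith, by linarith, by linarith, by linarith⟩
  -- low region
  have hlow : ∀ᶠ x in 𝓝 (((s.re : ℂ), w0) : ℂ × ℂ), x ∈ T' ∧ x ∈ PD ρ r ∧
      ((x.1 + x.2 / 2, x.2) : ℂ × ℂ) ∈ PD ρ r ∧ ((x.1 + x.2, x.2) : ℂ × ℂ) ∈ PD ρ r := by
    have hP := isOpen_PD ρ r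
    have m1 : (((s.re : ℂ), w0) : ℂ × ℂ) ∈ PD ρ r := ⟨by simpa using hρ, hw0⟩
    have m2 : ((fun x : ℂ × ℂ => ((x.1 + x.2 / 2, x.2) : ℂ × ℂ)) ((s.re : ℂ), w0)) ∈ PD ρ r :=
      ⟨by simpa [hw0i] using hρ, hw0⟩
    have m3 : ((fun x : ℂ × ℂ => ((x.1 + x.2, x.2) : ℂ × ℂ)) ((s.re : ℂ), w0)) ∈ PD ρ r :=
      ⟨by simpa [hw0i] using hρ, hw0⟩
    have c2 : ContinuousAt (fun x : ℂ × ℂ => ((x.1 + x.2 / 2, x.2) : ℂ × ℂ)) ((s.re : ℂ), w0) := by
      fun_prop
    have c3 : ContinuousAt (fun x : ℂ × ℂ => ((x.1 + x.2, x.2) : ℂ × ℂ)) ((s.re : ℂ), w0) := by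
      fun_prop
    filter_upwards [hT'o.mem_nhds hx0T', hP.mem_nhds m1, c2.eventually (hP.mem_nhds m2),
      c3.eventually (hP.mem_nhds m3)] with x h1 h2 h3 h4
    exact ⟨h1, h2, h3, h4⟩
  -- the representation at the low point
  have hφa := Crest.Agent.R266.SCV.analyticOnNhd_of_differentiableOn (isOpen_PD ρ r) hL.φ_diff
  have hNZ : NZ (fun x : ℂ × ℂ => Complex.exp (Complex.I * φ x) ^ 2 -
      Complex.exp (Complex.I * φ (x.1 + x.2, x.2)) ^ 2) (((s.re : ℂ), w0) : ℂ × ℂ) := by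
    obtain ⟨-, m1, -, m3⟩ := hlow.self_of_nhds
    have a1 : AnalyticAt ℂ φ (((s.re : ℂ), w0) : ℂ × ℂ) := hφa _ m1
    have a2 : AnalyticAt ℂ (fun x : ℂ × ℂ => φ (x.1 + x.2, x.2)) (((s.re : ℂ), w0) : ℂ × ℂ) := by
      have a3 : AnalyticAt ℂ (fun x : ℂ × ℂ => ((x.1 + x.2, x.2) : ℂ × ℂ))
          (((s.re : ℂ), w0) : ℂ × ℂ) :=
        (analyticAt_fst.add analyticAt_snd).prod analyticAt_snd
      exact AnalyticAt.fun_comp (g := φ) (hφa _ m3) a3
    refine ⟨((analyticAt_const.mul a1).cexp.pow 2).sub ((analyticAt_const.mul a2).cexp.pow 2), ?_⟩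
    refine hne.mono fun x hx => ?_
    exact sub_ne_zero.2 hx
  have hrel : ∀ᶠ x in 𝓝 (((s.re : ℂ), w0) : ℂ × ℂ), Complex.exp (Complex.I * φ x) ^ 2 -
      Complex.exp (Complex.I * φ (x.1 + x.2, x.2)) ^ 2 ≠ 0 →
      deriv θ (βσ x) * Z x = Zn θ H 1 (βσ x) ∧ deriv θ (βσ x) * Zc x = Zn θ H (-1) (βσ x) := by
    filter_upwards [hlow, hE0] with x ⟨h1, h2, h3, h4⟩ ⟨h5, h6⟩ h7
    have i0 : βσ x = b (x.1 + x.2 / 2, x.2) := hβb x h1 h3
    have hbη : b (x.1 + x.2 / 2, x.2) ∈ Str η := by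
      have := hL.b_mem _ h3
      have h8 := hL.ρ_lt
      exact lt_trans this h8
    obtain ⟨z1, z2⟩ := Zn_eq D hV hbη
    have j1 := hL.inc x.1 x.2 h2 h3
    have h3' : ((x.1 + x.2 - x.2 / 2, x.2) : ℂ × ℂ) ∈ PD ρ r := by
      have : x.1 + x.2 - x.2 / 2 = x.1 + x.2 / 2 := by ring
      rw [this]; exact h3
    have j2 := hL.inc' (x.1 + x.2) x.2 h4 h3'
    have e5 : x.1 + x.2 - x.2 / 2 = x.1 + x.2 / 2 := by ring
    rw [e5] at j2
    unfold OnLine at j1 j2
    have f1 : Gφ x = φ x := eφ x (hT'T h1) h2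
    have f2 : Gp x = p x := ep x (hT'T h1) h2
    set Z0 := Zs q 1 (b (x.1 + x.2 / 2, x.2)) with hZ0
    set Zc0 := Zs q (-1) (b (x.1 + x.2 / 2, x.2)) with hZc0
    have hxe : ((x.1, x.2) : ℂ × ℂ) = x := rfl
    rw [hxe] at j1
    set a := Complex.exp (Complex.I * φ x) with ha
    set a1 := Complex.exp (Complex.I * φ (x.1 + x.2, x.2)) with ha1
    rw [Complex.exp_neg, ← ha] at j1
    rw [Complex.exp_neg, ← ha1] at j2
    have a0 : a ≠ 0 := Complex.exp_ne_zero _
    have a10 : a1 ≠ 0 := Complex.exp_ne_zero _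
    have q1 : Z0 = a ^ 2 * Zc0 + 2 * Complex.I * p x * a := by
      field_simp at j1
      linear_combination j1
    have q2 : Z0 = a1 ^ 2 * Zc0 + 2 * Complex.I * p (x.1 + x.2, x.2) * a1 := by
      field_simp at j2
      linear_combination j2
    have r1 : Zc x = Zc0 := by
      simp only [hZc]
      rw [f1, f2, h5, h6, ← ha, div_eq_iff h7]
      linear_combination q1 - q2
    have r2 : Z x = Z0 := by
      simp only [hZ]
      rw [r1, f1, f2, ← ha, q1]
    rw [i0, r1, r2, z1, z2]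
    exact ⟨rfl, rfl⟩
  have hβa := Crest.Agent.R266.SCV.analyticOnNhd_of_differentiableOn hT'o hβd
  have hana : ∀ f : ℂ → ℂ, DifferentiableOn ℂ f V → ∀ x ∈ T', AnalyticAt ℂ (fun x => f (βσ x)) x := by
    intro f hf x hx
    have h1 : AnalyticAt ℂ f (βσ x) := hf.analyticAt (hVo.mem_nhds (hβV x hx))
    exact h1.comp (hβa x hx)
  have hθ' : DifferentiableOn ℂ (deriv θ) V := hV.θ_diff.deriv hVo
  have hrepT : ∀ x ∈ T', Rep Z (fun x => Zn θ H 1 (βσ x)) (fun x => deriv θ (βσ x)) x ∧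
      Rep Zc (fun x => Zn θ H (-1) (βσ x)) (fun x => deriv θ (βσ x)) x := by
    have h1 := rep_of_preconnected (f := Z) (P := fun x => Zn θ H 1 (βσ x))
      (Q := fun x => deriv θ (βσ x)) hT'c.isPreconnected (fun x hx => (hZm x (hT'T hx)).1)
      (hana _ (diffOn_ZnV hVo hV.θ_diff hV.H_diff 1)) (hana _ hθ') hx0T'
      ⟨_, hNZ, hrel.mono fun x hx h => (hx h).1⟩
    have h2 := rep_of_preconnected (f := Zc) (P := fun x => Zn θ H (-1) (βσ x))
      (Q := fun x => deriv θ (βσ x)) hT'c.isPreconnected (fun x hx => (hZm x (hT'T hx)).2)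
      (hana _ (diffOn_ZnV hVo hV.θ_diff hV.H_diff (-1))) (hana _ hθ') hx0T'
      ⟨_, hNZ, hrel.mono fun x hx h => (hx h).2⟩
    exact fun x hx => ⟨h1 x hx, h2 x hx⟩
  -- the joint extension
  set rJ : ℝ := min (e' / 2) (e / 8) with hrJ
  have hrJ0 : 0 < rJ := lt_min (by positivity) (by positivity)
  have hrJ1 : rJ ≤ e' / 2 := min_le_left _ _
  have hrJ2 : rJ ≤ e / 8 := min_le_right _ _
  have hdist : ∀ t : ℂ, ∀ R : ℝ, t ∈ ball c R → |t.re - s.re| < R ∧ |t.im - (s.im - σ)| < R := by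
    intro t R ht
    rw [mem_ball, dist_eq_norm] at ht
    have h1 := Complex.abs_re_le_norm (t - c)
    have h2 := Complex.abs_im_le_norm (t - c)
    rw [Complex.sub_re, hcre] at h1
    rw [Complex.sub_im, hcim] at h2
    exact ⟨h1.trans_lt ht, h2.trans_lt ht⟩
  have hsubT' : ball c rJ ×ˢ ball w0 (e' / 2) ⊆ T' := by
    rintro ⟨t, w⟩ ⟨ht, hw⟩
    obtain ⟨h1, h2⟩ := hdist t rJ ht
    rw [mem_ball, dist_eq_norm] at hw
    have h2' := abs_lt.1 h2
    refine ⟨?_, ?_, ?_, ?_⟩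
    · show |t.re - c.re| < e'
      rw [hcre]; linarith
    · show -e' < t.im
      linarith
    · show t.im < c.im + e'
      rw [hcim]; linarith
    · show ‖w - w0‖ < e'
      linarith
  have hsubT : ball c (e / 2) ×ˢ ball w0 (e' / 2) ⊆ Tube s w0 e := by
    rintro ⟨t, w⟩ ⟨ht, hw⟩
    obtain ⟨h1, h2⟩ := hdist t _ ht
    rw [mem_ball, dist_eq_norm] at hw
    have h2' := abs_lt.1 h2
    refine ⟨?_, ?_, ?_, ?_⟩
    · show |t.re - s.re| < e
      linarith
    · show -e < t.im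
      linarith
    · show t.im < s.im + e
      linarith
    · show ‖w - w0‖ < e
      linarith
  obtain ⟨δ', hδ'0, hδ'1, Bt, t1, t2, t3⟩ := hJ c rJ (e / 2) (e / 4) (e' / 2) βσ Z Zc hrJ0
    (by linarith) (by linarith) (by positivity) (hβd.mono hsubT') (fun x hx => hβV x (hsubT' hx))
    (by
      intro w hw
      by_contra hcon
      push Not at hcon
      rw [mem_ball, dist_eq_norm] at hw
      have hwe : ‖w - w0‖ < e' := by linarith
      set Tw : Set ℂ := {t | ((t, w) : ℂ × ℂ) ∈ T'} with hTw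
      have hTwo : IsOpen Tw := hT'o.preimage (by fun_prop : Continuous fun t : ℂ => ((t, w) : ℂ × ℂ))
      have hTwc : Convex ℝ Tw := by
        intro t1 h1 t2 h2 a b ha hb hab
        have := hT'c h1 h2 ha hb hab
        have h3 : a • ((t1, w) : ℂ × ℂ) + b • ((t2, w) : ℂ × ℂ) = (a • t1 + b • t2, w) := by
          ext1
          · simp
          · show a • w + b • w = w
            rw [← add_smul, hab, one_smul]
        rw [h3] at this
        exact this
      have hβw : DifferentiableOn ℂ (fun t => βσ (t, w)) Tw :=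
        hβd.comp (by fun_prop : DifferentiableOn ℂ (fun t : ℂ => ((t, w) : ℂ × ℂ)) Tw) fun t ht => ht
      have ha : AnalyticOnNhd ℂ (deriv fun t => βσ (t, w)) Tw := (hβw.analyticOnNhd hTwo).deriv
      have hcTw : c ∈ Tw := hsubT' ⟨mem_ball_self hrJ0, by
        rw [mem_ball, dist_eq_norm]; exact hw⟩
      have hsTw : (s.re : ℂ) ∈ Tw := by
        refine ⟨?_, ?_, ?_, hwe⟩
        · show |((s.re : ℂ)).re - c.re| < e'
          rw [hcre, Complex.ofReal_re, sub_self, abs_zero]; exact he'0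
        · show -e' < ((s.re : ℂ)).im
          rw [Complex.ofReal_im]; linarith
        · show ((s.re : ℂ)).im < c.im + e'
          rw [Complex.ofReal_im, hcim]; linarith
      have hz := ha.eqOn_zero_of_preconnected_of_eventuallyEq_zero hTwc.isPreconnected hcTw (by
        filter_upwards [ball_mem_nhds c hrJ0] with t ht
        exact hcon t ht) hsTw
      have hy : (((s.re : ℂ) + w / 2, w) : ℂ × ℂ) ∈ PD ρ r := by
        have h5 := (himw (c, w) hwe).1
        refine ⟨?_, ?_⟩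
        · show |((s.re : ℂ) + w / 2).im| < ρ
          have : ((s.re : ℂ) + w / 2).im = w.im / 2 := by simp
          rw [this, abs_div, abs_two]
          have h6 : |w.im| < e' := h5
          linarith
        · show ‖w‖ < r
          have : ‖w‖ ≤ ‖w0‖ + ‖w - w0‖ := by
            have := norm_add_le w0 (w - w0)
            rwa [add_sub_cancel] at this
          linarith
      have hbd : DifferentiableAt ℂ b ((s.re : ℂ) + w / 2, w) :=
        hL.b_diff.differentiableAt ((isOpen_PD ρ r).mem_nhds hy)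
      have hder : HasDerivAt (fun t : ℂ => b (t + w / 2, w)) (q1 b ((s.re : ℂ) + w / 2, w)) (s.re : ℂ) := by
        have h6 : HasDerivAt (fun t : ℂ => ((t + w / 2, w) : ℂ × ℂ)) ((1, 0) : ℂ × ℂ) (s.re : ℂ) :=
          ((hasDerivAt_id _).add_const _).prodMk (hasDerivAt_const _ _)
        exact HasFDerivAt.comp_hasDerivAt (f := fun t : ℂ => ((t + w / 2, w) : ℂ × ℂ)) (s.re : ℂ)
          hbd.hasFDerivAt h6
      have hder2 : deriv (fun t => βσ (t, w)) (s.re : ℂ) = q1 b ((s.re : ℂ) + w / 2, w) := by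
        refine (hder.congr_of_eventuallyEq ?_).deriv
        have hcc : ContinuousAt (fun t : ℂ => ((t + w / 2, w) : ℂ × ℂ)) (s.re : ℂ) := by fun_prop
        filter_upwards [hTwo.mem_nhds hsTw, hcc.eventually ((isOpen_PD ρ r).mem_nhds hy)]
          with t h6 h7
        exact hβb (t, w) h6 h7
      have h8 := hL.b_t _ hy
      rw [← hder2, hz] at h8
      norm_num at h8)
    (fun x hx => hZm x (hsubT hx))
    (fun x hx => hrepT x (hsubT' hx))
  -- gluing
  set e3 : ℝ := min e' (min δ' (e / 16)) with he3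
  have he30 : 0 < e3 := lt_min he'0 (lt_min hδ'0 (by positivity))
  have l1 : e3 ≤ e' := min_le_left _ _
  have l2 : e3 ≤ δ' := (min_le_right _ _).trans (min_le_left _ _)
  have l3 : e3 ≤ e / 16 := (min_le_right _ _).trans (min_le_right _ _)
  set BB : Set (ℂ × ℂ) := ball c (e / 4) ×ˢ ball w0 δ' with hBB
  have hBBo : IsOpen BB := isOpen_ball.prod isOpen_ball
  have hBBc : Convex ℝ BB := (convex_ball _ _).prod (convex_ball _ _)
  have hagree : EqOn βσ Bt (T' ∩ BB) := by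
    have hcc : ((c, w0) : ℂ × ℂ) ∈ ball c rJ ×ˢ ball w0 δ' :=
      ⟨mem_ball_self hrJ0, mem_ball_self hδ'0⟩
    have hcT : ((c, w0) : ℂ × ℂ) ∈ T' := hsubT' ⟨mem_ball_self hrJ0, mem_ball_self (by positivity)⟩
    refine AnalyticOnNhd.eqOn_of_preconnected_of_eventuallyEq (𝕜 := ℂ)
      (hβa.mono inter_subset_left)
      ((Crest.Agent.R266.SCV.analyticOnNhd_of_differentiableOn hBBo t1).mono inter_subset_right)
      (hT'c.inter hBBc).isPreconnected
      ⟨hcT, mem_ball_self (by positivity), mem_ball_self hδ'0⟩ ?_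
    filter_upwards [(isOpen_ball.prod isOpen_ball).mem_nhds hcc] with x hx
    exact (t3 hx).symm
  have hlow' : ∀ x ∈ Tube s w0 e3, x.1.im < c.im + rJ → x ∈ T' := by
    rintro x ⟨h1, h2, h3, h4⟩ h5
    exact ⟨by rw [hcre]; linarith, by linarith, by linarith, by linarith⟩
  have hhigh : ∀ x ∈ Tube s w0 e3, c.im + rJ / 2 ≤ x.1.im → x ∈ BB := by
    rintro x ⟨h1, h2, h3, h4⟩ h5
    refine ⟨?_, ?_⟩
    · rw [mem_ball, dist_eq_norm]
      have h6 := Complex.norm_le_abs_re_add_abs_im (x.1 - c)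
      rw [Complex.sub_re, Complex.sub_im, hcre] at h6
      have h7 : |x.1.im - c.im| < σ + e3 := by
        rw [hcim, abs_lt]
        rw [hcim] at h5
        constructor <;> linarith
      linarith
    · rw [mem_ball, dist_eq_norm]
      linarith
  classical
  set β : ℂ × ℂ → ℂ := fun x => if x.1.im < c.im + rJ / 2 then βσ x else Bt x with hβ
  have hβ1 : ∀ x ∈ Tube s w0 e3, x.1.im < c.im + rJ → β x = βσ x := by
    intro x hx hxi
    simp only [hβ]
    by_cases h1 : x.1.im < c.im + rJ / 2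
    · rw [if_pos h1]
    · rw [if_neg h1]
      push Not at h1
      exact (hagree ⟨hlow' x hx hxi, hhigh x hx h1⟩).symm
  have hβ2 : ∀ x ∈ Tube s w0 e3, c.im + rJ / 2 < x.1.im → β x = Bt x := by
    intro x hx hxi
    simp only [hβ]
    rw [if_neg (not_lt.2 hxi.le)]
  have hTo : IsOpen (Tube s w0 e3) := isOpen_Tube s w0 e3
  refine ⟨e3, he30, l1.trans k2, β, ?_, ?_, ?_⟩
  · intro x hx
    refine DifferentiableAt.differentiableWithinAt ?_
    by_cases h1 : x.1.im < c.im + rJ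
    · have h2 : DifferentiableAt ℂ βσ x := hβd.differentiableAt (hT'o.mem_nhds (hlow' x hx h1))
      refine h2.congr_of_eventuallyEq ?_
      have h3 : IsOpen {x : ℂ × ℂ | x.1.im < c.im + rJ} := isOpen_lt (by fun_prop) continuous_const
      filter_upwards [hTo.mem_nhds hx, h3.mem_nhds h1] with y hy1 hy2
      exact hβ1 y hy1 hy2
    · push Not at h1
      have h1' : c.im + rJ / 2 < x.1.im := by linarith
      have h2 : DifferentiableAt ℂ Bt x :=
        t1.differentiableAt (hBBo.mem_nhds (hhigh x hx h1'.le))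
      refine h2.congr_of_eventuallyEq ?_
      have h3 : IsOpen {x : ℂ × ℂ | c.im + rJ / 2 < x.1.im} :=
        isOpen_lt continuous_const (by fun_prop)
      filter_upwards [hTo.mem_nhds hx, h3.mem_nhds h1'] with y hy1 hy2
      exact hβ2 y hy1 hy2
  · intro x hx
    by_cases h1 : x.1.im < c.im + rJ
    · rw [hβ1 x hx h1]
      exact hβV x (hlow' x hx h1)
    · push Not at h1
      have h1' : c.im + rJ / 2 < x.1.im := by linarith
      rw [hβ2 x hx h1']
      exact t2 x (hhigh x hx h1'.le)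
  · have hx0T : (((s.re : ℂ), w0) : ℂ × ℂ) ∈ Tube s w0 e3 := by
      refine ⟨?_, ?_, ?_, ?_⟩
      · simp [he30]
      · simp [he30]
      · show ((s.re : ℂ)).im < s.im + e3
        rw [Complex.ofReal_im]; linarith
      · simp [he30]
    have h3 : IsOpen {x : ℂ × ℂ | x.1.im < c.im + rJ} := isOpen_lt (by fun_prop) continuous_const
    have h4 : (((s.re : ℂ), w0) : ℂ × ℂ) ∈ {x : ℂ × ℂ | x.1.im < c.im + rJ} := by
      show ((s.re : ℂ)).im < c.im + rJ
      rw [Complex.ofReal_im, hcim]; linarith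
    filter_upwards [hTo.mem_nhds hx0T, h3.mem_nhds h4, hlow] with x h5 h6 h7
    rw [hβ1 x h5 h6]
    exact hβb x h7.1 h7.2.2.1

end fam

end Crest.Agent.R102.BEnd802
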