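import Mathlib
import Crest.Agent.R102.SpineDefs_478
import Crest.Agent.R102.C1Defs_821
import Crest.Agent.R102.T7K_416
import Crest.Agent.R102.Spine_478

-- ▼ part R102/SpineG_478
section

/-!
Row 102, part (C): Cases A and B from their blocks, `partCL_of_blocks`.
-/

set_option autoImplicit false

open Set Filter Topology Metric
open scoped ComplexConjugate

noncomputable section

namespace Crest.Agent.R102.Spine

open Crest.Agent.R102.T5 Crest.Agent.R102.G576 Crest.Agent.R102.A929 Crest.Agent.R102.B821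
open Crest.Agent.R102.C0 Crest.Agent.R102.C1 Crest.Agent.R102.Mer88

variable {q : C(ℂ, ℂ)} {η h0 : ℝ} {θ H : ℂ → ℂ}

/-! #### real form of the conclusion -/

lemma concl_of (hD : Datum q η) {V : Set ℂ} (hsV : Str η ⊆ V)
    (hθ : ∀ z ∈ Str η, θ z = Tc q z) {k : ℝ}
    (hk : ∀ z ∈ V, T7M.d2 (deriv θ) z = (k - 2 * deriv θ z ^ 2) * deriv θ z) : Concl q := by
  have hy : ∀ z ∈ Str η, deriv θ z = Complex.exp (q z) := by
    intro z hz
    have h1 : θ =ᶠ[𝓝 z] Tc q := by
      filter_upwards [(isOpen_Str η).mem_nhds hz] with x hx using hθ x hx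
    rw [h1.deriv_eq]
    exact (hD.hasDerivAt_Tc hz).deriv
  have hyd : DifferentiableOn ℂ (deriv θ) (Str η) := by
    refine (hD.exp_diff).congr (fun z hz => hy z hz)
  have hreal : ∀ x : ℝ, Real.exp (qr q x) = (deriv θ x).re := by
    intro x
    rw [hy x (real_mem_Str hD.η_pos x), hD.q_real, ← Complex.ofReal_exp, Complex.ofReal_re]
  have hreal2 : ∀ x : ℝ, deriv θ x = ((Real.exp (qr q x) : ℝ) : ℂ) := by
    intro x
    rw [hy x (real_mem_Str hD.η_pos x), hD.q_real, ← Complex.ofReal_exp]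
  have hf : (fun x : ℝ => Real.exp (qr q x)) = fun x : ℝ => (deriv θ x).re := funext hreal
  have hat : ∀ x : ℝ, (x : ℂ) ∈ Str η := fun x => real_mem_Str hD.η_pos x
  have d1 : ∀ x : ℝ, HasDerivAt (fun x : ℝ => (deriv θ x).re) (deriv (deriv θ) x).re x := by
    intro x
    exact (((hyd).differentiableAt ((isOpen_Str η).mem_nhds (hat x))).hasDerivAt).real_of_complex
  have hyd2 : DifferentiableOn ℂ (deriv (deriv θ)) (Str η) := hyd.deriv (isOpen_Str η)
  have d2' : ∀ x : ℝ, HasDerivAt (fun x : ℝ => (deriv (deriv θ) x).re)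
      (deriv (deriv (deriv θ)) x).re x := by
    intro x
    exact (((hyd2).differentiableAt ((isOpen_Str η).mem_nhds (hat x))).hasDerivAt).real_of_complex
  refine ⟨k, fun x => ?_⟩
  have e1 : deriv (fun x : ℝ => Real.exp (qr q x)) = fun x : ℝ => (deriv (deriv θ) x).re := by
    rw [hf]; funext x; exact (d1 x).deriv
  rw [e1, (d2' x).deriv]
  have h3 := hk x (hsV (hat x))
  have h4 : T7M.d2 (deriv θ) (x : ℂ) = deriv (deriv (deriv θ)) x := rfl
  rw [h4, hreal2 x] at h3
  rw [h3]
  have : ((k : ℂ) - 2 * ((Real.exp (qr q x) : ℝ) : ℂ) ^ 2) * ((Real.exp (qr q x) : ℝ) : ℂ) =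
      (((k - 2 * Real.exp (qr q x) ^ 2) * Real.exp (qr q x) : ℝ) : ℂ) := by push_cast; ring
  rw [this, Complex.ofReal_re]

/-! #### Case A -/

lemma reg_of_regB {s : ℂ} (h : RegB h0 θ H s) :
    T7M.Reg h0 (deriv θ) H s := by
  obtain ⟨c, hc, θ', H', h1, h2, h3⟩ := h
  refine ⟨c, hc, deriv θ', H', h1.deriv isOpen_ball, h2, fun z hz hzi => ⟨?_, (h3 z hz hzi).2⟩⟩
  have h4 : θ' =ᶠ[𝓝 z] θ := by
    filter_upwards [isOpen_ball.mem_nhds hz, (isOpen_Str h0).mem_nhds (show z ∈ Str h0 from hzi)]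
      with x hx hx2 using (h3 x hx hx2).1
  exact h4.deriv_eq

theorem caseA_of (hZ : ZeroY) (hA : AMer) (hP : Pui) (hT : T5S) : CaseA := by
  intro q η ρ r B b φ p m₀ hL θ H h0 hη hV hs hr
  have hD := hL.dat
  have hdat : DataS q η ρ r B b φ p m₀ θ H h0 := ⟨hL, hη, hV⟩
  have hh0 : 0 < h0 := lt_of_lt_of_le hD.η_pos hη
  -- Puiseux at every top line point
  have hpui : ∀ s : ℂ, s.im = h0 → PuisB h0 θ H s := by
    by_cases ha : AlgC q
    · exact hP q η ρ r B b φ p m₀ θ H h0 hdat ha
    · intro s hs'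
      obtain ⟨E, F, hE, hF, hEF⟩ := hA q η ρ r B b φ p m₀ θ H h0 hdat ha hr s hs'
      have ha1 : AnalyticAt ℂ (fun u : ℂ => s - Complex.I * u) 0 := by fun_prop
      have hmap : (fun u : ℂ => s - Complex.I * u) 0 = s := by simp
      have hcomp : ∀ G : ℂ → ℂ, MeromorphicAt G s →
          MeromorphicAt (fun u => G (s - Complex.I * u)) 0 := by
        intro G hG
        have hG' : MeromorphicAt G ((fun u : ℂ => s - Complex.I * u) 0) := by rwa [hmap]
        exact MeromorphicAt.comp_analyticAt (f := G) (g := fun u : ℂ => s - Complex.I * u) hG' ha1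
      refine ⟨1, one_pos, fun u => E (s - Complex.I * u), fun u => F (s - Complex.I * u),
        hcomp E hE, hcomp F hF, ?_⟩
      filter_upwards [hEF] with z hz hzi
      have h1 : (Complex.I * (z - s)) ^ (1 / ((1 : ℕ) : ℂ)) = Complex.I * (z - s) := by
        rw [Nat.cast_one, div_one, Complex.cpow_one]
      have h2 : s - Complex.I * (Complex.I * (z - s)) = z := by
        rw [← mul_assoc, Complex.I_mul_I]; ring
      simp only [h1, h2]
      exact hz hzi
  have htop := hT q η ρ r B b φ p m₀ θ H h0 hdat hpui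
  obtain ⟨s1, hs1, hs1n⟩ := hs
  have hnice : NiceB h0 θ s1 := (htop s1 hs1).resolve_left hs1n
  obtain ⟨rb, ab, Fb, hnb⟩ := hnice
  obtain ⟨hrel, -⟩ := hZ q η (Str h0) θ H hD hV
  have hyd : DifferentiableOn ℂ (deriv θ) (Str h0) := hV.θ_diff.deriv (isOpen_Str h0)
  obtain ⟨k, hk⟩ := T7M.T7_fin hh0 (c := -1) (by norm_num) (y := deriv θ) (H := H) hyd hV.H_diff
    (fun z hz => by
      have := hrel z hz
      linear_combination this)
    (fun z hz => by
      have h1 : (fun z => θ (z + 1)) =ᶠ[𝓝 z] fun z => θ z + 2 * Real.pi := by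
        filter_upwards [(isOpen_Str h0).mem_nhds (show z ∈ Str h0 from hz)] with x hx
        exact (ext_per hD hη hV hx).1
      have h2 := h1.deriv_eq
      rw [deriv_comp_add_const, deriv_add_const] at h2
      exact h2)
    (fun z hz => by
      have h1 : (fun z => conj (θ (conj z))) =ᶠ[𝓝 z] θ := by
        filter_upwards [(isOpen_Str h0).mem_nhds (show z ∈ Str h0 from hz)] with x hx
        rw [(ext_conj hD hη hV hx).1, starRingEnd_self_apply]
      have hz' : conj z ∈ Str h0 := conj_mem_Str hz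
      have h2 : HasDerivAt θ (deriv θ (conj z)) (conj z) :=
        (hV.θ_diff.differentiableAt ((isOpen_Str h0).mem_nhds hz')).hasDerivAt
      have h3 := h2.conj_conj
      rw [starRingEnd_self_apply] at h3
      have h4 : HasDerivAt θ (conj (deriv θ (conj z))) z := h3.congr_of_eventuallyEq h1.symm
      rw [h4.deriv, starRingEnd_self_apply])
    (fun s hs' => (htop s hs').imp reg_of_regB id) hs1 hnb
  exact concl_of hD (str_mono hη) hV.θ_eq (k := k) hk

/-! #### Case B -/

/-- a Puiseux point has regular neighbours on the top line -/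
lemma regB_of_puis (hh0 : 0 < h0) (hV : VExt q η (Str h0) θ H) {s : ℂ} (hs : s.im = h0)
    (h : PuisB h0 θ H s) : ∃ s' : ℂ, s'.im = h0 ∧ RegB h0 θ H s' := by
  obtain ⟨n, hn, E, F, hE, hF, hEF⟩ := h
  have hn0 : (n : ℝ) ≠ 0 := by exact_mod_cast hn.ne'
  set u : ℂ → ℂ := fun z => (Complex.I * (z - s)) ^ (1 / (n : ℂ)) with hu
  have hnorm : ∀ z, ‖u z‖ = ‖z - s‖ ^ (((n : ℝ))⁻¹) := by
    intro z
    rw [hu]
    simp only [one_div]
    rw [Complex.norm_cpow_inv_nat, norm_mul, Complex.norm_I, one_mul]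
  have hune : ∀ z, z ≠ s → u z ≠ 0 := by
    intro z hz
    rw [← norm_pos_iff, hnorm]
    exact Real.rpow_pos_of_pos (norm_pos_iff.2 (sub_ne_zero.2 hz)) _
  have htend : Tendsto u (𝓝[≠] s) (𝓝[≠] 0) := by
    refine tendsto_nhdsWithin_iff.2 ⟨?_, ?_⟩
    · rw [tendsto_zero_iff_norm_tendsto_zero]
      have h1 : Tendsto (fun z : ℂ => ‖z - s‖ ^ (((n : ℝ))⁻¹)) (𝓝[≠] s) (𝓝 (0 ^ (((n : ℝ))⁻¹))) := by
        have h2 : Tendsto (fun z : ℂ => ‖z - s‖) (𝓝[≠] s) (𝓝 0) := by
          have h3 : Tendsto (fun z : ℂ => ‖z - s‖) (𝓝 s) (𝓝 ‖s - s‖) := by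
            have : Continuous (fun z : ℂ => ‖z - s‖) := by fun_prop
            exact this.tendsto s
          rw [sub_self, norm_zero] at h3
          exact h3.mono_left nhdsWithin_le_nhds
        exact h2.rpow_const (Or.inr (by positivity))
      rw [Real.zero_rpow (inv_ne_zero hn0)] at h1
      exact h1.congr (fun z => (hnorm z).symm)
    · filter_upwards [self_mem_nhdsWithin] with z hz using hune z hz
  -- `E` is not identically zero
  have hEne : ∀ᶠ w in 𝓝[≠] (0 : ℂ), E w ≠ 0 := by
    rcases hE.eventually_eq_zero_or_eventually_ne_zero with h1 | h1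
    · exfalso
      have h2 := htend.eventually h1
      -- points below `s`
      have h3 : Tendsto (fun ε : ℝ => s - (ε : ℂ) * Complex.I) (𝓝[>] 0) (𝓝[≠] s) := by
        refine tendsto_nhdsWithin_iff.2 ⟨?_, ?_⟩
        · have : Continuous (fun ε : ℝ => s - (ε : ℂ) * Complex.I) := by fun_prop
          have h4 := this.tendsto 0
          simp only [Complex.ofReal_zero, zero_mul, sub_zero] at h4
          exact h4.mono_left nhdsWithin_le_nhds
        · filter_upwards [self_mem_nhdsWithin] with ε hε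
          intro hcon
          have h5 : (ε : ℂ) * Complex.I = 0 := by
            have h6 : s - (ε : ℂ) * Complex.I = s := hcon
            linear_combination -h6
          have h7 : (0 : ℝ) < ε := hε
          simp [h7.ne'] at h5
      have h4 := h3.eventually h2
      have h5 := (h3.mono_right nhdsWithin_le_nhds).eventually hEF
      have h6 : ∀ᶠ ε : ℝ in 𝓝[>] 0, ε < h0 := by
        filter_upwards [Ioo_mem_nhdsGT hh0] with ε hε using hε.2
      obtain ⟨ε, h7, h8, h9, h10⟩ := (h4.and (h5.and (h6.and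
        (self_mem_nhdsWithin : Ioi (0 : ℝ) ∈ 𝓝[>] 0)))).exists
      have hεp : (0 : ℝ) < ε := h10
      have h11 : |(s - (ε : ℂ) * Complex.I).im| < h0 := by
        have : (s - (ε : ℂ) * Complex.I).im = h0 - ε := by simp [hs]
        rw [this, abs_of_pos (by linarith)]
        linarith
      have h12 := (h8 h11).1
      have h13 : E (u (s - (ε : ℂ) * Complex.I)) = 0 := h7
      rw [hu] at h13
      simp only at h13
      rw [h13] at h12
      exact Complex.exp_ne_zero _ h12.symm
    · exact h1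
  -- a good real shift
  have h3 : Tendsto (fun x : ℝ => s + (x : ℂ)) (𝓝[>] 0) (𝓝[≠] s) := by
    refine tendsto_nhdsWithin_iff.2 ⟨?_, ?_⟩
    · have : Continuous (fun x : ℝ => s + (x : ℂ)) := by fun_prop
      have h4 := this.tendsto 0
      simp only [Complex.ofReal_zero, add_zero] at h4
      exact h4.mono_left nhdsWithin_le_nhds
    · filter_upwards [self_mem_nhdsWithin] with x hx
      intro hcon
      have h6 : s + (x : ℂ) = s := hcon
      have h5 : (x : ℂ) = 0 := by linear_combination h6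
      have h7 : (0 : ℝ) < x := hx
      exact h7.ne' (by exact_mod_cast h5)
  have hEa := hE.eventually_analyticAt
  have hFa := hF.eventually_analyticAt
  obtain ⟨x, h4, h5, h6, h7, h8⟩ := ((h3.eventually (htend.eventually hEne)).and
    ((h3.eventually (htend.eventually hEa)).and ((h3.eventually (htend.eventually hFa)).and
    (((h3.mono_right nhdsWithin_le_nhds).eventually hEF.eventually_nhds).and
    (self_mem_nhdsWithin : Ioi (0 : ℝ) ∈ 𝓝[>] 0))))).exists
  have hx : (0 : ℝ) < x := h8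
  set s' : ℂ := s + (x : ℂ) with hs'
  have hs'im : s'.im = h0 := by simp [hs', hs]
  have huan : AnalyticAt ℂ u s' := by
    refine AnalyticAt.cpow (by fun_prop) analyticAt_const ?_
    have : Complex.I * (s' - s) = (x : ℂ) * Complex.I := by rw [hs']; ring
    rw [this, Complex.mem_slitPlane_iff]
    right
    simp [hx.ne']
  have hEu : AnalyticAt ℂ (fun z => E (u z)) s' := h5.comp huan
  have hFu : AnalyticAt ℂ (fun z => F (u z)) s' := h6.comp huan
  have hev : ∀ᶠ z in 𝓝 s', AnalyticAt ℂ (fun z => E (u z)) z ∧ AnalyticAt ℂ (fun z => F (u z)) z ∧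
      E (u z) ≠ 0 ∧ (|z.im| < h0 → E (u z) = Complex.exp (Complex.I * θ z) ∧ F (u z) = H z) := by
    filter_upwards [hEu.eventually_analyticAt, hFu.eventually_analyticAt,
      hEu.continuousAt.eventually_ne h4, h7] with z a b c d using ⟨a, b, c, d⟩
  obtain ⟨c0, hc0, hball⟩ := Metric.eventually_nhds_iff_ball.1 hev
  set c : ℝ := min c0 h0 with hcdef
  have hc : 0 < c := lt_min hc0 hh0
  have hcb : ball s' c ⊆ ball s' c0 := ball_subset_ball (min_le_left _ _)
  have hEd : DifferentiableOn ℂ (fun z => E (u z)) (ball s' c) := fun z hz =>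
    (hball z (hcb hz)).1.differentiableAt.differentiableWithinAt
  have hFd : DifferentiableOn ℂ (fun z => F (u z)) (ball s' c) := fun z hz =>
    (hball z (hcb hz)).2.1.differentiableAt.differentiableWithinAt
  have hld : DifferentiableOn ℂ (fun z => deriv (fun z => E (u z)) z / (Complex.I * E (u z)))
      (ball s' c) := by
    refine (hEd.deriv isOpen_ball).div (hEd.const_mul _) (fun z hz => ?_)
    exact mul_ne_zero Complex.I_ne_zero (hball z (hcb hz)).2.2.1
  obtain ⟨g, hg⟩ := hld.isExactOn_ball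
  set zs : ℂ := s' - ((c / 2 : ℝ) : ℂ) * Complex.I with hzs
  have hzsb : zs ∈ ball s' c := by
    rw [mem_ball, dist_eq_norm, hzs]
    have : s' - ((c / 2 : ℝ) : ℂ) * Complex.I - s' = -(((c / 2 : ℝ) : ℂ) * Complex.I) := by ring
    rw [this, norm_neg, norm_mul, Complex.norm_I, mul_one, Complex.norm_real,
      Real.norm_of_nonneg (by positivity)]
    linarith
  have hzsi : zs ∈ Str h0 := by
    show |zs.im| < h0
    have h9 : zs.im = h0 - c / 2 := by simp [hzs, hs'im]
    have h10 : c ≤ h0 := min_le_right _ _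
    rw [h9, abs_of_pos (by linarith)]
    linarith
  refine ⟨s', hs'im, c, hc, fun z => g z - g zs + θ zs, fun z => F (u z), ?_, hFd, ?_⟩
  · intro z hz
    exact ((((hg z hz).differentiableAt).sub_const _).add_const _).differentiableWithinAt
  · intro z hz hzi
    refine ⟨?_, ((hball z (hcb hz)).2.2.2 hzi).2⟩
    have hWo : IsOpen (ball s' c ∩ Str h0) := isOpen_ball.inter (isOpen_Str h0)
    have hWc : IsPreconnected (ball s' c ∩ Str h0) :=
      ((convex_ball _ _).inter (str_conv h0)).isPreconnected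
    have key : EqOn (fun z => g z - g zs + θ zs) θ (ball s' c ∩ Str h0) := by
      refine hWo.eqOn_of_deriv_eq hWc ?_ (hV.θ_diff.mono inter_subset_right) ?_
        (x := zs) ⟨hzsb, hzsi⟩ (by simp)
      · intro w hw
        exact ((((hg w hw.1).differentiableAt).sub_const _).add_const _).differentiableWithinAt
      · intro w hw
        have e1 : deriv (fun z => g z - g zs + θ zs) w =
            deriv (fun z => E (u z)) w / (Complex.I * E (u w)) := by
          rw [deriv_add_const, deriv_sub_const]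
          exact (hg w hw.1).deriv
        have e2 : (fun z => E (u z)) =ᶠ[𝓝 w] fun z => Complex.exp (Complex.I * θ z) := by
          filter_upwards [hWo.mem_nhds hw] with v hv
          exact ((hball v (hcb hv.1)).2.2.2 hv.2).1
        have e3 : HasDerivAt θ (deriv θ w) w :=
          (hV.θ_diff.differentiableAt ((isOpen_Str h0).mem_nhds hw.2)).hasDerivAt
        have e4 : deriv (fun z => E (u z)) w =
            Complex.exp (Complex.I * θ w) * (Complex.I * deriv θ w) := by
          rw [e2.deriv_eq]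
          exact ((e3.const_mul Complex.I).cexp).deriv
        have e5 : E (u w) = Complex.exp (Complex.I * θ w) := e2.self_of_nhds
        rw [e1, e4, e5]
        have := Complex.exp_ne_zero (Complex.I * θ w)
        field_simp
    exact key ⟨hz, hzi⟩

theorem caseB_of (hP : Pui) (hT : T1B) (hB : BEnd) : CaseB := by
  intro q η ρ r B b φ p m₀ hL θ H h0 hη hV hs
  have hD := hL.dat
  have hdat : DataS q η ρ r B b φ p m₀ θ H h0 := ⟨hL, hη, hV⟩
  have hh0 : 0 < h0 := lt_of_lt_of_le hD.η_pos hη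
  by_cases ha : AlgC q
  · have h1 : (⟨0, h0⟩ : ℂ).im = h0 := rfl
    obtain ⟨s', hs', hr⟩ := regB_of_puis hh0 hV h1
      (hP q η ρ r B b φ p m₀ θ H h0 hdat ha _ h1)
    exact hs s' hs' hr
  · exact hT q η ρ r B b φ p m₀ θ H h0 hdat hs (hB q η ρ r B b φ p m₀ θ H h0 hdat hs ha)

/-- **level 1 of the spine** -/
theorem partCL_of_blocks (hZ : ZeroY) (hA : AMer) (hP : Pui) (hT5 : T5S) (hTB : T1B) (hBE : BEnd)
    (hTE : T1E) (hEE : EEnd) (hEA : EAlg) : PartCL :=
  partCL_of_cases (caseA_of hZ hA hP hT5) (caseB_of hP hTB hBE) (caseE_of hTE hEE hEA)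

end Crest.Agent.R102.Spine
end
end

-- ▼ part R102/ZeroY_478
section

/-!
Row 102, part (C): `C1.ZeroY`: the normalisation `θ' H'' - θ'' H' + θ'^3 H = -1` and the zeros of
`θ'`.
-/

set_option autoImplicit false

open Set Filter Topology Metric

noncomputable section

namespace Crest.Agent.R102.ZeroY478

open Crest.Agent.R102.T5 Crest.Agent.R102.A929 Crest.Agent.R102.B821
open Crest.Agent.R102.C0 Crest.Agent.R102.C1

variable {q : C(ℂ, ℂ)} {η : ℝ}

/-- `(e^{-iθ} Z + e^{iθ} Z̄) / 2` -/
def Gf (q : C(ℂ, ℂ)) (z : ℂ) : ℂ :=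
  (Complex.exp (-(Complex.I * Tc q z)) * Zs q 1 z + Complex.exp (Complex.I * Tc q z) *
    Zs q (-1) z) / 2

lemma vel_mul (q : C(ℂ, ℂ)) (z : ℂ) :
    Complex.exp (-(Complex.I * Tc q z)) * C0.vel q 1 z = Complex.exp (-2 * q z) ∧
    Complex.exp (Complex.I * Tc q z) * C0.vel q (-1) z = Complex.exp (-2 * q z) := by
  unfold C0.vel
  constructor
  · rw [← Complex.exp_add]; congr 1; ring
  · rw [← Complex.exp_add]; congr 1; ring

lemma hasDerivAt_exps (hD : Datum q η) {z : ℂ} (hz : z ∈ Str η) :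
    HasDerivAt (fun z => Complex.exp (-(Complex.I * Tc q z)))
      (Complex.exp (-(Complex.I * Tc q z)) * (-(Complex.I * Complex.exp (q z)))) z ∧
    HasDerivAt (fun z => Complex.exp (Complex.I * Tc q z))
      (Complex.exp (Complex.I * Tc q z) * (Complex.I * Complex.exp (q z))) z := by
  have h1 := hD.hasDerivAt_Tc hz
  exact ⟨((h1.const_mul Complex.I).neg).cexp, (h1.const_mul Complex.I).cexp⟩

lemma hasDerivAt_Hc (hD : Datum q η) {z : ℂ} (hz : z ∈ Str η) :
    HasDerivAt (Hc q) (-(Complex.exp (q z) * Gf q z)) z := by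
  obtain ⟨e1, e2⟩ := hasDerivAt_exps hD hz
  obtain ⟨v1, v2⟩ := vel_mul q z
  have z1 := hD.hasDerivAt_Zs 1 hz
  have z2 := hD.hasDerivAt_Zs (-1) hz
  have h := ((e1.mul z1).sub (e2.mul z2)).div_const (2 * Complex.I)
  refine h.congr_deriv ?_
  rw [v1, v2]
  unfold Gf
  have hI : Complex.I ≠ 0 := Complex.I_ne_zero
  have hII := Complex.I_mul_I
  field_simp
  ring_nf

lemma hasDerivAt_Gf (hD : Datum q η) {z : ℂ} (hz : z ∈ Str η) :
    HasDerivAt (Gf q) (Complex.exp (q z) * Hc q z + Complex.exp (-2 * q z)) z := by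
  obtain ⟨e1, e2⟩ := hasDerivAt_exps hD hz
  obtain ⟨v1, v2⟩ := vel_mul q z
  have z1 := hD.hasDerivAt_Zs 1 hz
  have z2 := hD.hasDerivAt_Zs (-1) hz
  have h := ((e1.mul z1).add (e2.mul z2)).div_const 2
  refine h.congr_deriv ?_
  rw [v1, v2]
  unfold Hc
  have hI : Complex.I ≠ 0 := Complex.I_ne_zero
  have hII := Complex.I_sq
  field_simp
  ring_nf
  rw [hII]
  ring

/-- the normalisation on the strip -/
lemma rel_str (hD : Datum q η) {z : ℂ} (hz : z ∈ Str η) :
    deriv (Tc q) z * deriv (deriv (Hc q)) z - deriv (deriv (Tc q)) z * deriv (Hc q) z +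
      deriv (Tc q) z ^ 3 * Hc q z = -1 := by
  have hT : ∀ x ∈ Str η, deriv (Tc q) x = Complex.exp (q x) := fun x hx =>
    (hD.hasDerivAt_Tc hx).deriv
  have hH : ∀ x ∈ Str η, deriv (Hc q) x = -(Complex.exp (q x) * Gf q x) := fun x hx =>
    (hasDerivAt_Hc hD hx).deriv
  have hyd : HasDerivAt (fun x => Complex.exp (q x)) (deriv (fun x => Complex.exp (q x)) z) z :=
    ((hD.exp_diff).differentiableAt ((isOpen_Str η).mem_nhds hz)).hasDerivAt
  have hT2 : deriv (deriv (Tc q)) z = deriv (fun x => Complex.exp (q x)) z := by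
    refine Filter.EventuallyEq.deriv_eq ?_
    filter_upwards [(isOpen_Str η).mem_nhds hz] with x hx using hT x hx
  have hH2 : deriv (deriv (Hc q)) z = -(deriv (fun x => Complex.exp (q x)) z * Gf q z +
      Complex.exp (q z) * (Complex.exp (q z) * Hc q z + Complex.exp (-2 * q z))) := by
    have h1 : deriv (Hc q) =ᶠ[𝓝 z] fun x => -(Complex.exp (q x) * Gf q x) := by
      filter_upwards [(isOpen_Str η).mem_nhds hz] with x hx using hH x hx
    rw [h1.deriv_eq]
    exact ((hyd.mul (hasDerivAt_Gf hD hz)).neg).deriv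
  rw [hT z hz, hT2, hH z hz, hH2]
  have h3 : Complex.exp (q z) * (Complex.exp (q z) * Complex.exp (-2 * q z)) = 1 := by
    rw [← Complex.exp_add, ← Complex.exp_add]
    rw [show q z + (q z + -2 * q z) = 0 by ring, Complex.exp_zero]
  linear_combination -h3

theorem zeroY : ZeroY := by
  intro q η V θ H hD hE
  have hV := hE.open'
  have h0 : (0 : ℂ) ∈ Str η := by simp [Str, hD.η_pos]
  have hθd : DifferentiableOn ℂ (deriv θ) V := hE.θ_diff.deriv hV
  have hHd : DifferentiableOn ℂ (deriv H) V := hE.H_diff.deriv hV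
  have hrel : ∀ z ∈ V, deriv θ z * deriv (deriv H) z - deriv (deriv θ) z * deriv H z +
      deriv θ z ^ 3 * H z = -1 := by
    have hd : DifferentiableOn ℂ (fun z => deriv θ z * deriv (deriv H) z -
        deriv (deriv θ) z * deriv H z + deriv θ z ^ 3 * H z) V :=
      ((hθd.mul (hHd.deriv hV)).sub ((hθd.deriv hV).mul hHd)).add ((hθd.pow 3).mul hE.H_diff)
    have h1 := (hd.analyticOnNhd hV).eqOn_of_preconnected_of_eventuallyEq
      (g := fun _ => (-1 : ℂ)) (analyticOnNhd_const) hE.conn (hE.sub h0) ?_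
    · intro z hz; exact h1 hz
    · filter_upwards [(isOpen_Str η).mem_nhds h0] with z hz
      have e1 : θ =ᶠ[𝓝 z] Tc q := by
        filter_upwards [(isOpen_Str η).mem_nhds hz] with x hx using hE.θ_eq x hx
      have e2 : H =ᶠ[𝓝 z] Hc q := by
        filter_upwards [(isOpen_Str η).mem_nhds hz] with x hx using hE.H_eq x hx
      have e3 := e1.deriv
      have e4 := e2.deriv
      rw [e3.eq_of_nhds, e4.eq_of_nhds, e3.deriv_eq, e4.deriv_eq, e2.eq_of_nhds]
      exact rel_str hD hz
  refine ⟨hrel, fun z hz hz0 => ?_⟩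
  have h1 := hrel z hz
  have h2 := T7M.rel_deriv hV hθd hE.H_diff (c := -1) (fun x hx => by
    have := hrel x hx
    linear_combination this) z hz
  rw [hz0] at h1 h2
  have h3 : deriv (deriv θ) z * deriv H z = 1 := by linear_combination -h1
  have hH0 : deriv H z ≠ 0 := by
    intro h; rw [h, mul_zero] at h3; exact zero_ne_one h3
  have hθ0 : deriv (deriv θ) z ≠ 0 := by
    intro h; rw [h, zero_mul] at h3; exact zero_ne_one h3
  refine ⟨hθ0, ?_, hH0⟩
  have h4 : deriv (deriv (deriv θ)) z * deriv H z = 0 := by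
    have : T7M.d2 (deriv θ) z = deriv (deriv (deriv θ)) z := rfl
    rw [← this]
    linear_combination -h2
  exact (mul_eq_zero.1 h4).resolve_right hH0

end Crest.Agent.R102.ZeroY478
end
end

-- ▼ part R102/OneStepA_350
section

/-!
Row 102, T1-E, (E3), part 1: the linear ODE of the projective lift of the mirror and the third
order estimate.

`θ`, `H` entire, `y = θ'`, `y H'' - y' H' + y³ H = -1`, `y'' = (K - 2 y²) y`.
`G_s = exp (i s θ) (- H' + i s y H)` (`s = ± 1`) and `y` solve
`g''' = (K - 3 y²) g' + (K' - 3 y y') g`, and `y G_s' - y' G_s = exp (i s θ)`.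
-/

set_option autoImplicit false
set_option linter.unusedSimpArgs false
set_option linter.unusedVariables false

open Set Filter Topology Metric

noncomputable section

namespace Crest.Agent.R102.OS350

/-- an entire mirror -/
structure Mir (θ H K : ℂ → ℂ) : Prop where
  θd : Differentiable ℂ θ
  Hd : Differentiable ℂ H
  Kd : Differentiable ℂ K
  rel : ∀ z, deriv θ z * deriv (deriv H) z - deriv (deriv θ) z * deriv H z +
    deriv θ z ^ 3 * H z = -1
  hK : ∀ z, deriv (deriv (deriv θ)) z = (K z - 2 * deriv θ z ^ 2) * deriv θ z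

variable {θ H K : ℂ → ℂ}

lemma diff_deriv {f : ℂ → ℂ} (hf : Differentiable ℂ f) : Differentiable ℂ (deriv f) := by
  rw [← differentiableOn_univ] at hf ⊢
  exact hf.deriv isOpen_univ

/-- a triple `(g, g', g'')` solving the third order equation -/
structure Sol (θ K : ℂ → ℂ) (g g1 g2 : ℂ → ℂ) : Prop where
  d0 : ∀ z, HasDerivAt g (g1 z) z
  d1 : ∀ z, HasDerivAt g1 (g2 z) z
  d2 : ∀ z, HasDerivAt g2 ((K z - 3 * deriv θ z ^ 2) * g1 z +
    (deriv K z - 3 * deriv θ z * deriv (deriv θ) z) * g z) z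

lemma Mir.dy (h : Mir θ H K) (z : ℂ) : HasDerivAt (deriv θ) (deriv (deriv θ) z) z :=
  (diff_deriv h.θd z).hasDerivAt















end Crest.Agent.R102.OS350
end
end

-- ▼ part R102/Mir_151

/-!
# Row 102, T1-E, leaf MIR (helper151)

`DataE` and `¬ Concl` give an entire mirror `OS350.Mir θ H K` with all its symmetries,
`G = K - 2 y²` entire with `y'' = G y`, `y > 0` on the real line, `K` not constant.
-/

set_option autoImplicit false

noncomputable section

open Filter Topology Set
open scoped ComplexConjugate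

namespace Crest.Agent.R102.Mir151

open Crest.Agent.R102.T5 Crest.Agent.R102.G576 Crest.Agent.R102.A929 Crest.Agent.R102.B821
open Crest.Agent.R102.C0 Crest.Agent.R102.C1 Crest.Agent.R102.Spine

variable {q : C(ℂ, ℂ)} {η : ℝ} {θ H : ℂ → ℂ}

/-- the entire mirror of Case E and its symmetries -/
structure MirE (q : C(ℂ, ℂ)) (η : ℝ) (θ H K G : ℂ → ℂ) : Prop where
  mir : OS350.Mir θ H K
  Gd : Differentiable ℂ G
  G_eq : ∀ z, G z = K z - 2 * deriv θ z ^ 2
  hG : ∀ z, deriv (deriv (deriv θ)) z = G z * deriv θ z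
  θper : ∀ z, θ (z + 1) = θ z + 2 * Real.pi
  Hper : ∀ z, H (z + 1) = H z
  yper : ∀ z, deriv θ (z + 1) = deriv θ z
  Kper : ∀ z, K (z + 1) = K z
  Gper : ∀ z, G (z + 1) = G z
  θconj : ∀ z, θ (conj z) = conj (θ z)
  Hconj : ∀ z, H (conj z) = conj (H z)
  yconj : ∀ z, deriv θ (conj z) = conj (deriv θ z)
  Kconj : ∀ z, K (conj z) = conj (K z)
  Gconj : ∀ z, G (conj z) = conj (G z)
  y_str : ∀ z ∈ Str η, deriv θ z = Complex.exp (q z)
  y_real : ∀ x : ℝ, deriv θ x = ((Real.exp (qr q x) : ℝ) : ℂ)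
  y_pos : ∀ x : ℝ, 0 < (deriv θ x).re ∧ (deriv θ x).im = 0
  simple : ∀ z, deriv θ z = 0 → deriv (deriv θ) z ≠ 0 ∧ deriv H z ≠ 0
  K_nc : ¬ ∃ c : ℂ, ∀ z, K z = c

lemma ext_strip (hE : VExt q η univ θ H) {h : ℝ} (hη : η ≤ h) : VExt q η (Str h) θ H :=
  ⟨isOpen_Str h, (str_conv h).isPreconnected, str_mono hη, hE.θ_diff.mono (subset_univ _),
    hE.H_diff.mono (subset_univ _), hE.θ_eq, hE.H_eq⟩

lemma mem_big (η : ℝ) (z : ℂ) : z ∈ Str (max η (|z.im| + 1)) := by
  have : |z.im| < max η (|z.im| + 1) := lt_of_lt_of_le (lt_add_one _) (le_max_right _ _)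
  exact this

lemma per (hD : Datum q η) (hE : VExt q η univ θ H) (z : ℂ) :
    θ (z + 1) = θ z + 2 * Real.pi ∧ H (z + 1) = H z :=
  ext_per hD (le_max_left _ _) (ext_strip hE (le_max_left _ _)) (mem_big η z)

lemma cj (hD : Datum q η) (hE : VExt q η univ θ H) (z : ℂ) :
    θ (conj z) = conj (θ z) ∧ H (conj z) = conj (H z) :=
  ext_conj hD (le_max_left _ _) (ext_strip hE (le_max_left _ _)) (mem_big η z)

/-- derivative of a real function is real -/
lemma deriv_conj_of {f : ℂ → ℂ} (hf : Differentiable ℂ f) (h : ∀ z, f (conj z) = conj (f z))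
    (z : ℂ) : deriv f (conj z) = conj (deriv f z) := by
  have h1 : HasDerivAt f (deriv f z) z := (hf z).hasDerivAt
  have h3 := h1.conj_conj
  have h4 : (fun w => conj (f (conj w))) = f := by
    funext w
    rw [h, starRingEnd_self_apply]
  have h5 : HasDerivAt f (conj (deriv f z)) (conj z) := by
    have h6 : (starRingEnd ℂ ∘ f ∘ starRingEnd ℂ) = f := by
      funext w
      simp only [Function.comp_apply]
      rw [h, starRingEnd_self_apply]
    rw [h6] at h3
    exact h3
  exact h5.deriv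

/-- derivative of a function with `f (z + 1) = f z + c` -/
lemma deriv_per_of {f : ℂ → ℂ} {c : ℂ} (h : ∀ z, f (z + 1) = f z + c) (z : ℂ) :
    deriv f (z + 1) = deriv f z := by
  have h1 : (fun z => f (z + 1)) = fun z => f z + c := funext h
  have h2 : deriv (fun z => f (z + 1)) z = deriv (fun z => f z + c) z := by rw [h1]
  rwa [deriv_comp_add_const, deriv_add_const] at h2

/-- `G = y''/y` -/
def Gq (θ H : ℂ → ℂ) (z : ℂ) : ℂ := by
  classical
  exact if deriv θ z = 0 then (deriv (deriv (deriv H)) z +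
    3 * deriv θ z * deriv (deriv θ) z * H z + deriv θ z ^ 2 * deriv H z) / deriv H z
  else deriv (deriv (deriv θ)) z / deriv θ z

/-- **MIR** -/
theorem mirE (hD : Datum q η) (hE : VExt q η univ θ H) (hc : ¬ Concl q) :
    ∃ K G : ℂ → ℂ, MirE q η θ H K G := by
  have hθ : Differentiable ℂ θ := differentiableOn_univ.1 hE.θ_diff
  have hH : Differentiable ℂ H := differentiableOn_univ.1 hE.H_diff
  have hy := OS350.diff_deriv hθ
  have hy1 := OS350.diff_deriv hy
  have hy2 := OS350.diff_deriv hy1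
  have hH1 := OS350.diff_deriv hH
  have hH2 := OS350.diff_deriv hH1
  have hH3 := OS350.diff_deriv hH2
  obtain ⟨hrel, hzero⟩ := ZeroY478.zeroY q η univ θ H hD hE
  have hrel' : ∀ z, deriv θ z * (deriv (deriv (deriv H)) z +
      3 * deriv θ z * deriv (deriv θ) z * H z + deriv θ z ^ 2 * deriv H z) =
      deriv (deriv (deriv θ)) z * deriv H z := by
    intro z
    have h := T7M.rel_deriv isOpen_univ hy.differentiableOn hE.H_diff (c := -1) (fun x hx => by
      have := hrel x hx
      linear_combination this) z (mem_univ z)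
    have e1 : T7M.d2 (deriv θ) z = deriv (deriv (deriv θ)) z := rfl
    have e2 : deriv (T7M.d2 H) z = deriv (deriv (deriv H)) z := rfl
    rw [e1, e2] at h
    linear_combination h
  set G : ℂ → ℂ := Gq θ H with hGdef
  have hG0 : ∀ z, deriv θ z ≠ 0 → G z = deriv (deriv (deriv θ)) z / deriv θ z := by
    intro z hz
    simp only [hGdef, Gq, if_neg hz]
  have hG1 : ∀ z, deriv H z ≠ 0 → G z = (deriv (deriv (deriv H)) z +
      3 * deriv θ z * deriv (deriv θ) z * H z + deriv θ z ^ 2 * deriv H z) / deriv H z := by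
    intro z hz
    by_cases h : deriv θ z = 0
    · simp only [hGdef, Gq, if_pos h]
    · rw [hG0 z h, div_eq_div_iff h hz]
      linear_combination -hrel' z
  have hGd : Differentiable ℂ G := by
    intro z
    by_cases h : deriv θ z = 0
    · have h1 := (hzero z (mem_univ z) h).2.2
      have h2 : ∀ᶠ x in 𝓝 z, deriv H x ≠ 0 := hH1.continuous.continuousAt.eventually_ne h1
      have h3 : G =ᶠ[𝓝 z] fun z => (deriv (deriv (deriv H)) z +
          3 * deriv θ z * deriv (deriv θ) z * H z + deriv θ z ^ 2 * deriv H z) / deriv H z := by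
        filter_upwards [h2] with x hx using hG1 x hx
      refine DifferentiableAt.congr_of_eventuallyEq ?_ h3
      refine DifferentiableAt.div ?_ (hH1 z) h1
      exact ((hH3 z).add ((((hy z).const_mul 3).mul (hy1 z)).mul (hH z))).add
        (((hy z).pow 2).mul (hH1 z))
    · have h2 : ∀ᶠ x in 𝓝 z, deriv θ x ≠ 0 := hy.continuous.continuousAt.eventually_ne h
      have h3 : G =ᶠ[𝓝 z] fun z => deriv (deriv (deriv θ)) z / deriv θ z := by
        filter_upwards [h2] with x hx using hG0 x hx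
      exact DifferentiableAt.congr_of_eventuallyEq ((hy2 z).div (hy z) h) h3
  have hGy : ∀ z, deriv (deriv (deriv θ)) z = G z * deriv θ z := by
    intro z
    by_cases h : deriv θ z = 0
    · rw [h, mul_zero]
      exact (hzero z (mem_univ z) h).2.1
    · rw [hG0 z h, div_mul_cancel₀ _ h]
  set K : ℂ → ℂ := fun z => G z + 2 * deriv θ z ^ 2 with hKdef
  have hKd : Differentiable ℂ K := hGd.add ((hy.pow 2).const_mul 2)
  have hθp : ∀ z, θ (z + 1) = θ z + 2 * Real.pi := fun z => (per hD hE z).1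
  have hHp : ∀ z, H (z + 1) = H z := fun z => (per hD hE z).2
  have hyp : ∀ z, deriv θ (z + 1) = deriv θ z := fun z => deriv_per_of hθp z
  have hy1p : ∀ z, deriv (deriv θ) (z + 1) = deriv (deriv θ) z := fun z =>
    deriv_per_of (c := 0) (fun z => by rw [hyp z, add_zero]) z
  have hy2p : ∀ z, deriv (deriv (deriv θ)) (z + 1) = deriv (deriv (deriv θ)) z := fun z =>
    deriv_per_of (c := 0) (fun z => by rw [hy1p z, add_zero]) z
  have hH1p : ∀ z, deriv H (z + 1) = deriv H z := fun z =>
    deriv_per_of (c := 0) (fun z => by rw [hHp z, add_zero]) z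
  have hH2p : ∀ z, deriv (deriv H) (z + 1) = deriv (deriv H) z := fun z =>
    deriv_per_of (c := 0) (fun z => by rw [hH1p z, add_zero]) z
  have hH3p : ∀ z, deriv (deriv (deriv H)) (z + 1) = deriv (deriv (deriv H)) z := fun z =>
    deriv_per_of (c := 0) (fun z => by rw [hH2p z, add_zero]) z
  have hGp : ∀ z, G (z + 1) = G z := by
    intro z
    simp only [hGdef, Gq, hyp, hy1p, hy2p, hH1p, hH3p, hHp]
  have hθc : ∀ z, θ (conj z) = conj (θ z) := fun z => (cj hD hE z).1
  have hHc : ∀ z, H (conj z) = conj (H z) := fun z => (cj hD hE z).2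
  have hyc := deriv_conj_of hθ hθc
  have hy1c := deriv_conj_of hy hyc
  have hy2c := deriv_conj_of hy1 hy1c
  have hH1c := deriv_conj_of hH hHc
  have hH2c := deriv_conj_of hH1 hH1c
  have hH3c := deriv_conj_of hH2 hH2c
  have hGc : ∀ z, G (conj z) = conj (G z) := by
    intro z
    by_cases h : deriv θ z = 0
    · have h1 := (hzero z (mem_univ z) h).2.2
      have h2 : deriv H (conj z) ≠ 0 := by
        rw [hH1c]
        exact (map_ne_zero _).2 h1
      rw [hG1 z h1, hG1 _ h2, hyc, hy1c, hH1c, hH3c, hHc]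
      simp only [map_div₀, map_add, map_mul, map_pow, map_ofNat]
    · have h2 : deriv θ (conj z) ≠ 0 := by
        rw [hyc]
        exact (map_ne_zero _).2 h
      rw [hG0 z h, hG0 _ h2, hyc, hy2c, map_div₀]
  have hystr : ∀ z ∈ Str η, deriv θ z = Complex.exp (q z) := by
    intro z hz
    have h1 : θ =ᶠ[𝓝 z] Tc q := by
      filter_upwards [(isOpen_Str η).mem_nhds hz] with x hx using hE.θ_eq x hx
    rw [h1.deriv_eq]
    exact (hD.hasDerivAt_Tc hz).deriv
  have hyr : ∀ x : ℝ, deriv θ x = ((Real.exp (qr q x) : ℝ) : ℂ) := by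
    intro x
    rw [hystr x (real_mem_Str hD.η_pos x), hD.q_real, ← Complex.ofReal_exp]
  have hKc : ∀ z, K (conj z) = conj (K z) := by
    intro z
    simp only [hKdef, hGc, hyc, map_add, map_mul, map_pow, map_ofNat]
  refine ⟨K, G, ⟨⟨hθ, hH, hKd, fun z => hrel z (mem_univ z), fun z => ?_⟩, hGd, fun z => ?_, hGy,
    hθp, hHp, hyp, fun z => ?_, hGp, hθc, hHc, hyc, hKc, hGc, hystr, hyr, fun x => ?_,
    fun z hz => ⟨(hzero z (mem_univ z) hz).1, (hzero z (mem_univ z) hz).2.2⟩, ?_⟩⟩
  · rw [hGy z]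
    simp only [hKdef]
    ring
  · simp only [hKdef]
    ring
  · simp only [hKdef, hGp, hyp]
  · rw [hyr x, Complex.ofReal_re, Complex.ofReal_im]
    exact ⟨Real.exp_pos _, rfl⟩
  · rintro ⟨c, hcc⟩
    apply hc
    have h1 : conj c = c := by
      have h2 := hKc 0
      rw [hcc, hcc] at h2
      exact h2.symm
    have h3 : ((c.re : ℝ) : ℂ) = c := Complex.conj_eq_iff_re.1 h1
    refine concl_of hD (subset_univ _) hE.θ_eq (k := c.re) ?_
    intro z _
    have e1 : T7M.d2 (deriv θ) z = deriv (deriv (deriv θ)) z := rfl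
    rw [e1, hGy z, h3, ← hcc z]
    simp only [hKdef]
    ring

/-- **MIR**, for the data of Case E -/
theorem mir {ρ r B : ℝ} {b φ p : ℂ × ℂ → ℂ} {m₀ : ℂ → ℂ}
    (h : DataE q η ρ r B b φ p m₀ θ H) (hc : ¬ Concl q) : ∃ K G : ℂ → ℂ, MirE q η θ H K G :=
  mirE h.fam.dat h.ext hc

end Crest.Agent.R102.Mir151
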