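import Mathlib
import Crest.Agent.R102.GrowthDefs_314
import Crest.Agent.R102.Mir_151

/-!
# Row 102, block GROWTH, leaf MIRS (helper151)

The mirror of Case B on the strip `Str h0` with its symmetries.
-/

set_option autoImplicit false

noncomputable section

open Filter Topology Set
open scoped ComplexConjugate

namespace Crest.Agent.R102.MirS151

open Crest.Agent.R102.T5 Crest.Agent.R102.G576 Crest.Agent.R102.A929 Crest.Agent.R102.B821
open Crest.Agent.R102.C0 Crest.Agent.R102.C1 Crest.Agent.R102.Spine Crest.Agent.R102.Growth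
open Crest.Agent.R102.Mir151 (Gq)

variable {q : C(ℂ, ℂ)} {η h0 : ℝ} {θ H : ℂ → ℂ}

lemma deriv_per_on {f : ℂ → ℂ} {c : ℂ} {V : Set ℂ} (hV : IsOpen V)
    (h : ∀ z ∈ V, f (z + 1) = f z + c) : ∀ z ∈ V, deriv f (z + 1) = deriv f z := by
  intro z hz
  have h1 : (fun z => f (z + 1)) =ᶠ[𝓝 z] fun z => f z + c := by
    filter_upwards [hV.mem_nhds hz] with x hx using h x hx
  have h2 := h1.deriv_eq
  rwa [deriv_comp_add_const, deriv_add_const] at h2

lemma deriv_conj_on {f : ℂ → ℂ} {V : Set ℂ} (hV : IsOpen V) (hc : ∀ z ∈ V, conj z ∈ V)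
    (hf : DifferentiableOn ℂ f V) (h : ∀ z ∈ V, f (conj z) = conj (f z)) :
    ∀ z ∈ V, deriv f (conj z) = conj (deriv f z) := by
  intro z hz
  have h1 : HasDerivAt f (deriv f z) z := (hf.differentiableAt (hV.mem_nhds hz)).hasDerivAt
  have h3 := h1.conj_conj
  have h5 : f =ᶠ[𝓝 (conj z)] (starRingEnd ℂ ∘ f ∘ starRingEnd ℂ) := by
    filter_upwards [hV.mem_nhds (hc z hz)] with x hx
    have h6 := h (conj x) (hc x hx)
    rw [starRingEnd_self_apply] at h6
    exact h6
  exact (h3.congr_of_eventuallyEq h5).deriv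

/-- **MIRS** -/
theorem mirS : MIRS := by
  intro q η ρ r B b φ p m₀ θ H h0 hdat
  obtain ⟨hL, hη, hV⟩ := hdat
  have hD := hL.dat
  have hVo : IsOpen (Str h0) := isOpen_Str h0
  have hθ : DifferentiableOn ℂ θ (Str h0) := hV.θ_diff
  have hH : DifferentiableOn ℂ H (Str h0) := hV.H_diff
  have hy := hθ.deriv hVo
  have hy1 := hy.deriv hVo
  have hy2 := hy1.deriv hVo
  have hH1 := hH.deriv hVo
  have hH2 := hH1.deriv hVo
  have hH3 := hH2.deriv hVo
  obtain ⟨hrel, hzero⟩ := ZeroY478.zeroY q η (Str h0) θ H hD hV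
  have hrel' : ∀ z ∈ Str h0, deriv θ z * (deriv (deriv (deriv H)) z +
      3 * deriv θ z * deriv (deriv θ) z * H z + deriv θ z ^ 2 * deriv H z) =
      deriv (deriv (deriv θ)) z * deriv H z := by
    intro z hz
    have h := T7M.rel_deriv hVo hy hH (c := -1) (fun x hx => by
      have := hrel x hx
      linear_combination this) z hz
    have e1 : T7M.d2 (deriv θ) z = deriv (deriv (deriv θ)) z := rfl
    have e2 : deriv (T7M.d2 H) z = deriv (deriv (deriv H)) z := rfl
    rw [e1, e2] at h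
    linear_combination h
  set G : ℂ → ℂ := Gq θ H with hGdef
  have hG0 : ∀ z, deriv θ z ≠ 0 → G z = deriv (deriv (deriv θ)) z / deriv θ z := by
    intro z hz
    simp only [hGdef, Gq, if_neg hz]
  have hG1 : ∀ z ∈ Str h0, deriv H z ≠ 0 → G z = (deriv (deriv (deriv H)) z +
      3 * deriv θ z * deriv (deriv θ) z * H z + deriv θ z ^ 2 * deriv H z) / deriv H z := by
    intro z hz0 hz
    by_cases h : deriv θ z = 0
    · simp only [hGdef, Gq, if_pos h]
    · rw [hG0 z h, div_eq_div_iff h hz]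
      linear_combination -hrel' z hz0
  have cont : ∀ {f : ℂ → ℂ}, DifferentiableOn ℂ f (Str h0) → ∀ z ∈ Str h0, ContinuousAt f z :=
    fun hf z hz => (hf.differentiableAt (hVo.mem_nhds hz)).continuousAt
  have dat : ∀ {f : ℂ → ℂ}, DifferentiableOn ℂ f (Str h0) → ∀ z ∈ Str h0,
      DifferentiableAt ℂ f z := fun hf z hz => hf.differentiableAt (hVo.mem_nhds hz)
  have hGd : DifferentiableOn ℂ G (Str h0) := by
    intro z hz
    refine DifferentiableAt.differentiableWithinAt ?_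
    by_cases h : deriv θ z = 0
    · have h1 := (hzero z hz h).2.2
      have h2 : ∀ᶠ x in 𝓝 z, deriv H x ≠ 0 := (cont hH1 z hz).eventually_ne h1
      have h3 : G =ᶠ[𝓝 z] fun z => (deriv (deriv (deriv H)) z +
          3 * deriv θ z * deriv (deriv θ) z * H z + deriv θ z ^ 2 * deriv H z) / deriv H z := by
        filter_upwards [h2, hVo.mem_nhds hz] with x hx hx2 using hG1 x hx2 hx
      refine DifferentiableAt.congr_of_eventuallyEq ?_ h3
      refine DifferentiableAt.div ?_ (dat hH1 z hz) h1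
      exact ((dat hH3 z hz).add ((((dat hy z hz).const_mul 3).mul (dat hy1 z hz)).mul
        (dat hH z hz))).add (((dat hy z hz).pow 2).mul (dat hH1 z hz))
    · have h2 : ∀ᶠ x in 𝓝 z, deriv θ x ≠ 0 := (cont hy z hz).eventually_ne h
      have h3 : G =ᶠ[𝓝 z] fun z => deriv (deriv (deriv θ)) z / deriv θ z := by
        filter_upwards [h2] with x hx using hG0 x hx
      exact DifferentiableAt.congr_of_eventuallyEq ((dat hy2 z hz).div (dat hy z hz) h) h3
  have hGy : ∀ z ∈ Str h0, deriv (deriv (deriv θ)) z = G z * deriv θ z := by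
    intro z hz
    by_cases h : deriv θ z = 0
    · rw [h, mul_zero]
      exact (hzero z hz h).2.1
    · rw [hG0 z h, div_mul_cancel₀ _ h]
  set K : ℂ → ℂ := fun z => G z + 2 * deriv θ z ^ 2 with hKdef
  have hKd : DifferentiableOn ℂ K (Str h0) := hGd.add ((hy.pow 2).const_mul 2)
  have hm : ∀ z ∈ Str h0, z + 1 ∈ Str h0 := fun z hz => add_one_mem_Str hz
  have hcj : ∀ z ∈ Str h0, conj z ∈ Str h0 := fun z hz => conj_mem_Str hz
  have hθp : ∀ z ∈ Str h0, θ (z + 1) = θ z + 2 * Real.pi := fun z hz =>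
    (ext_per hD hη hV hz).1
  have hHp : ∀ z ∈ Str h0, H (z + 1) = H z := fun z hz => (ext_per hD hη hV hz).2
  have p0 : ∀ {f : ℂ → ℂ}, (∀ z ∈ Str h0, f (z + 1) = f z) →
      ∀ z ∈ Str h0, deriv f (z + 1) = deriv f z := fun h =>
    deriv_per_on hVo (c := 0) (fun z hz => by rw [h z hz, add_zero])
  have hyp : ∀ z ∈ Str h0, deriv θ (z + 1) = deriv θ z := deriv_per_on hVo hθp
  have hy1p := p0 hyp
  have hy2p := p0 hy1p
  have hH1p := p0 hHp
  have hH2p := p0 hH1p
  have hH3p := p0 hH2p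
  have hGp : ∀ z ∈ Str h0, G (z + 1) = G z := by
    intro z hz
    simp only [hGdef, Gq, hyp z hz, hy1p z hz, hy2p z hz, hH1p z hz, hH3p z hz, hHp z hz]
  have hθc : ∀ z ∈ Str h0, θ (conj z) = conj (θ z) := fun z hz => (ext_conj hD hη hV hz).1
  have hHc : ∀ z ∈ Str h0, H (conj z) = conj (H z) := fun z hz => (ext_conj hD hη hV hz).2
  have hyc := deriv_conj_on hVo hcj hθ hθc
  have hy1c := deriv_conj_on hVo hcj hy hyc
  have hy2c := deriv_conj_on hVo hcj hy1 hy1c
  have hH1c := deriv_conj_on hVo hcj hH hHc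
  have hH2c := deriv_conj_on hVo hcj hH1 hH1c
  have hH3c := deriv_conj_on hVo hcj hH2 hH2c
  have hGc : ∀ z ∈ Str h0, G (conj z) = conj (G z) := by
    intro z hz
    have hz' := hcj z hz
    by_cases h : deriv θ z = 0
    · have h1 := (hzero z hz h).2.2
      have h2 : deriv H (conj z) ≠ 0 := by
        rw [hH1c z hz]
        exact (map_ne_zero _).2 h1
      rw [hG1 z hz h1, hG1 _ hz' h2, hyc z hz, hy1c z hz, hH1c z hz, hH3c z hz, hHc z hz]
      simp only [map_div₀, map_add, map_mul, map_pow, map_ofNat]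
    · have h2 : deriv θ (conj z) ≠ 0 := by
        rw [hyc z hz]
        exact (map_ne_zero _).2 h
      rw [hG0 z h, hG0 _ h2, hyc z hz, hy2c z hz, map_div₀]
  have hyr : ∀ x : ℝ, deriv θ x = ((Real.exp (qr q x) : ℝ) : ℂ) := by
    intro x
    have hz : (x : ℂ) ∈ Str η := real_mem_Str hD.η_pos x
    have h1 : θ =ᶠ[𝓝 (x : ℂ)] Tc q := by
      filter_upwards [(isOpen_Str η).mem_nhds hz] with w hw using hV.θ_eq w hw
    rw [h1.deriv_eq, (hD.hasDerivAt_Tc hz).deriv, hD.q_real, ← Complex.ofReal_exp]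
  refine ⟨K, G, ⟨⟨hVo, hθ, hH, hKd, hrel, fun z hz => ?_⟩, hGd, fun z => ?_, hGy, hθp, hHp, hyp,
    fun z hz => ?_, hGp, hyc, fun z hz => ?_, hGc, fun x => ?_⟩⟩
  · rw [hGy z hz]
    simp only [hKdef]
    ring
  · simp only [hKdef]
    ring
  · simp only [hKdef, hGp z hz, hyp z hz]
  · simp only [hKdef, hGc z hz, hyc z hz, map_add, map_mul, map_pow, map_ofNat]
  · rw [hyr x, Complex.ofReal_re, Complex.ofReal_im]
    exact ⟨Real.exp_pos _, rfl⟩

end Crest.Agent.R102.MirS151
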