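import Mathlib

/-!
Row 102, T1-B (K4) (helper712): a bounded lower semicontinuous function which cannot be touched
from below by `Im H + δ‖w - w2‖²` (`H` holomorphic, `δ > 0`) satisfies the comparison principle
with harmonic functions and the mean value inequality (superharmonic).
-/

set_option autoImplicit false
set_option linter.unusedSectionVars false
set_option linter.unusedVariables false

open Set Filter Topology Metric Complex MeasureTheory
open scoped Real Interval

noncomputable section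

namespace Crest.Agent.R102.SH712

/-- the local test: `R` is nowhere touched from below by `Im H + δ‖w - w2‖²` -/
def NT (R : ℂ → ℝ) (W : Set ℂ) : Prop :=
  ∀ w2 ∈ W, ∀ H : ℂ → ℂ, AnalyticAt ℂ H w2 → ∀ δ > 0,
    ¬ (R w2 = (H w2).im ∧ ∀ᶠ w in 𝓝 w2, (H w).im + δ * ‖w - w2‖ ^ 2 ≤ R w)

/-- comparison principle -/
theorem sh1 {R : ℂ → ℝ} {W : Set ℂ} (hlsc : LowerSemicontinuousOn R W) (hNT : NT R W)
    {w0 : ℂ} {ρ : ℝ} (hρ : 0 < ρ) (hsub : closedBall w0 ρ ⊆ W) {H : ℂ → ℂ}
    (hH : DiffContOnCl ℂ H (ball w0 ρ)) (hb : ∀ w ∈ sphere w0 ρ, (H w).im ≤ R w) :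
    ∀ w ∈ closedBall w0 ρ, (H w).im ≤ R w := by
  intro w1 hw1
  by_contra hcon
  push Not at hcon
  set m : ℝ := R w1 - (H w1).im with hm
  have hm0 : m < 0 := by rw [hm]; linarith
  -- choose ε
  set ε : ℝ := -m / (2 * ρ ^ 2) with hε
  have hε0 : 0 < ε := by
    rw [hε]
    have : 0 < -m := by linarith
    positivity
  have hερ : ε * ρ ^ 2 = -m / 2 := by
    rw [hε]
    field_simp
  have hHc : ContinuousOn H (closedBall w0 ρ) := by
    have := hH.2
    rwa [closure_ball w0 hρ.ne'] at this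
  -- the function to minimise
  set v : ℂ → ℝ := fun w => R w + (-(H w).im - ε * ‖w - w0‖ ^ 2) with hv
  have hvl : LowerSemicontinuousOn v (closedBall w0 ρ) := by
    refine LowerSemicontinuousOn.add (hlsc.mono hsub) ?_
    refine ContinuousOn.lowerSemicontinuousOn ?_
    have h1 : ContinuousOn (fun w => (H w).im) (closedBall w0 ρ) :=
      Complex.continuous_im.comp_continuousOn hHc
    have h2 : Continuous (fun w : ℂ => ε * ‖w - w0‖ ^ 2) := by fun_prop
    exact (h1.neg).sub h2.continuousOn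
  have hcomp : IsCompact (closedBall w0 ρ) := isCompact_closedBall w0 ρ
  obtain ⟨w2, hw2, hmin⟩ := hvl.exists_isMinOn ⟨w1, hw1⟩ hcomp
  have hv1 : v w1 ≤ m := by
    simp only [hv, hm]
    have : 0 ≤ ε * ‖w1 - w0‖ ^ 2 := by positivity
    linarith
  have hv2 : v w2 ≤ m := (hmin hw1).trans hv1
  -- the minimum is interior
  have hint : w2 ∈ ball w0 ρ := by
    by_contra hne
    have hs : w2 ∈ sphere w0 ρ := by
      rw [mem_sphere]
      rw [mem_ball] at hne
      rw [mem_closedBall] at hw2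
      linarith [not_lt.1 hne]
    have h1 := hb w2 hs
    have h2 : ‖w2 - w0‖ = ρ := by simpa [dist_eq_norm] using hs
    have h3 : v w2 = R w2 - (H w2).im - ε * ρ ^ 2 := by
      simp only [hv, h2]; ring
    rw [h3, hερ] at hv2
    linarith
  have han : AnalyticAt ℂ H w2 :=
    hH.differentiableOn.analyticAt (isOpen_ball.mem_nhds hint)
  set H2 : ℂ → ℂ := fun w => H w + (((R w2 - (H w2).im : ℝ) : ℂ) * I +
    2 * ε * I * ((w - w2) * (starRingEnd ℂ) (w2 - w0))) with hH2
  have han2 : AnalyticAt ℂ H2 w2 := by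
    refine han.fun_add ?_
    have h1 : AnalyticAt ℂ (fun w : ℂ => w) w2 := analyticAt_id
    fun_prop
  refine hNT w2 (hsub hw2) H2 han2 ε hε0 ⟨?_, ?_⟩
  · simp [hH2]
  · filter_upwards [isOpen_ball.mem_nhds hint] with w hw
    have h4 : v w2 ≤ v w := hmin (ball_subset_closedBall hw)
    simp only [hv] at h4
    have h5 : (H2 w).im = (H w).im + (R w2 - (H w2).im) +
        2 * ε * ((w - w2) * (starRingEnd ℂ) (w2 - w0)).re := by
      simp only [hH2, add_im, mul_im, ofReal_re, ofReal_im, I_re, I_im, mul_re]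
      norm_num
      ring
    have h6 : ‖w - w0‖ ^ 2 = ‖w2 - w0‖ ^ 2 +
        2 * ((w - w2) * (starRingEnd ℂ) (w2 - w0)).re + ‖w - w2‖ ^ 2 := by
      rw [← Complex.normSq_eq_norm_sq, ← Complex.normSq_eq_norm_sq, ← Complex.normSq_eq_norm_sq]
      have : w - w0 = (w - w2) + (w2 - w0) := by ring
      rw [this, Complex.normSq_add]
      ring
    rw [h5]
    rw [h6] at h4
    nlinarith [h4]

/-- trigonometric polynomials: real and imaginary parts are imaginary parts of entire functions -/
theorem trig_span (w0 : ℂ) {ρ : ℝ} (hρ : 0 < ρ) (P : C(AddCircle (2 * π), ℂ))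
    (hP : P ∈ Submodule.span ℂ (range (@fourier (2 * π)))) :
    ∃ H1 H2 : ℂ → ℂ, Differentiable ℂ H1 ∧ Differentiable ℂ H2 ∧ ∀ θ : ℝ,
      (P (θ : AddCircle (2 * π))).re = (H1 (circleMap w0 ρ θ)).im ∧
      (P (θ : AddCircle (2 * π))).im = (H2 (circleMap w0 ρ θ)).im := by
  induction hP using Submodule.span_induction with
  | mem x hx =>
    obtain ⟨n, rfl⟩ := hx
    have hval : ∀ θ : ℝ, (fourier n (θ : AddCircle (2 * π)) : ℂ) = exp (n * θ * I) := by
      intro θ
      rw [fourier_coe_apply]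
      congr 1
      have : (π : ℂ) ≠ 0 := by exact_mod_cast Real.pi_ne_zero
      push_cast
      field_simp
    have hcm : ∀ θ : ℝ, (circleMap w0 ρ θ - w0) / ρ = exp (θ * I) := by
      intro θ
      have : (ρ : ℂ) ≠ 0 := by exact_mod_cast hρ.ne'
      simp only [circleMap, add_sub_cancel_left]
      field_simp
    rcases Int.le_total 0 n with hn | hn
    · obtain ⟨k, rfl⟩ := Int.eq_ofNat_of_zero_le hn
      refine ⟨fun w => I * ((w - w0) / ρ) ^ k, fun w => ((w - w0) / ρ) ^ k, by fun_prop,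
        by fun_prop, fun θ => ?_⟩
      have h1 : exp (((k : ℤ) : ℂ) * θ * I) = exp (θ * I) ^ k := by
        rw [← Complex.exp_nat_mul]
        congr 1
        push_cast
        ring
      rw [hval θ, h1]
      simp only [hcm θ]
      generalize exp (θ * I) ^ k = z
      exact ⟨by simp, by simp⟩
    · obtain ⟨k, hk⟩ := Int.eq_ofNat_of_zero_le (a := -n) (by omega)
      have hn' : n = -(k : ℤ) := by omega
      subst hn'
      refine ⟨fun w => I * ((w - w0) / ρ) ^ k, fun w => -(((w - w0) / ρ) ^ k), by fun_prop,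
        by fun_prop, fun θ => ?_⟩
      have h1 : exp (((-(k : ℤ) : ℤ) : ℂ) * θ * I) = (starRingEnd ℂ) (exp (θ * I) ^ k) := by
        rw [map_pow, ← Complex.exp_conj, ← Complex.exp_nat_mul]
        congr 1
        simp only [map_mul, Complex.conj_ofReal, Complex.conj_I]
        push_cast
        ring
      rw [hval θ, h1]
      simp only [hcm θ]
      generalize exp (θ * I) ^ k = z
      exact ⟨by simp, by simp⟩
  | zero => exact ⟨0, 0, by fun_prop, by fun_prop, fun θ => by simp⟩
  | add x y _ _ hx hy =>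
    obtain ⟨A1, A2, hA1, hA2, hA⟩ := hx
    obtain ⟨B1, B2, hB1, hB2, hB⟩ := hy
    refine ⟨fun w => A1 w + B1 w, fun w => A2 w + B2 w, by fun_prop, by fun_prop, fun θ => ?_⟩
    obtain ⟨a1, a2⟩ := hA θ
    obtain ⟨b1, b2⟩ := hB θ
    simp only [ContinuousMap.add_apply, add_re, add_im, a1, a2, b1, b2, and_self]
  | smul a x _ hx =>
    obtain ⟨A1, A2, hA1, hA2, hA⟩ := hx
    refine ⟨fun w => (a.re : ℂ) * A1 w - (a.im : ℂ) * A2 w,
      fun w => (a.re : ℂ) * A2 w + (a.im : ℂ) * A1 w, by fun_prop, by fun_prop, fun θ => ?_⟩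
    obtain ⟨a1, a2⟩ := hA θ
    simp only [ContinuousMap.smul_apply, smul_eq_mul, mul_re, mul_im, sub_im, add_im, a1, a2,
      ofReal_re, ofReal_im, zero_mul, add_zero, and_self]

/-- continuous `2π`-periodic functions are uniformly approximated by imaginary parts of entire
functions on the circle -/
theorem approx (w0 : ℂ) {ρ : ℝ} (hρ : 0 < ρ) {f : ℝ → ℝ} (hf : Continuous f)
    (hper : Function.Periodic f (2 * π)) {ε : ℝ} (hε : 0 < ε) :
    ∃ H : ℂ → ℂ, Differentiable ℂ H ∧ ∀ θ : ℝ, |f θ - (H (circleMap w0 ρ θ)).im| ≤ ε := by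
  have : Fact (0 < 2 * π) := ⟨by positivity⟩
  -- lift to the circle
  set g : AddCircle (2 * π) → ℂ := fun x => ((hper.lift x : ℝ) : ℂ) with hg
  have hgc : Continuous g := by
    refine Complex.continuous_ofReal.comp ?_
    have hq : Topology.IsQuotientMap ((↑) : ℝ → AddCircle (2 * π)) :=
      QuotientAddGroup.isQuotientMap_mk _
    rw [hq.continuous_iff]
    exact hf
  set G : C(AddCircle (2 * π), ℂ) := ⟨g, hgc⟩ with hG
  have hmem : G ∈ (Submodule.span ℂ (range (@fourier (2 * π)))).topologicalClosure := by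
    rw [span_fourier_closure_eq_top]
    trivial
  have hmem' : G ∈ closure (Submodule.span ℂ (range (@fourier (2 * π))) :
      Set C(AddCircle (2 * π), ℂ)) := hmem
  obtain ⟨P, hP, hdist⟩ := Metric.mem_closure_iff.1 hmem' ε hε
  obtain ⟨H1, H2, hH1, hH2, hH⟩ := trig_span w0 hρ P hP
  refine ⟨H1, hH1, fun θ => ?_⟩
  have h1 : ‖G (θ : AddCircle (2 * π)) - P (θ : AddCircle (2 * π))‖ ≤ ε := by
    rw [← dist_eq_norm]
    exact (ContinuousMap.dist_apply_le_dist _).trans hdist.le
  have h2 : f θ - (H1 (circleMap w0 ρ θ)).im =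
      (G (θ : AddCircle (2 * π)) - P (θ : AddCircle (2 * π))).re := by
    rw [sub_re, (hH θ).1]
    rfl
  rw [h2]
  exact (Complex.abs_re_le_norm _).trans h1

/-- the inf-convolution -/
def ic (r : ℝ → ℝ) (n : ℕ) (θ : ℝ) : ℝ := ⨅ s : ℝ, (r s + n * |θ - s|)

section IC
variable {r : ℝ → ℝ} {M : ℝ}

theorem ic_bdd (hM : ∀ s, |r s| ≤ M) (n : ℕ) (θ : ℝ) :
    BddBelow (range fun s : ℝ => r s + n * |θ - s|) := by
  refine ⟨-M, ?_⟩
  rintro _ ⟨s, rfl⟩
  have h1 := (abs_le.1 (hM s)).1
  have h2 : 0 ≤ (n : ℝ) * |θ - s| := by positivity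
  simp only
  linarith

theorem ic_le (hM : ∀ s, |r s| ≤ M) (n : ℕ) (θ : ℝ) : ic r n θ ≤ r θ := by
  have h := ciInf_le (ic_bdd hM n θ) θ
  simpa [ic] using h

theorem le_ic (hM : ∀ s, |r s| ≤ M) (n : ℕ) (θ : ℝ) : -M ≤ ic r n θ := by
  refine le_ciInf (fun s => ?_)
  have h1 := (abs_le.1 (hM s)).1
  have h2 : 0 ≤ (n : ℝ) * |θ - s| := by positivity
  linarith

theorem ic_lip (hM : ∀ s, |r s| ≤ M) (n : ℕ) (θ θ' : ℝ) : ic r n θ ≤ ic r n θ' + n * |θ - θ'| := by
  have h : ic r n θ - n * |θ - θ'| ≤ ic r n θ' := by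
    refine le_ciInf (fun s => ?_)
    have h1 := ciInf_le (ic_bdd hM n θ) s
    have h2 : |θ - s| ≤ |θ - θ'| + |θ' - s| := by
      have := abs_add_le (θ - θ') (θ' - s)
      simpa using this
    have h3 : (n : ℝ) * |θ - s| ≤ n * (|θ - θ'| + |θ' - s|) :=
      mul_le_mul_of_nonneg_left h2 (by positivity)
    simp only [ic]
    linarith
  linarith

theorem ic_cont (hM : ∀ s, |r s| ≤ M) (n : ℕ) : Continuous (ic r n) := by
  have h : LipschitzWith (n : NNReal) (ic r n) := by
    refine LipschitzWith.of_le_add_mul _ (fun x y => ?_)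
    have := ic_lip hM n x y
    simpa [Real.dist_eq] using this
  exact h.continuous

theorem ic_per {T : ℝ} (hper : Function.Periodic r T) (n : ℕ) :
    Function.Periodic (ic r n) T := by
  intro θ
  simp only [ic]
  refine (Equiv.iInf_congr (Equiv.addRight T) (fun s => ?_)).symm
  simp only [Equiv.coe_addRight]
  rw [hper s]
  congr 3
  ring

theorem ic_tendsto (hM : ∀ s, |r s| ≤ M) (hr : LowerSemicontinuous r) (θ : ℝ) :
    Tendsto (fun n : ℕ => ic r n θ) atTop (𝓝 (r θ)) := by
  rw [tendsto_order]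
  refine ⟨fun a ha => ?_, fun a ha => ?_⟩
  · -- lower bound
    obtain ⟨b, hab, hbr⟩ := exists_between ha
    have h1 := hr θ b hbr
    obtain ⟨δ, hδ, hball⟩ := Metric.eventually_nhds_iff.1 h1
    obtain ⟨N, hN⟩ := exists_nat_gt ((b + M) / δ)
    filter_upwards [eventually_ge_atTop N] with n hn
    refine lt_of_lt_of_le hab (le_ciInf (fun s => ?_))
    by_cases hs : dist s θ < δ
    · have h2 := hball hs
      have h3 : 0 ≤ (n : ℝ) * |θ - s| := by positivity
      linarith
    · push Not at hs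
      have h4 : δ ≤ |θ - s| := by
        rw [Real.dist_eq, abs_sub_comm] at hs
        exact hs
      have h5 : (b + M) < n * δ := by
        have : (b + M) / δ < n := hN.trans_le (by exact_mod_cast hn)
        rwa [div_lt_iff₀ hδ] at this
      have h6 : (n : ℝ) * δ ≤ n * |θ - s| := mul_le_mul_of_nonneg_left h4 (by positivity)
      have h7 := (abs_le.1 (hM s)).1
      linarith
  · exact Eventually.of_forall (fun n => (ic_le hM n θ).trans_lt ha)

end IC

/-- lower semicontinuity along the circle -/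
theorem lsc_circle {R : ℂ → ℝ} {W : Set ℂ} (hlsc : LowerSemicontinuousOn R W)
    {w0 : ℂ} {ρ : ℝ} (hρ : 0 < ρ) (hsub : sphere w0 ρ ⊆ W) :
    LowerSemicontinuous (fun θ : ℝ => R (circleMap w0 ρ θ)) := by
  intro θ y hy
  have hmem : ∀ s : ℝ, circleMap w0 ρ s ∈ W := fun s => hsub (circleMap_mem_sphere w0 hρ.le s)
  have h1 := hlsc (circleMap w0 ρ θ) (hmem θ) y hy
  have h2 : Tendsto (circleMap w0 ρ) (𝓝 θ) (𝓝[W] (circleMap w0 ρ θ)) :=
    tendsto_nhdsWithin_iff.2 ⟨(continuous_circleMap w0 ρ).tendsto θ,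
      Eventually.of_forall hmem⟩
  exact h2.eventually h1

/-- the circle mean of a bounded superharmonic (in the local test sense) function -/
theorem sh2 {R : ℂ → ℝ} {W : Set ℂ} (hlsc : LowerSemicontinuousOn R W) (hNT : NT R W)
    {M : ℝ} (hM : ∀ w ∈ W, |R w| ≤ M)
    {w0 : ℂ} {ρ : ℝ} (hρ : 0 < ρ) (hsub : closedBall w0 ρ ⊆ W) :
    IntervalIntegrable (fun θ : ℝ => R (circleMap w0 ρ θ)) volume 0 (2 * π) ∧
    (2 * π)⁻¹ * ∫ θ in (0:ℝ)..(2 * π), R (circleMap w0 ρ θ) ≤ R w0 := by
  have hsph : sphere w0 ρ ⊆ W := sphere_subset_closedBall.trans hsub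
  set r : ℝ → ℝ := fun θ => R (circleMap w0 ρ θ) with hr
  have hrl : LowerSemicontinuous r := lsc_circle hlsc hρ hsph
  have hrM : ∀ s, |r s| ≤ M := fun s => hM _ (hsph (circleMap_mem_sphere w0 hρ.le s))
  have hrper : Function.Periodic r (2 * π) := by
    intro θ
    simp only [hr, periodic_circleMap w0 ρ θ]
  have hπ : (0:ℝ) ≤ 2 * π := by positivity
  have hmeas : Measurable r := hrl.measurable
  have hint : IntervalIntegrable r volume 0 (2 * π) := by
    rw [intervalIntegrable_iff]
    refine Measure.integrableOn_of_bounded (M := M) ?_ hmeas.aestronglyMeasurable ?_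
    · rw [uIoc_of_le hπ]
      exact measure_Ioc_lt_top.ne
    · exact Eventually.of_forall (fun s => by simpa [Real.norm_eq_abs] using hrM s)
  refine ⟨hint, ?_⟩
  -- each inf-convolution
  have hstep : ∀ n : ℕ, (2 * π)⁻¹ * ∫ θ in (0:ℝ)..(2 * π), ic r n θ ≤ R w0 := by
    intro n
    refine le_of_forall_pos_le_add (fun ε hε => ?_)
    obtain ⟨H, hH, happ⟩ := approx w0 hρ (ic_cont hrM n) (ic_per hrper n)
      (half_pos hε)
    -- comparison for `H - i ε/2`
    have hcomp : (H w0).im - ε / 2 ≤ R w0 := by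
      have h1 := sh1 hlsc hNT hρ hsub (H := fun w => H w - ((ε / 2 : ℝ) : ℂ) * I)
        ((hH.sub (differentiable_const _)).diffContOnCl) (fun w hw => by
          obtain ⟨θ, rfl⟩ : ∃ θ : ℝ, circleMap w0 ρ θ = w := by
            have : w ∈ range (circleMap w0 ρ) := by
              rw [range_circleMap, abs_of_pos hρ]
              exact hw
            exact this
          have h2 := (abs_le.1 (happ θ)).1
          have h3 := ic_le hrM n θ
          simp only [sub_im, mul_im, ofReal_re, ofReal_im, I_re, I_im]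
          have h4 : r θ = R (circleMap w0 ρ θ) := rfl
          rw [h4] at h3
          linarith) w0 (mem_closedBall_self hρ.le)
      simpa using h1
    -- mean value of `Im H`
    have hmean : (2 * π)⁻¹ * ∫ θ in (0:ℝ)..(2 * π), (H (circleMap w0 ρ θ)).im = (H w0).im := by
      have h1 : Real.circleAverage H w0 ρ = H w0 :=
        (hH.diffContOnCl).circleAverage
      rw [Real.circleAverage_def] at h1
      have h2 := congrArg Complex.im h1
      rw [← h2]
      have h3 : (∫ θ in (0:ℝ)..(2 * π), H (circleMap w0 ρ θ)).im =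
          ∫ θ in (0:ℝ)..(2 * π), (H (circleMap w0 ρ θ)).im := by
        have h4 : IntervalIntegrable (fun θ => H (circleMap w0 ρ θ)) volume 0 (2 * π) :=
          (hH.continuous.comp (continuous_circleMap w0 ρ)).intervalIntegrable _ _
        have := ContinuousLinearMap.intervalIntegral_comp_comm Complex.imCLM h4
        simpa using this.symm
      rw [← h3]
      simp
    have hbound : ∫ θ in (0:ℝ)..(2 * π), ic r n θ ≤
        ∫ θ in (0:ℝ)..(2 * π), ((H (circleMap w0 ρ θ)).im + ε / 2) := by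
      refine intervalIntegral.integral_mono_on hπ ((ic_cont hrM n).intervalIntegrable _ _) ?_ ?_
      · refine Continuous.intervalIntegrable ?_ _ _
        exact (Complex.continuous_im.comp
          (hH.continuous.comp (continuous_circleMap w0 ρ))).add continuous_const
      · intro θ _
        have := (abs_le.1 (happ θ)).2
        linarith
    have hsum : ∫ θ in (0:ℝ)..(2 * π), ((H (circleMap w0 ρ θ)).im + ε / 2) =
        (∫ θ in (0:ℝ)..(2 * π), (H (circleMap w0 ρ θ)).im) + 2 * π * (ε / 2) := by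
      rw [intervalIntegral.integral_add]
      · simp only [intervalIntegral.integral_const, sub_zero, smul_eq_mul]
      · exact (Complex.continuous_im.comp
          (hH.continuous.comp (continuous_circleMap w0 ρ))).intervalIntegrable _ _
      · exact intervalIntegrable_const
    calc (2 * π)⁻¹ * ∫ θ in (0:ℝ)..(2 * π), ic r n θ
        ≤ (2 * π)⁻¹ * ((∫ θ in (0:ℝ)..(2 * π), (H (circleMap w0 ρ θ)).im) +
            2 * π * (ε / 2)) := by
          rw [← hsum]
          exact mul_le_mul_of_nonneg_left hbound (by positivity)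
      _ = (H w0).im + ε / 2 := by
          rw [mul_add, hmean]
          field_simp
      _ ≤ R w0 + ε := by linarith
  -- dominated convergence
  have hlim : Tendsto (fun n : ℕ => ∫ θ in (0:ℝ)..(2 * π), ic r n θ) atTop
      (𝓝 (∫ θ in (0:ℝ)..(2 * π), r θ)) := by
    refine intervalIntegral.tendsto_integral_filter_of_dominated_convergence (fun _ => M)
      (Eventually.of_forall fun n => (ic_cont hrM n).aestronglyMeasurable)
      (Eventually.of_forall fun n => Eventually.of_forall fun θ _ => ?_)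
      intervalIntegrable_const
      (Eventually.of_forall fun θ _ => ic_tendsto hrM hrl θ)
    rw [Real.norm_eq_abs, abs_le]
    exact ⟨le_ic hrM n θ, (ic_le hrM n θ).trans (abs_le.1 (hrM θ)).2⟩
  exact le_of_tendsto' (hlim.const_mul ((2 * π)⁻¹)) hstep

/-- comparison principle with real parts -/
theorem sh1_re {R : ℂ → ℝ} {W : Set ℂ} (hlsc : LowerSemicontinuousOn R W) (hNT : NT R W)
    {w0 : ℂ} {ρ : ℝ} (hρ : 0 < ρ) (hsub : closedBall w0 ρ ⊆ W) {F : ℂ → ℂ}
    (hF : DiffContOnCl ℂ F (ball w0 ρ)) (hb : ∀ w ∈ sphere w0 ρ, (F w).re ≤ R w) :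
    ∀ w ∈ closedBall w0 ρ, (F w).re ≤ R w := by
  intro w hw
  have h := sh1 hlsc hNT hρ hsub (H := fun w => I * F w) (hF.const_smul I)
    (fun w hw => by simpa using hb w hw) w hw
  simpa using h


end Crest.Agent.R102.SH712
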