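import Crest.Agent.R102.KontB_669
import Crest.Agent.R102.SHtest_712

-- ▼ part R102/KontC_669
section

/-!
Row 102, T1-B (b): Kontinuitaetssatz, part C: the penalised heights `R_Φ(w)`: lower
semicontinuity and the viscosity form of superharmonicity (helper669).
-/

set_option autoImplicit false
set_option linter.unusedSectionVars false

open Set Filter Topology Metric Complex MeasureTheory
open scoped Real

noncomputable section

namespace Crest.Agent.R102.K669

variable {E : Type*} [NormedAddCommGroup E] [NormedSpace ℂ E] [CompleteSpace E]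

/-- admissible data for a penalised height: `F` on the base slab, values in the open convex set
`C`, `Φ` a penalised height function with levels in `[m, M]`, `Q` a compact set to which singular
points can be moved. -/
structure Pen (F : ℂ × ℂ → E) (C : Set E) (y1 y0 : ℝ) (W : Set ℂ) (Φ : ℂ → ℝ) (m M : ℝ)
    (Q : Set ℂ) : Prop where
  h10 : y1 < y0
  hW : IsOpen W
  hF : DifferentiableOn ℂ F (Slab y1 y0 W)
  hC : ∀ q ∈ Slab y1 y0 W, F q ∈ C
  hCo : IsOpen C
  hCc : Convex ℝ C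
  hmM : m ≤ M
  /-- the lowest level lies in the slab -/
  low : ∀ t : ℂ, y1 < t.im → Φ t < m → t.im < y0
  cont : ContinuousOn Φ {t | y1 < t.im}
  /-- a touching harmonic majorant at every point -/
  touch : ∀ t : ℂ, y1 < t.im → m ≤ Φ t → Φ t ≤ M → ∃ P : ℂ → ℂ, AnalyticAt ℂ P t ∧
    0 < (deriv P t).re ∧ (P t).im = Φ t ∧ ∀ᶠ s in 𝓝 t, Φ s ≤ (P s).im
  Qc : IsCompact Q
  Qy : ∀ t ∈ Q, y1 < t.im
  /-- singular points can be moved to `Q` without raising the level -/
  move : ∀ w ∈ W, ∀ t : ℂ, y1 < t.im → Φ t ≤ M → ¬ IsReg F C y1 y0 W (t, w) →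
    ∃ t' ∈ Q, Φ t' ≤ Φ t ∧ ¬ IsReg F C y1 y0 W (t', w)

/-- the admissible levels at `w` -/
def Lev (F : ℂ × ℂ → E) (C : Set E) (y1 y0 : ℝ) (W : Set ℂ) (Φ : ℂ → ℝ) (m M : ℝ) (w : ℂ) :
    Set ℝ := {r | m ≤ r ∧ r ≤ M ∧ ∀ t : ℂ, y1 < t.im → Φ t < r → IsReg F C y1 y0 W (t, w)}

/-- **the penalised height** -/
def hgt (F : ℂ × ℂ → E) (C : Set E) (y1 y0 : ℝ) (W : Set ℂ) (Φ : ℂ → ℝ) (m M : ℝ) (w : ℂ) : ℝ :=
  sSup (Lev F C y1 y0 W Φ m M w)

variable {F : ℂ × ℂ → E} {C : Set E} {y1 y0 : ℝ} {W : Set ℂ} {Φ : ℂ → ℝ} {m M : ℝ} {Q : Set ℂ}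

lemma Pen.m_mem (h : Pen F C y1 y0 W Φ m M Q) {w : ℂ} (hw : w ∈ W) :
    m ∈ Lev F C y1 y0 W Φ m M w :=
  ⟨le_refl _, h.hmM, fun t ht hΦ => isReg_of_slab h.hW h.hF h.hC (h.low t ht hΦ) hw⟩

lemma Lev_bdd (w : ℂ) : BddAbove (Lev F C y1 y0 W Φ m M w) := ⟨M, fun _ hr => hr.2.1⟩

lemma Pen.m_le (h : Pen F C y1 y0 W Φ m M Q) {w : ℂ} (hw : w ∈ W) :
    m ≤ hgt F C y1 y0 W Φ m M w := le_csSup (Lev_bdd w) (h.m_mem hw)

lemma Pen.le_M (h : Pen F C y1 y0 W Φ m M Q) {w : ℂ} (hw : w ∈ W) :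
    hgt F C y1 y0 W Φ m M w ≤ M := csSup_le ⟨m, h.m_mem hw⟩ (fun _ hr => hr.2.1)

/-- below the height everything is regular -/
lemma Pen.reg (h : Pen F C y1 y0 W Φ m M Q) {w : ℂ} (hw : w ∈ W) {t : ℂ} (ht : y1 < t.im)
    (hΦ : Φ t < hgt F C y1 y0 W Φ m M w) : IsReg F C y1 y0 W (t, w) := by
  obtain ⟨r, hr, hlt⟩ := exists_lt_of_lt_csSup ⟨m, h.m_mem hw⟩ hΦ
  exact hr.2.2 t ht hlt

lemma Pen.le_hgt (h : Pen F C y1 y0 W Φ m M Q) {w : ℂ} (hw : w ∈ W) {r : ℝ} (hrM : r ≤ M)
    (hr : ∀ t : ℂ, y1 < t.im → Φ t < r → IsReg F C y1 y0 W (t, w)) :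
    r ≤ hgt F C y1 y0 W Φ m M w := by
  rcases lt_or_ge r m with h1 | h1
  · exact h1.le.trans (h.m_le hw)
  · exact le_csSup (Lev_bdd w) ⟨h1, hrM, hr⟩

/-- reduction of a level to the compact set `Q` -/
lemma Pen.le_hgt_Q (h : Pen F C y1 y0 W Φ m M Q) {w : ℂ} (hw : w ∈ W) {r : ℝ} (hrM : r ≤ M)
    (hr : ∀ t ∈ Q, Φ t ≤ r → IsReg F C y1 y0 W (t, w)) :
    r ≤ hgt F C y1 y0 W Φ m M w := by
  refine h.le_hgt hw hrM (fun t ht hΦ => ?_)
  by_contra hcon
  obtain ⟨t', ht', hle, hn⟩ := h.move w hw t ht (hΦ.le.trans hrM) hcon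
  exact hn (hr t' ht' (hle.trans hΦ.le))

lemma Pen.isCompact_low (h : Pen F C y1 y0 W Φ m M Q) (r : ℝ) :
    IsCompact {t | t ∈ Q ∧ Φ t ≤ r} := by
  have h1 : ContinuousOn Φ Q := h.cont.mono (fun t ht => h.Qy t ht)
  have h2 : {t | t ∈ Q ∧ Φ t ≤ r} = Q ∩ Φ ⁻¹' Iic r := rfl
  rw [h2]
  exact h.Qc.of_isClosed_subset (h1.preimage_isClosed_of_isClosed h.Qc.isClosed isClosed_Iic)
    inter_subset_left

/-- **lower semicontinuity** -/
theorem Pen.lsc (h : Pen F C y1 y0 W Φ m M Q) :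
    LowerSemicontinuousOn (hgt F C y1 y0 W Φ m M) W := by
  intro w0 hw0 c hc
  rcases lt_or_ge c m with h1 | h1
  · filter_upwards [self_mem_nhdsWithin] with w hw
    exact h1.trans_le (h.m_le hw)
  obtain ⟨r, hcr, hr⟩ := exists_between hc
  have hrM : r ≤ M := hr.le.trans (h.le_M hw0)
  have hev : ∀ᶠ w in 𝓝 w0, ∀ t ∈ {t | t ∈ Q ∧ Φ t ≤ r}, IsReg F C y1 y0 W (t, w) := by
    refine (h.isCompact_low r).eventually_forall_of_forall_eventually (fun t ht => ?_)
    have h2 : IsReg F C y1 y0 W (t, w0) := h.reg hw0 (h.Qy t ht.1) (ht.2.trans_lt hr)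
    have h3 : {p : ℂ × ℂ | IsReg F C y1 y0 W p} ∈ 𝓝 (t, w0) := isOpen_isReg.mem_nhds h2
    have h4 : Tendsto (fun z : ℂ × ℂ => (z.2, z.1)) (𝓝 (w0, t)) (𝓝 (t, w0)) :=
      (continuous_swap (X := ℂ) (Y := ℂ)).tendsto (w0, t)
    exact h4.eventually h3
  filter_upwards [nhdsWithin_le_nhds hev, self_mem_nhdsWithin] with w hw hwW
  exact hcr.trans_le (h.le_hgt_Q hwW hrM (fun t ht hΦ => hw t ⟨ht, hΦ⟩))

/-- **no strictly subharmonic quadratic function touches the height from below** -/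
theorem Pen.no_touch (h : Pen F C y1 y0 W Φ m M Q) {w0 : ℂ} (hw0 : w0 ∈ W) {H : ℂ → ℂ}
    (hH : AnalyticAt ℂ H w0) {δ : ℝ} (hδ : 0 < δ)
    (heq : hgt F C y1 y0 W Φ m M w0 = (H w0).im)
    (hle : ∀ᶠ w in 𝓝 w0, (H w).im + δ * ‖w - w0‖ ^ 2 ≤ hgt F C y1 y0 W Φ m M w) : False := by
  set R := hgt F C y1 y0 W Φ m M with hR
  have hWn : W ∈ 𝓝 w0 := h.hW.mem_nhds hw0
  rcases eq_or_lt_of_le (h.le_M hw0) with hM | hM
  · -- the cap: mean value property of `H`
    have hM' : R w0 = M := hM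
    obtain ⟨ρ, hρ, hρs⟩ := Metric.eventually_nhds_iff_ball.1
      (hle.and (hH.eventually_analyticAt.and hWn))
    set r := ρ / 2 with hr
    have hr0 : 0 < r := by positivity
    have hcb : closedBall w0 r ⊆ ball w0 ρ := closedBall_subset_ball (by linarith)
    have hd : DiffContOnCl ℂ H (ball w0 r) := by
      have : DifferentiableOn ℂ H (closedBall w0 r) := fun z hz =>
        (hρs z (hcb hz)).2.1.differentiableAt.differentiableWithinAt
      exact this.diffContOnCl_ball (subset_refl _)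
    -- maximum principle for `exp (-i H)`
    have hexp : DiffContOnCl ℂ (fun z => Complex.exp (-(I * H z))) (ball w0 r) :=
      (Complex.differentiable_exp.comp (Differentiable.neg differentiable_id)).comp_diffContOnCl
        (hd.const_smul I)
    have hb : ∀ z ∈ frontier (ball w0 r), ‖Complex.exp (-(I * H z))‖ ≤
        Real.exp (M - δ * r ^ 2) := by
      intro z hz
      rw [frontier_ball w0 hr0.ne'] at hz
      have hz' : z ∈ ball w0 ρ := hcb (sphere_subset_closedBall hz)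
      have h1 := (hρs z hz').1
      have h2 := h.le_M (hρs z hz').2.2
      have h3 : ‖z - w0‖ = r := by simpa [dist_eq_norm] using hz
      rw [h3] at h1
      rw [Complex.norm_exp]
      refine Real.exp_le_exp.2 ?_
      have h4 : (-(I * H z)).re = (H z).im := by simp
      rw [h4]
      have h5 : R z ≤ M := h2
      have h6 : (H z).im + δ * r ^ 2 ≤ R z := h1
      linarith
    have h7 := Complex.norm_le_of_forall_mem_frontier_norm_le isBounded_ball hexp hb
      (subset_closure (mem_ball_self hr0))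
    rw [Complex.norm_exp] at h7
    have h8 := Real.exp_le_exp.1 h7
    have h9 : (-(I * H w0)).re = (H w0).im := by simp
    rw [h9, ← heq, hM'] at h8
    have : 0 < δ * r ^ 2 := by positivity
    linarith
  · have hmR : m ≤ R w0 := h.m_le hw0
    -- every point of `Q` at level `≤ R w0` is regular
    have hreg : ∀ t ∈ Q, Φ t ≤ R w0 → IsReg F C y1 y0 W (t, w0) := by
      intro t ht hΦ
      rcases eq_or_lt_of_le hΦ with he | hlt
      · have hty := h.Qy t ht
        obtain ⟨P, hP, hP', hPt, hPm⟩ := h.touch t hty (he ▸ hmR) (he ▸ hM.le)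
        refine isReg_of_touch h.h10 h.hW h.hF h.hC h.hCo h.hCc hty hw0 hP hP' hH
          (by rw [hPt, he, heq]) hδ ?_
        have e1 : ∀ᶠ q : ℂ × ℂ in 𝓝 (t, w0), Φ q.1 ≤ (P q.1).im :=
          (continuousAt_fst (p := (t, w0))).eventually hPm
        have e2 : ∀ᶠ q : ℂ × ℂ in 𝓝 (t, w0), (H q.2).im + δ * ‖q.2 - w0‖ ^ 2 ≤ R q.2 :=
          (continuousAt_snd (p := (t, w0))).eventually hle
        have e3 : ∀ᶠ q : ℂ × ℂ in 𝓝 (t, w0), q.2 ∈ W :=
          (continuousAt_snd (p := (t, w0))).eventually hWn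
        have e4 : ∀ᶠ q : ℂ × ℂ in 𝓝 (t, w0), y1 < q.1.im :=
          (isOpen_lt continuous_const
            (by fun_prop : Continuous (fun p : ℂ × ℂ => p.1.im))).mem_nhds hty
        filter_upwards [e1, e2, e3, e4] with q h1 h2 h3 h4 h5
        exact h.reg h3 h4 (by linarith)
      · exact h.reg hw0 (h.Qy t ht) hlt
    -- compactness gives a higher level
    have hex : ∃ r, R w0 < r ∧ r ≤ M ∧ ∀ t ∈ Q, Φ t ≤ r → IsReg F C y1 y0 W (t, w0) := by
      by_contra hcon
      push Not at hcon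
      set u : ℕ → ℝ := fun n => R w0 + (M - R w0) / (n + 1) with hu
      have hu1 : ∀ n, R w0 < u n := by
        intro n
        have : 0 < (M - R w0) / ((n : ℝ) + 1) := div_pos (by linarith) (by positivity)
        simp only [hu]; linarith
      have hu2 : ∀ n, u n ≤ M := by
        intro n
        have : (M - R w0) / ((n : ℝ) + 1) ≤ M - R w0 :=
          div_le_self (by linarith) (by linarith [(Nat.cast_nonneg n : (0 : ℝ) ≤ n)])
        simp only [hu]; linarith
      have hu3 : Tendsto u atTop (𝓝 (R w0)) := by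
        have h1 : Tendsto (fun n : ℕ => (M - R w0) / ((n : ℝ) + 1)) atTop (𝓝 0) :=
          tendsto_const_div_atTop_nhds_zero_nat (M - R w0) |>.comp (tendsto_add_atTop_nat 1)
            |>.congr (fun n => by simp [Function.comp])
        simpa [hu] using h1.const_add (R w0)
      choose t htQ htΦ htn using fun n => hcon (u n) (hu1 n) (hu2 n)
      obtain ⟨a, haQ, φ, hφ, hlim⟩ := h.Qc.tendsto_subseq htQ
      have hac : ContinuousAt Φ a :=
        h.cont.continuousAt ((isOpen_lt continuous_const Complex.continuous_im).mem_nhds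
          (h.Qy a haQ))
      have h1 : Φ a ≤ R w0 :=
        le_of_tendsto_of_tendsto (hac.tendsto.comp hlim) (hu3.comp hφ.tendsto_atTop)
          (Eventually.of_forall (fun n => htΦ (φ n)))
      have h2 := hreg a haQ h1
      have h3 : {p : ℂ × ℂ | IsReg F C y1 y0 W p} ∈ 𝓝 (a, w0) := isOpen_isReg.mem_nhds h2
      have h4 : Tendsto (fun n => ((t (φ n), w0) : ℂ × ℂ)) atTop (𝓝 (a, w0)) :=
        hlim.prodMk_nhds tendsto_const_nhds
      obtain ⟨n, hn⟩ := (h4.eventually h3).exists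
      exact htn (φ n) hn
    obtain ⟨r, hr1, hr2, hr3⟩ := hex
    exact absurd (h.le_hgt_Q hw0 hr2 hr3) (not_le.2 hr1)

end Crest.Agent.R102.K669
end
end

-- ▼ part R102/KontD_669

/-!
Row 102, T1-B (b): Kontinuitaetssatz, part D: superharmonicity of the penalised heights (NT form,
comparison, mean value), independence of the base level, shears `t' = t - g w`, and the concrete
penalised heights (window penalty `y + p(x) - (c/2) y²`, and `y` for periodic data) (helper669).
-/

set_option autoImplicit false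
set_option linter.unusedSectionVars false

open Set Filter Topology Metric Complex MeasureTheory
open scoped Real

noncomputable section

namespace Crest.Agent.R102.K669

variable {E : Type*} [NormedAddCommGroup E] [NormedSpace ℂ E] [CompleteSpace E]

section SH

variable {F : ℂ × ℂ → E} {C : Set E} {y1 y0 : ℝ} {W : Set ℂ} {Φ : ℂ → ℝ} {m M : ℝ} {Q : Set ℂ}

/-- **superharmonicity of the penalised height, local test form** -/
theorem Pen.nt (h : Pen F C y1 y0 W Φ m M Q) : SH712.NT (hgt F C y1 y0 W Φ m M) W := by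
  intro w hw H hH δ hδ hcon
  exact h.no_touch hw hH hδ hcon.1 hcon.2

lemma Pen.abs_le (h : Pen F C y1 y0 W Φ m M Q) {w : ℂ} (hw : w ∈ W) :
    |hgt F C y1 y0 W Φ m M w| ≤ max |m| |M| := by
  have h1 := h.m_le hw
  have h2 := h.le_M hw
  rw [_root_.abs_le]
  constructor
  · have := neg_abs_le m
    have := le_max_left |m| |M|
    linarith
  · have := le_abs_self M
    have := le_max_right |m| |M|
    linarith

/-- comparison with harmonic functions on closed discs -/
theorem Pen.sh1 (h : Pen F C y1 y0 W Φ m M Q) {w0 : ℂ} {ρ : ℝ} (hρ : 0 < ρ)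
    (hsub : closedBall w0 ρ ⊆ W) {H : ℂ → ℂ} (hH : DiffContOnCl ℂ H (ball w0 ρ))
    (hb : ∀ w ∈ sphere w0 ρ, (H w).im ≤ hgt F C y1 y0 W Φ m M w) :
    ∀ w ∈ closedBall w0 ρ, (H w).im ≤ hgt F C y1 y0 W Φ m M w :=
  SH712.sh1 h.lsc h.nt hρ hsub hH hb


end SH

section Tools

variable {F : ℂ × ℂ → E} {C : Set E} {y1 y0 : ℝ} {W : Set ℂ}

/-- agreement with `F` on a thin slab propagates to the whole slab -/
lemma agree_up {y' : ℝ} (h1' : y1 < y') (hW : IsOpen W)
    (hF : DifferentiableOn ℂ F (Slab y1 y0 W)) {p : ℂ × ℂ} {ε : ℝ} (hεW : ball p.2 ε ⊆ W)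
    {G : ℂ × ℂ → E} (hG : DifferentiableOn ℂ G (Tube y1 p ε))
    (hGF : ∀ q ∈ Tube y1 p ε, q.1.im < y' → G q = F q) :
    ∀ q ∈ Tube y1 p ε, q.1.im < y0 → G q = F q := by
  intro q hq hq0
  have hqW : q.2 ∈ W := hεW (by rw [mem_ball, dist_eq_norm]; exact hq.2.2.2)
  obtain ⟨δ, hδ, hδW⟩ := Metric.isOpen_iff.1 hW q.2 hqW
  set η := min δ (y0 - q.1.im) with hη
  have hη0 : 0 < η := lt_min hδ (by linarith)
  have hsub : Tube y1 q η ⊆ Slab y1 y0 W := by
    rintro z ⟨a1, a2, a3, a4⟩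
    refine ⟨a2, ?_, hδW ?_⟩
    · have : η ≤ y0 - q.1.im := min_le_right _ _
      linarith
    · rw [mem_ball, dist_eq_norm]
      exact a4.trans_le (min_le_left _ _)
  exact eq_of_tubes h1' hG (hF.mono hsub) hGF (fun _ _ _ => rfl) hq
    (mem_tube_self hq.2.1 hη0)




/-- **shears**: in the coordinate `t' = t - g w` the function `F' (t', w) = ext F (t' + g w, w)`
has the same regular points. -/
theorem isReg_shear (h10 : y1 < y0) (hW : IsOpen W) (hF : DifferentiableOn ℂ F (Slab y1 y0 W))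
    {W' : Set ℂ} (hW' : IsOpen W') (hWW : W' ⊆ W)
    {g : ℂ → ℂ} (hg : DifferentiableOn ℂ g W') {y1' y0' : ℝ} (h10' : y1' < y0')
    (hlow : ∀ w ∈ W', y1 ≤ y1' + (g w).im)
    (hreg : ∀ w ∈ W', ∀ t : ℂ, y1 < t.im → t.im < y0' + (g w).im →
      IsReg F C y1 y0 W (t, w)) {t' w0 : ℂ} (hw0 : w0 ∈ W') :
    IsReg (fun q : ℂ × ℂ => ext F C y1 y0 W (q.1 + g q.2, q.2)) C y1' y0' W' (t', w0) ↔
      IsReg F C y1 y0 W (t' + g w0, w0) := by
  have hgc : ContinuousAt g w0 := (hg.differentiableAt (hW'.mem_nhds hw0)).continuousAt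
  constructor
  · rintro ⟨ε, hε, hεW, G, hG, hGC, hGF⟩
    classical
    -- the middle level
    set y2 : ℝ := (y1' + y0') / 2 + (g w0).im with hy2
    set κ : ℝ := (y0' - y1') / 2 with hκ
    have hκ0 : 0 < κ := by rw [hκ]; linarith
    obtain ⟨δ, hδ, hδg⟩ := Metric.continuousAt_iff.1 hgc (min (ε / 2) (κ / 2))
      (lt_min (by positivity) (by positivity))
    set η := min δ (ε / 2) with hη
    have hη0 : 0 < η := lt_min hδ (by positivity)
    have hηW : ball w0 η ⊆ W' := by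
      refine (ball_subset_ball ?_).trans hεW
      exact (min_le_right _ _).trans (by linarith)
    have hgd : ∀ w ∈ ball w0 η, ‖g w - g w0‖ < ε / 2 ∧ ‖g w - g w0‖ < κ / 2 := by
      intro w hw
      have h1 := hδg ((mem_ball.1 hw).trans_le (min_le_left _ _))
      rw [dist_eq_norm, lt_min_iff] at h1
      exact h1
    -- `G'` in the original coordinates
    set G' : ℂ × ℂ → E := fun q => G (q.1 - g q.2, q.2) with hG'
    set Gt : ℂ × ℂ → E := fun q => if q.1.im < y2 then ext F C y1 y0 W q else G' q with hGt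
    set p : ℂ × ℂ := (t' + g w0, w0) with hp
    have hball : ∀ q ∈ Tube y1 p η, q.2 ∈ ball w0 η := by
      rintro q ⟨a1, a2, a3, a4⟩
      rw [mem_ball, dist_eq_norm]; exact a4
    have hup : ∀ q ∈ Tube y1 p η, y2 - κ / 2 ≤ q.1.im →
        ((q.1 - g q.2, q.2) : ℂ × ℂ) ∈ Tube y1' (t', w0) ε := by
      rintro q hq h
      have hqb := hball q hq
      obtain ⟨b1, b2⟩ := hgd q.2 hqb
      obtain ⟨a1, a2, a3, a4⟩ := hq
      have r1 := Complex.abs_re_le_norm (g q.2 - g w0)
      have r2 := Complex.abs_im_le_norm (g q.2 - g w0)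
      rw [sub_re] at r1
      rw [sub_im] at r2
      obtain ⟨r3, r4⟩ := abs_le.1 (r1.trans b1.le)
      obtain ⟨r5, r6⟩ := abs_lt.1 (lt_of_le_of_lt r2 b1)
      obtain ⟨r7, r8⟩ := abs_lt.1 (lt_of_le_of_lt r2 b2)
      have hη1 : η ≤ ε / 2 := min_le_right _ _
      simp only [hp, add_re, add_im] at a1 a3
      obtain ⟨a5, a6⟩ := abs_lt.1 a1
      refine ⟨?_, ?_, ?_, ?_⟩
      · simp only [sub_re]
        rw [abs_lt]; constructor <;> linarith
      · simp only [sub_im]
        rw [hy2, hκ] at h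
        rw [hκ] at r7 r8
        linarith
      · simp only [sub_im]; linarith
      · simp only [hp] at a4
        simp only
        linarith
    have hlo : ∀ q ∈ Tube y1 p η, q.1.im < y2 + κ / 2 → IsReg F C y1 y0 W q := by
      rintro q hq h
      have hqb := hball q hq
      obtain ⟨b1, b2⟩ := hgd q.2 hqb
      have r2 := Complex.abs_im_le_norm (g q.2 - g w0)
      rw [sub_im] at r2
      obtain ⟨r7, r8⟩ := abs_lt.1 (lt_of_le_of_lt r2 b2)
      refine hreg q.2 (hηW hqb) q.1 hq.2.1 ?_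
      rw [hy2, hκ] at h
      rw [hκ] at r7 r8
      linarith
    have hmid : ∀ q ∈ Tube y1 p η, |q.1.im - y2| < κ / 2 → G' q = ext F C y1 y0 W q := by
      rintro q hq h
      obtain ⟨h1, h2⟩ := abs_lt.1 h
      have h3 := hup q hq (by linarith)
      have hqb := hball q hq
      obtain ⟨b1, b2⟩ := hgd q.2 hqb
      have r2 := Complex.abs_im_le_norm (g q.2 - g w0)
      rw [sub_im] at r2
      obtain ⟨r7, r8⟩ := abs_lt.1 (lt_of_le_of_lt r2 b2)
      have h4 := hGF _ h3 (by
        simp only [sub_im]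
        rw [hy2, hκ] at h2
        rw [hκ] at r7 r8
        linarith)
      simp only [hG']
      rw [h4]
      simp
    have hGd : ∀ q ∈ Tube y1 p η, y2 - κ / 2 ≤ q.1.im → DifferentiableAt ℂ G' q := by
      intro q hq h
      have h1 := hG.differentiableAt ((isOpen_tube y1' (t', w0) ε).mem_nhds (hup q hq h))
      have h2 : DifferentiableAt ℂ g q.2 := hg.differentiableAt (hW'.mem_nhds (hηW (hball q hq)))
      have h3 : DifferentiableAt ℂ (fun q : ℂ × ℂ => g q.2) q :=
        DifferentiableAt.comp (g := g) (f := fun q : ℂ × ℂ => q.2) q h2 differentiableAt_snd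
      have h4 : DifferentiableAt ℂ (fun q : ℂ × ℂ => ((q.1 - g q.2, q.2) : ℂ × ℂ)) q :=
        (differentiableAt_fst.sub h3).prodMk differentiableAt_snd
      exact DifferentiableAt.comp (g := G) (f := fun q : ℂ × ℂ => ((q.1 - g q.2, q.2) : ℂ × ℂ))
        q h1 h4
    have c1 : Continuous (fun z : ℂ × ℂ => z.1.im) := by fun_prop
    have hGtd : DifferentiableOn ℂ Gt (Tube y1 p η) := by
      intro q hq
      refine DifferentiableAt.differentiableWithinAt ?_
      have hto := (isOpen_tube y1 p η).mem_nhds hq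
      rcases lt_or_ge q.1.im y2 with hlt2 | hge2
      · have h5 := ext_differentiableAt h10 (hlo q hq (by linarith)) hq.2.1
        refine h5.congr_of_eventuallyEq ?_
        filter_upwards [(isOpen_lt c1 continuous_const).mem_nhds hlt2] with z hz
        simp only [hGt]
        rw [if_pos hz]
      · have h5 := hGd q hq (by linarith)
        refine h5.congr_of_eventuallyEq ?_
        filter_upwards [(isOpen_lt continuous_const c1).mem_nhds
          (show y2 - κ / 2 < q.1.im by linarith), hto] with z hz hzt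
        simp only [hGt]
        have hz' : y2 - κ / 2 < z.1.im := hz
        split_ifs with h7
        · refine (hmid z hzt ?_).symm
          rw [abs_lt]; constructor <;> linarith
        · rfl
    refine ⟨η, hη0, hηW.trans hWW, Gt, hGtd, ?_, ?_⟩
    · intro q hq
      simp only [hGt]
      split_ifs with h7
      · exact ext_mem h10 (hlo q hq (by linarith)) hq.2.1
      · exact hGC _ (hup q hq (by linarith [not_lt.1 h7]))
    · have hw0' := hlow w0 hw0
      refine agree_up (y' := min y0 y2) ?_ hW hF (hηW.trans hWW) hGtd ?_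
      · refine lt_min h10 ?_
        rw [hy2]; linarith
      · intro q hq hq2
        simp only [hGt]
        rw [if_pos (hq2.trans_le (min_le_right _ _))]
        exact ext_slab h10 (hlo q hq (by
          have := hq2.trans_le (min_le_right y0 y2); linarith)) hq.2.1
          (hq2.trans_le (min_le_left _ _))
  · rintro ⟨ε, hε, hεW, G, hG, hGC, hGF⟩
    obtain ⟨δ, hδ, hδg⟩ := Metric.continuousAt_iff.1 hgc (ε / 2) (by positivity)
    obtain ⟨δ', hδ', hδW⟩ := Metric.isOpen_iff.1 hW' w0 hw0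
    set η := min (min δ (ε / 2)) δ' with hη
    have hη0 : 0 < η := lt_min (lt_min hδ (by positivity)) hδ'
    have hη1 : η ≤ ε / 2 := (min_le_left _ _).trans (min_le_right _ _)
    have hη2 : η ≤ δ := (min_le_left _ _).trans (min_le_left _ _)
    have hηW : ball w0 η ⊆ W' := (ball_subset_ball (min_le_right _ _)).trans hδW
    have hin : ∀ q ∈ Tube y1' (t', w0) η,
        ((q.1 + g q.2, q.2) : ℂ × ℂ) ∈ Tube y1 (t' + g w0, w0) ε := by
      rintro q ⟨a1, a2, a3, a4⟩
      have hqb : q.2 ∈ ball w0 η := by rw [mem_ball, dist_eq_norm]; exact a4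
      have b1 := hδg ((mem_ball.1 hqb).trans_le hη2)
      rw [dist_eq_norm] at b1
      have r1 := Complex.abs_re_le_norm (g q.2 - g w0)
      have r2 := Complex.abs_im_le_norm (g q.2 - g w0)
      rw [sub_re] at r1
      rw [sub_im] at r2
      obtain ⟨r3, r4⟩ := abs_le.1 (r1.trans b1.le)
      obtain ⟨r5, r6⟩ := abs_lt.1 (lt_of_le_of_lt r2 b1)
      obtain ⟨a5, a6⟩ := abs_lt.1 a1
      have h5 := hlow q.2 (hηW hqb)
      simp only at a3 a4 a5 a6
      refine ⟨?_, ?_, ?_, ?_⟩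
      · simp only [add_re]
        rw [abs_lt]; constructor <;> linarith
      · simp only [add_im]; linarith
      · simp only [add_im]; linarith
      · simp only; linarith
    refine ⟨η, hη0, hηW, fun q => G (q.1 + g q.2, q.2), ?_, fun q hq => hGC _ (hin q hq), ?_⟩
    · intro q hq
      refine DifferentiableAt.differentiableWithinAt ?_
      have hqb : q.2 ∈ ball w0 η := by rw [mem_ball, dist_eq_norm]; exact hq.2.2.2
      have h1 := hG.differentiableAt ((isOpen_tube y1 (t' + g w0, w0) ε).mem_nhds (hin q hq))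
      have h2 : DifferentiableAt ℂ g q.2 := hg.differentiableAt (hW'.mem_nhds (hηW hqb))
      have h3 : DifferentiableAt ℂ (fun q : ℂ × ℂ => g q.2) q :=
        DifferentiableAt.comp (g := g) (f := fun q : ℂ × ℂ => q.2) q h2 differentiableAt_snd
      have h4 : DifferentiableAt ℂ (fun q : ℂ × ℂ => ((q.1 + g q.2, q.2) : ℂ × ℂ)) q :=
        (differentiableAt_fst.add h3).prodMk differentiableAt_snd
      exact DifferentiableAt.comp (g := G) (f := fun q : ℂ × ℂ => ((q.1 + g q.2, q.2) : ℂ × ℂ))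
        q h1 h4
    · intro q hq _
      exact (ext_eq h10 hεW hG hGC hGF (hin q hq)).symm

end Tools

section Window

variable {F : ℂ × ℂ → E} {C : Set E} {y1 y0 : ℝ} {W : Set ℂ} {m M : ℝ}





/-- the quadratic penalty of the interval `[a, b]` -/
def dp (a b c : ℝ) (x : ℝ) : ℝ := c / 2 * (max (max (a - x) (x - b)) 0) ^ 2







end Window

section Periodic

variable {F : ℂ × ℂ → E} {C : Set E} {y1 y0 : ℝ} {W : Set ℂ} {m M : ℝ}

lemma tube_add {ε : ℝ} {t w : ℂ} {q : ℂ × ℂ} (a : ℝ) :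
    ((q.1 + a, q.2) : ℂ × ℂ) ∈ Tube y1 (t + a, w) ε ↔ q ∈ Tube y1 (t, w) ε := by
  simp only [Tube, Set.mem_ofPred_eq, add_re, ofReal_re, add_im, ofReal_im, add_zero]
  have : q.1.re + a - (t.re + a) = q.1.re - t.re := by ring
  rw [this]

/-- regularity is invariant under a translation symmetry of the data -/
lemma isReg_add {a : ℝ} {v : E} (hv : ∀ e ∈ C, e - v ∈ C)
    (hper : ∀ q ∈ Slab y1 y0 W, F (q.1 + a, q.2) = F q + v) {t w : ℂ}
    (h : IsReg F C y1 y0 W (t + a, w)) : IsReg F C y1 y0 W (t, w) := by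
  obtain ⟨ε, hε, hεW, G, hG, hGC, hGF⟩ := h
  refine ⟨ε, hε, hεW, fun q => G (q.1 + a, q.2) - v, ?_, ?_, ?_⟩
  · intro q hq
    refine DifferentiableAt.differentiableWithinAt ?_
    have h1 := hG.differentiableAt ((isOpen_tube y1 (t + a, w) ε).mem_nhds ((tube_add a).2 hq))
    have h2 : DifferentiableAt ℂ (fun q : ℂ × ℂ => ((q.1 + a, q.2) : ℂ × ℂ)) q := by fun_prop
    exact (DifferentiableAt.comp (g := G) (f := fun q : ℂ × ℂ => ((q.1 + a, q.2) : ℂ × ℂ))
      q h1 h2).sub_const v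
  · intro q hq
    exact hv _ (hGC _ ((tube_add a).2 hq))
  · intro q hq hq0
    have h1 := hGF _ ((tube_add a).2 hq) (by simpa using hq0)
    have h2 : q ∈ Slab y1 y0 W :=
      ⟨hq.2.1, hq0, hεW (by rw [mem_ball, dist_eq_norm]; exact hq.2.2.2)⟩
    simp only
    rw [h1, hper q h2]
    abel

lemma isReg_add_int {v : E} (hv : ∀ e, e ∈ C ↔ e + v ∈ C)
    (hper : ∀ q ∈ Slab y1 y0 W, F (q.1 + 1, q.2) = F q + v) {t w : ℂ} (n : ℤ) :
    IsReg F C y1 y0 W (t + n, w) ↔ IsReg F C y1 y0 W (t, w) := by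
  have hv1 : ∀ e ∈ C, e - v ∈ C := by
    intro e he
    rw [hv (e - v)]; simpa using he
  have hv2 : ∀ e ∈ C, e - (-v) ∈ C := by
    intro e he
    simpa using (hv e).1 he
  have hper1 : ∀ q ∈ Slab y1 y0 W, F (q.1 + ((1 : ℝ) : ℂ), q.2) = F q + v := by
    intro q hq; simpa using hper q hq
  have hper2 : ∀ q ∈ Slab y1 y0 W, F (q.1 + ((-1 : ℝ) : ℂ), q.2) = F q + (-v) := by
    intro q hq
    have hq' : ((q.1 - 1, q.2) : ℂ × ℂ) ∈ Slab y1 y0 W := by
      obtain ⟨a1, a2, a3⟩ := hq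
      exact ⟨by simpa using a1, by simpa using a2, a3⟩
    have h1 := hper _ hq'
    simp only [sub_add_cancel] at h1
    have h2 : (q.1 + ((-1 : ℝ) : ℂ)) = q.1 - 1 := by push_cast; ring
    rw [h2]
    have h3 : F (q.1, q.2) = F q := rfl
    rw [h3] at h1
    rw [h1]; abel
  have step : ∀ t : ℂ, IsReg F C y1 y0 W (t + 1, w) ↔ IsReg F C y1 y0 W (t, w) := by
    intro t
    constructor
    · intro h
      refine isReg_add (a := 1) hv1 hper1 ?_
      simpa using h
    · intro h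
      refine isReg_add (a := -1) hv2 hper2 ?_
      simpa using h
  induction n using Int.induction_on with
  | zero => simp
  | succ n ih =>
    refine Iff.trans ?_ ih
    have := step (t + ((n : ℤ) : ℂ))
    rw [← this]
    have h5 : t + (((n : ℤ) + 1 : ℤ) : ℂ) = t + ((n : ℤ) : ℂ) + 1 := by push_cast; ring
    rw [h5]
  | pred n ih =>
    refine Iff.trans ?_ ih
    have := step (t + ((-n - 1 : ℤ) : ℂ))
    rw [← this]
    have h5 : t + ((-n - 1 : ℤ) : ℂ) + 1 = t + ((-n : ℤ) : ℂ) := by push_cast; ring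
    rw [h5]


end Periodic

section Mono

variable {E' : Type*} [NormedAddCommGroup E'] [NormedSpace ℂ E'] [CompleteSpace E']
variable {F : ℂ × ℂ → E} {C : Set E} {F' : ℂ × ℂ → E'} {C' : Set E'} {y1 y0 : ℝ} {W : Set ℂ}
  {Φ Φ' : ℂ → ℝ} {m M : ℝ} {Q Q' : Set ℂ}




end Mono

end Crest.Agent.R102.K669
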