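import Mathlib
import Crest.Agent.R266.SCV

-- ▼ part R102/KontA_669
section

/-!
Row 102, T1-B (b): Kontinuitaetssatz, part A: Hartogs figures and the local extension at a
strictly pseudoconcave point (helper669).
-/

set_option autoImplicit false

open Set Filter Topology Metric Complex MeasureTheory
open scoped Real

noncomputable section

namespace Crest.Agent.R102.K669

open Crest.Agent.R266.SCV

variable {E : Type*} [NormedAddCommGroup E] [NormedSpace ℂ E] [CompleteSpace E]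

/-- the Cauchy transform in the second variable -/
def cau (F : ℂ × ℂ → E) (c : ℂ) (r : ℝ) (p : ℂ × ℂ) : E :=
  (2 * π * I : ℂ)⁻¹ • ∮ η in C(c, r), (η - p.2)⁻¹ • F (p.1, η)

/-- the kernel of the Cauchy transform -/
def ker (F : ℂ × ℂ → E) (c : ℂ) (r : ℝ) (q : (ℂ × ℂ) × ℝ) : E :=
  deriv (circleMap c r) q.2 • ((circleMap c r q.2 - q.1.2)⁻¹ • F (q.1.1, circleMap c r q.2))

/-- **Hartogs figure** -/
theorem hartogs {F : ℂ × ℂ → E} {D : Set (ℂ × ℂ)} (hD : IsOpen D) (hF : DifferentiableOn ℂ F D)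
    {V : Set ℂ} (hV : IsOpen V) {c : ℂ} {r : ℝ} (hr : 0 < r)
    (hVs : ∀ s ∈ V, ∀ η ∈ sphere c r, (s, η) ∈ D) :
    AnalyticOnNhd ℂ (cau F c r) (V ×ˢ ball c r) := by
  have hU : IsOpen (V ×ˢ ball c r) := hV.prod isOpen_ball
  have hh : ContinuousOn (ker F c r) ((V ×ˢ ball c r) ×ˢ uIcc (0:ℝ) (2 * π)) ∧
      ∀ t ∈ uIcc (0:ℝ) (2 * π), DifferentiableOn ℂ (fun x => ker F c r (x, t))
        (V ×ˢ ball c r) := by
    refine ⟨?_, ?_⟩
    · have hne : ∀ q ∈ ((V ×ˢ ball c r) ×ˢ uIcc (0:ℝ) (2 * π)),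
          circleMap c r q.2 - q.1.2 ≠ 0 := by
        rintro ⟨⟨s, w⟩, θ⟩ ⟨⟨hs, hw⟩, hθ⟩
        have h1 : circleMap c r θ ∈ sphere c r := circleMap_mem_sphere c hr.le θ
        intro h
        have h2 : w = circleMap c r θ := by
          have : circleMap c r θ - w = 0 := h
          exact (sub_eq_zero.1 this).symm
        rw [h2] at hw
        exact (ne_of_lt (mem_ball.1 hw)) (mem_sphere.1 h1)
      have hmap : MapsTo (fun q : (ℂ × ℂ) × ℝ => ((q.1.1, circleMap c r q.2) : ℂ × ℂ))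
          ((V ×ˢ ball c r) ×ˢ uIcc (0:ℝ) (2 * π)) D := by
        rintro ⟨⟨s, w⟩, θ⟩ ⟨⟨hs, hw⟩, hθ⟩
        exact hVs s hs _ (circleMap_mem_sphere c hr.le θ)
      have h1 : Continuous (fun q : (ℂ × ℂ) × ℝ => circleMap c r q.2) :=
        (continuous_circleMap c r).comp continuous_snd
      have h2 : Continuous (fun q : (ℂ × ℂ) × ℝ => deriv (circleMap c r) q.2) := by
        simp only [deriv_circleMap]
        exact ((continuous_circleMap 0 r).comp continuous_snd).mul continuous_const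
      refine h2.continuousOn.smul (ContinuousOn.smul (ContinuousOn.inv₀ ?_ hne) ?_)
      · exact (h1.sub (by fun_prop)).continuousOn
      · exact hF.continuousOn.comp (by fun_prop) hmap
    · intro θ _
      rintro ⟨s, w⟩ ⟨hs, hw⟩
      have hsp := circleMap_mem_sphere c hr.le θ
      have hne : circleMap c r θ - w ≠ 0 := by
        intro h
        have h2 : w = circleMap c r θ := (sub_eq_zero.1 h).symm
        have hw' : w ∈ ball c r := hw
        rw [h2] at hw'
        exact (ne_of_lt (mem_ball.1 hw')) (mem_sphere.1 hsp)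
      refine DifferentiableAt.differentiableWithinAt ?_
      have hFd : DifferentiableAt ℂ (fun p : ℂ × ℂ => F (p.1, circleMap c r θ)) (s, w) := by
        have h3 : DifferentiableAt ℂ F (s, circleMap c r θ) :=
          hF.differentiableAt (hD.mem_nhds (hVs s hs _ hsp))
        exact DifferentiableAt.comp (f := fun p : ℂ × ℂ => ((p.1, circleMap c r θ) : ℂ × ℂ))
          (s, w) h3 (by fun_prop)
      have h4 : DifferentiableAt ℂ (fun p : ℂ × ℂ => (circleMap c r θ - p.2)⁻¹) (s, w) :=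
        DifferentiableAt.inv (by fun_prop) hne
      exact DifferentiableAt.const_smul (h4.smul hFd) (deriv (circleMap c r) θ)
  have key := analyticOnNhd_intervalIntegral (E := ℂ × ℂ) (F := E) hU hh.1 hh.2
  have h6 := (((2 * π * I : ℂ)⁻¹ • ContinuousLinearMap.id ℂ E).comp_analyticOnNhd key)
  refine h6.congr hU ?_
  intro p hp
  simp only [cau, ker, circleIntegral, Function.comp_apply, _root_.smul_apply,
    ContinuousLinearMap.id_apply]

theorem cau_eq {F : ℂ × ℂ → E} {D : Set (ℂ × ℂ)} (hD : IsOpen D) (hF : DifferentiableOn ℂ F D)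
    {c : ℂ} {r : ℝ} {s : ℂ}
    (hs : ∀ η ∈ closedBall c r, (s, η) ∈ D) {w : ℂ} (hw : w ∈ ball c r) :
    cau F c r (s, w) = F (s, w) := by
  have h1 : DiffContOnCl ℂ (fun η => F (s, η)) (ball c r) := by
    have : DifferentiableOn ℂ (fun η => F (s, η)) (closedBall c r) := by
      intro η hη
      refine DifferentiableAt.differentiableWithinAt ?_
      exact DifferentiableAt.comp (f := fun η : ℂ => ((s, η) : ℂ × ℂ)) η
        (hF.differentiableAt (hD.mem_nhds (hs η hη))) (by fun_prop)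
    exact this.diffContOnCl_ball (subset_refl _)
  have h2 := h1.circleIntegral_sub_inv_smul hw
  simp only [cau]
  rw [h2, smul_smul, inv_mul_cancel₀, one_smul]
  simp [Real.pi_ne_zero, Complex.I_ne_zero]

/-- the value of the Cauchy transform at the centre lies in every open convex set containing the
values on the circle -/
theorem cau_center_mem {F : ℂ × ℂ → E} {D : Set (ℂ × ℂ)} (hF : ContinuousOn F D)
    {c : ℂ} {r : ℝ} (hr : 0 < r) {s : ℂ} (hs : ∀ η ∈ sphere c r, (s, η) ∈ D)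
    {C : Set E} (hCo : IsOpen C) (hCc : Convex ℝ C) (hC : ∀ η ∈ sphere c r, F (s, η) ∈ C) :
    cau F c r (s, c) ∈ C := by
  have hcont : ContinuousOn (fun η => F (s, η)) (sphere c r) :=
    hF.comp (by fun_prop) (fun η hη => hs η hη)
  -- formula as an average
  have h1 : cau F c r (s, c) = (2 * π)⁻¹ • ∫ θ in (0:ℝ)..(2 * π), F (s, circleMap c r θ) := by
    simp only [cau, circleIntegral]
    have : ∀ θ : ℝ, deriv (circleMap c r) θ • ((circleMap c r θ - c)⁻¹ • F (s, circleMap c r θ))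
        = I • F (s, circleMap c r θ) := by
      intro θ
      rw [smul_smul]
      congr 1
      rw [deriv_circleMap]
      have h0 : circleMap c r θ - c = circleMap 0 r θ := by simp [circleMap]
      rw [h0]
      have hne : circleMap 0 r θ ≠ 0 := circleMap_ne_center hr.ne'
      field_simp
    simp only [this]
    rw [intervalIntegral.integral_smul, smul_smul]
    have h2 : ((2 * π * I : ℂ)⁻¹ * I) = (((2 * π)⁻¹ : ℝ) : ℂ) := by
      push_cast
      have := Real.pi_ne_zero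
      field_simp
    rw [h2]
    exact (Complex.coe_smul _ _)
  rw [h1]
  set K := (fun η => F (s, η)) '' sphere c r with hK
  have hKc : IsCompact K := (isCompact_sphere c r).image_of_continuousOn hcont
  have hKC : K ⊆ C := by
    rintro _ ⟨η, hη, rfl⟩
    exact hC η hη
  obtain ⟨δ, hδ, hδC⟩ := hKc.exists_thickening_subset_open hCo hKC
  have hcl : closure (convexHull ℝ K) ⊆ C := by
    intro x hx
    obtain ⟨y, hy, hxy⟩ := Metric.mem_closure_iff.1 hx δ hδ
    have h3 : convexHull ℝ K ⊆ {z | z + (x - y) ∈ C} := by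
      refine convexHull_min ?_ ?_
      · intro z hz
        refine hδC ?_
        rw [mem_thickening_iff]
        refine ⟨z, hz, ?_⟩
        rw [dist_eq_norm]
        simpa [dist_eq_norm] using hxy
      · intro z1 hz1 z2 hz2 a b ha hb hab
        have := hCc hz1 hz2 ha hb hab
        simp only [mem_ofPred_eq] at this ⊢
        convert this using 1
        have : (x - y) = a • (x - y) + b • (x - y) := by rw [← add_smul, hab, one_smul]
        nth_rewrite 1 [this]
        simp only [smul_add]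
        abel
    have := h3 hy
    simpa using this
  refine hcl ?_
  -- average
  have hci : Continuous (fun θ : ℝ => F (s, circleMap c r θ)) :=
    hcont.comp_continuous (continuous_circleMap c r) (fun θ => circleMap_mem_sphere c hr.le θ)
  have h0 : volume (Ioc (0:ℝ) (2 * π)) ≠ 0 := by
    rw [Real.volume_Ioc]; simp [Real.pi_pos]
  have ht : volume (Ioc (0:ℝ) (2 * π)) ≠ ⊤ := by
    rw [Real.volume_Ioc]; exact ENNReal.ofReal_ne_top
  have h4 : (⨍ θ in Ioc (0:ℝ) (2 * π), F (s, circleMap c r θ)) ∈ closure (convexHull ℝ K) :=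
    (convex_convexHull ℝ K).closure.set_average_mem isClosed_closure h0 ht
      (ae_of_all _ (fun θ => subset_closure (subset_convexHull ℝ K
        ⟨_, circleMap_mem_sphere c hr.le θ, rfl⟩)))
      (hci.integrableOn_Ioc)
  rw [setAverage_eq] at h4
  rw [intervalIntegral.integral_of_le (by positivity)]
  have h5 : volume.real (Ioc (0:ℝ) (2 * π)) = 2 * π := by
    rw [Real.volume_real_Ioc_of_le (by positivity)]; ring
  rw [h5] at h4
  exact h4

/-- analytic local inverse in one variable -/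
theorem exists_local_inverse {P : ℂ → ℂ} {t0 : ℂ} (hP : AnalyticAt ℂ P t0)
    (hP' : deriv P t0 ≠ 0) :
    ∃ e : OpenPartialHomeomorph ℂ ℂ, t0 ∈ e.source ∧ (∀ y, e y = P y) ∧
      AnalyticOnNhd ℂ e e.source ∧ AnalyticOnNhd ℂ e.symm e.target := by
  have h1 : HasFDerivAt P ((ContinuousLinearEquiv.unitsEquivAut ℂ (Units.mk0 _ hP') :
      ℂ ≃L[ℂ] ℂ) : ℂ →L[ℂ] ℂ) t0 := by
    have h2 := hP.differentiableAt.hasDerivAt.hasFDerivAt
    have h3 : ((ContinuousLinearEquiv.unitsEquivAut ℂ (Units.mk0 _ hP') :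
      ℂ ≃L[ℂ] ℂ) : ℂ →L[ℂ] ℂ) = ContinuousLinearMap.toSpanSingleton ℂ (deriv P t0) := by
      ext
      simp
    rw [h3]
    exact h2
  obtain ⟨e, h3, -, h4, h5, h6⟩ := exists_analytic_openPartialHomeomorph hP _ h1 univ_mem
  exact ⟨e, h3, h4, h5, h6⟩

/-- **local extension at a strictly pseudoconcave point** -/
theorem levi {F : ℂ × ℂ → E} {D : Set (ℂ × ℂ)} (hD : IsOpen D) (hF : DifferentiableOn ℂ F D)
    {C : Set E} (hCo : IsOpen C) (hCc : Convex ℝ C) (hC : ∀ p ∈ D, F p ∈ C)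
    {P H : ℂ → ℂ} {t0 w0 : ℂ} (hP : AnalyticAt ℂ P t0) (hP' : deriv P t0 ≠ 0)
    (hH : AnalyticAt ℂ H w0) (h0 : (P t0).im = (H w0).im) {δ : ℝ} (hδ : 0 < δ)
    (hsub : ∀ᶠ p : ℂ × ℂ in 𝓝 (t0, w0),
      (P p.1).im < (H p.2).im + δ * ‖p.2 - w0‖ ^ 2 → p ∈ D) :
    ∃ N : Set (ℂ × ℂ), IsOpen N ∧ (t0, w0) ∈ N ∧ ∃ G : ℂ × ℂ → E, DifferentiableOn ℂ G N ∧
      (∀ p ∈ N, G p ∈ C) ∧ ∀ p ∈ N, (P p.1).im < (H p.2).im → p ∈ D ∧ G p = F p := by
  obtain ⟨e, ht0, he, hea, hes⟩ := exists_local_inverse hP hP'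
  set κ : ℂ × ℂ → ℂ := fun q => e.symm (P t0 + q.1 + (H q.2 - H w0)) with hκ
  have hPt : P t0 ∈ e.target := by rw [← he]; exact e.map_source ht0
  have harg : ContinuousAt (fun q : ℂ × ℂ => P t0 + q.1 + (H q.2 - H w0)) ((0 : ℂ), w0) := by
    have h1 : ContinuousAt (fun q : ℂ × ℂ => H q.2) ((0 : ℂ), w0) :=
      hH.continuousAt.comp (f := Prod.snd) continuousAt_snd
    exact (continuousAt_const.add continuousAt_fst).add (h1.sub continuousAt_const)
  have harg0 : P t0 + (0 : ℂ) + (H w0 - H w0) = P t0 := by ring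
  have hκc : ContinuousAt κ ((0 : ℂ), w0) := by
    have h2 : ContinuousAt e.symm (P t0 + (0 : ℂ) + (H w0 - H w0)) := by
      rw [harg0]; exact (hes _ hPt).continuousAt
    exact ContinuousAt.comp (g := e.symm) (f := fun q : ℂ × ℂ => P t0 + q.1 + (H q.2 - H w0))
      h2 harg
  have hκ0 : κ ((0 : ℂ), w0) = t0 := by
    simp only [hκ]
    rw [harg0, ← he]
    exact e.left_inv ht0
  have ev1 : ∀ᶠ q : ℂ × ℂ in 𝓝 ((0 : ℂ), w0), P t0 + q.1 + (H q.2 - H w0) ∈ e.target := by
    have := harg.eventually (e.open_target.mem_nhds (by simpa [harg0] using hPt))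
    exact this
  have ev2 : ∀ᶠ q : ℂ × ℂ in 𝓝 ((0 : ℂ), w0), AnalyticAt ℂ H q.2 :=
    (continuousAt_snd (p := ((0 : ℂ), w0))).eventually hH.eventually_analyticAt
  have ev3 : ∀ᶠ q : ℂ × ℂ in 𝓝 ((0 : ℂ), w0),
      (P (κ q)).im < (H q.2).im + δ * ‖q.2 - w0‖ ^ 2 → (κ q, q.2) ∈ D := by
    have h3 : Tendsto (fun q : ℂ × ℂ => (κ q, q.2)) (𝓝 ((0 : ℂ), w0)) (𝓝 (t0, w0)) := by
      have := hκc.prodMk (continuousAt_snd (p := ((0 : ℂ), w0)))
      simpa [ContinuousAt, hκ0] using this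
    exact h3.eventually hsub
  obtain ⟨ρ, hρ, hρs⟩ := Metric.eventually_nhds_iff_ball.1 (ev1.and (ev2.and ev3))
  have hbox : ∀ s w : ℂ, ‖s‖ < ρ → ‖w - w0‖ < ρ → (s, w) ∈ ball ((0 : ℂ), w0) ρ := by
    intro s w hs hw
    rw [mem_ball, Prod.dist_eq]
    exact max_lt (by simpa [dist_eq_norm] using hs) (by simpa [dist_eq_norm] using hw)
  have hPκ : ∀ q ∈ ball ((0 : ℂ), w0) ρ, P (κ q) = P t0 + q.1 + (H q.2 - H w0) := by
    intro q hq
    rw [← he (κ q)]
    exact e.right_inv (hρs q hq).1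
  have hPκim : ∀ q ∈ ball ((0 : ℂ), w0) ρ, (P (κ q)).im = q.1.im + (H q.2).im := by
    intro q hq
    rw [hPκ q hq]
    simp only [add_im, sub_im]
    rw [h0]; ring
  have hκd : ∀ q ∈ ball ((0 : ℂ), w0) ρ, DifferentiableAt ℂ κ q := by
    intro q hq
    have h1 := (hes _ (hρs q hq).1).differentiableAt
    have h2 : DifferentiableAt ℂ (fun q : ℂ × ℂ => H q.2) q :=
      DifferentiableAt.comp q (hρs q hq).2.1.differentiableAt differentiableAt_snd
    exact DifferentiableAt.comp (g := e.symm)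
      (f := fun q : ℂ × ℂ => P t0 + q.1 + (H q.2 - H w0)) q h1
      ((differentiableAt_fst.const_add _).add (h2.sub_const _))
  set D' : Set (ℂ × ℂ) := ball ((0 : ℂ), w0) ρ ∩ (fun q : ℂ × ℂ => (κ q, q.2)) ⁻¹' D with hD'
  have hκcont : ContinuousOn (fun q : ℂ × ℂ => (κ q, q.2)) (ball ((0 : ℂ), w0) ρ) := by
    intro q hq
    exact ((hκd q hq).continuousAt.prodMk continuousAt_snd).continuousWithinAt
  have hD'o : IsOpen D' := hκcont.isOpen_inter_preimage isOpen_ball hD
  set F' : ℂ × ℂ → E := fun q => F (κ q, q.2) with hF'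
  have hF'd : DifferentiableOn ℂ F' D' := by
    intro q hq
    refine DifferentiableAt.differentiableWithinAt ?_
    have h1 : DifferentiableAt ℂ F (κ q, q.2) := hF.differentiableAt (hD.mem_nhds hq.2)
    exact DifferentiableAt.comp (g := F) (f := fun q : ℂ × ℂ => (κ q, q.2)) q h1
      ((hκd q hq.1).prodMk differentiableAt_snd)
  have hin : ∀ s w : ℂ, ‖s‖ < ρ → ‖w - w0‖ < ρ → s.im < δ * ‖w - w0‖ ^ 2 → (s, w) ∈ D' := by
    intro s w hs hw hlt
    refine ⟨hbox s w hs hw, ?_⟩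
    refine (hρs _ (hbox s w hs hw)).2.2 ?_
    rw [hPκim _ (hbox s w hs hw)]
    change s.im + (H w).im < (H w).im + δ * ‖w - w0‖ ^ 2
    linarith
  set r : ℝ := ρ / 2 with hr
  have hr0 : 0 < r := by positivity
  set c : ℝ := min (ρ / 2) (δ * r ^ 2) with hc
  have hc0 : 0 < c := lt_min (by positivity) (by positivity)
  have hcρ : c < ρ := lt_of_le_of_lt (min_le_left _ _) (by linarith)
  have hVs : ∀ s ∈ ball (0 : ℂ) c, ∀ η ∈ sphere w0 r, (s, η) ∈ D' := by
    intro s hs η hη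
    have hs' : ‖s‖ < c := by simpa using hs
    have hη' : ‖η - w0‖ = r := by simpa [dist_eq_norm] using hη
    refine hin s η (hs'.trans hcρ) (by rw [hη']; linarith) ?_
    rw [hη']
    calc s.im ≤ ‖s‖ := (le_abs_self _).trans (Complex.abs_im_le_norm s)
      _ < c := hs'
      _ ≤ δ * r ^ 2 := min_le_right _ _
  have hG' := hartogs hD'o hF'd (V := ball (0 : ℂ) c) isOpen_ball hr0 hVs
  have hGF : ∀ s ∈ ball (0 : ℂ) c, s.im < 0 → ∀ w ∈ ball w0 r,
      cau F' w0 r (s, w) = F' (s, w) := by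
    intro s hs him w hw
    refine cau_eq hD'o hF'd (fun η hη => ?_) hw
    have hs' : ‖s‖ < c := by simpa using hs
    have hη' : ‖η - w0‖ ≤ r := by simpa [dist_eq_norm] using hη
    refine hin s η (hs'.trans hcρ) (by linarith) ?_
    have : 0 ≤ δ * ‖η - w0‖ ^ 2 := by positivity
    linarith
  -- the map back
  set σ : ℂ × ℂ → ℂ × ℂ := fun p => (P p.1 - P t0 - (H p.2 - H w0), p.2) with hσ
  have hPan : ∀ t ∈ e.source, DifferentiableAt ℂ P t := by
    intro t ht
    have h1 := (hea t ht).differentiableAt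
    have h2 : (e : ℂ → ℂ) = P := funext he
    rwa [h2] at h1
  obtain ⟨ρ2, hρ2, hρ2s⟩ := Metric.eventually_nhds_iff_ball.1 hH.eventually_analyticAt
  have hσd : ∀ p ∈ e.source ×ˢ ball w0 ρ2, DifferentiableAt ℂ σ p := by
    rintro ⟨t, w⟩ ⟨ht, hw⟩
    have h1 : DifferentiableAt ℂ (fun p : ℂ × ℂ => P p.1) (t, w) :=
      DifferentiableAt.comp (t, w) (hPan t ht) differentiableAt_fst
    have h2 : DifferentiableAt ℂ (fun p : ℂ × ℂ => H p.2) (t, w) :=
      DifferentiableAt.comp (t, w) (hρ2s w hw).differentiableAt differentiableAt_snd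
    exact ((h1.sub_const _).sub (h2.sub_const _)).prodMk differentiableAt_snd
  have hσc : ContinuousOn σ (e.source ×ˢ ball w0 ρ2) :=
    fun p hp => (hσd p hp).continuousAt.continuousWithinAt
  set N0 : Set (ℂ × ℂ) := (e.source ×ˢ ball w0 ρ2) ∩ σ ⁻¹' (ball (0 : ℂ) c ×ˢ ball w0 r) with hN0
  have hN0o : IsOpen N0 :=
    hσc.isOpen_inter_preimage (e.open_source.prod isOpen_ball) (isOpen_ball.prod isOpen_ball)
  have hσ0 : σ (t0, w0) = (0, w0) := by simp [hσ]
  have hmem0 : (t0, w0) ∈ N0 := by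
    refine ⟨⟨ht0, mem_ball_self hρ2⟩, ?_⟩
    rw [mem_preimage, hσ0]
    exact ⟨mem_ball_self hc0, mem_ball_self hr0⟩
  set G : ℂ × ℂ → E := fun p => cau F' w0 r (σ p) with hG
  have hGd : DifferentiableOn ℂ G N0 := by
    intro p hp
    refine DifferentiableAt.differentiableWithinAt ?_
    exact DifferentiableAt.comp (g := cau F' w0 r) (f := σ) p
      (hG' (σ p) hp.2).differentiableAt (hσd p hp.1)
  have hG0 : G (t0, w0) ∈ C := by
    simp only [hG, hσ0]
    refine cau_center_mem hF'd.continuousOn hr0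
      (fun η hη => hVs 0 (mem_ball_self hc0) η hη) hCo hCc ?_
    intro η hη
    exact hC _ (hVs 0 (mem_ball_self hc0) η hη).2
  refine ⟨N0 ∩ G ⁻¹' C, hGd.continuousOn.isOpen_inter_preimage hN0o hCo, ⟨hmem0, hG0⟩, G,
    hGd.mono inter_subset_left, fun p hp => hp.2, ?_⟩
  rintro ⟨t, w⟩ ⟨⟨⟨hts, hwρ⟩, hσm⟩, -⟩ hlt
  obtain ⟨hs, hw⟩ := hσm
  have hs1 : (P t - P t0 - (H w - H w0)) ∈ ball (0 : ℂ) c := hs
  have him : (P t - P t0 - (H w - H w0)).im < 0 := by
    simp only [sub_im]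
    have : (P t).im < (H w).im := hlt
    rw [h0]; linarith
  have hκt : κ (P t - P t0 - (H w - H w0), w) = t := by
    simp only [hκ]
    have : P t0 + (P t - P t0 - (H w - H w0)) + (H w - H w0) = P t := by ring
    rw [this, ← he]
    exact e.left_inv hts
  have hmem : (P t - P t0 - (H w - H w0), w) ∈ D' := by
    refine hin _ _ ?_ ?_ ?_
    · have : ‖P t - P t0 - (H w - H w0)‖ < c := by simpa using hs1
      exact this.trans hcρ
    · have : ‖w - w0‖ < r := by simpa [dist_eq_norm] using hw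
      linarith
    · have : 0 ≤ δ * ‖w - w0‖ ^ 2 := by positivity
      linarith
  constructor
  · have h1 := hmem.2
    simp only [mem_preimage, hκt] at h1
    exact h1
  · have h2 := hGF _ hs1 him w hw
    simp only [hG, hσ]
    rw [h2]
    simp only [hF', hκt]

end Crest.Agent.R102.K669
end
end

-- ▼ part R102/KontB_669

/-!
Row 102, T1-B (b): Kontinuitaetssatz, part B: the main sheet (vertical-star domain of holomorphy
above a base slab, values in an open convex set), its single-valued extension, the test with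
touching holomorphic charts, and the penalised heights `R_Φ(w)` (helper669).
-/

set_option autoImplicit false
set_option linter.unusedSectionVars false

open Set Filter Topology Metric Complex MeasureTheory
open scoped Real

noncomputable section

namespace Crest.Agent.R102.K669

variable {E : Type*} [NormedAddCommGroup E] [NormedSpace ℂ E] [CompleteSpace E]

/-- base slab -/
def Slab (y1 y0 : ℝ) (W : Set ℂ) : Set (ℂ × ℂ) := {q | y1 < q.1.im ∧ q.1.im < y0 ∧ q.2 ∈ W}

/-- vertical tube below (and slightly above) the point `p` -/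
def Tube (y1 : ℝ) (p : ℂ × ℂ) (ε : ℝ) : Set (ℂ × ℂ) :=
  {q | |q.1.re - p.1.re| < ε ∧ y1 < q.1.im ∧ q.1.im < p.1.im + ε ∧ ‖q.2 - p.2‖ < ε}

/-- `p` is a regular point of the main sheet of `F` (values in `C`) -/
def IsReg (F : ℂ × ℂ → E) (C : Set E) (y1 y0 : ℝ) (W : Set ℂ) (p : ℂ × ℂ) : Prop :=
  ∃ ε > 0, ball p.2 ε ⊆ W ∧ ∃ G : ℂ × ℂ → E, DifferentiableOn ℂ G (Tube y1 p ε) ∧
    (∀ q ∈ Tube y1 p ε, G q ∈ C) ∧ ∀ q ∈ Tube y1 p ε, q.1.im < y0 → G q = F q

lemma isOpen_tube (y1 : ℝ) (p : ℂ × ℂ) (ε : ℝ) : IsOpen (Tube y1 p ε) := by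
  have h1 : Continuous (fun q : ℂ × ℂ => |q.1.re - p.1.re|) := by fun_prop
  have h2 : Continuous (fun q : ℂ × ℂ => q.1.im) := by fun_prop
  have h3 : Continuous (fun q : ℂ × ℂ => ‖q.2 - p.2‖) := by fun_prop
  exact IsOpen.inter (isOpen_lt h1 continuous_const) (IsOpen.inter
    (isOpen_lt continuous_const h2) (IsOpen.inter
    (isOpen_lt h2 continuous_const) (isOpen_lt h3 continuous_const)))

lemma isOpen_slab {y1 y0 : ℝ} {W : Set ℂ} (hW : IsOpen W) : IsOpen (Slab y1 y0 W) := by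
  have h2 : Continuous (fun q : ℂ × ℂ => q.1.im) := by fun_prop
  exact IsOpen.inter (isOpen_lt continuous_const h2) (IsOpen.inter
    (isOpen_lt h2 continuous_const) (hW.preimage continuous_snd))

lemma mem_tube_self {y1 ε : ℝ} {p : ℂ × ℂ} (hp : y1 < p.1.im) (hε : 0 < ε) :
    p ∈ Tube y1 p ε := by
  refine ⟨by simpa using hε, hp, by linarith, by simpa using hε⟩

lemma tube_mono {y1 : ℝ} {p : ℂ × ℂ} {ε ε' : ℝ} (h : ε ≤ ε') : Tube y1 p ε ⊆ Tube y1 p ε' := by
  rintro q ⟨h1, h2, h3, h4⟩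
  exact ⟨h1.trans_le h, h2, by linarith, h4.trans_le h⟩

/-- the tube of a nearby point is contained in the tube -/
lemma tube_subset {y1 : ℝ} {p q : ℂ × ℂ} {ε η : ℝ} (h1 : |q.1.re - p.1.re| ≤ ε - η)
    (h2 : q.1.im ≤ p.1.im + (ε - η)) (h3 : ‖q.2 - p.2‖ ≤ ε - η) :
    Tube y1 q η ⊆ Tube y1 p ε := by
  rintro z ⟨a1, a2, a3, a4⟩
  refine ⟨?_, a2, by linarith, ?_⟩
  · have := abs_add_le (z.1.re - q.1.re) (q.1.re - p.1.re)
    have h4 : (z.1.re - q.1.re) + (q.1.re - p.1.re) = z.1.re - p.1.re := by ring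
    rw [h4] at this
    linarith
  · have := norm_add_le (z.2 - q.2) (q.2 - p.2)
    have h4 : (z.2 - q.2) + (q.2 - p.2) = z.2 - p.2 := by ring
    rw [h4] at this
    linarith

section Sheet

variable {F : ℂ × ℂ → E} {C : Set E} {y1 y0 : ℝ} {W : Set ℂ}

lemma isReg_of_slab (hW : IsOpen W) (hF : DifferentiableOn ℂ F (Slab y1 y0 W))
    (hC : ∀ q ∈ Slab y1 y0 W, F q ∈ C) {p : ℂ × ℂ} (h1 : p.1.im < y0)
    (h2 : p.2 ∈ W) : IsReg F C y1 y0 W p := by
  obtain ⟨ε, hε, hεW⟩ := Metric.isOpen_iff.1 hW p.2 h2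
  set η := min ε (y0 - p.1.im) with hη
  have hη0 : 0 < η := lt_min hε (by linarith)
  have hsub : Tube y1 p η ⊆ Slab y1 y0 W := by
    rintro q ⟨a1, a2, a3, a4⟩
    refine ⟨a2, ?_, hεW ?_⟩
    · have : η ≤ y0 - p.1.im := min_le_right _ _
      linarith
    · rw [mem_ball, dist_eq_norm]
      exact a4.trans_le (min_le_left _ _)
  refine ⟨η, hη0, (ball_subset_ball (min_le_left _ _)).trans hεW, F, hF.mono hsub,
    fun q hq => hC q (hsub hq), fun q _ _ => rfl⟩

lemma IsReg.below {p q : ℂ × ℂ} (hp : IsReg F C y1 y0 W p) (h1 : q.1.re = p.1.re)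
    (h2 : q.2 = p.2) (h3 : q.1.im ≤ p.1.im) : IsReg F C y1 y0 W q := by
  obtain ⟨ε, hε, hεW, G, hG, hGC, hGF⟩ := hp
  have hsub : Tube y1 q ε ⊆ Tube y1 p ε :=
    tube_subset (by simp [h1]) (by linarith) (by simp [h2])
  exact ⟨ε, hε, by rw [h2]; exact hεW, G, hG.mono hsub, fun z hz => hGC z (hsub hz),
    fun z hz => hGF z (hsub hz)⟩

/-- regularity of all points near `p` from one tube -/
lemma isReg_of_tube {p q : ℂ × ℂ} {ε : ℝ} (hεW : ball p.2 ε ⊆ W) {G : ℂ × ℂ → E}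
    (hG : DifferentiableOn ℂ G (Tube y1 p ε)) (hGC : ∀ q ∈ Tube y1 p ε, G q ∈ C)
    (hGF : ∀ q ∈ Tube y1 p ε, q.1.im < y0 → G q = F q) (hq1 : |q.1.re - p.1.re| < ε)
    (hq2 : q.1.im < p.1.im + ε) (hq3 : ‖q.2 - p.2‖ < ε) : IsReg F C y1 y0 W q := by
  set η := min (ε - |q.1.re - p.1.re|) (min (p.1.im + ε - q.1.im) (ε - ‖q.2 - p.2‖)) with hη
  have hη0 : 0 < η := lt_min (by linarith) (lt_min (by linarith) (by linarith))
  have e1 : η ≤ ε - |q.1.re - p.1.re| := min_le_left _ _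
  have e2 : η ≤ p.1.im + ε - q.1.im := (min_le_right _ _).trans (min_le_left _ _)
  have e3 : η ≤ ε - ‖q.2 - p.2‖ := (min_le_right _ _).trans (min_le_right _ _)
  have hsub : Tube y1 q η ⊆ Tube y1 p ε :=
    tube_subset (by linarith) (by linarith) (by linarith)
  refine ⟨η, hη0, ?_, G, hG.mono hsub, fun z hz => hGC z (hsub hz),
    fun z hz => hGF z (hsub hz)⟩
  refine Subset.trans ?_ hεW
  intro z hz
  rw [mem_ball, dist_eq_norm] at hz ⊢
  have := norm_add_le (z - q.2) (q.2 - p.2)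
  have h4 : (z - q.2) + (q.2 - p.2) = z - p.2 := by ring
  rw [h4] at this
  linarith

lemma isOpen_isReg : IsOpen {p | IsReg F C y1 y0 W p} := by
  rw [Metric.isOpen_iff]
  rintro p ⟨ε, hε, hεW, G, hG, hGC, hGF⟩
  refine ⟨ε, hε, fun q hq => ?_⟩
  rw [mem_ball, Prod.dist_eq, max_lt_iff] at hq
  obtain ⟨h1, h2⟩ := hq
  rw [dist_eq_norm] at h1 h2
  have h3 : |q.1.re - p.1.re| ≤ ‖q.1 - p.1‖ := by
    simpa using Complex.abs_re_le_norm (q.1 - p.1)
  have h4 : |q.1.im - p.1.im| ≤ ‖q.1 - p.1‖ := by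
    simpa using Complex.abs_im_le_norm (q.1 - p.1)
  have h5 := le_abs_self (q.1.im - p.1.im)
  exact isReg_of_tube hεW hG hGC hGF (by linarith) (by linarith) h2

/-- two holomorphic functions on tubes which agree with `F` on the slab agree -/
lemma eq_of_tubes (h10 : y1 < y0) {p p' : ℂ × ℂ} {ε ε' : ℝ} {G G' : ℂ × ℂ → E}
    (hG : DifferentiableOn ℂ G (Tube y1 p ε)) (hG' : DifferentiableOn ℂ G' (Tube y1 p' ε'))
    (hGF : ∀ q ∈ Tube y1 p ε, q.1.im < y0 → G q = F q)
    (hGF' : ∀ q ∈ Tube y1 p' ε', q.1.im < y0 → G' q = F q) {q : ℂ × ℂ}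
    (hq : q ∈ Tube y1 p ε) (hq' : q ∈ Tube y1 p' ε') : G q = G' q := by
  set A : Set ℂ := {t | (t, q.2) ∈ Tube y1 p ε ∧ (t, q.2) ∈ Tube y1 p' ε'} with hA
  have hAo : IsOpen A :=
    ((isOpen_tube y1 p ε).preimage (by fun_prop)).inter
      ((isOpen_tube y1 p' ε').preimage (by fun_prop))
  have hconv : ∀ (p : ℂ × ℂ) (ε : ℝ), Convex ℝ {t : ℂ | (t, q.2) ∈ Tube y1 p ε} := by
    intro p ε t ht s hs a b ha hb hab
    obtain ⟨a1, a2, a3, a4⟩ := ht
    obtain ⟨b1, b2, b3, b4⟩ := hs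
    rw [abs_lt] at a1 b1
    have hre : (a • t + b • s).re = a * t.re + b * s.re := by simp
    have him : (a • t + b • s).im = a * t.im + b * s.im := by simp
    have hb' : b = 1 - a := by linarith
    rcases eq_or_lt_of_le ha with h0 | h0
    · subst h0
      have : b = 1 := by linarith
      subst this
      simpa using ⟨abs_lt.2 b1, b2, b3, b4⟩
    · have a11 : -ε < t.re - p.1.re := a1.1
      have a12 : t.re - p.1.re < ε := a1.2
      have b11 : -ε < s.re - p.1.re := b1.1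
      have b12 : s.re - p.1.re < ε := b1.2
      have a2' : y1 < t.im := a2
      have b2' : y1 < s.im := b2
      have a3' : t.im < p.1.im + ε := a3
      have b3' : s.im < p.1.im + ε := b3
      refine ⟨?_, ?_, ?_, a4⟩
      · rw [abs_lt]
        simp only [hre]
        subst hb'
        constructor
        · have h1 := mul_lt_mul_of_pos_left a11 h0
          have h2 := mul_le_mul_of_nonneg_left b11.le hb
          nlinarith
        · have h1 := mul_lt_mul_of_pos_left a12 h0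
          have h2 := mul_le_mul_of_nonneg_left b12.le hb
          nlinarith
      · simp only [him]
        subst hb'
        have h1 := mul_lt_mul_of_pos_left a2' h0
        have h2 := mul_le_mul_of_nonneg_left b2'.le hb
        nlinarith
      · simp only [him]
        subst hb'
        have h1 := mul_lt_mul_of_pos_left a3' h0
        have h2 := mul_le_mul_of_nonneg_left b3'.le hb
        nlinarith
  have hAc : Convex ℝ A := (hconv p ε).inter (hconv p' ε')
  have hslice : ∀ (H : ℂ × ℂ → E) (T : Set (ℂ × ℂ)), IsOpen T → DifferentiableOn ℂ H T →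
      A ⊆ {t | (t, q.2) ∈ T} → AnalyticOnNhd ℂ (fun t => H (t, q.2)) A := by
    intro H T hT hH hAT
    refine DifferentiableOn.analyticOnNhd ?_ hAo
    intro t ht
    refine DifferentiableAt.differentiableWithinAt ?_
    exact DifferentiableAt.comp (g := H) (f := fun t : ℂ => ((t, q.2) : ℂ × ℂ)) t
      (hH.differentiableAt (hT.mem_nhds (hAT ht))) (by fun_prop)
  have h1 := hslice G _ (isOpen_tube y1 p ε) hG (fun t ht => ht.1)
  have h2 := hslice G' _ (isOpen_tube y1 p' ε') hG' (fun t ht => ht.2)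
  -- a point of `A` below `y0`
  set yb := min q.1.im ((y1 + y0) / 2) with hyb
  have hq1 := hq.2.1
  have hyb1 : y1 < yb := lt_min hq1 (by linarith)
  have hyb0 : yb < y0 := lt_of_le_of_lt (min_le_right _ _) (by linarith)
  set tb : ℂ := ⟨q.1.re, yb⟩ with htb
  have hyq : yb ≤ q.1.im := min_le_left _ _
  have htbA : tb ∈ A :=
    ⟨⟨hq.1, hyb1, lt_of_le_of_lt hyq hq.2.2.1, hq.2.2.2⟩,
      ⟨hq'.1, hyb1, lt_of_le_of_lt hyq hq'.2.2.1, hq'.2.2.2⟩⟩
  have hev : (fun t => G (t, q.2)) =ᶠ[𝓝 tb] (fun t => G' (t, q.2)) := by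
    have h3 : {t : ℂ | t.im < y0} ∈ 𝓝 tb :=
      (isOpen_lt Complex.continuous_im continuous_const).mem_nhds hyb0
    filter_upwards [h3, hAo.mem_nhds htbA] with t ht htA
    rw [hGF _ htA.1 ht, hGF' _ htA.2 ht]
  have h4 := h1.eqOn_of_preconnected_of_eventuallyEq h2 hAc.isPreconnected htbA hev
  have h5 : q.1 ∈ A := ⟨hq, hq'⟩
  exact h4 h5

variable (F C y1 y0 W) in
open Classical in
/-- the single-valued extension of `F` to the main sheet -/
def ext (p : ℂ × ℂ) : E :=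
  if h : IsReg F C y1 y0 W p then h.choose_spec.2.2.choose p else 0

lemma ext_eq (h10 : y1 < y0) {p : ℂ × ℂ} {ε : ℝ} (hεW : ball p.2 ε ⊆ W) {G : ℂ × ℂ → E}
    (hG : DifferentiableOn ℂ G (Tube y1 p ε)) (hGC : ∀ q ∈ Tube y1 p ε, G q ∈ C)
    (hGF : ∀ q ∈ Tube y1 p ε, q.1.im < y0 → G q = F q) {q : ℂ × ℂ} (hq : q ∈ Tube y1 p ε) :
    ext F C y1 y0 W q = G q := by
  have hreg : IsReg F C y1 y0 W q := isReg_of_tube hεW hG hGC hGF hq.1 hq.2.2.1 hq.2.2.2
  rw [ext, dif_pos hreg]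
  have h1 := hreg.choose_spec
  have h2 := h1.2.2.choose_spec
  exact eq_of_tubes h10 h2.1 hG h2.2.2 hGF (mem_tube_self hq.2.1 h1.1) hq

lemma ext_differentiableAt (h10 : y1 < y0) {p : ℂ × ℂ} (hp : IsReg F C y1 y0 W p)
    (h1 : y1 < p.1.im) : DifferentiableAt ℂ (ext F C y1 y0 W) p := by
  obtain ⟨ε, hε, hεW, G, hG, hGC, hGF⟩ := hp
  have hmem := (isOpen_tube y1 p ε).mem_nhds (mem_tube_self h1 hε)
  refine (hG.differentiableAt hmem).congr_of_eventuallyEq ?_
  filter_upwards [hmem] with q hq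
  exact ext_eq h10 hεW hG hGC hGF hq

lemma ext_mem (h10 : y1 < y0) {p : ℂ × ℂ} (hp : IsReg F C y1 y0 W p) (h1 : y1 < p.1.im) :
    ext F C y1 y0 W p ∈ C := by
  obtain ⟨ε, hε, hεW, G, hG, hGC, hGF⟩ := hp
  rw [ext_eq h10 hεW hG hGC hGF (mem_tube_self h1 hε)]
  exact hGC _ (mem_tube_self h1 hε)

lemma ext_slab (h10 : y1 < y0) {p : ℂ × ℂ} (hp : IsReg F C y1 y0 W p) (h1 : y1 < p.1.im)
    (h0 : p.1.im < y0) : ext F C y1 y0 W p = F p := by
  obtain ⟨ε, hε, hεW, G, hG, hGC, hGF⟩ := hp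
  rw [ext_eq h10 hεW hG hGC hGF (mem_tube_self h1 hε)]
  exact hGF _ (mem_tube_self h1 hε) h0

/-- **pushing up**: a local extension at `p` which agrees with the main sheet just below `p` -/
lemma isReg_of_local (h10 : y1 < y0) (hW : IsOpen W) (hF : DifferentiableOn ℂ F (Slab y1 y0 W))
    (hC : ∀ q ∈ Slab y1 y0 W, F q ∈ C) {p : ℂ × ℂ} (hp : y1 < p.1.im)
    {N : Set (ℂ × ℂ)} (hN : IsOpen N) (hpN : p ∈ N) {G : ℂ × ℂ → E} (hG : DifferentiableOn ℂ G N)
    (hGC : ∀ q ∈ N, G q ∈ C) (hpW : p.2 ∈ W)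
    (hlow : ∀ η > 0, ∃ y2, p.1.im - η < y2 ∧ y2 < p.1.im ∧
      ∀ᶠ q in 𝓝 ((⟨p.1.re, y2⟩ : ℂ), p.2), IsReg F C y1 y0 W q ∧ G q = ext F C y1 y0 W q) :
    IsReg F C y1 y0 W p := by
  rcases lt_or_ge p.1.im y0 with hlt | hge
  · exact isReg_of_slab hW hF hC hlt hpW
  obtain ⟨ρ, hρ, hρN⟩ := Metric.isOpen_iff.1 hN p hpN
  obtain ⟨y2, h1, h2, h3⟩ := hlow (min (ρ / 4) (p.1.im - y1)) (lt_min (by positivity) (by linarith))
  have h1a : p.1.im - ρ / 4 < y2 := by
    have := min_le_left (ρ / 4) (p.1.im - y1); linarith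
  have h1b : y1 < y2 := by
    have := min_le_right (ρ / 4) (p.1.im - y1); linarith
  obtain ⟨⟨ε2, hε2, hεW2, G2, hG2, hGC2, hGF2⟩, -⟩ := h3.self_of_nhds
  obtain ⟨η, hη, hηs⟩ := Metric.eventually_nhds_iff_ball.1 h3
  set ε := min (ρ / 4) (min ε2 (η / 2)) with hε
  have hε0 : 0 < ε := lt_min (by positivity) (lt_min hε2 (by positivity))
  have e1 : ε ≤ ρ / 4 := min_le_left _ _
  have e2 : ε ≤ ε2 := (min_le_right _ _).trans (min_le_left _ _)
  have e3 : ε ≤ η / 2 := (min_le_right _ _).trans (min_le_right _ _)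
  classical
  -- upper part lies in `N`
  have hup : ∀ q ∈ Tube y1 p ε, y2 - η / 2 ≤ q.1.im → y2 - ρ / 4 ≤ q.1.im → q ∈ N := by
    rintro q ⟨a1, a2, a3, a4⟩ _ h
    refine hρN ?_
    rw [mem_ball, Prod.dist_eq, max_lt_iff]
    constructor
    · rw [dist_eq_norm]
      have h5 := Complex.norm_le_abs_re_add_abs_im (q.1 - p.1)
      have h6 : |(q.1 - p.1).im| ≤ ρ / 2 := by
        rw [abs_le]
        simp only [sub_im]
        constructor <;> linarith
      have h7 : |(q.1 - p.1).re| < ρ / 4 := by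
        simp only [sub_re]; linarith
      linarith
    · rw [dist_eq_norm]; linarith
  -- the strip around `y2`
  have hmid : ∀ q ∈ Tube y1 p ε, |q.1.im - y2| < η / 2 →
      IsReg F C y1 y0 W q ∧ G q = ext F C y1 y0 W q := by
    rintro q ⟨a1, a2, a3, a4⟩ h
    refine hηs q ?_
    rw [mem_ball, Prod.dist_eq, max_lt_iff]
    constructor
    · rw [dist_eq_norm]
      have h5 := Complex.norm_le_abs_re_add_abs_im (q.1 - ⟨p.1.re, y2⟩)
      have h6 : |(q.1 - (⟨p.1.re, y2⟩ : ℂ)).im| < η / 2 := by simpa using h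
      have h7 : |(q.1 - (⟨p.1.re, y2⟩ : ℂ)).re| < η / 2 := by
        simp only [sub_re]; linarith
      linarith
    · rw [dist_eq_norm]; linarith
  have hlower : ∀ q ∈ Tube y1 p ε, q.1.im < y2 → IsReg F C y1 y0 W q := by
    rintro q ⟨a1, a2, a3, a4⟩ h
    exact isReg_of_tube (p := ((⟨p.1.re, y2⟩ : ℂ), p.2)) hεW2 hG2 hGC2 hGF2
      (by simp only; linarith) (by simp only; linarith) (by simp only; linarith)
  set Gt : ℂ × ℂ → E := fun q => if q.1.im < y2 then ext F C y1 y0 W q else G q with hGt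
  have hGtd : DifferentiableOn ℂ Gt (Tube y1 p ε) := by
    intro q hq
    refine DifferentiableAt.differentiableWithinAt ?_
    have hto := (isOpen_tube y1 p ε).mem_nhds hq
    rcases lt_or_ge q.1.im y2 with hlt2 | hge2
    · have h5 := ext_differentiableAt h10 (hlower q hq hlt2) hq.2.1
      refine h5.congr_of_eventuallyEq ?_
      have h6 : {z : ℂ × ℂ | z.1.im < y2} ∈ 𝓝 q :=
        (isOpen_lt (by fun_prop : Continuous (fun z : ℂ × ℂ => z.1.im))
          continuous_const).mem_nhds hlt2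
      filter_upwards [h6] with z hz
      simp only [hGt]
      rw [if_pos hz]
    · have hqN : q ∈ N := hup q hq (by linarith) (by linarith)
      have h5 : DifferentiableAt ℂ G q := hG.differentiableAt (hN.mem_nhds hqN)
      refine h5.congr_of_eventuallyEq ?_
      have h6 : {z : ℂ × ℂ | y2 - η / 2 < z.1.im} ∈ 𝓝 q :=
        (isOpen_lt continuous_const
          (by fun_prop : Continuous (fun z : ℂ × ℂ => z.1.im))).mem_nhds (by
            change y2 - η / 2 < q.1.im; linarith)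
      filter_upwards [h6, hto] with z hz hzt
      simp only [hGt]
      split_ifs with h7
      · refine (hmid z hzt ?_).2.symm
        rw [abs_lt]
        have hz' : y2 - η / 2 < z.1.im := hz
        constructor <;> linarith
      · rfl
  have hpW2 : ball p.2 ε ⊆ W := (ball_subset_ball e2).trans hεW2
  refine ⟨ε, hε0, hpW2, Gt, hGtd, ?_, ?_⟩
  · intro q hq
    simp only [hGt]
    split_ifs with h7
    · exact ext_mem h10 (hlower q hq h7) hq.2.1
    · exact hGC q (hup q hq (by linarith) (by linarith))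
  · -- agreement with `F` on the slab
    intro q hq hq0
    have hA : ∀ z ∈ Tube y1 p ε, z.1.im < min y0 y2 → Gt z = F z := by
      intro z hz hz0
      have h8 : z.1.im < y2 := hz0.trans_le (min_le_right _ _)
      simp only [hGt]
      rw [if_pos h8]
      exact ext_slab h10 (hlower z hz h8) hz.2.1 (hz0.trans_le (min_le_left _ _))
    -- identity theorem on the vertical slice inside the slab
    set A : Set ℂ := {t | |t.re - p.1.re| < ε ∧ y1 < t.im ∧ t.im < y0} with hAdef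
    have hAo : IsOpen A := by
      have c1 : Continuous (fun t : ℂ => |t.re - p.1.re|) := by fun_prop
      exact IsOpen.inter (isOpen_lt c1 continuous_const) (IsOpen.inter
        (isOpen_lt continuous_const Complex.continuous_im)
        (isOpen_lt Complex.continuous_im continuous_const))
    have hAc : Convex ℝ A := by
      have d1 : Convex ℝ {t : ℂ | p.1.re - ε < t.re} := convex_halfSpace_re_gt _
      have d2 : Convex ℝ {t : ℂ | t.re < p.1.re + ε} := convex_halfSpace_re_lt _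
      have d3 : Convex ℝ {t : ℂ | y1 < t.im} := convex_halfSpace_im_gt _
      have d4 : Convex ℝ {t : ℂ | t.im < y0} := convex_halfSpace_im_lt _
      have : A = ({t : ℂ | p.1.re - ε < t.re} ∩ {t : ℂ | t.re < p.1.re + ε}) ∩
          ({t : ℂ | y1 < t.im} ∩ {t : ℂ | t.im < y0}) := by
        ext t
        simp only [hAdef, mem_inter_iff, Set.mem_ofPred_eq, abs_lt]
        constructor
        · rintro ⟨⟨a, b⟩, c, d⟩; exact ⟨⟨by linarith, by linarith⟩, c, d⟩
        · rintro ⟨⟨a, b⟩, c, d⟩; exact ⟨⟨by linarith, by linarith⟩, c, d⟩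
      rw [this]
      exact (d1.inter d2).inter (d3.inter d4)
    have hAT : ∀ t ∈ A, ((t, q.2) : ℂ × ℂ) ∈ Tube y1 p ε := by
      rintro t ⟨a1, a2, a3⟩
      exact ⟨a1, a2, by simp only; linarith, hq.2.2.2⟩
    have hAS : ∀ t ∈ A, ((t, q.2) : ℂ × ℂ) ∈ Slab y1 y0 W := by
      rintro t ⟨a1, a2, a3⟩
      refine ⟨a2, a3, hpW2 ?_⟩
      rw [mem_ball, dist_eq_norm]; exact hq.2.2.2
    have hs1 : AnalyticOnNhd ℂ (fun t => Gt (t, q.2)) A := by
      refine DifferentiableOn.analyticOnNhd ?_ hAo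
      intro t ht
      exact (DifferentiableAt.comp (g := Gt) (f := fun t : ℂ => ((t, q.2) : ℂ × ℂ)) t
        (hGtd.differentiableAt ((isOpen_tube y1 p ε).mem_nhds (hAT t ht)))
        (by fun_prop)).differentiableWithinAt
    have hs2 : AnalyticOnNhd ℂ (fun t => F (t, q.2)) A := by
      refine DifferentiableOn.analyticOnNhd ?_ hAo
      intro t ht
      exact (DifferentiableAt.comp (g := F) (f := fun t : ℂ => ((t, q.2) : ℂ × ℂ)) t
        (hF.differentiableAt ((isOpen_slab hW).mem_nhds (hAS t ht)))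
        (by fun_prop)).differentiableWithinAt
    have hym : y1 < min y0 y2 := lt_min h10 h1b
    set tb : ℂ := ⟨p.1.re, (y1 + min y0 y2) / 2⟩ with htb
    have htbA : tb ∈ A := by
      refine ⟨by simpa [htb] using hε0, ?_, ?_⟩
      · simp only [htb]; linarith
      · have := min_le_left y0 y2
        simp only [htb]; linarith
    have hev : (fun t => Gt (t, q.2)) =ᶠ[𝓝 tb] (fun t => F (t, q.2)) := by
      have h3 : {t : ℂ | t.im < min y0 y2} ∈ 𝓝 tb :=
        (isOpen_lt Complex.continuous_im continuous_const).mem_nhds (by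
          change (y1 + min y0 y2) / 2 < min y0 y2; linarith)
      filter_upwards [h3, hAo.mem_nhds htbA] with t ht htA
      exact hA _ (hAT t htA) ht
    exact hs1.eqOn_of_preconnected_of_eventuallyEq hs2 hAc.isPreconnected htbA hev
      (show q.1 ∈ A from ⟨hq.1, hq.2.1, hq0⟩)

/-- **a touching strictly pseudoconcave chart forces regularity** -/
theorem isReg_of_touch (h10 : y1 < y0) (hW : IsOpen W) (hF : DifferentiableOn ℂ F (Slab y1 y0 W))
    (hC : ∀ q ∈ Slab y1 y0 W, F q ∈ C) (hCo : IsOpen C) (hCc : Convex ℝ C)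
    {t0 w0 : ℂ} (ht0 : y1 < t0.im) (hw0 : w0 ∈ W) {P H : ℂ → ℂ}
    (hP : AnalyticAt ℂ P t0) (hP' : 0 < (deriv P t0).re)
    (hH : AnalyticAt ℂ H w0) (h0 : (P t0).im = (H w0).im) {δ : ℝ} (hδ : 0 < δ)
    (hsub : ∀ᶠ p : ℂ × ℂ in 𝓝 (t0, w0),
      (P p.1).im < (H p.2).im + δ * ‖p.2 - w0‖ ^ 2 → IsReg F C y1 y0 W p) :
    IsReg F C y1 y0 W (t0, w0) := by
  have hne : deriv P t0 ≠ 0 := by
    intro h; rw [h] at hP'; simp at hP'
  set D : Set (ℂ × ℂ) := {p | IsReg F C y1 y0 W p} ∩ {p | y1 < p.1.im} with hD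
  have c1 : Continuous (fun p : ℂ × ℂ => p.1.im) := by fun_prop
  have hDo : IsOpen D := isOpen_isReg.inter (isOpen_lt continuous_const c1)
  have hDd : DifferentiableOn ℂ (ext F C y1 y0 W) D := fun p hp =>
    (ext_differentiableAt h10 hp.1 hp.2).differentiableWithinAt
  have hsub' : ∀ᶠ p : ℂ × ℂ in 𝓝 (t0, w0),
      (P p.1).im < (H p.2).im + δ * ‖p.2 - w0‖ ^ 2 → p ∈ D := by
    have h1 : {p : ℂ × ℂ | y1 < p.1.im} ∈ 𝓝 (t0, w0) :=
      (isOpen_lt continuous_const c1).mem_nhds ht0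
    filter_upwards [hsub, h1] with p hp h2 h3
    exact ⟨hp h3, h2⟩
  obtain ⟨N, hN, hpN, G, hG, hGC, hGF⟩ := levi hDo hDd hCo hCc
    (fun p hp => ext_mem h10 hp.1 hp.2) hP hne hH h0 hδ hsub'
  refine isReg_of_local h10 hW hF hC ht0 hN hpN hG hGC hw0 ?_
  intro η hη
  -- points below `t0`
  have hder : HasDerivAt (fun s : ℝ => (P (t0 - s * I)).im) (-(deriv P t0).re) 0 := by
    have h1 : HasDerivAt (fun s : ℝ => t0 - (s : ℂ) * I) (-I) 0 := by
      have := (((hasDerivAt_id (0 : ℝ)).ofReal_comp).mul_const I).const_sub t0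
      simpa using this
    have h2 : HasDerivAt P (deriv P t0) (t0 - ((0 : ℝ) : ℂ) * I) := by
      simpa using hP.differentiableAt.hasDerivAt
    have h3 := h2.comp_of_eq (0 : ℝ) h1 rfl
    have h4 : HasDerivAt (fun s : ℝ => P (t0 - (s : ℂ) * I)) (deriv P t0 * -I) 0 := h3
    have h5 := Complex.imCLM.hasFDerivAt.comp_hasDerivAt (0 : ℝ) h4
    have h6 : Complex.imCLM (deriv P t0 * -I) = -(deriv P t0).re := by
      simp [Complex.mul_im]
    rw [h6] at h5
    exact h5
  have hev : ∀ᶠ s : ℝ in 𝓝[>] (0 : ℝ), (P (t0 - s * I)).im < (P t0).im := by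
    have h1 := hder.tendsto_slope_zero
    have h2 : ∀ᶠ s : ℝ in 𝓝[≠] (0 : ℝ), s⁻¹ • ((P (t0 - ((0 + s : ℝ) : ℂ) * I)).im
        - (P (t0 - ((0 : ℝ) : ℂ) * I)).im) < 0 :=
      h1.eventually (gt_mem_nhds (by linarith : -(deriv P t0).re < 0))
    have h3 : ∀ᶠ s : ℝ in 𝓝[>] (0 : ℝ), s⁻¹ • ((P (t0 - ((0 + s : ℝ) : ℂ) * I)).im
        - (P (t0 - ((0 : ℝ) : ℂ) * I)).im) < 0 :=
      h2.filter_mono (nhdsWithin_mono _ (fun x hx => ne_of_gt hx))
    filter_upwards [h3, self_mem_nhdsWithin] with s hs hs0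
    have hs0' : 0 < s := hs0
    simp only [zero_add, ofReal_zero, zero_mul, sub_zero, smul_eq_mul] at hs
    have h4 : (P (t0 - (s : ℂ) * I)).im - (P t0).im < 0 := by
      by_contra hcon
      push Not at hcon
      have := mul_nonneg (inv_pos.2 hs0').le hcon
      linarith
    linarith
  have hcont : ContinuousAt (fun s : ℝ => ((t0 - (s : ℂ) * I, w0) : ℂ × ℂ)) 0 := by fun_prop
  have hev2 : ∀ᶠ s : ℝ in 𝓝[>] (0 : ℝ), ((t0 - (s : ℂ) * I, w0) : ℂ × ℂ) ∈ N := by
    refine nhdsWithin_le_nhds ?_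
    exact hcont.eventually (hN.mem_nhds (by simpa using hpN))
  have hev3 : ∀ᶠ s : ℝ in 𝓝[>] (0 : ℝ), AnalyticAt ℂ P (t0 - (s : ℂ) * I) := by
    refine nhdsWithin_le_nhds ?_
    have hc : ContinuousAt (fun s : ℝ => (t0 - (s : ℂ) * I)) 0 := by fun_prop
    have h1 : ∀ᶠ z in 𝓝 (t0 - ((0 : ℝ) : ℂ) * I), AnalyticAt ℂ P z := by
      simpa using hP.eventually_analyticAt
    exact hc.eventually h1
  have hev4 : ∀ᶠ s : ℝ in 𝓝[>] (0 : ℝ), s < η := by
    refine nhdsWithin_le_nhds ?_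
    exact gt_mem_nhds hη
  obtain ⟨s, hs⟩ := (hev.and (hev2.and (hev3.and (hev4.and self_mem_nhdsWithin)))).exists
  obtain ⟨hs1, hs2, hs3, hs4, hs5⟩ := hs
  have hs5' : 0 < s := hs5
  have hpt : (⟨t0.re, t0.im - s⟩ : ℂ) = t0 - (s : ℂ) * I := by
    apply Complex.ext <;> simp
  refine ⟨t0.im - s, by simp only; linarith, by simp only; linarith, ?_⟩
  simp only [hpt]
  have hcP : ContinuousAt (fun q : ℂ × ℂ => (P q.1).im) (t0 - (s : ℂ) * I, w0) := by
    have h1 : ContinuousAt (fun q : ℂ × ℂ => P q.1) (t0 - (s : ℂ) * I, w0) :=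
      ContinuousAt.comp (g := P) (f := fun q : ℂ × ℂ => q.1) hs3.continuousAt continuousAt_fst
    exact Complex.continuous_im.continuousAt.comp h1
  have hcH : ContinuousAt (fun q : ℂ × ℂ => (H q.2).im) (t0 - (s : ℂ) * I, w0) := by
    have h1 : ContinuousAt (fun q : ℂ × ℂ => H q.2) (t0 - (s : ℂ) * I, w0) :=
      ContinuousAt.comp (g := H) (f := fun q : ℂ × ℂ => q.2) hH.continuousAt continuousAt_snd
    exact Complex.continuous_im.continuousAt.comp h1
  have hlt : (P (t0 - (s : ℂ) * I)).im < (H w0).im := by rw [← h0]; exact hs1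
  filter_upwards [hcP.eventually_lt hcH hlt, hN.mem_nhds hs2] with q hq1 hq2
  have h7 := hGF q hq2 hq1
  exact ⟨h7.1.1, h7.2⟩

end Sheet

end Crest.Agent.R102.K669
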