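import Crest.Agent.R102.Rule_300
import Crest.Agent.R102.Rule1D_982

/-!
Row 102, T1-B (helper300): F1(ii), germ version.

`rule1g`: if the tangent-line data `Ψ, N, Dn` of a vertex are holomorphic on a ball and a germ of
the label `B` is given at some point of the ball, then `B` continues to the whole ball, with values
in the strip.
-/

set_option autoImplicit false

open Set Filter Topology Metric
open scoped ComplexConjugate

noncomputable section

namespace Crest.Agent.R102.F300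

open Crest.Agent.R102.Rule982

/-- gluing: a holomorphic function on `U` which extends locally at every frontier point extends to
a uniform neighbourhood of `U`. -/
theorem glue_closure {U : Set ℂ} (hU : IsOpen U) (hK : IsCompact (closure U)) {B : ℂ → ℂ}
    {P : ℂ → ℂ → Prop} (hB : DifferentiableOn ℂ B U) (hBP : ∀ t ∈ U, P t (B t))
    (hloc : ∀ s ∈ frontier U, ∃ δ : ℝ, 0 < δ ∧ ∃ F : ℂ → ℂ, DifferentiableOn ℂ F (ball s δ) ∧
      (∀ t ∈ ball s δ, P t (F t)) ∧ ∀ t ∈ ball s δ, t ∈ U → F t = B t) :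
    ∃ η : ℝ, 0 < η ∧ ∃ F : ℂ → ℂ, DifferentiableOn ℂ F (thickening η U) ∧
      (∀ t ∈ thickening η U, P t (F t)) ∧ EqOn F B U := by
  rcases U.eq_empty_or_nonempty with hUe | ⟨u0, hu0⟩
  · subst hUe
    exact ⟨1, one_pos, B, by rw [thickening_empty]; exact differentiableOn_empty, by simp,
      fun t ht => absurd ht (notMem_empty t)⟩
  have : Nonempty (closure U) := ⟨⟨u0, subset_closure hu0⟩⟩
  have h1 : ∀ s : closure U, ∃ δ : ℝ, 0 < δ ∧ ∃ F : ℂ → ℂ, DifferentiableOn ℂ F (ball (s : ℂ) δ) ∧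
      (∀ t ∈ ball (s : ℂ) δ, P t (F t)) ∧ ∀ t ∈ ball (s : ℂ) δ, t ∈ U → F t = B t := by
    rintro ⟨s, hs⟩
    by_cases hsU : s ∈ U
    · obtain ⟨δ, hδ, hδU⟩ := Metric.isOpen_iff.1 hU s hsU
      exact ⟨δ, hδ, B, hB.mono hδU, fun t ht => hBP t (hδU ht), fun t _ _ => rfl⟩
    · exact hloc s ⟨hs, by rwa [hU.interior_eq]⟩
  choose δ hδ F hFd hFP hFB using h1
  obtain ⟨d, hd, hleb⟩ := lebesgue_number_lemma_of_metric hK (c := fun s : closure U =>
    ball (s : ℂ) (δ s)) (fun s => isOpen_ball)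
    (fun x hx => mem_iUnion.2 ⟨⟨x, hx⟩, mem_ball_self (hδ ⟨x, hx⟩)⟩)
  choose! i hi using hleb
  have hη : 0 < d / 4 := by positivity
  have h2 : ∀ t ∈ thickening (d / 4) U, ∃ s ∈ U, dist t s < d / 4 := fun t ht =>
    mem_thickening_iff.1 ht
  choose! σ hσU hσd using h2
  -- consistency
  have key : ∀ t ∈ thickening (d / 4) U, ∀ t' ∈ thickening (d / 4) U, dist t' t < d / 4 →
      F (i (σ t')) t' = F (i (σ t)) t' := by
    intro t ht t' ht' htt
    have c1 : σ t ∈ closure U := subset_closure (hσU t ht)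
    have c2 : σ t' ∈ closure U := subset_closure (hσU t' ht')
    have o : IsOpen (ball (σ t) d ∩ ball (σ t') d) := isOpen_ball.inter isOpen_ball
    have pc : IsPreconnected (ball (σ t) d ∩ ball (σ t') d) :=
      ((convex_ball _ _).inter (convex_ball _ _)).isPreconnected
    have a1 : AnalyticOnNhd ℂ (F (i (σ t'))) (ball (σ t) d ∩ ball (σ t') d) :=
      ((hFd (i (σ t'))).mono (inter_subset_right.trans (hi _ c2))).analyticOnNhd o
    have a2 : AnalyticOnNhd ℂ (F (i (σ t))) (ball (σ t) d ∩ ball (σ t') d) :=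
      ((hFd (i (σ t))).mono (inter_subset_left.trans (hi _ c1))).analyticOnNhd o
    have m1 : σ t ∈ ball (σ t) d ∩ ball (σ t') d := by
      refine ⟨mem_ball_self hd, ?_⟩
      rw [mem_ball]
      have e1 := hσd t ht
      have e2 := hσd t' ht'
      calc dist (σ t) (σ t') ≤ dist (σ t) t + dist t t' + dist t' (σ t') := dist_triangle4 _ _ _ _
        _ < d / 4 + d / 4 + d / 4 := by
          rw [dist_comm (σ t) t, dist_comm t t']
          linarith
        _ < d := by linarith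
    have hag : F (i (σ t')) =ᶠ[𝓝 (σ t)] F (i (σ t)) := by
      filter_upwards [o.mem_nhds m1, hU.mem_nhds (hσU t ht)] with z hz hzU
      rw [hFB (i (σ t')) z (hi _ c2 hz.2) hzU, hFB (i (σ t)) z (hi _ c1 hz.1) hzU]
    have hEq := a1.eqOn_of_preconnected_of_eventuallyEq a2 pc m1 hag
    refine hEq ⟨?_, ?_⟩
    · rw [mem_ball]
      have e1 := hσd t ht
      calc dist t' (σ t) ≤ dist t' t + dist t (σ t) := dist_triangle _ _ _
        _ < d := by linarith
    · rw [mem_ball]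
      have e2 := hσd t' ht'
      linarith
  refine ⟨d / 4, hη, fun t => F (i (σ t)) t, ?_, ?_, ?_⟩
  · intro t ht
    have c1 : σ t ∈ closure U := subset_closure (hσU t ht)
    have m1 : t ∈ ball (σ t) d := by
      rw [mem_ball]; linarith [hσd t ht]
    have hev : (fun t => F (i (σ t)) t) =ᶠ[𝓝 t] F (i (σ t)) := by
      filter_upwards [isOpen_thickening.mem_nhds ht, ball_mem_nhds t hη] with t' h3 h4
      exact key t ht t' h3 h4
    have hdt : DifferentiableAt ℂ (F (i (σ t))) t :=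
      (hFd (i (σ t))).differentiableAt (isOpen_ball.mem_nhds (hi _ c1 m1))
    exact (hdt.congr_of_eventuallyEq hev).differentiableWithinAt
  · intro t ht
    have c1 : σ t ∈ closure U := subset_closure (hσU t ht)
    refine hFP (i (σ t)) t (hi _ c1 ?_)
    rw [mem_ball]; linarith [hσd t ht]
  · intro t htU
    have ht : t ∈ thickening (d / 4) U := self_subset_thickening hη U htU
    have c1 : σ t ∈ closure U := subset_closure (hσU t ht)
    refine hFB (i (σ t)) t (hi _ c1 ?_) htU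
    rw [mem_ball]; linarith [hσd t ht]

/-- the increasing discs -/
def Wr (t0 t1 : ℂ) (ε r : ℝ) : Set ℂ := ball (t0 + r * (t1 - t0)) (r * ε)

lemma Wr_mono {t0 t1 : ℂ} {ε r r' : ℝ} (h0 : ‖t1 - t0‖ < ε) (h : r ≤ r') :
    Wr t0 t1 ε r ⊆ Wr t0 t1 ε r' := by
  intro z hz
  unfold Wr at *
  rw [mem_ball, dist_eq_norm] at *
  have e : z - (t0 + r' * (t1 - t0)) = (z - (t0 + r * (t1 - t0))) - ((r' - r : ℝ) : ℂ) * (t1 - t0) := by
    push_cast; ring
  rw [e]
  calc _ ≤ ‖z - (t0 + r * (t1 - t0))‖ + ‖((r' - r : ℝ) : ℂ) * (t1 - t0)‖ := norm_sub_le _ _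
    _ < r * ε + (r' - r) * ε := by
      rw [norm_mul, Complex.norm_real, Real.norm_eq_abs, abs_of_nonneg (by linarith)]
      have := mul_le_mul_of_nonneg_left h0.le (by linarith : 0 ≤ r' - r)
      linarith
    _ = r' * ε := by ring

lemma Wr_self {t0 t1 : ℂ} {ε r : ℝ} (h0 : ‖t1 - t0‖ < ε) (hr : 0 < r) : t0 ∈ Wr t0 t1 ε r := by
  unfold Wr
  rw [mem_ball, dist_eq_norm]
  have e : t0 - (t0 + r * (t1 - t0)) = -((r : ℂ) * (t1 - t0)) := by ring
  rw [e, norm_neg, norm_mul, Complex.norm_real, Real.norm_eq_abs, abs_of_pos hr]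
  exact mul_lt_mul_of_pos_left h0 hr

lemma Wr_one {t0 t1 : ℂ} {ε : ℝ} : Wr t0 t1 ε 1 = ball t1 ε := by
  unfold Wr; simp

lemma Wr_small {t0 t1 : ℂ} {ε r : ℝ} (h0 : ‖t1 - t0‖ < ε) (hr : 0 < r) :
    Wr t0 t1 ε r ⊆ ball t0 (2 * r * ε) := by
  intro z hz
  unfold Wr at hz
  rw [mem_ball, dist_eq_norm] at *
  have e : z - t0 = (z - (t0 + r * (t1 - t0))) + (r : ℂ) * (t1 - t0) := by ring
  rw [e]
  calc _ ≤ ‖z - (t0 + r * (t1 - t0))‖ + ‖(r : ℂ) * (t1 - t0)‖ := norm_add_le _ _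
    _ < r * ε + r * ε := by
      rw [norm_mul, Complex.norm_real, Real.norm_eq_abs, abs_of_pos hr]
      have := mul_lt_mul_of_pos_left h0 hr
      linarith
    _ = _ := by ring

/-- scaling about `t0` -/
lemma Wr_scale {t0 t1 z : ℂ} {ε r r' : ℝ} (hr : 0 < r) (hr' : 0 < r')
    (hz : z ∈ Wr t0 t1 ε r') : t0 + ((r / r' : ℝ) : ℂ) * (z - t0) ∈ Wr t0 t1 ε r := by
  unfold Wr at *
  rw [mem_ball, dist_eq_norm] at *
  have hne : (r' : ℂ) ≠ 0 := by exact_mod_cast hr'.ne'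
  have e : t0 + ((r / r' : ℝ) : ℂ) * (z - t0) - (t0 + r * (t1 - t0))
      = ((r / r' : ℝ) : ℂ) * (z - (t0 + r' * (t1 - t0))) := by
    push_cast; field_simp; ring
  rw [e, norm_mul, Complex.norm_real, Real.norm_eq_abs, abs_of_pos (div_pos hr hr')]
  calc r / r' * ‖z - (t0 + r' * (t1 - t0))‖ < r / r' * (r' * ε) :=
        mul_lt_mul_of_pos_left hz (div_pos hr hr')
    _ = r * ε := by field_simp

lemma Wr_thick {t0 t1 : ℂ} {ε r r' η : ℝ} (h0 : ‖t1 - t0‖ < ε) (hr : 0 < r) (hrr : r < r')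
    (hη : 2 * (r' - r) * ε ≤ η) : Wr t0 t1 ε r' ⊆ thickening η (Wr t0 t1 ε r) := by
  intro z hz
  have hr' : 0 < r' := hr.trans hrr
  rw [mem_thickening_iff]
  refine ⟨_, Wr_scale hr hr' hz, ?_⟩
  have h1 := Wr_small h0 hr' hz
  rw [mem_ball, dist_eq_norm] at h1
  rw [dist_eq_norm]
  have hne : (r' : ℂ) ≠ 0 := by exact_mod_cast hr'.ne'
  have e : z - (t0 + ((r / r' : ℝ) : ℂ) * (z - t0)) = (((r' - r) / r' : ℝ) : ℂ) * (z - t0) := by
    push_cast; field_simp; ring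
  have hpos : 0 < (r' - r) / r' := div_pos (by linarith) hr'
  rw [e, norm_mul, Complex.norm_real, Real.norm_eq_abs, abs_of_pos hpos]
  calc (r' - r) / r' * ‖z - t0‖ < (r' - r) / r' * (2 * r' * ε) := mul_lt_mul_of_pos_left h1 hpos
    _ = 2 * (r' - r) * ε := by field_simp
    _ ≤ η := hη

lemma Wr_closed {t0 t1 : ℂ} {ε r : ℝ} (h0 : ‖t1 - t0‖ < ε) (hr1 : r < 1) :
    closedBall (t0 + r * (t1 - t0)) (r * ε) ⊆ ball t1 ε := by
  intro z hz
  rw [mem_closedBall, dist_eq_norm] at hz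
  rw [mem_ball, dist_eq_norm]
  have e : z - t1 = (z - (t0 + r * (t1 - t0))) - ((1 - r : ℝ) : ℂ) * (t1 - t0) := by
    push_cast; ring
  rw [e]
  calc _ ≤ ‖z - (t0 + r * (t1 - t0))‖ + ‖((1 - r : ℝ) : ℂ) * (t1 - t0)‖ := norm_sub_le _ _
    _ < r * ε + (1 - r) * ε := by
      rw [norm_mul, Complex.norm_real, Real.norm_eq_abs, abs_of_pos (by linarith)]
      have := mul_lt_mul_of_pos_left h0 (by linarith : 0 < 1 - r)
      linarith
    _ = ε := by ring

/-- value conditions for a label -/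
def PV (h : ℝ) (ψ H Ψ N Dn : ℂ → ℂ) (t b : ℂ) : Prop := b ∈ Sg h ∧ ψ b = Ψ t ∧ Dn t * H b = N t

/-- one boundary point of a disc -/
theorem step_disc {h : ℝ} {ψ H : ℂ → ℂ} (hψ : DifferentiableOn ℂ ψ (Sg h))
    (hH : DifferentiableOn ℂ H (Sg h)) {c : ℂ} (hc : c ≠ 0)
    (rel : ∀ z ∈ Sg h, deriv ψ z * deriv (deriv H) z - deriv (deriv ψ) z * deriv H z +
      deriv ψ z ^ 3 * H z = c)
    (hψper : ∀ z ∈ Sg h, ψ (z + 1) = ψ z + 2 * Real.pi) (hNB : NB h ψ H)
    {W : Set ℂ} (hW : IsOpen W) (hWc : IsPreconnected W) {Ψ N Dn : ℂ → ℂ}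
    (hΨ : DifferentiableOn ℂ Ψ W) (hN : DifferentiableOn ℂ N W) (hDn : DifferentiableOn ℂ Dn W)
    (hDn0 : ∃ t ∈ W, Dn t ≠ 0) {a : ℂ} {ρ : ℝ} {B : ℂ → ℂ}
    (hB : DifferentiableOn ℂ B (ball a ρ)) (hBP : ∀ t ∈ ball a ρ, PV h ψ H Ψ N Dn t (B t))
    (hnc : ∃ t ∈ ball a ρ, deriv B t ≠ 0) {s : ℂ} (hs : dist s a = ρ) (hsW : s ∈ W)
    (hρ : 0 < ρ) :
    ∃ δ : ℝ, 0 < δ ∧ ∃ F : ℂ → ℂ, DifferentiableOn ℂ F (ball s δ) ∧
      (∀ t ∈ ball s δ, PV h ψ H Ψ N Dn t (F t)) ∧ ∀ t ∈ ball s δ, t ∈ ball a ρ → F t = B t := by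
  have hsa : s - a ≠ 0 := by
    intro h0
    rw [dist_eq_norm, h0, norm_zero] at hs
    exact hρ.ne hs
  have hns : ‖s - a‖ = ρ := by rw [← dist_eq_norm]; exact hs
  -- coordinates
  set m : ℂ → ℂ := fun τ => a + (s - a) * Complex.exp (-(Complex.I * τ)) with hm
  set n : ℂ → ℂ := fun t => Complex.I * Complex.log ((t - a) / (s - a)) with hn
  have hm0 : m 0 = s := by rw [hm]; simp
  have hn0 : n s = 0 := by rw [hn]; simp [hsa]
  have hmd : Differentiable ℂ m := by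
    rw [hm]; fun_prop
  have hmn : ∀ t, t ≠ a → m (n t) = t := by
    intro t ht
    have h1 : (t - a) / (s - a) ≠ 0 := div_ne_zero (sub_ne_zero.2 ht) hsa
    rw [hm, hn]
    simp only
    have e : -(Complex.I * (Complex.I * Complex.log ((t - a) / (s - a))))
        = Complex.log ((t - a) / (s - a)) := by
      linear_combination (-Complex.log ((t - a) / (s - a))) * Complex.I_mul_I
    rw [e, Complex.exp_log h1]
    field_simp
    ring
  have hnorm : ∀ τ, ‖m τ - a‖ = ρ * Real.exp τ.im := by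
    intro τ
    rw [hm]
    simp only
    rw [add_sub_cancel_left, norm_mul, Complex.norm_exp, hns]
    congr 2
    simp
  have hnim : ∀ t, t ≠ a → (n t).im = Real.log (‖t - a‖ / ρ) := by
    intro t _
    rw [hn]
    simp only
    rw [Complex.mul_im, Complex.I_re, Complex.I_im, zero_mul, one_mul, zero_add, Complex.log_re,
      norm_div, hns]
  have hna : ∀ t, (t - a) / (s - a) ∈ Complex.slitPlane → AnalyticAt ℂ n t := by
    intro t ht
    refine analyticAt_const.mul (AnalyticAt.clog ?_ ht)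
    exact (analyticAt_id.sub analyticAt_const).div analyticAt_const hsa
  have hsl : (s - a) / (s - a) ∈ Complex.slitPlane := by
    rw [div_self hsa]; exact Complex.one_mem_slitPlane
  have hnas : AnalyticAt ℂ n s := hna s hsl
  -- a ball in `τ`
  have hmc : Tendsto m (𝓝 0) (𝓝 s) := by
    have := hmd.continuous.tendsto 0
    rwa [hm0] at this
  obtain ⟨e0, he0, hball⟩ := Metric.eventually_nhds_iff_ball.1 (hmc.eventually (hW.mem_nhds hsW))
  have hmL : ∀ τ ∈ LD 0 e0, m τ ∈ ball a ρ := by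
    intro τ hτ
    rw [mem_ball, dist_eq_norm, hnorm]
    have h1 : τ.im < 0 := by simpa using hτ.2
    have h2 : Real.exp τ.im < 1 := by rw [← Real.exp_zero]; exact Real.exp_lt_exp.2 h1
    nlinarith
  have hnct : Tendsto n (𝓝 s) (𝓝 0) := by
    have := hnas.continuousAt.tendsto
    rwa [hn0] at this
  have hsna : ∀ᶠ t in 𝓝 s, t ≠ a := by
    exact eventually_ne_nhds (sub_ne_zero.1 hsa)
  -- hypotheses of rule1d
  have A1 : DifferentiableOn ℂ (fun τ => Ψ (m τ)) (ball 0 e0) :=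
    hΨ.comp hmd.differentiableOn hball
  have A2 : DifferentiableOn ℂ (fun τ => N (m τ)) (ball 0 e0) :=
    hN.comp hmd.differentiableOn hball
  have A3 : DifferentiableOn ℂ (fun τ => Dn (m τ)) (ball 0 e0) :=
    hDn.comp hmd.differentiableOn hball
  have A4 : ∃ τ ∈ ball (0 : ℂ) e0, Dn (m τ) ≠ 0 := by
    by_contra hcon
    push Not at hcon
    have h1 : Dn =ᶠ[𝓝 s] fun _ => (0 : ℂ) := by
      filter_upwards [hnct.eventually (ball_mem_nhds 0 he0), hsna] with t h2 h3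
      have := hcon _ h2
      rwa [hmn t h3] at this
    have h4 := (hDn.analyticOnNhd hW).eqOn_of_preconnected_of_eventuallyEq
      (analyticOnNhd_const) hWc hsW h1
    obtain ⟨t, ht, ht'⟩ := hDn0
    exact ht' (h4 ht)
  have A5 : DifferentiableOn ℂ (fun τ => B (m τ)) (LD 0 e0) :=
    hB.comp hmd.differentiableOn hmL
  have A6 : ∀ τ ∈ LD 0 e0, B (m τ) ∈ Sg h := fun τ hτ => (hBP _ (hmL τ hτ)).1
  have A7 : ∃ τ ∈ LD 0 e0, deriv (fun τ => B (m τ)) τ ≠ 0 := by
    by_contra hcon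
    push Not at hcon
    have hτ2 : (0 : ℂ) - ((e0 / 2 : ℝ) : ℂ) * Complex.I ∈ LD 0 e0 :=
      mem_LD_self (by positivity) (by linarith)
    set τ2 : ℂ := (0 : ℂ) - ((e0 / 2 : ℝ) : ℂ) * Complex.I with hτ2d
    have hcst : ∀ τ ∈ LD 0 e0, B (m τ) = B (m τ2) := by
      intro τ hτ
      exact (isOpen_LD 0 e0).is_const_of_deriv_eq_zero (convex_LD 0 e0).isPreconnected A5
        (fun z hz => hcon z hz) hτ hτ2
    -- near `m τ2`, `B` is constant
    have hmder : HasDerivAt m ((s - a) * (Complex.exp (-(Complex.I * τ2)) * (-(Complex.I)))) τ2 := by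
      have h0 : HasDerivAt (fun τ : ℂ => -(Complex.I * τ)) (-(Complex.I * 1)) τ2 :=
        ((hasDerivAt_id τ2).const_mul Complex.I).neg
      have h1 := (h0.cexp.const_mul (s - a)).const_add a
      rw [mul_one] at h1
      exact h1
    have hmne : (s - a) * (Complex.exp (-(Complex.I * τ2)) * (-(Complex.I))) ≠ 0 :=
      mul_ne_zero hsa (mul_ne_zero (Complex.exp_ne_zero _) (by simp))
    have hopen : map m (𝓝 τ2) = 𝓝 (m τ2) := by
      have h2 : HasStrictDerivAt m ((s - a) * (Complex.exp (-(Complex.I * τ2)) * (-(Complex.I)))) τ2 := by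
        have h3 : AnalyticAt ℂ m τ2 := hmd.analyticAt τ2
        have h4 := h3.hasStrictDerivAt
        rwa [hmder.deriv] at h4
      exact h2.map_nhds_eq hmne
    have hBc : B =ᶠ[𝓝 (m τ2)] fun _ => B (m τ2) := by
      rw [← hopen]
      change ∀ᶠ y in map m (𝓝 τ2), B y = B (m τ2)
      rw [eventually_map]
      filter_upwards [(isOpen_LD 0 e0).mem_nhds hτ2] with τ hτ
      exact hcst τ hτ
    have hEq := (hB.analyticOnNhd isOpen_ball).eqOn_of_preconnected_of_eventuallyEq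
      (analyticOnNhd_const) (convex_ball a ρ).isPreconnected (hmL _ hτ2) hBc
    obtain ⟨t, ht, ht'⟩ := hnc
    apply ht'
    have h5 : B =ᶠ[𝓝 t] fun _ => B (m τ2) := by
      filter_upwards [isOpen_ball.mem_nhds ht] with y hy
      exact hEq hy
    rw [h5.deriv_eq]; simp
  obtain ⟨r, hr, hre, Bt, hBt, hBtP, hBtB⟩ := rule1d hψ hH hc rel hψper hNB he0 A1 A2 A3 A4 A5 A6
    A7 (fun τ hτ => (hBP _ (hmL τ hτ)).2.1) (fun τ hτ => (hBP _ (hmL τ hτ)).2.2)
  have hev : ∀ᶠ t in 𝓝 s, AnalyticAt ℂ n t ∧ n t ∈ ball (0 : ℂ) r ∧ t ≠ a := by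
    exact hnas.eventually_analyticAt.and ((hnct.eventually (ball_mem_nhds 0 hr)).and hsna)
  obtain ⟨δ, hδ, hδb⟩ := Metric.eventually_nhds_iff_ball.1 hev
  refine ⟨δ, hδ, fun t => Bt (n t), ?_, ?_, ?_⟩
  · intro t ht
    obtain ⟨b1, b2, b3⟩ := hδb t ht
    exact ((hBt.differentiableAt (isOpen_ball.mem_nhds b2)).comp t
      b1.differentiableAt).differentiableWithinAt
  · intro t ht
    obtain ⟨b1, b2, b3⟩ := hδb t ht
    obtain ⟨c1, c2, c3⟩ := hBtP (n t) b2
    rw [hmn t b3] at c2 c3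
    exact ⟨c1, c2, c3⟩
  · intro t ht hta
    obtain ⟨b1, b2, b3⟩ := hδb t ht
    have hL : n t ∈ LD 0 r := by
      refine ⟨b2, ?_⟩
      change (n t).im < (0 : ℂ).im
      rw [hnim t b3, Complex.zero_im]
      refine Real.log_neg (div_pos (norm_pos_iff.2 (sub_ne_zero.2 b3)) hρ) ?_
      rw [div_lt_one hρ, ← dist_eq_norm]
      exact hta
    have hh := hBtB hL
    simp only at hh
    change Bt (n t) = B t
    rw [hh, hmn t b3]

/-- **F1(ii), germ version**: the tangent-line data `Ψ, N, Dn` are holomorphic on the disc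
`ball t1 ε`, a non-constant germ of the label `B` is given at a point `t0` of the disc; then the
label continues to the whole disc, with values in the strip. -/
theorem rule1g {h : ℝ} {ψ H : ℂ → ℂ} (hψ : DifferentiableOn ℂ ψ (Sg h))
    (hH : DifferentiableOn ℂ H (Sg h)) {c : ℂ} (hc : c ≠ 0)
    (rel : ∀ z ∈ Sg h, deriv ψ z * deriv (deriv H) z - deriv (deriv ψ) z * deriv H z +
      deriv ψ z ^ 3 * H z = c)
    (hψper : ∀ z ∈ Sg h, ψ (z + 1) = ψ z + 2 * Real.pi) (hNB : NB h ψ H)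
    {t1 t0 : ℂ} {ε : ℝ} {Ψ N Dn : ℂ → ℂ}
    (hΨ : DifferentiableOn ℂ Ψ (ball t1 ε)) (hN : DifferentiableOn ℂ N (ball t1 ε))
    (hDn : DifferentiableOn ℂ Dn (ball t1 ε)) (hDn0 : ∃ t ∈ ball t1 ε, Dn t ≠ 0)
    (ht0 : t0 ∈ ball t1 ε) {B : ℂ → ℂ} (hB : AnalyticAt ℂ B t0)
    (hBP : ∀ᶠ t in 𝓝 t0, PV h ψ H Ψ N Dn t (B t)) (hnc : ∃ᶠ t in 𝓝 t0, deriv B t ≠ 0) :
    ∃ Bt : ℂ → ℂ, DifferentiableOn ℂ Bt (ball t1 ε) ∧
      (∀ t ∈ ball t1 ε, PV h ψ H Ψ N Dn t (Bt t)) ∧ Bt =ᶠ[𝓝 t0] B := by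
  have h0 : ‖t1 - t0‖ < ε := by rw [← dist_eq_norm, dist_comm]; exact ht0
  have hε : 0 < ε := (norm_nonneg _).trans_lt h0
  set E : ℝ → Prop := fun r => ∃ Bt : ℂ → ℂ, DifferentiableOn ℂ Bt (Wr t0 t1 ε r) ∧
      (∀ t ∈ Wr t0 t1 ε r, PV h ψ H Ψ N Dn t (Bt t)) ∧ Bt =ᶠ[𝓝 t0] B with hE
  -- (1) small `r`
  have hsmall : ∃ r : ℝ, 0 < r ∧ r < 1 ∧ E r := by
    obtain ⟨d, hd, hdb⟩ := Metric.eventually_nhds_iff_ball.1 (hB.eventually_analyticAt.and hBP)
    have hr : 0 < min (1 / 2) (d / (2 * ε)) := by positivity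
    refine ⟨min (1 / 2) (d / (2 * ε)), hr, by linarith [min_le_left (1 / 2 : ℝ) (d / (2 * ε))],
      B, ?_, ?_, EventuallyEq.rfl⟩
    all_goals
      have hsub : Wr t0 t1 ε (min (1 / 2) (d / (2 * ε))) ⊆ ball t0 d := by
        refine (Wr_small h0 hr).trans (ball_subset_ball ?_)
        have := min_le_right (1 / 2 : ℝ) (d / (2 * ε))
        calc 2 * min (1 / 2) (d / (2 * ε)) * ε ≤ 2 * (d / (2 * ε)) * ε := by gcongr
          _ = d := by field_simp
    · intro t ht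
      exact (hdb t (hsub ht)).1.differentiableAt.differentiableWithinAt
    · intro t ht
      exact (hdb t (hsub ht)).2
  -- uniqueness
  have huniq : ∀ r r' : ℝ, 0 < r → r ≤ r' → ∀ B1 B2 : ℂ → ℂ,
      DifferentiableOn ℂ B1 (Wr t0 t1 ε r) → DifferentiableOn ℂ B2 (Wr t0 t1 ε r') →
      B1 =ᶠ[𝓝 t0] B → B2 =ᶠ[𝓝 t0] B → EqOn B1 B2 (Wr t0 t1 ε r) := by
    intro r r' hr hrr B1 B2 d1 d2 e1 e2
    exact (d1.analyticOnNhd isOpen_ball).eqOn_of_preconnected_of_eventuallyEq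
      ((d2.mono (Wr_mono h0 hrr)).analyticOnNhd isOpen_ball) (convex_ball _ _).isPreconnected
      (Wr_self h0 hr) (e1.trans e2.symm)
  -- (2) downward closed
  have hdown : ∀ r r' : ℝ, r ≤ r' → E r' → E r := by
    rintro r r' hrr ⟨Bt, b1, b2, b3⟩
    exact ⟨Bt, b1.mono (Wr_mono h0 hrr), fun t ht => b2 t (Wr_mono h0 hrr ht), b3⟩
  -- (3) closed under suprema
  have hsup : ∀ R : ℝ, 0 < R → (∀ r, 0 < r → r < R → E r) → E R := by
    intro R hR hall
    have hex : ∀ z ∈ Wr t0 t1 ε R, ∃ r : ℝ, 0 < r ∧ r < R ∧ z ∈ Wr t0 t1 ε r := by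
      intro z hz
      have hcont : Tendsto (fun r : ℝ => r * ε - ‖z - (t0 + r * (t1 - t0))‖) (𝓝[<] R)
          (𝓝 (R * ε - ‖z - (t0 + R * (t1 - t0))‖)) := by
        have : ContinuousAt (fun r : ℝ => r * ε - ‖z - (t0 + r * (t1 - t0))‖) R := by fun_prop
        exact this.tendsto.mono_left nhdsWithin_le_nhds
      have hpos : 0 < R * ε - ‖z - (t0 + R * (t1 - t0))‖ := by
        unfold Wr at hz
        rw [mem_ball, dist_eq_norm] at hz
        linarith
      obtain ⟨r, hr1, hr2⟩ := ((hcont.eventually (lt_mem_nhds hpos)).and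
        (Ioo_mem_nhdsLT hR)).exists
      refine ⟨r, hr2.1, hr2.2, ?_⟩
      unfold Wr
      rw [mem_ball, dist_eq_norm]
      linarith
    choose! ρ hρ0 hρR hρm using hex
    choose! Br hBr1 hBr2 hBr3 using hall
    have key : ∀ r : ℝ, 0 < r → r < R → ∀ z ∈ Wr t0 t1 ε r, Br (ρ z) z = Br r z := by
      intro r hr hrR z hz
      have hzR : z ∈ Wr t0 t1 ε R := Wr_mono h0 hrR.le hz
      have a1 := hρ0 z hzR
      have a2 := hρR z hzR
      have a3 := hρm z hzR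
      rcases le_total (ρ z) r with h5 | h5
      · exact huniq _ _ a1 h5 _ _ (hBr1 _ a1 a2) (hBr1 _ hr hrR) (hBr3 _ a1 a2) (hBr3 _ hr hrR) a3
      · exact (huniq _ _ hr h5 _ _ (hBr1 _ hr hrR) (hBr1 _ a1 a2) (hBr3 _ hr hrR)
          (hBr3 _ a1 a2) hz).symm
    refine ⟨fun z => Br (ρ z) z, ?_, ?_, ?_⟩
    · intro z hz
      have a1 := hρ0 z hz
      have a2 := hρR z hz
      have a3 := hρm z hz
      have hev : (fun z => Br (ρ z) z) =ᶠ[𝓝 z] Br (ρ z) := by
        filter_upwards [isOpen_ball.mem_nhds a3] with y hy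
        exact key _ a1 a2 y hy
      exact (((hBr1 _ a1 a2).differentiableAt (isOpen_ball.mem_nhds a3)).congr_of_eventuallyEq
        hev).differentiableWithinAt
    · intro z hz
      exact hBr2 _ (hρ0 z hz) (hρR z hz) z (hρm z hz)
    · have hR2 : 0 < R / 2 := by positivity
      have hR3 : R / 2 < R := by linarith
      refine EventuallyEq.trans ?_ (hBr3 _ hR2 hR3)
      filter_upwards [isOpen_ball.mem_nhds (Wr_self h0 hR2)] with y hy
      exact key _ hR2 hR3 y hy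
  -- (4) open
  have hstep : ∀ r : ℝ, 0 < r → r < 1 → E r → ∃ r' > r, E r' := by
    rintro r hr hr1 ⟨Bt, b1, b2, b3⟩
    have hrε : 0 < r * ε := by positivity
    have hfr : ∀ s ∈ frontier (Wr t0 t1 ε r), ∃ δ : ℝ, 0 < δ ∧ ∃ F : ℂ → ℂ,
        DifferentiableOn ℂ F (ball s δ) ∧ (∀ t ∈ ball s δ, PV h ψ H Ψ N Dn t (F t)) ∧
        ∀ t ∈ ball s δ, t ∈ Wr t0 t1 ε r → F t = Bt t := by
      intro s hs
      have hs1 : dist s (t0 + r * (t1 - t0)) = r * ε := by
        unfold Wr at hs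
        rw [frontier_ball _ hrε.ne'] at hs
        exact hs
      have hsW : s ∈ ball t1 ε := Wr_closed h0 hr1 (by rw [mem_closedBall, hs1])
      refine step_disc hψ hH hc rel hψper hNB isOpen_ball (convex_ball t1 ε).isPreconnected
        hΨ hN hDn hDn0 b1 b2 ?_ hs1 hsW hrε
      -- non-constant
      have hmem : ∀ᶠ t in 𝓝 t0, t ∈ Wr t0 t1 ε r := isOpen_ball.mem_nhds (Wr_self h0 hr)
      obtain ⟨t, ht1, ht2, ht3⟩ := (hnc.and_eventually (hmem.and b3.eventually_nhds)).exists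
      refine ⟨t, ht2, ?_⟩
      have : Bt =ᶠ[𝓝 t] B := ht3
      rw [this.deriv_eq]
      exact ht1
    have hcomp : IsCompact (closure (Wr t0 t1 ε r)) := by
      unfold Wr
      rw [closure_ball _ hrε.ne']
      exact isCompact_closedBall _ _
    obtain ⟨η, hη, F, f1, f2, f3⟩ := glue_closure isOpen_ball hcomp b1 b2 hfr
    have hr' : r < r + η / (2 * ε) := by
      have : 0 < η / (2 * ε) := by positivity
      linarith
    have hsub : Wr t0 t1 ε (r + η / (2 * ε)) ⊆ thickening η (Wr t0 t1 ε r) := by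
      refine Wr_thick h0 hr hr' (le_of_eq ?_)
      field_simp
      ring
    refine ⟨r + η / (2 * ε), hr', F, f1.mono hsub, fun t ht => f2 t (hsub ht), ?_⟩
    refine EventuallyEq.trans ?_ b3
    filter_upwards [isOpen_ball.mem_nhds (Wr_self h0 hr)] with y hy
    exact f3 hy
  -- conclusion
  have hE1 : E 1 := by
    by_contra hno
    obtain ⟨r1, hr1, hr1', hEr1⟩ := hsmall
    set A : Set ℝ := {r | 0 < r ∧ r ≤ 1 ∧ E r} with hA
    have hAne : A.Nonempty := ⟨r1, hr1, hr1'.le, hEr1⟩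
    have hAb : BddAbove A := ⟨1, fun r hr => hr.2.1⟩
    have hs1 : sSup A ≤ 1 := csSup_le hAne fun r hr => hr.2.1
    have hs0 : 0 < sSup A := hr1.trans_le (le_csSup hAb ⟨hr1, hr1'.le, hEr1⟩)
    have hEs : E (sSup A) := by
      refine hsup _ hs0 fun r hr hrs => ?_
      obtain ⟨r', hr'A, hrr'⟩ := exists_lt_of_lt_csSup hAne hrs
      exact hdown r r' hrr'.le hr'A.2.2
    rcases hs1.lt_or_eq with hlt | heq
    · obtain ⟨r', hr'1, hr'2⟩ := hstep _ hs0 hlt hEs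
      have hm : min r' 1 ∈ A := ⟨lt_min (hs0.trans hr'1) one_pos, min_le_right _ _,
        hdown _ r' (min_le_left _ _) hr'2⟩
      have := le_csSup hAb hm
      rcases min_le_iff.1 this with h5 | h5
      · linarith
      · linarith
    · rw [heq] at hEs
      exact hno hEs
  obtain ⟨Bt, b1, b2, b3⟩ := hE1
  rw [Wr_one] at b1 b2
  exact ⟨Bt, b1, b2, b3⟩

/-- **joint extension at an interior cluster value** (no hypothesis on `D`): both lines at the
vertex analytic at `x` (data `Ψ, N, Dn`), `u n → x`, `B (u n) → b ∈ S`; then some `G` analytic at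
`x`, `G x = b`, agrees with `B` near `u n` for all large `n`. -/
theorem extend_of_cluster' {S : Set ℂ} (hS : IsOpen S) {ψ H : ℂ → ℂ} {c : ℂ} (hc : c ≠ 0)
    (hψ : DifferentiableOn ℂ ψ S) (hH : DifferentiableOn ℂ H S)
    (rel : ∀ z ∈ S, deriv ψ z * deriv (deriv H) z - deriv (deriv ψ) z * deriv H z +
      deriv ψ z ^ 3 * H z = c)
    {D : Set (ℂ × ℂ)} (hD : IsOpen D) {B Ψ N Dn : ℂ × ℂ → ℂ} (hB : DifferentiableOn ℂ B D)
    {x : ℂ × ℂ} (hΨ : AnalyticAt ℂ Ψ x) (hN : AnalyticAt ℂ N x) (hDn : AnalyticAt ℂ Dn x)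
    {b : ℂ} (hb : b ∈ S) (hDb : deriv ψ b = 0 → Dn x ≠ 0)
    (h1 : ∀ᶠ y in 𝓝 x, y ∈ D → ψ (B y) = Ψ y) (h2 : ∀ᶠ y in 𝓝 x, y ∈ D → Dn y * H (B y) = N y)
    {u : ℕ → ℂ × ℂ} (hu : ∀ n, u n ∈ D) (hux : Tendsto u atTop (𝓝 x))
    (hub : Tendsto (fun n => B (u n)) atTop (𝓝 b)) :
    ∃ G : ℂ × ℂ → ℂ, AnalyticAt ℂ G x ∧ G x = b ∧ ∀ᶠ n in atTop, G =ᶠ[𝓝 (u n)] B := by
  obtain ⟨f, F, hfS, hF, hfb, hfF⟩ : ∃ (f : ℂ → ℂ) (F : ℂ × ℂ → ℂ), DifferentiableOn ℂ f S ∧
      AnalyticAt ℂ F x ∧ deriv f b ≠ 0 ∧ ∀ᶠ y in 𝓝 x, y ∈ D → f (B y) = F y := by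
    by_cases hy : deriv ψ b = 0
    · have hd := hDb hy
      have hr := rel b hb
      refine ⟨H, fun y => N y / Dn y, hH, hN.div hDn hd, ?_, ?_⟩
      · intro h0
        apply hc
        rw [← hr, hy, h0]; ring
      · filter_upwards [h2, hDn.continuousAt.eventually_ne hd] with y k1 k2 k3
        rw [← k1 k3, mul_div_cancel_left₀ _ k2]
    · exact ⟨ψ, Ψ, hψ, hΨ, hy, h1⟩
  have hfa : AnalyticAt ℂ f b := hfS.analyticAt (hS.mem_nhds hb)
  set β := hfa.hasStrictDerivAt.localInverse _ _ _ hfb with hβ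
  have hβa : AnalyticAt ℂ β (f b) := hfa.analyticAt_localInverse hfb
  have hβx : β (f b) = b := HasStrictFDerivAt.localInverse_apply_image ..
  have hβl : ∀ᶠ z in 𝓝 b, β (f z) = z := HasStrictDerivAt.eventually_left_inverse ..
  have hFx : F x = f b := by
    have t1 : Tendsto (fun n => F (u n)) atTop (𝓝 (F x)) := hF.continuousAt.tendsto.comp hux
    have t2 : Tendsto (fun n => f (B (u n))) atTop (𝓝 (f b)) :=
      hfa.continuousAt.tendsto.comp hub
    refine tendsto_nhds_unique t1 (t2.congr' ?_)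
    filter_upwards [hux.eventually hfF] with n hn
    exact hn (hu n)
  have hBt : AnalyticAt ℂ (fun y => β (F y)) x := by
    have : AnalyticAt ℂ β (F x) := by rw [hFx]; exact hβa
    exact AnalyticAt.comp (g := β) (f := F) this hF
  refine ⟨fun y => β (F y), hBt, by simp [hFx, hβx], ?_⟩
  filter_upwards [hux.eventually hfF.eventually_nhds, hub.eventually hβl.eventually_nhds]
    with n k1 k2
  have hBn : ContinuousAt B (u n) := (hB.differentiableAt (hD.mem_nhds (hu n))).continuousAt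
  filter_upwards [k1, hBn.eventually k2, hD.mem_nhds (hu n)] with y l1 l2 l3
  rw [← l1 l3, l2]




end Crest.Agent.R102.F300
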