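import Crest.Agent.R102.Face2_300

/-!
Row 102, T1-B (helper300): facts F1, F2 of R1_523.

* `refl_minus`: F1(i): vertex and outgoing line regular ⟹ incoming line regular.
* `F2`: a regular line through a regular vertex (with `y ≠ 0`) is not tangent there.
* `extend_of_cluster`: both lines regular at a boundary point `x` and the label has a cluster
  value in `S` there ⟹ the label extends analytically to `x`.
-/

set_option autoImplicit false

open Set Filter Topology
open scoped ComplexConjugate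

noncomputable section

namespace Crest.Agent.R102.F300

open Crest.Agent.R102.C0 Crest.Agent.R102.B821 Complex

lemma analyticAt_comp_label {S : Set ℂ} (hS : IsOpen S) {f : ℂ → ℂ} (hf : DifferentiableOn ℂ f S)
    {B : ℂ × ℂ → ℂ} {x : ℂ × ℂ} (hB : AnalyticAt ℂ B x) (hx : B x ∈ S) :
    AnalyticAt ℂ (fun y => f (B y)) x :=
  AnalyticAt.comp (g := f) (f := B) (hf.analyticAt (hS.mem_nhds hx)) hB



/-- two incident lines with `φ + φ' = 2 ψ(b)`: `p + p' = 2 H(b) cos (φ - ψ(b))` where `ψ' ≠ 0` -/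
theorem sum_p {ψ H : ℂ → ℂ} {φ p φ' p' b : ℂ} (hb : deriv ψ b ≠ 0) (h : Inc ψ H φ p b)
    (h' : Inc ψ H φ' p' b) (hr : φ + φ' = 2 * ψ b) : p + p' = 2 * H b * cos (φ - ψ b) := by
  unfold Inc at *
  have e1 : φ' - ψ b = -(φ - ψ b) := by linear_combination hr
  rw [e1, cos_neg, sin_neg] at h'
  refine mul_left_cancel₀ hb ?_
  linear_combination h + h'

/-- F2: a regular line through a regular vertex (with `ψ' ≠ 0`) is not tangent there. -/
theorem F2 {S : Set ℂ} (hS : IsOpen S) {ψ H : ℂ → ℂ}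
    (hψ : DifferentiableOn ℂ ψ S) (hH : DifferentiableOn ℂ H S)
    {φ p B : ℂ × ℂ → ℂ} {x : ℂ × ℂ} (hφ : AnalyticAt ℂ φ x) (hp : AnalyticAt ℂ p x)
    (hB : AnalyticAt ℂ B x) (hx : B x ∈ S) (hy : deriv ψ (B x) ≠ 0)
    (hon : ∀ᶠ y in 𝓝 x, Inc ψ H (φ y) (p y) (B y))
    (har : q1 φ x * q2 p x - q2 φ x * q1 p x ≠ 0) : sin (φ x - ψ (B x)) ≠ 0 := by
  intro hs
  have hψx : AnalyticAt ℂ ψ (B x) := hψ.analyticAt (hS.mem_nhds hx)
  have hHx : AnalyticAt ℂ H (B x) := hH.analyticAt (hS.mem_nhds hx)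
  -- directional derivatives of the incidence relation
  have key : ∀ v : ℂ × ℂ, deriv ψ (B x) * fderiv ℂ p x v
      = deriv H (B x) * cos (φ x - ψ (B x)) * fderiv ℂ φ x v := by
    intro v
    have hc0 : HasDerivAt (fun s : ℂ => x + s • v) v 0 := by
      have h1 : HasDerivAt (fun s : ℂ => s • v) ((1 : ℂ) • v) 0 :=
        (hasDerivAt_id (0 : ℂ)).smul_const v
      simpa using h1.const_add x
    have hx0 : x + (0 : ℂ) • v = x := by simp
    have hcomp : ∀ f : ℂ × ℂ → ℂ, DifferentiableAt ℂ f x →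
        HasDerivAt (fun s : ℂ => f (x + s • v)) (fderiv ℂ f x v) 0 := by
      intro f hf
      have h1 : HasFDerivAt f (fderiv ℂ f x) (x + (0 : ℂ) • v) := by
        rw [hx0]; exact hf.hasFDerivAt
      exact h1.comp_hasDerivAt (0 : ℂ) hc0
    have hφ' := hcomp φ hφ.differentiableAt
    have hp' := hcomp p hp.differentiableAt
    have hB' := hcomp B hB.differentiableAt
    have hcl : ∀ f : ℂ → ℂ, AnalyticAt ℂ f (B x) →
        HasDerivAt (fun s : ℂ => f (B (x + s • v))) (deriv f (B x) * fderiv ℂ B x v) 0 := by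
      intro f hf
      have h1 : HasDerivAt f (deriv f (B x)) (B (x + (0 : ℂ) • v)) := by
        rw [hx0]; exact hf.differentiableAt.hasDerivAt
      exact h1.comp (0 : ℂ) hB'
    have k1 := hcl _ hψx
    have k2 := hcl _ hψx.deriv
    have k3 := hcl _ hHx
    have k4 := hcl _ hHx.deriv
    have l1 := k2.mul hp'
    have l2 := (k2.mul k3).mul ((hφ'.sub k1).ccos)
    have l3 := k4.mul ((hφ'.sub k1).csin)
    have l4 := (l1.sub (l2.add l3))
    have hcont : Tendsto (fun s : ℂ => x + s • v) (𝓝 0) (𝓝 x) := by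
      have := hc0.continuousAt.tendsto
      rwa [hx0] at this
    have hz : (fun s : ℂ => deriv ψ (B (x + s • v)) * p (x + s • v)
        - (deriv ψ (B (x + s • v)) * H (B (x + s • v)) * cos (φ (x + s • v) - ψ (B (x + s • v)))
          + deriv H (B (x + s • v)) * sin (φ (x + s • v) - ψ (B (x + s • v)))))
        =ᶠ[𝓝 0] fun _ => (0 : ℂ) := by
      filter_upwards [hcont.eventually hon] with s hs
      unfold Inc at hs
      rw [hs]; ring
    have e4 := (l4.congr_of_eventuallyEq hz.symm).unique (hasDerivAt_const (0 : ℂ) (0 : ℂ))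
    simp only [zero_smul, add_zero, Pi.sub_apply, Pi.mul_apply] at e4
    have hinc := hon.self_of_nhds
    unfold Inc at hinc
    rw [hs] at e4 hinc
    have hpe : p x = H (B x) * cos (φ x - ψ (B x)) := by
      refine mul_left_cancel₀ hy ?_
      rw [hinc]; ring
    rw [hpe] at e4
    linear_combination e4
  have h1 := key (1, 0)
  have h2 := key (0, 1)
  have h3 : deriv ψ (B x) * (q1 φ x * q2 p x - q2 φ x * q1 p x) = 0 := by
    unfold q1 q2
    linear_combination (fderiv ℂ φ x (1, 0)) * h2 - (fderiv ℂ φ x (0, 1)) * h1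
  rcases mul_eq_zero.1 h3 with h4 | h4
  · exact hy h4
  · exact har h4


end Crest.Agent.R102.F300
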