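import Mathlib
import Crest.Agent.R102.C1Defs_821
import Crest.Agent.R102.Face2_300
import Crest.Agent.R102.Rule_300
import Crest.Agent.R102.Rule1D_982
import Crest.Agent.R102.KontB_669
import Crest.Agent.R102.Rule2_300

-- ▼ part R102/Sheet0_982
section

/-!
Row 102 (T1-B), part I.0: the base relations of the family of lines in the coordinates
`(ψ, H)` = (tangent angle, support function), extended to the strip `Sg h`.
-/

set_option autoImplicit false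

open Set Filter Topology Metric
open scoped ComplexConjugate

noncomputable section

namespace Crest.Agent.R102.Sh982

open Crest.Agent.R102.T5 Crest.Agent.R102.G576 Crest.Agent.R102.A929 Crest.Agent.R102.B821
open Crest.Agent.R102.C0 Crest.Agent.R102.C1 Crest.Agent.R102.F300 Crest.Agent.R102.Rule982

/-- data of part (T1-B): a family of lines, and the holomorphic extension `(ψ, H)` of (tangent
angle, support function) to the strip `Sg h` -/
structure Dat (q : C(ℂ, ℂ)) (η ρ r Bc : ℝ) (b φ p : ℂ × ℂ → ℂ) (m₀ : ℂ → ℂ) (h : ℝ)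
    (ψ H : ℂ → ℂ) : Prop where
  fam : LineFam q η ρ r Bc b φ p m₀
  η_le : η ≤ h
  ψ_diff : DifferentiableOn ℂ ψ (Sg h)
  H_diff : DifferentiableOn ℂ H (Sg h)
  ψ_eq : ∀ z ∈ Str η, ψ z = Tc q z
  H_eq : ∀ z ∈ Str η, H z = Hc q z

variable {q : C(ℂ, ℂ)} {η ρ r Bc : ℝ} {b φ p : ℂ × ℂ → ℂ} {m₀ : ℂ → ℂ} {h : ℝ} {ψ H : ℂ → ℂ}

lemma Str_sub_Sg (hηh : η ≤ h) : Str η ⊆ Sg h := fun _ hz => lt_of_lt_of_le hz hηh

lemma add_one_mem_Sg {z : ℂ} (hz : z ∈ Sg h) : z + 1 ∈ Sg h := by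
  change |(z + 1).im| < h
  have : |z.im| < h := hz
  simpa using this

section Base

variable (D : Dat q η ρ r Bc b φ p m₀ h ψ H)
include D

lemma Dat.η_pos : 0 < η := D.fam.dat.η_pos

lemma Dat.h_pos : 0 < h := D.η_pos.trans_le D.η_le

lemma Dat.sub : Str η ⊆ Sg h := Str_sub_Sg D.η_le

lemma Dat.ψ_ev {z : ℂ} (hz : z ∈ Str η) : ψ =ᶠ[𝓝 z] Tc q := by
  filter_upwards [(isOpen_Str η).mem_nhds hz] with w hw
  exact D.ψ_eq w hw

lemma Dat.H_ev {z : ℂ} (hz : z ∈ Str η) : H =ᶠ[𝓝 z] Hc q := by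
  filter_upwards [(isOpen_Str η).mem_nhds hz] with w hw
  exact D.H_eq w hw

lemma Dat.deriv_ψ {z : ℂ} (hz : z ∈ Str η) : deriv ψ z = Complex.exp (q z) := by
  rw [(D.ψ_ev hz).deriv_eq]
  exact (D.fam.dat.hasDerivAt_Tc hz).deriv

lemma Dat.deriv_ψ_ne {z : ℂ} (hz : z ∈ Str η) : deriv ψ z ≠ 0 := by
  rw [D.deriv_ψ hz]
  exact Complex.exp_ne_zero _

/-- `Hc' = - (y / 2) (e^{-iT} Z + e^{iT} Zc)` -/
lemma Dat.hasDerivAt_Hc {z : ℂ} (hz : z ∈ Str η) :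
    HasDerivAt (Hc q) (-(Complex.exp (q z) / 2) *
      (Complex.exp (-(Complex.I * Tc q z)) * Zs q 1 z +
        Complex.exp (Complex.I * Tc q z) * Zs q (-1) z)) z := by
  have hT := D.fam.dat.hasDerivAt_Tc hz
  have h1 := D.fam.dat.hasDerivAt_Zs 1 hz
  have h2 := D.fam.dat.hasDerivAt_Zs (-1) hz
  have a1 : HasDerivAt (fun z => Complex.exp (-(Complex.I * Tc q z)))
      (Complex.exp (-(Complex.I * Tc q z)) * (-(Complex.I * Complex.exp (q z)))) z :=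
    (hT.const_mul Complex.I).fun_neg.cexp
  have a2 : HasDerivAt (fun z => Complex.exp (Complex.I * Tc q z))
      (Complex.exp (Complex.I * Tc q z) * (Complex.I * Complex.exp (q z))) z :=
    (hT.const_mul Complex.I).cexp
  have h3 := ((a1.fun_mul h1).fun_sub (a2.fun_mul h2)).div_const (2 * Complex.I)
  refine h3.congr_deriv ?_
  unfold C0.vel
  have e1 : Complex.exp (-(Complex.I * Tc q z)) *
      Complex.exp (-2 * q z + 1 * (Complex.I * Tc q z)) = Complex.exp (-2 * q z) := by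
    rw [← Complex.exp_add]
    congr 1
    ring
  have e2 : Complex.exp (Complex.I * Tc q z) *
      Complex.exp (-2 * q z + -1 * (Complex.I * Tc q z)) = Complex.exp (-2 * q z) := by
    rw [← Complex.exp_add]
    congr 1
    ring
  have hI0 : (2 * Complex.I) ≠ 0 := by simp [Complex.I_ne_zero]
  rw [e1, e2, div_eq_iff hI0]
  ring

lemma Dat.deriv_H {z : ℂ} (hz : z ∈ Str η) : deriv H z = -(Complex.exp (q z) / 2) *
      (Complex.exp (-(Complex.I * Tc q z)) * Zs q 1 z +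
        Complex.exp (Complex.I * Tc q z) * Zs q (-1) z) := by
  rw [(D.H_ev hz).deriv_eq]
  exact (D.hasDerivAt_Hc hz).deriv

/-- the isotropic coordinates -/
lemma Dat.zz {z : ℂ} (hz : z ∈ Str η) : ZZ ψ H z = Zs q 1 z ∧ ZZc ψ H z = Zs q (-1) z := by
  have e0 := Complex.exp_ne_zero (q z)
  have e1 : Complex.exp (Complex.I * Tc q z) * Complex.exp (-(Complex.I * Tc q z)) = 1 := by
    rw [← Complex.exp_add]
    simp
  have hI : Complex.I * Complex.I = -1 := Complex.I_mul_I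
  unfold ZZ ZZc
  rw [D.ψ_eq z hz, D.H_eq z hz, D.deriv_ψ hz, D.deriv_H hz]
  have e2 : -(Complex.exp (q z) / 2) *
      (Complex.exp (-(Complex.I * Tc q z)) * Zs q 1 z +
        Complex.exp (Complex.I * Tc q z) * Zs q (-1) z) / Complex.exp (q z) =
      -(1 / 2) * (Complex.exp (-(Complex.I * Tc q z)) * Zs q 1 z +
        Complex.exp (Complex.I * Tc q z) * Zs q (-1) z) := by
    field_simp
  have e3 : Complex.I * Hc q z = (Complex.exp (-(Complex.I * Tc q z)) * Zs q 1 z -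
      Complex.exp (Complex.I * Tc q z) * Zs q (-1) z) / 2 := by
    unfold Hc
    field_simp
  rw [e2, e3]
  constructor
  · linear_combination Zs q 1 z * e1
  · linear_combination Zs q (-1) z * e1

lemma Dat.b_mem_Str {x : ℂ × ℂ} (hx : x ∈ PD ρ r) : b x ∈ Str η :=
  (D.fam.b_mem x hx).trans D.fam.ρ_lt

lemma Dat.b_mem {x : ℂ × ℂ} (hx : x ∈ PD ρ r) : b x ∈ Sg h := D.sub (D.b_mem_Str hx)

/-- the vertex `b (t, w)` is incident with the line `t + s w/2`, `s = ± 1` -/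
lemma Dat.base_onLine {s : ℂ} (hs : s = 1 ∨ s = -1) {t w : ℂ} (h1 : (t, w) ∈ PD ρ r)
    (h2 : (t + s * (w / 2), w) ∈ PD ρ r) :
    OnLine (φ (t + s * (w / 2), w)) (p (t + s * (w / 2), w)) (Zs q 1 (b (t, w)))
      (Zs q (-1) (b (t, w))) := by
  rcases hs with rfl | rfl
  · have h3 := D.fam.inc' (t + 1 * (w / 2)) w h2 (by
      have : t + 1 * (w / 2) - w / 2 = t := by ring
      rw [this]
      exact h1)
    have e : t + 1 * (w / 2) - w / 2 = t := by ring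
    rw [e] at h3
    exact h3
  · have h3 := D.fam.inc (t + -1 * (w / 2)) w h2 (by
      have : t + -1 * (w / 2) + w / 2 = t := by ring
      rw [this]
      exact h1)
    have e : t + -1 * (w / 2) + w / 2 = t := by ring
    rw [e] at h3
    exact h3

/-- incidence in the coordinates `(ψ, H)` -/
lemma Dat.base_inc {s : ℂ} (hs : s = 1 ∨ s = -1) {t w : ℂ} (h1 : (t, w) ∈ PD ρ r)
    (h2 : (t + s * (w / 2), w) ∈ PD ρ r) :
    Inc ψ H (φ (t + s * (w / 2), w)) (p (t + s * (w / 2), w)) (b (t, w)) := by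
  have hb := D.b_mem_Str h1
  rw [← onLine_iff ψ H (D.deriv_ψ_ne hb), (D.zz hb).1, (D.zz hb).2]
  exact D.base_onLine hs h1 h2

/-- reflection -/
lemma Dat.base_refl {s : ℂ} (hs : s = 1 ∨ s = -1) {t w : ℂ} (h1 : (t, w) ∈ PD ρ r)
    (h2 : (t + s * (w / 2), w) ∈ PD ρ r) (h3 : (t - s * (w / 2), w) ∈ PD ρ r) :
    φ (t - s * (w / 2), w) + φ (t + s * (w / 2), w) = 2 * ψ (b (t, w)) := by
  rw [D.ψ_eq _ (D.b_mem_Str h1)]
  rcases hs with rfl | rfl
  · rw [one_mul] at h2 h3 ⊢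
    exact D.fam.refl t w h1 h3 h2
  · have e1 : t + -1 * (w / 2) = t - w / 2 := by ring
    have e2 : t - -1 * (w / 2) = t + w / 2 := by ring
    rw [e1] at h2 ⊢
    rw [e2] at h3 ⊢
    rw [add_comm]
    exact D.fam.refl t w h1 h2 h3

/-- `p₋ + p₊ = 2 H(b) cos (φ₋ - ψ(b))` -/
lemma Dat.base_sum {s : ℂ} (hs : s = 1 ∨ s = -1) {t w : ℂ} (h1 : (t, w) ∈ PD ρ r)
    (h2 : (t + s * (w / 2), w) ∈ PD ρ r) (h3 : (t - s * (w / 2), w) ∈ PD ρ r) :
    p (t - s * (w / 2), w) + p (t + s * (w / 2), w) =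
      2 * H (b (t, w)) * Complex.cos (φ (t - s * (w / 2), w) - ψ (b (t, w))) := by
  have hs' : -s = 1 ∨ -s = -1 := by
    rcases hs with rfl | rfl
    · exact Or.inr rfl
    · exact Or.inl (neg_neg 1)
  have h3' : (t + -s * (w / 2), w) ∈ PD ρ r := by
    rw [neg_mul, ← sub_eq_add_neg]
    exact h3
  have i1 := D.base_inc hs h1 h2
  have i2 := D.base_inc hs' h1 h3'
  rw [neg_mul, ← sub_eq_add_neg] at i2
  exact sum_p (D.deriv_ψ_ne (D.b_mem_Str h1)) i2 i1 (D.base_refl hs h1 h2 h3)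

/-! ### relation and period on the strip -/

lemma Dat.rel_Str {z : ℂ} (hz : z ∈ Str η) : deriv ψ z * deriv (deriv H) z -
    deriv (deriv ψ) z * deriv H z + deriv ψ z ^ 3 * H z = -1 := by
  have hTe : deriv ψ =ᶠ[𝓝 z] fun z => Complex.exp (q z) := by
    filter_upwards [(isOpen_Str η).mem_nhds hz] with w hw
    exact D.deriv_ψ hw
  have hHe : deriv H =ᶠ[𝓝 z] fun z => -(Complex.exp (q z) / 2) *
      (Complex.exp (-(Complex.I * Tc q z)) * Zs q 1 z +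
        Complex.exp (Complex.I * Tc q z) * Zs q (-1) z) := by
    filter_upwards [(isOpen_Str η).mem_nhds hz] with w hw
    exact D.deriv_H hw
  have hq : HasDerivAt q (deriv q z) z :=
    (D.fam.dat.diff.differentiableAt ((isOpen_Str η).mem_nhds hz)).hasDerivAt
  have hT := D.fam.dat.hasDerivAt_Tc hz
  have h1 := D.fam.dat.hasDerivAt_Zs 1 hz
  have h2 := D.fam.dat.hasDerivAt_Zs (-1) hz
  have d1 : deriv (deriv ψ) z = Complex.exp (q z) * deriv q z := by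
    rw [hTe.deriv_eq]
    exact hq.cexp.deriv
  have a0 : HasDerivAt (fun z => -(Complex.exp (q z) / 2))
      (-(Complex.exp (q z) * deriv q z / 2)) z := (hq.cexp.div_const 2).fun_neg
  have a1 : HasDerivAt (fun z => Complex.exp (-(Complex.I * Tc q z)))
      (Complex.exp (-(Complex.I * Tc q z)) * (-(Complex.I * Complex.exp (q z)))) z :=
    (hT.const_mul Complex.I).fun_neg.cexp
  have a2 : HasDerivAt (fun z => Complex.exp (Complex.I * Tc q z))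
      (Complex.exp (Complex.I * Tc q z) * (Complex.I * Complex.exp (q z))) z :=
    (hT.const_mul Complex.I).cexp
  have d2 := a0.fun_mul ((a1.fun_mul h1).fun_add (a2.fun_mul h2))
  have e1 : Complex.exp (-(Complex.I * Tc q z)) *
      Complex.exp (-2 * q z + 1 * (Complex.I * Tc q z)) = Complex.exp (-2 * q z) := by
    rw [← Complex.exp_add]
    congr 1
    ring
  have e2 : Complex.exp (Complex.I * Tc q z) *
      Complex.exp (-2 * q z + -1 * (Complex.I * Tc q z)) = Complex.exp (-2 * q z) := by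
    rw [← Complex.exp_add]
    congr 1
    ring
  have e3 : Complex.exp (q z) * Complex.exp (q z) * Complex.exp (-2 * q z) = 1 := by
    rw [← Complex.exp_add, ← Complex.exp_add]
    have : q z + q z + -2 * q z = 0 := by ring
    rw [this, Complex.exp_zero]
  have hI : Complex.I * Complex.I = -1 := Complex.I_mul_I
  rw [hHe.deriv_eq, d2.deriv, d1, D.deriv_ψ hz, D.deriv_H hz, D.H_eq z hz]
  unfold C0.vel Hc
  have hI0 : (2 * Complex.I) ≠ 0 := by simp [Complex.I_ne_zero]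
  have e4 : (Complex.exp (-(Complex.I * Tc q z)) * Zs q 1 z -
      Complex.exp (Complex.I * Tc q z) * Zs q (-1) z) / (2 * Complex.I) =
      -(Complex.I / 2) * (Complex.exp (-(Complex.I * Tc q z)) * Zs q 1 z -
      Complex.exp (Complex.I * Tc q z) * Zs q (-1) z) := by
    rw [div_eq_iff hI0]
    linear_combination ((Complex.exp (-(Complex.I * Tc q z)) * Zs q 1 z -
      Complex.exp (Complex.I * Tc q z) * Zs q (-1) z)) * hI
  rw [e4]
  linear_combination (-(Complex.exp (q z) ^ 2 / 2)) * e1 + (-(Complex.exp (q z) ^ 2 / 2)) * e2 -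
    e3

/-- the relation on the whole strip -/
lemma Dat.rel : Rel (Sg h) ψ H (-1) := by
  have hSo := isOpen_Sg h
  have hψ' := D.ψ_diff.deriv hSo
  have hψ'' := hψ'.deriv hSo
  have hH' := D.H_diff.deriv hSo
  have hH'' := hH'.deriv hSo
  have h1 : DifferentiableOn ℂ (fun z => deriv ψ z * deriv (deriv H) z -
      deriv (deriv ψ) z * deriv H z + deriv ψ z ^ 3 * H z) (Sg h) :=
    ((hψ'.mul hH'').sub (hψ''.mul hH')).add ((hψ'.pow 3).mul D.H_diff)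
  have h0 : (0 : ℂ) ∈ Str η := by
    change |(0 : ℂ).im| < η
    simpa using D.η_pos
  have h2 := AnalyticOnNhd.eqOn_of_preconnected_of_eventuallyEq (𝕜 := ℂ)
    (h1.analyticOnNhd hSo) (g := fun _ => (-1 : ℂ)) analyticOnNhd_const
    (convex_Sg h).isPreconnected (D.sub h0) (by
      filter_upwards [(isOpen_Str η).mem_nhds h0] with z hz
      exact D.rel_Str hz)
  exact fun z hz => h2 hz

lemma Dat.ψ_per : ∀ z ∈ Sg h, ψ (z + 1) = ψ z + 2 * Real.pi := by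
  have hSo := isOpen_Sg h
  have h0 : (0 : ℂ) ∈ Str η := by
    change |(0 : ℂ).im| < η
    simpa using D.η_pos
  have h2 := AnalyticOnNhd.eqOn_of_preconnected_of_eventuallyEq (𝕜 := ℂ)
    (f := fun z => ψ (z + 1)) (g := fun z => ψ z + 2 * Real.pi)
    ((D.ψ_diff.comp (f := fun z : ℂ => z + 1) (by fun_prop)
      (fun z hz => add_one_mem_Sg hz)).analyticOnNhd hSo)
    ((D.ψ_diff.add_const _).analyticOnNhd hSo)
    (convex_Sg h).isPreconnected (D.sub h0) (by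
      filter_upwards [(isOpen_Str η).mem_nhds h0] with z hz
      have h3 : z + 1 ∈ Str η := add_one_mem_Sg (h := η) hz
      rw [D.ψ_eq _ h3, D.ψ_eq _ hz]
      exact D.fam.dat.Tc_per hz)
  exact fun z hz => h2 hz

end Base

end Crest.Agent.R102.Sh982
end
end

-- ▼ part R102/VH_982
section

/-!
Row 102 (T1-B): **the maximal vertically convex domain of joint holomorphy.**

`f : ℂ × ℂ → E` analytic with values in `K` on the base `Bs ρ r = {|Im t| < ρ, ‖w‖ < r}`.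
`Reg ρ r f K` = union of all vertically convex open domains `Ω ⊇ Bs ρ r` (`VDom ρ r Ω`) which carry
an analytic `K`-valued extension of `f`; `ext ρ r f K` = the (single valued) extension;
`hgt ρ r f K x w` = height of `Reg` over the abscissa `x`, `top ρ r f K w` = `inf_x hgt x w`.
-/

set_option autoImplicit false

open Set Filter Topology Metric

noncomputable section

namespace Crest.Agent.R102.VH982

variable {E : Type*} [NormedAddCommGroup E] [NormedSpace ℂ E]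

/-- the point `(x + i y, w)` -/
def pt (x y : ℝ) (w : ℂ) : ℂ × ℂ := ((x : ℂ) + y * Complex.I, w)

/-- base domain -/
def Bs (ρ r : ℝ) : Set (ℂ × ℂ) := {p | |p.1.im| < ρ ∧ ‖p.2‖ < r}

@[simp] lemma pt_snd (x y : ℝ) (w : ℂ) : (pt x y w).2 = w := rfl
@[simp] lemma pt_re (x y : ℝ) (w : ℂ) : (pt x y w).1.re = x := by simp [pt]
@[simp] lemma pt_im (x y : ℝ) (w : ℂ) : (pt x y w).1.im = y := by simp [pt]

lemma pt_eta (p : ℂ × ℂ) : pt p.1.re p.1.im p.2 = p := by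
  unfold pt
  rw [Complex.re_add_im]


lemma continuous_pt_y (x : ℝ) (w : ℂ) : Continuous fun y : ℝ => pt x y w := by
  unfold pt
  fun_prop

lemma isOpen_im (ρ : ℝ) : IsOpen {p : ℂ × ℂ | |p.1.im| < ρ} :=
  isOpen_lt (continuous_abs.comp (Complex.continuous_im.comp continuous_fst)) continuous_const

lemma isOpen_nw (r : ℝ) : IsOpen {p : ℂ × ℂ | ‖p.2‖ < r} :=
  isOpen_lt (continuous_norm.comp continuous_snd) continuous_const

lemma isOpen_Bs (ρ r : ℝ) : IsOpen (Bs ρ r) := by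
  have h : Bs ρ r = {p : ℂ × ℂ | |p.1.im| < ρ} ∩ {p : ℂ × ℂ | ‖p.2‖ < r} := by
    ext p
    exact Iff.rfl
  rw [h]
  exact (isOpen_im ρ).inter (isOpen_nw r)

/-- vertically convex open domain over the base -/
structure VDom (ρ r : ℝ) (Ω : Set (ℂ × ℂ)) : Prop where
  isOpen : IsOpen Ω
  base : Bs ρ r ⊆ Ω
  sub : ∀ p ∈ Ω, ‖p.2‖ < r
  vert : ∀ (x y₁ y₂ y : ℝ) (w : ℂ), pt x y₁ w ∈ Ω → pt x y₂ w ∈ Ω → y₁ ≤ y → y ≤ y₂ →
    pt x y w ∈ Ω

lemma VDom.vert' {ρ r : ℝ} {Ω : Set (ℂ × ℂ)} (h : VDom ρ r Ω) {x y₁ y₂ y : ℝ} {w : ℂ}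
    (h1 : pt x y₁ w ∈ Ω) (h2 : pt x y₂ w ∈ Ω) (hy : y ∈ uIcc y₁ y₂) : pt x y w ∈ Ω := by
  rcases le_total y₁ y₂ with h3 | h3
  · rw [uIcc_of_le h3] at hy
    exact h.vert x y₁ y₂ y w h1 h2 hy.1 hy.2
  · rw [uIcc_of_ge h3] at hy
    exact h.vert x y₂ y₁ y w h2 h1 hy.1 hy.2

lemma VDom.base0 {ρ r : ℝ} (hρ : 0 < ρ) {Ω : Set (ℂ × ℂ)} (h : VDom ρ r Ω) {x : ℝ} {w : ℂ}
    (hw : ‖w‖ < r) : pt x 0 w ∈ Ω :=
  h.base ⟨by rw [pt_im, abs_zero]; exact hρ, hw⟩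

lemma VDom.inter {ρ r : ℝ} {Ω Ω' : Set (ℂ × ℂ)} (h : VDom ρ r Ω) (h' : VDom ρ r Ω') :
    VDom ρ r (Ω ∩ Ω') where
  isOpen := h.isOpen.inter h'.isOpen
  base := subset_inter h.base h'.base
  sub := fun p hp => h.sub p hp.1
  vert := fun x y₁ y₂ y w h1 h2 h3 h4 =>
    ⟨h.vert x y₁ y₂ y w h1.1 h2.1 h3 h4, h'.vert x y₁ y₂ y w h1.2 h2.2 h3 h4⟩

lemma VDom.union {ρ r : ℝ} (hρ : 0 < ρ) {Ω Ω' : Set (ℂ × ℂ)} (h : VDom ρ r Ω)
    (h' : VDom ρ r Ω') : VDom ρ r (Ω ∪ Ω') where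
  isOpen := h.isOpen.union h'.isOpen
  base := h.base.trans subset_union_left
  sub := fun p hp => hp.elim (h.sub p) (h'.sub p)
  vert := by
    intro x y₁ y₂ y w h1 h2 h3 h4
    have hw : ‖w‖ < r := by
      rcases h1 with h1 | h1
      · exact h.sub _ h1
      · exact h'.sub _ h1
    have hb := h.base0 (x := x) hρ hw
    have hb' := h'.base0 (x := x) hρ hw
    rcases le_total 0 y with h5 | h5
    · rcases h2 with h2 | h2
      · exact Or.inl (h.vert x 0 y₂ y w hb h2 h5 h4)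
      · exact Or.inr (h'.vert x 0 y₂ y w hb' h2 h5 h4)
    · rcases h1 with h1 | h1
      · exact Or.inl (h.vert x y₁ 0 y w h1 hb h3 h5)
      · exact Or.inr (h'.vert x y₁ 0 y w h1 hb' h3 h5)

/-- restriction of the parameter and shift `t ↦ t + a w` -/
lemma VDom.shift {ρ r : ℝ} {Ω : Set (ℂ × ℂ)} (h : VDom ρ r Ω) (a : ℂ) {ρ' r' : ℝ}
    (hr : r' ≤ r) (hρ : ρ' + ‖a‖ * r' ≤ ρ) :
    VDom ρ' r' {p : ℂ × ℂ | ‖p.2‖ < r' ∧ (p.1 + a * p.2, p.2) ∈ Ω} where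
  isOpen := by
    have h1 : {p : ℂ × ℂ | ‖p.2‖ < r' ∧ (p.1 + a * p.2, p.2) ∈ Ω} =
        {p : ℂ × ℂ | ‖p.2‖ < r'} ∩ (fun p : ℂ × ℂ => (p.1 + a * p.2, p.2)) ⁻¹' Ω := by
      ext p
      exact Iff.rfl
    rw [h1]
    exact (isOpen_nw r').inter (h.isOpen.preimage (by fun_prop))
  base := by
    rintro ⟨t, w⟩ ⟨h1, h2⟩
    refine ⟨h2, h.base ⟨?_, h2.trans_le hr⟩⟩
    simp only at h1 h2 ⊢
    have h3 : |(a * w).im| ≤ ‖a‖ * ‖w‖ := by
      rw [← norm_mul]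
      exact Complex.abs_im_le_norm _
    have h4 : ‖a‖ * ‖w‖ ≤ ‖a‖ * r' := mul_le_mul_of_nonneg_left h2.le (norm_nonneg a)
    rw [Complex.add_im]
    have h5 := abs_add_le t.im (a * w).im
    linarith
  sub := fun p hp => hp.1
  vert := by
    intro x y₁ y₂ y w h1 h2 h3 h4
    refine ⟨h1.1, ?_⟩
    have key : ∀ s : ℝ, ((pt x s w).1 + a * (pt x s w).2, (pt x s w).2) =
        pt (x + (a * w).re) (s + (a * w).im) w := by
      intro s
      unfold pt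
      refine Prod.ext ?_ rfl
      apply Complex.ext <;> simp
    have h1' := h1.2
    have h2' := h2.2
    rw [key] at h1' h2' ⊢
    exact h.vert _ _ _ _ w h1' h2' (by linarith) (by linarith)

lemma VDom.restrict {ρ r : ℝ} {Ω : Set (ℂ × ℂ)} (h : VDom ρ r Ω) {ρ' r' : ℝ}
    (hr : r' ≤ r) (hρ : ρ' ≤ ρ) : VDom ρ' r' (Ω ∩ {p : ℂ × ℂ | ‖p.2‖ < r'}) where
  isOpen := h.isOpen.inter (isOpen_nw r')
  base := fun p hp => ⟨h.base ⟨hp.1.trans_le hρ, hp.2.trans_le hr⟩, hp.2⟩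
  sub := fun p hp => hp.2
  vert := fun x y₁ y₂ y w h1 h2 h3 h4 => ⟨h.vert x y₁ y₂ y w h1.1 h2.1 h3 h4, h1.2⟩

/-! ### identity theorem -/

lemma isPreconnected_seg (x y₁ y₂ : ℝ) (w : ℂ) :
    IsPreconnected ((fun y : ℝ => pt x y w) '' uIcc y₁ y₂) :=
  isPreconnected_uIcc.image _ (continuous_pt_y x w).continuousOn

/-- identity theorem along vertical segments -/
lemma eq_along {Ω : Set (ℂ × ℂ)} {f g : ℂ × ℂ → E} (hf : AnalyticOnNhd ℂ f Ω)
    (hg : AnalyticOnNhd ℂ g Ω) {x y₁ y₂ : ℝ} {w : ℂ} (hseg : ∀ y ∈ uIcc y₁ y₂, pt x y w ∈ Ω)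
    (h1 : f =ᶠ[𝓝 (pt x y₁ w)] g) : f (pt x y₂ w) = g (pt x y₂ w) := by
  have hsub : (fun y : ℝ => pt x y w) '' uIcc y₁ y₂ ⊆ Ω := by
    rintro _ ⟨y, hy, rfl⟩
    exact hseg y hy
  exact (hf.mono hsub).eqOn_of_preconnected_of_eventuallyEq (hg.mono hsub)
    (isPreconnected_seg x y₁ y₂ w) ⟨y₁, left_mem_uIcc, rfl⟩ h1 ⟨y₂, right_mem_uIcc, rfl⟩

lemma VDom.unique {ρ r : ℝ} (hρ : 0 < ρ) {Ω : Set (ℂ × ℂ)} (h : VDom ρ r Ω) {f g : ℂ × ℂ → E}
    (hf : AnalyticOnNhd ℂ f Ω) (hg : AnalyticOnNhd ℂ g Ω) (hfg : EqOn f g (Bs ρ r)) :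
    EqOn f g Ω := by
  intro p hp
  have hw := h.sub _ hp
  rw [← pt_eta p] at hp ⊢
  have hb := h.base0 (x := p.1.re) hρ hw
  refine eq_along hf hg (y₁ := 0) (fun y hy => h.vert' hb hp hy) ?_
  have hmem : pt p.1.re 0 p.2 ∈ Bs ρ r := ⟨by rw [pt_im, abs_zero]; exact hρ, hw⟩
  filter_upwards [(isOpen_Bs ρ r).mem_nhds hmem] with q hq
  exact hfg hq

/-! ### the maximal domain -/

/-- `G` is an analytic `K`-valued extension of `f` to the vertically convex domain `Ω` -/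
structure IsExt (ρ r : ℝ) (f : ℂ × ℂ → E) (K : Set E) (Ω : Set (ℂ × ℂ)) (G : ℂ × ℂ → E) :
    Prop where
  dom : VDom ρ r Ω
  an : AnalyticOnNhd ℂ G Ω
  maps : MapsTo G Ω K
  eq : EqOn G f (Bs ρ r)

/-- the maximal domain -/
def Reg (ρ r : ℝ) (f : ℂ × ℂ → E) (K : Set E) : Set (ℂ × ℂ) :=
  {p | ∃ Ω G, IsExt ρ r f K Ω G ∧ p ∈ Ω}

open Classical in
/-- the extension -/
def ext (ρ r : ℝ) (f : ℂ × ℂ → E) (K : Set E) (p : ℂ × ℂ) : E :=
  if h : p ∈ Reg ρ r f K then h.choose_spec.choose p else 0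

variable {ρ r : ℝ} {f : ℂ × ℂ → E} {K : Set E}

lemma IsExt.subset_reg {Ω : Set (ℂ × ℂ)} {G : ℂ × ℂ → E} (h : IsExt ρ r f K Ω G) :
    Ω ⊆ Reg ρ r f K := fun _ hp => ⟨Ω, G, h, hp⟩

lemma IsExt.ext_eq (hρ : 0 < ρ) {Ω : Set (ℂ × ℂ)} {G : ℂ × ℂ → E} (h : IsExt ρ r f K Ω G) :
    EqOn (ext ρ r f K) G Ω := by
  intro p hp
  have hp' : p ∈ Reg ρ r f K := h.subset_reg hp
  unfold ext
  rw [dif_pos hp']
  obtain ⟨h1, h2⟩ := hp'.choose_spec.choose_spec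
  have h3 := (h1.dom.inter h.dom).unique hρ (h1.an.mono inter_subset_left)
    (h.an.mono inter_subset_right) (fun q hq => (h1.eq hq).trans (h.eq hq).symm)
  exact h3 ⟨h2, hp⟩

/-- base data: `f` is analytic with values in `K` on the base -/
structure Bd (ρ r : ℝ) (f : ℂ × ℂ → E) (K : Set E) : Prop where
  ρ_pos : 0 < ρ
  an : AnalyticOnNhd ℂ f (Bs ρ r)
  maps : MapsTo f (Bs ρ r) K

lemma vdom_Bs (ρ r : ℝ) : VDom ρ r (Bs ρ r) where
  isOpen := isOpen_Bs ρ r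
  base := Subset.rfl
  sub := fun p hp => hp.2
  vert := by
    intro x y₁ y₂ y w h1 h2 h3 h4
    refine ⟨?_, h1.2⟩
    have a1 : |y₁| < ρ := by simpa using h1.1
    have a2 : |y₂| < ρ := by simpa using h2.1
    rw [pt_im]
    exact abs_lt.2 ⟨by linarith [(abs_lt.1 a1).1], by linarith [(abs_lt.1 a2).2]⟩

lemma Bd.isExt (h : Bd ρ r f K) : IsExt ρ r f K (Bs ρ r) f where
  dom := vdom_Bs ρ r
  an := h.an
  maps := h.maps
  eq := fun _ _ => rfl

lemma Bd.base_subset (h : Bd ρ r f K) : Bs ρ r ⊆ Reg ρ r f K := h.isExt.subset_reg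

lemma Bd.reg_vdom (h : Bd ρ r f K) : VDom ρ r (Reg ρ r f K) where
  isOpen := by
    rw [isOpen_iff_mem_nhds]
    rintro p ⟨Ω, G, hG, hp⟩
    exact mem_of_superset (hG.dom.isOpen.mem_nhds hp) hG.subset_reg
  base := h.base_subset
  sub := by
    rintro p ⟨Ω, G, hG, hp⟩
    exact hG.dom.sub p hp
  vert := by
    rintro x y₁ y₂ y w ⟨Ω, G, hG, h1⟩ ⟨Ω', G', hG', h2⟩ h3 h4
    have hw := hG.dom.sub _ h1
    rcases le_total 0 y with h5 | h5
    · exact hG'.subset_reg (hG'.dom.vert x 0 y₂ y w (hG'.dom.base0 h.ρ_pos hw) h2 h5 h4)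
    · exact hG.subset_reg (hG.dom.vert x y₁ 0 y w h1 (hG.dom.base0 h.ρ_pos hw) h3 h5)


lemma Bd.isOpen (h : Bd ρ r f K) : IsOpen (Reg ρ r f K) := h.reg_vdom.isOpen





/-! ### gluing -/

lemma tube_mem {x₁ y₁ y₂ : ℝ} {w₁ : ℂ} {N : Set (ℂ × ℂ)} (hN : IsOpen N)
    (hseg : ∀ y ∈ uIcc y₁ y₂, pt x₁ y w₁ ∈ N) :
    ∃ δ > 0, ∀ x y : ℝ, ∀ w : ℂ, |x - x₁| < δ → min y₁ y₂ - δ < y → y < max y₁ y₂ + δ →
      ‖w - w₁‖ < δ → pt x y w ∈ N := by
  have hcomp : IsCompact ((fun y : ℝ => pt x₁ y w₁) '' uIcc y₁ y₂) :=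
    isCompact_uIcc.image (continuous_pt_y x₁ w₁)
  have hsub : (fun y : ℝ => pt x₁ y w₁) '' uIcc y₁ y₂ ⊆ N := by
    rintro _ ⟨y, hy, rfl⟩
    exact hseg y hy
  obtain ⟨δ, hδ, hδN⟩ := hcomp.exists_thickening_subset_open hN hsub
  refine ⟨δ / 2, by positivity, fun x y w hx hy1 hy2 hw => hδN ?_⟩
  rw [mem_thickening_iff]
  set y' := max (min y₁ y₂) (min y (max y₁ y₂)) with hy'
  have hy'mem : y' ∈ uIcc y₁ y₂ := by
    rw [uIcc, mem_Icc]
    exact ⟨le_max_left _ _, max_le (min_le_max) (min_le_right _ _)⟩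
  have hyy : |y - y'| < δ / 2 := by
    rw [hy', abs_lt]
    rcases le_total y (max y₁ y₂) with h1 | h1
    · rw [min_eq_left h1]
      rcases le_total (min y₁ y₂) y with h2 | h2
      · rw [max_eq_right h2]
        constructor <;> linarith
      · rw [max_eq_left h2]
        constructor <;> linarith
    · rw [min_eq_right h1, max_eq_right min_le_max]
      constructor <;> linarith
  refine ⟨pt x₁ y' w₁, ⟨y', hy'mem, rfl⟩, ?_⟩
  rw [Prod.dist_eq, max_lt_iff]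
  constructor
  · rw [dist_eq_norm]
    have h1 : (pt x y w).1 - (pt x₁ y' w₁).1 = ((x - x₁ : ℝ) : ℂ) + ((y - y' : ℝ) : ℂ) * Complex.I := by
      unfold pt
      push_cast
      ring
    rw [h1]
    refine (norm_add_le _ _).trans_lt ?_
    rw [norm_mul, Complex.norm_I, mul_one, Complex.norm_real, Complex.norm_real, Real.norm_eq_abs,
      Real.norm_eq_abs]
    linarith
  · rw [dist_eq_norm]
    change ‖w - w₁‖ < δ
    linarith


end Crest.Agent.R102.VH982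
end
end

-- ▼ part R102/SheetA_982

/-!
Row 102 (T1-B), part I.1: the main sheets of the lines and of the labels of a family of lines
(K669's maximal vertical-star domains), permanence of the base relations.
-/

set_option autoImplicit false

open Set Filter Topology Metric
open scoped ComplexConjugate

noncomputable section

namespace Crest.Agent.R102.Sh982

open Crest.Agent.R102.T5 Crest.Agent.R102.G576 Crest.Agent.R102.A929 Crest.Agent.R102.B821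
open Crest.Agent.R102.C0 Crest.Agent.R102.C1 Crest.Agent.R102.F300 Crest.Agent.R102.Rule982
open Crest.Agent.R102.VH982 (pt pt_eta pt_snd pt_re pt_im tube_mem eq_along continuous_pt_y)
open Crest.Agent.R102.K669 (Slab Tube IsReg isReg_of_slab isOpen_isReg ext_eq
  ext_differentiableAt ext_mem ext_slab isReg_of_local isOpen_slab)

/-! ### general facts on sheets -/

section General

variable {E : Type*} [NormedAddCommGroup E] [NormedSpace ℂ E] [CompleteSpace E]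

lemma pt_mk (x y : ℝ) (w : ℂ) : pt x y w = ((⟨x, y⟩ : ℂ), w) := by
  unfold VH982.pt
  rw [Complex.mk_eq_add_mul_I]

/-- eventual equality propagates along vertical segments -/
lemma ev_along {Ω : Set (ℂ × ℂ)} (hΩ : IsOpen Ω) {f g : ℂ × ℂ → E} (hf : AnalyticOnNhd ℂ f Ω)
    (hg : AnalyticOnNhd ℂ g Ω) {x y₁ y₂ : ℝ} {w : ℂ} (hseg : ∀ y ∈ uIcc y₁ y₂, pt x y w ∈ Ω)
    (h1 : f =ᶠ[𝓝 (pt x y₁ w)] g) : f =ᶠ[𝓝 (pt x y₂ w)] g := by
  obtain ⟨δ, hδ, hδN⟩ := tube_mem hΩ hseg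
  obtain ⟨δ', hδ', hδ'N⟩ := Metric.eventually_nhds_iff_ball.1 h1.eventuallyEq_nhds
  have hc : Continuous fun q : ℂ × ℂ => pt q.1.re y₁ q.2 := by
    unfold VH982.pt
    fun_prop
  have h2 : ∀ᶠ q in 𝓝 (pt x y₂ w), pt q.1.re y₁ q.2 ∈ ball (pt x y₁ w) δ' := by
    refine (hc.tendsto (pt x y₂ w)).eventually ?_
    have : pt (pt x y₂ w).1.re y₁ (pt x y₂ w).2 = pt x y₁ w := by rw [pt_re, pt_snd]
    rw [this]
    exact ball_mem_nhds _ hδ'
  have h3 : ∀ᶠ q in 𝓝 (pt x y₂ w), |q.1.re - x| < δ ∧ |q.1.im - y₂| < δ ∧ ‖q.2 - w‖ < δ := by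
    have c1 : Continuous fun q : ℂ × ℂ => |q.1.re - x| := by fun_prop
    have c2 : Continuous fun q : ℂ × ℂ => |q.1.im - y₂| := by fun_prop
    have c3 : Continuous fun q : ℂ × ℂ => ‖q.2 - w‖ := by fun_prop
    refine (c1.tendsto _ |>.eventually (gt_mem_nhds ?_)).and
      ((c2.tendsto _ |>.eventually (gt_mem_nhds ?_)).and
        (c3.tendsto _ |>.eventually (gt_mem_nhds ?_)))
    · simpa using hδ
    · simpa using hδ
    · simpa using hδ
  filter_upwards [h2, h3] with q hq1 hq2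
  have hq3 := hδ'N _ hq1
  rw [← pt_eta q]
  refine eq_along hf hg (y₁ := y₁) ?_ hq3
  intro y hy
  have hy1 : min y₁ q.1.im ≤ y := hy.1
  have hy2 : y ≤ max y₁ q.1.im := hy.2
  have h4 := abs_lt.1 hq2.2.1
  refine hδN _ _ _ hq2.1 ?_ ?_ hq2.2.2
  · refine lt_of_lt_of_le ?_ hy1
    rcases le_total y₁ y₂ with h5 | h5
    · rw [min_eq_left h5]
      exact lt_min (by linarith) (by linarith)
    · rw [min_eq_right h5]
      exact lt_min (by linarith) (by linarith)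
  · refine lt_of_le_of_lt hy2 ?_
    rcases le_total y₁ y₂ with h5 | h5
    · rw [max_eq_right h5]
      exact max_lt (by linarith) (by linarith)
    · rw [max_eq_left h5]
      exact max_lt (by linarith) (by linarith)

/-- the main sheet above the height `y1` -/
def Sht (F : ℂ × ℂ → E) (C : Set E) (y1 y0 : ℝ) (W : Set ℂ) : Set (ℂ × ℂ) :=
  {x | x.2 ∈ W ∧ y1 < x.1.im ∧ IsReg F C y1 y0 W x}

variable {F : ℂ × ℂ → E} {C : Set E} {y1 y0 : ℝ} {W : Set ℂ}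

lemma isOpen_Sht (hW : IsOpen W) : IsOpen (Sht F C y1 y0 W) := by
  have h1 : Sht F C y1 y0 W = {x : ℂ × ℂ | x.2 ∈ W} ∩ ({x : ℂ × ℂ | y1 < x.1.im} ∩
      {x | IsReg F C y1 y0 W x}) := by
    ext x
    exact Iff.rfl
  rw [h1]
  exact (hW.preimage continuous_snd).inter ((isOpen_lt continuous_const
    (Complex.continuous_im.comp continuous_fst)).inter isOpen_isReg)

lemma ext_an (h10 : y1 < y0) (hW : IsOpen W) :
    AnalyticOnNhd ℂ (K669.ext F C y1 y0 W) (Sht F C y1 y0 W) :=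
  Crest.Agent.R266.SCV.analyticOnNhd_of_differentiableOn (isOpen_Sht hW) (fun _ hx =>
    (ext_differentiableAt h10 hx.2.2 hx.2.1).differentiableWithinAt)

lemma ext_mem' (h10 : y1 < y0) {x : ℂ × ℂ} (hx : x ∈ Sht F C y1 y0 W) :
    K669.ext F C y1 y0 W x ∈ C := ext_mem h10 hx.2.2 hx.2.1

lemma slab_sub (hW : IsOpen W) (hF : DifferentiableOn ℂ F (Slab y1 y0 W))
    (hC : ∀ q ∈ Slab y1 y0 W, F q ∈ C) : Slab y1 y0 W ⊆ Sht F C y1 y0 W := fun _ hx =>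
  ⟨hx.2.2, hx.1, isReg_of_slab hW hF hC hx.2.1 hx.2.2⟩

lemma ext_slab' (h10 : y1 < y0) (hW : IsOpen W) (hF : DifferentiableOn ℂ F (Slab y1 y0 W))
    (hC : ∀ q ∈ Slab y1 y0 W, F q ∈ C) {x : ℂ × ℂ} (hx : x ∈ Slab y1 y0 W) :
    K669.ext F C y1 y0 W x = F x :=
  ext_slab h10 (slab_sub hW hF hC hx).2.2 hx.1 hx.2.1

/-- points below a point of the sheet -/
lemma Sht_low (hW : IsOpen W) (hF : DifferentiableOn ℂ F (Slab y1 y0 W))
    (hC : ∀ q ∈ Slab y1 y0 W, F q ∈ C) {x z : ℂ × ℂ} (hx : x ∈ Sht F C y1 y0 W)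
    (h1 : z.1.re = x.1.re) (h2 : z.2 = x.2) (h3 : y1 < z.1.im)
    (h4 : z.1.im ≤ x.1.im ∨ z.1.im < y0) : z ∈ Sht F C y1 y0 W := by
  refine ⟨by rw [h2]; exact hx.1, h3, ?_⟩
  rcases h4 with h4 | h4
  · exact hx.2.2.below h1 h2 h4
  · exact isReg_of_slab hW hF hC h4 (by rw [h2]; exact hx.1)

/-- **continuous induction on the height** -/
lemma reg_up (hW : IsOpen W) (hF : DifferentiableOn ℂ F (Slab y1 y0 W))
    (hC : ∀ q ∈ Slab y1 y0 W, F q ∈ C) {x : ℂ × ℂ} (hx : x.2 ∈ W)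
    (step : ∀ y, y0 ≤ y → y ≤ x.1.im → (∀ y' < y, IsReg F C y1 y0 W (pt x.1.re y' x.2)) →
      IsReg F C y1 y0 W (pt x.1.re y x.2)) : IsReg F C y1 y0 W x := by
  by_contra hcon
  set S : Set ℝ := {y | ¬ IsReg F C y1 y0 W (pt x.1.re y x.2)} with hS
  have hxS : x.1.im ∈ S := by
    change ¬ IsReg F C y1 y0 W (pt x.1.re x.1.im x.2)
    rwa [pt_eta]
  have hSb : ∀ y ∈ S, y0 ≤ y := by
    intro y hy
    by_contra hlt
    push Not at hlt
    exact hy (isReg_of_slab hW hF hC (by rw [pt_im]; exact hlt) (by rw [pt_snd]; exact hx))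
  have hSbb : BddBelow S := ⟨y0, hSb⟩
  have hSc : IsClosed S := by
    have h1 : IsOpen {y : ℝ | IsReg F C y1 y0 W (pt x.1.re y x.2)} :=
      (isOpen_isReg (F := F) (C := C) (y1 := y1) (y0 := y0) (W := W)).preimage
        (continuous_pt_y x.1.re x.2)
    have h2 : S = {y : ℝ | IsReg F C y1 y0 W (pt x.1.re y x.2)}ᶜ := by
      ext y
      exact Iff.rfl
    rw [h2]
    exact h1.isClosed_compl
  have hY : sInf S ∈ S := hSc.csInf_mem ⟨_, hxS⟩ hSbb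
  refine hY (step _ (hSb _ hY) (csInf_le hSbb hxS) ?_)
  intro y' hy'
  by_contra h
  exact absurd (csInf_le hSbb h) (not_le.2 hy')

end General

/-! ### the main sheets of a family of lines -/

/-- `(φ, p)` as one function -/
def Fl (φ p : ℂ × ℂ → ℂ) (x : ℂ × ℂ) : ℂ × ℂ := (φ x, p x)

/-- main sheet of the lines (above the height `-ρ/2`) -/
def SL (φ p : ℂ × ℂ → ℂ) (ρ r : ℝ) : Set (ℂ × ℂ) :=
  Sht (Fl φ p) univ (-(ρ / 2)) (ρ / 2) (ball 0 r)

/-- main sheet of the labels (above the height `-ρ/2`) -/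
def SB (b : ℂ × ℂ → ℂ) (h ρ r : ℝ) : Set (ℂ × ℂ) :=
  Sht b (Sg h) (-(ρ / 2)) (ρ / 2) (ball 0 r)

/-- the extended lines -/
def LE (φ p : ℂ × ℂ → ℂ) (ρ r : ℝ) : ℂ × ℂ → ℂ × ℂ :=
  K669.ext (Fl φ p) univ (-(ρ / 2)) (ρ / 2) (ball 0 r)

/-- the extended angle -/
def φe (φ p : ℂ × ℂ → ℂ) (ρ r : ℝ) (x : ℂ × ℂ) : ℂ := (LE φ p ρ r x).1

/-- the extended support number -/
def pe (φ p : ℂ × ℂ → ℂ) (ρ r : ℝ) (x : ℂ × ℂ) : ℂ := (LE φ p ρ r x).2

/-- the extended label -/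
def be (b : ℂ × ℂ → ℂ) (h ρ r : ℝ) : ℂ × ℂ → ℂ :=
  K669.ext b (Sg h) (-(ρ / 2)) (ρ / 2) (ball 0 r)

/-- the shift by `s w / 2` -/
def sh (s : ℂ) (x : ℂ × ℂ) : ℂ × ℂ := (x.1 + s * (x.2 / 2), x.2)

@[simp] lemma sh_snd (s : ℂ) (x : ℂ × ℂ) : (sh s x).2 = x.2 := rfl
@[simp] lemma sh_fst (s : ℂ) (x : ℂ × ℂ) : (sh s x).1 = x.1 + s * (x.2 / 2) := rfl

lemma sh_cont (s : ℂ) : Continuous (sh s) := by
  unfold sh
  fun_prop

lemma sh_an (s : ℂ) (x : ℂ × ℂ) : AnalyticAt ℂ (sh s) x := by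
  unfold sh
  exact (analyticAt_fst.add (analyticAt_const.mul (analyticAt_snd.div_const))).prod analyticAt_snd

lemma sh_sh (s s' : ℂ) (x : ℂ × ℂ) : sh s (sh s' x) = sh (s + s') x := by
  unfold sh
  refine Prod.ext ?_ rfl
  simp only
  ring

lemma sh_zero (x : ℂ × ℂ) : sh 0 x = x := by
  unfold sh
  simp

variable {q : C(ℂ, ℂ)} {η ρ r Bc : ℝ} {b φ p : ℂ × ℂ → ℂ} {m₀ : ℂ → ℂ} {h : ℝ} {ψ H : ℂ → ℂ}

/-- vertical shift by `s w / 2` -/
lemma sh_im {s : ℂ} (hs : s = 1 ∨ s = -1) {x : ℂ × ℂ} (hx : ‖x.2‖ < r) (hr : 4 * r ≤ ρ) :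
    |(s * (x.2 / 2)).im| < ρ / 8 := by
  have h1 : ‖s * (x.2 / 2)‖ = ‖x.2‖ / 2 := by
    rcases hs with rfl | rfl <;> simp
  have h2 := Complex.abs_im_le_norm (s * (x.2 / 2))
  rw [h1] at h2
  linarith

section Sheets

variable (D : Dat q η ρ r Bc b φ p m₀ h ψ H)
include D

lemma Dat.ρ_pos : 0 < ρ := D.fam.ρ_pos

lemma Dat.r_le : 4 * r ≤ ρ := D.fam.r_le

lemma Dat.h10 : -(ρ / 2) < ρ / 2 := by
  have := D.ρ_pos
  linarith

omit D in
lemma slab_PD (hρ : 0 < ρ) : Slab (-(ρ / 2)) (ρ / 2) (ball 0 r) ⊆ PD ρ r := by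
  rintro x ⟨h1, h2, h3⟩
  rw [mem_ball_zero_iff] at h3
  exact ⟨abs_lt.2 ⟨by linarith, by linarith⟩, h3⟩

lemma Dat.Fl_diff : DifferentiableOn ℂ (Fl φ p) (Slab (-(ρ / 2)) (ρ / 2) (ball 0 r)) :=
  (D.fam.φ_diff.mono (slab_PD D.ρ_pos)).prodMk (D.fam.p_diff.mono (slab_PD D.ρ_pos))

lemma Dat.b_diff : DifferentiableOn ℂ b (Slab (-(ρ / 2)) (ρ / 2) (ball 0 r)) :=
  D.fam.b_diff.mono (slab_PD D.ρ_pos)

lemma Dat.b_maps : ∀ x ∈ Slab (-(ρ / 2)) (ρ / 2) (ball (0 : ℂ) r), b x ∈ Sg h := fun _ hx =>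
  D.b_mem (slab_PD D.ρ_pos hx)

omit D in
lemma Fl_maps : ∀ x ∈ Slab (-(ρ / 2)) (ρ / 2) (ball (0 : ℂ) r), Fl φ p x ∈ (univ : Set (ℂ × ℂ)) :=
  fun _ _ => mem_univ _

omit D in
lemma isOpen_SL : IsOpen (SL φ p ρ r) := isOpen_Sht isOpen_ball

omit D in
lemma isOpen_SB : IsOpen (SB b h ρ r) := isOpen_Sht isOpen_ball

lemma Dat.LE_an : AnalyticOnNhd ℂ (LE φ p ρ r) (SL φ p ρ r) := ext_an D.h10 isOpen_ball

lemma Dat.φe_an : AnalyticOnNhd ℂ (φe φ p ρ r) (SL φ p ρ r) := fun x hx =>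
  analyticAt_fst.comp (D.LE_an x hx)

lemma Dat.pe_an : AnalyticOnNhd ℂ (pe φ p ρ r) (SL φ p ρ r) := fun x hx =>
  analyticAt_snd.comp (D.LE_an x hx)

lemma Dat.be_an : AnalyticOnNhd ℂ (be b h ρ r) (SB b h ρ r) := ext_an D.h10 isOpen_ball

lemma Dat.be_mem {x : ℂ × ℂ} (hx : x ∈ SB b h ρ r) : be b h ρ r x ∈ Sg h := ext_mem' D.h10 hx

lemma Dat.slab_SL : Slab (-(ρ / 2)) (ρ / 2) (ball 0 r) ⊆ SL φ p ρ r :=
  slab_sub isOpen_ball D.Fl_diff Fl_maps


lemma Dat.LE_slab {x : ℂ × ℂ} (hx : x ∈ Slab (-(ρ / 2)) (ρ / 2) (ball 0 r)) :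
    LE φ p ρ r x = (φ x, p x) := ext_slab' D.h10 isOpen_ball D.Fl_diff Fl_maps hx

lemma Dat.φe_slab {x : ℂ × ℂ} (hx : x ∈ Slab (-(ρ / 2)) (ρ / 2) (ball 0 r)) :
    φe φ p ρ r x = φ x := by
  unfold φe
  rw [D.LE_slab hx]

lemma Dat.pe_slab {x : ℂ × ℂ} (hx : x ∈ Slab (-(ρ / 2)) (ρ / 2) (ball 0 r)) :
    pe φ p ρ r x = p x := by
  unfold pe
  rw [D.LE_slab hx]

lemma Dat.be_slab {x : ℂ × ℂ} (hx : x ∈ Slab (-(ρ / 2)) (ρ / 2) (ball 0 r)) :
    be b h ρ r x = b x := ext_slab' D.h10 isOpen_ball D.b_diff D.b_maps hx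

/-- points near height `0`, with their shifts, are in the slab -/
lemma Dat.near0 {s : ℂ} (hs : s = 1 ∨ s = -1 ∨ s = 0) {z : ℂ × ℂ} (h1 : ‖z.2‖ < r)
    (h2 : |z.1.im| < ρ / 4) : sh s z ∈ Slab (-(ρ / 2)) (ρ / 2) (ball (0 : ℂ) r) := by
  have hρ := D.ρ_pos
  have h3 : |(s * (z.2 / 2)).im| < ρ / 8 := by
    rcases hs with hs | hs | hs
    · exact sh_im (Or.inl hs) h1 D.r_le
    · exact sh_im (Or.inr hs) h1 D.r_le
    · rw [hs]
      simp only [zero_mul, Complex.zero_im, abs_zero]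
      linarith
  obtain ⟨h4, h5⟩ := abs_lt.1 h2
  obtain ⟨h6, h7⟩ := abs_lt.1 h3
  refine ⟨?_, ?_, ?_⟩
  · rw [sh_fst, Complex.add_im]
    linarith
  · rw [sh_fst, Complex.add_im]
    linarith
  · rw [sh_snd, mem_ball_zero_iff]
    exact h1

/-- vertical segments down to height `0` -/
lemma Dat.seg_SL {s : ℂ} (hs : s = 1 ∨ s = -1 ∨ s = 0) {x : ℂ × ℂ} (hx : sh s x ∈ SL φ p ρ r)
    (h1 : -(3 * ρ / 8) < x.1.im) :
    ∀ y ∈ uIcc 0 x.1.im, sh s (pt x.1.re y x.2) ∈ SL φ p ρ r := by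
  intro y hy
  have hρ := D.ρ_pos
  have hx2 : ‖x.2‖ < r := by
    have := hx.1
    rwa [sh_snd, mem_ball_zero_iff] at this
  have h3 : |(s * (x.2 / 2)).im| < ρ / 8 := by
    rcases hs with hs | hs | hs
    · exact sh_im (Or.inl hs) hx2 D.r_le
    · exact sh_im (Or.inr hs) hx2 D.r_le
    · rw [hs]
      simp only [zero_mul, Complex.zero_im, abs_zero]
      linarith
  obtain ⟨h6, h7⟩ := abs_lt.1 h3
  have hy1 : min 0 x.1.im ≤ y := hy.1
  have hy2 : y ≤ max 0 x.1.im := hy.2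
  have hy3 : -(3 * ρ / 8) < y := lt_of_lt_of_le (lt_min (by linarith) h1) hy1
  refine Sht_low isOpen_ball D.Fl_diff Fl_maps hx ?_ rfl ?_ ?_
  · rw [sh_fst, sh_fst, Complex.add_re, Complex.add_re, pt_re, pt_snd]
  · rw [sh_fst, Complex.add_im, pt_im, pt_snd]
    linarith
  · rw [sh_fst, sh_fst, Complex.add_im, Complex.add_im, pt_im, pt_snd]
    rcases le_max_iff.1 hy2 with h8 | h8
    · right
      linarith
    · left
      linarith

lemma Dat.seg_SB {x : ℂ × ℂ} (hx : x ∈ SB b h ρ r) :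
    ∀ y ∈ uIcc 0 x.1.im, pt x.1.re y x.2 ∈ SB b h ρ r := by
  intro y hy
  have hρ := D.ρ_pos
  have hy1 : min 0 x.1.im ≤ y := hy.1
  have hy2 : y ≤ max 0 x.1.im := hy.2
  have h1 : -(ρ / 2) < x.1.im := hx.2.1
  have hy3 : -(ρ / 2) < y := lt_of_lt_of_le (lt_min (by linarith) h1) hy1
  refine Sht_low isOpen_ball D.b_diff D.b_maps hx ?_ rfl ?_ ?_
  · rw [pt_re]
  · rw [pt_im]
    exact hy3
  · rw [pt_im]
    rcases le_max_iff.1 hy2 with h8 | h8
    · right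
      linarith
    · left
      exact h8

/-- **permanence** -/
lemma Dat.perm {F : Type*} [NormedAddCommGroup F] [NormedSpace ℂ F] [CompleteSpace F]
    {x : ℂ × ℂ} (hx : ‖x.2‖ < r) {Ω : Set (ℂ × ℂ)} (hΩ : IsOpen Ω)
    {f g : ℂ × ℂ → F} (hf : AnalyticOnNhd ℂ f Ω) (hg : AnalyticOnNhd ℂ g Ω)
    (hseg : ∀ y ∈ uIcc 0 x.1.im, pt x.1.re y x.2 ∈ Ω)
    (h0 : ∀ z : ℂ × ℂ, ‖z.2‖ < r → |z.1.im| < ρ / 4 → f z = g z) : f =ᶠ[𝓝 x] g := by
  have hρ := D.ρ_pos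
  have h1 : f =ᶠ[𝓝 (pt x.1.re 0 x.2)] g := by
    have c1 : Continuous fun q : ℂ × ℂ => |q.1.im| := by fun_prop
    have c2 : Continuous fun q : ℂ × ℂ => ‖q.2‖ := by fun_prop
    have e1 : |(pt x.1.re 0 x.2).1.im| < ρ / 4 := by
      rw [pt_im, abs_zero]
      linarith
    have e2 : ‖(pt x.1.re 0 x.2).2‖ < r := by
      rw [pt_snd]
      exact hx
    filter_upwards [(c1.tendsto (pt x.1.re 0 x.2)).eventually (Iio_mem_nhds e1),
      (c2.tendsto (pt x.1.re 0 x.2)).eventually (Iio_mem_nhds e2)] with z hz1 hz2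
    exact h0 z hz2 hz1
  have h2 := ev_along hΩ hf hg hseg h1
  rwa [pt_eta] at h2

end Sheets

end Crest.Agent.R102.Sh982
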