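import Mathlib
import Crest.Agent.R102.SheetA_982
import Crest.Agent.R102.Face2_300
import Crest.Agent.R102.KontB_669

-- ▼ part R102/SheetB_982
section

/-!
Row 102 (T1-B), part I.2: permanence of the relations of the family of lines on the main sheets
(incidence, reflection, area form, period, parity), non-degeneracy on slices.
-/

set_option autoImplicit false

open Set Filter Topology Metric
open scoped ComplexConjugate

noncomputable section

namespace Crest.Agent.R102.Sh982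

open Crest.Agent.R102.T5 Crest.Agent.R102.G576 Crest.Agent.R102.A929 Crest.Agent.R102.B821
open Crest.Agent.R102.C0 Crest.Agent.R102.C1 Crest.Agent.R102.F300 Crest.Agent.R102.Rule982
open Crest.Agent.R102.VH982 (pt pt_eta pt_snd pt_re pt_im tube_mem eq_along continuous_pt_y)
open Crest.Agent.R102.K669 (Slab Tube IsReg isReg_of_slab isOpen_isReg ext_eq
  ext_differentiableAt ext_mem ext_slab isReg_of_local isOpen_slab mem_tube_self isReg_of_tube)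

/-! ### symmetries of a sheet -/

section Sym

variable {E : Type*} [NormedAddCommGroup E] [NormedSpace ℂ E] [CompleteSpace E]
variable {F : ℂ × ℂ → E} {C : Set E} {y1 y0 : ℝ} {W : Set ℂ}

/-- symmetry `(t, w) ↦ (t + σ, κ w)`, `F ↦ F + c` -/
lemma sym_gen (h10 : y1 < y0) {σ κ : ℂ} {c : E} (hσ : σ.im = 0) (hκ : κ * κ = 1)
    (hκn : ‖κ‖ = 1) (hC : ∀ v ∈ C, v + c ∈ C) (hW : ∀ w ∈ W, κ * w ∈ W)
    (hF : ∀ z ∈ Slab y1 y0 W, F (z.1 + σ, κ * z.2) = F z + c) {x : ℂ × ℂ}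
    (hx : IsReg F C y1 y0 W x) : IsReg F C y1 y0 W (x.1 + σ, κ * x.2) ∧
      (y1 < x.1.im → K669.ext F C y1 y0 W (x.1 + σ, κ * x.2) = K669.ext F C y1 y0 W x + c) := by
  obtain ⟨ε, hε, hεW, G, hG, hGC, hGF⟩ := hx
  have hκκ : ∀ w : ℂ, κ * (κ * w) = w := fun w => by rw [← mul_assoc, hκ, one_mul]
  have hmap : ∀ z ∈ Tube y1 ((x.1 + σ, κ * x.2) : ℂ × ℂ) ε,
      ((z.1 - σ, κ * z.2) : ℂ × ℂ) ∈ Tube y1 x ε := by
    rintro z ⟨a1, a2, a3, a4⟩
    refine ⟨?_, ?_, ?_, ?_⟩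
    · simp only [Complex.add_re, Complex.sub_re] at a1 ⊢
      have : z.1.re - σ.re - x.1.re = z.1.re - (x.1.re + σ.re) := by ring
      rw [this]
      exact a1
    · simp only [Complex.sub_im, hσ, sub_zero]
      exact a2
    · simp only [Complex.sub_im, Complex.add_im, hσ, sub_zero, add_zero] at a3 ⊢
      exact a3
    · simp only at a4 ⊢
      have : κ * z.2 - x.2 = κ * (z.2 - κ * x.2) := by rw [mul_sub, hκκ]
      rw [this, norm_mul, hκn, one_mul]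
      exact a4
  have hballW : ball (κ * x.2) ε ⊆ W := by
    intro w hw
    have h1 : κ * w ∈ ball x.2 ε := by
      rw [mem_ball, dist_eq_norm] at hw ⊢
      have : κ * w - x.2 = κ * (w - κ * x.2) := by rw [mul_sub, hκκ]
      rw [this, norm_mul, hκn, one_mul]
      exact hw
    have h2 := hW _ (hεW h1)
    rwa [hκκ] at h2
  set G' : ℂ × ℂ → E := fun z => G (z.1 - σ, κ * z.2) + c with hG'
  have hG'd : DifferentiableOn ℂ G' (Tube y1 ((x.1 + σ, κ * x.2) : ℂ × ℂ) ε) := by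
    refine DifferentiableOn.add_const c (hG.comp (f := fun z : ℂ × ℂ => (z.1 - σ, κ * z.2)) ?_ hmap)
    fun_prop
  have hG'C : ∀ z ∈ Tube y1 ((x.1 + σ, κ * x.2) : ℂ × ℂ) ε, G' z ∈ C := fun z hz =>
    hC _ (hGC _ (hmap z hz))
  have hG'F : ∀ z ∈ Tube y1 ((x.1 + σ, κ * x.2) : ℂ × ℂ) ε, z.1.im < y0 → G' z = F z := by
    intro z hz hz0
    have h1 := hmap z hz
    have h2 : ((z.1 - σ, κ * z.2) : ℂ × ℂ).1.im < y0 := by
      simp only [Complex.sub_im, hσ, sub_zero]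
      exact hz0
    have h3 : ((z.1 - σ, κ * z.2) : ℂ × ℂ) ∈ Slab y1 y0 W := by
      refine ⟨h1.2.1, h2, hεW ?_⟩
      rw [mem_ball, dist_eq_norm]
      exact h1.2.2.2
    have h4 := hF _ h3
    simp only [hG']
    rw [hGF _ h1 h2, ← h4]
    simp only [sub_add_cancel, hκκ]
  refine ⟨⟨ε, hε, hballW, G', hG'd, hG'C, hG'F⟩, fun hy => ?_⟩
  have hy' : y1 < (x.1 + σ).im := by
    rw [Complex.add_im, hσ, add_zero]
    exact hy
  rw [ext_eq h10 hballW hG'd hG'C hG'F (mem_tube_self (p := ((x.1 + σ, κ * x.2) : ℂ × ℂ)) hy' hε),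
    ext_eq h10 hεW hG hGC hGF (mem_tube_self hy hε)]
  simp only [hG', add_sub_cancel_right, hκκ]

end Sym

/-- if `f ≠ 0` somewhere on a vertical segment in the domain of analyticity then `f ≢ 0` on the slice
near every point of it -/
lemma freq_ne {Ω : Set (ℂ × ℂ)} {f : ℂ × ℂ → ℂ} (hf : AnalyticOnNhd ℂ f Ω) {x y₁ y₂ : ℝ} {w : ℂ}
    (hseg : ∀ y ∈ uIcc y₁ y₂, pt x y w ∈ Ω) (h1 : f (pt x y₁ w) ≠ 0) :
    ∃ᶠ t in 𝓝 (pt x y₂ w).1, f (t, w) ≠ 0 := by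
  by_contra hcon
  have hcon' : ∀ᶠ t in 𝓝 (pt x y₂ w).1, f (t, w) = 0 := by
    have := not_frequently.1 hcon
    filter_upwards [this] with t ht
    by_contra h2
    exact ht h2
  refine h1 ?_
  have hc : Continuous fun y : ℝ => (pt x y w).1 := continuous_fst.comp (continuous_pt_y x w)
  have hpc : IsPreconnected ((fun y : ℝ => (pt x y w).1) '' uIcc y₁ y₂) :=
    isPreconnected_uIcc.image _ hc.continuousOn
  have hg : AnalyticOnNhd ℂ (fun t => f (t, w)) ((fun y : ℝ => (pt x y w).1) '' uIcc y₁ y₂) := by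
    rintro _ ⟨y, hy, rfl⟩
    have h2 : AnalyticAt ℂ (fun t : ℂ => ((t, w) : ℂ × ℂ)) (pt x y w).1 :=
      analyticAt_id.prod analyticAt_const
    exact AnalyticAt.comp (g := f) (f := fun t : ℂ => ((t, w) : ℂ × ℂ)) (hf _ (hseg y hy)) h2
  have h3 := hg.eqOn_zero_of_preconnected_of_eventuallyEq_zero hpc ⟨y₂, right_mem_uIcc, rfl⟩ hcon'
  exact h3 ⟨y₁, left_mem_uIcc, rfl⟩

variable {q : C(ℂ, ℂ)} {η ρ r Bc : ℝ} {b φ p : ℂ × ℂ → ℂ} {m₀ : ℂ → ℂ} {h : ℝ} {ψ H : ℂ → ℂ}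

lemma an_cos {f : ℂ × ℂ → ℂ} {x : ℂ × ℂ} (hf : AnalyticAt ℂ f x) :
    AnalyticAt ℂ (fun z => Complex.cos (f z)) x :=
  AnalyticAt.comp (g := Complex.cos) (f := f) (Complex.differentiable_cos.analyticAt _) hf

lemma an_sin {f : ℂ × ℂ → ℂ} {x : ℂ × ℂ} (hf : AnalyticAt ℂ f x) :
    AnalyticAt ℂ (fun z => Complex.sin (f z)) x :=
  AnalyticAt.comp (g := Complex.sin) (f := f) (Complex.differentiable_sin.analyticAt _) hf

section Relations

variable (D : Dat q η ρ r Bc b φ p m₀ h ψ H)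
include D

lemma Dat.an_lab {f : ℂ → ℂ} (hf : DifferentiableOn ℂ f (Sg h)) {x : ℂ × ℂ}
    (hx : x ∈ SB b h ρ r) : AnalyticAt ℂ (fun z => f (be b h ρ r z)) x :=
  analyticAt_comp_label (isOpen_Sg h) hf (D.be_an x hx) (D.be_mem hx)

lemma Dat.an_φs {s : ℂ} {x : ℂ × ℂ} (hx : sh s x ∈ SL φ p ρ r) :
    AnalyticAt ℂ (fun z => φe φ p ρ r (sh s z)) x :=
  AnalyticAt.comp (g := φe φ p ρ r) (f := sh s) (D.φe_an _ hx) (sh_an s x)

lemma Dat.an_ps {s : ℂ} {x : ℂ × ℂ} (hx : sh s x ∈ SL φ p ρ r) :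
    AnalyticAt ℂ (fun z => pe φ p ρ r (sh s z)) x :=
  AnalyticAt.comp (g := pe φ p ρ r) (f := sh s) (D.pe_an _ hx) (sh_an s x)

omit D in
lemma isOpen_pre (s : ℂ) : IsOpen (sh s ⁻¹' SL φ p ρ r) := isOpen_SL.preimage (sh_cont s)

/-- **incidence** on the main sheets -/
theorem Dat.inc_ev {s : ℂ} (hs : s = 1 ∨ s = -1) {x : ℂ × ℂ} (hx : x ∈ SB b h ρ r)
    (hx' : sh s x ∈ SL φ p ρ r) (h1 : -(3 * ρ / 8) < x.1.im) :
    ∀ᶠ z in 𝓝 x, Inc ψ H (φe φ p ρ r (sh s z)) (pe φ p ρ r (sh s z)) (be b h ρ r z) := by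
  have hSo := isOpen_Sg h
  have hψ' := D.ψ_diff.deriv hSo
  have hH' := D.H_diff.deriv hSo
  have hs' : s = 1 ∨ s = -1 ∨ s = 0 := by tauto
  refine D.perm (x := x) (Ω := SB b h ρ r ∩ sh s ⁻¹' SL φ p ρ r)
    (by simpa using hx.1) (isOpen_SB.inter (isOpen_pre s))
    (f := fun z => deriv ψ (be b h ρ r z) * pe φ p ρ r (sh s z))
    (g := fun z => deriv ψ (be b h ρ r z) * H (be b h ρ r z) *
      Complex.cos (φe φ p ρ r (sh s z) - ψ (be b h ρ r z)) + deriv H (be b h ρ r z) *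
      Complex.sin (φe φ p ρ r (sh s z) - ψ (be b h ρ r z))) ?_ ?_ ?_ ?_
  · rintro z ⟨hz1, hz2⟩
    exact (D.an_lab hψ' hz1).mul (D.an_ps hz2)
  · rintro z ⟨hz1, hz2⟩
    have e1 := (D.an_φs hz2).fun_sub (D.an_lab D.ψ_diff hz1)
    exact (((D.an_lab hψ' hz1).mul (D.an_lab D.H_diff hz1)).mul (an_cos e1)).add
      ((D.an_lab hH' hz1).mul (an_sin e1))
  · intro y hy
    exact ⟨D.seg_SB hx y hy, D.seg_SL hs' hx' h1 y hy⟩
  · intro z hz1 hz2
    have m0 := D.near0 (s := 0) (by tauto) hz1 hz2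
    rw [sh_zero] at m0
    have m1 := D.near0 hs' hz1 hz2
    rw [D.be_slab m0, D.φe_slab m1, D.pe_slab m1]
    exact D.base_inc hs (slab_PD D.ρ_pos m0) (slab_PD D.ρ_pos m1)

omit D in
lemma neg_pm {s : ℂ} (hs : s = 1 ∨ s = -1) : -s = 1 ∨ -s = -1 := by
  rcases hs with rfl | rfl
  · exact Or.inr rfl
  · exact Or.inl (neg_neg 1)

omit D in
lemma sh_neg (s : ℂ) (x : ℂ × ℂ) : sh (-s) x = (x.1 - s * (x.2 / 2), x.2) := by
  unfold sh
  rw [neg_mul, ← sub_eq_add_neg]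

/-- **law of reflection** on the main sheets -/
theorem Dat.refl_ev {s : ℂ} (hs : s = 1 ∨ s = -1) {x : ℂ × ℂ} (hx : x ∈ SB b h ρ r)
    (hx' : sh s x ∈ SL φ p ρ r) (hx'' : sh (-s) x ∈ SL φ p ρ r) (h1 : -(3 * ρ / 8) < x.1.im) :
    ∀ᶠ z in 𝓝 x, φe φ p ρ r (sh (-s) z) + φe φ p ρ r (sh s z) = 2 * ψ (be b h ρ r z) := by
  have hs' : s = 1 ∨ s = -1 ∨ s = 0 := by tauto
  have hn := neg_pm hs
  have hn' : -s = 1 ∨ -s = -1 ∨ -s = 0 := by tauto
  refine D.perm (x := x)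
    (Ω := SB b h ρ r ∩ (sh s ⁻¹' SL φ p ρ r ∩ sh (-s) ⁻¹' SL φ p ρ r))
    (by simpa using hx.1) (isOpen_SB.inter ((isOpen_pre s).inter (isOpen_pre (-s))))
    (f := fun z => φe φ p ρ r (sh (-s) z) + φe φ p ρ r (sh s z))
    (g := fun z => 2 * ψ (be b h ρ r z)) ?_ ?_ ?_ ?_
  · rintro z ⟨hz1, hz2, hz3⟩
    exact (D.an_φs hz3).add (D.an_φs hz2)
  · rintro z ⟨hz1, hz2, hz3⟩
    exact analyticAt_const.mul (D.an_lab D.ψ_diff hz1)
  · intro y hy
    exact ⟨D.seg_SB hx y hy, D.seg_SL hs' hx' h1 y hy, D.seg_SL hn' hx'' h1 y hy⟩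
  · intro z hz1 hz2
    have m0 := D.near0 (s := 0) (by tauto) hz1 hz2
    rw [sh_zero] at m0
    have m1 := D.near0 hs' hz1 hz2
    have m2 := D.near0 hn' hz1 hz2
    rw [D.be_slab m0, D.φe_slab m1, D.φe_slab m2]
    rw [sh_neg] at m2 ⊢
    exact D.base_refl hs (slab_PD D.ρ_pos m0) (slab_PD D.ρ_pos m1) (slab_PD D.ρ_pos m2)

/-- `p₋ + p₊ = 2 H(b) cos (φ₋ - ψ(b))` on the main sheets -/
theorem Dat.sum_ev {s : ℂ} (hs : s = 1 ∨ s = -1) {x : ℂ × ℂ} (hx : x ∈ SB b h ρ r)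
    (hx' : sh s x ∈ SL φ p ρ r) (hx'' : sh (-s) x ∈ SL φ p ρ r) (h1 : -(3 * ρ / 8) < x.1.im) :
    ∀ᶠ z in 𝓝 x, pe φ p ρ r (sh (-s) z) + pe φ p ρ r (sh s z) = 2 * H (be b h ρ r z) *
      Complex.cos (φe φ p ρ r (sh (-s) z) - ψ (be b h ρ r z)) := by
  have hs' : s = 1 ∨ s = -1 ∨ s = 0 := by tauto
  have hn := neg_pm hs
  have hn' : -s = 1 ∨ -s = -1 ∨ -s = 0 := by tauto
  refine D.perm (x := x)
    (Ω := SB b h ρ r ∩ (sh s ⁻¹' SL φ p ρ r ∩ sh (-s) ⁻¹' SL φ p ρ r))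
    (by simpa using hx.1) (isOpen_SB.inter ((isOpen_pre s).inter (isOpen_pre (-s))))
    (f := fun z => pe φ p ρ r (sh (-s) z) + pe φ p ρ r (sh s z))
    (g := fun z => 2 * H (be b h ρ r z) *
      Complex.cos (φe φ p ρ r (sh (-s) z) - ψ (be b h ρ r z))) ?_ ?_ ?_ ?_
  · rintro z ⟨hz1, hz2, hz3⟩
    exact (D.an_ps hz3).add (D.an_ps hz2)
  · rintro z ⟨hz1, hz2, hz3⟩
    have e1 := (D.an_φs hz3).fun_sub (D.an_lab D.ψ_diff hz1)
    exact (analyticAt_const.mul (D.an_lab D.H_diff hz1)).mul (an_cos e1)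
  · intro y hy
    exact ⟨D.seg_SB hx y hy, D.seg_SL hs' hx' h1 y hy, D.seg_SL hn' hx'' h1 y hy⟩
  · intro z hz1 hz2
    have m0 := D.near0 (s := 0) (by tauto) hz1 hz2
    rw [sh_zero] at m0
    have m1 := D.near0 hs' hz1 hz2
    have m2 := D.near0 hn' hz1 hz2
    rw [D.be_slab m0, D.pe_slab m1, D.pe_slab m2, D.φe_slab m2]
    rw [sh_neg] at m2 ⊢
    exact D.base_sum hs (slab_PD D.ρ_pos m0) (slab_PD D.ρ_pos m1) (slab_PD D.ρ_pos m2)

/-- vertical segments in the sheet of lines -/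
lemma Dat.seg_SL0 {x : ℂ × ℂ} (hx : x ∈ SL φ p ρ r) :
    ∀ y ∈ uIcc 0 x.1.im, pt x.1.re y x.2 ∈ SL φ p ρ r := by
  intro y hy
  have hρ := D.ρ_pos
  have hy1 : min 0 x.1.im ≤ y := hy.1
  have hy2 : y ≤ max 0 x.1.im := hy.2
  have h1 : -(ρ / 2) < x.1.im := hx.2.1
  have hy3 : -(ρ / 2) < y := lt_of_lt_of_le (lt_min (by linarith) h1) hy1
  refine Sht_low isOpen_ball D.Fl_diff Fl_maps hx ?_ rfl ?_ ?_
  · rw [pt_re]
  · rw [pt_im]
    exact hy3
  · rw [pt_im]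
    rcases le_max_iff.1 hy2 with h8 | h8
    · right
      linarith
    · left
      exact h8

omit D in
lemma an_q1 {f : ℂ × ℂ → ℂ} {x : ℂ × ℂ} (hf : AnalyticAt ℂ f x) : AnalyticAt ℂ (q1 f) x := by
  have h1 := (ContinuousLinearMap.apply ℂ ℂ ((1, 0) : ℂ × ℂ)).analyticAt (fderiv ℂ f x)
  exact AnalyticAt.comp (g := fun L : ℂ × ℂ →L[ℂ] ℂ => L (1, 0)) (f := fderiv ℂ f) h1 hf.fderiv

omit D in
lemma an_q2 {f : ℂ × ℂ → ℂ} {x : ℂ × ℂ} (hf : AnalyticAt ℂ f x) : AnalyticAt ℂ (q2 f) x := by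
  have h1 := (ContinuousLinearMap.apply ℂ ℂ ((0, 1) : ℂ × ℂ)).analyticAt (fderiv ℂ f x)
  exact AnalyticAt.comp (g := fun L : ℂ × ℂ →L[ℂ] ℂ => L (0, 1)) (f := fderiv ℂ f) h1 hf.fderiv

lemma Dat.m_diff : DifferentiableOn ℂ m₀ (ball 0 r) := D.fam.m_diff

/-- **area form** on the sheet of lines -/
theorem Dat.area_ev {x : ℂ × ℂ} (hx : x ∈ SL φ p ρ r) :
    ∀ᶠ z in 𝓝 x, q1 (φe φ p ρ r) z * q2 (pe φ p ρ r) z - q2 (φe φ p ρ r) z * q1 (pe φ p ρ r) z =
      z.2 / 4 * m₀ z.2 := by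
  refine D.perm (x := x) (Ω := SL φ p ρ r)
    (by simpa using hx.1) isOpen_SL
    (f := fun z => q1 (φe φ p ρ r) z * q2 (pe φ p ρ r) z -
      q2 (φe φ p ρ r) z * q1 (pe φ p ρ r) z)
    (g := fun z => z.2 / 4 * m₀ z.2) ?_ ?_ ?_ ?_
  · intro z hz
    exact ((an_q1 (D.φe_an z hz)).mul (an_q2 (D.pe_an z hz))).sub
      ((an_q2 (D.φe_an z hz)).mul (an_q1 (D.pe_an z hz)))
  · intro z hz
    have h2 : AnalyticAt ℂ m₀ z.2 := D.m_diff.analyticAt (isOpen_ball.mem_nhds hz.1)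
    exact (analyticAt_snd.div_const).mul
      (AnalyticAt.comp (g := m₀) (f := fun z : ℂ × ℂ => z.2) h2 analyticAt_snd)
  · exact D.seg_SL0 hx
  · intro z hz1 hz2
    have m0 := D.near0 (s := 0) (by tauto) hz1 hz2
    rw [sh_zero] at m0
    have e1 : φe φ p ρ r =ᶠ[𝓝 z] φ := by
      filter_upwards [(isOpen_slab isOpen_ball).mem_nhds m0] with y hy
      exact D.φe_slab hy
    have e2 : pe φ p ρ r =ᶠ[𝓝 z] p := by
      filter_upwards [(isOpen_slab isOpen_ball).mem_nhds m0] with y hy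
      exact D.pe_slab hy
    unfold B821.q1 B821.q2
    rw [e1.fderiv_eq, e2.fderiv_eq]
    exact D.fam.area z.1 z.2 (slab_PD D.ρ_pos m0)

/-- the area form does not vanish for `w ≠ 0` -/
theorem Dat.area_ne {x : ℂ × ℂ} (hx : x ∈ SL φ p ρ r) (hw : x.2 ≠ 0) :
    q1 (φe φ p ρ r) x * q2 (pe φ p ρ r) x - q2 (φe φ p ρ r) x * q1 (pe φ p ρ r) x ≠ 0 := by
  rw [(D.area_ev hx).self_of_nhds]
  have h1 : ‖m₀ x.2 - 1‖ ≤ 1 / 8 := D.fam.m_near _ (by simpa using hx.1)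
  have h2 : m₀ x.2 ≠ 0 := by
    intro h0
    rw [h0] at h1
    norm_num at h1
  exact mul_ne_zero (div_ne_zero hw (by norm_num)) h2

/-- periodicity and parity of the sheet of lines -/
theorem Dat.per_SL {σ : ℝ} (hσ : σ = 1 ∨ σ = -1) {κ : ℂ} (hκ : κ = 1 ∨ κ = -1) {x : ℂ × ℂ}
    (hx : x ∈ SL φ p ρ r) : ((x.1 + σ, κ * x.2) : ℂ × ℂ) ∈ SL φ p ρ r ∧
      φe φ p ρ r (x.1 + σ, κ * x.2) = φe φ p ρ r x + σ * (2 * Real.pi) ∧
      pe φ p ρ r (x.1 + σ, κ * x.2) = pe φ p ρ r x := by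
  have hκκ : κ * κ = 1 := by rcases hκ with rfl | rfl <;> norm_num
  have hκn : ‖κ‖ = 1 := by rcases hκ with rfl | rfl <;> simp
  have hF : ∀ z ∈ Slab (-(ρ / 2)) (ρ / 2) (ball (0 : ℂ) r), Fl φ p (z.1 + (σ : ℂ), κ * z.2) =
      Fl φ p z + ((σ : ℂ) * (2 * Real.pi), 0) := by
    intro z hz
    have hz' : ((z.1 + (σ : ℂ), z.2) : ℂ × ℂ) ∈ PD ρ r := by
      have := slab_PD D.ρ_pos hz
      refine ⟨?_, this.2⟩
      simp only [Complex.add_im, Complex.ofReal_im, add_zero]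
      exact this.1
    have e1 : Fl φ p (z.1 + (σ : ℂ), κ * z.2) = Fl φ p (z.1 + (σ : ℂ), z.2) := by
      rcases hκ with rfl | rfl
      · rw [one_mul]
      · unfold Fl
        rw [neg_one_mul, D.fam.φ_even _ _ hz', D.fam.p_even _ _ hz']
    rw [e1]
    unfold Fl
    rcases hσ with rfl | rfl
    · have hz0 : ((z.1, z.2) : ℂ × ℂ) ∈ PD ρ r := slab_PD D.ρ_pos hz
      have e2 := D.fam.φ_per z.1 z.2 hz0
      have e3 := D.fam.p_per z.1 z.2 hz0
      refine Prod.ext ?_ ?_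
      · simp only [Complex.ofReal_one, Prod.fst_add, one_mul]
        exact e2
      · simp only [Complex.ofReal_one, Prod.snd_add, add_zero]
        exact e3
    · have e2 := D.fam.φ_per _ _ hz'
      have e3 := D.fam.p_per _ _ hz'
      have e4 : z.1 + ((-1 : ℝ) : ℂ) + 1 = z.1 := by
        push_cast
        ring
      rw [e4] at e2 e3
      refine Prod.ext ?_ ?_
      · simp only [Prod.fst_add]
        have : φ z = φ (z.1, z.2) := rfl
        rw [this, e2]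
        push_cast
        ring
      · simp only [Prod.snd_add, add_zero]
        have : p z = p (z.1, z.2) := rfl
        rw [this, e3]
  obtain ⟨h1, h2⟩ := sym_gen (F := Fl φ p) (C := univ) D.h10 (σ := (σ : ℂ)) (κ := κ)
    (c := (((σ : ℂ) * (2 * Real.pi), 0) : ℂ × ℂ)) (Complex.ofReal_im σ) hκκ hκn
    (fun _ _ => mem_univ _) (fun w hw => by
      rw [mem_ball_zero_iff] at hw ⊢
      rw [norm_mul, hκn, one_mul]
      exact hw) hF hx.2.2
  have h3 := h2 hx.2.1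
  refine ⟨⟨?_, ?_, h1⟩, ?_, ?_⟩
  · have := hx.1
    rw [mem_ball_zero_iff] at this ⊢
    rw [norm_mul, hκn, one_mul]
    exact this
  · simp only [Complex.add_im, Complex.ofReal_im, add_zero]
    exact hx.2.1
  · have := congrArg Prod.fst h3
    simpa [φe, LE] using this
  · have := congrArg Prod.snd h3
    simpa [pe, LE] using this

/-- periodicity and parity of the sheet of labels -/
theorem Dat.per_SB {σ : ℝ} (hσ : σ = 1 ∨ σ = -1) {κ : ℂ} (hκ : κ = 1 ∨ κ = -1) {x : ℂ × ℂ}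
    (hx : x ∈ SB b h ρ r) : ((x.1 + σ, κ * x.2) : ℂ × ℂ) ∈ SB b h ρ r ∧
      be b h ρ r (x.1 + σ, κ * x.2) = be b h ρ r x + σ := by
  have hκκ : κ * κ = 1 := by rcases hκ with rfl | rfl <;> norm_num
  have hκn : ‖κ‖ = 1 := by rcases hκ with rfl | rfl <;> simp
  have hF : ∀ z ∈ Slab (-(ρ / 2)) (ρ / 2) (ball (0 : ℂ) r), b (z.1 + (σ : ℂ), κ * z.2) =
      b z + (σ : ℂ) := by
    intro z hz
    have hz' : ((z.1 + (σ : ℂ), z.2) : ℂ × ℂ) ∈ PD ρ r := by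
      have := slab_PD D.ρ_pos hz
      refine ⟨?_, this.2⟩
      simp only [Complex.add_im, Complex.ofReal_im, add_zero]
      exact this.1
    have e1 : b (z.1 + (σ : ℂ), κ * z.2) = b (z.1 + (σ : ℂ), z.2) := by
      rcases hκ with rfl | rfl
      · rw [one_mul]
      · rw [neg_one_mul, D.fam.b_even _ _ hz']
    rw [e1]
    rcases hσ with rfl | rfl
    · have hz0 : ((z.1, z.2) : ℂ × ℂ) ∈ PD ρ r := slab_PD D.ρ_pos hz
      have e2 := D.fam.b_per z.1 z.2 hz0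
      rw [Complex.ofReal_one]
      exact e2
    · have e2 := D.fam.b_per _ _ hz'
      have e4 : z.1 + ((-1 : ℝ) : ℂ) + 1 = z.1 := by
        push_cast
        ring
      rw [e4] at e2
      have : b z = b (z.1, z.2) := rfl
      rw [this, e2]
      push_cast
      ring
  obtain ⟨h1, h2⟩ := sym_gen (F := b) (C := Sg h) D.h10 (σ := (σ : ℂ)) (κ := κ)
    (c := (σ : ℂ)) (Complex.ofReal_im σ) hκκ hκn
    (fun v hv => by
      change |(v + (σ : ℂ)).im| < h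
      rw [Complex.add_im, Complex.ofReal_im, add_zero]
      exact hv) (fun w hw => by
      rw [mem_ball_zero_iff] at hw ⊢
      rw [norm_mul, hκn, one_mul]
      exact hw) hF hx.2.2
  have h3 := h2 hx.2.1
  refine ⟨⟨?_, ?_, h1⟩, h3⟩
  · have := hx.1
    rw [mem_ball_zero_iff] at this ⊢
    rw [norm_mul, hκn, one_mul]
    exact this
  · simp only [Complex.add_im, Complex.ofReal_im, add_zero]
    exact hx.2.1

end Relations

end Crest.Agent.R102.Sh982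
end
end

-- ▼ part R102/SheetC_982
section

/-!
Row 102 (T1-B), part I.3: the RULE of the main sheets.
* lines from vertex + the other line (`Dat.rule_line`),
* vertex from both lines (`Dat.rule_vertex`, uses the natural boundary `NB`).
`rule3` is helper300's `rule2'` with weaker hypotheses (same proof).
-/

set_option autoImplicit false

open Set Filter Topology Metric
open scoped ComplexConjugate

noncomputable section

namespace Crest.Agent.R102.Sh982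

open Crest.Agent.R102.T5 Crest.Agent.R102.G576 Crest.Agent.R102.A929 Crest.Agent.R102.B821
open Crest.Agent.R102.C0 Crest.Agent.R102.C1 Crest.Agent.R102.F300 Crest.Agent.R102.Rule982
open Crest.Agent.R102.VH982 (pt pt_eta pt_snd pt_re pt_im tube_mem eq_along continuous_pt_y)
open Crest.Agent.R102.K669 (Slab Tube IsReg isReg_of_slab isOpen_isReg ext_eq
  ext_differentiableAt ext_mem ext_slab isReg_of_local isOpen_slab mem_tube_self isReg_of_tube)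

/-- helper300's `rule2'` with weaker non-degeneracy hypotheses -/
theorem rule3 {h : ℝ} {ψ H : ℂ → ℂ} (hψ : DifferentiableOn ℂ ψ (Sg h))
    (hH : DifferentiableOn ℂ H (Sg h)) {c : ℂ} (hc : c ≠ 0)
    (rel : ∀ z ∈ Sg h, deriv ψ z * deriv (deriv H) z - deriv (deriv ψ) z * deriv H z +
      deriv ψ z ^ 3 * H z = c)
    (hψper : ∀ z ∈ Sg h, ψ (z + 1) = ψ z + 2 * Real.pi) (hNB : NB h ψ H)
    {D : Set (ℂ × ℂ)} (hD : IsOpen D) {B Ψ N Dn : ℂ × ℂ → ℂ} (hB : DifferentiableOn ℂ B D)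
    (hBS : ∀ y ∈ D, B y ∈ Sg h)
    {t1 w1 : ℂ} (hΨ : AnalyticAt ℂ Ψ (t1, w1)) (hN : AnalyticAt ℂ N (t1, w1))
    (hDn : AnalyticAt ℂ Dn (t1, w1)) (hDnf : ∃ᶠ t in 𝓝 t1, Dn (t, w1) ≠ 0)
    (hDb : ∀ z ∈ Sg h, ∀ u : ℕ → ℂ × ℂ, (∀ n, u n ∈ D) → Tendsto u atTop (𝓝 (t1, w1)) →
      Tendsto (fun n => B (u n)) atTop (𝓝 z) → deriv ψ z = 0 → Dn (t1, w1) ≠ 0)
    (h1 : ∀ᶠ y in 𝓝 (t1, w1), y ∈ D → ψ (B y) = Ψ y)
    (h2 : ∀ᶠ y in 𝓝 (t1, w1), y ∈ D → Dn y * H (B y) = N y)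
    {r0 : ℝ} (hr0 : 0 < r0) (hseg : ∀ s : ℝ, 0 < s → s < r0 → (t1 - s * Complex.I, w1) ∈ D)
    (hnc : ∀ s : ℝ, 0 < s → s < r0 →
      ∃ᶠ t in 𝓝 (t1 - s * Complex.I), deriv (fun t => B (t, w1)) t ≠ 0) :
    ∃ G : ℂ × ℂ → ℂ, AnalyticAt ℂ G (t1, w1) ∧ G (t1, w1) ∈ Sg h ∧
      ∀ᶠ s : ℝ in 𝓝[>] 0, G =ᶠ[𝓝 (t1 - s * Complex.I, w1)] B := by
  -- slices
  have hsl : ∀ F : ℂ × ℂ → ℂ, ∀ t : ℂ, AnalyticAt ℂ F (t, w1) →
      AnalyticAt ℂ (fun t => F (t, w1)) t := by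
    intro F t hF
    have h3 : AnalyticAt ℂ (fun t : ℂ => ((t, w1) : ℂ × ℂ)) t := analyticAt_id.prod analyticAt_const
    exact AnalyticAt.comp (g := F) (f := fun t : ℂ => ((t, w1) : ℂ × ℂ)) hF h3
  have hslc : Tendsto (fun t : ℂ => ((t, w1) : ℂ × ℂ)) (𝓝 t1) (𝓝 (t1, w1)) :=
    (Continuous.prodMk continuous_id continuous_const).tendsto t1
  obtain ⟨ε, hε, hball⟩ := Metric.eventually_nhds_iff_ball.1 (hslc.eventually
    (hΨ.eventually_analyticAt.and (hN.eventually_analyticAt.and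
      (hDn.eventually_analyticAt.and (h1.eventually_nhds.and h2.eventually_nhds)))))
  set s0 : ℝ := min r0 ε / 2 with hs0
  have hs0p : 0 < s0 := by positivity
  have hs0r : s0 < r0 := by have := min_le_left r0 ε; rw [hs0]; linarith [lt_min hr0 hε]
  have hs0ε : s0 < ε := by have := min_le_right r0 ε; rw [hs0]; linarith [lt_min hr0 hε]
  have hmem : ∀ s : ℝ, 0 < s → s < ε → t1 - s * Complex.I ∈ ball t1 ε := by
    intro s hs hsε
    rw [mem_ball, dist_eq_norm, sub_sub_cancel_left, norm_neg, norm_mul, Complex.norm_I, mul_one,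
      Complex.norm_real, Real.norm_eq_abs, abs_of_pos hs]
    exact hsε
  -- `B` analytic on the slice near the segment
  have hBan : ∀ t : ℂ, (t, w1) ∈ D → AnalyticAt ℂ (fun t => B (t, w1)) t := by
    intro t ht
    have := Crest.Agent.R266.SCV.analyticOnNhd_of_differentiableOn hD hB (t, w1) ht
    exact hsl B t this
  have hDev : ∀ t : ℂ, (t, w1) ∈ D → ∀ᶠ t' in 𝓝 t, (t', w1) ∈ D := by
    intro t ht
    have hc1 : Tendsto (fun t : ℂ => ((t, w1) : ℂ × ℂ)) (𝓝 t) (𝓝 (t, w1)) :=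
      (Continuous.prodMk continuous_id continuous_const).tendsto t
    exact hc1.eventually (hD.mem_nhds ht)
  have hPV : ∀ t ∈ ball t1 ε, (t, w1) ∈ D →
      PV h ψ H (fun t => Ψ (t, w1)) (fun t => N (t, w1)) (fun t => Dn (t, w1)) t (B (t, w1)) := by
    intro t ht htD
    obtain ⟨-, -, -, a5, a6⟩ := hball t ht
    exact ⟨hBS _ htD, a5.self_of_nhds htD, a6.self_of_nhds htD⟩
  have hDnx : ∃ t ∈ ball t1 ε, Dn (t, w1) ≠ 0 := by
    obtain ⟨t, k1, k2⟩ := (hDnf.and_eventually (ball_mem_nhds t1 hε)).exists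
    exact ⟨t, k2, k1⟩
  obtain ⟨Bt, b1, b2, b3⟩ := rule1g hψ hH hc rel hψper hNB (t1 := t1)
    (t0 := t1 - s0 * Complex.I) (ε := ε) (Ψ := fun t => Ψ (t, w1)) (N := fun t => N (t, w1))
    (Dn := fun t => Dn (t, w1))
    (fun t ht => (hsl Ψ t (hball t ht).1).differentiableAt.differentiableWithinAt)
    (fun t ht => (hsl N t (hball t ht).2.1).differentiableAt.differentiableWithinAt)
    (fun t ht => (hsl Dn t (hball t ht).2.2.1).differentiableAt.differentiableWithinAt)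
    hDnx (hmem s0 hs0p hs0ε)
    (B := fun t => B (t, w1)) (hBan _ (hseg s0 hs0p hs0r))
    (by
      filter_upwards [hDev _ (hseg s0 hs0p hs0r), isOpen_ball.mem_nhds (hmem s0 hs0p hs0ε)]
        with t k1 k2
      exact hPV t k2 k1)
    (hnc s0 hs0p hs0r)
  -- `Bt = B` along the segment
  have hEqseg : ∀ s : ℝ, 0 < s → s ≤ s0 → Bt (t1 - s * Complex.I) = B (t1 - s * Complex.I, w1) := by
    -- identity theorem along the segment: the set of good `s` is clopen in `(0, s0]`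
    set γ : ℝ → ℂ := fun s => t1 - s * Complex.I with hγ
    set V : Set ℂ := {t | t ∈ ball t1 ε ∧ (t, w1) ∈ D} with hV
    have hVo : IsOpen V := by
      rw [isOpen_iff_mem_nhds]
      rintro t ⟨k1, k2⟩
      filter_upwards [isOpen_ball.mem_nhds k1, hDev t k2] with y l1 l2
      exact ⟨l1, l2⟩
    intro s hs hss
    -- preconnected component: the set of points of `V` near which the two agree is clopen in `V`
    set T : Set ℂ := {t | Bt =ᶠ[𝓝 t] fun t => B (t, w1)} with hT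
    have hTo : IsOpen T := isOpen_setOfPred_eventually_nhds
    have hTcl : ∀ t ∈ V, t ∈ closure T → t ∈ T := by
      intro t ht htc
      have a1 : AnalyticAt ℂ Bt t := b1.analyticAt (isOpen_ball.mem_nhds ht.1)
      have a2 : AnalyticAt ℂ (fun t => B (t, w1)) t := hBan t ht.2
      have a3 : ∃ᶠ y in 𝓝 t, y ∈ T := mem_closure_iff_frequently.1 htc
      rcases (a1.eventually_eq_or_eventually_ne a2) with a4 | a4
      · exact a4
      · exfalso
        have a5 : ∀ᶠ y in 𝓝 t, y ≠ t → Bt y ≠ B (y, w1) := eventually_nhdsWithin_iff.1 a4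
        obtain ⟨y, hy, hy2⟩ := (a3.and_eventually a5.eventually_nhds).exists
        have a6 : ∀ᶠ z in 𝓝 y, z = t := by
          filter_upwards [hy2, hy] with z l1 l2
          by_contra l3
          exact l1 l3 l2
        have a7 : ∀ᶠ z in 𝓝[≠] y, z = t := a6.filter_mono nhdsWithin_le_nhds
        have a8 : ∀ᶠ z in 𝓝[≠] y, z ≠ y := eventually_mem_nhdsWithin
        obtain ⟨z, hz1, hz2⟩ := (a7.and a8).exists
        exact hz2 (hz1.trans a6.self_of_nhds.symm)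
    have hγc : Continuous γ := by rw [hγ]; fun_prop
    have hIcc : IsPreconnected (γ '' Icc s s0) := isPreconnected_Icc.image _ hγc.continuousOn
    have hsubV : γ '' Icc s s0 ⊆ V := by
      rintro _ ⟨σ, hσ, rfl⟩
      exact ⟨hmem σ (hs.trans_le hσ.1) (hσ.2.trans_lt hs0ε),
        hseg σ (hs.trans_le hσ.1) (hσ.2.trans_lt hs0r)⟩
    have hsubT : γ '' Icc s s0 ⊆ T := by
      refine hIcc.subset_of_closure_inter_subset hTo ⟨γ s0, ⟨s0, ⟨hss, le_rfl⟩, rfl⟩, b3⟩ ?_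
      rintro z ⟨hz1, hz2⟩
      exact hTcl z (hsubV hz2) hz1
    have : γ s ∈ T := hsubT ⟨s, ⟨le_rfl, hss⟩, rfl⟩
    exact (show Bt =ᶠ[𝓝 (γ s)] fun t => B (t, w1) from this).self_of_nhds
  -- cluster value
  set u : ℕ → ℂ × ℂ := fun n => (t1 - ((s0 / (n + 1 : ℝ) : ℝ) : ℂ) * Complex.I, w1) with hu
  have hsn : ∀ n : ℕ, 0 < s0 / (n + 1 : ℝ) ∧ s0 / (n + 1 : ℝ) ≤ s0 := by
    intro n
    have hn : (1 : ℝ) ≤ (n : ℝ) + 1 := by linarith [Nat.cast_nonneg (α := ℝ) n]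
    exact ⟨by positivity, div_le_self hs0p.le hn⟩
  have hlim0 : Tendsto (fun n : ℕ => s0 / (n + 1 : ℝ)) atTop (𝓝 0) :=
    tendsto_const_nhds.div_atTop (tendsto_atTop_add_const_right _ _ tendsto_natCast_atTop_atTop)
  have hlim1 : Tendsto (fun n : ℕ => t1 - ((s0 / (n + 1 : ℝ) : ℝ) : ℂ) * Complex.I) atTop (𝓝 t1) := by
    have hcc : ContinuousAt (fun s : ℝ => t1 - (s : ℂ) * Complex.I) 0 := by fun_prop
    have := hcc.tendsto.comp hlim0
    simpa [Function.comp_def] using this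
  have hux : Tendsto u atTop (𝓝 (t1, w1)) := hlim1.prodMk_nhds tendsto_const_nhds
  have hBtc : ContinuousAt Bt t1 := (b1.differentiableAt (ball_mem_nhds t1 hε)).continuousAt
  have hub : Tendsto (fun n => B (u n)) atTop (𝓝 (Bt t1)) := by
    refine (hBtc.tendsto.comp hlim1).congr fun n => ?_
    exact hEqseg _ (hsn n).1 (hsn n).2
  have huD : ∀ n, u n ∈ D := fun n => hseg _ (hsn n).1 ((hsn n).2.trans_lt hs0r)
  obtain ⟨G, g1, g2, g3⟩ := extend_of_cluster' (isOpen_Sg h) hc hψ hH rel hD hB hΨ hN hDn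
    (b2 t1 (mem_ball_self hε)).1
    (fun h0 => hDb _ (b2 t1 (mem_ball_self hε)).1 u huD hux hub h0)
    h1 h2 huD hux hub
  refine ⟨G, g1, ?_, ?_⟩
  · rw [g2]; exact (b2 t1 (mem_ball_self hε)).1
  · -- propagate along the segment
    obtain ⟨V, hV1, hV2⟩ : ∃ e : ℝ, 0 < e ∧ ∀ s : ℝ, 0 < s → s < e →
        AnalyticAt ℂ G (t1 - s * Complex.I, w1) := by
      have hcc : Tendsto (fun s : ℝ => ((t1 - (s : ℂ) * Complex.I, w1) : ℂ × ℂ)) (𝓝 0)
          (𝓝 (t1, w1)) := by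
        have hcc : ContinuousAt (fun s : ℝ => ((t1 - (s : ℂ) * Complex.I, w1) : ℂ × ℂ)) 0 := by
          fun_prop
        simpa using hcc.tendsto
      obtain ⟨e, he, heb⟩ := Metric.eventually_nhds_iff_ball.1
        (hcc.eventually g1.eventually_analyticAt)
      refine ⟨e, he, fun s hs hse => heb s ?_⟩
      rw [mem_ball, dist_zero_right, Real.norm_eq_abs, abs_of_pos hs]
      exact hse
    have hev : ∀ᶠ s : ℝ in 𝓝[>] 0, s ∈ Ioo (0 : ℝ) (min V r0) := Ioo_mem_nhdsGT (lt_min hV1 hr0)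
    filter_upwards [hev] with s hs
    obtain ⟨n, hn1, hn2⟩ := (g3.and (hlim0.eventually (gt_mem_nhds hs.1))).exists
    -- both analytic on the segment from `s0/(n+1)` to `s`
    set T : Set (ℂ × ℂ) := {y | G =ᶠ[𝓝 y] B} with hT
    have hTo : IsOpen T := isOpen_setOfPred_eventually_nhds
    set γ : ℝ → ℂ × ℂ := fun σ => (t1 - (σ : ℂ) * Complex.I, w1) with hγ
    have hγc : Continuous γ := by rw [hγ]; fun_prop
    have hIcc : IsPreconnected (γ '' Icc (s0 / (n + 1 : ℝ)) s) :=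
      isPreconnected_Icc.image _ hγc.continuousOn
    have hcl : closure T ∩ (γ '' Icc (s0 / (n + 1 : ℝ)) s) ⊆ T := by
      rintro y ⟨hy1, σ, hσ, rfl⟩
      have hσ0 : 0 < σ := (hsn n).1.trans_le hσ.1
      have hσV : σ < V := hσ.2.trans_lt (hs.2.trans_le (min_le_left _ _))
      have hσr : σ < r0 := hσ.2.trans_lt (hs.2.trans_le (min_le_right _ _))
      have a1 : AnalyticAt ℂ G (γ σ) := hV2 σ hσ0 hσV
      have a2 : AnalyticAt ℂ B (γ σ) :=
        Crest.Agent.R266.SCV.analyticOnNhd_of_differentiableOn hD hB _ (hseg σ hσ0 hσr)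
      obtain ⟨e, he, heb⟩ := Metric.eventually_nhds_iff_ball.1
        (a1.eventually_analyticAt.and a2.eventually_analyticAt)
      obtain ⟨y, hyT, hyb⟩ := ((mem_closure_iff_frequently.1 hy1).and_eventually
        (ball_mem_nhds (γ σ) he)).exists
      have hEq := AnalyticOnNhd.eqOn_of_preconnected_of_eventuallyEq (f := G) (g := B)
        (U := ball (γ σ) e) (fun z hz => (heb z hz).1) (fun z hz => (heb z hz).2)
        (convex_ball _ _).isPreconnected hyb hyT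
      change G =ᶠ[𝓝 (γ σ)] B
      filter_upwards [ball_mem_nhds (γ σ) he] with z hz
      exact hEq hz
    have hsubT : γ '' Icc (s0 / (n + 1 : ℝ)) s ⊆ T :=
      hIcc.subset_of_closure_inter_subset hTo
        ⟨γ (s0 / (n + 1 : ℝ)), ⟨_, ⟨le_rfl, hn2.le⟩, rfl⟩, hn1⟩ hcl
    exact hsubT ⟨s, ⟨hn2.le, le_rfl⟩, rfl⟩


variable {q : C(ℂ, ℂ)} {η ρ r Bc : ℝ} {b φ p : ℂ × ℂ → ℂ} {m₀ : ℂ → ℂ} {h : ℝ} {ψ H : ℂ → ℂ}

section Rule

variable (D : Dat q η ρ r Bc b φ p m₀ h ψ H)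
include D

/-- **RULE, lines**: the vertex and one line are regular, then the other line is regular -/
theorem Dat.rule_line {s : ℂ} (hs : s = 1 ∨ s = -1) {x : ℂ × ℂ} (hx : x ∈ SB b h ρ r)
    (hx' : sh (-s) x ∈ SL φ p ρ r) (h1 : -(3 * ρ / 8) < x.1.im) : sh s x ∈ SL φ p ρ r := by
  have hρ := D.ρ_pos
  have hxr : ‖x.2‖ < r := by simpa using hx.1
  have him := abs_lt.1 (sh_im hs hxr D.r_le)
  have hn := neg_pm hs
  refine ⟨hx.1, ?_, ?_⟩
  · rw [sh_fst, Complex.add_im]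
    linarith [him.1]
  refine reg_up isOpen_ball D.Fl_diff Fl_maps (x := sh s x) hx.1 ?_
  intro y hy0 hyx hlow
  rw [sh_snd] at hlow ⊢
  rw [sh_fst, Complex.add_im] at hyx
  -- the vertex and the other line at lower heights
  have hV : ∀ y', ρ / 4 < y' → y' ≤ y → sh (-s) (pt (sh s x).1.re y' x.2) ∈ SB b h ρ r ∧
      sh (-s) (sh (-s) (pt (sh s x).1.re y' x.2)) ∈ SL φ p ρ r ∧
      -(3 * ρ / 8) < (sh (-s) (pt (sh s x).1.re y' x.2)).1.im := by
    intro y' h2 h3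
    have e1 : (sh (-s) (pt (sh s x).1.re y' x.2)).1.re = x.1.re := by
      rw [sh_fst, pt_snd, Complex.add_re, pt_re, sh_fst, Complex.add_re, neg_mul, Complex.neg_re]
      ring
    have e2 : (sh (-s) (pt (sh s x).1.re y' x.2)).1.im = y' - (s * (x.2 / 2)).im := by
      rw [sh_fst, pt_snd, Complex.add_im, pt_im, neg_mul, Complex.neg_im]
      ring
    refine ⟨Sht_low isOpen_ball D.b_diff D.b_maps hx e1 rfl ?_ (Or.inl ?_), ?_, ?_⟩
    · rw [e2]
      linarith [him.2]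
    · rw [e2]
      linarith
    · refine Sht_low isOpen_ball D.Fl_diff Fl_maps hx' ?_ rfl ?_ (Or.inl ?_)
      · rw [sh_fst, Complex.add_re, e1, sh_fst (-s) x, Complex.add_re, sh_snd, pt_snd]
      · rw [sh_fst, Complex.add_im, e2, sh_snd, pt_snd, neg_mul, Complex.neg_im]
        linarith [him.2]
      · rw [sh_fst, Complex.add_im, e2, sh_fst (-s) x, Complex.add_im, sh_snd, pt_snd]
        linarith
    · rw [e2]
      linarith [him.2]
  obtain ⟨hv1, hv2, hv3⟩ := hV y (by linarith) le_rfl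
  set Y : ℂ × ℂ := pt (sh s x).1.re y x.2 with hY
  set G₀ : ℂ × ℂ → ℂ × ℂ := fun v => (2 * ψ (be b h ρ r v) - φe φ p ρ r (sh (-s) v),
    2 * H (be b h ρ r v) * Complex.cos (φe φ p ρ r (sh (-s) v) - ψ (be b h ρ r v)) -
      pe φ p ρ r (sh (-s) v)) with hG₀
  have hG₀a : AnalyticAt ℂ G₀ (sh (-s) Y) := by
    have a1 := D.an_lab D.ψ_diff hv1
    have a2 := D.an_lab D.H_diff hv1
    have a3 := D.an_φs hv2
    have a4 := D.an_ps hv2
    exact ((analyticAt_const.mul a1).sub a3).prod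
      (((analyticAt_const.mul a2).mul (an_cos (a3.fun_sub a1))).sub a4)
  set G : ℂ × ℂ → ℂ × ℂ := fun z => G₀ (sh (-s) z) with hG
  have hGa : AnalyticAt ℂ G Y := AnalyticAt.comp (g := G₀) (f := sh (-s)) hG₀a (sh_an (-s) Y)
  have hY1 : Y.1.im = y := by rw [hY, pt_im]
  refine isReg_of_local D.h10 isOpen_ball D.Fl_diff Fl_maps (p := Y) (N := {z | AnalyticAt ℂ G z})
    (by rw [hY1]; linarith) (isOpen_analyticAt ℂ G) hGa (G := G)
    (fun z hz => (show AnalyticAt ℂ G z from hz).differentiableAt.differentiableWithinAt)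
    (fun _ _ => mem_univ _) hx.1 ?_
  intro ε hε
  rw [hY1]
  refine ⟨max (y - ε / 2) (ρ / 3), ?_, ?_, ?_⟩
  · exact lt_of_lt_of_le (by linarith) (le_max_left _ _)
  · exact max_lt (by linarith) (by linarith)
  set y2 := max (y - ε / 2) (ρ / 3) with hy2
  have hy2y : y2 < y := max_lt (by linarith) (by linarith)
  have hy2ρ : ρ / 4 < y2 := lt_of_lt_of_le (by linarith) (le_max_right _ _)
  have e3 : (((⟨Y.1.re, y2⟩ : ℂ), Y.2) : ℂ × ℂ) = pt (sh s x).1.re y2 x.2 := by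
    rw [pt_mk, hY, pt_re, pt_snd]
  rw [e3]
  obtain ⟨hw1, hw2, hw3⟩ := hV y2 hy2ρ hy2y.le
  set Q : ℂ × ℂ := pt (sh s x).1.re y2 x.2 with hQ
  have hQL : Q ∈ SL φ p ρ r := ⟨hx.1, by rw [hQ, pt_im]; linarith, hlow y2 hy2y⟩
  have e4 : ∀ z : ℂ × ℂ, sh s (sh (-s) z) = z := by
    intro z
    rw [sh_sh, add_neg_cancel, sh_zero]
  have r1 := D.refl_ev hs hw1 (by rw [e4]; exact hQL) hw2 hw3
  have r2 := D.sum_ev hs hw1 (by rw [e4]; exact hQL) hw2 hw3
  have r1' := ((sh_cont (-s)).tendsto Q).eventually r1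
  have r2' := ((sh_cont (-s)).tendsto Q).eventually r2
  filter_upwards [r1', r2', isOpen_SL.mem_nhds hQL] with z hz1 hz2 hz3
  rw [e4] at hz1 hz2
  refine ⟨hz3.2.2, ?_⟩
  change G z = LE φ p ρ r z
  refine Prod.ext ?_ ?_
  · change 2 * ψ (be b h ρ r (sh (-s) z)) - φe φ p ρ r (sh (-s) (sh (-s) z)) = φe φ p ρ r z
    rw [← hz1]
    ring
  · change 2 * H (be b h ρ r (sh (-s) z)) * Complex.cos (φe φ p ρ r (sh (-s) (sh (-s) z)) -
      ψ (be b h ρ r (sh (-s) z))) - pe φ p ρ r (sh (-s) (sh (-s) z)) = pe φ p ρ r z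
    rw [← hz2]
    ring

/-- the slice derivative of the label -/
lemma Dat.deriv_slice {t w : ℂ} (hx : (t, w) ∈ SB b h ρ r) :
    deriv (fun t => be b h ρ r (t, w)) t = q1 (be b h ρ r) (t, w) := by
  have h1 : HasDerivAt (fun s : ℂ => ((s, w) : ℂ × ℂ)) ((1, 0) : ℂ × ℂ) t :=
    (hasDerivAt_id t).prodMk (hasDerivAt_const t w)
  exact ((D.be_an _ hx).differentiableAt.hasFDerivAt.comp_hasDerivAt t h1).deriv

/-- the label is not constant on any slice of the sheet -/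
theorem Dat.be_nc {x : ℂ × ℂ} (hx : x ∈ SB b h ρ r) :
    ∃ᶠ t in 𝓝 x.1, deriv (fun t => be b h ρ r (t, x.2)) t ≠ 0 := by
  have hρ := D.ρ_pos
  have hxr : ‖x.2‖ < r := by simpa using hx.1
  have h0 : q1 (be b h ρ r) (pt x.1.re 0 x.2) ≠ 0 := by
    have m0 := D.near0 (s := 0) (by tauto) (z := pt x.1.re 0 x.2) (by rw [pt_snd]; exact hxr)
      (by rw [pt_im, abs_zero]; linarith)
    rw [sh_zero] at m0
    have e1 : be b h ρ r =ᶠ[𝓝 (pt x.1.re 0 x.2)] b := by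
      filter_upwards [(isOpen_slab isOpen_ball).mem_nhds m0] with y hy
      exact D.be_slab hy
    have e2 : q1 (be b h ρ r) (pt x.1.re 0 x.2) = q1 b (pt x.1.re 0 x.2) := by
      unfold B821.q1
      rw [e1.fderiv_eq]
    rw [e2]
    intro h3
    have h4 := D.fam.b_t _ (slab_PD D.ρ_pos m0)
    rw [h3] at h4
    norm_num at h4
  have h1 := freq_ne (Ω := SB b h ρ r) (f := q1 (be b h ρ r)) (fun z hz => an_q1 (D.be_an z hz))
    (D.seg_SB hx) h0
  have e3 : pt x.1.re x.1.im x.2 = x := pt_eta x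
  rw [e3] at h1
  have h2 : ∀ᶠ t in 𝓝 x.1, ((t, x.2) : ℂ × ℂ) ∈ SB b h ρ r := by
    have hc : Continuous fun t : ℂ => ((t, x.2) : ℂ × ℂ) := by fun_prop
    exact (hc.tendsto x.1).eventually (isOpen_SB.mem_nhds hx)
  refine (h1.and_eventually h2).mono ?_
  rintro t ⟨ht1, ht2⟩
  rw [D.deriv_slice ht2]
  exact ht1

/-- the half angle of reflection is not `π/2` identically -/
theorem Dat.cos_nz {x : ℂ × ℂ} (hx1 : sh 1 x ∈ SL φ p ρ r) (hx2 : sh (-1) x ∈ SL φ p ρ r)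
    (h1 : -(3 * ρ / 8) < x.1.im) : ∃ᶠ t in 𝓝 x.1, 2 * Complex.cos ((φe φ p ρ r (sh (-1) (t, x.2)) -
      φe φ p ρ r (sh 1 (t, x.2))) / 2) ≠ 0 := by
  have hρ := D.ρ_pos
  have hxr : ‖x.2‖ < r := by simpa using hx1.1
  have hp := freq_ne (Ω := sh 1 ⁻¹' SL φ p ρ r ∩ sh (-1) ⁻¹' SL φ p ρ r)
    (f := fun z => 2 * Complex.cos ((φe φ p ρ r (sh (-1) z) - φe φ p ρ r (sh 1 z)) / 2))
    (x := x.1.re) (y₁ := 0) (y₂ := x.1.im) (w := x.2) ?_ ?_ ?_
  · have e3 : pt x.1.re x.1.im x.2 = x := pt_eta x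
    rw [e3] at hp
    exact hp
  · rintro z ⟨hz1, hz2⟩
    exact analyticAt_const.mul (an_cos (((D.an_φs hz2).fun_sub (D.an_φs hz1)).div_const))
  · intro y hy
    exact ⟨D.seg_SL (by tauto) hx1 h1 y hy, D.seg_SL (by tauto) hx2 h1 y hy⟩
  · set z := pt x.1.re 0 x.2 with hz
    have hz1 : ‖z.2‖ < r := by rw [hz, pt_snd]; exact hxr
    have hz2 : |z.1.im| < ρ / 4 := by rw [hz, pt_im, abs_zero]; linarith
    have m0 := D.near0 (s := 0) (by tauto) hz1 hz2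
    rw [sh_zero] at m0
    have m1 := D.near0 (s := 1) (by tauto) hz1 hz2
    have m2 := D.near0 (s := -1) (by tauto) hz1 hz2
    rw [D.φe_slab m1, D.φe_slab m2]
    have k1 := D.base_refl (s := 1) (Or.inl rfl) (t := z.1) (w := z.2) (slab_PD D.ρ_pos m0)
      (slab_PD D.ρ_pos m1) (by rw [← sh_neg 1 z]; exact slab_PD D.ρ_pos m2)
    rw [D.ψ_eq _ (D.b_mem_Str (slab_PD D.ρ_pos m0))] at k1
    have k2 := D.fam.δ_small z.1 z.2 (slab_PD D.ρ_pos m0) (by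
      have := slab_PD D.ρ_pos m1
      unfold sh at this
      rwa [one_mul] at this)
    have e5 : sh 1 z = (z.1 + z.2 / 2, z.2) := by
      unfold sh
      rw [one_mul]
    have e6 : (z.1 + 1 * (z.2 / 2), z.2) = sh 1 z := rfl
    rw [e6, e5, ← sh_neg 1 z] at k1
    rw [e5]
    set A := φ (sh (-1) z) with hA
    set A' := φ (z.1 + z.2 / 2, z.2) with hA'
    set T := Tc q (b (z.1, z.2)) with hT
    have e7 : (A - A') / 2 = -(A' - T) := by linear_combination (1 / 2) * k1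
    rw [e7, Complex.cos_neg]
    intro h8
    have h9 : Complex.cos (A' - T) = 0 := by
      rcases mul_eq_zero.1 h8 with h10 | h10
      · norm_num at h10
      · exact h10
    rw [Complex.cos_eq_zero_iff] at h9
    obtain ⟨k, hk⟩ := h9
    rw [hk] at k2
    have h11 : ‖((2 * (k : ℂ) + 1) * Real.pi / 2)‖ = |(2 * (k : ℝ) + 1)| * Real.pi / 2 := by
      have : ((2 * (k : ℂ) + 1) * Real.pi / 2) = (((2 * (k : ℝ) + 1) * Real.pi / 2 : ℝ) : ℂ) := by
        push_cast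
        ring
      rw [this, Complex.norm_real, Real.norm_eq_abs, abs_div, abs_mul, abs_of_pos Real.pi_pos,
        abs_two]
    rw [h11] at k2
    have h12 : (1 : ℝ) ≤ |(2 * (k : ℝ) + 1)| := by
      have : (1 : ℤ) ≤ |2 * k + 1| := by
        apply Int.one_le_abs
        omega
      exact_mod_cast this
    have h13 := Real.pi_gt_three
    nlinarith

/-- **RULE, vertex**: both lines are regular, then the vertex is regular (natural boundary) -/
theorem Dat.rule_vertex (hNB : Rule982.NB h ψ H) {x : ℂ × ℂ} (hx1 : sh 1 x ∈ SL φ p ρ r)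
    (hx2 : sh (-1) x ∈ SL φ p ρ r) (h1 : -(3 * ρ / 8) < x.1.im) : x ∈ SB b h ρ r := by
  have hρ := D.ρ_pos
  have hxr : ‖x.2‖ < r := by simpa using hx1.1
  have hx1W : x.2 ∈ ball (0 : ℂ) r := hx1.1
  refine ⟨hx1W, by linarith, ?_⟩
  refine reg_up isOpen_ball D.b_diff D.b_maps (x := x) hx1W ?_
  intro y hy0 hyx hlow
  set Y : ℂ × ℂ := pt x.1.re y x.2 with hY
  have hY1 : Y.1.im = y := by rw [hY, pt_im]
  have hY2 : Y.2 = x.2 := rfl
  have hYre : Y.1.re = x.1.re := by rw [hY, pt_re]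
  have hYL : ∀ s : ℂ, (s = 1 ∨ s = -1) → sh s x ∈ SL φ p ρ r → sh s Y ∈ SL φ p ρ r := by
    intro s hs hsx
    have him := abs_lt.1 (sh_im hs hxr D.r_le)
    refine Sht_low isOpen_ball D.Fl_diff Fl_maps hsx ?_ rfl ?_ (Or.inl ?_)
    · rw [sh_fst, sh_fst, Complex.add_re, Complex.add_re, hYre, hY2]
    · rw [sh_fst, Complex.add_im, hY1, hY2]
      linarith [him.1]
    · rw [sh_fst, sh_fst, Complex.add_im, Complex.add_im, hY1, hY2]
      linarith
  have hY1L := hYL 1 (Or.inl rfl) hx1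
  have hY2L := hYL (-1) (Or.inr rfl) hx2
  have hseg : ∀ s : ℝ, 0 < s → s < y + ρ / 4 → ((Y.1 - s * Complex.I, Y.2) : ℂ × ℂ) ∈
      SB b h ρ r := by
    intro s hs1 hs2
    have e1 : ((Y.1 - s * Complex.I, Y.2) : ℂ × ℂ) = pt x.1.re (y - s) x.2 := by
      rw [hY]
      unfold VH982.pt
      refine Prod.ext ?_ rfl
      simp only
      push_cast
      ring
    rw [e1]
    refine ⟨hx1W, by rw [pt_im]; linarith, hlow _ (by linarith)⟩
  have hev : ∀ᶠ z in 𝓝 Y, sh 1 z ∈ SL φ p ρ r ∧ sh (-1) z ∈ SL φ p ρ r ∧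
      -(3 * ρ / 8) < z.1.im := by
    have c1 : Continuous fun z : ℂ × ℂ => z.1.im := by fun_prop
    filter_upwards [(isOpen_pre 1).mem_nhds hY1L, (isOpen_pre (-1)).mem_nhds hY2L,
      (c1.tendsto Y).eventually (Ioi_mem_nhds (show -(3 * ρ / 8) < Y.1.im by
        rw [hY1]; linarith))] with z a1 a2 a3
    exact ⟨a1, a2, a3⟩
  have hψe : ∀ᶠ z in 𝓝 Y, z ∈ SB b h ρ r → ψ (be b h ρ r z) =
      (φe φ p ρ r (sh 1 z) + φe φ p ρ r (sh (-1) z)) / 2 := by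
    filter_upwards [hev] with z hz hzB
    have := (D.refl_ev (Or.inl rfl) hzB hz.1 hz.2.1 hz.2.2).self_of_nhds
    linear_combination (-1 / 2) * this
  have hDb : ∀ z ∈ Sg h, ∀ u : ℕ → ℂ × ℂ, (∀ n, u n ∈ SB b h ρ r) →
      Tendsto u atTop (𝓝 ((Y.1, Y.2) : ℂ × ℂ)) →
      Tendsto (fun n => be b h ρ r (u n)) atTop (𝓝 z) → deriv ψ z = 0 →
      2 * Complex.cos ((φe φ p ρ r (sh (-1) (Y.1, Y.2)) -
        φe φ p ρ r (sh 1 (Y.1, Y.2))) / 2) ≠ 0 := by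
    intro z hz u hu hux hub hz0 hcon
    have hux' : Tendsto u atTop (𝓝 Y) := hux
    have c1 : ContinuousAt (fun z => φe φ p ρ r (sh 1 z)) Y := (D.an_φs hY1L).continuousAt
    have c2 : ContinuousAt (fun z => φe φ p ρ r (sh (-1) z)) Y := (D.an_φs hY2L).continuousAt
    have c3 : ContinuousAt (fun z => pe φ p ρ r (sh 1 z)) Y := (D.an_ps hY1L).continuousAt
    have hSo := isOpen_Sg h
    have hzn := hSo.mem_nhds hz
    have c4 : ContinuousAt ψ z := (D.ψ_diff.differentiableAt hzn).continuousAt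
    have c5 : ContinuousAt H z := (D.H_diff.differentiableAt hzn).continuousAt
    have c6 : ContinuousAt (deriv ψ) z := ((D.ψ_diff.deriv hSo).differentiableAt hzn).continuousAt
    have c7 : ContinuousAt (deriv H) z := ((D.H_diff.deriv hSo).differentiableAt hzn).continuousAt
    have l1 := c1.tendsto.comp hux'
    have l2 := c2.tendsto.comp hux'
    have l3 := c3.tendsto.comp hux'
    have l4 := c4.tendsto.comp hub
    have l5 := c5.tendsto.comp hub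
    have l6 := c6.tendsto.comp hub
    have l7 := c7.tendsto.comp hub
    have hψz : ψ z = (φe φ p ρ r (sh 1 Y) + φe φ p ρ r (sh (-1) Y)) / 2 := by
      have l8 := (l1.add l2).div_const 2
      refine tendsto_nhds_unique l4 (l8.congr' ?_)
      filter_upwards [hux'.eventually hψe] with n hn
      exact (hn (hu n)).symm
    have hinc : Inc ψ H (φe φ p ρ r (sh 1 Y)) (pe φ p ρ r (sh 1 Y)) z := by
      unfold F300.Inc
      have l9 := l6.mul l3
      have l10 := ((l6.mul l5).mul ((Complex.continuous_cos.tendsto _).comp (l1.sub l4))).add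
        (l7.mul ((Complex.continuous_sin.tendsto _).comp (l1.sub l4)))
      refine tendsto_nhds_unique l9 (l10.congr' ?_)
      filter_upwards [hux'.eventually hev] with n hn
      have := (D.inc_ev (Or.inl rfl) (hu n) hn.1 hn.2.2).self_of_nhds
      exact this.symm
    unfold F300.Inc at hinc
    rw [hz0] at hinc
    have hrel := D.rel z hz
    rw [hz0] at hrel
    have hH' : deriv H z ≠ 0 := by
      intro h3
      rw [h3] at hrel
      norm_num at hrel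
    have hsin : Complex.sin (φe φ p ρ r (sh 1 Y) - ψ z) = 0 := by
      have : deriv H z * Complex.sin (φe φ p ρ r (sh 1 Y) - ψ z) = 0 := by
        linear_combination -hinc
      rcases mul_eq_zero.1 this with h3 | h3
      · exact absurd h3 hH'
      · exact h3
    have hcos : Complex.cos (φe φ p ρ r (sh 1 Y) - ψ z) = 0 := by
      have e1 : φe φ p ρ r (sh 1 Y) - ψ z = -((φe φ p ρ r (sh (-1) Y) -
          φe φ p ρ r (sh 1 Y)) / 2) := by
        rw [hψz]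
        ring
      rw [e1, Complex.cos_neg]
      have : 2 * Complex.cos ((φe φ p ρ r (sh (-1) (Y.1, Y.2)) -
        φe φ p ρ r (sh 1 (Y.1, Y.2))) / 2) = 0 := hcon
      rcases mul_eq_zero.1 this with h3 | h3
      · norm_num at h3
      · exact h3
    have := Complex.sin_sq_add_cos_sq (φe φ p ρ r (sh 1 Y) - ψ z)
    rw [hsin, hcos] at this
    norm_num at this
  have h2 : ∀ᶠ z in 𝓝 Y, z ∈ SB b h ρ r →
      2 * Complex.cos ((φe φ p ρ r (sh (-1) z) - φe φ p ρ r (sh 1 z)) / 2) * H (be b h ρ r z) =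
        pe φ p ρ r (sh (-1) z) + pe φ p ρ r (sh 1 z) := by
    filter_upwards [hev, hψe] with z hz hz' hzB
    have h3 := (D.sum_ev (Or.inl rfl) hzB hz.1 hz.2.1 hz.2.2).self_of_nhds
    have h4 := hz' hzB
    rw [h3]
    have e1 : φe φ p ρ r (sh (-1) z) - ψ (be b h ρ r z) =
        (φe φ p ρ r (sh (-1) z) - φe φ p ρ r (sh 1 z)) / 2 := by
      rw [h4]
      ring
    rw [e1]
    ring
  obtain ⟨G, hGa, hGm, hGe⟩ := rule3 (h := h) D.ψ_diff D.H_diff (c := -1) (by norm_num) D.rel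
    D.ψ_per hNB (D := SB b h ρ r) isOpen_SB (B := be b h ρ r)
    (Ψ := fun z => (φe φ p ρ r (sh 1 z) + φe φ p ρ r (sh (-1) z)) / 2)
    (N := fun z => pe φ p ρ r (sh (-1) z) + pe φ p ρ r (sh 1 z))
    (Dn := fun z => 2 * Complex.cos ((φe φ p ρ r (sh (-1) z) - φe φ p ρ r (sh 1 z)) / 2))
    D.be_an.differentiableOn (fun z hz => D.be_mem hz) (t1 := Y.1) (w1 := Y.2)
    (((D.an_φs hY1L).add (D.an_φs hY2L)).div_const) ((D.an_ps hY2L).add (D.an_ps hY1L))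
    (analyticAt_const.mul (an_cos (((D.an_φs hY2L).fun_sub (D.an_φs hY1L)).div_const)))
    (D.cos_nz hY1L hY2L (by rw [hY1]; linarith)) hDb hψe h2 (r0 := y + ρ / 4) (by linarith) hseg
    (fun s hs1 hs2 => D.be_nc (hseg s hs1 hs2))
  -- regularity at `Y`
  set N' : Set (ℂ × ℂ) := {z | AnalyticAt ℂ G z} ∩ G ⁻¹' Sg h with hN'
  have hN'o : IsOpen N' := by
    refine ContinuousOn.isOpen_inter_preimage ?_ (isOpen_analyticAt ℂ G) (isOpen_Sg h)
    intro z hz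
    exact (show AnalyticAt ℂ G z from hz).continuousAt.continuousWithinAt
  refine isReg_of_local D.h10 isOpen_ball D.b_diff D.b_maps (p := Y) (N := N')
    (by rw [hY1]; linarith) hN'o ⟨hGa, hGm⟩ (G := G)
    (fun z hz => (show AnalyticAt ℂ G z from hz.1).differentiableAt.differentiableWithinAt)
    (fun z hz => hz.2) hx1W ?_
  intro ε hε
  have h3 : ∀ᶠ s : ℝ in 𝓝[>] 0, s ∈ Ioo (0 : ℝ) (min ε (y + ρ / 4)) :=
    Ioo_mem_nhdsGT (lt_min hε (by linarith))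
  obtain ⟨s, hs1, hs2⟩ := (h3.and hGe).exists
  have hsε : s < ε := hs1.2.trans_le (min_le_left _ _)
  have hsy : s < y + ρ / 4 := hs1.2.trans_le (min_le_right _ _)
  refine ⟨y - s, by rw [hY1]; linarith, by rw [hY1]; linarith [hs1.1], ?_⟩
  have e1 : (((⟨Y.1.re, y - s⟩ : ℂ), Y.2) : ℂ × ℂ) = (Y.1 - s * Complex.I, Y.2) := by
    refine Prod.ext ?_ rfl
    simp only
    apply Complex.ext
    · simp
    · simp [hY1]
  rw [e1]
  filter_upwards [hs2, isOpen_SB.mem_nhds (hseg s hs1.1 hsy)] with z hz1 hz2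
  exact ⟨hz2.2.2, hz1⟩

end Rule

end Crest.Agent.R102.Sh982
end
end

-- ▼ part R102/Step7_559
section

/-!
Row 102, T1-B, step 7 of R1_523 (helper559): **the face is not a natural boundary**.

`ΩX` = main sheet of the label `B` (values in the strip `|Im| < h0`), `Ωl` = main sheet of the line
`(φ, p)` (a vertically star-shaped open set).  If `B` extends analytically (`Bt`, `∂_t Bt` with
positive real part) across the face near a point `P` with `Im Bt P = h0`, and there are singular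
points of `B` near `P` over which the incoming line is regular, then `(ψ, H)` continues through
a point of `Im z = h0` (Face2_300): contradiction with the natural boundary.
-/

set_option autoImplicit false

open Set Filter Topology Metric Complex
open scoped Real

noncomputable section

namespace Crest.Agent.R102.Step7559

open Crest.Agent.R102.B821 Crest.Agent.R102.F300

/-- good points: `Bt` is the main sheet `B` near the point -/
def Gd (ΩX : Set (ℂ × ℂ)) (B Bt : ℂ × ℂ → ℂ) : Set (ℂ × ℂ) := {q | q ∈ ΩX ∧ Bt =ᶠ[𝓝 q] B}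

theorem isOpen_Gd {ΩX : Set (ℂ × ℂ)} (hX : IsOpen ΩX) (B Bt : ℂ × ℂ → ℂ) :
    IsOpen (Gd ΩX B Bt) := by
  rw [isOpen_iff_mem_nhds]
  rintro q ⟨hq, he⟩
  have h1 : ∀ᶠ q' in 𝓝 q, q' ∈ ΩX := hX.mem_nhds hq
  filter_upwards [h1, he.eventually_nhds] with q' h2 h3
  exact ⟨h2, h3⟩

/-- the point `τ` below `q` -/
def dn (q : ℂ × ℂ) (τ : ℝ) : ℂ × ℂ := (q.1 - τ * I, q.2)

theorem continuous_dn (q : ℂ × ℂ) : Continuous (dn q) := by unfold dn; fun_prop

theorem continuous_dn' (τ : ℝ) : Continuous fun q => dn q τ := by unfold dn; fun_prop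

theorem dn_dn (q : ℂ × ℂ) (τ σ : ℝ) : dn (dn q τ) σ = dn q (τ + σ) := by
  unfold dn; ext
  · push_cast; ring
  · rfl

theorem dn_zero (q : ℂ × ℂ) : dn q 0 = q := by unfold dn; simp

/-- maximality of the main sheet `ΩX` of `B` with values in `|Im| < h0` -/
def Maxi (h0 : ℝ) (ΩX : Set (ℂ × ℂ)) (B : ℂ × ℂ → ℂ) : Prop :=
  ∀ (q : ℂ × ℂ) (Bt : ℂ × ℂ → ℂ), AnalyticAt ℂ Bt q → |(Bt q).im| < h0 →
    (∀ᶠ τ : ℝ in 𝓝[>] 0, dn q τ ∈ Gd ΩX B Bt) → q ∈ Gd ΩX B Bt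

/-- the last bad point on a vertical segment which ends (below) at a good point -/
theorem last_bad {G : Set (ℂ × ℂ)} (hG : IsOpen G) {q : ℂ × ℂ} (hq : q ∉ G) {κ : ℝ} (hκ : 0 ≤ κ)
    (hdn : dn q κ ∈ G) : ∃ σ, 0 ≤ σ ∧ σ < κ ∧ dn q σ ∉ G ∧ ∀ τ, σ < τ → τ ≤ κ → dn q τ ∈ G := by
  set N : Set ℝ := Icc 0 κ ∩ (dn q) ⁻¹' Gᶜ with hN
  have hNc : IsCompact N := isCompact_Icc.inter_right (hG.isClosed_compl.preimage (continuous_dn q))
  have hNn : N.Nonempty := ⟨0, ⟨le_refl _, hκ⟩, by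
    show dn q 0 ∉ G
    rwa [dn_zero]⟩
  obtain ⟨σ, hσN, hσ⟩ := hNc.exists_isGreatest hNn
  refine ⟨σ, hσN.1.1, lt_of_le_of_ne hσN.1.2 ?_, hσN.2, ?_⟩
  · rintro rfl
    exact hσN.2 hdn
  · intro τ h1 h2
    by_contra h3
    have h4 : τ ∈ N := ⟨⟨hσN.1.1.trans h1.le, h2⟩, h3⟩
    exact absurd (hσ h4) (not_le.2 h1)

/-- `Im Bt` increases upwards -/
theorem im_mono {Bt : ℂ × ℂ → ℂ} {q : ℂ × ℂ} {κ : ℝ} (hκ : 0 ≤ κ)
    (hBt : ∀ τ ∈ Icc 0 κ, AnalyticAt ℂ Bt (dn q τ))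
    (hpos : ∀ τ ∈ Icc 0 κ, 0 < (q1 Bt (dn q τ)).re) :
    (Bt (dn q κ)).im ≤ (Bt q).im := by
  have hd : ∀ τ ∈ Icc 0 κ, HasDerivAt (fun τ : ℝ => (Bt (dn q τ)).im)
      (-(q1 Bt (dn q τ)).re) τ := by
    intro τ hτ
    have h1 := (hBt τ hτ).differentiableAt.hasFDerivAt
    have h2 : HasDerivAt (fun τ : ℝ => dn q τ) ((-I, 0) : ℂ × ℂ) τ := by
      unfold dn
      have h3 : HasDerivAt (fun τ : ℝ => q.1 - τ * I) (-I) τ := by
        have h4 : HasDerivAt (fun τ : ℝ => (τ : ℂ)) 1 τ := Complex.ofRealCLM.hasDerivAt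
        simpa using (h4.mul_const I).const_sub q.1
      exact h3.prodMk (hasDerivAt_const τ q.2)
    have h3 : HasDerivAt (fun τ : ℝ => Bt (dn q τ)) (fderiv ℂ Bt (dn q τ) (-I, 0)) τ :=
      (h1.restrictScalars ℝ).comp_hasDerivAt τ h2
    have h4 : fderiv ℂ Bt (dn q τ) (-I, 0) = -I * q1 Bt (dn q τ) := by
      unfold q1
      rw [show ((-I, 0) : ℂ × ℂ) = (-I) • ((1, 0) : ℂ × ℂ) by ext <;> simp, map_smul, smul_eq_mul]
    have h5 : HasDerivAt (fun τ : ℝ => (Bt (dn q τ)).im)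
        (fderiv ℂ Bt (dn q τ) (-I, 0)).im τ := by
      have h7 := (Complex.imCLM.hasFDerivAt (x := Bt (dn q τ))).comp_hasDerivAt τ h3
      exact h7
    rw [h4] at h5
    have h6 : (-I * q1 Bt (dn q τ)).im = -(q1 Bt (dn q τ)).re := by simp
    rwa [h6] at h5
  have hanti : AntitoneOn (fun τ : ℝ => (Bt (dn q τ)).im) (Icc 0 κ) := by
    refine antitoneOn_of_deriv_nonpos (convex_Icc 0 κ)
      (fun τ hτ => (hd τ hτ).continuousAt.continuousWithinAt)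
      (fun τ hτ => (hd τ (interior_subset hτ)).differentiableAt.differentiableWithinAt) ?_
    intro τ hτ
    rw [(hd τ (interior_subset hτ)).deriv]
    have := hpos τ (interior_subset hτ)
    linarith
  have := hanti ⟨le_refl _, hκ⟩ ⟨hκ, le_refl _⟩ hκ
  simpa [dn_zero] using this

/-- **climbing**: a point of the ball with `Im Bt < h0` above a good point is good -/
theorem climb {h0 : ℝ} {ΩX : Set (ℂ × ℂ)} (hX : IsOpen ΩX) {B Bt : ℂ × ℂ → ℂ}
    (hmax : Maxi h0 ΩX B) {q : ℂ × ℂ} {κ : ℝ} (hκ : 0 ≤ κ)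
    (hBt : ∀ τ ∈ Icc 0 κ, AnalyticAt ℂ Bt (dn q τ))
    (hpos : ∀ τ ∈ Icc 0 κ, 0 < (q1 Bt (dn q τ)).re)
    (hlow : ∀ τ ∈ Icc 0 κ, -h0 < (Bt (dn q τ)).im)
    (hdn : dn q κ ∈ Gd ΩX B Bt) (hq : (Bt q).im < h0) : q ∈ Gd ΩX B Bt := by
  by_contra hcon
  obtain ⟨σ, hσ0, hσκ, hσ, hσ'⟩ := last_bad (isOpen_Gd hX B Bt) hcon hκ hdn
  have hσI : σ ∈ Icc 0 κ := ⟨hσ0, hσκ.le⟩
  refine hσ (hmax _ Bt (hBt σ hσI) ?_ ?_)
  · rw [abs_lt]
    refine ⟨hlow σ hσI, lt_of_le_of_lt ?_ hq⟩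
    refine im_mono hσ0 (fun τ hτ => hBt τ ⟨hτ.1, hτ.2.trans hσκ.le⟩)
      (fun τ hτ => hpos τ ⟨hτ.1, hτ.2.trans hσκ.le⟩)
  · have h1 : ∀ᶠ τ : ℝ in 𝓝[>] 0, τ ∈ Ioo (0 : ℝ) (κ - σ) := Ioo_mem_nhdsGT (by linarith)
    filter_upwards [h1] with τ hτ
    rw [dn_dn]
    exact hσ' _ (by linarith [hτ.1]) (by linarith [hτ.2])

/-- **Step 7**, with a lower level `y1` for the star property of the line sheet. -/
theorem step7' {h0 : ℝ} (h0pos : 0 < h0) {ψ H : ℂ → ℂ} {c : ℂ} (hc : c ≠ 0)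
    (hψ : DifferentiableOn ℂ ψ {z : ℂ | |z.im| < h0})
    (hH : DifferentiableOn ℂ H {z : ℂ | |z.im| < h0})
    (hrel : Rel {z : ℂ | |z.im| < h0} ψ H c)
    (hNB : ∀ s : ℂ, s.im = h0 → ¬ RegAt {z : ℂ | |z.im| < h0} ψ H s)
    {ΩX Ωl : Set (ℂ × ℂ)} (hX : IsOpen ΩX) (hl : IsOpen Ωl)
    {y1 : ℝ} (hstar : ∀ q ∈ Ωl, ∀ τ : ℝ, 0 ≤ τ → y1 < q.1.im - τ → dn q τ ∈ Ωl)
    {B φ p : ℂ × ℂ → ℂ} (hB : ∀ q ∈ ΩX, (B q).im < h0)
    (hφ : AnalyticOnNhd ℂ φ Ωl) (hp : AnalyticOnNhd ℂ p Ωl)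
    (har : ∀ q ∈ Ωl, q.2 ≠ 0 → q1 φ q * q2 p q - q2 φ q * q1 p q ≠ 0)
    (hinc : ∀ q ∈ ΩX, (q.1 - q.2 / 2, q.2) ∈ Ωl →
      Inc ψ H (φ (q.1 - q.2 / 2, q.2)) (p (q.1 - q.2 / 2, q.2)) (B q))
    (hmax : Maxi h0 ΩX B)
    {P : ℂ × ℂ} (hPy : y1 < (P.1 - P.2 / 2).im) {r : ℝ} (hr : 0 < r) {Bt : ℂ × ℂ → ℂ}
    (hBt : AnalyticOnNhd ℂ Bt (ball P r)) (hP : (Bt P).im = h0) (hpos : ∀ q ∈ ball P r, 0 < (deriv (fun t => Bt (t, q.2)) q.1).re)
    (hdeep : ∀ᶠ τ : ℝ in 𝓝[>] 0, dn P τ ∈ Gd ΩX B Bt)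
    (hsing : ∀ ε > 0, ∃ q ∈ ball P ε, q.2 ≠ 0 ∧ q ∉ ΩX ∧ (q.1 - q.2 / 2, q.2) ∈ Ωl) : False := by
  have hq1 : ∀ q ∈ ball P r, q1 Bt q = deriv (fun t => Bt (t, q.2)) q.1 := by
    intro q hq
    have h1 : HasDerivAt (fun s : ℂ => ((s, q.2) : ℂ × ℂ)) ((1, 0) : ℂ × ℂ) q.1 :=
      (hasDerivAt_id q.1).prodMk (hasDerivAt_const q.1 q.2)
    exact ((hBt q hq).differentiableAt.hasFDerivAt.comp_hasDerivAt q.1 h1).deriv.symm
  have hpos' : ∀ q ∈ ball P r, 0 < (q1 Bt q).re := fun q hq => by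
    rw [hq1 q hq]; exact hpos q hq
  -- shrink the ball: `Im Bt > -h0`
  obtain ⟨r₁, hr₁, hr₁r, hr₁y, hlow⟩ : ∃ r₁ > 0, r₁ ≤ r ∧ 2 * r₁ ≤ (P.1 - P.2 / 2).im - y1 ∧
      ∀ q ∈ ball P r₁, -h0 < (Bt q).im := by
    have h1 : ContinuousAt (fun q => (Bt q).im) P :=
      Complex.continuous_im.continuousAt.comp (hBt P (mem_ball_self hr)).continuousAt
    have h2 : ∀ᶠ q in 𝓝 P, -h0 < (Bt q).im := h1.eventually (lt_mem_nhds (by
      show -h0 < (Bt P).im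
      rw [hP]; linarith))
    obtain ⟨r₁, hr₁, h3⟩ := Metric.eventually_nhds_iff_ball.1 h2
    refine ⟨min (min r₁ r) (((P.1 - P.2 / 2).im - y1) / 2), lt_min (lt_min hr₁ hr) (by linarith),
      (min_le_left _ _).trans (min_le_right _ _), ?_, fun q hq =>
      h3 q (ball_subset_ball ((min_le_left _ _).trans (min_le_left _ _)) hq)⟩
    have := min_le_right (min r₁ r) (((P.1 - P.2 / 2).im - y1) / 2)
    linarith
  have hsub : ball P r₁ ⊆ ball P r := ball_subset_ball hr₁r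
  -- the depth
  obtain ⟨κ, hκ0, hκr, hκG⟩ : ∃ κ : ℝ, 0 < κ ∧ κ < r₁ / 2 ∧ dn P κ ∈ Gd ΩX B Bt := by
    have h1 : ∀ᶠ τ : ℝ in 𝓝[>] 0, τ ∈ Ioo (0 : ℝ) (r₁ / 2) := Ioo_mem_nhdsGT (by linarith)
    obtain ⟨κ, h2, h3⟩ := (h1.and hdeep).exists
    exact ⟨κ, h2.1, h2.2, h3⟩
  have hGo := isOpen_Gd hX B Bt
  obtain ⟨ε, hε, hεr, hεG⟩ : ∃ ε > 0, ε ≤ r₁ / 2 ∧ ∀ q ∈ ball P ε, dn q κ ∈ Gd ΩX B Bt := by
    have h1 : ∀ᶠ q in 𝓝 P, dn q κ ∈ Gd ΩX B Bt :=
      (continuous_dn' κ).continuousAt.eventually (hGo.mem_nhds hκG)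
    obtain ⟨ε, hε, h3⟩ := Metric.eventually_nhds_iff_ball.1 h1
    exact ⟨min ε (r₁ / 2), lt_min hε (by linarith), min_le_right _ _, fun q hq =>
      h3 q (ball_subset_ball (min_le_left _ _) hq)⟩
  obtain ⟨q, hqε, hq2, hqX, hql⟩ := hsing ε hε
  -- vertical segments stay in the ball
  have hseg : ∀ q' ∈ ball P ε, ∀ τ ∈ Icc 0 κ, dn q' τ ∈ ball P r₁ := by
    intro q' hq' τ hτ
    rw [mem_ball, Prod.dist_eq, max_lt_iff] at hq' ⊢
    refine ⟨?_, by unfold dn; simp only; linarith [hq'.2]⟩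
    unfold dn
    simp only
    calc dist (q'.1 - τ * I) P.1 ≤ dist (q'.1 - τ * I) q'.1 + dist q'.1 P.1 := dist_triangle _ _ _
      _ < κ + r₁ / 2 := by
          refine add_lt_add_of_le_of_lt ?_ (by linarith [hq'.1])
          rw [dist_eq_norm, show q'.1 - τ * I - q'.1 = -((τ : ℂ) * I) by ring, norm_neg, norm_mul,
            Complex.norm_I, mul_one, Complex.norm_real, Real.norm_eq_abs, abs_of_nonneg hτ.1]
          exact hτ.2
      _ < r₁ := by linarith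
  have hqG : q ∉ Gd ΩX B Bt := fun h => hqX h.1
  obtain ⟨σ, hσ0, hσκ, hσ, hσ'⟩ := last_bad hGo hqG hκ0.le (hεG q hqε)
  set x : ℂ × ℂ := dn q σ with hx
  have hσI : σ ∈ Icc 0 κ := ⟨hσ0, hσκ.le⟩
  have hxb : x ∈ ball P r₁ := hseg q hqε σ hσI
  -- above `x` everything below is good
  have hxbelow : ∀ᶠ τ : ℝ in 𝓝[>] 0, dn x τ ∈ Gd ΩX B Bt := by
    have h1 : ∀ᶠ τ : ℝ in 𝓝[>] 0, τ ∈ Ioo (0 : ℝ) (κ - σ) := Ioo_mem_nhdsGT (by linarith)
    filter_upwards [h1] with τ hτ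
    rw [hx, dn_dn]
    exact hσ' _ (by linarith [hτ.1]) (by linarith [hτ.2])
  have hBx : AnalyticAt ℂ Bt x := hBt x (hsub hxb)
  -- `Im Bt x = h0`
  have hxle : (Bt x).im ≤ h0 := by
    have h1 : Tendsto (fun τ : ℝ => (Bt (dn x τ)).im) (𝓝[>] 0) (𝓝 (Bt x).im) := by
      have h2 : ContinuousAt (fun τ : ℝ => (Bt (dn x τ)).im) 0 := by
        have h3 : ContinuousAt Bt (dn x 0) := by rw [dn_zero]; exact hBx.continuousAt
        exact Complex.continuous_im.continuousAt.comp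
          (ContinuousAt.comp (f := dn x) h3 (continuous_dn x).continuousAt)
      have h3 := h2.tendsto
      rw [dn_zero] at h3
      exact h3.mono_left nhdsWithin_le_nhds
    refine le_of_tendsto h1 ?_
    filter_upwards [hxbelow] with τ hτ
    rw [hτ.2.self_of_nhds]
    exact (hB _ hτ.1).le
  have hxge : h0 ≤ (Bt x).im := by
    by_contra hcon
    push Not at hcon
    exact hσ (hmax x Bt hBx (abs_lt.2 ⟨hlow x hxb, hcon⟩) hxbelow)
  have hxeq : (Bt x).im = h0 := le_antisymm hxle hxge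
  -- the line is regular at `x`
  have hxl : (x.1 - x.2 / 2, x.2) ∈ Ωl := by
    have h1 := hstar _ hql σ hσ0 (by
      have e1 : ‖q.1 - P.1‖ < ε := by
        have := hqε; rw [mem_ball, Prod.dist_eq, max_lt_iff] at this
        rw [← dist_eq_norm]; exact this.1
      have e2 : ‖q.2 - P.2‖ < ε := by
        have := hqε; rw [mem_ball, Prod.dist_eq, max_lt_iff] at this
        rw [← dist_eq_norm]; exact this.2
      have e3 := (abs_lt.1 ((abs_im_le_norm (q.1 - P.1)).trans_lt e1)).1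
      have e4 := (abs_lt.1 ((abs_im_le_norm (q.2 - P.2)).trans_lt e2)).2
      have e5 : ∀ z : ℂ, (z / 2).im = z.im / 2 := fun z => by
        rw [show (2 : ℂ) = ((2 : ℝ) : ℂ) by norm_num, Complex.div_ofReal_im]
      simp only [sub_im, e5] at e3 e4 hr₁y ⊢
      linarith)
    have h2 : dn (q.1 - q.2 / 2, q.2) σ = (x.1 - x.2 / 2, x.2) := by
      rw [hx]; unfold dn; ext
      · simp only; ring
      · rfl
    rwa [h2] at h1
  -- the shifted line
  set s : ℂ × ℂ → ℂ × ℂ := fun y => (y.1 - y.2 / 2, y.2) with hs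
  have hsc : Continuous s := by rw [hs]; fun_prop
  have hsa : AnalyticAt ℂ s x := by
    rw [hs]
    exact (analyticAt_fst.sub (analyticAt_snd.div_const)).prod analyticAt_snd
  have hφx : AnalyticAt ℂ (fun y => φ (s y)) x :=
    AnalyticAt.comp (g := φ) (f := s) (hφ _ hxl) hsa
  have hpx : AnalyticAt ℂ (fun y => p (s y)) x :=
    AnalyticAt.comp (g := p) (f := s) (hp _ hxl) hsa
  have hsd : HasFDerivAt s ((ContinuousLinearMap.fst ℂ ℂ ℂ -
      (2⁻¹ : ℂ) • ContinuousLinearMap.snd ℂ ℂ ℂ).prod (ContinuousLinearMap.snd ℂ ℂ ℂ)) x := by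
    have h1 : HasFDerivAt (fun y : ℂ × ℂ => y.1 - y.2 / 2)
        (ContinuousLinearMap.fst ℂ ℂ ℂ - (2⁻¹ : ℂ) • ContinuousLinearMap.snd ℂ ℂ ℂ) x := by
      have h2 : HasFDerivAt (fun y : ℂ × ℂ => y.1) (ContinuousLinearMap.fst ℂ ℂ ℂ) x := hasFDerivAt_fst
      have h3 : HasFDerivAt (fun y : ℂ × ℂ => (2⁻¹ : ℂ) • y.2)
          ((2⁻¹ : ℂ) • ContinuousLinearMap.snd ℂ ℂ ℂ) x :=
        ((2⁻¹ : ℂ) • ContinuousLinearMap.snd ℂ ℂ ℂ).hasFDerivAt
      refine (h2.sub h3).congr_of_eventuallyEq (Eventually.of_forall fun y => ?_)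
      simp only [Pi.sub_apply, smul_eq_mul]; ring
    exact h1.prodMk hasFDerivAt_snd
  have hq12 : ∀ f : ℂ × ℂ → ℂ, AnalyticAt ℂ f (s x) →
      q1 (fun y => f (s y)) x = q1 f (s x) ∧
      q2 (fun y => f (s y)) x = -(2⁻¹ : ℂ) * q1 f (s x) + q2 f (s x) := by
    intro f hf
    have h1 := (hf.differentiableAt.hasFDerivAt.comp x hsd).fderiv
    have h1' : fderiv ℂ (fun y => f (s y)) x = (fderiv ℂ f (s x)).comp
      ((ContinuousLinearMap.fst ℂ ℂ ℂ -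
        (2⁻¹ : ℂ) • ContinuousLinearMap.snd ℂ ℂ ℂ).prod (ContinuousLinearMap.snd ℂ ℂ ℂ)) := h1
    unfold q1 q2
    rw [h1']
    constructor
    · simp
    · simp only [ContinuousLinearMap.comp_apply, ContinuousLinearMap.prod_apply,
        _root_.sub_apply, ContinuousLinearMap.coe_fst', _root_.smul_apply,
        ContinuousLinearMap.coe_snd', smul_eq_mul, mul_one, zero_sub]
      rw [show ((-(2⁻¹ : ℂ), (1 : ℂ)) : ℂ × ℂ) = (-(2⁻¹ : ℂ)) • ((1, 0) : ℂ × ℂ) + (0, 1) by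
        ext <;> simp, map_add, map_smul, smul_eq_mul]
  have harx : q1 (fun y => φ (s y)) x * q2 (fun y => p (s y)) x
      - q2 (fun y => φ (s y)) x * q1 (fun y => p (s y)) x ≠ 0 := by
    obtain ⟨e1, e2⟩ := hq12 φ (hφ _ hxl)
    obtain ⟨e3, e4⟩ := hq12 p (hp _ hxl)
    rw [e1, e2, e3, e4]
    have h1 := har _ hxl (by
      show x.2 ≠ 0
      rw [hx]; exact hq2)
    have h2 : s x = (x.1 - x.2 / 2, x.2) := rfl
    rw [← h2] at h1
    intro h3
    apply h1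
    linear_combination h3
  -- incidence near `x`
  have hinc' : ∀ᶠ y in 𝓝 x, |(Bt y).im| < h0 → Inc ψ H (φ (s y)) (p (s y)) (Bt y) := by
    -- `y` near `x`: the segment of length `κ - σ`
    have hκσ : 0 < κ - σ := by linarith
    have h1 : ∀ᶠ y in 𝓝 x, dn y (κ - σ) ∈ Gd ΩX B Bt := by
      refine (continuous_dn' (κ - σ)).continuousAt.eventually (hGo.mem_nhds ?_)
      show dn x (κ - σ) ∈ Gd ΩX B Bt
      rw [hx, dn_dn, show σ + (κ - σ) = κ by ring]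
      exact hεG q hqε
    have h2 : ∀ᶠ y in 𝓝 x, s y ∈ Ωl := hsc.continuousAt.eventually (hl.mem_nhds hxl)
    have h3 : ∀ᶠ y in 𝓝 x, ∀ τ ∈ Icc 0 (κ - σ), dn y τ ∈ ball P r₁ := by
      -- translate `y` back to the ball of radius `ε`
      have h4 : ∀ᶠ y in 𝓝 x, dn y (-σ) ∈ ball P ε := by
        refine (continuous_dn' (-σ)).continuousAt.eventually (isOpen_ball.mem_nhds ?_)
        show dn x (-σ) ∈ ball P ε
        rw [hx, dn_dn, add_neg_cancel, dn_zero]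
        exact hqε
      filter_upwards [h4] with y hy τ hτ
      have h5 := hseg _ hy (σ + τ) ⟨by linarith [hτ.1], by linarith [hτ.2]⟩
      rw [dn_dn, show -σ + (σ + τ) = τ by ring] at h5
      exact h5
    filter_upwards [h1, h2, h3] with y e1 e2 e3 e4
    have h5 : y ∈ Gd ΩX B Bt := by
      refine climb hX hmax hκσ.le (fun τ hτ => hBt _ (hsub (e3 τ hτ)))
        (fun τ hτ => hpos' _ (hsub (e3 τ hτ))) (fun τ hτ => hlow _ (e3 τ hτ)) e1
        (abs_lt.1 e4).2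
    have h6 := hinc y h5.1 e2
    rw [h5.2.self_of_nhds]
    exact h6
  refine face_strip hc hψ hH hrel (φ := fun y => φ (s y)) (p := fun y => p (s y)) (Bt := Bt)
    (x := x) ?_ hφx hpx hBx ?_ harx hinc' h0pos ?_
  · intro z hz
    exact hNB z (by rw [hz, hxeq])
  · intro h
    have := hpos' x (hsub hxb)
    rw [h] at this
    simp at this
  · rw [hxeq, abs_of_pos h0pos]


end Crest.Agent.R102.Step7559
end
end

-- ▼ part R102/Step7B_559

/-!
Row 102, T1-B, steps 6 + 7 on the official main sheets `K669.IsReg` (helper559): maximality of the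
main sheet of the label, star property, step 7 for the sheets.
-/

set_option autoImplicit false
set_option linter.unusedSectionVars false

open Set Filter Topology Metric Complex
open scoped Real

noncomputable section

namespace Crest.Agent.R102.Step7559

open Crest.Agent.R102.B821 Crest.Agent.R102.F300 Crest.Agent.R102.K669

section
variable {E : Type*} [NormedAddCommGroup E] [NormedSpace ℂ E] [CompleteSpace E]

/-- the main sheet above the level `y1` -/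
def Sh (F : ℂ × ℂ → E) (C : Set E) (y1 y0 : ℝ) (W : Set ℂ) : Set (ℂ × ℂ) :=
  {p | IsReg F C y1 y0 W p ∧ y1 < p.1.im}

variable {F : ℂ × ℂ → E} {C : Set E} {y1 y0 : ℝ} {W : Set ℂ}

theorem isOpen_Sh : IsOpen (Sh F C y1 y0 W) := by
  have h2 : Continuous (fun q : ℂ × ℂ => q.1.im) := by fun_prop
  exact isOpen_isReg.inter (isOpen_lt continuous_const h2)

theorem mem_W_of_Sh {p : ℂ × ℂ} (hp : p ∈ Sh F C y1 y0 W) : p.2 ∈ W := by
  obtain ⟨⟨ε, hε, hW, -⟩, -⟩ := hp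
  exact hW (mem_ball_self hε)


theorem analytic_Sh (h10 : y1 < y0) : AnalyticOnNhd ℂ (ext F C y1 y0 W) (Sh F C y1 y0 W) := by
  refine Crest.Agent.R266.SCV.analyticOnNhd_of_differentiableOn isOpen_Sh ?_
  intro p hp
  exact (ext_differentiableAt h10 hp.1 hp.2).differentiableWithinAt

/-- **maximality** (values in an open set `C`) -/
theorem maximal_Sh (h10 : y1 < y0) (hW : IsOpen W) (hF : DifferentiableOn ℂ F (Slab y1 y0 W))
    (hCo : IsOpen C) (hC : ∀ q ∈ Slab y1 y0 W, F q ∈ C) {q : ℂ × ℂ} (hq1 : y1 < q.1.im)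
    (hqW : q.2 ∈ W) {G : ℂ × ℂ → E} (hG : AnalyticAt ℂ G q) (hGC : G q ∈ C)
    (hlow : ∀ᶠ τ : ℝ in 𝓝[>] 0, dn q τ ∈ Sh F C y1 y0 W ∧
      G =ᶠ[𝓝 (dn q τ)] ext F C y1 y0 W) :
    q ∈ Sh F C y1 y0 W ∧ G =ᶠ[𝓝 q] ext F C y1 y0 W := by
  -- a ball on which `G` is holomorphic with values in `C`
  obtain ⟨N, hN, hNo, hqN⟩ : ∃ N : Set (ℂ × ℂ), (∀ z ∈ N, AnalyticAt ℂ G z ∧ G z ∈ C) ∧
      IsOpen N ∧ q ∈ N := by
    have h1 : ∀ᶠ z in 𝓝 q, AnalyticAt ℂ G z ∧ G z ∈ C :=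
      hG.eventually_analyticAt.and (hG.continuousAt.eventually (hCo.mem_nhds hGC))
    obtain ⟨N, h2, h3, h4⟩ := _root_.eventually_nhds_iff.1 h1
    exact ⟨N, h2, h3, h4⟩
  have hreg : IsReg F C y1 y0 W q := by
    refine isReg_of_local h10 hW hF hC hq1 hNo hqN
      (fun z hz => (hN z hz).1.differentiableAt.differentiableWithinAt) (fun z hz => (hN z hz).2)
      hqW ?_
    intro η hη
    have h1 : ∀ᶠ τ : ℝ in 𝓝[>] 0, τ ∈ Ioo (0 : ℝ) η := Ioo_mem_nhdsGT hη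
    obtain ⟨τ, h2, h3, h4⟩ := (h1.and hlow).exists
    refine ⟨q.1.im - τ, by linarith [h2.2], by linarith [h2.1], ?_⟩
    have h5 : ((⟨q.1.re, q.1.im - τ⟩ : ℂ), q.2) = dn q τ := by
      unfold dn; ext
      · apply Complex.ext <;> simp
      · rfl
    rw [h5]
    have h6 : ∀ᶠ z in 𝓝 (dn q τ), z ∈ Sh F C y1 y0 W := isOpen_Sh.mem_nhds h3
    filter_upwards [h6, h4] with z h7 h8
    exact ⟨h7.1, h8⟩
  refine ⟨⟨hreg, hq1⟩, ?_⟩
  -- identity theorem on a ball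
  have hSh : q ∈ Sh F C y1 y0 W := ⟨hreg, hq1⟩
  obtain ⟨ρ, hρ, hρN⟩ := Metric.isOpen_iff.1 (hNo.inter (isOpen_Sh (F := F) (C := C) (y1 := y1)
    (y0 := y0) (W := W))) q ⟨hqN, hSh⟩
  have h1 : ∀ᶠ τ : ℝ in 𝓝[>] 0, τ ∈ Ioo (0 : ℝ) ρ := Ioo_mem_nhdsGT hρ
  obtain ⟨τ, h2, h3, h4⟩ := (h1.and hlow).exists
  have h5 : dn q τ ∈ ball q ρ := by
    rw [mem_ball, Prod.dist_eq, max_lt_iff]
    unfold dn
    refine ⟨?_, by simpa using hρ⟩
    simp only
    rw [dist_eq_norm, show q.1 - τ * I - q.1 = -((τ : ℂ) * I) by ring, norm_neg, norm_mul,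
      Complex.norm_I, mul_one, Complex.norm_real, Real.norm_eq_abs, abs_of_pos h2.1]
    exact h2.2
  have h6 : EqOn G (ext F C y1 y0 W) (ball q ρ) := by
    refine AnalyticOnNhd.eqOn_of_preconnected_of_eventuallyEq (fun z hz => (hN z (hρN hz).1).1)
      (fun z hz => analytic_Sh h10 z (hρN hz).2) (convex_ball q ρ).isPreconnected h5 h4
  filter_upwards [ball_mem_nhds q hρ] with z hz
  exact h6 hz

end

/-- maximality in the form of step 7 -/
theorem maxi_Sh {F : ℂ × ℂ → ℂ} {h0 y1 y0 : ℝ} {W : Set ℂ} (h10 : y1 < y0) (hW : IsOpen W)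
    (hF : DifferentiableOn ℂ F (Slab y1 y0 W)) (hC : ∀ q ∈ Slab y1 y0 W, |(F q).im| < h0)
    {q : ℂ × ℂ} {Bt : ℂ × ℂ → ℂ} (hBt : AnalyticAt ℂ Bt q) (hq : |(Bt q).im| < h0)
    (hlow : ∀ᶠ τ : ℝ in 𝓝[>] 0, dn q τ ∈ Gd (Sh F {z : ℂ | |z.im| < h0} y1 y0 W)
      (ext F {z : ℂ | |z.im| < h0} y1 y0 W) Bt) (hq1 : y1 < q.1.im) :
    q ∈ Gd (Sh F {z : ℂ | |z.im| < h0} y1 y0 W) (ext F {z : ℂ | |z.im| < h0} y1 y0 W) Bt := by
  have hCo : IsOpen {z : ℂ | |z.im| < h0} :=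
    isOpen_lt (continuous_abs.comp Complex.continuous_im) continuous_const
  have hqW : q.2 ∈ W := by
    obtain ⟨τ, hτ⟩ := hlow.exists
    exact mem_W_of_Sh (p := dn q τ) hτ.1
  exact maximal_Sh h10 hW hF hCo hC hq1 hqW hBt hq hlow

theorem Maxi_Sh {F : ℂ × ℂ → ℂ} {h0 y1 y0 : ℝ} {W : Set ℂ} (h10 : y1 < y0) (hW : IsOpen W)
    (hF : DifferentiableOn ℂ F (Slab y1 y0 W)) (hC : ∀ q ∈ Slab y1 y0 W, |(F q).im| < h0) :
    Maxi h0 (Sh F {z : ℂ | |z.im| < h0} y1 y0 W) (ext F {z : ℂ | |z.im| < h0} y1 y0 W) := by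
  intro q Bt hBt hq hlow
  refine maxi_Sh h10 hW hF hC hBt hq hlow ?_
  have h0' : ∀ᶠ τ : ℝ in 𝓝[>] 0, τ ∈ Ioi (0 : ℝ) := self_mem_nhdsWithin
  obtain ⟨τ, h1, h2⟩ := (h0'.and hlow).exists
  have h3 := h2.1.2
  have h4 : (dn q τ).1.im = q.1.im - τ := by unfold dn; simp
  rw [h4] at h3
  have h5 : 0 < τ := h1
  linarith

end Crest.Agent.R102.Step7559
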