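import Mathlib
import Crest.Agent.R102.SpineDefs_478
import Crest.Agent.R102.KontD_669
import Crest.Agent.R102.Step7B_559_Mg
import Crest.Agent.R102.LVB_669

-- ▼ part R102/T1BOutA_559
section

/-!
Row 102, T1-B, outer joint, part A (helper559): the bridge between the regularity of the spine
(`Spine.RegAt`, vertical tubes from the real line) and the official sheets (`K669.IsReg`).
-/

set_option autoImplicit false

open Set Filter Topology Metric
open scoped ComplexConjugate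

noncomputable section

namespace Crest.Agent.R102.Out559

open Crest.Agent.R102.T5 Crest.Agent.R102.C0 Crest.Agent.R102.C1 Crest.Agent.R102.K669

variable {ρ r y1 y0 r' : ℝ}

/-- the sheet of the lines -/
def OmL (φ p : ℂ × ℂ → ℂ) (y1 y0 r' : ℝ) : Set (ℂ × ℂ) :=
  {x | IsReg (fun x => (φ x, p x)) (univ : Set (ℂ × ℂ)) y1 y0 (ball 0 r') x}

/-- the sheet of the labels -/
def OmX (b : ℂ × ℂ → ℂ) (S : Set ℂ) (y1 y0 r' : ℝ) : Set (ℂ × ℂ) :=
  {x | IsReg b S y1 y0 (ball 0 r') x}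

lemma isOpen_OmL {φ p : ℂ × ℂ → ℂ} : IsOpen (OmL φ p y1 y0 r') := isOpen_isReg

lemma isOpen_OmX {b : ℂ × ℂ → ℂ} {S : Set ℂ} : IsOpen (OmX b S y1 y0 r') := isOpen_isReg

lemma slab_sub (h1 : -ρ ≤ y1) (h0 : y0 ≤ ρ) (hr : r' ≤ r) :
    Slab y1 y0 (ball 0 r') ⊆ PD ρ r := by
  rintro ⟨t, w⟩ ⟨a1, a2, a3⟩
  refine ⟨abs_lt.2 ⟨lt_of_le_of_lt h1 a1, lt_of_lt_of_le a2 h0⟩, ?_⟩
  rw [mem_ball_zero_iff] at a3
  exact lt_of_lt_of_le a3 hr

lemma isOpen_PD : IsOpen (PD ρ r) := by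
  have h1 : Continuous (fun q : ℂ × ℂ => |q.1.im|) := by fun_prop
  have h2 : Continuous (fun q : ℂ × ℂ => ‖q.2‖) := by fun_prop
  exact (isOpen_lt h1 continuous_const).inter (isOpen_lt h2 continuous_const)

lemma isOpen_STube {s w0 : ℂ} {e : ℝ} : IsOpen (Spine.Tube s w0 e) := by
  have h1 : Continuous (fun q : ℂ × ℂ => |q.1.re - s.re|) := by fun_prop
  have h2 : Continuous (fun q : ℂ × ℂ => q.1.im) := by fun_prop
  have h3 : Continuous (fun q : ℂ × ℂ => ‖q.2 - w0‖) := by fun_prop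
  exact IsOpen.inter (isOpen_lt h1 continuous_const) (IsOpen.inter
    (isOpen_lt continuous_const h2) (IsOpen.inter
    (isOpen_lt h2 continuous_const) (isOpen_lt h3 continuous_const)))

/-- from the spine to the sheet -/
lemma isReg_of_regAt {f : ℂ × ℂ → ℂ} {V : Set ℂ} (hf : DifferentiableOn ℂ f (PD ρ r))
    (hV : ∀ x ∈ PD ρ r, f x ∈ V) (hρ : 0 < ρ) (h1 : -ρ ≤ y1) (h0 : y0 ≤ ρ) (hr : r' ≤ r)
    {s w0 : ℂ} (hw : ‖w0‖ < r') (h : Spine.RegAt ρ r f V s w0) :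
    IsReg f V y1 y0 (ball 0 r') (s, w0) := by
  obtain ⟨e, he, G, hG, hGV, hGf⟩ := h
  classical
  set ε := min e (r' - ‖w0‖) with hε
  have hε0 : 0 < ε := lt_min he (by linarith)
  have hεe : ε ≤ e := min_le_left _ _
  have hεr : ε ≤ r' - ‖w0‖ := min_le_right _ _
  have hball : ball w0 ε ⊆ ball 0 r' := by
    intro z hz
    rw [mem_ball, dist_eq_norm] at hz
    rw [mem_ball_zero_iff]
    have := norm_add_le (z - w0) w0
    rw [sub_add_cancel] at this
    linarith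
  -- points of the tube
  have hT : ∀ x ∈ K669.Tube y1 (s, w0) ε, -e < x.1.im → x ∈ Spine.Tube s w0 e := by
    rintro x ⟨a1, a2, a3, a4⟩ h
    exact ⟨a1.trans_le hεe, h, lt_of_lt_of_le a3 (by simpa using hεe), a4.trans_le hεe⟩
  have hn : ∀ x ∈ K669.Tube y1 (s, w0) ε, ‖x.2‖ < r := by
    rintro x ⟨a1, a2, a3, a4⟩
    have h2 : x.2 ∈ ball w0 ε := by rw [mem_ball, dist_eq_norm]; exact a4
    have h3 := hball h2
    rw [mem_ball_zero_iff] at h3
    exact lt_of_lt_of_le h3 hr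
  have hP : ∀ x ∈ K669.Tube y1 (s, w0) ε, x.1.im < ρ → x ∈ PD ρ r := by
    intro x hx h
    exact ⟨abs_lt.2 ⟨lt_of_le_of_lt h1 hx.2.1, h⟩, hn x hx⟩
  refine ⟨ε, hε0, hball, fun x => if x.1.im < 0 then f x else G x, ?_, ?_, ?_⟩
  · intro x hx
    refine DifferentiableAt.differentiableWithinAt ?_
    have hto := (isOpen_tube y1 (s, w0) ε).mem_nhds hx
    have hc : Continuous (fun z : ℂ × ℂ => z.1.im) := by fun_prop
    rcases lt_or_ge x.1.im 0 with hneg | hpos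
    · have h2 : DifferentiableAt ℂ f x :=
        hf.differentiableAt (isOpen_PD.mem_nhds (hP x hx (by linarith)))
      refine h2.congr_of_eventuallyEq ?_
      filter_upwards [(isOpen_lt hc continuous_const).mem_nhds hneg] with z hz
      have hz' : z.1.im < 0 := hz
      simp only [if_pos hz']
    · have h2 : DifferentiableAt ℂ G x :=
        hG.differentiableAt (isOpen_STube.mem_nhds (hT x hx (by linarith)))
      refine h2.congr_of_eventuallyEq ?_
      have h3 : {z : ℂ × ℂ | -e < z.1.im} ∈ 𝓝 x :=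
        (isOpen_lt continuous_const hc).mem_nhds (by change -e < x.1.im; linarith)
      filter_upwards [h3, hto] with z hz hzt
      split_ifs with h4
      · exact (hGf z (hT z hzt hz) (hP z hzt (by linarith))).symm
      · rfl
  · intro x hx
    by_cases h4 : x.1.im < 0
    · simp only [if_pos h4]
      exact hV x (hP x hx (by linarith))
    · simp only [if_neg h4]
      exact hGV x (hT x hx (by push Not at h4; linarith))
  · intro x hx hx0
    by_cases h4 : x.1.im < 0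
    · simp only [if_pos h4]
    · simp only [if_neg h4]
      exact hGf x (hT x hx (by push Not at h4; linarith)) (hP x hx (lt_of_lt_of_le hx0 h0))

/-- a thin rectangle is convex -/
lemma convex_rect (a b c d : ℝ) : Convex ℝ {t : ℂ | a < t.re ∧ t.re < b ∧ c < t.im ∧ t.im < d} := by
  have : {t : ℂ | a < t.re ∧ t.re < b ∧ c < t.im ∧ t.im < d} =
      ({t : ℂ | a < t.re} ∩ {t : ℂ | t.re < b}) ∩ ({t : ℂ | c < t.im} ∩ {t : ℂ | t.im < d}) := by
    ext t
    simp only [mem_inter_iff, Set.mem_ofPred_eq]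
    tauto
  rw [this]
  exact ((convex_halfSpace_re_gt _).inter (convex_halfSpace_re_lt _)).inter
    ((convex_halfSpace_im_gt _).inter (convex_halfSpace_im_lt _))

lemma isOpen_rect (a b c d : ℝ) : IsOpen {t : ℂ | a < t.re ∧ t.re < b ∧ c < t.im ∧ t.im < d} :=
  (isOpen_lt continuous_const Complex.continuous_re).inter
    ((isOpen_lt Complex.continuous_re continuous_const).inter
      ((isOpen_lt continuous_const Complex.continuous_im).inter
        (isOpen_lt Complex.continuous_im continuous_const)))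

/-- from the sheet to the spine -/
lemma regAt_of_isReg {f : ℂ × ℂ → ℂ} {V : Set ℂ} (hf : DifferentiableOn ℂ f (PD ρ r))
    (hy1 : y1 < 0) (hy0 : 0 < y0) {s w0 : ℂ}
    (h : IsReg f V y1 y0 (ball 0 r') (s, w0)) : Spine.RegAt ρ r f V s w0 := by
  obtain ⟨ε, hε, hball, G, hG, hGV, hGf⟩ := h
  set e := min ε (-y1) with he
  have he0 : 0 < e := lt_min hε (by linarith)
  have heε : e ≤ ε := min_le_left _ _
  have hey : e ≤ -y1 := min_le_right _ _
  have hT : ∀ x ∈ Spine.Tube s w0 e, x ∈ K669.Tube y1 (s, w0) ε := by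
    rintro x ⟨a1, a2, a3, a4⟩
    exact ⟨a1.trans_le heε, by linarith, by simp only; linarith, a4.trans_le heε⟩
  refine ⟨e, he0, G, hG.mono hT, fun x hx => hGV x (hT x hx), ?_⟩
  intro x hx hxP
  rcases lt_or_ge x.1.im y0 with hlt | hge
  · exact hGf x (hT x hx) hlt
  -- identity theorem on the vertical slice
  set A : Set ℂ := {t | s.re - e < t.re ∧ t.re < s.re + e ∧ -e < t.im ∧ t.im < s.im + e} ∩
    {t | s.re - e < t.re ∧ t.re < s.re + e ∧ -ρ < t.im ∧ t.im < ρ} with hA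
  have hAc : Convex ℝ A := (convex_rect _ _ _ _).inter (convex_rect _ _ _ _)
  have hAo : IsOpen A := (isOpen_rect _ _ _ _).inter (isOpen_rect _ _ _ _)
  have hAT : ∀ t ∈ A, ((t, x.2) : ℂ × ℂ) ∈ Spine.Tube s w0 e := by
    rintro t ⟨⟨a1, a2, a3, a4⟩, -⟩
    exact ⟨abs_lt.2 ⟨by simp only; linarith, by simp only; linarith⟩, a3, a4, hx.2.2.2⟩
  have hAP : ∀ t ∈ A, ((t, x.2) : ℂ × ℂ) ∈ PD ρ r := by
    rintro t ⟨-, ⟨a1, a2, a3, a4⟩⟩
    exact ⟨abs_lt.2 ⟨a3, a4⟩, hxP.2⟩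
  have hx1 := abs_lt.1 hx.1
  have hxP1 := abs_lt.1 hxP.1
  have hxA : x.1 ∈ A := ⟨⟨by linarith, by linarith, hx.2.1, hx.2.2.1⟩,
    ⟨by linarith, by linarith, hxP1.1, hxP1.2⟩⟩
  set tb : ℂ := ⟨x.1.re, y0 / 2⟩ with htb
  have htbA : tb ∈ A := by
    refine ⟨⟨?_, ?_, ?_, ?_⟩, ⟨?_, ?_, ?_, ?_⟩⟩
    · simp only [htb]; linarith
    · simp only [htb]; linarith
    · simp only [htb]; linarith
    · have := hx.2.2.1
      simp only [htb]; linarith
    · simp only [htb]; linarith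
    · simp only [htb]; linarith
    · simp only [htb]; linarith
    · simp only [htb]; linarith
  have hs1 : AnalyticOnNhd ℂ (fun t => G (t, x.2)) A := by
    refine DifferentiableOn.analyticOnNhd ?_ hAo
    intro t ht
    exact (DifferentiableAt.comp (g := G) (f := fun t : ℂ => ((t, x.2) : ℂ × ℂ)) t
      (hG.differentiableAt ((isOpen_tube y1 (s, w0) ε).mem_nhds (hT _ (hAT t ht))))
      (by fun_prop)).differentiableWithinAt
  have hs2 : AnalyticOnNhd ℂ (fun t => f (t, x.2)) A := by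
    refine DifferentiableOn.analyticOnNhd ?_ hAo
    intro t ht
    exact (DifferentiableAt.comp (g := f) (f := fun t : ℂ => ((t, x.2) : ℂ × ℂ)) t
      (hf.differentiableAt (isOpen_PD.mem_nhds (hAP t ht)))
      (by fun_prop)).differentiableWithinAt
  have hev : (fun t => G (t, x.2)) =ᶠ[𝓝 tb] (fun t => f (t, x.2)) := by
    have h3 : {t : ℂ | t.im < y0} ∈ 𝓝 tb :=
      (isOpen_lt Complex.continuous_im continuous_const).mem_nhds (by
        change y0 / 2 < y0; linarith)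
    filter_upwards [h3, hAo.mem_nhds htbA] with t ht htA
    exact hGf _ (hT _ (hAT t htA)) ht
  exact hs1.eqOn_of_preconnected_of_eventuallyEq hs2 hAc.isPreconnected htbA hev hxA

/-- **the bridge** -/
theorem regAt_iff {f : ℂ × ℂ → ℂ} {V : Set ℂ} (hf : DifferentiableOn ℂ f (PD ρ r))
    (hV : ∀ x ∈ PD ρ r, f x ∈ V) (hρ : 0 < ρ) (h1 : -ρ ≤ y1) (hy1 : y1 < 0) (hy0 : 0 < y0)
    (h0 : y0 ≤ ρ) (hr : r' ≤ r) {s w0 : ℂ} (hw : ‖w0‖ < r') :
    Spine.RegAt ρ r f V s w0 ↔ IsReg f V y1 y0 (ball 0 r') (s, w0) :=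
  ⟨isReg_of_regAt hf hV hρ h1 h0 hr hw, regAt_of_isReg hf hy1 hy0⟩

/-- pairs -/
lemma isReg_pair {f g : ℂ × ℂ → ℂ} {W : Set ℂ} {x : ℂ × ℂ} :
    IsReg (fun x => (f x, g x)) (univ : Set (ℂ × ℂ)) y1 y0 W x ↔
      IsReg f univ y1 y0 W x ∧ IsReg g univ y1 y0 W x := by
  constructor
  · rintro ⟨ε, hε, hW, G, hG, -, hGF⟩
    refine ⟨⟨ε, hε, hW, fun z => (G z).1, fun z hz => (hG z hz).fst, fun _ _ => mem_univ _, ?_⟩,
      ⟨ε, hε, hW, fun z => (G z).2, fun z hz => (hG z hz).snd, fun _ _ => mem_univ _, ?_⟩⟩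
    · intro z hz h
      have := hGF z hz h
      simp only at this ⊢
      rw [this]
    · intro z hz h
      have := hGF z hz h
      simp only at this ⊢
      rw [this]
  · rintro ⟨⟨ε, hε, hW, G, hG, -, hGF⟩, ⟨ε', hε', hW', G', hG', -, hGF'⟩⟩
    have s1 : K669.Tube y1 x (min ε ε') ⊆ K669.Tube y1 x ε := tube_mono (min_le_left _ _)
    have s2 : K669.Tube y1 x (min ε ε') ⊆ K669.Tube y1 x ε' := tube_mono (min_le_right _ _)
    refine ⟨min ε ε', lt_min hε hε', (ball_subset_ball (min_le_left _ _)).trans hW,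
      fun z => (G z, G' z), (hG.mono s1).prodMk (hG'.mono s2), fun _ _ => mem_univ _, ?_⟩
    intro z hz h
    have e1 := hGF z (s1 hz) h
    have e2 := hGF' z (s2 hz) h
    simp only
    rw [e1, e2]

/-- **the bridge for the lines** -/
theorem regL_iff {φ p : ℂ × ℂ → ℂ} (hφ : DifferentiableOn ℂ φ (PD ρ r))
    (hp : DifferentiableOn ℂ p (PD ρ r)) (hρ : 0 < ρ) (h1 : -ρ ≤ y1) (hy1 : y1 < 0) (hy0 : 0 < y0)
    (h0 : y0 ≤ ρ) (hr : r' ≤ r) {s w0 : ℂ} (hw : ‖w0‖ < r') :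
    Spine.RegL ρ r φ p s w0 ↔ (s, w0) ∈ OmL φ p y1 y0 r' := by
  unfold Spine.RegL OmL
  rw [regAt_iff hφ (fun _ _ => mem_univ _) hρ h1 hy1 hy0 h0 hr hw,
    regAt_iff hp (fun _ _ => mem_univ _) hρ h1 hy1 hy0 h0 hr hw]
  exact isReg_pair.symm

end Crest.Agent.R102.Out559
end
end

-- ▼ part R102/T1BOutB_559
section

/-!
Row 102, T1-B, outer joint, part B (helper559): heights.  A label function `β` on a strip
`a < Im < h` with `β(z+1) = β(z)+1`, real on the real line and `Im β < h0` has `h ≤ h0`.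
-/

set_option autoImplicit false

open Set Filter Topology Metric MeasureTheory
open scoped ComplexConjugate

noncomputable section

namespace Crest.Agent.R102.Out559

open Crest.Agent.R102.T5 Crest.Agent.R102.C0 Crest.Agent.R102.C1 Crest.Agent.R102.K669

/-- periodic functions on a strip: the integral over a period does not depend on the line -/
theorem strip_mean {g : ℂ → ℂ} {a b : ℝ} (hg : DifferentiableOn ℂ g {z | a < z.im ∧ z.im < b})
    (hper : ∀ z : ℂ, a < z.im → z.im < b → g (z + 1) = g z) {s s' : ℂ} (hs : a < s.im)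
    (hs1 : s.im < b) (hs' : a < s'.im) (hs1' : s'.im < b) :
    ∫ x in (0 : ℝ)..1, g (x + s) = ∫ x in (0 : ℝ)..1, g (x + s') := by
  set c : ℂ := ((a + b) / 2 : ℝ) * Complex.I with hc
  have hcim : c.im = (a + b) / 2 := by rw [hc]; simp
  set g1 : ℂ → ℂ := fun z => g (z + c) with hg1
  have hd : DifferentiableOn ℂ g1 {z | |z.im| < (b - a) / 2} := by
    intro z hz
    have hz' := abs_lt.1 (show |z.im| < (b - a) / 2 from hz)
    refine DifferentiableAt.differentiableWithinAt ?_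
    have hm : z + c ∈ {z : ℂ | a < z.im ∧ z.im < b} := by
      constructor
      · simp only [Complex.add_im, hcim]; linarith
      · simp only [Complex.add_im, hcim]; linarith
    have ho : IsOpen {z : ℂ | a < z.im ∧ z.im < b} :=
      (isOpen_lt continuous_const Complex.continuous_im).inter
        (isOpen_lt Complex.continuous_im continuous_const)
    exact DifferentiableAt.comp (g := g) (f := fun z => z + c) z
      (hg.differentiableAt (ho.mem_nhds hm)) (by fun_prop)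
  have hp : ∀ z : ℂ, |z.im| < (b - a) / 2 → g1 (z + 1) = g1 z := by
    intro z hz
    have hz' := abs_lt.1 hz
    simp only [hg1]
    rw [show z + 1 + c = (z + c) + 1 by ring]
    exact hper _ (by simp only [Complex.add_im, hcim]; linarith)
      (by simp only [Complex.add_im, hcim]; linarith)
  have key : ∀ s : ℂ, a < s.im → s.im < b →
      ∫ x in (0 : ℝ)..1, g (x + s) = ∫ x in (0 : ℝ)..1, g1 x := by
    intro s h1 h2
    rw [← B821.strip_shift hd hp (s := s - c) (by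
      rw [Complex.sub_im, hcim, abs_lt]; constructor <;> linarith)]
    refine intervalIntegral.integral_congr (fun x _ => ?_)
    simp only [hg1]
    congr 1
    ring
  rw [key s hs hs1, key s' hs' hs1']

/-- **the height of the label sheet is at most `h0`** -/
theorem height_le {β : ℂ → ℂ} {a h h0 : ℝ} (ha : a < 0)
    (hd : DifferentiableOn ℂ β {z | a < z.im ∧ z.im < h})
    (hper : ∀ z : ℂ, a < z.im → z.im < h → β (z + 1) = β z + 1)
    (hreal : ∀ x : ℝ, (β x).im = 0)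
    (hb : ∀ z : ℂ, a < z.im → z.im < h → (β z).im < h0) (h0p : 0 < h0) : h ≤ h0 := by
  by_contra hcon
  push Not at hcon
  have hS : IsOpen {z : ℂ | a < z.im ∧ z.im < h} :=
    (isOpen_lt continuous_const Complex.continuous_im).inter
      (isOpen_lt Complex.continuous_im continuous_const)
  set s : ℂ := (h0 : ℂ) * Complex.I with hs
  have hsim : s.im = h0 := by rw [hs]; simp
  have h1 := strip_mean (g := fun z => β z - z) (a := a) (b := h) (hd.sub differentiableOn_id)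
    (by
      intro z h1 h2
      rw [hper z h1 h2]; ring) (s := s) (s' := 0) (by rw [hsim]; linarith) (by rw [hsim]; exact hcon)
    (by simpa using ha) (by simp; linarith)
  -- continuity on horizontal lines
  have hcont : ∀ s : ℂ, a < s.im → s.im < h → Continuous (fun x : ℝ => β (x + s)) := by
    intro s h2 h3
    rw [continuous_iff_continuousAt]
    intro x
    have hm : (x : ℂ) + s ∈ {z : ℂ | a < z.im ∧ z.im < h} := by
      constructor
      · simpa using h2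
      · simpa using h3
    exact ContinuousAt.comp (g := β) (f := fun x : ℝ => (x : ℂ) + s)
      (hd.differentiableAt (hS.mem_nhds hm)).continuousAt (by fun_prop)
  have him : ∀ s : ℂ, a < s.im → s.im < h →
      (∫ x in (0 : ℝ)..1, (β (x + s) - (x + s))).im =
        (∫ x in (0 : ℝ)..1, (β (x + s)).im) - s.im := by
    intro s h2 h3
    have hc2 : Continuous (fun x : ℝ => β (x + s) - ((x : ℂ) + s)) :=
      (hcont s h2 h3).sub (by fun_prop)
    have e1 : (∫ x in (0 : ℝ)..1, (β (x + s) - (x + s))).im =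
        ∫ x in (0 : ℝ)..1, (β (x + s) - (x + s)).im := by
      have := Complex.imCLM.intervalIntegral_comp_comm (hc2.intervalIntegrable (μ := volume) 0 1)
      simpa using this.symm
    rw [e1]
    have e2 : (∫ x in (0 : ℝ)..1, (β (x + s) - (x + s)).im) =
        ∫ x in (0 : ℝ)..1, ((β (x + s)).im - s.im) := by
      refine intervalIntegral.integral_congr (fun x _ => ?_)
      simp
    have hci : Continuous (fun x : ℝ => (β (x + s)).im) :=
      Complex.continuous_im.comp (hcont s h2 h3)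
    rw [e2, intervalIntegral.integral_sub (hci.intervalIntegrable 0 1)
      (continuous_const.intervalIntegrable 0 1)]
    simp
  have h2 := congrArg Complex.im h1
  rw [him s (by rw [hsim]; linarith) (by rw [hsim]; exact hcon),
    him 0 (by simpa using ha) (by simp; linarith), hsim] at h2
  have h3 : (∫ x in (0 : ℝ)..1, (β (x + (0 : ℂ))).im) = 0 := by
    have : ∀ x : ℝ, (β (x + (0 : ℂ))).im = 0 := by
      intro x
      rw [add_zero]; exact hreal x
    simp only [this, intervalIntegral.integral_zero]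
  rw [h3] at h2
  have h4 : (∫ x in (0 : ℝ)..1, (β (x + s)).im) < ∫ _x in (0 : ℝ)..1, h0 := by
    have hlt : ∀ x : ℝ, (β (x + s)).im < h0 := by
      intro x
      refine hb _ ?_ ?_
      · rw [Complex.add_im, hsim]; simp; linarith
      · rw [Complex.add_im, hsim]; simpa using hcon
    refine intervalIntegral.integral_lt_integral_of_continuousOn_of_le_of_exists_lt one_pos
      (Complex.continuous_im.comp (hcont s (by rw [hsim]; linarith)
        (by rw [hsim]; exact hcon))).continuousOn continuousOn_const (fun x _ => (hlt x).le)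
      ⟨0, by simp, hlt 0⟩
  simp at h4 h2
  linarith

end Crest.Agent.R102.Out559
end
end

-- ▼ part R102/T1BOut_559
section

/-!
Row 102, T1-B, **the outer joint** (helper559): `Spine.T1B` from the statement

  not (for a.e. real `u ∈ (0, r')`: no point at the height `U(u)` of the first singular line is
  regular for the lines `l(·, u)`)

on the official sheets `OmL`, `OmX` (`K669.IsReg`), plus rule 3 (lines at `t ∓ u/2` regular
⟹ label at `t` regular).
-/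

set_option autoImplicit false

open Set Filter Topology Metric MeasureTheory
open scoped ComplexConjugate

noncomputable section

namespace Crest.Agent.R102.Out559

open Crest.Agent.R102.T5 Crest.Agent.R102.C0 Crest.Agent.R102.C1 Crest.Agent.R102.K669

/-- `u` is nice: below some height `0 < U ≤ h0` the lines and the labels are regular, and no point
at height `U` is regular for the lines -/
def Nn (b φ p : ℂ × ℂ → ℂ) (S : Set ℂ) (y1 y0 r' h0 : ℝ) (u : ℝ) : Prop :=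
  ∃ U : ℝ, 0 < U ∧ U ≤ h0 ∧
    (∀ s : ℂ, 0 ≤ s.im → s.im < U →
      (s, (u : ℂ)) ∈ OmL φ p y1 y0 r' ∧ (s, (u : ℂ)) ∈ OmX b S y1 y0 r') ∧
    ∀ s : ℂ, s.im = U → (s, (u : ℂ)) ∉ OmL φ p y1 y0 r'

/-- rule 3 at the real width `u` (weak form) -/
def Rule3 (b φ p : ℂ × ℂ → ℂ) (S : Set ℂ) (y1 y0 r' : ℝ) (u : ℝ) : Prop :=
  ∀ t : ℂ, 0 < t.im →
    (∀ t' : ℂ, t'.re = t.re → t'.im < t.im → (t', (u : ℂ)) ∈ OmX b S y1 y0 r') →
    (t - u / 2, (u : ℂ)) ∈ OmL φ p y1 y0 r' → (t + u / 2, (u : ℂ)) ∈ OmL φ p y1 y0 r' →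
    (t, (u : ℂ)) ∈ OmX b S y1 y0 r'

section

variable {q : C(ℂ, ℂ)} {η ρ r B : ℝ} {b φ p : ℂ × ℂ → ℂ} {m₀ : ℂ → ℂ} {h0 y1 y0 r' : ℝ}

lemma b_mem_Str (hL : LineFam q η ρ r B b φ p m₀) (hle : η ≤ h0) :
    ∀ x ∈ PD ρ r, b x ∈ Str h0 := by
  intro x hx
  have h1 := hL.b_mem x hx
  have h2 := hL.ρ_lt
  change |(b x).im| < h0
  linarith

lemma slab_OmL (hL : LineFam q η ρ r B b φ p m₀) (h1 : -ρ ≤ y1) (h0' : y0 ≤ ρ) (hr : r' ≤ r)
    {s w : ℂ} (hs : s.im < y0) (hw : ‖w‖ < r') : (s, w) ∈ OmL φ p y1 y0 r' := by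
  refine isReg_of_slab isOpen_ball ?_ (fun _ _ => mem_univ _) hs (by simpa using hw)
  have hsub := slab_sub (y1 := y1) (y0 := y0) h1 h0' hr
  exact (hL.φ_diff.mono hsub).prodMk (hL.p_diff.mono hsub)

lemma slab_OmX (hL : LineFam q η ρ r B b φ p m₀) (hle : η ≤ h0) (h1 : -ρ ≤ y1) (h0' : y0 ≤ ρ)
    (hr : r' ≤ r) {s w : ℂ} (hs : s.im < y0) (hw : ‖w‖ < r') :
    (s, w) ∈ OmX b (Str h0) y1 y0 r' := by
  have hsub := slab_sub (y1 := y1) (y0 := y0) h1 h0' hr
  exact isReg_of_slab isOpen_ball (hL.b_diff.mono hsub)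
    (fun x hx => b_mem_Str hL hle x (hsub hx)) hs (by simpa using hw)

lemma OmL_add_int (hL : LineFam q η ρ r B b φ p m₀) (h1 : -ρ ≤ y1) (h0' : y0 ≤ ρ) (hr : r' ≤ r)
    {t w : ℂ} (n : ℤ) : (t + n, w) ∈ OmL φ p y1 y0 r' ↔ (t, w) ∈ OmL φ p y1 y0 r' := by
  have hsub := slab_sub (y1 := y1) (y0 := y0) h1 h0' hr
  refine isReg_add_int (v := ((2 * Real.pi : ℂ), (0 : ℂ))) (by simp) ?_ n
  rintro ⟨t, w⟩ hx
  have e1 := hL.φ_per t w (hsub hx)
  have e2 := hL.p_per t w (hsub hx)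
  simp only [e1, e2, Prod.mk_add_mk, add_zero]

lemma OmX_add_int (hL : LineFam q η ρ r B b φ p m₀) (h1 : -ρ ≤ y1) (h0' : y0 ≤ ρ) (hr : r' ≤ r)
    {t w : ℂ} (n : ℤ) :
    (t + n, w) ∈ OmX b (Str h0) y1 y0 r' ↔ (t, w) ∈ OmX b (Str h0) y1 y0 r' := by
  have hsub := slab_sub (y1 := y1) (y0 := y0) h1 h0' hr
  refine isReg_add_int (v := (1 : ℂ)) ?_ ?_ n
  · intro e
    change |e.im| < h0 ↔ |(e + 1).im| < h0
    simp
  · rintro ⟨t, w⟩ hx
    exact hL.b_per t w (hsub hx)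

/-- the labels on a horizontal strip -/
lemma label_strip (hL : LineFam q η ρ r B b φ p m₀) (hle : η ≤ h0) (h1 : -ρ ≤ y1) (hy1 : y1 < 0)
    (hy0 : 0 < y0) (h0' : y0 ≤ ρ) (hr : r' ≤ r) {u : ℝ} (hu : |u| < r') {h : ℝ} (hh : 0 < h)
    (hX : ∀ s : ℂ, 0 ≤ s.im → s.im < h → (s, (u : ℂ)) ∈ OmX b (Str h0) y1 y0 r') : h ≤ h0 := by
  have hu' : ‖(u : ℂ)‖ < r' := by simpa using hu
  have h10 : y1 < y0 := by linarith
  set β : ℂ → ℂ := fun t => ext b (Str h0) y1 y0 (ball 0 r') (t, (u : ℂ)) with hβ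
  have hreg : ∀ t : ℂ, t.im < h → IsReg b (Str h0) y1 y0 (ball 0 r') (t, (u : ℂ)) := by
    intro t ht
    rcases lt_or_ge t.im 0 with hn | hp
    · exact slab_OmX hL hle h1 h0' hr (by linarith) hu'
    · exact hX t hp ht
  have hS : IsOpen {z : ℂ | y1 < z.im ∧ z.im < h} :=
    (isOpen_lt continuous_const Complex.continuous_im).inter
      (isOpen_lt Complex.continuous_im continuous_const)
  have hSc : Convex ℝ {z : ℂ | y1 < z.im ∧ z.im < h} :=
    (convex_halfSpace_im_gt _).inter (convex_halfSpace_im_lt _)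
  have hdiffAt : ∀ z : ℂ, y1 < z.im → z.im < h → DifferentiableAt ℂ β z := by
    intro z hz1 hz2
    exact DifferentiableAt.comp (g := ext b (Str h0) y1 y0 (ball 0 r'))
      (f := fun t : ℂ => ((t, (u : ℂ)) : ℂ × ℂ)) z
      (ext_differentiableAt h10 (hreg z hz2) hz1) (by fun_prop)
  have hd : DifferentiableOn ℂ β {z | y1 < z.im ∧ z.im < h} := fun z hz =>
    (hdiffAt z hz.1 hz.2).differentiableWithinAt
  have hslab : ∀ z : ℂ, y1 < z.im → z.im < h → z.im < y0 → β z = b (z, (u : ℂ)) := by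
    intro z hz1 hz2 hz3
    exact ext_slab h10 (hreg z hz2) hz1 hz3
  have hPD : ∀ z : ℂ, y1 < z.im → z.im < y0 → (z, (u : ℂ)) ∈ PD ρ r := by
    intro z hz1 hz2
    exact slab_sub (y1 := y1) (y0 := y0) h1 h0' hr ⟨hz1, hz2, by simpa using hu⟩
  have hper : ∀ z : ℂ, y1 < z.im → z.im < h → β (z + 1) = β z + 1 := by
    have ha1 : AnalyticOnNhd ℂ (fun z => β (z + 1)) {z | y1 < z.im ∧ z.im < h} := by
      refine DifferentiableOn.analyticOnNhd ?_ hS
      rintro z ⟨hz1, hz2⟩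
      refine DifferentiableAt.differentiableWithinAt ?_
      exact DifferentiableAt.comp (g := β) (f := fun z => z + 1) z
        (hdiffAt (z + 1) (by simpa using hz1) (by simpa using hz2)) (by fun_prop)
    have ha2 : AnalyticOnNhd ℂ (fun z => β z + 1) {z | y1 < z.im ∧ z.im < h} :=
      (hd.add_const 1).analyticOnNhd hS
    have h00 : (0 : ℂ) ∈ {z : ℂ | y1 < z.im ∧ z.im < h} := ⟨by simpa using hy1, by simpa using hh⟩
    have hev : (fun z => β (z + 1)) =ᶠ[𝓝 (0 : ℂ)] (fun z => β z + 1) := by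
      have h3 : {t : ℂ | t.im < y0} ∈ 𝓝 (0 : ℂ) :=
        (isOpen_lt Complex.continuous_im continuous_const).mem_nhds (by simpa using hy0)
      filter_upwards [h3, hS.mem_nhds h00] with t ht htA
      have ht' : t.im < y0 := ht
      rw [hslab t htA.1 htA.2 ht', hslab (t + 1) (by simpa using htA.1) (by simpa using htA.2)
        (by simpa using ht')]
      exact hL.b_per t u (hPD t htA.1 ht')
    intro z hz1 hz2
    exact ha1.eqOn_of_preconnected_of_eventuallyEq ha2 hSc.isPreconnected h00 hev ⟨hz1, hz2⟩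
  refine height_le hy1 hd hper ?_ ?_ (by have := hL.dat; have h3 := hL.ρ_lt; have := hL.ρ_pos; linarith)
  · intro x
    have hx : ((x : ℂ), (u : ℂ)) ∈ PD ρ r := hPD x (by simpa using hy1) (by simpa using hy0)
    rw [hslab x (by simpa using hy1) (by simpa using hh) (by simpa using hy0)]
    have := hL.b_conj x u hx
    rw [Complex.conj_ofReal, Complex.conj_ofReal] at this
    exact Complex.conj_eq_iff_im.1 this.symm
  · intro z hz1 hz2
    have := ext_mem h10 (hreg z hz2) hz1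
    have h3 : |(β z).im| < h0 := this
    exact (abs_lt.1 h3).2

/-- **the height of the first singular line** -/
theorem exists_height (hL : LineFam q η ρ r B b φ p m₀) (hle : η ≤ h0) (h1 : -ρ ≤ y1)
    (hy1 : y1 < 0) (hy0 : 0 < y0) (h0' : y0 ≤ ρ) (hr : r' ≤ r) {u : ℝ} (hu : |u| < r')
    (hR : Rule3 b φ p (Str h0) y1 y0 r' u) :
    ∃ U : ℝ, 0 < U ∧ U ≤ h0 ∧
      (∀ s : ℂ, 0 ≤ s.im → s.im < U →
        (s, (u : ℂ)) ∈ OmL φ p y1 y0 r' ∧ (s, (u : ℂ)) ∈ OmX b (Str h0) y1 y0 r') ∧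
      ∃ s : ℂ, s.im = U ∧ (s, (u : ℂ)) ∉ OmL φ p y1 y0 r' := by
  have hu' : ‖(u : ℂ)‖ < r' := by simpa using hu
  set P : ℝ → Prop := fun h => ∀ s : ℂ, 0 ≤ s.im → s.im < h →
    (s, (u : ℂ)) ∈ OmL φ p y1 y0 r' ∧ (s, (u : ℂ)) ∈ OmX b (Str h0) y1 y0 r' with hP
  set Hs : Set ℝ := {h | 0 < h ∧ P h} with hHs
  have hy0m : y0 ∈ Hs := by
    refine ⟨hy0, fun s _ hs => ⟨slab_OmL hL h1 h0' hr hs hu', slab_OmX hL hle h1 h0' hr hs hu'⟩⟩
  have hbdd : ∀ h ∈ Hs, h ≤ h0 := by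
    rintro h ⟨hh, hPh⟩
    exact label_strip hL hle h1 hy1 hy0 h0' hr hu hh (fun s a1 a2 => (hPh s a1 a2).2)
  have hB : BddAbove Hs := ⟨h0, hbdd⟩
  set U := sSup Hs with hU
  have hUpos : 0 < U := lt_of_lt_of_le hy0 (le_csSup hB hy0m)
  have hUle : U ≤ h0 := csSup_le ⟨y0, hy0m⟩ hbdd
  have hPU : P U := by
    intro s hs1 hs2
    obtain ⟨h, hh, hlt⟩ := exists_lt_of_lt_csSup ⟨y0, hy0m⟩ hs2
    exact hh.2 s hs1 hlt
  refine ⟨U, hUpos, hUle, hPU, ?_⟩
  by_contra hcon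
  push Not at hcon
  have hX : ∀ s : ℂ, s.im = U → (s, (u : ℂ)) ∈ OmX b (Str h0) y1 y0 r' := by
    intro s hs
    refine hR s (by linarith) ?_ (hcon _ ?_) (hcon _ ?_)
    · intro t' _ ht'
      rcases lt_or_ge t'.im 0 with hn | hp
      · exact slab_OmX hL hle h1 h0' hr (by linarith) hu'
      · exact (hPU t' hp (by linarith)).2
    · simpa using hs
    · simpa using hs
  set O : Set ℂ := {t | (t, (u : ℂ)) ∈ OmL φ p y1 y0 r' ∧ (t, (u : ℂ)) ∈ OmX b (Str h0) y1 y0 r'}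
    with hO
  have hOo : IsOpen O :=
    (isOpen_OmL.preimage (by fun_prop : Continuous (fun t : ℂ => ((t, (u : ℂ)) : ℂ × ℂ)))).inter
      (isOpen_OmX.preimage (by fun_prop : Continuous (fun t : ℂ => ((t, (u : ℂ)) : ℂ × ℂ))))
  set K : Set ℂ := (fun x : ℝ => (x : ℂ) + U * Complex.I) '' Icc 0 1 with hK
  have hKc : IsCompact K := isCompact_Icc.image (by fun_prop)
  have hKO : K ⊆ O := by
    rintro _ ⟨x, _, rfl⟩
    exact ⟨hcon _ (by simp), hX _ (by simp)⟩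
  obtain ⟨ε, hε, hth⟩ := hKc.exists_thickening_subset_open hOo hKO
  have hmem : U + ε / 2 ∈ Hs := by
    refine ⟨by linarith, fun s hs1 hs2 => ?_⟩
    rcases lt_or_ge s.im U with hlt | hge
    · exact hPU s hs1 hlt
    · have hs' : s - (⌊s.re⌋ : ℤ) ∈ O := by
        refine hth ?_
        rw [Metric.mem_thickening_iff]
        refine ⟨((Int.fract s.re : ℝ) : ℂ) + U * Complex.I,
          ⟨Int.fract s.re, ⟨Int.fract_nonneg _, (Int.fract_lt_one _).le⟩, rfl⟩, ?_⟩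
        rw [dist_eq_norm]
        have e : s - (⌊s.re⌋ : ℤ) - (((Int.fract s.re : ℝ) : ℂ) + U * Complex.I) =
            ((s.im - U : ℝ) : ℂ) * Complex.I := by
          apply Complex.ext
          · simp
          · simp
        rw [e, norm_mul, Complex.norm_I, mul_one, Complex.norm_real, Real.norm_eq_abs,
          abs_of_nonneg (by linarith)]
        linarith
      have e2 : s = (s - (⌊s.re⌋ : ℤ)) + (⌊s.re⌋ : ℤ) := by ring
      obtain ⟨a1, a2⟩ := hs'
      constructor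
      · rw [e2]; exact (OmL_add_int hL h1 h0' hr _).2 a1
      · rw [e2]; exact (OmX_add_int hL h1 h0' hr _).2 a2
  have := le_csSup hB hmem
  linarith

end


end Crest.Agent.R102.Out559
end
end

-- ▼ part R102/SheetD_982

/-!
Row 102 (T1-B), part I.4: the sheets in the form of the outer joint (`Out559.OmL`, `Out559.OmX`)
and of step 7 (`Step7559.Sh`).
* `dat_of`, `NB_of` : from `Spine.DataS` with singular top line;
* `Dat.rule3_real`  : `Out559.Rule3` at every real width;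
* `Dat.ruleL`, `Dat.ruleX` : the RULE for the star-shaped sets `OmL`, `OmX` (all heights);
* `Dat.lvL`, `Dat.lvX` : the sheets are LV sets (helper669's Levi property);
* `Dat.inc_all`, `Dat.refl_all`, `Dat.sum_all`, ... : the relations at all points.
-/

set_option autoImplicit false

open Set Filter Topology Metric
open scoped ComplexConjugate

noncomputable section

namespace Crest.Agent.R102.Sh982

open Crest.Agent.R102.T5 Crest.Agent.R102.G576 Crest.Agent.R102.A929 Crest.Agent.R102.B821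
open Crest.Agent.R102.C0 Crest.Agent.R102.C1 Crest.Agent.R102.F300 Crest.Agent.R102.Rule982
open Crest.Agent.R102.VH982 (pt pt_eta pt_snd pt_re pt_im tube_mem eq_along continuous_pt_y)
open Crest.Agent.R102.K669 (Slab Tube IsReg isReg_of_slab isOpen_isReg ext_eq LV lv_isReg
  ext_differentiableAt ext_mem ext_slab isReg_of_local isOpen_slab mem_tube_self isReg_of_tube)
open Crest.Agent.R102.Out559 (OmL OmX)

variable {q : C(ℂ, ℂ)} {η ρ r Bc : ℝ} {b φ p : ℂ × ℂ → ℂ} {m₀ : ℂ → ℂ} {h : ℝ} {ψ H : ℂ → ℂ}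

/-- the data of part I from the data of Case B -/
lemma dat_of (hD : Spine.DataS q η ρ r Bc b φ p m₀ ψ H h) : Dat q η ρ r Bc b φ p m₀ h ψ H :=
  ⟨hD.fam, hD.le, hD.ext.θ_diff, hD.ext.H_diff, hD.ext.θ_eq, hD.ext.H_eq⟩

/-- singular top line: natural boundary on both sides -/
lemma NB_of (hD : Spine.DataS q η ρ r Bc b φ p m₀ ψ H h)
    (hs : ∀ s : ℂ, s.im = h → ¬ Spine.RegB h ψ H s) : Rule982.NB h ψ H := by
  intro s hsh hcon
  obtain ⟨c, hc, g₁, g₂, h1, h2, h3, h4⟩ := hcon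
  have hh : 0 < h := (dat_of hD).h_pos
  have hR : Spine.RegR h ψ H s c := ⟨g₁, g₂, h1, h2, fun z hz hzi =>
    ⟨h3 ⟨hz, hzi⟩, h4 ⟨hz, hzi⟩⟩⟩
  rcases abs_eq hh.le |>.1 hsh with h5 | h5
  · exact hs s h5 ⟨c, hc, g₁, g₂, h1, h2, fun z hz hzi => ⟨h3 ⟨hz, hzi⟩, h4 ⟨hz, hzi⟩⟩⟩
  · obtain ⟨θ', H', a1, a2, a3⟩ := Spine.RegR.conj' hD.fam.dat hD.le hD.ext hR
    exact hs (conj s) (by rw [Complex.conj_im, h5, neg_neg]) ⟨c, hc, θ', H', a1, a2, a3⟩

section All

variable (D : Dat q η ρ r Bc b φ p m₀ h ψ H)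
include D

omit D in
lemma mem_W {E : Type*} [NormedAddCommGroup E] [NormedSpace ℂ E] [CompleteSpace E]
    {F : ℂ × ℂ → E} {C : Set E} {y1 y0 : ℝ} {W : Set ℂ} {x : ℂ × ℂ} (hx : IsReg F C y1 y0 W x) :
    x.2 ∈ W := by
  obtain ⟨ε, hε, hW, -⟩ := hx
  exact hW (mem_ball_self hε)

omit D in
lemma SL_iff {x : ℂ × ℂ} : x ∈ SL φ p ρ r ↔
    x ∈ OmL φ p (-(ρ / 2)) (ρ / 2) r ∧ -(ρ / 2) < x.1.im :=
  ⟨fun hx => ⟨hx.2.2, hx.2.1⟩, fun hx => ⟨mem_W hx.1, hx.2, hx.1⟩⟩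

omit D in
lemma SB_iff {x : ℂ × ℂ} : x ∈ SB b h ρ r ↔
    x ∈ OmX b (Str h) (-(ρ / 2)) (ρ / 2) r ∧ -(ρ / 2) < x.1.im :=
  ⟨fun hx => ⟨hx.2.2, hx.2.1⟩, fun hx => ⟨mem_W hx.1, hx.2, hx.1⟩⟩

lemma Dat.low_L {x : ℂ × ℂ} (h1 : x.1.im < ρ / 2) (h2 : ‖x.2‖ < r) :
    x ∈ OmL φ p (-(ρ / 2)) (ρ / 2) r :=
  isReg_of_slab isOpen_ball D.Fl_diff Fl_maps h1 (by simpa using h2)

lemma Dat.low_X {x : ℂ × ℂ} (h1 : x.1.im < ρ / 2) (h2 : ‖x.2‖ < r) :
    x ∈ OmX b (Str h) (-(ρ / 2)) (ρ / 2) r :=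
  isReg_of_slab isOpen_ball D.b_diff D.b_maps h1 (by simpa using h2)

/-- **RULE (lines)** on the star-shaped sets -/
theorem Dat.ruleL {s : ℂ} (hs : s = 1 ∨ s = -1) {x : ℂ × ℂ}
    (hx : x ∈ OmX b (Str h) (-(ρ / 2)) (ρ / 2) r)
    (hx' : sh (-s) x ∈ OmL φ p (-(ρ / 2)) (ρ / 2) r) :
    sh s x ∈ OmL φ p (-(ρ / 2)) (ρ / 2) r := by
  have hρ := D.ρ_pos
  have hxW : ‖x.2‖ < r := by simpa using mem_W hx
  have him := abs_lt.1 (sh_im hs hxW D.r_le)
  have him' := abs_lt.1 (sh_im (neg_pm hs) hxW D.r_le)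
  rcases le_or_gt x.1.im (-(3 * ρ / 8)) with h1 | h1
  · refine D.low_L ?_ hxW
    rw [sh_fst, Complex.add_im]
    linarith [him.2]
  · have h2 : x ∈ SB b h ρ r := SB_iff.2 ⟨hx, by linarith⟩
    have h3 : sh (-s) x ∈ SL φ p ρ r := by
      refine SL_iff.2 ⟨hx', ?_⟩
      rw [sh_fst, Complex.add_im]
      linarith [him'.1]
    exact (SL_iff.1 (D.rule_line hs h2 h3 h1)).1

/-- **RULE (vertex)** on the star-shaped sets -/
theorem Dat.ruleX (hNB : Rule982.NB h ψ H) {x : ℂ × ℂ}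
    (hx1 : sh 1 x ∈ OmL φ p (-(ρ / 2)) (ρ / 2) r)
    (hx2 : sh (-1) x ∈ OmL φ p (-(ρ / 2)) (ρ / 2) r) :
    x ∈ OmX b (Str h) (-(ρ / 2)) (ρ / 2) r := by
  have hρ := D.ρ_pos
  have hxW : ‖x.2‖ < r := by simpa using mem_W hx1
  have him := abs_lt.1 (sh_im (s := 1) (Or.inl rfl) hxW D.r_le)
  have him' := abs_lt.1 (sh_im (s := -1) (Or.inr rfl) hxW D.r_le)
  rcases le_or_gt x.1.im (-(3 * ρ / 8)) with h1 | h1
  · exact D.low_X (by linarith) hxW
  · have h2 : sh 1 x ∈ SL φ p ρ r := by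
      refine SL_iff.2 ⟨hx1, ?_⟩
      rw [sh_fst, Complex.add_im]
      linarith [him.1]
    have h3 : sh (-1) x ∈ SL φ p ρ r := by
      refine SL_iff.2 ⟨hx2, ?_⟩
      rw [sh_fst, Complex.add_im]
      linarith [him'.1]
    exact (SB_iff.1 (D.rule_vertex hNB h2 h3 h1)).1

/-- 559's `Rule3` at every real width -/
theorem Dat.rule3_real (hNB : Rule982.NB h ψ H) (u : ℝ) :
    Out559.Rule3 b φ p (Str h) (-(ρ / 2)) (ρ / 2) r u := by
  intro t _ _ h2 h3
  refine D.ruleX hNB (x := (t, (u : ℂ))) ?_ ?_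
  · unfold sh
    rw [one_mul]
    exact h3
  · unfold sh
    rw [neg_one_mul, ← sub_eq_add_neg]
    exact h2

/-- the sheet of lines is an LV set -/
theorem Dat.lvL : LV (ρ / 2) (ball 0 r) {x | x.2 ∈ ball (0 : ℂ) r ∧
    x ∈ OmL φ p (-(ρ / 2)) (ρ / 2) r} :=
  lv_isReg D.h10 isOpen_ball D.Fl_diff Fl_maps isOpen_univ convex_univ

/-- the sheet of labels is an LV set -/
theorem Dat.lvX : LV (ρ / 2) (ball 0 r) {x | x.2 ∈ ball (0 : ℂ) r ∧
    x ∈ OmX b (Str h) (-(ρ / 2)) (ρ / 2) r} :=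
  lv_isReg D.h10 isOpen_ball D.b_diff D.b_maps (isOpen_Sg h) (convex_Sg h)

omit D in
lemma OmL_eq : {x | x.2 ∈ ball (0 : ℂ) r ∧ x ∈ OmL φ p (-(ρ / 2)) (ρ / 2) r} =
    OmL φ p (-(ρ / 2)) (ρ / 2) r := by
  ext x
  exact ⟨fun hx => hx.2, fun hx => ⟨mem_W hx, hx⟩⟩

omit D in
lemma OmX_eq : {x | x.2 ∈ ball (0 : ℂ) r ∧ x ∈ OmX b (Str h) (-(ρ / 2)) (ρ / 2) r} =
    OmX b (Str h) (-(ρ / 2)) (ρ / 2) r := by
  ext x
  exact ⟨fun hx => hx.2, fun hx => ⟨mem_W hx, hx⟩⟩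

theorem Dat.lvL' : LV (ρ / 2) (ball 0 r) (OmL φ p (-(ρ / 2)) (ρ / 2) r) := by
  have := D.lvL
  rwa [OmL_eq] at this

theorem Dat.lvX' : LV (ρ / 2) (ball 0 r) (OmX b (Str h) (-(ρ / 2)) (ρ / 2) r) := by
  have := D.lvX
  rwa [OmX_eq] at this

/-! ### the relations at all points of the sheets -/

/-- low points of the sheets are in the slab -/
lemma Dat.low_slab {s : ℂ} (hs : s = 1 ∨ s = -1) {x : ℂ × ℂ} (h1 : x.1.im ≤ -(3 * ρ / 8))
    (hx : sh s x ∈ SL φ p ρ r) : sh s x ∈ Slab (-(ρ / 2)) (ρ / 2) (ball (0 : ℂ) r) := by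
  have hρ := D.ρ_pos
  have hxW : ‖x.2‖ < r := by simpa using hx.1
  have him := abs_lt.1 (sh_im hs hxW D.r_le)
  refine ⟨hx.2.1, ?_, hx.1⟩
  rw [sh_fst, Complex.add_im]
  linarith [him.2]

lemma Dat.low_slab0 {x : ℂ × ℂ} (h1 : x.1.im ≤ -(3 * ρ / 8))
    (hx : x ∈ SB b h ρ r) : x ∈ Slab (-(ρ / 2)) (ρ / 2) (ball (0 : ℂ) r) := by
  have hρ := D.ρ_pos
  exact ⟨hx.2.1, by linarith, hx.1⟩

theorem Dat.inc_all {s : ℂ} (hs : s = 1 ∨ s = -1) {x : ℂ × ℂ} (hx : x ∈ SB b h ρ r)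
    (hx' : sh s x ∈ SL φ p ρ r) :
    Inc ψ H (φe φ p ρ r (sh s x)) (pe φ p ρ r (sh s x)) (be b h ρ r x) := by
  rcases le_or_gt x.1.im (-(3 * ρ / 8)) with h1 | h1
  · have m0 := D.low_slab0 h1 hx
    have m1 := D.low_slab hs h1 hx'
    rw [D.be_slab m0, D.φe_slab m1, D.pe_slab m1]
    exact D.base_inc hs (slab_PD D.ρ_pos m0) (slab_PD D.ρ_pos m1)
  · exact (D.inc_ev hs hx hx' h1).self_of_nhds

theorem Dat.refl_all {s : ℂ} (hs : s = 1 ∨ s = -1) {x : ℂ × ℂ} (hx : x ∈ SB b h ρ r)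
    (hx' : sh s x ∈ SL φ p ρ r) (hx'' : sh (-s) x ∈ SL φ p ρ r) :
    φe φ p ρ r (sh (-s) x) + φe φ p ρ r (sh s x) = 2 * ψ (be b h ρ r x) := by
  rcases le_or_gt x.1.im (-(3 * ρ / 8)) with h1 | h1
  · have m0 := D.low_slab0 h1 hx
    have m1 := D.low_slab hs h1 hx'
    have m2 := D.low_slab (neg_pm hs) h1 hx''
    rw [D.be_slab m0, D.φe_slab m1, D.φe_slab m2]
    rw [sh_neg] at m2 ⊢
    exact D.base_refl hs (slab_PD D.ρ_pos m0) (slab_PD D.ρ_pos m1) (slab_PD D.ρ_pos m2)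
  · exact (D.refl_ev hs hx hx' hx'' h1).self_of_nhds

theorem Dat.sum_all {s : ℂ} (hs : s = 1 ∨ s = -1) {x : ℂ × ℂ} (hx : x ∈ SB b h ρ r)
    (hx' : sh s x ∈ SL φ p ρ r) (hx'' : sh (-s) x ∈ SL φ p ρ r) :
    pe φ p ρ r (sh (-s) x) + pe φ p ρ r (sh s x) = 2 * H (be b h ρ r x) *
      Complex.cos (φe φ p ρ r (sh (-s) x) - ψ (be b h ρ r x)) := by
  rcases le_or_gt x.1.im (-(3 * ρ / 8)) with h1 | h1
  · have m0 := D.low_slab0 h1 hx
    have m1 := D.low_slab hs h1 hx'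
    have m2 := D.low_slab (neg_pm hs) h1 hx''
    rw [D.be_slab m0, D.pe_slab m1, D.pe_slab m2, D.φe_slab m2]
    rw [sh_neg] at m2 ⊢
    exact D.base_sum hs (slab_PD D.ρ_pos m0) (slab_PD D.ρ_pos m1) (slab_PD D.ρ_pos m2)
  · exact (D.sum_ev hs hx hx' hx'' h1).self_of_nhds

/-- **F2**: at a regular vertex with `ψ' ≠ 0`, `w ≠ 0` a regular line through it is not tangent -/
theorem Dat.sin_ne {s : ℂ} (hs : s = 1 ∨ s = -1) {x : ℂ × ℂ} (hx : x ∈ SB b h ρ r)
    (hx' : sh s x ∈ SL φ p ρ r) (hw : x.2 ≠ 0) (hy : deriv ψ (be b h ρ r x) ≠ 0) :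
    Complex.sin (φe φ p ρ r (sh s x) - ψ (be b h ρ r x)) ≠ 0 := by
  have hon : ∀ᶠ y in 𝓝 x, Inc ψ H (φe φ p ρ r (sh s y)) (pe φ p ρ r (sh s y))
      (be b h ρ r y) := by
    filter_upwards [isOpen_SB.mem_nhds hx, (isOpen_pre s).mem_nhds hx'] with y hy1 hy2
    exact D.inc_all hs hy1 hy2
  -- area form of the shifted line
  have hsd : HasFDerivAt (sh s) ((ContinuousLinearMap.fst ℂ ℂ ℂ +
      (s / 2) • ContinuousLinearMap.snd ℂ ℂ ℂ).prod (ContinuousLinearMap.snd ℂ ℂ ℂ)) x := by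
    have h1 : HasFDerivAt (fun y : ℂ × ℂ => y.1 + s * (y.2 / 2))
        (ContinuousLinearMap.fst ℂ ℂ ℂ + (s / 2) • ContinuousLinearMap.snd ℂ ℂ ℂ) x := by
      have h2 : HasFDerivAt (fun y : ℂ × ℂ => y.1) (ContinuousLinearMap.fst ℂ ℂ ℂ) x :=
        hasFDerivAt_fst
      have h3 : HasFDerivAt (fun y : ℂ × ℂ => (s / 2) • y.2)
          ((s / 2) • ContinuousLinearMap.snd ℂ ℂ ℂ) x :=
        ((s / 2) • ContinuousLinearMap.snd ℂ ℂ ℂ).hasFDerivAt
      refine (h2.add h3).congr_of_eventuallyEq (Eventually.of_forall fun y => ?_)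
      simp only [Pi.add_apply, smul_eq_mul]
      ring
    exact h1.prodMk hasFDerivAt_snd
  have hq12 : ∀ f : ℂ × ℂ → ℂ, AnalyticAt ℂ f (sh s x) →
      q1 (fun y => f (sh s y)) x = q1 f (sh s x) ∧
      q2 (fun y => f (sh s y)) x = (s / 2) * q1 f (sh s x) + q2 f (sh s x) := by
    intro f hf
    have h1' : fderiv ℂ (fun y => f (sh s y)) x = (fderiv ℂ f (sh s x)).comp
        ((ContinuousLinearMap.fst ℂ ℂ ℂ +
        (s / 2) • ContinuousLinearMap.snd ℂ ℂ ℂ).prod (ContinuousLinearMap.snd ℂ ℂ ℂ)) :=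
      (hf.differentiableAt.hasFDerivAt.comp x hsd).fderiv
    unfold B821.q1 B821.q2
    rw [h1']
    refine ⟨by simp, ?_⟩
    have h2 : ((s / 2 : ℂ), (1 : ℂ)) = (s / 2) • ((1 : ℂ), (0 : ℂ)) + ((0 : ℂ), (1 : ℂ)) := by
      simp
    have h3 : fderiv ℂ f (sh s x) ((s / 2 : ℂ), (1 : ℂ)) =
        (s / 2) * fderiv ℂ f (sh s x) (1, 0) + fderiv ℂ f (sh s x) (0, 1) := by
      rw [h2, map_add, map_smul, smul_eq_mul]
    simpa using h3
  refine F2 (isOpen_Sg h) D.ψ_diff D.H_diff (φ := fun z => φe φ p ρ r (sh s z))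
    (p := fun z => pe φ p ρ r (sh s z)) (B := be b h ρ r) (x := x) (D.an_φs hx') (D.an_ps hx')
    (D.be_an x hx) (D.be_mem hx) hy hon ?_
  obtain ⟨e1, e2⟩ := hq12 _ (D.φe_an _ hx')
  obtain ⟨e3, e4⟩ := hq12 _ (D.pe_an _ hx')
  rw [e1, e2, e3, e4]
  have := D.area_ne hx' (by rw [sh_snd]; exact hw)
  intro h0
  apply this
  linear_combination h0

end All

end Crest.Agent.R102.Sh982
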