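import Crest.Agent.R102.BirthsOf_150
import Crest.Agent.R102.SheetD_982
import Crest.Agent.R102.GoodU_150

-- ▼ part R102/SupDatA_150
section

/-!
Row 102, T1-B (helper150): the sheets of 982 in the exact coordinates: components of the joint
`Sup115.Dat`.
-/

set_option autoImplicit false

open Set Filter Topology Metric Complex MeasureTheory
open scoped Real

noncomputable section

namespace Crest.Agent.R102.PartII150

open Crest.Agent.R102.K669
open Crest.Agent.R102.C0 (LineFam OnLine)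
open Crest.Agent.R102.Out559 (OmL OmX)
open Crest.Agent.R102.F300 (Sreg ZZ ZZc)
open Crest.Agent.R102.Rule982 (Sg)
open Crest.Agent.R102.Sup115 (HDu)
open Crest.Agent.R102.Sh982 (Dat SL SB φe pe be sh)
open Crest.Agent.R102.Step7559 (dn)

variable {q : C(ℂ, ℂ)} {η ρ r Bc : ℝ} {b φ p : ℂ × ℂ → ℂ} {m₀ : ℂ → ℂ} {h : ℝ} {ψ H : ℂ → ℂ}

/-- the zeros of `ψ'` are countable -/
theorem countable_zeros {S : Set ℂ} (hS : IsOpen S) {ψ H : ℂ → ℂ} {c : ℂ} (hc : c ≠ 0)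
    (hψ : DifferentiableOn ℂ ψ S) (hrel : F300.Rel S ψ H c) : (S \ Sreg S ψ).Countable := by
  apply (HereditarilyLindelofSpace.isLindelof _).countable_of_isDiscrete
  refine IsDiscrete.of_nhdsWithin ?_
  rintro z ⟨hz, hz'⟩
  have hz0 : deriv ψ z = 0 := by
    by_contra hne
    exact hz' ⟨hz, hne⟩
  have ha : AnalyticAt ℂ (deriv ψ) z := (hψ.analyticAt (hS.mem_nhds hz)).deriv
  rcases ha.eventually_eq_zero_or_eventually_ne_zero with h1 | h1
  · exfalso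
    have h5 : deriv ψ =ᶠ[𝓝 z] fun _ => (0 : ℂ) := h1
    have h6 : deriv (deriv ψ) z = 0 := by rw [h5.deriv_eq]; simp
    have h7 := hrel z hz
    rw [h6, h1.self_of_nhds] at h7
    apply hc
    rw [← h7]; ring
  · intro s hs
    rw [mem_pure] at hs
    rw [eventually_nhdsWithin_iff] at h1
    rw [mem_nhdsWithin_iff_exists_mem_nhds_inter]
    refine ⟨_, h1, ?_⟩
    rintro y ⟨hy1, hy2, hy3⟩
    by_cases hyz : y = z
    · rw [hyz]; exact hs
    · exact absurd ⟨hy2, hy1 hyz⟩ hy3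

/-- incidence, in the form of `End613` -/
theorem inc613 {φ₀ p₀ z : ℂ} (hz : deriv ψ z ≠ 0) (h : F300.Inc ψ H φ₀ p₀ z) :
    End613.Inc φ₀ p₀ (ZZ ψ H z) (ZZc ψ H z) = 0 := by
  have h1 := (F300.onLine_iff ψ H hz).2 h
  unfold OnLine at h1
  unfold End613.Inc
  linear_combination h1

theorem exp_ne_one {T φ₀ : ℂ} (h : Complex.sin (φ₀ - T) ≠ 0) : cexp (2 * I * (T - φ₀)) ≠ 1 := by
  intro h1
  apply h
  rw [Complex.sin]
  have h2 : cexp (2 * I * (T - φ₀)) = cexp (-(φ₀ - T) * I) * cexp (-(φ₀ - T) * I) := by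
    rw [← Complex.exp_add]; congr 1; ring
  have h3 : cexp (-(φ₀ - T) * I) * cexp ((φ₀ - T) * I) = 1 := by
    rw [← Complex.exp_add]
    have : -(φ₀ - T) * I + (φ₀ - T) * I = 0 := by ring
    rw [this, Complex.exp_zero]
  have h4 : cexp (-(φ₀ - T) * I) = cexp ((φ₀ - T) * I) := by
    rw [h2] at h1
    calc cexp (-(φ₀ - T) * I) = cexp (-(φ₀ - T) * I) * (cexp (-(φ₀ - T) * I) *
          cexp ((φ₀ - T) * I)) := by rw [h3, mul_one]
      _ = (cexp (-(φ₀ - T) * I) * cexp (-(φ₀ - T) * I)) * cexp ((φ₀ - T) * I) := by ring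
      _ = cexp ((φ₀ - T) * I) := by rw [h1, one_mul]
  rw [h4]; ring

theorem ln_eq (G : ℂ → ℂ) (x : ℂ × ℂ) : ln G x = sh (-1) (ex G x) := by
  unfold ln ex
  simp only [sh]
  ext1
  · simp only; ring
  · rfl

section Sheets

variable (D : Dat q η ρ r Bc b φ p m₀ h ψ H) {G : ℂ → ℂ} {u0 R d : ℝ}
include D

theorem ex_mem_SB (hG0 : ∀ w ∈ HDu u0 R, 0 ≤ (G w).im) (hdρ : d ≤ ρ / 4)
    {x : ℂ × ℂ} (h1 : -d < x.1.im) (h2 : x.2 ∈ HDu u0 R)
    (h3 : ex G x ∈ OmX b (T5.Str h) (-(ρ / 2)) (ρ / 2) r) : ex G x ∈ SB b h ρ r := by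
  have hρ := D.ρ_pos
  rw [Sh982.SB_iff]
  refine ⟨h3, ?_⟩
  unfold ex
  rw [Complex.add_im]
  linarith [hG0 _ h2]

theorem ln_mem_SL (hball : ball (u0 : ℂ) R ⊆ ball 0 r) (hG0 : ∀ w ∈ HDu u0 R, 0 ≤ (G w).im)
    (hdρ : d ≤ ρ / 4) {x : ℂ × ℂ} (h1 : -d < x.1.im) (h2 : x.2 ∈ HDu u0 R)
    (h3 : ln G x ∈ OmL φ p (-(ρ / 2)) (ρ / 2) r) : ln G x ∈ SL φ p ρ r := by
  have hρ := D.ρ_pos
  rw [Sh982.SL_iff]
  refine ⟨h3, ?_⟩
  have hx2 : x.2.im < r := by
    have h4 := hball h2.1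
    rw [mem_ball_zero_iff] at h4
    exact ((le_abs_self _).trans (Complex.abs_im_le_norm _)).trans_lt h4
  have hr := D.r_le
  unfold ln
  have h5 : (x.1 + G x.2 - x.2 / 2).im = x.1.im + (G x.2).im - x.2.im / 2 := by
    simp
  rw [h5]
  linarith [hG0 _ h2]

/-- maximality of the vertex sheet in exact coordinates -/
theorem maxi_ex (hball : ball (u0 : ℂ) R ⊆ ball 0 r) (hG : DifferentiableOn ℂ G (HDu u0 R))
    (hG0 : ∀ w ∈ HDu u0 R, 0 ≤ (G w).im) (hdρ : d ≤ ρ / 4) (x : ℂ × ℂ) (h1 : -d < x.1.im)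
    (h2 : x.2 ∈ HDu u0 R) (g : ℂ × ℂ → ℂ) (hg : AnalyticAt ℂ g x) (hgh : |(g x).im| < h)
    (hlow : ∀ᶠ τ : ℝ in 𝓝[>] 0, ex G (dn x τ) ∈ OmX b (T5.Str h) (-(ρ / 2)) (ρ / 2) r ∧
      g =ᶠ[𝓝 (dn x τ)] fun y => be b h ρ r (ex G y)) :
    ex G x ∈ OmX b (T5.Str h) (-(ρ / 2)) (ρ / 2) r := by
  have hρ := D.ρ_pos
  have hHo : IsOpen (HDu u0 R) := isOpen_ball.inter (isOpen_lt continuous_const Complex.continuous_im)
  have hGa : AnalyticAt ℂ G x.2 := hG.analyticAt (hHo.mem_nhds h2)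
  have hexi : AnalyticAt ℂ (exi G) (ex G x) := analyticAt_exi hGa
  have him : (ex G x).1.im = x.1.im + (G x.2).im := by unfold ex; rw [Complex.add_im]
  have hmax := Step7559.maximal_Sh (F := b) (C := Sg h) (y1 := -(ρ / 2)) (y0 := ρ / 2)
    (W := ball (0 : ℂ) r) D.h10 isOpen_ball D.b_diff (Rule982.isOpen_Sg h) D.b_maps
    (q := ex G x) (by rw [him]; linarith [hG0 _ h2]) (hball h2.1)
    (G := fun z => g (exi G z))
    (AnalyticAt.comp (g := g) (by rw [exi_ex]; exact hg) hexi)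
    (by show g (exi G (ex G x)) ∈ Sg h; rw [exi_ex]; exact hgh) ?_
  · exact hmax.1.1
  · have h3 : ∀ᶠ τ : ℝ in 𝓝[>] 0, τ ∈ Ioo (0 : ℝ) (d + x.1.im) := Ioo_mem_nhdsGT (by linarith)
    filter_upwards [hlow, h3] with τ hτ hτ'
    have h4 : dn (ex G x) τ = ex G (dn x τ) := by
      unfold dn ex
      ext1
      · simp only; ring
      · rfl
    rw [h4]
    refine ⟨⟨hτ.1, ?_⟩, ?_⟩
    · have h5 : (ex G (dn x τ)).1.im = x.1.im - τ + (G x.2).im := by
        unfold ex dn; simp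
      rw [h5]
      linarith [hG0 _ h2, hτ'.2]
    · have h5 : AnalyticAt ℂ (exi G) (ex G (dn x τ)) := analyticAt_exi (by
        show AnalyticAt ℂ G (dn x τ).2
        exact hGa)
      have h6 : exi G (ex G (dn x τ)) = dn x τ := exi_ex G _
      have h7 := h5.continuousAt.eventually (by rw [h6]; exact hτ.2)
      filter_upwards [h7] with z hz
      rw [hz, ex_exi]
      rfl

end Sheets

end Crest.Agent.R102.PartII150
end
end

-- ▼ part R102/SupDat_150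

/-!
Row 102, T1-B (helper150): the joint `Sup115.Dat` on the official sheets (982 / 559) in the exact
coordinates, and `Pair` for PART II.
-/

set_option autoImplicit false

open Set Filter Topology Metric Complex MeasureTheory
open scoped Real

noncomputable section

namespace Crest.Agent.R102.PartII150

open Crest.Agent.R102.K669
open Crest.Agent.R102.C0 (LineFam OnLine)
open Crest.Agent.R102.Out559 (OmL OmX)
open Crest.Agent.R102.F300 (Sreg ZZ ZZc)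
open Crest.Agent.R102.Rule982 (Sg)
open Crest.Agent.R102.Sup115 (HDu Dp)
open Crest.Agent.R102.Sh982 (Dat SL SB φe pe be sh)
open Crest.Agent.R102.Step7559 (dn)

variable {q : C(ℂ, ℂ)} {η ρ r Bc : ℝ} {b φ p : ℂ × ℂ → ℂ} {m₀ : ℂ → ℂ} {h : ℝ} {ψ H : ℂ → ℂ}


/-- angle, support number of the incoming line and label of the vertex in exact coordinates -/
def φx (φ p : ℂ × ℂ → ℂ) (ρ r : ℝ) (G : ℂ → ℂ) (x : ℂ × ℂ) : ℂ := φe φ p ρ r (ln G x)
def px (φ p : ℂ × ℂ → ℂ) (ρ r : ℝ) (G : ℂ → ℂ) (x : ℂ × ℂ) : ℂ := pe φ p ρ r (ln G x)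
def Bx (b : ℂ × ℂ → ℂ) (h ρ r : ℝ) (G : ℂ → ℂ) (x : ℂ × ℂ) : ℂ := be b h ρ r (ex G x)

/-- **DAT JOINT** -/
theorem supDat (D : Dat q η ρ r Bc b φ p m₀ h ψ H) {G : ℂ → ℂ} {u0 R d : ℝ} (hR : 0 < R)
    (hd : 0 < d) (hdρ : d ≤ ρ / 4) (hball : ball (u0 : ℂ) R ⊆ ball 0 r)
    (hG : DifferentiableOn ℂ G (HDu u0 R)) (hG0 : ∀ w ∈ HDu u0 R, 0 ≤ (G w).im)
    (hGL : ∀ w ∈ HDu u0 R, ∀ t : ℂ, t.im < (G w).im →
      (t, w) ∈ OmL φ p (-(ρ / 2)) (ρ / 2) r)
    (hGX : ∀ w ∈ HDu u0 R, ∀ t : ℂ, t.im < (G w).im →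
      (t, w) ∈ OmX b (T5.Str h) (-(ρ / 2)) (ρ / 2) r) :
    Sup115.Dat u0 R d h (Sreg (Sg h) ψ) (ZZ ψ H) (ZZc ψ H) ψ (fun z => 1 / deriv ψ z ^ 2)
      (φx φ p ρ r G) (px φ p ρ r G) (Bx b h ρ r G)
      (Xe u0 R d G (OmX b (T5.Str h) (-(ρ / 2)) (ρ / 2) r))
      (Le u0 R d G (OmL φ p (-(ρ / 2)) (ρ / 2) r)) := by
  have hρ := D.ρ_pos
  have hHo : IsOpen (HDu u0 R) :=
    isOpen_ball.inter (isOpen_lt continuous_const Complex.continuous_im)
  have hGa : ∀ w ∈ HDu u0 R, AnalyticAt ℂ G w := fun w hw => hG.analyticAt (hHo.mem_nhds hw)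
  set X := OmX b (T5.Str h) (-(ρ / 2)) (ρ / 2) r with hX
  set L := OmL φ p (-(ρ / 2)) (ρ / 2) r with hL
  have hBase : IsOpen {x : ℂ × ℂ | -d < x.1.im ∧ x.2 ∈ HDu u0 R} :=
    (isOpen_lt continuous_const (Complex.continuous_im.comp continuous_fst)).inter
      (hHo.preimage continuous_snd)
  have hXo : IsOpen (Xe u0 R d G X) := by
    have h1 : Xe u0 R d G X = {x : ℂ × ℂ | -d < x.1.im ∧ x.2 ∈ HDu u0 R} ∩ ex G ⁻¹' X := rfl
    rw [h1]
    refine ContinuousOn.isOpen_inter_preimage ?_ hBase Out559.isOpen_OmX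
    intro x hx
    exact (analyticAt_ex (hGa _ hx.2)).continuousAt.continuousWithinAt
  have hLo : IsOpen (Le u0 R d G L) := by
    have h1 : Le u0 R d G L = {x : ℂ × ℂ | -d < x.1.im ∧ x.2 ∈ HDu u0 R} ∩ ln G ⁻¹' L := rfl
    rw [h1]
    refine ContinuousOn.isOpen_inter_preimage ?_ hBase Out559.isOpen_OmL
    intro x hx
    exact (analyticAt_ln (hGa _ hx.2)).continuousAt.continuousWithinAt
  have hSB : ∀ x ∈ Xe u0 R d G X, ex G x ∈ SB b h ρ r := fun x hx =>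
    ex_mem_SB D hG0 hdρ hx.1.1 hx.1.2 hx.2
  have hSL : ∀ x ∈ Le u0 R d G L, ln G x ∈ SL φ p ρ r := fun x hx =>
    ln_mem_SL D hball hG0 hdρ hx.1.1 hx.1.2 hx.2
  have hDX : Dp u0 R d ⊆ Xe u0 R d G X := by
    rintro x ⟨h1, h2, h3⟩
    refine ⟨⟨h1, h3⟩, hGX _ h3 _ ?_⟩
    rw [Complex.add_im]; linarith
  have hDL : Dp u0 R d ⊆ Le u0 R d G L := by
    rintro x ⟨h1, h2, h3⟩
    refine ⟨⟨h1, h3⟩, hGL _ h3 _ ?_⟩
    have h4 : 0 < x.2.im := h3.2
    have h5 : (x.1 + G x.2 - x.2 / 2).im = x.1.im + (G x.2).im - x.2.im / 2 := by simp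
    rw [h5]; linarith
  have hBim : ∀ x ∈ Xe u0 R d G X, |(Bx b h ρ r G x).im| < h := fun x hx => D.be_mem (hSB x hx)
  have hinc : ∀ x ∈ Xe u0 R d G X ∩ Le u0 R d G L, F300.Inc ψ H (φx φ p ρ r G x)
      (px φ p ρ r G x) (Bx b h ρ r G x) := by
    intro x hx
    have h1 := D.inc_all (s := -1) (Or.inr rfl) (hSB x hx.1) (by
      rw [← ln_eq]; exact hSL x hx.2)
    rw [← ln_eq] at h1
    exact h1
  refine
    { R_pos := hR
      d_pos := hd
      S_open := F300.isOpen_Sreg (Rule982.isOpen_Sg h) D.ψ_diff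
      S_sub := fun z hz => hz.1
      S_count := countable_zeros (Rule982.isOpen_Sg h) (by norm_num) D.ψ_diff D.rel
      Z_deriv := ?_
      Zc_deriv := ?_
      T_diff := D.ψ_diff.mono (fun z hz => hz.1)
      c_cont := ?_
      c_ne := fun z hz => div_ne_zero one_ne_zero (pow_ne_zero 2 hz.2)
      X_open := hXo
      L_open := hLo
      X_sub := fun x hx => hx.1
      L_sub := fun x hx => hx.1.2
      X_star := ?_
      Dp_X := hDX
      Dp_L := hDL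
      φ_diff := ?_
      p_diff := ?_
      B_diff := ?_
      B_im := hBim
      B_nc := ?_
      inc := ?_
      omit1 := ?_
      maxi := ?_ }
  · intro z hz
    have h1 := (F300.hasDerivAt_ZZ (Rule982.isOpen_Sg h) D.ψ_diff D.H_diff D.rel hz.1 hz.2).1
    rwa [neg_neg] at h1
  · intro z hz
    have h1 := (F300.hasDerivAt_ZZ (Rule982.isOpen_Sg h) D.ψ_diff D.H_diff D.rel hz.1 hz.2).2
    rwa [neg_neg] at h1
  · intro z hz
    have h1 : ContinuousAt (deriv ψ) z :=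
      (D.ψ_diff.analyticAt ((Rule982.isOpen_Sg h).mem_nhds hz.1)).deriv.continuousAt
    exact (continuousAt_const.div (h1.pow 2) (pow_ne_zero 2 hz.2)).continuousWithinAt
  · intro x hx y hy hlt
    refine ⟨⟨?_, hx.1.2⟩, ?_⟩
    · simpa using hlt
    · have h1 := D.lvX'.star _ hx.2 y hy
      have h2 : ex G (x.1 - y * I, x.2) = ((ex G x).1 - y * I, (ex G x).2) := by
        unfold ex; ext1
        · simp only; ring
        · rfl
      rw [h2]; exact h1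
  · intro x hx
    have h1 : AnalyticAt ℂ (φx φ p ρ r G) x :=
      AnalyticAt.comp (g := φe φ p ρ r) (D.φe_an _ (hSL x hx)) (analyticAt_ln (hGa _ hx.1.2))
    exact h1.differentiableAt.differentiableWithinAt
  · intro x hx
    have h1 : AnalyticAt ℂ (px φ p ρ r G) x :=
      AnalyticAt.comp (g := pe φ p ρ r) (D.pe_an _ (hSL x hx)) (analyticAt_ln (hGa _ hx.1.2))
    exact h1.differentiableAt.differentiableWithinAt
  · intro x hx
    have h1 : AnalyticAt ℂ (Bx b h ρ r G) x :=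
      AnalyticAt.comp (g := be b h ρ r) (D.be_an _ (hSB x hx)) (analyticAt_ex (hGa _ hx.1.2))
    exact h1.differentiableAt.differentiableWithinAt
  · -- periodicity
    have hw : (u0 : ℂ) + ((R / 2 : ℝ) : ℂ) * I ∈ HDu u0 R := by
      refine ⟨?_, ?_⟩
      · rw [mem_ball, dist_eq_norm, add_sub_cancel_left, norm_mul, Complex.norm_I, mul_one,
          Complex.norm_real, Real.norm_eq_abs, abs_of_pos (by positivity)]
        linarith
      · show 0 < ((u0 : ℂ) + ((R / 2 : ℝ) : ℂ) * I).im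
        simp; positivity
    set w : ℂ := (u0 : ℂ) + ((R / 2 : ℝ) : ℂ) * I with hwd
    set x : ℂ × ℂ := (-((d / 2 : ℝ) : ℂ) * I, w) with hx
    have hxi : x.1.im = -(d / 2) := by rw [hx]; simp
    have hxD : x ∈ Dp u0 R d := ⟨by rw [hxi]; linarith, by rw [hxi]; linarith, hw⟩
    refine ⟨x, hxD, (x.1 + 1, x.2), ⟨by simpa using hxD.1, by simpa using hxD.2.1, hw⟩, ?_⟩
    have h1 := (D.per_SB (σ := 1) (Or.inl rfl) (κ := 1) (Or.inl rfl) (hSB x (hDX hxD))).2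
    have h2 : ex G (x.1 + 1, x.2) = ((ex G x).1 + ((1 : ℝ) : ℂ), 1 * (ex G x).2) := by
      unfold ex; ext1
      · simp only; push_cast; ring
      · simp
    unfold Bx
    rw [h2, h1]
    intro hcon
    have h3 : ((1 : ℝ) : ℂ) = 0 := by linear_combination -hcon
    norm_num at h3
  · intro x hx hxS
    exact inc613 hxS.2 (hinc x hx)
  · intro x hx hxS
    refine exp_ne_one ?_
    have h1 := D.sin_ne (s := -1) (Or.inr rfl) (hSB x (hDX hx)) (by
      rw [← ln_eq]; exact hSL x (hDL hx)) (by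
        intro h0
        have h2 : 0 < x.2.im := hx.2.2.2
        have h3 : (ex G x).2 = x.2 := rfl
        rw [h3] at h0
        rw [h0] at h2
        simp at h2) hxS.2
    rw [← ln_eq] at h1
    exact h1
  · intro x g hg hgh hlow
    have hx1 : x.2 ∈ HDu u0 R ∧ -d < x.1.im := by
      obtain ⟨τ, hτ, hτ0⟩ := (hlow.and self_mem_nhdsWithin).exists
      have h1 : (0 : ℝ) < τ := hτ0
      have h2 := hτ.1.1.1
      have h3 : (x.1 - τ * I).im = x.1.im - τ := by simp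
      simp only [h3] at h2
      exact ⟨hτ.1.1.2, by linarith⟩
    refine ⟨⟨hx1.2, hx1.1⟩, ?_⟩
    refine maxi_ex D hball hG hG0 hdρ x hx1.2 hx1.1 g hg hgh ?_
    filter_upwards [hlow] with τ hτ
    exact ⟨hτ.1.2, hτ.2⟩

end Crest.Agent.R102.PartII150
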