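import Mathlib
import Crest.Agent.R102.SlopeA_811
import Crest.Agent.R102.LP_472
import Crest.Agent.R266.Osgood

-- ▼ part R102/OneEdge_811
section

/-!
Row 102, T1-B, EDGE (255 (2)(a), 344 (8)): a label function on a half plane (half disc) below the
real axis, with values in the strip `|Im| < h` and without interior cluster values of `Im` at the
real points, goes to ONE edge; on a half plane this is impossible.
-/

set_option autoImplicit false

open Set Filter Topology Metric Complex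

noncomputable section

namespace Crest.Agent.R102.OneEdge811

open Crest.Agent.R102.Slope811

/-- the open lower half plane -/
def LH : Set ℂ := {z | z.im < 0}

theorem isOpen_LH : IsOpen LH := isOpen_lt continuous_im continuous_const

theorem convex_LH : Convex ℝ LH := convex_halfSpace_im_lt 0

theorem neBot_LH (x : ℝ) : (𝓝[LH] (x : ℂ)).NeBot := by
  rw [← mem_closure_iff_nhdsWithin_neBot]
  refine Metric.mem_closure_iff.2 fun ε hε => ⟨x - (ε / 2) * I, ?_, ?_⟩
  · simp only [LH, mem_ofPred_eq, sub_im, ofReal_im, mul_im, I_im, I_re]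
    norm_num; linarith
  · rw [dist_eq_norm]
    have : (x : ℂ) - (x - (ε / 2) * I) = ((ε / 2 : ℝ) : ℂ) * I := by push_cast; ring
    rw [this, norm_mul, norm_I, mul_one, norm_real, Real.norm_eq_abs, abs_of_pos (by positivity)]
    linarith

/-- one side at one point -/
theorem side {H : Set ℂ} {x : ℂ} (hconv : ∀ r > 0, IsPreconnected (H ∩ ball x r))
    {f : ℂ → ℝ} {h : ℝ} (hh : 0 < h) (hc : ContinuousOn f H) (hb : ∀ z ∈ H, |f z| < h)
    (hno : ∀ c ∈ Ioo (-h) h, ¬ MapClusterPt c (𝓝[H] x) f) :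
    Tendsto f (𝓝[H] x) (𝓝 h) ∨ Tendsto f (𝓝[H] x) (𝓝 (-h)) := by
  have key : ∀ δ > 0, ∀ᶠ z in 𝓝[H] x, f z ∉ Icc (-h + δ) (h - δ) := by
    intro δ hδ
    by_contra hcon
    have hfr : ∃ᶠ z in 𝓝[H] x, f z ∈ Icc (-h + δ) (h - δ) := by
      rw [Filter.Frequently]
      exact hcon
    obtain ⟨c, hcI, hcl⟩ := isCompact_Icc.exists_mapClusterPt_of_frequently hfr
    exact hno c ⟨by linarith [hcI.1], by linarith [hcI.2]⟩ hcl
  obtain ⟨r, hr, hrs⟩ := Metric.mem_nhdsWithin_iff.1 (key (h / 2) (by positivity))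
  have hout : ∀ z ∈ H ∩ ball x r, f z < -h / 2 ∨ h / 2 < f z := by
    intro z hz
    have := hrs ⟨hz.2, hz.1⟩
    simp only [mem_ofPred_eq, mem_Icc, not_and, not_le] at this
    by_cases h1 : f z < -h / 2
    · exact Or.inl h1
    · right
      have := this (by linarith)
      linarith
  have hpre := (hconv r hr).image f (hc.mono inter_subset_left)
  have hev : ∀ᶠ z in 𝓝[H] x, z ∈ H ∩ ball x r := by
    filter_upwards [self_mem_nhdsWithin, mem_nhdsWithin_of_mem_nhds (ball_mem_nhds x hr)] with z h1 h2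
    exact ⟨h1, h2⟩
  have hdich : (∀ z ∈ H ∩ ball x r, h / 2 < f z) ∨ (∀ z ∈ H ∩ ball x r, f z < -h / 2) := by
    by_contra hcon
    push Not at hcon
    obtain ⟨⟨z1, hz1, h1⟩, ⟨z2, hz2, h2⟩⟩ := hcon
    have h1' : f z1 < -h / 2 := (hout z1 hz1).resolve_right (not_lt.2 h1)
    have h2' : h / 2 < f z2 := (hout z2 hz2).resolve_left (not_lt.2 h2)
    have : (0 : ℝ) ∈ f '' (H ∩ ball x r) :=
      hpre.ordConnected.out ⟨z1, hz1, rfl⟩ ⟨z2, hz2, rfl⟩ ⟨by linarith, by linarith⟩
    obtain ⟨z, hz, hz0⟩ := this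
    rcases hout z hz with h3 | h3 <;> linarith
  rcases hdich with hd | hd
  · left
    rw [Metric.tendsto_nhds]
    intro δ hδ
    filter_upwards [key δ hδ, hev] with z h1 h2
    have h3 := hd z h2
    have h4 := abs_lt.1 (hb z h2.1)
    simp only [mem_Icc, not_and, not_le] at h1
    rw [Real.dist_eq, abs_lt]
    by_cases h5 : δ ≤ h
    · have := h1 (by linarith)
      constructor <;> linarith
    · constructor <;> linarith
  · right
    rw [Metric.tendsto_nhds]
    intro δ hδ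
    filter_upwards [key δ hδ, hev] with z h1 h2
    have h3 := hd z h2
    have h4 := abs_lt.1 (hb z h2.1)
    simp only [mem_Icc, not_and, not_le] at h1
    rw [Real.dist_eq, abs_lt]
    by_cases h5 : δ ≤ h
    · by_contra hcon
      have h6 : -h + δ ≤ f z := by
        by_contra h7
        exact hcon ⟨by linarith, by linarith⟩
      have := h1 h6
      linarith
    · constructor <;> linarith

/-- **one edge on an interval** (local form: half disc over `(a, b)`, any `H` which is the lower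
half plane near the points of `(a, b)`) -/
theorem one_edge {H : Set ℂ} {a b : ℝ} (hH : ∀ x ∈ Ioo a b, ∃ ρ > 0, H ∩ ball (x : ℂ) ρ = LH ∩ ball (x : ℂ) ρ)
    {f : ℂ → ℝ} {h : ℝ} (hh : 0 < h) (hc : ContinuousOn f H) (hb : ∀ z ∈ H, |f z| < h)
    (hno : ∀ x ∈ Ioo a b, ∀ c ∈ Ioo (-h) h, ¬ MapClusterPt c (𝓝[LH] (x : ℂ)) f) :
    (∀ x ∈ Ioo a b, Tendsto f (𝓝[LH] (x : ℂ)) (𝓝 h)) ∨
      (∀ x ∈ Ioo a b, Tendsto f (𝓝[LH] (x : ℂ)) (𝓝 (-h))) := by
  have hpt : ∀ x ∈ Ioo a b, Tendsto f (𝓝[LH] (x : ℂ)) (𝓝 h) ∨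
      Tendsto f (𝓝[LH] (x : ℂ)) (𝓝 (-h)) := by
    intro x hx
    obtain ⟨ρ, hρ, hρe⟩ := hH x hx
    have hnh : 𝓝[LH ∩ ball (x : ℂ) ρ] (x : ℂ) = 𝓝[LH] (x : ℂ) :=
      nhdsWithin_inter_of_mem' (mem_nhdsWithin_of_mem_nhds (ball_mem_nhds _ hρ))
    have := side (H := LH ∩ ball (x : ℂ) ρ) (x := x) (fun r hr => ?_) hh
      (hc.mono (by rw [← hρe]; exact inter_subset_left))
      (fun z hz => hb z (by rw [← hρe] at hz; exact hz.1))
      (by rw [hnh]; exact hno x hx)
    · rwa [hnh] at this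
    · exact ((convex_LH.inter (convex_ball _ _)).inter (convex_ball _ _)).isPreconnected
  set P : Set ℝ := {x | ∀ᶠ z in 𝓝[LH] (x : ℂ), 0 < f z} with hP
  set Q : Set ℝ := {x | ∀ᶠ z in 𝓝[LH] (x : ℂ), f z < 0} with hQ
  have hop : ∀ g : ℂ → Prop, IsOpen {x : ℝ | ∀ᶠ z in 𝓝[LH] (x : ℂ), g z} := by
    intro g
    rw [Metric.isOpen_iff]
    intro x hx
    obtain ⟨r, hr, hrs⟩ := Metric.mem_nhdsWithin_iff.1 hx
    refine ⟨r, hr, fun y hy => ?_⟩
    rw [mem_ball, Real.dist_eq] at hy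
    refine Metric.mem_nhdsWithin_iff.2 ⟨r - |y - x|, by linarith, fun z hz => hrs ⟨?_, hz.2⟩⟩
    have h1 : dist (y : ℂ) (x : ℂ) = |y - x| := by
      rw [dist_eq_norm, ← ofReal_sub, norm_real, Real.norm_eq_abs]
    have h2 := hz.1
    rw [mem_ball] at h2 ⊢
    linarith [dist_triangle z (y : ℂ) (x : ℂ)]
  have hdisj : ∀ x, x ∈ P → x ∈ Q → False := by
    intro x h1 h2
    have := neBot_LH x
    have h3 : ∀ᶠ z in 𝓝[LH] (x : ℂ), 0 < f z ∧ f z < 0 := Filter.Eventually.and h1 h2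
    obtain ⟨z, hz1, hz2⟩ := h3.exists
    linarith
  have hcov : Ioo a b ⊆ P ∪ Q := by
    intro x hx
    rcases hpt x hx with h1 | h1
    · left; exact h1.eventually (lt_mem_nhds hh)
    · right; exact h1.eventually (gt_mem_nhds (by linarith))
  by_cases hne : (Ioo a b ∩ P).Nonempty
  · left
    have hsub := isPreconnected_Ioo.subset_left_of_subset_union (hop _) (hop _)
      (Set.disjoint_left.2 fun x h1 h2 => hdisj x h1 h2) hcov hne
    intro x hx
    rcases hpt x hx with h1 | h1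
    · exact h1
    · exact (hdisj x (hsub hx) (h1.eventually (gt_mem_nhds (by linarith)))).elim
  · right
    intro x hx
    rcases hpt x hx with h1 | h1
    · exact (hne ⟨x, hx, h1.eventually (lt_mem_nhds hh)⟩).elim
    · exact h1

/-- real parts of analytic functions are superharmonic -/
theorem supH_re {Ω : Set ℂ} (ho : IsOpen Ω) {q : ℂ → ℂ} (hq : AnalyticOnNhd ℂ q Ω) :
    SupH Ω (fun z => (q z).re) := by
  have h0 : SupH Ω (fun _ => (0 : ℝ)) := by
    refine SupH.of_re ho continuousOn_const.lowerSemicontinuousOn ?_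
    intro c s hs _ g hg hle
    have hd : DiffContOnCl ℂ (fun z => exp (g z)) (ball c s) :=
      ⟨hg.differentiableOn.cexp, continuous_exp.comp_continuousOn hg.continuousOn⟩
    have := norm_le_of_forall_mem_frontier_norm_le isBounded_ball hd (C := 1) (fun z hz => by
      rw [frontier_ball c hs.ne'] at hz
      rw [norm_exp]
      exact Real.exp_le_one_iff.2 (hle z hz)) (subset_closure (mem_ball_self hs))
    rw [norm_exp] at this
    exact Real.exp_le_one_iff.1 this
  have := h0.add_re hq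
  simpa using this

/-- no function goes to the upper edge along the whole real axis -/
theorem false_of_edge {g : ℂ → ℂ} {h : ℝ} (hg : DifferentiableOn ℂ g LH)
    (hb : ∀ z ∈ LH, |(g z).im| < h)
    (hlim : ∀ x : ℝ, Tendsto (fun z => (g z).im) (𝓝[LH] (x : ℂ)) (𝓝 h)) : False := by
  have hI : (-I : ℂ) ∈ LH := by simp [LH]
  have hh : 0 < h := (abs_nonneg _).trans_lt (hb _ hI)
  have hre : ∀ z ∈ LH, 1 < (1 + I * z).re := by
    intro z hz
    have : z.im < 0 := hz
    simp only [add_re, one_re, mul_re, I_re, I_im, zero_mul, one_mul]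
    linarith
  have hlog : ∀ z ∈ LH, 0 ≤ (Complex.log (1 + I * z)).re := by
    intro z hz
    rw [log_re]
    apply Real.log_nonneg
    exact (hre z hz).le.trans (re_le_norm _)
  -- the main inequality
  have key : ∀ δ > 0, 0 ≤ (g (-I)).im - h + δ * (Complex.log (1 + I * (-I))).re := by
    intro δ hδ
    set M : ℝ := Real.exp (2 * h / δ) with hM
    have hM1 : 1 ≤ M := Real.one_le_exp (by positivity)
    set R : ℝ := M + 2 with hR
    set Ω : Set ℂ := LH ∩ ball 0 R with hΩ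
    have hΩo : IsOpen Ω := isOpen_LH.inter isOpen_ball
    have hq : AnalyticOnNhd ℂ (fun z => -I * g z - h + δ * Complex.log (1 + I * z)) Ω := by
      apply DifferentiableOn.analyticOnNhd _ hΩo
      have h1 : DifferentiableOn ℂ g Ω := hg.mono inter_subset_left
      refine ((h1.const_mul _).sub_const _).add (DifferentiableOn.const_mul ?_ _)
      refine DifferentiableOn.clog ((differentiableOn_const _).add
        (differentiableOn_id.const_mul I)) fun z hz => Or.inl ?_
      exact zero_lt_one.trans (hre z hz.1)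
    have hs := supH_re hΩo hq
    have hval : ∀ z : ℂ, (-I * g z - h + δ * Complex.log (1 + I * z)).re =
        (g z).im - h + δ * (Complex.log (1 + I * z)).re := by
      intro z
      simp only [add_re, sub_re, mul_re, neg_re, I_re, neg_im, I_im, ofReal_re, ofReal_im,
        zero_mul, sub_zero, neg_zero, zero_sub]
      ring
    have hfin := hs.nonneg hΩo (isBounded_ball.subset inter_subset_right) ?_ (-I) ⟨hI, ?_⟩
    · rw [hval] at hfin
      exact hfin
    · intro ζ hζ ε hε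
      have hcl : ζ ∈ closure Ω := hζ.1
      have hnot : ζ ∉ Ω := by
        have := hζ.2
        rwa [hΩo.interior_eq] at this
      have him : ζ.im ≤ 0 := by
        have : closure Ω ⊆ {z | z.im ≤ 0} :=
          closure_minimal (fun z hz => (show z.im < 0 from hz.1).le)
            (isClosed_le continuous_im continuous_const)
        exact this hcl
      rcases him.lt_or_eq with him | him
      · -- on the circle
        have hn : R ≤ ‖ζ‖ := by
          by_contra hcon
          exact hnot ⟨him, by simpa using lt_of_not_ge hcon⟩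
        have h1 : ∀ᶠ z in 𝓝[Ω] ζ, R - 1 < ‖z‖ :=
          mem_nhdsWithin_of_mem_nhds ((isOpen_lt continuous_const continuous_norm).mem_nhds
            (by show R - 1 < ‖ζ‖; linarith))
        filter_upwards [h1, self_mem_nhdsWithin] with z hz1 hz2
        rw [hval]
        have h2 := abs_lt.1 (hb z hz2.1)
        have h3 : M ≤ ‖1 + I * z‖ := by
          have h4 : ‖I * z‖ - ‖(1 : ℂ)‖ ≤ ‖1 + I * z‖ := by
            have := norm_sub_norm_le (I * z) (-1)
            rw [norm_neg] at this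
            rw [add_comm]
            simpa using this
          rw [norm_mul, norm_I, one_mul, norm_one] at h4
          linarith
        have h5 : 2 * h / δ ≤ (Complex.log (1 + I * z)).re := by
          rw [log_re]
          have := Real.log_le_log (Real.exp_pos _) h3
          rwa [Real.log_exp] at this
        have h6 : 2 * h ≤ δ * (Complex.log (1 + I * z)).re := by
          have := mul_le_mul_of_nonneg_left h5 hδ.le
          rwa [mul_div_cancel₀ _ hδ.ne'] at this
        linarith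
      · -- on the real axis
        have hζr : ζ = (ζ.re : ℂ) := Complex.ext rfl (by simpa using him)
        have h1 : ∀ᶠ z in 𝓝[LH] ζ, h - ε < (g z).im := by
          rw [hζr]
          exact (hlim ζ.re).eventually (lt_mem_nhds (by linarith))
        have h2 : ∀ᶠ z in 𝓝[Ω] ζ, h - ε < (g z).im :=
          h1.filter_mono (nhdsWithin_mono _ inter_subset_left)
        filter_upwards [h2, self_mem_nhdsWithin] with z hz1 hz2
        rw [hval]
        have := mul_nonneg hδ.le (hlog z hz2.1)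
        linarith
    · rw [mem_ball, dist_zero_right, norm_neg, norm_I]
      linarith
  have hfin : 0 ≤ (g (-I)).im - h := by
    set L := (Complex.log (1 + I * (-I))).re with hL
    have hL0 : 0 ≤ L := hlog _ hI
    by_contra hneg
    rw [not_le] at hneg
    have := key (-((g (-I)).im - h) / (2 * (L + 1))) (by
      apply div_pos <;> linarith)
    have h2 : -((g (-I)).im - h) / (2 * (L + 1)) * L ≤ -((g (-I)).im - h) / 2 := by
      rw [div_mul_eq_mul_div, div_le_div_iff₀ (by positivity) (by norm_num)]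
      nlinarith
    linarith
  have := abs_lt.1 (hb _ hI)
  linarith

/-- **255 (2)(a), 344 (8)**: on a half plane, interior cluster values must exist -/
theorem exists_cluster {g : ℂ → ℂ} {h : ℝ} (hg : DifferentiableOn ℂ g LH)
    (hb : ∀ z ∈ LH, |(g z).im| < h) :
    ∃ x : ℝ, ∃ c ∈ Ioo (-h) h, MapClusterPt c (𝓝[LH] (x : ℂ)) (fun z => (g z).im) := by
  by_contra hcon
  push Not at hcon
  have hI : (-I : ℂ) ∈ LH := by simp [LH]
  have hh : 0 < h := (abs_nonneg _).trans_lt (hb _ hI)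
  have hc : ContinuousOn (fun z => (g z).im) LH := continuous_im.comp_continuousOn hg.continuousOn
  have hall : (∀ x : ℝ, Tendsto (fun z => (g z).im) (𝓝[LH] (x : ℂ)) (𝓝 h)) ∨
      (∀ x : ℝ, Tendsto (fun z => (g z).im) (𝓝[LH] (x : ℂ)) (𝓝 (-h))) := by
    have hn : ∀ n : ℝ, 0 < n → (∀ x ∈ Ioo (-n) n, Tendsto (fun z => (g z).im) (𝓝[LH] (x : ℂ)) (𝓝 h)) ∨
        (∀ x ∈ Ioo (-n) n, Tendsto (fun z => (g z).im) (𝓝[LH] (x : ℂ)) (𝓝 (-h))) := fun n _ =>
      one_edge (H := LH) (fun x _ => ⟨1, one_pos, rfl⟩) hh hc hb (fun x _ c hc' => hcon x c hc')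
    have h0 : ∀ x : ℝ, Tendsto (fun z => (g z).im) (𝓝[LH] (x : ℂ)) (𝓝 h) →
        Tendsto (fun z => (g z).im) (𝓝[LH] (x : ℂ)) (𝓝 (-h)) → False := by
      intro x h1 h2
      have := neBot_LH x
      have := tendsto_nhds_unique h1 h2
      linarith
    rcases hn 1 one_pos with h1 | h1
    · left
      intro x
      rcases hn (|x| + 1) (by positivity) with h2 | h2
      · exact h2 x ⟨by linarith [neg_abs_le x], by linarith [le_abs_self x]⟩
      · exact (h0 0 (h1 0 (by norm_num)) (h2 0 ⟨by linarith [abs_nonneg x], by positivity⟩)).elim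
    · right
      intro x
      rcases hn (|x| + 1) (by positivity) with h2 | h2
      · exact (h0 0 (h2 0 ⟨by linarith [abs_nonneg x], by positivity⟩) (h1 0 (by norm_num))).elim
      · exact h2 x ⟨by linarith [neg_abs_le x], by linarith [le_abs_self x]⟩
  rcases hall with h1 | h1
  · exact false_of_edge hg hb h1
  · refine false_of_edge (g := fun z => - g z) (h := h) hg.neg (fun z hz => ?_) (fun x => ?_)
    · rw [neg_im, abs_neg]; exact hb z hz
    · have := (h1 x).neg
      rw [neg_neg] at this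
      exact this

end Crest.Agent.R102.OneEdge811
end
end

-- ▼ part R102/EdgeLim_196

/-!
Row 102, T1-B, EDGE (helper196): the two dimensional end of a normal window.
A label function `B` on `Lo a = {Im T < a Im ζ, Im ζ > 0}` with values in the strip, satisfying a
holomorphic relation `F (q, B q) = 0` where `F` is holomorphic also above the face, and whose
interior cluster values at the face points are all tangential, is tangential everywhere.
-/

set_option autoImplicit false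

open Set Filter Topology Metric Complex MeasureTheory

noncomputable section

namespace Crest.Agent.R102.EdgeLim196

open Crest.Agent.R102.OneEdge811

/-- below the face -/
def Lo (a : ℝ) : Set (ℂ × ℂ) := {q | 0 < q.2.im ∧ q.1.im < a * q.2.im}

/-- the face -/
def Fc (a : ℝ) : Set (ℂ × ℂ) := {q | 0 < q.2.im ∧ q.1.im = a * q.2.im}

/-- the strip -/
def Sp (h : ℝ) : Set ℂ := {z | |z.im| < h}

theorem isOpen_Lo (a : ℝ) : IsOpen (Lo a) :=
  (isOpen_lt continuous_const (continuous_im.comp continuous_snd)).inter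
    (isOpen_lt (continuous_im.comp continuous_fst)
      (continuous_const.mul (continuous_im.comp continuous_snd)))

theorem convex_Lo (a : ℝ) : Convex ℝ (Lo a) := by
  intro x hx y hy s t hs ht hst
  obtain ⟨hx1, hx2⟩ := hx
  obtain ⟨hy1, hy2⟩ := hy
  have e1 : (s • x + t • y).1.im = s * x.1.im + t * y.1.im := by simp
  have e2 : (s • x + t • y).2.im = s * x.2.im + t * y.2.im := by simp
  rcases hs.lt_or_eq with hs | hs
  · refine ⟨?_, ?_⟩
    · rw [e2]; nlinarith [mul_pos hs hx1, mul_nonneg ht hy1.le]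
    · rw [e1, e2]; nlinarith [mul_lt_mul_of_pos_left hx2 hs, mul_le_mul_of_nonneg_left hy2.le ht]
  · have ht1 : t = 1 := by linarith
    subst ht1; subst hs
    refine ⟨?_, ?_⟩
    · rw [e2]; linarith
    · rw [e1, e2]; linarith

theorem isOpen_Sp (h : ℝ) : IsOpen (Sp h) := isOpen_lt (continuous_abs.comp continuous_im) continuous_const

theorem convex_Sp (h : ℝ) : Convex ℝ (Sp h) := by
  intro x hx y hy s t hs ht hst
  have hx' : |x.im| < h := hx
  have hy' : |y.im| < h := hy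
  show |(s • x + t • y).im| < h
  have e : (s • x + t • y).im = s * x.im + t * y.im := by simp
  rw [e]
  rw [abs_lt] at *
  rcases hs.lt_or_eq with hs | hs
  · constructor <;> nlinarith [mul_lt_mul_of_pos_left hx'.1 hs, mul_lt_mul_of_pos_left hx'.2 hs,
      mul_le_mul_of_nonneg_left hy'.1.le ht, mul_le_mul_of_nonneg_left hy'.2.le ht]
  · have ht1 : t = 1 := by linarith
    subst ht1; subst hs
    constructor <;> linarith

theorem face_mem_closure {a : ℝ} {q : ℂ × ℂ} (hq : q ∈ Fc a) : (𝓝[Lo a] q).NeBot := by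
  rw [← mem_closure_iff_nhdsWithin_neBot]
  refine Metric.mem_closure_iff.2 fun ε hε => ⟨(q.1 - (ε / 2 : ℝ) * I, q.2), ⟨hq.1, ?_⟩, ?_⟩
  · have : (q.1 - (ε / 2 : ℝ) * I).im = q.1.im - ε / 2 := by simp
    show (q.1 - (ε / 2 : ℝ) * I).im < a * q.2.im
    rw [this, ← hq.2]; linarith
  · rw [Prod.dist_eq, dist_self]
    have h1 : dist q.1 (q.1 - (ε / 2 : ℝ) * I) = ε / 2 := by
      rw [dist_eq_norm]
      have : q.1 - (q.1 - (ε / 2 : ℝ) * I) = ((ε / 2 : ℝ) : ℂ) * I := by ring
      rw [this, norm_mul, norm_I, mul_one, norm_real, Real.norm_eq_abs,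
        abs_of_pos (by positivity)]
    simp only [h1]
    rw [max_eq_left (by positivity)]
    linarith

/-- zeros of a nontrivial holomorphic function of the strip: a small circle without zeros -/
theorem exists_circle {f : ℂ → ℂ} {h : ℝ} (hf : DifferentiableOn ℂ f (Sp h))
    (hne : ∃ b ∈ Sp h, f b ≠ 0) {c : ℂ} (hc : c ∈ Sp h) :
    ∃ r > 0, closedBall c r ⊆ Sp h ∧ ∀ z ∈ sphere c r, f z ≠ 0 := by
  have han : AnalyticOnNhd ℂ f (Sp h) := hf.analyticOnNhd (isOpen_Sp h)
  have h1 : ∀ᶠ z in 𝓝[≠] c, f z ≠ 0 := by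
    rcases (han c hc).eventually_eq_zero_or_eventually_ne_zero with h2 | h2
    · exfalso
      obtain ⟨b, hb, hb'⟩ := hne
      exact hb' (han.eqOn_zero_of_preconnected_of_eventuallyEq_zero
        (convex_Sp h).isPreconnected hc h2 hb)
    · exact h2
  rw [eventually_nhdsWithin_iff, Metric.eventually_nhds_iff] at h1
  obtain ⟨r1, hr1, h1⟩ := h1
  obtain ⟨r2, hr2, h2⟩ := Metric.isOpen_iff.1 (isOpen_Sp h) c hc
  refine ⟨min r1 r2 / 2, by positivity, fun z hz => h2 ?_, fun z hz => ?_⟩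
  · rw [mem_closedBall] at hz
    rw [mem_ball]
    have := min_le_right r1 r2
    have := lt_min hr1 hr2
    linarith
  · rw [mem_sphere] at hz
    have h3 := min_le_left r1 r2
    have h4 := lt_min hr1 hr2
    refine h1 (by linarith) fun h5 => ?_
    have : z = c := h5
    rw [this, dist_self] at hz
    linarith

/-- **confinement at one face point**: if `Im B` has an interior cluster value at `q0` (along `Lo`),
then `B` stays in one closed ball inside the strip near `q0`. -/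
theorem confine {a h : ℝ} {Om : Set (ℂ × ℂ)} (hOm : IsOpen Om)
    {B : ℂ × ℂ → ℂ} {F : (ℂ × ℂ) × ℂ → ℂ}
    (hB : ContinuousOn B (Lo a)) (hBm : ∀ q ∈ Lo a, |(B q).im| < h)
    (hF : DifferentiableOn ℂ F (Om ×ˢ Sp h))
    (hper : ∀ q ∈ Om, ∀ b ∈ Sp h, (F (q, b + 1) = 0 ↔ F (q, b) = 0))
    (hLO : Lo a ⊆ Om) (hinc : ∀ q ∈ Lo a, F (q, B q) = 0)
    {q0 : ℂ × ℂ} (hq0O : q0 ∈ Om) (hne : ∃ b ∈ Sp h, F (q0, b) ≠ 0)
    {c : ℝ} (hc : |c| < h) (hcl : MapClusterPt c (𝓝[Lo a] q0) (fun q => (B q).im)) :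
    ∃ ρ > 0, ∃ r > 0, ∃ β : ℂ, closedBall β r ⊆ Sp h ∧ ball q0 ρ ⊆ Om ∧
      ∀ q ∈ Lo a ∩ ball q0 ρ, B q ∈ ball β r := by
  -- integer translates
  have hint : ∀ q ∈ Om, ∀ n : ℕ, ∀ b ∈ Sp h, (F (q, b + n) = 0 ↔ F (q, b) = 0) := by
    intro q hq n
    induction n with
    | zero => intro b hb; simp
    | succ n ih =>
      intro b hb
      have hb' : b + n ∈ Sp h := by
        have : (b + n).im = b.im := by simp
        show |(b + n).im| < h
        rw [this]; exact hb
      rw [← ih b hb, ← hper q hq _ hb']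
      push_cast
      rw [add_assoc]
  have hintz : ∀ q ∈ Om, ∀ n : ℤ, ∀ b ∈ Sp h, F (q, b) = 0 → F (q, b - n) = 0 := by
    intro q hq n b hb h0
    have him : ∀ m : ℂ, m.im = 0 → b + m ∈ Sp h := by
      intro m hm
      show |(b + m).im| < h
      rw [add_im, hm, add_zero]; exact hb
    obtain ⟨k, rfl | rfl⟩ := n.eq_nat_or_neg
    · have h1 := (hint q hq k (b - k) (by
        rw [sub_eq_add_neg]; exact him _ (by simp))).1 (by rw [sub_add_cancel]; exact h0)
      simpa using h1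
    · have h1 := (hint q hq k b hb).2 h0
      have : b - ((-(k : ℤ) : ℤ) : ℂ) = b + k := by push_cast; ring
      rw [this]; exact h1
  -- reduced label
  set bt : ℂ × ℂ → ℂ := fun q => B q - (⌊(B q).re⌋ : ℤ) with hbt
  set δ : ℝ := (h - |c|) / 2 with hδ
  have hδ0 : 0 < δ := by rw [hδ]; linarith
  set K : Set ℂ := Icc (0 : ℝ) 1 ×ℂ Icc (c - δ) (c + δ) with hK
  have hKc : IsCompact K := isCompact_Icc.reProdIm isCompact_Icc
  have hKs : K ⊆ Sp h := by
    intro z hz
    have h2 : z.im ∈ Icc (c - δ) (c + δ) := (mem_reProdIm.1 hz).2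
    show |z.im| < h
    rw [abs_lt]
    have h3 := neg_abs_le c
    have h4 := le_abs_self c
    rw [hδ] at h2
    constructor <;> linarith [h2.1, h2.2]
  have hfr : ∃ᶠ q in 𝓝[Lo a] q0, bt q ∈ K := by
    have h1 : ∃ᶠ q in 𝓝[Lo a] q0, (B q).im ∈ Ioo (c - δ) (c + δ) :=
      hcl.frequently (Ioo_mem_nhds (by linarith) (by linarith))
    refine h1.mono fun q hq => ?_
    rw [hK, mem_reProdIm]
    have e1 : (bt q).re = Int.fract (B q).re := by
      show (B q - ((⌊(B q).re⌋ : ℤ) : ℂ)).re = _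
      rw [sub_re, intCast_re, Int.self_sub_floor]
    have e2 : (bt q).im = (B q).im := by simp [hbt]
    refine ⟨?_, ?_⟩
    · rw [e1]; exact ⟨Int.fract_nonneg _, (Int.fract_lt_one _).le⟩
    · rw [e2]; exact ⟨hq.1.le, hq.2.le⟩
  obtain ⟨b0, hb0K, hb0⟩ := hKc.exists_mapClusterPt_of_frequently hfr
  have hb0s := hKs hb0K
  -- a circle without zeros
  have hFq : DifferentiableOn ℂ (fun z => F (q0, z)) (Sp h) := by
    have : DifferentiableOn ℂ (F ∘ fun z : ℂ => (q0, z)) (Sp h) :=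
      hF.comp (by fun_prop) (fun z hz => ⟨hq0O, hz⟩)
    exact this
  obtain ⟨r, hr, hrs, hcirc⟩ := exists_circle hFq hne hb0s
  -- tube
  have hO2 : IsOpen ((Om ×ˢ Sp h) ∩ F ⁻¹' {0}ᶜ) :=
    hF.continuousOn.isOpen_inter_preimage (hOm.prod (isOpen_Sp h)) isOpen_compl_singleton
  obtain ⟨U, W, hU, hW, hqU, hsW, hUW⟩ := generalized_tube_lemma (isCompact_singleton (x := q0))
    (isCompact_sphere b0 r) hO2 (by
      rintro ⟨q, b⟩ ⟨hq, hb⟩
      have hq' : q = q0 := hq
      subst hq'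
      exact ⟨⟨hq0O, hrs (sphere_subset_closedBall hb)⟩, hcirc b hb⟩)
  obtain ⟨ρ1, hρ1, hρU⟩ := Metric.isOpen_iff.1 hU q0 (hqU rfl)
  obtain ⟨ρ2, hρ2, hρO⟩ := Metric.isOpen_iff.1 hOm q0 hq0O
  set ρ := min ρ1 ρ2 with hρ
  have hρ0 : 0 < ρ := lt_min hρ1 hρ2
  -- a starting point
  have hst : ∃ q ∈ Lo a ∩ ball q0 ρ, bt q ∈ ball b0 r := by
    have h1 : ∃ᶠ q in 𝓝[Lo a] q0, bt q ∈ ball b0 r := hb0.frequently (ball_mem_nhds b0 hr)
    have h2 : ∀ᶠ q in 𝓝[Lo a] q0, q ∈ Lo a ∩ ball q0 ρ :=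
      (eventually_mem_nhdsWithin).and (mem_nhdsWithin_of_mem_nhds (ball_mem_nhds q0 hρ0))
    obtain ⟨q, h3, h4⟩ := (h1.and_eventually h2).exists
    exact ⟨q, h4, h3⟩
  obtain ⟨q1, hq1, hq1b⟩ := hst
  set m : ℤ := ⌊(B q1).re⌋ with hm
  refine ⟨ρ, hρ0, r, hr, b0 + m, ?_, (ball_subset_ball (min_le_right _ _)).trans hρO, ?_⟩
  · intro z hz
    have h1 : z - m ∈ closedBall b0 r := by
      rw [mem_closedBall, dist_eq_norm] at hz ⊢
      have : z - m - b0 = z - (b0 + m) := by ring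
      rw [this]; exact hz
    have h2 : |(z - m).im| < h := hrs h1
    have h3 : (z - m).im = z.im := by simp
    show |z.im| < h
    rwa [h3] at h2
  · have hpre : IsPreconnected ((fun q => ‖B q - m - b0‖) '' (Lo a ∩ ball q0 ρ)) := by
      refine ((convex_Lo a).inter (convex_ball q0 ρ)).isPreconnected.image _ ?_
      have := hB.mono (inter_subset_left (s := Lo a) (t := ball q0 ρ))
      fun_prop
    have hav : ∀ q ∈ Lo a ∩ ball q0 ρ, ‖B q - m - b0‖ ≠ r := by
      intro q hq hcon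
      have hqO := hLO hq.1
      have h1 : F (q, B q - m) = 0 := hintz q hqO m (B q) (hBm q hq.1) (hinc q hq.1)
      have h2 : B q - m ∈ sphere b0 r := by rw [mem_sphere, dist_eq_norm]; exact hcon
      have h3 := hUW (mk_mem_prod (hρU (ball_subset_ball (min_le_left _ _) hq.2)) (hsW h2))
      exact h3.2 h1
    have hone : ‖B q1 - m - b0‖ < r := by
      have := hq1b
      rw [mem_ball, dist_eq_norm] at this
      exact this
    intro q hq
    have : ‖B q - m - b0‖ < r := by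
      by_contra hcon
      push Not at hcon
      have h4 := hpre.ordConnected.out ⟨q1, hq1, rfl⟩ ⟨q, hq, rfl⟩ ⟨hone.le, hcon⟩
      obtain ⟨q2, hq2, h5⟩ := h4
      exact hav q2 hq2 h5
    rw [mem_ball, dist_eq_norm]
    have e : B q - (b0 + m) = B q - m - b0 := by ring
    rw [e]; exact this

/-- a holomorphic function of the lower half plane tending to `0` at the points of an interval -/
theorem lh_zero {g : ℂ → ℂ} (hg : DifferentiableOn ℂ g LH) {x ρ : ℝ} (hρ : 0 < ρ)
    (hlim : ∀ y : ℝ, |y - x| < ρ → Tendsto g (𝓝[LH] (y : ℂ)) (𝓝 0)) : ∀ z ∈ LH, g z = 0 := by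
  set V : Set ℂ := {z | 0 < z.im} with hV
  have hVo : IsOpen V := isOpen_lt continuous_const continuous_im
  have hmap : ∀ z ∈ V, -z ∈ LH := by
    intro z hz
    show (-z).im < 0
    have : 0 < z.im := hz
    simp; exact this
  have hf : DifferentiableOn ℂ (fun z => g (-z)) V :=
    hg.comp (by fun_prop) hmap
  have hE : volume (Ioo (-x - ρ) (-x + ρ)) ≠ 0 := by
    rw [Real.volume_Ioo]
    simp only [ne_eq, ENNReal.ofReal_eq_zero, not_le]
    linarith
  obtain ⟨z, hz, hz0⟩ := LP472.lusin_privalov hVo hf (a := 1) one_pos hE (by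
    intro y hy
    refine ⟨1, one_pos, fun z hz => hz.1, ?_⟩
    have h1 := hlim (-y) (by rw [abs_lt]; constructor <;> linarith [hy.1, hy.2])
    refine h1.comp ?_
    refine tendsto_nhdsWithin_iff.2 ⟨?_, ?_⟩
    · have : Tendsto (fun z : ℂ => -z) (𝓝 (y : ℂ)) (𝓝 (-(y : ℂ))) := tendsto_neg _
      have h3 := this.mono_left (nhdsWithin_le_nhds (s := LP472.Cone 1 1 y))
      push_cast
      exact h3
    · filter_upwards [self_mem_nhdsWithin] with z hz
      exact hmap z hz.1)
  have han : AnalyticOnNhd ℂ g LH := hg.analyticOnNhd isOpen_LH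
  have hz' : g =ᶠ[𝓝 (-z)] 0 := by
    have h1 : Tendsto (fun w : ℂ => -w) (𝓝 (-z)) (𝓝 z) := by
      have := tendsto_neg (-z)
      rwa [neg_neg] at this
    have h2 := h1.eventually hz0
    filter_upwards [h2] with w hw
    simpa using hw
  exact fun w hw => han.eqOn_zero_of_preconnected_of_eventuallyEq_zero
    convex_LH.isPreconnected (hmap z hz) hz' hw

/-- **the end of a normal window** -/
theorem tangential {a h : ℝ} {Om : Set (ℂ × ℂ)} (hOm : IsOpen Om) (hLO : Lo a ⊆ Om)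
    (hFO : Fc a ⊆ Om) {B : ℂ × ℂ → ℂ} {F : (ℂ × ℂ) × ℂ → ℂ}
    (hB : DifferentiableOn ℂ B (Lo a)) (hBm : ∀ q ∈ Lo a, |(B q).im| < h)
    (hF : DifferentiableOn ℂ F (Om ×ˢ {z : ℂ | |z.im| < h}))
    (hper : ∀ q ∈ Om, ∀ b : ℂ, |b.im| < h → (F (q, b + 1) = 0 ↔ F (q, b) = 0))
    (hne : ∀ q ∈ Fc a, ∃ b : ℂ, |b.im| < h ∧ F (q, b) ≠ 0)
    (hinc : ∀ q ∈ Lo a, F (q, B q) = 0)
    (hbirth : ∀ q ∈ Fc a, ∀ b : ℂ, |b.im| < h → MapClusterPt b (𝓝[Lo a] q) B →
      deriv (fun z => F (q, z)) b = 0) :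
    ∀ q ∈ Lo a, deriv (fun z => F (q, z)) (B q) = 0 := by
  have hOS : IsOpen (Om ×ˢ Sp h) := hOm.prod (isOpen_Sp h)
  have hFan : AnalyticOnNhd ℂ F (Om ×ˢ Sp h) :=
    R266.SCV.analyticOnNhd_of_differentiableOn hOS hF
  -- the partial derivative
  set D : (ℂ × ℂ) × ℂ → ℂ := fun x => fderiv ℂ F x (0, 1) with hD
  have hDan : AnalyticOnNhd ℂ D (Om ×ˢ Sp h) := by
    intro x hx
    exact ((ContinuousLinearMap.apply ℂ ℂ ((0, 1) : (ℂ × ℂ) × ℂ)).analyticAt _).comp
      (hFan.fderiv x hx)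
  have hDd : ∀ q ∈ Om, ∀ b ∈ Sp h, deriv (fun z => F (q, z)) b = D (q, b) := by
    intro q hq b hb
    have h1 : HasFDerivAt F (fderiv ℂ F (q, b)) (q, b) :=
      (hFan (q, b) ⟨hq, hb⟩).differentiableAt.hasFDerivAt
    have h2 : HasDerivAt (fun z : ℂ => ((q, z) : (ℂ × ℂ) × ℂ)) (0, 1) b :=
      (hasDerivAt_const b q).prodMk (hasDerivAt_id b)
    exact (h1.comp_hasDerivAt b h2).deriv
  set G : ℂ × ℂ → ℂ := fun q => D (q, B q) with hG
  have hLoB : ∀ q ∈ Lo a, (q, B q) ∈ Om ×ˢ Sp h := fun q hq => ⟨hLO hq, hBm q hq⟩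
  have hGd : DifferentiableOn ℂ G (Lo a) :=
    hDan.differentiableOn.comp (differentiableOn_id.prodMk hB) hLoB
  suffices hG0 : ∀ q ∈ Lo a, G q = 0 by
    intro q hq
    rw [hDd q (hLO hq) _ (hBm q hq)]
    exact hG0 q hq
  -- an interior cluster value on the slice `ζ = i`
  set sl : ℂ → ℂ → ℂ × ℂ := fun ζ z => (z + (a * ζ.im : ℝ) * I, ζ) with hsl
  have hslLo : ∀ ζ : ℂ, 0 < ζ.im → ∀ z ∈ LH, sl ζ z ∈ Lo a := by
    intro ζ hζ z hz
    have hz' : z.im < 0 := hz
    refine ⟨hζ, ?_⟩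
    show (z + (a * ζ.im : ℝ) * I).im < a * ζ.im
    simp
    exact hz'
  have hslFc : ∀ ζ : ℂ, 0 < ζ.im → ∀ x : ℝ, sl ζ x ∈ Fc a := by
    intro ζ hζ x
    refine ⟨hζ, ?_⟩
    show ((x : ℂ) + (a * ζ.im : ℝ) * I).im = a * ζ.im
    simp
  have hslc : ∀ ζ : ℂ, Continuous (sl ζ) := fun ζ => by fun_prop
  have hsld : ∀ ζ : ℂ, Differentiable ℂ (sl ζ) := fun ζ => by
    rw [hsl]; fun_prop
  have hI1 : (0 : ℝ) < (I : ℂ).im := by simp
  obtain ⟨x, c, hcI, hcl⟩ := exists_cluster (g := fun z => B (sl I z)) (h := h)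
    (hB.comp (hsld I).differentiableOn (hslLo I hI1)) (fun z hz => hBm _ (hslLo I hI1 z hz))
  have hslt : ∀ ζ : ℂ, 0 < ζ.im → ∀ x : ℝ, Tendsto (sl ζ) (𝓝[LH] (x : ℂ)) (𝓝[Lo a] (sl ζ x)) := by
    intro ζ hζ x
    refine tendsto_nhdsWithin_iff.2 ⟨((hslc ζ).tendsto _).mono_left nhdsWithin_le_nhds, ?_⟩
    filter_upwards [self_mem_nhdsWithin] with z hz
    exact hslLo ζ hζ z hz
  have hq0 := hslFc I hI1 x
  set q0 := sl I (x : ℂ) with hq0d
  have hcl2 : MapClusterPt c (𝓝[Lo a] q0) (fun q => (B q).im) := by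
    have h1 : MapClusterPt c (map (sl I) (𝓝[LH] (x : ℂ))) (fun q => (B q).im) := by
      rw [mapClusterPt_def] at hcl ⊢
      rw [Filter.map_map]
      exact hcl
    exact h1.mono (hslt I hI1 x)
  obtain ⟨ρ, hρ, r, hr, β, hβ, hρO, hconf⟩ := confine hOm hB.continuousOn hBm hF hper hLO hinc
    (hFO hq0) (hne q0 hq0) (abs_lt.2 hcI) hcl2
  -- `G → 0` at the face points near `q0`
  have hGlim : ∀ q ∈ Fc a, q ∈ ball q0 ρ → Tendsto G (𝓝[Lo a] q) (𝓝 0) := by
    intro q hq hqρ
    by_contra hcon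
    rw [Metric.tendsto_nhds] at hcon
    push Not at hcon
    obtain ⟨ε, hε, hfr⟩ := hcon
    have hfr2 : ∃ᶠ q' in 𝓝[Lo a] q, ε ≤ ‖G q'‖ := by
      refine hfr.mono fun q' hq' => ?_
      rwa [dist_zero_right] at hq'
    set 𝓖 : Filter (ℂ × ℂ) := 𝓝[Lo a] q ⊓ 𝓟 {q' | ε ≤ ‖G q'‖} with h𝓖
    have hne𝓖 : 𝓖.NeBot := frequently_mem_iff_neBot.1 hfr2
    have hev : ∀ᶠ q' in 𝓖, B q' ∈ closedBall β r := by
      have h1 : ∀ᶠ q' in 𝓝[Lo a] q, q' ∈ Lo a ∩ ball q0 ρ :=
        eventually_mem_nhdsWithin.and (mem_nhdsWithin_of_mem_nhds (isOpen_ball.mem_nhds hqρ))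
      exact (h1.filter_mono inf_le_left).mono fun q' hq' => ball_subset_closedBall (hconf q' hq')
    obtain ⟨b, hbK, hb⟩ := (isCompact_closedBall β r).exists_mapClusterPt_of_frequently
      (l := 𝓖) (f := B) hev.frequently
    have hbs : b ∈ Sp h := hβ hbK
    have hD0 : D (q, b) = 0 := by
      rw [← hDd q (hFO hq) b hbs]
      exact hbirth q hq b hbs (hb.mono inf_le_left)
    have hDc : ContinuousAt D (q, b) := (hDan (q, b) ⟨hFO hq, hbs⟩).continuousAt
    have h2 : ∀ᶠ y in 𝓝 (q, b), ‖D y‖ < ε := by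
      have := hDc.norm
      rw [ContinuousAt, hD0, norm_zero] at this
      exact this.eventually (gt_mem_nhds hε)
    rw [nhds_prod_eq] at h2
    obtain ⟨pa, hpa, pb, hpb, hpp⟩ := eventually_prod_iff.1 h2
    have h3 : ∃ᶠ q' in 𝓖, pb (B q') := hb.frequently hpb
    have h4 : ∀ᶠ q' in 𝓖, pa q' := by
      refine (hpa.filter_mono ?_)
      exact inf_le_left.trans nhdsWithin_le_nhds
    have h5 : ∀ᶠ q' in 𝓖, ε ≤ ‖G q'‖ := by
      exact mem_inf_of_right (mem_principal_self _)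
    obtain ⟨q', h6, h7, h8⟩ := (h3.and_eventually (h4.and h5)).exists
    exact absurd (hpp h7 h6) (not_lt.2 h8)
  -- all slices near `ζ = i`
  have hslice : ∀ ζ : ℂ, 0 < ζ.im → sl ζ x ∈ ball q0 ρ → ∀ z ∈ LH, G (sl ζ z) = 0 := by
    intro ζ hζ hζρ
    obtain ⟨r', hr', hsub⟩ := Metric.isOpen_iff.1 ((isOpen_ball (x := q0) (ε := ρ)).preimage (hslc ζ))
      (x : ℂ) hζρ
    refine lh_zero (x := x) (g := fun z => G (sl ζ z)) (hGd.comp (hsld ζ).differentiableOn (hslLo ζ hζ)) hr' ?_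
    intro y hy
    have hy2 : sl ζ y ∈ ball q0 ρ := by
      apply hsub
      rw [mem_ball, dist_eq_norm, ← ofReal_sub, norm_real, Real.norm_eq_abs]
      exact hy
    exact (hGlim (sl ζ y) (hslFc ζ hζ y) hy2).comp (hslt ζ hζ y)
  -- identity theorem
  have hGan : AnalyticOnNhd ℂ G (Lo a) :=
    R266.SCV.analyticOnNhd_of_differentiableOn (isOpen_Lo a) hGd
  have hslζ : Continuous fun ζ : ℂ => sl ζ (x : ℂ) := by
    rw [hsl]; fun_prop
  have hnear : ∀ᶠ ζ in 𝓝 (I : ℂ), 0 < ζ.im ∧ sl ζ x ∈ ball q0 ρ := by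
    have h1 : ∀ᶠ ζ in 𝓝 (I : ℂ), 0 < ζ.im :=
      (isOpen_lt continuous_const continuous_im).mem_nhds (by simp)
    exact h1.and ((isOpen_ball.preimage hslζ).mem_nhds (mem_ball_self hρ))
  have hp0 : sl I (-I) ∈ Lo a := hslLo I hI1 _ (by simp [LH])
  have hev0 : G =ᶠ[𝓝 (sl I (-I))] 0 := by
    have h1 : ∀ᶠ q in 𝓝 (sl I (-I)), (0 < q.2.im ∧ sl q.2 x ∈ ball q0 ρ) :=
      (continuous_snd.tendsto (sl I (-I))).eventually hnear
    filter_upwards [h1, (isOpen_Lo a).mem_nhds hp0] with q hq1 hq2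
    have h2 := hslice q.2 hq1.1 hq1.2 (q.1 - (a * q.2.im : ℝ) * I) (by
      show (q.1 - (a * q.2.im : ℝ) * I).im < 0
      have := hq2.2
      simp
      linarith)
    have h3 : sl q.2 (q.1 - (a * q.2.im : ℝ) * I) = q := by
      rw [hsl]; ext <;> simp
    rw [h3] at h2
    exact h2
  exact fun q hq => hGan.eqOn_zero_of_preconnected_of_eventuallyEq_zero
    (convex_Lo a).isPreconnected hp0 hev0 hq

end Crest.Agent.R102.EdgeLim196
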