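import Mathlib
import Crest.Agent.R102.End_613
import Crest.Agent.R102.LimA_985
import Crest.Agent.R102.EdgeLim_196
import Crest.Agent.R102.Face2_300

-- ▼ part R102/Reg3_985
section

/-!
Row 102, T1-B, EDGE: uniform implicit function theorem for `∑ c_j(x) f_j(b) = 0` (helper985).
-/

set_option autoImplicit false
set_option linter.unusedSectionVars false
set_option linter.unusedVariables false

open Set Filter Topology Metric Complex

noncomputable section

namespace Crest.Agent.R102.Reg985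

open Crest.Agent.R102.End613

variable {E : Type*} [NormedAddCommGroup E] [NormedSpace ℂ E] [FiniteDimensional ℂ E]
variable {ι : Type*}

/-- **uniform implicit function theorem**, `∑_j c_j(x) f_j(b) = 0` near a transversal zero -/
theorem reg3 {l : Filter ι} {q₀ : E} {J : Type*} [Fintype J] {f : J → ℂ → ℂ} {W : Set ℂ}
    (hW : IsOpen W) {b₁ : ℂ} (hb₁ : b₁ ∈ W) (hf : ∀ j, DifferentiableOn ℂ (f j) W)
    {c : J → ι → E → ℂ} {c' : J → ℂ}
    (hc : ∀ ε > 0, ∃ r > 0, ∀ᶠ n in l, ∀ j, DifferentiableOn ℂ (c j n) (ball q₀ r) ∧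
      ∀ x ∈ ball q₀ r, ‖c j n x - c' j‖ ≤ ε)
    (h0 : ∑ j, c' j * f j b₁ = 0) (h1 : ∑ j, c' j * deriv (f j) b₁ ≠ 0) {r₁ : ℝ} (hr₁ : 0 < r₁)
    {ε₁ : ℝ} (hε₁ : 0 < ε₁) :
    ∃ ρ > 0, ρ ≤ ε₁ ∧ closedBall b₁ ρ ⊆ W ∧ ∃ r > 0, r ≤ r₁ ∧ ∀ᶠ n in l, ∃ G : E → ℂ,
      DifferentiableOn ℂ G (ball q₀ r) ∧
      (∀ x ∈ ball q₀ r, G x ∈ closedBall b₁ ρ ∧ ∑ j, c j n x * f j (G x) = 0) ∧
      ∀ x ∈ ball q₀ r, ∀ b ∈ closedBall b₁ ρ, ∑ j, c j n x * f j b = 0 → b = G x := by
  classical
  set D0 : ℂ := ∑ j, c' j * deriv (f j) b₁ with hD0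
  set a : ℝ := ‖D0‖ with ha
  have ha0 : 0 < a := norm_pos_iff.2 h1
  -- derivatives are continuous
  have hdc : ContinuousOn (fun b => ∑ j, c' j * deriv (f j) b) W :=
    continuousOn_finsetSum _ fun j _ =>
      continuousOn_const.mul ((hf j).deriv hW).continuousOn
  have hat : ContinuousAt (fun b => ∑ j, c' j * deriv (f j) b) b₁ := hdc.continuousAt (hW.mem_nhds hb₁)
  obtain ⟨ρ1, hρ1, hρ1a⟩ := Metric.continuousAt_iff.1 hat (a / 8) (by positivity)
  obtain ⟨ρ2, hρ2, hρ2W⟩ := Metric.isOpen_iff.1 hW b₁ hb₁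
  set ρ : ℝ := min ε₁ (min (ρ1 / 2) (ρ2 / 2)) with hρ
  have hρ0 : 0 < ρ := by rw [hρ]; positivity
  have hρε : ρ ≤ ε₁ := min_le_left _ _
  have hρρ1 : ρ ≤ ρ1 / 2 := (min_le_right _ _).trans (min_le_left _ _)
  have hρρ2 : ρ ≤ ρ2 / 2 := (min_le_right _ _).trans (min_le_right _ _)
  have hρW : closedBall b₁ ρ ⊆ W := (closedBall_subset_ball (by linarith)).trans hρ2W
  -- bounds
  have hbd : ∃ M : ℝ, 1 ≤ M ∧ ∀ b ∈ closedBall b₁ ρ, ∑ j, ‖f j b‖ ≤ M ∧
      ∑ j, ‖deriv (f j) b‖ ≤ M := by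
    have hK : IsCompact (closedBall b₁ ρ) := isCompact_closedBall _ _
    have c1 : ContinuousOn (fun b => ∑ j, ‖f j b‖) (closedBall b₁ ρ) :=
      continuousOn_finsetSum _ fun j _ => ((hf j).continuousOn.mono hρW).norm
    have c2 : ContinuousOn (fun b => ∑ j, ‖deriv (f j) b‖) (closedBall b₁ ρ) :=
      continuousOn_finsetSum _ fun j _ => (((hf j).deriv hW).continuousOn.mono hρW).norm
    obtain ⟨M1, hM1⟩ := hK.bddAbove_image c1
    obtain ⟨M2, hM2⟩ := hK.bddAbove_image c2
    refine ⟨max 1 (max M1 M2), le_max_left _ _, fun b hb => ⟨?_, ?_⟩⟩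
    · exact (hM1 (mem_image_of_mem _ hb)).trans ((le_max_left _ _).trans (le_max_right _ _))
    · exact (hM2 (mem_image_of_mem _ hb)).trans ((le_max_right _ _).trans (le_max_right _ _))
  obtain ⟨M, hM1, hM⟩ := hbd
  set ε : ℝ := min (a / 8) (a * ρ / 2) / M with hε
  have hM0 : 0 < M := by linarith
  have hε0 : 0 < ε := by rw [hε]; positivity
  have hεM : ε * M = min (a / 8) (a * ρ / 2) := by rw [hε]; field_simp
  have hεM1 : ε * M ≤ a / 8 := by rw [hεM]; exact min_le_left _ _
  have hεM2 : ε * M ≤ a * ρ / 2 := by rw [hεM]; exact min_le_right _ _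
  obtain ⟨r0, hr0, hcr⟩ := hc ε hε0
  refine ⟨ρ, hρ0, hρε, hρW, min r0 r₁, lt_min hr0 hr₁, min_le_right _ _, ?_⟩
  filter_upwards [hcr] with n hn
  have hsub : ball q₀ (min r0 r₁) ⊆ ball q₀ r0 := ball_subset_ball (min_le_left _ _)
  have hsmall : ∀ x ∈ ball q₀ (min r0 r₁), ∀ g : J → ℂ, ∑ j, ‖g j‖ ≤ M →
      ‖∑ j, (c j n x - c' j) * g j‖ ≤ ε * M := by
    intro x hx g hg
    calc ‖∑ j, (c j n x - c' j) * g j‖ ≤ ∑ j, ‖(c j n x - c' j) * g j‖ := norm_sum_le _ _
      _ ≤ ∑ j, ε * ‖g j‖ := by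
          refine Finset.sum_le_sum fun j _ => ?_
          rw [norm_mul]
          exact mul_le_mul_of_nonneg_right ((hn j).2 x (hsub hx)) (norm_nonneg _)
      _ = ε * ∑ j, ‖g j‖ := by rw [Finset.mul_sum]
      _ ≤ ε * M := by gcongr
  have hF : ∀ g : E → ℂ, DifferentiableOn ℂ g (ball q₀ (min r0 r₁)) →
      (∀ x ∈ ball q₀ (min r0 r₁), g x ∈ closedBall b₁ ρ) →
      DifferentiableOn ℂ (fun x => ∑ j, c j n x * f j (g x)) (ball q₀ (min r0 r₁)) := by
    intro g hg hgm
    refine DifferentiableOn.fun_sum fun j _ => ?_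
    exact ((hn j).1.mono hsub).mul ((hf j).comp hg fun x hx => hρW (hgm x hx))
  obtain ⟨G, hG, hG1, hG2⟩ := newton (V := ball q₀ (min r0 r₁)) isOpen_ball (b₀ := b₁) hρ0
    (F := fun b x => ∑ j, c j n x * f j b) (A := fun _ => D0) hF (differentiableOn_const _) ha0
    (fun x hx => le_refl _) (fun x hx => by
      have e1 : ∑ j, c j n x * f j b₁ = ∑ j, (c j n x - c' j) * f j b₁ := by
        rw [← sub_zero (∑ j, c j n x * f j b₁), ← h0, ← Finset.sum_sub_distrib]
        exact Finset.sum_congr rfl fun j _ => by ring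
      rw [e1]
      exact (hsmall x hx _ (hM b₁ (mem_closedBall_self hρ0.le)).1).trans hεM2)
    (fun x hx b hb b' hb' => by
      have hder : ∀ z ∈ closedBall b₁ ρ, HasDerivWithinAt
          (fun b => (∑ j, c j n x * f j b) - D0 * b)
          ((∑ j, c j n x * deriv (f j) z) - D0) (closedBall b₁ ρ) z := by
        intro z hz
        have hz1 : ∀ j, HasDerivAt (f j) (deriv (f j) z) z := fun j =>
          ((hf j).differentiableAt (hW.mem_nhds (hρW hz))).hasDerivAt
        have h2 : HasDerivAt (fun b => ∑ j, c j n x * f j b)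
            (∑ j, c j n x * deriv (f j) z) z :=
          HasDerivAt.fun_sum fun j _ => (hz1 j).const_mul _
        have h3 : HasDerivAt (fun b : ℂ => D0 * b) (D0 * 1) z := (hasDerivAt_id z).const_mul D0
        rw [mul_one] at h3
        exact (h2.sub h3).hasDerivWithinAt
      have hbound : ∀ z ∈ closedBall b₁ ρ, ‖(∑ j, c j n x * deriv (f j) z) - D0‖ ≤ a / 4 := by
        intro z hz
        have e1 : (∑ j, c j n x * deriv (f j) z) - D0 =
            (∑ j, (c j n x - c' j) * deriv (f j) z) + ((∑ j, c' j * deriv (f j) z) - D0) := by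
          have : ∑ j, c j n x * deriv (f j) z = (∑ j, (c j n x - c' j) * deriv (f j) z) +
              ∑ j, c' j * deriv (f j) z := by
            rw [← Finset.sum_add_distrib]
            exact Finset.sum_congr rfl fun j _ => by ring
          rw [this]; ring
        have h4 : ‖(∑ j, c' j * deriv (f j) z) - D0‖ ≤ a / 8 := by
          have h5 : dist z b₁ < ρ1 := by
            rw [mem_closedBall] at hz; linarith
          have h6 := hρ1a h5
          rw [dist_eq_norm] at h6
          exact h6.le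
        rw [e1]
        calc _ ≤ ‖∑ j, (c j n x - c' j) * deriv (f j) z‖ + ‖(∑ j, c' j * deriv (f j) z) - D0‖ :=
              norm_add_le _ _
          _ ≤ a / 8 + a / 8 := add_le_add ((hsmall x hx _ (hM z hz).2).trans hεM1) h4
          _ = a / 4 := by ring
      have h7 := (convex_closedBall b₁ ρ).norm_image_sub_le_of_norm_hasDerivWithin_le
        hder hbound hb' hb
      have e2 : (∑ j, c j n x * f j b) - (∑ j, c j n x * f j b') - D0 * (b - b') =
          ((∑ j, c j n x * f j b) - D0 * b) - ((∑ j, c j n x * f j b') - D0 * b') := by ring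
      rw [e2]
      exact h7)
  exact ⟨G, hG, hG1, hG2⟩

end Crest.Agent.R102.Reg985
end
end

-- ▼ part R102/EdgeA_985

/-!
Row 102, T1-B, EDGE (a) (619 #28986): cusp windows are impossible (helper985).
Abstract form: a sequence of windows along an ultrafilter, labels `B n` on `Lo a`, lines
`(φ n, p n)` on `Lo (a + g)`.
-/

set_option autoImplicit false
set_option linter.unusedSectionVars false
set_option linter.unusedVariables false

open Set Filter Topology Metric Complex
open scoped Real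

noncomputable section

namespace Crest.Agent.R102.EdgeA985

open Crest.Agent.R102.LimA985 Crest.Agent.R102.Reg985 Crest.Agent.R102.EdgeLim196

/-- regular isotropic coordinate `ψ' Z` -/
def A1 (ψ H : ℂ → ℂ) (z : ℂ) : ℂ := cexp (I * ψ z) * (I * (deriv ψ z * H z) - deriv H z)

/-- regular isotropic coordinate `ψ' Zc` -/
def A2 (ψ H : ℂ → ℂ) (z : ℂ) : ℂ := cexp (-(I * ψ z)) * (-(I * (deriv ψ z * H z)) - deriv H z)

theorem inc_iff (ψ H : ℂ → ℂ) (φ p b : ℂ) :
    F300.Inc ψ H φ p b ↔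
      A1 ψ H b - cexp (2 * I * φ) * A2 ψ H b = 2 * I * p * cexp (I * φ) * deriv ψ b := by
  have e1 : cexp (I * (φ - ψ b)) = cexp (I * φ) * cexp (-(I * ψ b)) := by
    rw [← Complex.exp_add]; congr 1; ring
  have e2 : cexp (-(I * (φ - ψ b))) = cexp (-(I * φ)) * cexp (I * ψ b) := by
    rw [← Complex.exp_add]; congr 1; ring
  have e3 : cexp (2 * I * φ) = cexp (I * φ) * cexp (I * φ) := by
    rw [← Complex.exp_add]; congr 1; ring
  have e4 : cexp (I * φ) * cexp (-(I * φ)) = 1 := by rw [← Complex.exp_add]; simp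
  have hc : Complex.cos (φ - ψ b) =
      (cexp (I * φ) * cexp (-(I * ψ b)) + cexp (-(I * φ)) * cexp (I * ψ b)) / 2 := by
    rw [← e1, ← e2, Complex.cos]
    congr 2
    · congr 1; ring
    · congr 1; ring
  have hs : Complex.sin (φ - ψ b) =
      (cexp (-(I * φ)) * cexp (I * ψ b) - cexp (I * φ) * cexp (-(I * ψ b))) * I / 2 := by
    rw [← e1, ← e2, Complex.sin]
    congr 3
    · congr 1; ring
    · congr 1; ring
  have hne : cexp (I * φ) ≠ 0 := Complex.exp_ne_zero _
  have hI : I * I = -1 := Complex.I_mul_I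
  unfold F300.Inc A1 A2
  rw [hc, hs, e3]
  set x := cexp (I * φ)
  set x' := cexp (-(I * φ))
  set w := cexp (I * ψ b)
  set w' := cexp (-(I * ψ b))
  constructor
  · intro h
    have h2 : 2 * I * p * x * deriv ψ b = 2 * I * x * (deriv ψ b * H b * ((x * w' + x' * w) / 2) +
        deriv H b * ((x' * w - x * w') * I / 2)) := by rw [← h]; ring
    rw [h2]
    linear_combination (-I * deriv ψ b * H b * w + deriv H b * w) * e4 - (deriv H b * w * x * x' - deriv H b * w' * x * x) * hI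
  · intro h
    have h3 : 2 * I * x * (deriv ψ b * p - (deriv ψ b * H b * ((x * w' + x' * w) / 2) +
        deriv H b * ((x' * w - x * w') * I / 2))) = 0 := by
      linear_combination (-1 : ℂ) * h + (-I * deriv ψ b * H b * w + deriv H b * w) * e4 - (deriv H b * w * x * x' - deriv H b * w' * x * x) * hI
    rcases mul_eq_zero.1 h3 with h4 | h4
    · exfalso
      rcases mul_eq_zero.1 h4 with h5 | h5
      · rcases mul_eq_zero.1 h5 with h6 | h6
        · norm_num at h6
        · exact Complex.I_ne_zero h6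
      · exact hne h5
    · exact sub_eq_zero.1 h4

variable {h : ℝ} {ψ H : ℂ → ℂ} {c : ℂ}

theorem A1_deriv (hψ : DifferentiableOn ℂ ψ (Sp h)) (hH : DifferentiableOn ℂ H (Sp h)) {z : ℂ}
    (hz : z ∈ Sp h) :
    HasDerivAt (A1 ψ H) (cexp (I * ψ z) * (I * deriv ψ z) * (I * (deriv ψ z * H z) - deriv H z) +
      cexp (I * ψ z) * (I * (deriv (deriv ψ) z * H z + deriv ψ z * deriv H z) -
        deriv (deriv H) z)) z := by
  have hS := isOpen_Sp h
  have d1 : HasDerivAt ψ (deriv ψ z) z := (hψ.differentiableAt (hS.mem_nhds hz)).hasDerivAt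
  have d2 : HasDerivAt H (deriv H z) z := (hH.differentiableAt (hS.mem_nhds hz)).hasDerivAt
  have d3 : HasDerivAt (deriv ψ) (deriv (deriv ψ) z) z :=
    ((hψ.deriv hS).differentiableAt (hS.mem_nhds hz)).hasDerivAt
  have d4 : HasDerivAt (deriv H) (deriv (deriv H) z) z :=
    ((hH.deriv hS).differentiableAt (hS.mem_nhds hz)).hasDerivAt
  exact ((d1.const_mul I).cexp).mul (((d3.mul d2).const_mul I).sub d4)

theorem A1_diff (hψ : DifferentiableOn ℂ ψ (Sp h)) (hH : DifferentiableOn ℂ H (Sp h)) :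
    DifferentiableOn ℂ (A1 ψ H) (Sp h) := fun z hz =>
  (A1_deriv hψ hH hz).differentiableAt.differentiableWithinAt

theorem A2_diff (hψ : DifferentiableOn ℂ ψ (Sp h)) (hH : DifferentiableOn ℂ H (Sp h)) :
    DifferentiableOn ℂ (A2 ψ H) (Sp h) := by
  have hS := isOpen_Sp h
  have d3 := hψ.deriv hS
  have d4 := hH.deriv hS
  unfold A2
  fun_prop

/-- the Wronskian `A1' ψ' - A1 ψ'' = - c e^{iψ}` -/
theorem wronsk (hψ : DifferentiableOn ℂ ψ (Sp h)) (hH : DifferentiableOn ℂ H (Sp h))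
    (hrel : F300.Rel (Sp h) ψ H c) {z : ℂ} (hz : z ∈ Sp h) :
    deriv (A1 ψ H) z * deriv ψ z - A1 ψ H z * deriv (deriv ψ) z = -(c * cexp (I * ψ z)) := by
  rw [(A1_deriv hψ hH hz).deriv, ← hrel z hz]
  unfold A1
  have hI : I * I = -1 := Complex.I_mul_I
  linear_combination (cexp (I * ψ z) * deriv ψ z ^ 3 * H z) * hI

theorem A1_ne (hψ : DifferentiableOn ℂ ψ (Sp h)) (hH : DifferentiableOn ℂ H (Sp h))
    (hrel : F300.Rel (Sp h) ψ H c) (hc : c ≠ 0) {z : ℂ} (hz : z ∈ Sp h) (h0 : deriv ψ z = 0) :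
    A1 ψ H z ≠ 0 := by
  intro h1
  have := wronsk hψ hH hrel hz
  rw [h0, h1] at this
  have h2 : c * cexp (I * ψ z) = 0 := by linear_combination this
  exact mul_ne_zero hc (Complex.exp_ne_zero _) h2

/-- `b ↦ b + 1` acts trivially on `exp (iψ)`, `ψ'`, `H` -/
theorem deriv_per {f : ℂ → ℂ} {τ : ℂ} (hp : ∀ b ∈ Sp h, f (b + 1) = f b + τ) {b : ℂ}
    (hb : b ∈ Sp h) : deriv f (b + 1) = deriv f b := by
  have h1 : (fun z => f (z + 1)) =ᶠ[𝓝 b] fun z => f z + τ := by
    filter_upwards [(isOpen_Sp h).mem_nhds hb] with z hz using hp z hz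
  have h2 := h1.deriv_eq
  rw [deriv_comp_add_const, deriv_add_const] at h2
  exact h2


theorem A1_per {k : ℤ} (hψp : ∀ b ∈ Sp h, ψ (b + 1) = ψ b + 2 * π * k)
    (hHp : ∀ b ∈ Sp h, H (b + 1) = H b) {b : ℂ} (hb : b ∈ Sp h) :
    A1 ψ H (b + 1) = A1 ψ H b := by
  unfold A1
  rw [deriv_per hψp hb, deriv_per (f := H) (τ := 0) (by simpa using hHp) hb, hHp b hb, hψp b hb]
  have : cexp (I * (ψ b + 2 * π * k)) = cexp (I * ψ b) := by
    rw [mul_add, Complex.exp_add]
    have h2 : cexp (I * (2 * π * k)) = 1 := by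
      rw [Complex.exp_eq_one_iff]; exact ⟨k, by ring⟩
    rw [h2, mul_one]
  rw [this]

theorem inc_per {k : ℤ} (hψp : ∀ b ∈ Sp h, ψ (b + 1) = ψ b + 2 * π * k)
    (hHp : ∀ b ∈ Sp h, H (b + 1) = H b) (φ p : ℂ) {b : ℂ} (hb : b ∈ Sp h) :
    F300.Inc ψ H φ p (b + 1) ↔ F300.Inc ψ H φ p b := by
  unfold F300.Inc
  rw [deriv_per hψp hb, deriv_per (f := H) (τ := 0) (by simpa using hHp) hb, hHp b hb, hψp b hb]
  have e : φ - (ψ b + 2 * π * k) = φ - ψ b - k * (2 * π) := by ring
  rw [e, Complex.cos_sub_int_mul_two_pi, Complex.sin_sub_int_mul_two_pi]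

theorem inc_per_int {k : ℤ} (hψp : ∀ b ∈ Sp h, ψ (b + 1) = ψ b + 2 * π * k)
    (hHp : ∀ b ∈ Sp h, H (b + 1) = H b) (φ p : ℂ) (m : ℤ) {b : ℂ} (hb : b ∈ Sp h) :
    F300.Inc ψ H φ p (b - m) ↔ F300.Inc ψ H φ p b := by
  have hmem : ∀ m : ℤ, b - m ∈ Sp h := fun m => by
    simpa only [Sp, mem_ofPred_eq, sub_im, intCast_im, sub_zero] using hb
  induction m using Int.induction_on with
  | zero => simp
  | succ i ih =>
    have h1 := inc_per hψp hHp φ p (hmem ((i : ℤ) + 1))
    refine h1.symm.trans ?_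
    have e : b - (((i : ℤ) + 1 : ℤ) : ℂ) + 1 = b - ((i : ℤ) : ℂ) := by push_cast; ring
    rw [e]
    exact ih
  | pred i ih =>
    have h1 := inc_per hψp hHp φ p (hmem (-(i : ℤ)))
    have e : b - ((-(i : ℤ) - 1 : ℤ) : ℂ) = b - ((-(i : ℤ) : ℤ) : ℂ) + 1 := by push_cast; ring
    rw [e]
    exact h1.trans ih

/-- **CASE (a)**, abstract form, cusp with `Im φ → +∞` -/
theorem caseA_plus {a g h' : ℝ} (hg : 0 < g) (hψ : DifferentiableOn ℂ ψ (Sp h))
    (hH : DifferentiableOn ℂ H (Sp h)) (hrel : F300.Rel (Sp h) ψ H c) (hc : c ≠ 0) {k : ℤ}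
    (hψp : ∀ b ∈ Sp h, ψ (b + 1) = ψ b + 2 * π * k) (hHp : ∀ b ∈ Sp h, H (b + 1) = H b)
    (u : Ultrafilter ℕ) {B φ p : ℕ → ℂ × ℂ → ℂ}
    (hB : ∀ x ∈ Lo a, ∃ r > 0, ball x r ⊆ Lo a ∧ ∀ᶠ n in (u : Filter ℕ),
      DifferentiableOn ℂ (B n) (ball x r) ∧ ∀ y ∈ ball x r, |(B n y).im| < h ∧
        F300.Inc ψ H (φ n y) (p n y) (B n y))
    (hφ : ∀ x ∈ Lo (a + g), ∃ r > 0, ball x r ⊆ Lo (a + g) ∧ ∃ C : ℝ, ∀ᶠ n in (u : Filter ℕ),
      DifferentiableOn ℂ (φ n) (ball x r) ∧ DifferentiableOn ℂ (p n) (ball x r) ∧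
      ∀ y ∈ ball x r, -C ≤ (φ n y).im ∧ ‖p n y * cexp (I * φ n y)‖ ≤ C)
    (hnr : ∀ q₀ ∈ Fc a, ∀ r > 0, ∀ x₁ : ℂ × ℂ, ∀ δ > 0, closedBall x₁ δ ⊆ ball q₀ r ∩ Lo a →
      ∀ᶠ n in (u : Filter ℕ), ¬ ∃ G : ℂ × ℂ → ℂ, DifferentiableOn ℂ G (ball q₀ r) ∧
        (∀ x ∈ ball q₀ r, |(G x).im| < h) ∧ ∃ x ∈ closedBall x₁ δ, G =ᶠ[𝓝 x] B n)
    {x₀ : ℂ × ℂ} (hx₀ : x₀ ∈ Lo a) (hh : h' < h)
    (h₀ : ∀ᶠ n in (u : Filter ℕ), |(B n x₀).im| ≤ h')
    (hinf : Tendsto (fun n => (φ n x₀).im) u atTop) : False := by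
  have hne : (u : Filter ℕ).NeBot := u.neBot
  have hSp := isOpen_Sp h
  have hLo := isOpen_Lo a
  have hLoc := (convex_Lo a).isPreconnected
  have hsub : Lo a ⊆ Lo (a + g) := fun q hq => ⟨hq.1, by
    have h1 : 0 < q.2.im := hq.1
    have h2 : q.1.im < a * q.2.im := hq.2
    show q.1.im < (a + g) * q.2.im
    nlinarith⟩
  have hFsub : Fc a ⊆ Lo (a + g) := fun q hq => ⟨hq.1, by
    have h1 : 0 < q.2.im := hq.1
    have h2 : q.1.im = a * q.2.im := hq.2
    show q.1.im < (a + g) * q.2.im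
    nlinarith⟩
  -- normalised labels
  let N : ℕ → ℤ := fun n => ⌊(B n x₀).re⌋
  let Bn : ℕ → ℂ × ℂ → ℂ := fun n x => B n x - N n
  have him : ∀ n x, (Bn n x).im = (B n x).im := fun n x => by simp [Bn]
  obtain ⟨β, hβ, hβu, hβm⟩ := label_lim u hLo hLoc (B := Bn) (h := h) (h' := h') (R := 1) hh
    (fun x hx => by
      obtain ⟨r, hr, hrL, hn⟩ := hB x hx
      refine ⟨r, hr, hrL, ?_⟩
      filter_upwards [hn] with n hn
      refine ⟨hn.1.sub (differentiableOn_const _), fun y hy => ?_⟩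
      rw [him]
      exact (hn.2 y hy).1.le) hx₀ (by
      filter_upwards [h₀] with n hn
      refine ⟨by rw [him]; exact hn, ?_⟩
      have h1 : (Bn n x₀).re = Int.fract (B n x₀).re := by
        simp only [Bn, N, sub_re, intCast_re]; rfl
      rw [h1, abs_of_nonneg (Int.fract_nonneg _)]
      exact (Int.fract_lt_one _).le)
  -- the cusp limit
  obtain ⟨⟨κ, hκ, hκu⟩, hmu, hinf'⟩ := cusp_lim u (isOpen_Lo (a + g)) (convex_Lo (a + g)).isPreconnected
    hφ (hsub hx₀) hinf
  have hA1 := A1_diff hψ hH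
  have hA2 := A2_diff hψ hH
  have hψ' := hψ.deriv hSp
  -- the incidence of the normalised labels
  have hincn : ∀ x ∈ Lo a, ∃ r > 0, ball x r ⊆ Lo a ∧ ∀ᶠ n in (u : Filter ℕ), ∀ y ∈ ball x r,
      A1 ψ H (Bn n y) - cexp (2 * I * φ n y) * A2 ψ H (Bn n y) =
        2 * I * p n y * cexp (I * φ n y) * deriv ψ (Bn n y) := by
    intro x hx
    obtain ⟨r, hr, hrL, hn⟩ := hB x hx
    refine ⟨r, hr, hrL, ?_⟩
    filter_upwards [hn] with n hn y hy
    rw [← inc_iff]
    exact (inc_per_int hψp hHp _ _ (N n) (hn.2 y hy).1).2 (hn.2 y hy).2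
  have hlim := inc_lim u (D := Lo a) (h := h) (A := A1 ψ H) (Ac := A2 ψ H) (y := deriv ψ)
    hA1.continuousOn hA2.continuousOn hψ'.continuousOn
    (fun b hb h0 => A1_ne hψ hH hrel hc hb h0) (B := Bn) (m := fun n x => cexp (2 * I * φ n x))
    (k := fun n x => 2 * I * p n x * cexp (I * φ n x)) (β := β) (κ := κ) hβm
    (fun x hx => hβu.tendsto_at hx) (fun x hx => hmu.tendsto_at (hsub hx))
    (fun x hx => hκu.tendsto_at (hsub hx)) (fun x hx => by
      obtain ⟨r, hr, hrL, hn⟩ := hincn x hx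
      exact hn.mono fun n hn => hn x (mem_ball_self hr))
  -- transversality everywhere
  have htr : ∀ b ∈ Sp h, ∀ κ₀ : ℂ, A1 ψ H b = κ₀ * deriv ψ b →
      deriv ψ b ≠ 0 ∧ deriv (A1 ψ H) b - κ₀ * deriv (deriv ψ) b ≠ 0 := by
    intro b hb κ₀ h1
    have h2 : deriv ψ b ≠ 0 := fun h0 => A1_ne hψ hH hrel hc hb h0 (by rw [h1, h0, mul_zero])
    refine ⟨h2, fun h3 => ?_⟩
    have h4 := wronsk hψ hH hrel hb
    rw [h1] at h4
    have h5 : c * cexp (I * ψ b) = 0 := by linear_combination (-deriv ψ b) * h3 + h4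
    exact mul_ne_zero hc (Complex.exp_ne_zero _) h5
  have hderF : ∀ q : ℂ × ℂ, ∀ b ∈ Sp h, deriv (fun z => A1 ψ H z - κ q * deriv ψ z) b =
      deriv (A1 ψ H) b - κ q * deriv (deriv ψ) b := by
    intro q b hb
    have e1 := (hA1.differentiableAt (hSp.mem_nhds hb)).hasDerivAt
    have e2 := (hψ'.differentiableAt (hSp.mem_nhds hb)).hasDerivAt
    exact (e1.sub (e2.const_mul (κ q))).deriv
  have h0Sp : (0 : ℂ) ∈ Sp h := by
    have := hβm x₀ hx₀
    show |(0 : ℂ).im| < h
    simp only [zero_im, abs_zero]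
    exact (abs_nonneg _).trans_lt this
  -- the end
  have hend := tangential (a := a) (h := h) (Om := Lo (a + g)) (isOpen_Lo _) hsub hFsub (B := β)
    (F := fun x => A1 ψ H x.2 - κ x.1 * deriv ψ x.2) hβ hβm
    ((hA1.comp differentiableOn_snd fun x hx => hx.2).sub
      ((hκ.comp differentiableOn_fst fun x hx => hx.1).mul
        (hψ'.comp differentiableOn_snd fun x hx => hx.2)))
    (fun q hq b hb => by
      simp only
      rw [A1_per hψp hHp hb, deriv_per hψp hb])
    (fun q hq => by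
      by_contra hcon
      push Not at hcon
      have h1 : ∀ b ∈ Sp h, A1 ψ H b = κ q * deriv ψ b := fun b hb =>
        sub_eq_zero.1 (hcon b hb)
      have h2 := (htr 0 h0Sp (κ q) (h1 0 h0Sp)).2
      have h3 : A1 ψ H =ᶠ[𝓝 0] fun z => κ q * deriv ψ z := by
        filter_upwards [hSp.mem_nhds h0Sp] with z hz using h1 z hz
      apply h2
      rw [h3.deriv_eq]
      have e2 := (hψ'.differentiableAt (hSp.mem_nhds h0Sp)).hasDerivAt
      rw [(e2.const_mul (κ q)).deriv, sub_self])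
    (fun q hq => by
      simp only
      rw [(hlim q hq).1, sub_self])
    (fun q hq b hb hcl => by
      exfalso
      have hqL : q ∈ Lo (a + g) := hFsub hq
      have hκq : ContinuousAt κ q :=
        (hκ.differentiableAt ((isOpen_Lo _).mem_nhds hqL)).continuousAt
      have hbS : b ∈ Sp h := hb
      -- the incidence at the cluster value
      have hFqb : A1 ψ H b = κ q * deriv ψ b := by
        have hcl2 : MapClusterPt (q, b) (𝓝[Lo a] q) (fun x => (x, β x)) := by
          rw [mapClusterPt_iff_frequently]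
          intro s hs
          rw [nhds_prod_eq] at hs
          obtain ⟨s1, hs1, s2, hs2, hss⟩ := mem_prod_iff.1 hs
          have h1 := (mapClusterPt_iff_frequently.1 hcl) s2 hs2
          refine (h1.and_eventually (mem_nhdsWithin_of_mem_nhds hs1)).mono fun x hx => ?_
          exact hss ⟨hx.2, hx.1⟩
        have hcont : ContinuousAt (fun x : (ℂ × ℂ) × ℂ => A1 ψ H x.2 - κ x.1 * deriv ψ x.2)
            (q, b) := by
          have c1 : ContinuousAt (fun x : (ℂ × ℂ) × ℂ => A1 ψ H x.2) (q, b) :=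
            ContinuousAt.comp (f := Prod.snd) (x := (q, b))
              (hA1.differentiableAt (hSp.mem_nhds hbS)).continuousAt continuousAt_snd
          have c2 : ContinuousAt (fun x : (ℂ × ℂ) × ℂ => deriv ψ x.2) (q, b) :=
            ContinuousAt.comp (f := Prod.snd) (x := (q, b))
              (hψ'.differentiableAt (hSp.mem_nhds hbS)).continuousAt continuousAt_snd
          have c3 : ContinuousAt (fun x : (ℂ × ℂ) × ℂ => κ x.1) (q, b) :=
            ContinuousAt.comp (f := Prod.fst) (x := (q, b)) hκq continuousAt_fst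
          exact c1.sub (c3.mul c2)
        by_contra hcon
        have hcon' : A1 ψ H b - κ q * deriv ψ b ≠ 0 := sub_ne_zero.2 hcon
        have h2 := hcont.eventually_ne hcon'
        have h3 := (mapClusterPt_iff_frequently.1 hcl2) _ h2
        obtain ⟨x, hx1, hx2⟩ := (h3.and_eventually self_mem_nhdsWithin).exists
        apply hx1
        simp only
        rw [(hlim x hx2).1, sub_self]
      obtain ⟨hy0, hd0⟩ := htr b hbS (κ q) hFqb
      -- uniform implicit functions
      let f : Fin 3 → ℂ → ℂ := ![A1 ψ H, A2 ψ H, deriv ψ]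
      let cc : Fin 3 → ℕ → ℂ × ℂ → ℂ := ![fun _ _ => 1, fun n x => -cexp (2 * I * φ n x),
        fun n x => -(2 * I * p n x * cexp (I * φ n x))]
      let c' : Fin 3 → ℂ := ![1, 0, -κ q]
      obtain ⟨rq, hrq, hrqL, Cq, hCq⟩ := hφ q hqL
      obtain ⟨ρ, hρ, hρ1, hρS, r, hr, hr1, hG⟩ := reg3 (l := (u : Filter ℕ)) (q₀ := q) (f := f)
        (c := cc) (c' := c') hSp hbS (fun j => by
          fin_cases j
          · exact hA1
          · exact hA2
          · exact hψ')
        (fun ε hε => by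
          have m1 := (Metric.tendstoLocallyUniformlyOn_iff.1 hmu) ε hε q hqL
          have m2 := (Metric.tendstoLocallyUniformlyOn_iff.1 hκu) (ε / 2) (by positivity) q hqL
          obtain ⟨t1, ht1, hn1⟩ := m1
          obtain ⟨t2, ht2, hn2⟩ := m2
          rw [(isOpen_Lo (a + g)).nhdsWithin_eq hqL] at ht1 ht2
          obtain ⟨r1, hr1, hrt1⟩ := Metric.mem_nhds_iff.1 ht1
          obtain ⟨r2, hr2, hrt2⟩ := Metric.mem_nhds_iff.1 ht2
          obtain ⟨r3, hr3, hrt3⟩ := Metric.continuousAt_iff.1 hκq (ε / 2) (by positivity)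
          refine ⟨min (min r1 r2) (min r3 rq), by positivity, ?_⟩
          filter_upwards [hn1, hn2, hCq] with n hn1 hn2 hn3 j
          have s1 : ball q (min (min r1 r2) (min r3 rq)) ⊆ t1 :=
            (ball_subset_ball ((min_le_left _ _).trans (min_le_left _ _))).trans hrt1
          have s2 : ball q (min (min r1 r2) (min r3 rq)) ⊆ t2 :=
            (ball_subset_ball ((min_le_left _ _).trans (min_le_right _ _))).trans hrt2
          have s3 : ball q (min (min r1 r2) (min r3 rq)) ⊆ ball q r3 :=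
            ball_subset_ball ((min_le_right _ _).trans (min_le_left _ _))
          have s4 : ball q (min (min r1 r2) (min r3 rq)) ⊆ ball q rq :=
            ball_subset_ball ((min_le_right _ _).trans (min_le_right _ _))
          have d1 := hn3.1.mono s4
          have d2 := hn3.2.1.mono s4
          fin_cases j
          · refine ⟨differentiableOn_const _, fun x hx => ?_⟩
            simp only [cc, c', Fin.zero_eta, Matrix.cons_val_zero, sub_self, norm_zero]
            exact hε.le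
          · refine ⟨?_, fun x hx => ?_⟩
            · simp only [cc, Fin.mk_one, Matrix.cons_val_one, Matrix.cons_val_zero]
              fun_prop
            · simp only [cc, c', Fin.mk_one, Matrix.cons_val_one, Matrix.cons_val_zero, sub_zero,
                norm_neg]
              have := hn1 x (s1 hx)
              rw [dist_comm, dist_zero_right] at this
              exact this.le
          · refine ⟨?_, fun x hx => ?_⟩
            · simp only [cc, Fin.reduceFinMk, Matrix.cons_val]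
              fun_prop
            · simp only [cc, c', Fin.reduceFinMk, Matrix.cons_val]
              have h5 := hn2 x (s2 hx)
              have h6 := hrt3 (s3 hx)
              rw [dist_comm, dist_eq_norm] at h5
              rw [dist_eq_norm] at h6
              have e1 : -(2 * I * p n x * cexp (I * φ n x)) - -κ q =
                  -((2 * I * p n x * cexp (I * φ n x) - κ x) + (κ x - κ q)) := by ring
              rw [e1, norm_neg]
              refine (norm_add_le _ _).trans ?_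
              linarith)
        (by
          simp only [Fin.sum_univ_three, f, c', Matrix.cons_val_zero, Matrix.cons_val_one,
            Matrix.cons_val]
          linear_combination hFqb)
        (by
          simp only [Fin.sum_univ_three, f, c', Matrix.cons_val_zero, Matrix.cons_val_one,
            Matrix.cons_val]
          intro h7
          apply hd0
          linear_combination h7) (r₁ := 1) one_pos (ε₁ := 1) one_pos
      -- a point of the window near the face where `β` is close to `b`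
      obtain ⟨x₁, ⟨hx₁b, hx₁q⟩, hx₁L⟩ := (((mapClusterPt_iff_frequently.1 hcl) _
        (ball_mem_nhds b (show 0 < ρ / 2 by positivity))).and_eventually
        (mem_nhdsWithin_of_mem_nhds (ball_mem_nhds q hr))).and_eventually
        self_mem_nhdsWithin |>.exists
      have hβc : ContinuousAt β x₁ := (hβ.differentiableAt (hLo.mem_nhds hx₁L)).continuousAt
      obtain ⟨δ1, hδ1, hδ1s⟩ := Metric.mem_nhds_iff.1 (inter_mem
        (hβc.preimage_mem_nhds (isOpen_ball.mem_nhds hx₁b))
        (inter_mem (isOpen_ball.mem_nhds hx₁q) (hLo.mem_nhds hx₁L)))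
      set δ : ℝ := δ1 / 2 with hδ
      have hδ0 : 0 < δ := by positivity
      have hδs : closedBall x₁ δ ⊆ ball x₁ δ1 := closedBall_subset_ball (by linarith)
      have hKs : closedBall x₁ δ ⊆ ball q r ∩ Lo a := fun y hy => (hδ1s (hδs hy)).2
      have hKc : IsCompact (closedBall x₁ δ) := isCompact_closedBall _ _
      have hunif := (tendstoLocallyUniformlyOn_iff_tendstoUniformlyOn_of_compact hKc).1
        (hβu.mono fun y hy => (hKs hy).2)
      have hcl' := Metric.tendstoUniformlyOn_iff.1 hunif (ρ / 2) (by positivity)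
      -- the incidence on the compact set
      have hincn' : ∀ x, ∃ r : ℝ, x ∈ closedBall x₁ δ → (0 < r ∧ ∀ᶠ n in (u : Filter ℕ),
          ∀ y ∈ ball x r, A1 ψ H (Bn n y) - cexp (2 * I * φ n y) * A2 ψ H (Bn n y) =
            2 * I * p n y * cexp (I * φ n y) * deriv ψ (Bn n y)) := by
        intro x
        by_cases hx : x ∈ closedBall x₁ δ
        · obtain ⟨r, hr, -, hn⟩ := hincn x (hKs hx).2
          exact ⟨r, fun _ => ⟨hr, hn⟩⟩
        · exact ⟨0, fun h => (hx h).elim⟩
      choose rr hrr using hincn'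
      obtain ⟨t, htK, ht⟩ := hKc.elim_nhds_subcover (fun x => ball x (rr x))
        (fun x hx => ball_mem_nhds x (hrr x hx).1)
      have hincK : ∀ᶠ n in (u : Filter ℕ), ∀ x ∈ closedBall x₁ δ,
          A1 ψ H (Bn n x) - cexp (2 * I * φ n x) * A2 ψ H (Bn n x) =
            2 * I * p n x * cexp (I * φ n x) * deriv ψ (Bn n x) := by
        have h1 : ∀ᶠ n in (u : Filter ℕ), ∀ x ∈ t, ∀ y ∈ ball x (rr x),
            A1 ψ H (Bn n y) - cexp (2 * I * φ n y) * A2 ψ H (Bn n y) =
            2 * I * p n y * cexp (I * φ n y) * deriv ψ (Bn n y) :=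
          (Filter.eventually_all_finset t).2 fun x hx => (hrr x (htK x hx)).2
        filter_upwards [h1] with n hn x hx
        obtain ⟨y, hy⟩ := mem_iUnion.1 (ht hx)
        obtain ⟨hyt, hxy⟩ := mem_iUnion.1 hy
        exact hn y hyt x hxy
      obtain ⟨n, hn1, hn2, hn3, hn4⟩ := (hG.and (hcl'.and (hincK.and
        (hnr q hq r hr x₁ δ hδ0 hKs)))).exists
      obtain ⟨G, hGd, hG1, hG2⟩ := hn1
      apply hn4
      refine ⟨fun x => G x + N n, hGd.add (differentiableOn_const _), fun x hx => ?_, x₁,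
        mem_closedBall_self hδ0.le, ?_⟩
      · have := hρS (hG1 x hx).1
        simpa [Sp] using this
      · filter_upwards [closedBall_mem_nhds x₁ hδ0] with x hx
        have h8 : Bn n x ∈ closedBall b ρ := by
          have h9 := hn2 x hx
          have h10 : dist (β x) b < ρ / 2 := (hδ1s (hδs hx)).1
          rw [mem_closedBall]
          rw [dist_comm] at h9
          linarith [dist_triangle (Bn n x) (β x) b]
        have h11 := hG2 x (hKs hx).1 (Bn n x) h8 (by
          simp only [Fin.sum_univ_three, f, cc, Matrix.cons_val_zero, Matrix.cons_val_one,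
            Matrix.cons_val]
          linear_combination hn3 x hx)
        rw [← h11]
        simp [Bn])
  have h1 := hend x₀ hx₀
  simp only at h1
  rw [hderF x₀ _ (hβm x₀ hx₀)] at h1
  exact (htr _ (hβm x₀ hx₀) _ (hlim x₀ hx₀).1).2 h1

end Crest.Agent.R102.EdgeA985
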