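import Crest.Agent.R102.BigMontel_948
import Crest.Agent.R102.EdgeLim_196
import Crest.Agent.R102.LemX_262
import Crest.Agent.R102.Step5Defs_613
import Crest.Agent.R102.Rule1D_982
import Crest.Agent.R102.Tang_654
import Crest.Agent.R102.Face2_300

-- ▼ part R102/SlowLim_754
section

/-! # Row 102, EDGE, slow regime (909 (S5)): the limit step

Coordinates `q = (s, ζ)`, `s = T - a* ζ`.  `Gc c` is the limit domain.  A sequence of normalised
midpoints `m n`, holomorphic on exhausting domains, locally bounded, of growth `R ^ θ`, `θ < 1`,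
with dense births on the face and no births below the face (Lemma X) has only constant limits.
-/

set_option autoImplicit false

open Set Filter Metric Complex Topology

namespace Crest.Agent.R102.SlowLim754

open Crest.Agent.R264 Crest.Agent.R266.SCV Crest.Agent.R102.M948

/-- the limit domain in the coordinates `(s, ζ)`, `s = T - a* ζ` -/
def Gc (c : ℝ) : Set (ℂ × ℂ) := {q | 0 < q.2.im ∧ q.1.im < c * q.2.im}

theorem isOpen_Gc (c : ℝ) : IsOpen (Gc c) :=
  (isOpen_lt continuous_const (Complex.continuous_im.comp continuous_snd)).inter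
    (isOpen_lt (Complex.continuous_im.comp continuous_fst)
      (continuous_const.mul (Complex.continuous_im.comp continuous_snd)))

theorem convex_Gc (c : ℝ) : Convex ℝ (Gc c) := by
  intro p hp q hq a b ha hb hab
  obtain ⟨hp1, hp2⟩ := hp
  obtain ⟨hq1, hq2⟩ := hq
  have e1 : (a • p + b • q).1.im = a * p.1.im + b * q.1.im := by simp
  have e2 : (a • p + b • q).2.im = a * p.2.im + b * q.2.im := by simp
  constructor
  · rw [e2]
    rcases eq_or_lt_of_le ha with h | h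
    · subst h
      have : b = 1 := by linarith
      subst this
      linarith
    · have := mul_pos h hp1
      have := mul_nonneg hb hq1.le
      linarith
  · rw [e1, e2]
    rcases eq_or_lt_of_le ha with h | h
    · subst h
      have : b = 1 := by linarith
      subst this
      linarith
    · have h1 := mul_lt_mul_of_pos_left hp2 h
      have h2 := mul_le_mul_of_nonneg_left hq2.le hb
      nlinarith


theorem hasDerivAt_snd {g : ℂ × ℂ → ℂ} {s z : ℂ} (h : DifferentiableAt ℂ g (s, z)) :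
    HasDerivAt (fun w : ℂ => g (s, w)) (fderiv ℂ g (s, z) (0, 1)) z := by
  have h1 : HasDerivAt (fun w : ℂ => ((s, w) : ℂ × ℂ)) ((0, 1) : ℂ × ℂ) z :=
    (hasDerivAt_const z s).prodMk (hasDerivAt_id z)
  exact h.hasFDerivAt.comp_hasDerivAt z h1

/-- a holomorphic function on `Gc c` whose `ζ`-derivative vanishes on the face is an entire
function of `s` only -/
theorem entire_of_face {c : ℝ} (hc : 0 < c) {g : ℂ × ℂ → ℂ} (hg : DifferentiableOn ℂ g (Gc c))
    (h0 : ∀ q ∈ Gc c, q.1.im = 0 → fderiv ℂ g q (0, 1) = 0) :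
    ∃ F : ℂ → ℂ, Differentiable ℂ F ∧ ∀ q ∈ Gc c, g q = F q.1 := by
  have hGo := isOpen_Gc c
  have hga : AnalyticOnNhd ℂ g (Gc c) := analyticOnNhd_of_differentiableOn hGo hg
  have hgf : AnalyticOnNhd ℂ (fderiv ℂ g) (Gc c) := hga.fderiv
  -- step A
  have hA : ∀ q ∈ Gc c, fderiv ℂ g q (0, 1) = 0 := by
    rintro ⟨s, z⟩ ⟨hz1, hz2⟩
    simp only at hz1 hz2
    set H : Set ℂ := {t | t.im < c * z.im} with hH
    have hHo : IsOpen H := isOpen_lt Complex.continuous_im continuous_const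
    have hHc : IsPreconnected H := by
      have : Convex ℝ H := convex_halfSpace_im_lt _
      exact this.isPreconnected
    have hφ : DifferentiableOn ℂ (fun t : ℂ => fderiv ℂ g (t, z) (0, 1)) H := by
      intro t ht
      have h1 : DifferentiableAt ℂ (fderiv ℂ g) (t, z) := (hgf (t, z) ⟨hz1, ht⟩).differentiableAt
      have h2 : DifferentiableAt ℂ (fun t : ℂ => ((t, z) : ℂ × ℂ)) t := by fun_prop
      have h3 : DifferentiableAt ℂ (fun t : ℂ => fderiv ℂ g (t, z)) t := h1.comp t h2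
      exact (h3.clm_apply (differentiableAt_const _)).differentiableWithinAt
    have h0H : (0 : ℂ) ∈ H := by
      show (0 : ℂ).im < c * z.im
      rw [zero_im]
      positivity
    have hfreq : ∃ᶠ t in 𝓝[≠] (0 : ℂ), fderiv ℂ g (t, z) (0, 1) = 0 := by
      have hseq : Tendsto (fun n : ℕ => ((1 / ((n : ℝ) + 1) : ℝ) : ℂ)) atTop (𝓝[≠] (0 : ℂ)) := by
        rw [tendsto_nhdsWithin_iff]
        constructor
        · have := tendsto_one_div_add_atTop_nhds_zero_nat (𝕜 := ℝ)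
          have h2 := (Complex.continuous_ofReal.tendsto 0).comp this
          rw [ofReal_zero] at h2
          exact h2
        · refine Eventually.of_forall fun n => ?_
          simp only [mem_compl_iff, mem_singleton_iff]
          rw [Complex.ofReal_eq_zero]
          positivity
      refine hseq.frequently (Eventually.frequently (Eventually.of_forall fun n => ?_))
      refine h0 _ ⟨hz1, ?_⟩ ?_
      · simp only [Complex.ofReal_im]
        positivity
      · simp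
    have := (hφ.analyticOnNhd hHo).eqOn_zero_of_preconnected_of_frequently_eq_zero hHc h0H hfreq
      (show s ∈ H from hz2)
    simpa using this
  -- step B
  have hB : ∀ s z w : ℂ, (s, z) ∈ Gc c → (s, w) ∈ Gc c → g (s, z) = g (s, w) := by
    intro s z w hz hw
    set V : Set ℂ := (fun z : ℂ => ((s, z) : ℂ × ℂ)) ⁻¹' Gc c with hV
    have hVo : IsOpen V := hGo.preimage (by fun_prop)
    have hVc : IsPreconnected V := by
      have : Convex ℝ V := by
        intro a ha b hb x y hx hy hxy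
        have := convex_Gc c (show ((s, a) : ℂ × ℂ) ∈ Gc c from ha)
          (show ((s, b) : ℂ × ℂ) ∈ Gc c from hb) hx hy hxy
        have e : x • ((s, a) : ℂ × ℂ) + y • ((s, b) : ℂ × ℂ) = (s, x • a + y • b) := by
          ext1
          · simp only [Prod.smul_mk, Prod.mk_add_mk]
            rw [← add_smul, hxy, one_smul]
          · simp
        rw [e] at this
        exact this
      exact this.isPreconnected
    have hd : ∀ t ∈ V, HasDerivAt (fun w : ℂ => g (s, w)) 0 t := by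
      intro t ht
      have h1 := hasDerivAt_snd (hg.differentiableAt (hGo.mem_nhds (show (s, t) ∈ Gc c from ht)))
      rwa [hA _ (show (s, t) ∈ Gc c from ht)] at h1
    exact hVo.is_const_of_deriv_eq_zero hVc
      (fun t ht => (hd t ht).differentiableAt.differentiableWithinAt)
      (fun t ht => (hd t ht).deriv) hz hw
  -- step C
  have hmem : ∀ (s : ℂ) (x : ℝ), ‖s‖ < x → (s, ((x / c : ℝ) : ℂ) * I) ∈ Gc c := by
    intro s x hx
    have hx0 : 0 < x := (norm_nonneg s).trans_lt hx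
    constructor
    · simp only [mul_im, ofReal_re, I_im, mul_one, ofReal_im, I_re, mul_zero, add_zero]
      positivity
    · simp only [mul_im, ofReal_re, I_im, mul_one, ofReal_im, I_re, mul_zero, add_zero]
      have h1 : s.im ≤ ‖s‖ := (le_abs_self _).trans (abs_im_le_norm s)
      have h2 : c * (x / c) = x := by field_simp
      linarith
  refine ⟨fun s => g (s, (((‖s‖ + 1) / c : ℝ) : ℂ) * I), fun s₀ => ?_, ?_⟩
  · have h1 : (fun s => g (s, (((‖s‖ + 1) / c : ℝ) : ℂ) * I)) =ᶠ[𝓝 s₀]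
        fun s => g (s, (((‖s₀‖ + 2) / c : ℝ) : ℂ) * I) := by
      filter_upwards [ball_mem_nhds s₀ one_pos] with s hs
      refine hB _ _ _ (hmem _ _ (by linarith)) (hmem _ _ ?_)
      rw [mem_ball_iff_norm] at hs
      have := norm_le_norm_add_norm_sub' s s₀
      linarith
    refine DifferentiableAt.congr_of_eventuallyEq ?_ h1
    have h2 : DifferentiableAt ℂ g (s₀, (((‖s₀‖ + 2) / c : ℝ) : ℂ) * I) :=
      hg.differentiableAt (hGo.mem_nhds (hmem _ _ (by linarith)))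
    exact h2.comp s₀ (f := fun s : ℂ => ((s, (((‖s₀‖ + 2) / c : ℝ) : ℂ) * I) : ℂ × ℂ))
      (by fun_prop)
  · rintro ⟨s, z⟩ hq
    exact hB _ _ _ hq (hmem _ _ (by linarith))




end Crest.Agent.R102.SlowLim754
end

-- ▼ part R102/EdgeC_300
section

/-!
Row 102, T1-B, EDGE, case (c1) (helper300): windows whose limit line is tangent to the curve at the
limit label (`R₀ ≡ 1`) have a constant limit.
-/

set_option autoImplicit false

open Set Filter Topology Metric Complex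

noncomputable section

namespace Crest.Agent.R102.EdgeC300

open Crest.Agent.R102.EdgeLim196 Crest.Agent.R102.LemX262 Crest.Agent.R102.SlowLim754
open Crest.Agent.R266.SCV

/-- a connected set of values in the zero set of a nontrivial holomorphic function -/
theorem const_of_zero {a h : ℝ} {f : ℂ → ℂ} (hf : DifferentiableOn ℂ f (Sp h))
    (hne : ∃ b ∈ Sp h, f b ≠ 0) {B : ℂ × ℂ → ℂ} (hB : DifferentiableOn ℂ B (Lo a))
    (hBm : ∀ q ∈ Lo a, |(B q).im| < h) (h0 : ∀ q ∈ Lo a, f (B q) = 0) {q0 : ℂ × ℂ}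
    (hq0 : q0 ∈ Lo a) : ∀ q ∈ Lo a, B q = B q0 := by
  have han : AnalyticOnNhd ℂ f (Sp h) := hf.analyticOnNhd (isOpen_Sp h)
  have hb0 : B q0 ∈ Sp h := hBm q0 hq0
  have h1 : ∀ᶠ z in 𝓝 (B q0), z ≠ B q0 → f z ≠ 0 := by
    rcases (han _ hb0).eventually_eq_zero_or_eventually_ne_zero with h2 | h2
    · exfalso
      obtain ⟨b, hb, hb'⟩ := hne
      exact hb' (han.eqOn_zero_of_preconnected_of_eventuallyEq_zero
        (convex_Sp h).isPreconnected hb0 h2 hb)
    · exact eventually_nhdsWithin_iff.1 h2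
  have hc : ContinuousAt B q0 := (hB.differentiableAt ((isOpen_Lo a).mem_nhds hq0)).continuousAt
  have h2 : B =ᶠ[𝓝 q0] fun _ => B q0 := by
    filter_upwards [hc.eventually h1, (isOpen_Lo a).mem_nhds hq0] with q hq hqL
    by_contra hcon
    exact hq hcon (h0 q hqL)
  have h3 := (analyticOnNhd_of_differentiableOn (isOpen_Lo a) hB).eqOn_of_preconnected_of_eventuallyEq
    analyticOnNhd_const (convex_Lo a).isPreconnected hq0 h2
  exact fun q hq => h3 hq

/-- the face points are inside `Lo (a + g)` -/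
theorem Fc_sub {a g : ℝ} (hg : 0 < g) : Fc a ⊆ Lo (a + g) := by
  rintro q ⟨h1, h2⟩
  refine ⟨h1, ?_⟩
  have : 0 < g * q.2.im := mul_pos hg h1
  rw [h2]; nlinarith

theorem Lo_sub {a g : ℝ} (hg : 0 < g) : Lo a ⊆ Lo (a + g) := by
  rintro q ⟨h1, h2⟩
  refine ⟨h1, ?_⟩
  have : 0 < g * q.2.im := mul_pos hg h1
  nlinarith

/-- (A) either the limit label is constant, or it extends holomorphically to a ball at some face
point, with a label where `T' ≠ 0` -/
theorem exists_face {a g h : ℝ} (hg : 0 < g) {T : ℂ → ℂ} (hT : DifferentiableOn ℂ T (Sp h))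
    (hTne : ∃ b ∈ Sp h, deriv T b ≠ 0) {k0 : ℤ}
    (hper : ∀ b ∈ Sp h, T (b + 1) = T b + 2 * Real.pi * k0)
    {φ B : ℂ × ℂ → ℂ} (hφ : DifferentiableOn ℂ φ (Lo (a + g))) (hB : DifferentiableOn ℂ B (Lo a))
    (hBm : ∀ q ∈ Lo a, |(B q).im| < h)
    (hR : ∀ x ∈ Lo a, cexp (2 * I * (T (B x) - φ x)) = 1) :
    (∀ x ∈ Lo a, ∀ y ∈ Lo a, B x = B y) ∨
    ∃ q1 ∈ Fc a, ∃ b1 : ℂ, |b1.im| < h ∧ deriv T b1 ≠ 0 ∧ ∃ j : ℤ, φ q1 = T b1 + Real.pi * j ∧
      ∃ r > 0, ball q1 r ⊆ Lo (a + g) ∧ ∃ Bt : ℂ × ℂ → ℂ, DifferentiableOn ℂ Bt (ball q1 r) ∧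
        Bt q1 = b1 ∧ (∀ x ∈ ball q1 r, |(Bt x).im| < h ∧ T (Bt x) = φ x - Real.pi * j) ∧
        ∀ x ∈ ball q1 r, x ∈ Lo a → B x = Bt x := by
  by_cases hcl : ∀ q ∈ Fc a, ∀ b : ℂ, |b.im| < h → MapClusterPt b (𝓝[Lo a] q) B →
      deriv (fun z => cexp (2 * I * (T z - φ q)) - 1) b = 0
  · left
    have hOm : IsOpen (Lo (a + g)) := isOpen_Lo _
    have hFd : DifferentiableOn ℂ (fun x : (ℂ × ℂ) × ℂ => cexp (2 * I * (T x.2 - φ x.1)) - 1)
        (Lo (a + g) ×ˢ {z : ℂ | |z.im| < h}) := by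
      have e1 : DifferentiableOn ℂ (fun x : (ℂ × ℂ) × ℂ => T x.2)
          (Lo (a + g) ×ˢ {z : ℂ | |z.im| < h}) :=
        hT.comp differentiableOn_snd fun x hx => hx.2
      have e2 : DifferentiableOn ℂ (fun x : (ℂ × ℂ) × ℂ => φ x.1)
          (Lo (a + g) ×ˢ {z : ℂ | |z.im| < h}) :=
        hφ.comp differentiableOn_fst fun x hx => hx.1
      exact (((e1.sub e2).const_mul (2 * I)).cexp).sub_const 1
    have hexp : ∀ w : ℂ, cexp (2 * I * (w + 2 * Real.pi * k0)) = cexp (2 * I * w) := by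
      intro w
      have : 2 * I * (w + 2 * Real.pi * k0) = 2 * I * w + ((2 * k0 : ℤ) : ℂ) * (2 * Real.pi * I) := by
        push_cast; ring
      rw [this]
      exact (Complex.exp_periodic.int_mul (2 * k0)) (2 * I * w)
    have key := tangential (h := h) hOm (Lo_sub hg) (Fc_sub hg) hB hBm hFd
      (fun q _ b hb => by
        have : T (b + 1) - φ q = (T b - φ q) + 2 * Real.pi * k0 := by rw [hper b hb]; ring
        simp only
        rw [this, hexp])
      (fun q _ => by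
        by_contra hcon
        push Not at hcon
        obtain ⟨b, hb, hb'⟩ := hTne
        apply hb'
        have hev : (fun z => cexp (2 * I * (T z - φ q)) - 1) =ᶠ[𝓝 b] fun _ => 0 := by
          filter_upwards [(isOpen_Sp h).mem_nhds hb] with z hz
          exact hcon z hz
        have hd : HasDerivAt (fun z => cexp (2 * I * (T z - φ q)) - 1)
            (cexp (2 * I * (T b - φ q)) * (2 * I * deriv T b)) b := by
          have h1 := ((hT.differentiableAt ((isOpen_Sp h).mem_nhds hb)).hasDerivAt)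
          exact (((h1.sub_const (φ q)).const_mul (2 * I)).cexp).sub_const 1
        have h2 := hd.unique ((hasDerivAt_const b (0 : ℂ)).congr_of_eventuallyEq hev)
        rcases mul_eq_zero.1 h2 with h3 | h3
        · exact absurd h3 (exp_ne_zero _)
        · rcases mul_eq_zero.1 h3 with h4 | h4
          · simp at h4
          · exact h4)
      (fun q hq => by simp only; rw [hR q hq, sub_self]) hcl
    have hT0 : ∀ q ∈ Lo a, deriv T (B q) = 0 := by
      intro q hq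
      have h1 := key q hq
      have hd : HasDerivAt (fun z => cexp (2 * I * (T z - φ q)) - 1)
          (cexp (2 * I * (T (B q) - φ q)) * (2 * I * deriv T (B q))) (B q) := by
        have h1 := ((hT.differentiableAt ((isOpen_Sp h).mem_nhds (hBm q hq))).hasDerivAt)
        exact (((h1.sub_const (φ q)).const_mul (2 * I)).cexp).sub_const 1
      have h2 : deriv (fun z => cexp (2 * I * (T z - φ q)) - 1) (B q) =
          cexp (2 * I * (T (B q) - φ q)) * (2 * I * deriv T (B q)) := hd.deriv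
      have h3 : deriv (fun z => cexp (2 * I * (T z - φ q)) - 1) (B q) = 0 := h1
      rw [h2, hR q hq, one_mul] at h3
      rcases mul_eq_zero.1 h3 with h4 | h4
      · simp at h4
      · exact h4
    intro x hx y hy
    exact (const_of_zero (hT.deriv (isOpen_Sp h)) hTne hB hBm hT0 hy x hx)
  · right
    push Not at hcl
    obtain ⟨q1, hq1, b1, hb1, hcp, hder⟩ := hcl
    have hb1S : b1 ∈ Sp h := hb1
    have hTd := (hT.differentiableAt ((isOpen_Sp h).mem_nhds hb1S)).hasDerivAt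
    have hd : HasDerivAt (fun z => cexp (2 * I * (T z - φ q1)) - 1)
        (cexp (2 * I * (T b1 - φ q1)) * (2 * I * deriv T b1)) b1 :=
      (((hTd.sub_const (φ q1)).const_mul (2 * I)).cexp).sub_const 1
    have hT1 : deriv T b1 ≠ 0 := by
      intro h0
      apply hder
      rw [hd.deriv, h0, mul_zero, mul_zero]
    have hq1O : q1 ∈ Lo (a + g) := Fc_sub hg hq1
    have hφc : ContinuousAt φ q1 := (hφ.differentiableAt ((isOpen_Lo _).mem_nhds hq1O)).continuousAt
    have hTc : ContinuousAt T b1 := hTd.continuousAt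
    -- the relation at the face point
    have hrel : cexp (2 * I * (T b1 - φ q1)) = 1 := by
      by_contra hne
      have hev2 : ∀ᶠ x in 𝓝 b1 ×ˢ 𝓝 q1, cexp (2 * I * (T x.1 - φ x.2)) ≠ 1 := by
        rw [← nhds_prod_eq]
        have hcc : ContinuousAt (fun x : ℂ × (ℂ × ℂ) => cexp (2 * I * (T x.1 - φ x.2))) (b1, q1) := by
          have c1 : ContinuousAt (fun x : ℂ × (ℂ × ℂ) => T x.1) (b1, q1) :=
            ContinuousAt.comp (f := fun x : ℂ × (ℂ × ℂ) => x.1) (x := (b1, q1)) hTc continuousAt_fst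
          have c2 : ContinuousAt (fun x : ℂ × (ℂ × ℂ) => φ x.2) (b1, q1) :=
            ContinuousAt.comp (f := fun x : ℂ × (ℂ × ℂ) => x.2) (x := (b1, q1)) hφc continuousAt_snd
          exact ((c1.sub c2).const_mul (2 * I)).cexp
        exact hcc.eventually_ne hne
      obtain ⟨A, hA, C, hC, hAC⟩ := Filter.eventually_prod_iff.1 hev2
      have h1 := (mapClusterPt_iff_frequently.1 hcp) {z | A z} hA
      have hC' : ∀ᶠ q in 𝓝[Lo a] q1, C q := nhdsWithin_le_nhds hC
      have hL' : ∀ᶠ q in 𝓝[Lo a] q1, q ∈ Lo a := self_mem_nhdsWithin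
      obtain ⟨q, hqA, hqC, hqL⟩ := (h1.and_eventually (hC'.and hL')).exists
      exact hAC hqA hqC (hR q hqL)
    obtain ⟨m, hm⟩ := Complex.exp_eq_one_iff.1 hrel
    have hφq1 : φ q1 = T b1 + Real.pi * ((-m : ℤ) : ℂ) := by
      have h2I : (2 : ℂ) * I ≠ 0 := by simp
      have h3 : T b1 - φ q1 = m * Real.pi := by
        refine mul_left_cancel₀ h2I ?_
        rw [hm]; ring
      push_cast
      linear_combination -h3
    set j : ℤ := -m with hj
    -- local inverse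
    have hTan : AnalyticAt ℂ T b1 := hT.analyticAt ((isOpen_Sp h).mem_nhds hb1S)
    obtain ⟨κ, hκa, hκb, hκr, hκl⟩ := Rule982.exists_local_inverse hTan hT1
      ((isOpen_Sp h).mem_nhds hb1S)
    have hψc : ContinuousAt (fun q => φ q - Real.pi * j) q1 := hφc.sub continuousAt_const
    have hval : φ q1 - Real.pi * j = T b1 := by rw [hφq1]; ring
    have hψt : Tendsto (fun q => φ q - Real.pi * j) (𝓝 q1) (𝓝 (T b1)) := by
      have := hψc.tendsto
      rwa [hval] at this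
    have hev : ∀ᶠ q in 𝓝 q1, (AnalyticAt ℂ κ (φ q - Real.pi * j) ∧
        (κ (φ q - Real.pi * j) ∈ Sp h ∧ T (κ (φ q - Real.pi * j)) = φ q - Real.pi * j)) ∧
        q ∈ Lo (a + g) := by
      exact ((hψt.eventually (hκa.eventually_analyticAt.and hκr))).and
        ((isOpen_Lo _).mem_nhds hq1O)
    obtain ⟨r, hr, hball⟩ := Metric.eventually_nhds_iff_ball.1 hev
    refine ⟨q1, hq1, b1, hb1, hT1, j, hφq1, r, hr, fun x hx => (hball x hx).2,
      fun x => κ (φ x - Real.pi * j), ?_, ?_, ?_, ?_⟩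
    · intro x hx
      obtain ⟨⟨k1, k2⟩, k3⟩ := hball x hx
      have h1 : DifferentiableAt ℂ φ x := hφ.differentiableAt ((isOpen_Lo _).mem_nhds k3)
      exact (k1.differentiableAt.comp x (h1.sub_const _)).differentiableWithinAt
    · simp only
      rw [hval, hκb]
    · intro x hx
      exact ⟨(hball x hx).1.2.1, (hball x hx).1.2.2⟩
    · -- agreement near a point of `Lo a`
      have hBtd : DifferentiableOn ℂ (fun x => κ (φ x - Real.pi * j)) (ball q1 r) := by
        intro x hx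
        obtain ⟨⟨k1, k2⟩, k3⟩ := hball x hx
        have h1 : DifferentiableAt ℂ φ x := hφ.differentiableAt ((isOpen_Lo _).mem_nhds k3)
        exact (k1.differentiableAt.comp x (h1.sub_const _)).differentiableWithinAt
      have hpi4 : 0 < Real.pi / 4 := by positivity
      have hA1 : ∀ᶠ z in 𝓝 b1, κ (T z) = z ∧ dist (T z) (T b1) < Real.pi / 4 :=
        hκl.and (hTc.eventually (ball_mem_nhds _ hpi4))
      have hC1 : ∀ᶠ q in 𝓝 q1, dist (φ q) (φ q1) < Real.pi / 4 ∧ q ∈ ball q1 r :=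
        (hφc.eventually (ball_mem_nhds _ hpi4)).and (ball_mem_nhds _ hr)
      have h1 := (mapClusterPt_iff_frequently.1 hcp) _ hA1.eventually_nhds
      have hC' : ∀ᶠ q in 𝓝[Lo a] q1, ∀ᶠ q' in 𝓝 q, dist (φ q') (φ q1) < Real.pi / 4 ∧
            q' ∈ ball q1 r := nhdsWithin_le_nhds hC1.eventually_nhds
      have hL' : ∀ᶠ q in 𝓝[Lo a] q1, q ∈ Lo a := self_mem_nhdsWithin
      obtain ⟨x0, hx0A, hx0C, hx0L⟩ := (h1.and_eventually (hC'.and hL')).exists
      have hBc : ContinuousAt B x0 :=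
        (hB.differentiableAt ((isOpen_Lo a).mem_nhds hx0L)).continuousAt
      have hloc : B =ᶠ[𝓝 x0] fun x => κ (φ x - Real.pi * j) := by
        filter_upwards [hBc.eventually hx0A, hx0C, (isOpen_Lo a).mem_nhds hx0L] with x k1 k2 k3
        obtain ⟨n, hn⟩ := Complex.exp_eq_one_iff.1 (hR x k3)
        have h2I : (2 : ℂ) * I ≠ 0 := by simp
        have h3 : T (B x) - φ x = n * Real.pi := by
          refine mul_left_cancel₀ h2I ?_
          rw [hn]; ring
        have h4 : ‖((n + j : ℤ) : ℂ) * Real.pi‖ < Real.pi := by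
          have e : ((n + j : ℤ) : ℂ) * Real.pi = (T (B x) - T b1) - (φ x - φ q1) := by
            rw [hφq1]; push_cast; linear_combination -h3
          rw [e]
          have a1 := k1.2
          have a2 := k2.1
          rw [dist_eq_norm] at a1 a2
          calc _ ≤ ‖T (B x) - T b1‖ + ‖φ x - φ q1‖ := norm_sub_le _ _
            _ < Real.pi / 4 + Real.pi / 4 := add_lt_add a1 a2
            _ < Real.pi := by linarith [Real.pi_pos]
        have h5 : n + j = 0 := by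
          by_contra hne
          rw [norm_mul, Complex.norm_real, Real.norm_eq_abs, abs_of_pos Real.pi_pos,
            Complex.norm_intCast] at h4
          have h6 : (1 : ℝ) ≤ |((n + j : ℤ) : ℝ)| := by
            rw [← Int.cast_abs]
            exact_mod_cast Int.one_le_abs hne
          nlinarith [Real.pi_pos]
        have h6 : T (B x) = φ x - Real.pi * j := by
          have : (n : ℂ) = -(j : ℂ) := by
            have h7 : ((n + j : ℤ) : ℂ) = 0 := by rw [h5]; simp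
            push_cast at h7
            linear_combination h7
          rw [this] at h3
          linear_combination h3
        rw [← h6, k1.1]
      have hconv : IsPreconnected (ball q1 r ∩ Lo a) :=
        ((convex_ball q1 r).inter (convex_Lo a)).isPreconnected
      have hopen : IsOpen (ball q1 r ∩ Lo a) := isOpen_ball.inter (isOpen_Lo a)
      have hE := (analyticOnNhd_of_differentiableOn hopen
        (hB.mono inter_subset_right)).eqOn_of_preconnected_of_eventuallyEq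
        (analyticOnNhd_of_differentiableOn hopen (hBtd.mono inter_subset_left)) hconv
        ⟨(hx0C.self_of_nhds).2, hx0L⟩ hloc
      exact fun x hx hxL => hE ⟨hx, hxL⟩

end Crest.Agent.R102.EdgeC300
end
end

-- ▼ part R102/EdgeC2_300
section

/-!
Row 102, T1-B, EDGE, case (c1), part B (helper300): births of a sequence of windows converging to
tangent lines are zeros of the offset `p - hsf φ` of the tangent chart of helper654.
-/

set_option autoImplicit false

open Set Filter Topology Metric Complex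

noncomputable section

namespace Crest.Agent.R102.EdgeC300

open Crest.Agent.R102.EdgeLim196 Crest.Agent.R102.LemX262 Crest.Agent.R102.SlowLim754
open Crest.Agent.R102.Tang654 (Chart hsf Ef inc_iff exists_chart)
open Crest.Agent.R266.SCV

/-! ### integer periods -/

theorem Sp_int {h : ℝ} {b : ℂ} (hb : b ∈ Sp h) (n : ℤ) : b + n ∈ Sp h := by
  show |(b + n).im| < h
  have : (b + n).im = b.im := by simp
  rw [this]; exact hb

theorem Sp_int' {h : ℝ} {b : ℂ} (hb : b ∈ Sp h) (n : ℤ) : b - n ∈ Sp h := by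
  show |(b - n).im| < h
  have : (b - n).im = b.im := by simp
  rw [this]; exact hb

theorem per_int {h : ℝ} {f : ℂ → ℂ} {d : ℂ} (hf : ∀ b ∈ Sp h, f (b + 1) = f b + d) (n : ℤ) :
    ∀ b ∈ Sp h, f (b + n) = f b + n * d := by
  have hnat : ∀ m : ℕ, ∀ b ∈ Sp h, f (b + m) = f b + m * d := by
    intro m
    induction m with
    | zero => intro b hb; simp
    | succ m ih =>
      intro b hb
      have h1 : b + m ∈ Sp h := by
        have := Sp_int hb (m : ℤ)
        simpa using this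
      have h2 := hf _ h1
      rw [ih b hb] at h2
      push_cast
      rw [← add_assoc, h2]
      ring
  intro b hb
  obtain ⟨m, rfl | rfl⟩ := n.eq_nat_or_neg
  · simpa using hnat m b hb
  · have h1 := hnat m (b + ((-(m : ℤ) : ℤ) : ℂ)) (Sp_int hb _)
    have h2 : b + ((-(m : ℤ) : ℤ) : ℂ) + m = b := by push_cast; ring
    rw [h2] at h1
    push_cast at h1 ⊢
    rw [h1]; ring

theorem deriv_per_int {h : ℝ} {f : ℂ → ℂ} {d : ℂ} (hf : ∀ b ∈ Sp h, f (b + 1) = f b + d) (n : ℤ) :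
    ∀ b ∈ Sp h, deriv f (b + n) = deriv f b := by
  intro b hb
  have h1 : (fun x => f (x + n)) =ᶠ[𝓝 b] fun x => f x + n * d := by
    filter_upwards [(isOpen_Sp h).mem_nhds hb] with x hx
    exact per_int hf n x hx
  have h2 := h1.deriv_eq
  rw [deriv_comp_add_const, deriv_add_const] at h2
  exact h2

theorem inc_int {h : ℝ} {ψ H : ℂ → ℂ} {k0 : ℤ}
    (hψ : ∀ b ∈ Sp h, ψ (b + 1) = ψ b + 2 * Real.pi * k0) (hH : ∀ b ∈ Sp h, H (b + 1) = H b)
    (n : ℤ) {φ p b : ℂ} (hb : b ∈ Sp h) :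
    F300.Inc ψ H φ p (b + n) ↔ F300.Inc ψ H φ p b := by
  have hH' : ∀ b ∈ Sp h, H (b + 1) = H b + 0 := fun b hb => by rw [hH b hb, add_zero]
  unfold F300.Inc
  rw [deriv_per_int hψ n b hb, deriv_per_int hH' n b hb, per_int hH' n b hb,
    per_int hψ n b hb]
  have e : φ - (ψ b + n * (2 * Real.pi * k0)) = (φ - ψ b) - ((n * k0 : ℤ) : ℂ) * (2 * Real.pi) := by
    push_cast; ring
  rw [e, Complex.cos_sub_int_mul_two_pi, Complex.sin_sub_int_mul_two_pi, mul_zero, add_zero]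

theorem tan_int {h : ℝ} {ψ : ℂ → ℂ} {k0 : ℤ}
    (hψ : ∀ b ∈ Sp h, ψ (b + 1) = ψ b + 2 * Real.pi * k0) (n : ℤ) {φ b : ℂ} (hb : b ∈ Sp h) :
    cexp (2 * I * (ψ (b + n) - φ)) = cexp (2 * I * (ψ b - φ)) := by
  rw [per_int hψ n b hb]
  have e : 2 * I * (ψ b + n * (2 * Real.pi * k0) - φ) =
      2 * I * (ψ b - φ) + ((2 * n * k0 : ℤ) : ℂ) * (2 * Real.pi * I) := by
    push_cast; ring
  rw [e, Complex.exp_periodic.int_mul (2 * n * k0)]

/-! ### pointwise facts on the chart -/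

/-- a label which does not continue has a tangent line nearby -/
theorem birth_zero {Z Zc T c τ : ℂ → ℂ} {b1 κ : ℂ} {r δ : ℝ} (hC : Chart Z Zc T c b1 r δ τ κ)
    {V W : Set (ℂ × ℂ)} (hV : IsOpen V) (hVc : Convex ℝ V) {φ p : ℂ × ℂ → ℂ}
    (hφ : DifferentiableOn ℂ φ V) (hp : DifferentiableOn ℂ p V)
    (hφm : ∀ x ∈ V, φ x ∈ ball (T b1) δ) (hpm : ∀ x ∈ V, p x ∈ ball (hsf Z Zc τ (T b1)) δ)
    (hWV : W ⊆ V) (hW : IsPreconnected W) {B : ℂ × ℂ → ℂ} (hB : ContinuousOn B W)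
    (hBI : ∀ x ∈ W, B x ∈ closedBall b1 r ∧ End613.Inc (φ x) (p x) (Z (B x)) (Zc (B x)) = 0)
    (hno : ¬ ∃ G : ℂ × ℂ → ℂ, DifferentiableOn ℂ G V ∧ (∀ x ∈ V, G x ∈ closedBall b1 r) ∧
      EqOn B G W) :
    ∃ x ∈ V, p x = hsf Z Zc τ (φ x) := by
  by_contra hcon
  push Not at hcon
  obtain ⟨G, g1, g2, g3⟩ := hC.extend hV hVc hφ hp hφm hpm hcon hWV hW hB hBI
  have hr := hC.r_pos
  exact hno ⟨G, g1, fun x hx => ball_subset_closedBall
    (ball_subset_ball (by linarith) (g3 x hx).1), g2⟩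

/-- on a tangent line every near label is the point of tangency -/
theorem zero_label {Z Zc T c τ : ℂ → ℂ} {b1 κ : ℂ} {r δ : ℝ} (hC : Chart Z Zc T c b1 r δ τ κ)
    {φ p b : ℂ} (hφ : φ ∈ ball (T b1) δ) (hb : b ∈ closedBall b1 r)
    (hI : End613.Inc φ p (Z b) (Zc b) = 0) (h0 : p = hsf Z Zc τ φ) : T b = φ := by
  have h1 := hC.size_le hφ hb hI
  rw [h0, sub_self, norm_zero] at h1
  have h2 := hC.mu_pos
  have h3 : ‖b - τ φ‖ = 0 := by
    by_contra hne
    have h4 : 0 < ‖b - τ φ‖ := lt_of_le_of_ne (norm_nonneg _) (Ne.symm hne)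
    have : 0 < 15 / 32 * ‖c b1 * deriv T b1‖ * ‖b - τ φ‖ ^ 2 := by positivity
    linarith
  have h4 : b = τ φ := sub_eq_zero.1 (norm_eq_zero.1 h3)
  rw [h4]
  exact hC.τ_eq φ hφ

/-! ### the chart of a curve given by `(ψ, H)` -/

/-- `T = ψ + π j` -/
def Tj (ψ : ℂ → ℂ) (j : ℤ) (b : ℂ) : ℂ := ψ b + Real.pi * j

/-- the coefficient `c` of the chart -/
def cj (ψ : ℂ → ℂ) (c : ℂ) (j : ℤ) (b : ℂ) : ℂ := cexp (I * (Real.pi * j)) * (-c / deriv ψ b ^ 2)

theorem exp_pij (j : ℤ) : cexp (I * (Real.pi * j)) * cexp (I * (Real.pi * j)) = 1 := by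
  rw [← Complex.exp_add]
  have : I * (Real.pi * j) + I * (Real.pi * j) = (j : ℂ) * (2 * Real.pi * I) := by ring
  rw [this, Complex.exp_int_mul_two_pi_mul_I]

theorem exp_pij' (j : ℤ) : cexp (-(I * (Real.pi * j))) = cexp (I * (Real.pi * j)) := by
  rw [Complex.exp_neg]
  exact (eq_inv_of_mul_eq_one_left (exp_pij j)).symm

/-- chart at a label with `ψ' ≠ 0` -/
theorem exists_chart' {h : ℝ} {ψ H : ℂ → ℂ} {c : ℂ} (hψ : DifferentiableOn ℂ ψ (Sp h))
    (hH : DifferentiableOn ℂ H (Sp h)) (hrel : F300.Rel (Sp h) ψ H c) (hc : c ≠ 0) {b1 : ℂ}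
    (hb1 : |b1.im| < h) (hy : deriv ψ b1 ≠ 0) (j : ℤ) {r0 : ℝ} (hr0 : 0 < r0) :
    ∃ r > 0, r ≤ r0 ∧ (∀ b ∈ closedBall b1 r, |b.im| < h ∧ deriv ψ b ≠ 0) ∧ ∃ δ > 0, δ ≤ r0 ∧
      ∃ (τ : ℂ → ℂ) (κ : ℂ),
        Chart (F300.ZZ ψ H) (F300.ZZc ψ H) (Tj ψ j) (cj ψ c j) b1 r δ τ κ := by
  have hSo : IsOpen {b | b ∈ Sp h ∧ deriv ψ b ≠ 0} := by
    have h1 : ContinuousOn (deriv ψ) (Sp h) := (hψ.deriv (isOpen_Sp h)).continuousOn
    exact h1.isOpen_inter_preimage (isOpen_Sp h) isOpen_compl_singleton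
  have hb1S : b1 ∈ {b | b ∈ Sp h ∧ deriv ψ b ≠ 0} := ⟨hb1, hy⟩
  have hdd : ∀ b ∈ Sp h, deriv (Tj ψ j) b = deriv ψ b := by
    intro b _
    show deriv (fun b => ψ b + Real.pi * j) b = _
    rw [deriv_add_const]
  obtain ⟨r, hr, hrr, hrS, δ, hδ, hδr, τ, κ, hC⟩ := exists_chart (S := {b | b ∈ Sp h ∧ deriv ψ b ≠ 0})
    (Z := F300.ZZ ψ H) (Zc := F300.ZZc ψ H) (T := Tj ψ j) (c := cj ψ c j) hSo hb1S
    (fun b hb => by
      have h1 := (F300.hasDerivAt_ZZ (isOpen_Sp h) hψ hH hrel hb.1 hb.2).1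
      refine h1.congr_deriv ?_
      unfold Tj cj
      rw [mul_add, Complex.exp_add]
      linear_combination (-(-c / deriv ψ b ^ 2) * cexp (I * ψ b)) * exp_pij j)
    (fun b hb => by
      have h1 := (F300.hasDerivAt_ZZ (isOpen_Sp h) hψ hH hrel hb.1 hb.2).2
      refine h1.congr_deriv ?_
      unfold Tj cj
      rw [mul_add, neg_add, Complex.exp_add, exp_pij' j]
      linear_combination (-(-c / deriv ψ b ^ 2) * cexp (-(I * ψ b))) * exp_pij j)
    ((hψ.mono fun b hb => hb.1).add_const _)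
    (by
      have h1 : ContinuousAt (deriv ψ) b1 :=
        ((hψ.deriv (isOpen_Sp h)).differentiableAt ((isOpen_Sp h).mem_nhds hb1)).continuousAt
      exact continuousAt_const.mul (continuousAt_const.div (h1.pow 2) (pow_ne_zero 2 hy)))
    (mul_ne_zero (exp_ne_zero _) (div_ne_zero (neg_ne_zero.2 hc) (pow_ne_zero 2 hy)))
    (by rw [hdd b1 hb1]; exact hy) hr0
  exact ⟨r, hr, hrr, fun b hb => hrS hb, δ, hδ, hδr, τ, κ, hC⟩

/-- incidence in the two forms -/
theorem inc_iff' {ψ H : ℂ → ℂ} {φ p b : ℂ} (hb : deriv ψ b ≠ 0) :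
    End613.Inc φ p (F300.ZZ ψ H b) (F300.ZZc ψ H b) = 0 ↔ F300.Inc ψ H φ p b := by
  rw [← F300.onLine_iff ψ H hb]
  unfold End613.Inc C0.OnLine
  rw [sub_eq_zero]

/-! ### the sequence of windows -/

/-- `f n → fl` locally uniformly: `f n` maps a compact set into an open set which contains the limit
values -/
theorem ev_mapsTo {ι : Type*} {l : Filter ι} {f : ι → ℂ × ℂ → ℂ} {fl : ℂ × ℂ → ℂ} {D : Set (ℂ × ℂ)}
    (hD : IsOpen D) (hf : TendstoLocallyUniformlyOn f fl l D) (hfl : ContinuousOn fl D)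
    {K : Set (ℂ × ℂ)} (hK : K ⊆ D) (hKc : IsCompact K) {O : Set ℂ} (hO : IsOpen O)
    (hm : ∀ x ∈ K, fl x ∈ O) : ∀ᶠ n in l, ∀ x ∈ K, f n x ∈ O := by
  have h1 : TendstoUniformlyOn f fl l K :=
    (tendstoLocallyUniformlyOn_iff_forall_isCompact hD).1 hf K hK hKc
  have h2 : IsCompact (fl '' K) := hKc.image_of_continuousOn (hfl.mono hK)
  obtain ⟨ε, hε, h3⟩ := h2.exists_thickening_subset_open hO
    (by rintro _ ⟨x, hx, rfl⟩; exact hm x hx)
  filter_upwards [Metric.tendstoUniformlyOn_iff.1 h1 ε hε] with n hn x hx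
  exact h3 (mem_thickening_iff.2 ⟨fl x, ⟨x, hx, rfl⟩, by rw [dist_comm]; exact hn x hx⟩)

/-- a sequence of windows which converges, without regular continuation of the label through the
face -/
structure Seq {ι : Type*} (l : Filter ι) (h a g : ℝ) (ψ H : ℂ → ℂ) (φ p B : ι → ℂ × ℂ → ℂ)
    (k : ι → ℤ) (φl pl Bl : ℂ × ℂ → ℂ) : Prop where
  φd : ∀ K ⊆ Lo (a + g), IsCompact K → ∀ᶠ n in l, ∀ x ∈ K, DifferentiableAt ℂ (φ n) x
  pd : ∀ K ⊆ Lo (a + g), IsCompact K → ∀ᶠ n in l, ∀ x ∈ K, DifferentiableAt ℂ (p n) x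
  φt : TendstoLocallyUniformlyOn φ φl l (Lo (a + g))
  pt : TendstoLocallyUniformlyOn p pl l (Lo (a + g))
  Bt : TendstoLocallyUniformlyOn (fun n x => B n x - k n) Bl l (Lo a)
  φld : DifferentiableOn ℂ φl (Lo (a + g))
  pld : DifferentiableOn ℂ pl (Lo (a + g))
  Bld : DifferentiableOn ℂ Bl (Lo a)
  Blm : ∀ x ∈ Lo a, |(Bl x).im| < h
  lab : ∀ K ⊆ Lo a, IsCompact K → ∀ᶠ n in l, ∀ x ∈ K, DifferentiableAt ℂ (B n) x ∧
    |(B n x).im| < h ∧ F300.Inc ψ H (φ n x) (p n x) (B n x) ∧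
    (deriv ψ (B n x) ≠ 0 → cexp (2 * I * (ψ (B n x) - φ n x)) ≠ 1)
  noReg : ∀ q0 ∈ Fc a, ∀ r > 0, ∀ K ⊆ ball q0 r ∩ Lo a, IsCompact K → ∀ᶠ n in l,
    ¬ ∃ G : ℂ × ℂ → ℂ, DifferentiableOn ℂ G (ball q0 r) ∧ (∀ x ∈ ball q0 r, |(G x).im| < h) ∧
      ∃ x ∈ K, G =ᶠ[𝓝 x] B n

section seq

variable {ι : Type*} {l : Filter ι} {h a g : ℝ} {ψ H : ℂ → ℂ} {φ p B : ι → ℂ × ℂ → ℂ}
  {k : ι → ℤ} {φl pl Bl : ℂ × ℂ → ℂ} {c : ℂ} {k0 : ℤ} {b1 κ : ℂ} {r δ : ℝ} {τ : ℂ → ℂ} {j : ℤ}

/-- labels near the centre of the chart, on a compact set -/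
theorem Seq.near (S : Seq l h a g ψ H φ p B k φl pl Bl)
    (hψ : ∀ b ∈ Sp h, ψ (b + 1) = ψ b + 2 * Real.pi * k0) (hH : ∀ b ∈ Sp h, H (b + 1) = H b)
    (hr : ∀ b ∈ closedBall b1 r, |b.im| < h ∧ deriv ψ b ≠ 0)
    {K : Set (ℂ × ℂ)} (hK : K ⊆ Lo a) (hKc : IsCompact K) (hBl : ∀ x ∈ K, Bl x ∈ ball b1 r) :
    ∀ᶠ n in l, ∀ x ∈ K, B n x - k n ∈ closedBall b1 r ∧
      End613.Inc (φ n x) (p n x) (F300.ZZ ψ H (B n x - k n)) (F300.ZZc ψ H (B n x - k n)) = 0 ∧
      cexp (2 * I * (ψ (B n x - k n) - φ n x)) ≠ 1 ∧ DifferentiableAt ℂ (B n) x := by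
  filter_upwards [ev_mapsTo (isOpen_Lo a) S.Bt S.Bld.continuousOn hK hKc isOpen_ball hBl,
    S.lab K hK hKc] with n hn hl x hx
  obtain ⟨l1, l2, l3, l4⟩ := hl x hx
  have h1 := ball_subset_closedBall (hn x hx)
  have h2 := hr _ h1
  have h3 : B n x - k n + k n = B n x := by ring
  have h4 : F300.Inc ψ H (φ n x) (p n x) (B n x - k n) := by
    rw [← inc_int hψ hH (k n) h2.1, h3]
    exact l3
  have h5 : deriv ψ (B n x) = deriv ψ (B n x - k n) := by
    have := deriv_per_int hψ (k n) (B n x - k n) h2.1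
    rwa [h3] at this
  refine ⟨h1, (inc_iff' h2.2).2 h4, ?_, l1⟩
  have h6 := tan_int hψ (k n) (φ := φ n x) h2.1
  rw [h3] at h6
  rw [← h6]
  exact l4 (by rw [h5]; exact h2.2)

/-- **births are zeros of the offset** -/
theorem Seq.births (S : Seq l h a g ψ H φ p B k φl pl Bl)
    (hψ : ∀ b ∈ Sp h, ψ (b + 1) = ψ b + 2 * Real.pi * k0) (hH : ∀ b ∈ Sp h, H (b + 1) = H b)
    (hC : Chart (F300.ZZ ψ H) (F300.ZZc ψ H) (Tj ψ j) (cj ψ c j) b1 r δ τ κ)
    (hr : ∀ b ∈ closedBall b1 r, |b.im| < h ∧ deriv ψ b ≠ 0)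
    {q0 : ℂ × ℂ} (hq0 : q0 ∈ Fc a) {ε : ℝ} (hε : 0 < ε) (hsub : closedBall q0 ε ⊆ Lo (a + g))
    (hφl : ∀ x ∈ closedBall q0 ε, φl x ∈ ball (Tj ψ j b1) δ)
    (hpl : ∀ x ∈ closedBall q0 ε, pl x ∈ ball (hsf (F300.ZZ ψ H) (F300.ZZc ψ H) τ (Tj ψ j b1)) δ)
    (hBl : ∃ x ∈ Lo a ∩ ball q0 ε, Bl x ∈ ball b1 r) :
    ∀ᶠ n in l, ∃ x ∈ ball q0 ε, p n x = hsf (F300.ZZ ψ H) (F300.ZZc ψ H) τ (φ n x) := by
  obtain ⟨x0, hx0, hx0b⟩ := hBl
  have hBc : ContinuousAt Bl x0 :=
    (S.Bld.differentiableAt ((isOpen_Lo a).mem_nhds hx0.1)).continuousAt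
  have hev : ∀ᶠ x in 𝓝 x0, Bl x ∈ ball b1 r ∧ x ∈ Lo a ∩ ball q0 ε :=
    (hBc.eventually (isOpen_ball.mem_nhds hx0b)).and
      (((isOpen_Lo a).inter isOpen_ball).mem_nhds hx0)
  obtain ⟨η, hη, hηb⟩ := Metric.nhds_basis_closedBall.mem_iff.1 hev
  have hηB : ∀ x ∈ closedBall x0 η, Bl x ∈ ball b1 r := fun x hx => (hηb hx).1
  have hηL : ∀ x ∈ closedBall x0 η, x ∈ Lo a ∩ ball q0 ε := fun x hx => (hηb hx).2
  filter_upwards [S.near hψ hH hr (K := closedBall x0 η) (fun x hx => (hηL x hx).1)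
      (isCompact_closedBall _ _) hηB,
    ev_mapsTo (isOpen_Lo _) S.φt S.φld.continuousOn hsub (isCompact_closedBall _ _) isOpen_ball hφl,
    ev_mapsTo (isOpen_Lo _) S.pt S.pld.continuousOn hsub (isCompact_closedBall _ _) isOpen_ball hpl,
    S.φd _ hsub (isCompact_closedBall _ _), S.pd _ hsub (isCompact_closedBall _ _),
    S.noReg q0 hq0 ε hε {x0} (by rintro x rfl; exact ⟨hx0.2, hx0.1⟩) isCompact_singleton]
    with n h1 h2 h3 h4 h5 h6
  refine birth_zero hC (V := ball q0 ε) (W := ball x0 η) isOpen_ball (convex_ball _ _)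
    (fun x hx => (h4 x (ball_subset_closedBall hx)).differentiableWithinAt)
    (fun x hx => (h5 x (ball_subset_closedBall hx)).differentiableWithinAt)
    (fun x hx => h2 x (ball_subset_closedBall hx)) (fun x hx => h3 x (ball_subset_closedBall hx))
    (fun x hx => (hηL x (ball_subset_closedBall hx)).2) (convex_ball _ _).isPreconnected
    (B := fun x => B n x - k n) ?_ (fun x hx => ?_) ?_
  · intro x hx
    exact ((h1 x (ball_subset_closedBall hx)).2.2.2.continuousAt.sub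
      continuousAt_const).continuousWithinAt
  · have := h1 x (ball_subset_closedBall hx)
    exact ⟨this.1, this.2.1⟩
  · rintro ⟨G, g1, g2, g3⟩
    refine h6 ⟨fun x => G x + k n, g1.add_const _, fun x hx => ?_, x0, rfl, ?_⟩
    · have h7 := (hr _ (g2 x hx)).1
      have h8 : (G x + k n).im = (G x).im := by simp
      rw [h8]; exact h7
    · filter_upwards [ball_mem_nhds x0 hη] with x hx
      have := g3 hx
      simp only at this
      rw [← this]; ring

/-- **no tangent line below the face** -/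
theorem Seq.free (S : Seq l h a g ψ H φ p B k φl pl Bl)
    (hψ : ∀ b ∈ Sp h, ψ (b + 1) = ψ b + 2 * Real.pi * k0) (hH : ∀ b ∈ Sp h, H (b + 1) = H b)
    (hC : Chart (F300.ZZ ψ H) (F300.ZZc ψ H) (Tj ψ j) (cj ψ c j) b1 r δ τ κ)
    (hr : ∀ b ∈ closedBall b1 r, |b.im| < h ∧ deriv ψ b ≠ 0)
    {K : Set (ℂ × ℂ)} (hK : K ⊆ Lo a) (hKg : K ⊆ Lo (a + g)) (hKc : IsCompact K)
    (hφl : ∀ x ∈ K, φl x ∈ ball (Tj ψ j b1) δ) (hBl : ∀ x ∈ K, Bl x ∈ ball b1 r) :
    ∀ᶠ n in l, ∀ x ∈ K, p n x ≠ hsf (F300.ZZ ψ H) (F300.ZZc ψ H) τ (φ n x) := by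
  filter_upwards [S.near hψ hH hr hK hKc hBl,
    ev_mapsTo (isOpen_Lo _) S.φt S.φld.continuousOn hKg hKc isOpen_ball hφl] with n h1 h2 x hx h0
  obtain ⟨n1, n2, n3, n4⟩ := h1 x hx
  have h3 := zero_label hC (h2 x hx) n1 n2 h0
  apply n3
  have h4 : ψ (B n x - k n) - φ n x = ((-j : ℤ) : ℂ) * Real.pi := by
    have : Tj ψ j (B n x - k n) = ψ (B n x - k n) + Real.pi * j := rfl
    rw [this] at h3
    push_cast
    linear_combination h3
  rw [h4]
  have h5 : 2 * I * (((-j : ℤ) : ℂ) * Real.pi) = ((-j : ℤ) : ℂ) * (2 * Real.pi * I) := by ring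
  rw [h5, Complex.exp_int_mul_two_pi_mul_I]

/-- the incidence of the limit -/
theorem Seq.inc_lim [l.NeBot] (S : Seq l h a g ψ H φ p B k φl pl Bl) (hg : 0 < g)
    (hψd : DifferentiableOn ℂ ψ (Sp h)) (hHd : DifferentiableOn ℂ H (Sp h))
    (hψ : ∀ b ∈ Sp h, ψ (b + 1) = ψ b + 2 * Real.pi * k0) (hH : ∀ b ∈ Sp h, H (b + 1) = H b) :
    ∀ x ∈ Lo a, F300.Inc ψ H (φl x) (pl x) (Bl x) := by
  intro x hx
  have hxg : x ∈ Lo (a + g) := Lo_sub hg hx
  have hS := (isOpen_Sp h).mem_nhds (S.Blm x hx)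
  have t1 : Tendsto (fun n => φ n x) l (𝓝 (φl x)) := S.φt.tendsto_at hxg
  have t2 : Tendsto (fun n => p n x) l (𝓝 (pl x)) := S.pt.tendsto_at hxg
  have t3 : Tendsto (fun n => B n x - k n) l (𝓝 (Bl x)) := S.Bt.tendsto_at hx
  have c1 : ContinuousAt ψ (Bl x) := (hψd.differentiableAt hS).continuousAt
  have c2 : ContinuousAt H (Bl x) := (hHd.differentiableAt hS).continuousAt
  have c3 : ContinuousAt (deriv ψ) (Bl x) :=
    ((hψd.deriv (isOpen_Sp h)).differentiableAt hS).continuousAt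
  have c4 : ContinuousAt (deriv H) (Bl x) :=
    ((hHd.deriv (isOpen_Sp h)).differentiableAt hS).continuousAt
  have u1 := c1.tendsto.comp t3
  have u2 := c2.tendsto.comp t3
  have u3 := c3.tendsto.comp t3
  have u4 := c4.tendsto.comp t3
  have v1 := u3.mul t2
  have v2 := ((u3.mul u2).mul (Complex.continuous_cos.continuousAt.tendsto.comp
    (t1.sub u1))).add (u4.mul (Complex.continuous_sin.continuousAt.tendsto.comp (t1.sub u1)))
  refine tendsto_nhds_unique_of_eventuallyEq v1 v2 ?_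
  filter_upwards [S.lab {x} (by rintro y rfl; exact hx) isCompact_singleton] with n hn
  obtain ⟨l1, l2, l3, l4⟩ := hn x rfl
  have h3 : B n x - k n + k n = B n x := by ring
  have h4 : F300.Inc ψ H (φ n x) (p n x) (B n x - k n) := by
    rw [← inc_int hψ hH (k n) (Sp_int' l2 _), h3]
    exact l3
  exact h4

end seq

end Crest.Agent.R102.EdgeC300
end
end

-- ▼ part R102/EdgeC3_300

/-!
Row 102, T1-B, EDGE, case (c1), part C (helper300): windows whose limit line is tangent to the curve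
at the limit label (`R₀ ≡ 1`) have a constant limit.
-/

set_option autoImplicit false

open Set Filter Topology Metric Complex

noncomputable section

namespace Crest.Agent.R102.EdgeC300

open Crest.Agent.R102.EdgeLim196 Crest.Agent.R102.LemX262 Crest.Agent.R102.SlowLim754
open Crest.Agent.R102.Tang654 (Chart hsf Ef inc_iff exists_chart)
open Crest.Agent.R266.SCV

/-! ### the coordinates `(s, ζ)`, `s = T - a ζ` -/

/-- `(s, ζ) ↦ (s + a ζ, ζ)` -/
def Ea (a : ℝ) (q : ℂ × ℂ) : ℂ × ℂ := (q.1 + a * q.2, q.2)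

theorem Ea_diff (a : ℝ) : Differentiable ℂ (Ea a) := by
  unfold Ea; fun_prop

theorem Ea_mem {a g : ℝ} {q : ℂ × ℂ} : Ea a q ∈ Lo (a + g) ↔ q ∈ Gc g := by
  show (0 < q.2.im ∧ (q.1 + a * q.2).im < (a + g) * q.2.im) ↔ (0 < q.2.im ∧ q.1.im < g * q.2.im)
  have : (q.1 + a * q.2).im = q.1.im + a * q.2.im := by simp
  rw [this]
  constructor <;> rintro ⟨h1, h2⟩ <;> exact ⟨h1, by linarith⟩

theorem Ea_mem_Lo {a : ℝ} {q : ℂ × ℂ} (h1 : 0 < q.2.im) (h2 : q.1.im < 0) : Ea a q ∈ Lo a := by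
  refine ⟨h1, ?_⟩
  show (q.1 + a * q.2).im < a * q.2.im
  have : (q.1 + a * q.2).im = q.1.im + a * q.2.im := by simp
  rw [this]; linarith

theorem Ea_mem_Fc {a : ℝ} {q : ℂ × ℂ} (h1 : 0 < q.2.im) (h2 : q.1.im = 0) : Ea a q ∈ Fc a := by
  refine ⟨h1, ?_⟩
  show (q.1 + a * q.2).im = a * q.2.im
  have : (q.1 + a * q.2).im = q.1.im + a * q.2.im := by simp
  rw [this]; linarith

theorem Ea_inv (a : ℝ) (x : ℂ × ℂ) : Ea a (x.1 - a * x.2, x.2) = x := by
  unfold Ea; ext <;> simp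

theorem hasFDerivAt_Ea (a : ℝ) (q : ℂ × ℂ) :
    ∃ L : ℂ × ℂ →L[ℂ] ℂ × ℂ, HasFDerivAt (Ea a) L q ∧ L (1, 0) = (1, 0) ∧ L (0, 1) = ((a : ℂ), 1) := by
  refine ⟨((ContinuousLinearMap.fst ℂ ℂ ℂ) + (a : ℂ) • (ContinuousLinearMap.snd ℂ ℂ ℂ)).prod
    (ContinuousLinearMap.snd ℂ ℂ ℂ), ?_, ?_, ?_⟩
  · exact ((hasFDerivAt_fst).add ((hasFDerivAt_snd).const_mul (a : ℂ))).prodMk hasFDerivAt_snd
  · simp
  · simp

theorem d1_Ea {a : ℝ} {f : ℂ × ℂ → ℂ} {q : ℂ × ℂ} (hf : DifferentiableAt ℂ f (Ea a q)) :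
    d1 (fun q => f (Ea a q)) q = d1 f (Ea a q) := by
  obtain ⟨L, hL, h1, h2⟩ := hasFDerivAt_Ea a q
  have := (hf.hasFDerivAt.comp q hL).fderiv
  show fderiv ℂ (f ∘ Ea a) q (1, 0) = _
  rw [this, ContinuousLinearMap.comp_apply, h1]
  rfl

theorem d2_Ea {a : ℝ} {f : ℂ × ℂ → ℂ} {q : ℂ × ℂ} (hf : DifferentiableAt ℂ f (Ea a q)) :
    d2 (fun q => f (Ea a q)) q = a * d1 f (Ea a q) + d2 f (Ea a q) := by
  obtain ⟨L, hL, h1, h2⟩ := hasFDerivAt_Ea a q
  have := (hf.hasFDerivAt.comp q hL).fderiv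
  show fderiv ℂ (f ∘ Ea a) q (0, 1) = _
  rw [this, ContinuousLinearMap.comp_apply, h2, fderiv_pair, one_mul]
  rfl

/-- the wedge of differentials in the coordinates `(s, ζ)` -/
theorem jac_Ea {a : ℝ} {f f' : ℂ × ℂ → ℂ} {q : ℂ × ℂ} (hf : DifferentiableAt ℂ f (Ea a q))
    (hf' : DifferentiableAt ℂ f' (Ea a q)) :
    d1 (fun q => f (Ea a q)) q * d2 (fun q => f' (Ea a q)) q -
      d2 (fun q => f (Ea a q)) q * d1 (fun q => f' (Ea a q)) q =
    d1 f (Ea a q) * d2 f' (Ea a q) - d2 f (Ea a q) * d1 f' (Ea a q) := by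
  rw [d1_Ea hf, d1_Ea hf', d2_Ea hf, d2_Ea hf']
  ring

/-! ### Liouville with bounded imaginary part -/

theorem const_of_im_le {F : ℂ → ℂ} (hF : Differentiable ℂ F) {C : ℝ} (hC : ∀ s, |(F s).im| ≤ C) :
    ∀ s t, F s = F t := by
  have h1 : Differentiable ℂ fun s => cexp (I * F s) := (hF.const_mul I).cexp
  have h2 : Bornology.IsBounded (range fun s => cexp (I * F s)) := by
    refine isBounded_iff_forall_norm_le.2 ⟨Real.exp C, ?_⟩
    rintro _ ⟨s, rfl⟩
    simp only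
    rw [Complex.norm_exp]
    refine Real.exp_le_exp.2 ?_
    have : (I * F s).re = -(F s).im := by simp
    rw [this]
    exact (neg_le_abs _).trans (hC s)
  refine is_const_of_deriv_eq_zero hF fun s => ?_
  have h3 : (fun s => cexp (I * F s)) = fun _ => cexp (I * F s) := by
    funext t
    exact h1.apply_eq_apply_of_bounded h2 t s
  have h4 : HasDerivAt (fun s => cexp (I * F s)) (cexp (I * F s) * (I * deriv F s)) s :=
    ((hF s).hasDerivAt.const_mul I).cexp
  have h5 : HasDerivAt (fun s => cexp (I * F s)) 0 s := by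
    rw [h3]; exact hasDerivAt_const _ _
  have h6 := h4.unique h5
  rcases mul_eq_zero.1 h6 with h7 | h7
  · exact absurd h7 (exp_ne_zero _)
  · rcases mul_eq_zero.1 h7 with h8 | h8
    · exact absurd h8 I_ne_zero
    · exact h8

/-! ### the limit line is constant -/

/-- values in a translate of `π ℤ` -/
theorem const_of_exp {a g : ℝ} (hg : 0 < g) {φ : ℂ × ℂ → ℂ} (hφ : DifferentiableOn ℂ φ (Lo (a + g)))
    {t : ℂ} (hR : ∀ x ∈ Lo a, cexp (2 * I * (t - φ x)) = 1) :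
    ∀ x ∈ Lo (a + g), ∀ y ∈ Lo (a + g), φ x = φ y := by
  -- a point of `Lo a`
  obtain ⟨x0, hx0⟩ : (Lo a).Nonempty := by
    refine ⟨(((a - 1 : ℝ) : ℂ) * I, I), ?_, ?_⟩
    · simp
    · simp
  have hx0g := Lo_sub hg hx0
  have hc : ContinuousAt φ x0 := (hφ.differentiableAt ((isOpen_Lo _).mem_nhds hx0g)).continuousAt
  have hev : φ =ᶠ[𝓝 x0] fun _ => φ x0 := by
    filter_upwards [hc.eventually (ball_mem_nhds _ Real.pi_pos), (isOpen_Lo a).mem_nhds hx0]
      with x h1 h2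
    obtain ⟨n, hn⟩ := Complex.exp_eq_one_iff.1 (hR x h2)
    obtain ⟨m, hm⟩ := Complex.exp_eq_one_iff.1 (hR x0 hx0)
    have h2I : (2 : ℂ) * I ≠ 0 := by simp
    have h3 : φ x - φ x0 = ((m - n : ℤ) : ℂ) * Real.pi := by
      refine mul_left_cancel₀ h2I ?_
      push_cast
      linear_combination hm - hn
    rw [dist_eq_norm, h3, norm_mul, Complex.norm_intCast, Complex.norm_real,
      Real.norm_eq_abs, abs_of_pos Real.pi_pos] at h1
    have h4 : |((m - n : ℤ) : ℝ)| < 1 := by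
      by_contra hcon
      push Not at hcon
      nlinarith [Real.pi_pos]
    have h5 : m - n = 0 := by
      rw [← Int.cast_abs] at h4
      have h6 : |m - n| < 1 := by exact_mod_cast h4
      exact Int.abs_lt_one_iff.1 h6
    rw [h5] at h3
    have h7 : φ x - φ x0 = 0 := by rw [h3]; simp
    exact sub_eq_zero.1 h7
  have key := (analyticOnNhd_of_differentiableOn (isOpen_Lo _) hφ).eqOn_of_preconnected_of_eventuallyEq
    analyticOnNhd_const (convex_Lo (a + g)).isPreconnected hx0g hev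
  intro x hx y hy
  rw [key hx, key hy]

section main

variable {ι : Type*} {l : Filter ι} {h a g : ℝ} {ψ H : ℂ → ℂ} {φ p B : ι → ℂ × ℂ → ℂ}
  {k : ι → ℤ} {φl pl Bl : ℂ × ℂ → ℂ} {c : ℂ} {k0 : ℤ}

/-- **case (c1)**, bound of the imaginary part at one point over every `s` -/
theorem caseC' [l.NeBot] (hg : 0 < g) (hψd : DifferentiableOn ℂ ψ (Sp h))
    (hHd : DifferentiableOn ℂ H (Sp h)) (hrel : F300.Rel (Sp h) ψ H c) (hc : c ≠ 0)
    (hψ : ∀ b ∈ Sp h, ψ (b + 1) = ψ b + 2 * Real.pi * k0) (hH : ∀ b ∈ Sp h, H (b + 1) = H b)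
    (S : Seq l h a g ψ H φ p B k φl pl Bl)
    {σ : ι → ℂ} {J : ι → ℂ × ℂ → ℂ} {Jl : ℂ × ℂ → ℂ}
    (hσ : ∀ᶠ n in l, σ n ≠ 0)
    (hJ : ∀ K ⊆ Lo (a + g), IsCompact K → ∀ᶠ n in l, ∀ x ∈ K,
      d1 (φ n) x * d2 (p n) x - d2 (φ n) x * d1 (p n) x = σ n * J n x)
    (hJt : TendstoLocallyUniformlyOn J Jl l (Lo (a + g))) (hJ0 : ∀ x ∈ Lo (a + g), Jl x ≠ 0)
    {C : ℝ} (hC : ∀ s : ℂ, ∃ z : ℂ, ((s, z) : ℂ × ℂ) ∈ Gc g ∧ |(φl (Ea a (s, z))).im| ≤ C)
    (hR : ∀ x ∈ Lo a, cexp (2 * I * (ψ (Bl x) - φl x)) = 1) :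
    (∀ x ∈ Lo a, ∀ y ∈ Lo a, Bl x = Bl y) ∧ ∀ x ∈ Lo (a + g), ∀ y ∈ Lo (a + g), φl x = φl y := by
  obtain ⟨z0, hz0⟩ : (Lo a).Nonempty := by
    refine ⟨(((a - 1 : ℝ) : ℂ) * I, I), ?_, ?_⟩
    · simp
    · simp
  -- `ψ` is not constant
  have hψne : ∃ b ∈ Sp h, deriv ψ b ≠ 0 := by
    by_contra hcon
    push Not at hcon
    have hb0 : Bl z0 ∈ Sp h := S.Blm z0 hz0
    apply hc
    rw [← hrel _ hb0, hcon _ hb0]
    have h1 : deriv (deriv ψ) (Bl z0) = 0 := by
      have h2 : deriv ψ =ᶠ[𝓝 (Bl z0)] fun _ => 0 := by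
        filter_upwards [(isOpen_Sp h).mem_nhds hb0] with b hb
        exact hcon b hb
      rw [h2.deriv_eq, deriv_const]
    rw [h1]; ring
  rcases exists_face hg hψd hψne hψ S.φld S.Bld S.Blm hR with hcst | hface
  · -- constant label
    refine ⟨hcst, const_of_exp hg S.φld (t := ψ (Bl z0)) fun x hx => ?_⟩
    rw [← hcst x hx z0 hz0]
    exact hR x hx
  obtain ⟨q1, hq1, b1, hb1, hy1, j, hφq1, r0, hr0, hr0L, Bt, hBtd, hBtq, hBtm, hBtB⟩ := hface
  -- the chart
  obtain ⟨r, hr, -, hrS, δ, hδ, -, τ, κ, hCh⟩ := exists_chart' hψd hHd hrel hc hb1 hy1 j one_pos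
  have hTj : Tj ψ j b1 = φl q1 := by rw [hφq1]; rfl
  have hq1g : q1 ∈ Lo (a + g) := Fc_sub hg hq1
  have hφc : ContinuousAt φl q1 :=
    (S.φld.differentiableAt ((isOpen_Lo _).mem_nhds hq1g)).continuousAt
  have hpc : ContinuousAt pl q1 :=
    (S.pld.differentiableAt ((isOpen_Lo _).mem_nhds hq1g)).continuousAt
  have hBtc : ContinuousAt Bt q1 :=
    (hBtd.differentiableAt (ball_mem_nhds q1 hr0)).continuousAt
  -- incidence at the face point
  have hinc1 : F300.Inc ψ H (φl q1) (pl q1) b1 := by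
    have hS : Sp h ∈ 𝓝 (Bt q1) := (isOpen_Sp h).mem_nhds (by rw [hBtq]; exact hb1)
    have c1 : ContinuousAt (fun x => ψ (Bt x)) q1 :=
      ContinuousAt.comp (g := ψ) (hψd.differentiableAt hS).continuousAt hBtc
    have c2 : ContinuousAt (fun x => H (Bt x)) q1 :=
      ContinuousAt.comp (g := H) (hHd.differentiableAt hS).continuousAt hBtc
    have c3 : ContinuousAt (fun x => deriv ψ (Bt x)) q1 :=
      ContinuousAt.comp (g := deriv ψ)
        ((hψd.deriv (isOpen_Sp h)).differentiableAt hS).continuousAt hBtc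
    have c4 : ContinuousAt (fun x => deriv H (Bt x)) q1 :=
      ContinuousAt.comp (g := deriv H)
        ((hHd.deriv (isOpen_Sp h)).differentiableAt hS).continuousAt hBtc
    have c5 : ContinuousAt (fun x => Complex.cos (φl x - ψ (Bt x))) q1 :=
      Complex.continuous_cos.continuousAt.comp (hφc.sub c1)
    have c6 : ContinuousAt (fun x => Complex.sin (φl x - ψ (Bt x))) q1 :=
      Complex.continuous_sin.continuousAt.comp (hφc.sub c1)
    have v1 := (c3.mul hpc).tendsto.mono_left (nhdsWithin_le_nhds (s := Lo a))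
    have v2 := (((c3.mul c2).mul c5).add (c4.mul c6)).tendsto.mono_left
      (nhdsWithin_le_nhds (s := Lo a))
    have hNB := face_mem_closure hq1
    have key := tendsto_nhds_unique_of_eventuallyEq v1 v2 (by
      filter_upwards [self_mem_nhdsWithin, mem_nhdsWithin_of_mem_nhds (ball_mem_nhds q1 hr0)]
        with x hx hxb
      have h1 := S.inc_lim hg hψd hHd hψ hH x hx
      rw [hBtB x hxb hx] at h1
      exact h1)
    simp only [Pi.mul_apply, Pi.add_apply] at key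
    rw [hBtq] at key
    exact key
  have hpq1 : pl q1 = hsf (F300.ZZ ψ H) (F300.ZZc ψ H) τ (Tj ψ j b1) := by
    rw [hCh.hsf_b₀]
    have h1 := (inc_iff' hy1).2 hinc1
    rw [← hTj] at h1
    exact (inc_iff.1 h1).symm
  -- a small ball at the face point
  have hev : ∀ᶠ x in 𝓝 q1, (φl x ∈ ball (Tj ψ j b1) δ ∧
      pl x ∈ ball (hsf (F300.ZZ ψ H) (F300.ZZc ψ H) τ (Tj ψ j b1)) δ) ∧
      (Bt x ∈ ball b1 r ∧ x ∈ ball q1 r0) := by
    refine ((hφc.eventually ?_).and (hpc.eventually ?_)).and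
      ((hBtc.eventually ?_).and (ball_mem_nhds q1 hr0))
    · rw [← hTj]; exact ball_mem_nhds _ hδ
    · rw [hpq1]; exact ball_mem_nhds _ hδ
    · rw [hBtq]; exact ball_mem_nhds _ hr
  obtain ⟨ρ, hρ, hρb⟩ := Metric.nhds_basis_closedBall.mem_iff.1 hev
  have hρL : closedBall q1 ρ ⊆ Lo (a + g) := fun x hx => hr0L (hρb hx).2.2
  have hBlρ : ∀ x ∈ closedBall q1 ρ, x ∈ Lo a → Bl x ∈ ball b1 r := by
    intro x hx hxL
    rw [hBtB x (hρb hx).2.2 hxL]
    exact (hρb hx).2.1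
  -- the offset
  set Z := F300.ZZ ψ H with hZ
  set Zc := F300.ZZc ψ H with hZc
  set Q : ι → ℂ × ℂ → ℂ := fun n x => p n x - hsf Z Zc τ (φ n x) with hQ
  have hφev := ev_mapsTo (isOpen_Lo _) S.φt S.φld.continuousOn hρL (isCompact_closedBall _ _)
    isOpen_ball (fun x hx => (hρb hx).1.1)
  have hφdev := S.φd _ hρL (isCompact_closedBall _ _)
  have hpdev := S.pd _ hρL (isCompact_closedBall _ _)
  have hQd : ∀ᶠ n in l, ∀ x ∈ closedBall q1 ρ, DifferentiableAt ℂ (Q n) x := by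
    filter_upwards [hφev, hφdev, hpdev] with n h1 h2 h3 x hx
    exact (h3 x hx).sub ((hCh.hsf_diff.differentiableAt (isOpen_ball.mem_nhds (h1 x hx))).comp x
      (h2 x hx))
  have harea : ∀ᶠ n in l, ∀ x ∈ closedBall q1 ρ,
      d1 (φ n) x * d2 (Q n) x - d2 (φ n) x * d1 (Q n) x = σ n * J n x := by
    filter_upwards [hφev, hφdev, hpdev, hJ _ hρL (isCompact_closedBall _ _)] with n h1 h2 h3 h4 x hx
    obtain ⟨Q', hQ', hQ2⟩ := hCh.area (h2 x hx).hasFDerivAt (h3 x hx).hasFDerivAt (h1 x hx)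
    have h5 : fderiv ℂ (Q n) x = Q' := hQ'.fderiv
    have h6 := hQ2 (1, 0) (0, 1)
    rw [← h4 x hx]
    show fderiv ℂ (φ n) x (1, 0) * fderiv ℂ (Q n) x (0, 1) -
      fderiv ℂ (φ n) x (0, 1) * fderiv ℂ (Q n) x (1, 0) = _
    rw [h5, h6]
    rfl
  -- Lemma X
  set Ω : Set (ℂ × ℂ) := Ea a ⁻¹' ball q1 ρ with hΩ
  have hΩo : IsOpen Ω := isOpen_ball.preimage (Ea_diff a).continuous
  have hΩG : Ω ⊆ Gc g := fun q hq => Ea_mem.1 (hρL (ball_subset_closedBall hq))
  have hp0 : ((q1.1 - a * q1.2, q1.2) : ℂ × ℂ) ∈ Ω := by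
    show Ea a (q1.1 - a * q1.2, q1.2) ∈ ball q1 ρ
    rw [Ea_inv]; exact mem_ball_self hρ
  have hd2 : ∀ q ∈ Gc g, d2 (fun q => φl (Ea a q)) q = 0 := by
    refine lemX_all (l := l) hΩo (isOpen_Gc g) (convex_Gc g).isPreconnected hΩG
      (U := fun _ => Ω) (fun K hK _ => Eventually.of_forall fun _ => hK)
      (m := fun n q => φ n (Ea a q)) (D := fun n q => (σ n)⁻¹ * Q n (Ea a q))
      (k := fun n q => J n (Ea a q)) (kap := fun q => Jl (Ea a q)) ?_ ?_ ?_ ?_ ?_ ?_ ?_ ?_ ?_ hp0 ?_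
    · exact S.φld.comp (Ea_diff a).differentiableOn fun q hq => Ea_mem.2 hq
    · filter_upwards [hφdev] with n hn q hq
      exact ((hn _ (ball_subset_closedBall hq)).comp q (Ea_diff a q)).differentiableWithinAt
    · filter_upwards [hQd] with n hn q hq
      exact (((hn _ (ball_subset_closedBall hq)).comp q (Ea_diff a q)).const_mul
        _).differentiableWithinAt
    · exact S.φt.comp (Ea a) (fun q hq => Ea_mem.2 (hΩG hq)) (Ea_diff a).continuous.continuousOn
    · filter_upwards [hφdev, hQd, harea, hσ] with n h1 h2 h3 h4 q hq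
      have hq' := ball_subset_closedBall hq
      have e1 := jac_Ea (a := a) (f := φ n) (f' := Q n) (h1 _ hq') (h2 _ hq')
      have hcd : DifferentiableAt ℂ (fun q => Q n (Ea a q)) q :=
        (h2 _ hq').comp q (Ea_diff a q)
      have e2 : d2 (fun q => (σ n)⁻¹ * Q n (Ea a q)) q = (σ n)⁻¹ * d2 (fun q => Q n (Ea a q)) q := by
        show fderiv ℂ _ q (0, 1) = _
        rw [(hcd.hasFDerivAt.const_mul (σ n)⁻¹).fderiv]
        rfl
      have e3 : d1 (fun q => (σ n)⁻¹ * Q n (Ea a q)) q = (σ n)⁻¹ * d1 (fun q => Q n (Ea a q)) q := by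
        show fderiv ℂ _ q (1, 0) = _
        rw [(hcd.hasFDerivAt.const_mul (σ n)⁻¹).fderiv]
        rfl
      rw [e2, e3]
      have e4 := h3 _ hq'
      rw [← e1] at e4
      have e5 : (σ n)⁻¹ * (σ n * J n (Ea a q)) = J n (Ea a q) := by
        rw [← mul_assoc, inv_mul_cancel₀ h4, one_mul]
      rw [← e5, ← e4]
      ring
    · exact hJt.comp (Ea a) (fun q hq => Ea_mem.2 (hΩG hq)) (Ea_diff a).continuous.continuousOn
    · exact fun q hq => hJ0 _ (Ea_mem.2 (hΩG hq))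
    · -- no zeros below the face
      intro K hK hKc
      have hKc' : IsCompact (Ea a '' K) := hKc.image (Ea_diff a).continuous
      have hKρ : Ea a '' K ⊆ closedBall q1 ρ := by
        rintro _ ⟨q, hq, rfl⟩
        exact ball_subset_closedBall (hK hq).1
      have hKL : Ea a '' K ⊆ Lo a := by
        rintro _ ⟨q, hq, rfl⟩
        exact Ea_mem_Lo (hΩG (hK hq).1).1 (hK hq).2
      filter_upwards [S.free hψ hH hCh hrS hKL (hKρ.trans hρL) hKc' (fun x hx => (hρb (hKρ hx)).1.1)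
        (fun x hx => hBlρ x (hKρ hx) (hKL hx)), hσ] with n h1 h2 q hq
      exact mul_ne_zero (inv_ne_zero h2) (sub_ne_zero.2 (h1 _ ⟨q, hq, rfl⟩))
    · -- zeros accumulate on the face
      intro q hq hq0 e he
      have hqF : Ea a q ∈ Fc a := Ea_mem_Fc (hΩG hq).1 hq0
      have hinvc : Continuous fun x : ℂ × ℂ => ((x.1 - a * x.2, x.2) : ℂ × ℂ) := by fun_prop
      have hinvq : (((Ea a q).1 - a * (Ea a q).2, (Ea a q).2) : ℂ × ℂ) = q := by
        unfold Ea; ext <;> simp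
      have hev2 : ∀ᶠ x in 𝓝 (Ea a q), ((x.1 - a * x.2, x.2) : ℂ × ℂ) ∈ ball q e ∧ x ∈ ball q1 ρ := by
        have hb : ball q e ∈ 𝓝 (((Ea a q).1 - a * (Ea a q).2, (Ea a q).2) : ℂ × ℂ) := by
          rw [hinvq]; exact ball_mem_nhds _ he
        exact (hinvc.continuousAt.eventually hb).and (isOpen_ball.mem_nhds hq)
      obtain ⟨ε, hε, hεb⟩ := Metric.nhds_basis_closedBall.mem_iff.1 hev2
      have hερ : closedBall (Ea a q) ε ⊆ closedBall q1 ρ := fun x hx =>
        ball_subset_closedBall (hεb hx).2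
      have hx0 : ∃ x ∈ Lo a ∩ ball (Ea a q) ε, Bl x ∈ ball b1 r := by
        have hNB := face_mem_closure hqF
        have h1 : ∀ᶠ x in 𝓝[Lo a] (Ea a q), x ∈ Lo a ∩ ball (Ea a q) ε :=
          (eventually_mem_nhdsWithin).and (mem_nhdsWithin_of_mem_nhds (ball_mem_nhds _ hε))
        obtain ⟨x, hx⟩ := h1.exists
        exact ⟨x, hx, hBlρ x (hερ (ball_subset_closedBall hx.2)) hx.1⟩
      filter_upwards [S.births hψ hH hCh hrS hqF hε (hερ.trans hρL)
        (fun x hx => (hρb (hερ hx)).1.1) (fun x hx => (hρb (hερ hx)).1.2) hx0] with n hn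
      obtain ⟨x, hx, hx0⟩ := hn
      refine ⟨(x.1 - a * x.2, x.2), (hεb (ball_subset_closedBall hx)).1, ?_⟩
      rw [Ea_inv, hQ]
      simp only
      rw [hx0, sub_self, mul_zero]
    · show (q1.1 - a * q1.2).im = 0
      have : (q1.1 - a * q1.2).im = q1.1.im - a * q1.2.im := by simp
      rw [this, hq1.2, sub_self]
  -- the limit line is constant
  obtain ⟨F, hF, hFeq⟩ := entire_of_face hg
    (S.φld.comp (Ea_diff a).differentiableOn fun q hq => Ea_mem.2 hq)
    (fun q hq _ => hd2 q hq)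
  have hFc : ∀ s t, F s = F t := by
    refine const_of_im_le hF (C := C) fun s => ?_
    obtain ⟨z, hmem, hz⟩ := hC s
    have := hFeq _ hmem
    simp only [Function.comp] at this
    rw [← this]
    exact hz
  have hφcst : ∀ x ∈ Lo (a + g), ∀ y ∈ Lo (a + g), φl x = φl y := by
    have h1 : ∀ x ∈ Lo (a + g), φl x = F (x.1 - a * x.2) := by
      intro x hx
      have h2 : ((x.1 - a * x.2, x.2) : ℂ × ℂ) ∈ Gc g := by
        rw [← Ea_mem (a := a), Ea_inv]; exact hx
      have := hFeq _ h2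
      simp only [Function.comp] at this
      rw [Ea_inv] at this
      exact this
    intro x hx y hy
    rw [h1 x hx, h1 y hy]
    exact hFc _ _
  refine ⟨?_, hφcst⟩
  -- the label is constant
  have h1 : ∀ᶠ z in 𝓝 b1, z ≠ b1 → ψ z ≠ ψ b1 := by
    have hd := (hψd.differentiableAt ((isOpen_Sp h).mem_nhds hb1)).hasDerivAt
    exact eventually_nhdsWithin_iff.1 (hd.eventually_ne hy1)
  have h2 : ∀ᶠ x in 𝓝 q1, Bt x = b1 := by
    have h3 : ∀ᶠ x in 𝓝 q1, Bt x ≠ b1 → ψ (Bt x) ≠ ψ b1 :=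
      hBtc.eventually (by rw [hBtq]; exact h1)
    filter_upwards [h3, ball_mem_nhds q1 hr0] with x hx hxb
    by_contra hcon
    apply hx hcon
    rw [(hBtm x hxb).2, hφcst x (hr0L hxb) q1 hq1g, hφq1]
    ring
  have hNB := face_mem_closure hq1
  have h2' : ∀ᶠ x in 𝓝[Lo a] q1, ∀ᶠ y in 𝓝 x, Bt y = b1 :=
    nhdsWithin_le_nhds h2.eventually_nhds
  have h4 : ∀ᶠ x in 𝓝[Lo a] q1, x ∈ Lo a := self_mem_nhdsWithin
  have h5 : ∀ᶠ x in 𝓝[Lo a] q1, x ∈ ball q1 r0 :=
    mem_nhdsWithin_of_mem_nhds (ball_mem_nhds q1 hr0)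
  obtain ⟨x1, hx1, hx1L, hx1b⟩ := (h2'.and (h4.and h5)).exists
  have hev3 : Bl =ᶠ[𝓝 x1] fun _ => b1 := by
    filter_upwards [hx1, (isOpen_Lo a).mem_nhds hx1L, isOpen_ball.mem_nhds hx1b] with y k1 k2 k3
    rw [hBtB y k3 k2, k1]
  have key := (analyticOnNhd_of_differentiableOn (isOpen_Lo a)
    S.Bld).eqOn_of_preconnected_of_eventuallyEq analyticOnNhd_const
    (convex_Lo a).isPreconnected hx1L hev3
  intro x hx y hy
  rw [key hx, key hy]


end main

end Crest.Agent.R102.EdgeC300
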