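import Crest.Agent.R102.EdgeDefs_255

-- ▼ part R102/EdgeAsm_255
section

/-!
Row 102, T1-B, EDGE: assembly (helper255).
* `rigid_of`  : `NormP`, `ToWorld`, `CuspP`, `FlatP` give `Rigid`;
* `edgeO_of`  : all leaves and `Sup` give `Chain559.EdgeO`.
-/

set_option autoImplicit false

open Set Filter Topology Metric MeasureTheory Complex

noncomputable section

namespace Crest.Agent.R102.Edge255

open Crest.Agent.R102.Sup115 (HDu Dp E2 MaxiX GoodU)
open Crest.Agent.R102.S5 (Half bl ray Cn)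
open Crest.Agent.R102.C0 Crest.Agent.R102.K669 Crest.Agent.R102.Out559
open Crest.Agent.R102.GlueII559 Crest.Agent.R102.PartII150

/-! ### periodicity of the curve -/

section curve

variable {h : ℝ} {ψ H : ℂ → ℂ} (hC : Curve h ψ H)
include hC

omit hC in
lemma str_sub_int {z : ℂ} (hz : z ∈ T5.Str h) (m : ℤ) : z - m ∈ T5.Str h := by
  have h1 : |z.im| < h := hz
  show |(z - m).im| < h
  simpa using h1

lemma ψ_sub_nat {z : ℂ} (hz : z ∈ T5.Str h) (m : ℕ) : ψ (z + m) = ψ z + 2 * Real.pi * m := by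
  induction m with
  | zero => simp
  | succ k ih =>
    have hk : z + k ∈ T5.Str h := by
      have := str_sub_int hz (-(k : ℤ)); simpa using this
    have h1 := hC.ψ_per (z + k) hk
    have e1 : z + ((k + 1 : ℕ) : ℂ) = z + k + 1 := by push_cast; ring
    rw [e1, h1, ih]; push_cast; ring

lemma ψ_sub_int {z : ℂ} (hz : z ∈ T5.Str h) (m : ℤ) : ψ (z - m) = ψ z - 2 * Real.pi * m := by
  obtain ⟨k, rfl | rfl⟩ := m.eq_nat_or_neg
  · have h1 := ψ_sub_nat hC (str_sub_int hz (k : ℤ)) k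
    simp only [Int.cast_natCast, sub_add_cancel] at h1 ⊢
    rw [h1]; ring
  · have h1 := ψ_sub_nat hC hz k
    simp only [Int.cast_neg, Int.cast_natCast, sub_neg_eq_add]
    rw [h1]; ring

lemma dψ_sub_int {z : ℂ} (hz : z ∈ T5.Str h) (m : ℤ) : deriv ψ (z - m) = deriv ψ z := by
  have hz' := str_sub_int hz m
  have h1 : (fun x : ℂ => ψ (x - m)) =ᶠ[𝓝 z] fun x => ψ x - 2 * Real.pi * m := by
    filter_upwards [(T5.isOpen_Str h).mem_nhds hz] with x hx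
    exact ψ_sub_int hC hx m
  have h2 : deriv (fun x : ℂ => ψ (x - m)) z = deriv ψ (z - m) := by
    rw [deriv_comp_sub_const]
  rw [← h2, h1.deriv_eq, deriv_sub_const]

end curve

/-! ### the assembly -/

/-- **EDGE from its leaves** -/
theorem edgeO_of (hED : EdOf) (hM : MarcP) (hB : BalP)
    (hR : ∀ (u0 R d h : ℝ) (ψ H A : ℂ → ℂ) (φ p B : ℂ × ℂ → ℂ) (X L : Set (ℂ × ℂ)),
      ED u0 R d h ψ H A φ p B X L → ∀ u s₀ a g : ℝ, u ∈ Ioo (u0 - R) (u0 + R) → u ≠ 0 →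
      0 ≤ a → 0 < g → Rigid u0 R d h ψ φ p B X L u s₀ a g)
    (hS : SlowP) (hSup : Sup115.Sup) : Chain559.EdgeO := by
  intro q η ρ r Bc b φ p m₀ h ψ H K G D hNB hMir hGr u0 R d g hSh
  have hE := hED q η ρ r Bc b φ p m₀ h ψ H K G D hNB hMir hGr u0 R d g hSh
  have hDat := supDat D hSh.R_pos hSh.d_pos hSh.d_le hSh.ball_sub hSh.diff hSh.im_nonneg
    (fun w hw t ht => (mem_of_lt_VV D (hSh.ball_sub hw.1)
      (lt_of_lt_of_le ht (hSh.im_le w hw))).1)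
    (fun w hw t ht => (mem_of_lt_VV D (hSh.ball_sub hw.1)
      (lt_of_lt_of_le ht (hSh.im_le w hw))).2)
  have hS1 := hSup _ _ _ _ _ _ _ _ _ _ _ _ _ _ hDat
  filter_upwards [hM (Xe u0 R d g (OX b h ρ r)) (Le u0 R d g (OL φ p ρ r)) hE.X_open, hS1] with u hu1 hu2
  intro α β s₀ a₀ c hGA
  have hg := hGA.good
  have hc : 0 < c := hg.2.1
  have hPP := hu1 s₀ a₀ c hg (c / 2) (by linarith) (by linarith)
  have hEL : EdgeLims h (Bx b h ρ r g) u s₀ := hu2 hGA.mem s₀ a₀ c hg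
  by_contra hcon
  have hBal := hB q η ρ r Bc b φ p m₀ h ψ H K G D hNB hMir u0 R d g hSh u α β s₀ a₀ c hGA hEL hcon
  have hu0 : u ≠ 0 := hGA.pos.ne'
  exact hS u0 R d h ψ H _ _ _ _ _ _ hE u s₀ a₀ (c / 2) hGA.mem hu0 hPP
    (hR u0 R d h ψ H _ _ _ _ _ _ hE u s₀ a₀ (c / 2) hGA.mem hu0 hg.1 (by linarith)) hEL hBal

end Crest.Agent.R102.Edge255
end
end

-- ▼ part R102/EdgeRig_255

/-!
Row 102, T1-B, EDGE: `rigid_of` (helper255): `NormP`, `NrmAll`, `ToWorld`, `CuspP`, `FlatP` give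
`Rigid`.
-/

set_option autoImplicit false

open Set Filter Topology Metric MeasureTheory Complex

noncomputable section

namespace Crest.Agent.R102.Edge255

open Crest.Agent.R102.Sup115 (HDu Dp E2 MaxiX GoodU)
open Crest.Agent.R102.S5 (Half bl ray Cn)

/-- `NrmAll` for the blow-ups of columns [812 `nrmAll_of (hN : NormP)`] -/
def NrmAllP : Prop :=
  ∀ (u0 R d h : ℝ) (ψ H A : ℂ → ℂ) (φ p B : ℂ × ℂ → ℂ) (X L : Set (ℂ × ℂ)),
    ED u0 R d h ψ H A φ p B X L → ∀ (u s₀ a g κ : ℝ) (e : ℕ → ℝ × ℝ) (s σ : ℕ → ℝ),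
    u ∈ Ioo (u0 - R) (u0 + R) → u ≠ 0 → 0 ≤ a → 0 < g → 0 < κ →
    Cols u0 R d h a g κ ψ φ p B X L u s₀ e s σ → Tendsto (fun n => s n / σ n) atTop (𝓝 0) →
    NrmAll (a + g) ψ (fun n q => φ (bl (e n) (s n) q)) (fun n q => B (bl (e n) (s n) q))

lemma nφ_im (f : ℂ × ℂ → ℂ) : (nφ f).im = 0 := by
  unfold nφ
  have : (2 * Real.pi * ((⌊(f z0).re / (2 * Real.pi)⌋ : ℤ) : ℂ) : ℂ) =
      ((2 * Real.pi * ((⌊(f z0).re / (2 * Real.pi)⌋ : ℤ) : ℝ) : ℝ) : ℂ) := by push_cast; ring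
  rw [this, Complex.ofReal_im]

lemma nφ_re (f : ℂ × ℂ → ℂ) :
    (nφ f).re = 2 * Real.pi * ((⌊(f z0).re / (2 * Real.pi)⌋ : ℤ) : ℝ) := by
  unfold nφ
  have : (2 * Real.pi * ((⌊(f z0).re / (2 * Real.pi)⌋ : ℤ) : ℂ) : ℂ) =
      ((2 * Real.pi * ((⌊(f z0).re / (2 * Real.pi)⌋ : ℤ) : ℝ) : ℝ) : ℂ) := by push_cast; ring
  rw [this, Complex.ofReal_re]

lemma nφ_bd (f : ℂ × ℂ → ℂ) : 0 ≤ (f z0).re - (nφ f).re ∧ (f z0).re - (nφ f).re ≤ 2 * Real.pi := by
  rw [nφ_re]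
  have hp : 0 < 2 * Real.pi := by positivity
  have h1 := Int.floor_le ((f z0).re / (2 * Real.pi))
  have h2 := Int.lt_floor_add_one ((f z0).re / (2 * Real.pi))
  rw [le_div_iff₀ hp] at h1
  rw [div_lt_iff₀ hp] at h2
  constructor <;> nlinarith

lemma nB_im (f : ℂ × ℂ → ℂ) : (nB f).im = 0 := by
  unfold nB
  exact Complex.intCast_im _

lemma nB_bd (f : ℂ × ℂ → ℂ) : 0 ≤ (f z0 - nB f).re ∧ (f z0 - nB f).re ≤ 1 := by
  have h0 : (nB f).re = ((⌊(f z0).re⌋ : ℤ) : ℝ) := by unfold nB; exact Complex.intCast_re _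
  rw [Complex.sub_re, h0]
  have h1 := Int.floor_le (f z0).re
  have h2 := Int.lt_floor_add_one (f z0).re
  constructor <;> linarith

lemma bl_mem_Dp {u0 R d : ℝ} {e : ℝ × ℝ} {s : ℝ} {q : ℂ × ℂ} (h1 : s * q.1.im < 0)
    (h2 : -d < s * q.1.im) (h3 : 0 < s * q.2.im)
    (h4 : (e.2 : ℂ) + s * q.2 ∈ ball (u0 : ℂ) R) : bl e s q ∈ Dp u0 R d := by
  have e1 : (bl e s q).1.im = s * q.1.im := by simp [bl]
  have e2 : (bl e s q).2.im = s * q.2.im := by simp [bl]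
  refine ⟨by rw [e1]; exact h2, by rw [e1]; exact h1, h4, ?_⟩
  show 0 < (bl e s q).2.im
  rw [e2]; exact h3

lemma bl_ball {u0 R σ : ℝ} {e : ℝ × ℝ} {s : ℝ} {q : ℂ × ℂ} (hs : 0 ≤ s)
    (hb : ball ((e.2 : ℝ) : ℂ) (4 * σ) ⊆ ball (u0 : ℂ) R) (hq : s * ‖q.2‖ < 4 * σ) :
    (e.2 : ℂ) + s * q.2 ∈ ball (u0 : ℂ) R := by
  apply hb
  rw [mem_ball, dist_eq_norm, add_sub_cancel_left, norm_mul, Complex.norm_real, Real.norm_eq_abs,
    abs_of_nonneg hs]
  exact hq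

lemma z0_ball {q : ℂ × ℂ} (hq : q ∈ closedBall z0 (1 / 10)) :
    -(11 / 10) ≤ q.1.im ∧ q.1.im ≤ -(9 / 10) ∧ 3 / 20 ≤ q.2.im ∧ ‖q.2‖ ≤ 1 := by
  rw [mem_closedBall, Prod.dist_eq, max_le_iff, dist_eq_norm, dist_eq_norm] at hq
  obtain ⟨h1, h2⟩ := hq
  have e1 : z0.1 = -I := rfl
  have e2 : z0.2 = I / 4 := rfl
  rw [e1] at h1
  rw [e2] at h2
  have k1 := abs_le.1 ((Complex.abs_im_le_norm _).trans h1)
  have k2 := abs_le.1 ((Complex.abs_im_le_norm _).trans h2)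
  have i1 : (q.1 - -I).im = q.1.im + 1 := by simp
  have i2 : (q.2 - I / 4).im = q.2.im - 1 / 4 := by simp
  rw [i1] at k1
  rw [i2] at k2
  refine ⟨by linarith [k1.1], by linarith [k1.2], by linarith [k2.1], ?_⟩
  have h3 : q.2 = (q.2 - I / 4) + I / 4 := by ring
  rw [h3]
  refine (norm_add_le _ _).trans ?_
  have h4 : ‖(I / 4 : ℂ)‖ = 1 / 4 := by simp
  rw [h4]; linarith

section seq

variable {u0 R d h a g κ : ℝ} {ψ H A : ℂ → ℂ} {φ p B : ℂ × ℂ → ℂ} {X L : Set (ℂ × ℂ)}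
  {u s₀ : ℝ} {e : ℕ → ℝ × ℝ} {s σ ρ η : ℕ → ℝ}

/-- passage to a subsequence -/
lemma Cols.comp (hC : Cols u0 R d h a g κ ψ φ p B X L u s₀ e s σ) {f : ℕ → ℕ}
    (hf : Tendsto f atTop atTop) :
    Cols u0 R d h a g κ ψ φ p B X L u s₀ (e ∘ f) (s ∘ f) (σ ∘ f) where
  e_lim := hC.e_lim.comp hf
  s_pos n := hC.s_pos (f n)
  s_le n := hC.s_le (f n)
  σ_le n := hC.σ_le (f n)
  ball_sub n := hC.ball_sub (f n)
  line n := hC.line (f n)
  col n := hC.col (f n)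
  outer c hc := by
    obtain ⟨M, h1, h2⟩ := hC.outer c hc
    exact ⟨M ∘ f, fun n => h1 (f n), fun τ hτ => (h2 τ hτ).comp hf⟩

/-- normalised blow-ups -/
def φN (φ : ℂ × ℂ → ℂ) (e : ℕ → ℝ × ℝ) (s : ℕ → ℝ) (n : ℕ) (q : ℂ × ℂ) : ℂ :=
  φ (bl (e n) (s n) q) - nφ (fun x => φ (bl (e n) (s n) x))
def BN (B : ℂ × ℂ → ℂ) (e : ℕ → ℝ × ℝ) (s : ℕ → ℝ) (n : ℕ) (q : ℂ × ℂ) : ℂ :=
  B (bl (e n) (s n) q) - nB (fun x => B (bl (e n) (s n) x))

lemma φN_im (n : ℕ) (q : ℂ × ℂ) : (φN φ e s n q).im = (φ (bl (e n) (s n) q)).im := by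
  unfold φN
  rw [Complex.sub_im, nφ_im, sub_zero]

lemma BN_im (n : ℕ) (q : ℂ × ℂ) : (BN B e s n q).im = (B (bl (e n) (s n) q)).im := by
  unfold BN
  rw [Complex.sub_im, nB_im, sub_zero]

lemma BN_bd (n : ℕ) : 0 ≤ (BN B e s n z0).re ∧ (BN B e s n z0).re ≤ 1 :=
  nB_bd (fun x => B (bl (e n) (s n) x))

variable (hE : ED u0 R d h ψ H A φ p B X L) (hC : Cols u0 R d h a g κ ψ φ p B X L u s₀ e s σ)

include hE hC

set_option linter.unusedSectionVars false in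
lemma ball_mem (n : ℕ) {q : ℂ × ℂ} (hq : q ∈ closedBall z0 (1 / 10)) :
    bl (e n) (s n) q ∈ Dp u0 R d := by
  obtain ⟨h1, h2, h3, h4⟩ := z0_ball hq
  have hs := hC.s_pos n
  have hsσ := hC.s_le n
  have hd := hC.σ_le n
  refine bl_mem_Dp (by nlinarith) (by nlinarith) (by positivity) (bl_ball hs.le (hC.ball_sub n) ?_)
  nlinarith

lemma intrW : IntrW h κ ψ (BN B e s) := by
  intro n
  obtain ⟨h1, q, hq, h2⟩ := hC.col n (s n) ⟨le_rfl, hC.s_le n⟩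
  refine ⟨by rw [BN_im]; exact h1, q, hq, ?_⟩
  have h3 : B (bl (e n) (s n) q) ∈ T5.Str h := hE.B_im _ (hE.Dp_X (ball_mem hE hC n hq))
  have h4 : deriv ψ (BN B e s n q) = deriv ψ (B (bl (e n) (s n) q)) := by
    unfold BN nB
    exact dψ_sub_int hE.curve h3 _
  rw [h4]; exact h2

omit hE hC in
lemma nrm2 {m : ℝ} {sg : ℕ → ℝ}
    (hN : Nrm2 m (fun n q => φ (bl (e n) (s n) q)) (fun n q => p (bl (e n) (s n) q)) sg) :
    Nrm2 m (φN φ e s) (fun n q => p (bl (e n) (s n) q)) sg := by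
  refine ⟨hN.1, fun K hK hKc => ?_⟩
  obtain ⟨C, hC⟩ := hN.2 K hK hKc
  refine ⟨C, hC.mono fun n hn q hq => ?_⟩
  obtain ⟨h1, h2⟩ := hn q hq
  refine ⟨?_, by rw [φN_im]; exact h2⟩
  refine le_trans (le_of_eq ?_) h1
  rw [norm_mul, norm_mul, Complex.norm_exp, Complex.norm_exp]
  congr 2
  have e1 : ∀ z : ℂ, ((sg n : ℂ) * I * z).re = -(sg n * z.im) := by
    intro z; simp [Complex.mul_re]
  rw [e1, e1, φN_im]

/-- `SlowAt` is invariant under the normalisation -/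
lemma slowAt_iff (n : ℕ) (ε : ℝ) (K K' : Set (ℂ × ℂ)) :
    SlowAt ε K K' ψ (φN φ e s n) (fun q => p (bl (e n) (s n) q)) (BN B e s n) ↔
      SlowAt ε K K' ψ (fun q => φ (bl (e n) (s n) q)) (fun q => p (bl (e n) (s n) q))
        (fun q => B (bl (e n) (s n) q)) := by
  have hz : z0 ∈ closedBall z0 (1 / 10 : ℝ) := mem_closedBall_self (by norm_num)
  have h3 : B (bl (e n) (s n) z0) ∈ T5.Str h := hE.B_im _ (hE.Dp_X (ball_mem hE hC n hz))
  have e1 : ∀ q, cexp (2 * I * (φN φ e s n q - ψ (BN B e s n z0))) =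
      cexp (2 * I * (φ (bl (e n) (s n) q) - ψ (B (bl (e n) (s n) z0)))) := by
    intro q
    have h4 : ψ (BN B e s n z0) = ψ (B (bl (e n) (s n) z0)) -
        2 * Real.pi * ((⌊(B (bl (e n) (s n) z0)).re⌋ : ℤ) : ℂ) := by
      unfold BN nB
      exact ψ_sub_int hE.curve h3 _
    rw [h4]
    unfold φN nφ
    set m1 : ℤ := ⌊(B (bl (e n) (s n) z0)).re⌋
    set m2 : ℤ := ⌊(φ (bl (e n) (s n) z0)).re / (2 * Real.pi)⌋
    have h5 : 2 * I * (φ (bl (e n) (s n) q) - 2 * Real.pi * (m2 : ℂ) -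
        (ψ (B (bl (e n) (s n) z0)) - 2 * Real.pi * (m1 : ℂ))) =
        2 * I * (φ (bl (e n) (s n) q) - ψ (B (bl (e n) (s n) z0))) +
          ((2 * m1 - 2 * m2 : ℤ) : ℂ) * (2 * Real.pi * I) := by
      push_cast; ring
    rw [h5, Complex.exp_periodic.int_mul]
  have e2 : ∀ q, BN B e s n q - BN B e s n z0 =
      B (bl (e n) (s n) q) - B (bl (e n) (s n) z0) := by
    intro q; unfold BN; ring
  unfold SlowAt
  constructor
  · rintro ⟨h1, h2⟩
    exact ⟨fun q hq => ⟨by rw [← e1]; exact (h1 q hq).1, (h1 q hq).2⟩,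
      fun q hq => by rw [← e2]; exact h2 q hq⟩
  · rintro ⟨h1, h2⟩
    exact ⟨fun q hq => ⟨by rw [e1]; exact (h1 q hq).1, (h1 q hq).2⟩,
      fun q hq => by rw [e2]; exact h2 q hq⟩

omit hE hC in
lemma log_R0 (q : ℂ × ℂ) : Real.log ‖R0 ψ φ B q‖ = 2 * ((φ q).im - (ψ (B q)).im) := by
  unfold R0
  rw [Complex.norm_exp, Real.log_exp]
  simp [Complex.mul_re, Complex.sub_re, Complex.sub_im]
  ring

/-- `NrmAll` of the normalised blow-ups -/
lemma nrmAll (hsσ : Tendsto (fun n => s n / σ n) atTop (𝓝 0))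
    (hA : NrmAll (a + g) ψ (fun n q => φ (bl (e n) (s n) q)) (fun n q => B (bl (e n) (s n) q))) :
    NrmAll (a + g) ψ (φN φ e s) (BN B e s) := by
  intro K hK hKc
  obtain ⟨C, hCK⟩ := hA K hK hKc
  refine ⟨C, fun r hr => ?_⟩
  have h1 : ∀ᶠ n in atTop, s n / σ n < 1 / r :=
    hsσ.eventually_lt_const (by positivity)
  filter_upwards [hCK r hr, h1] with n hn h1n q hq
  have hs := hC.s_pos n
  have hσ : 0 < σ n := hs.trans_le (hC.s_le n)
  have hrs : r * s n < σ n := by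
    rw [div_lt_div_iff₀ hσ (by linarith)] at h1n
    linarith
  have hmem : bl (e n) (s n) ((r : ℂ) * z0.1, (r : ℂ) * z0.2) ∈ Dp u0 R d := by
    have i1 : ((r : ℂ) * z0.1).im = -r := by simp [z0]
    have i2 : ((r : ℂ) * z0.2).im = r / 4 := by simp [z0]; ring
    have n2 : ‖(r : ℂ) * z0.2‖ = r / 4 := by
      rw [norm_mul, Complex.norm_real, Real.norm_eq_abs, abs_of_nonneg (by linarith)]
      have : ‖z0.2‖ = 1 / 4 := by simp [z0]
      rw [this]; ring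
    have hd := hC.σ_le n
    refine bl_mem_Dp ?_ ?_ ?_ (bl_ball hs.le (hC.ball_sub n) ?_)
    · simp only [i1]; nlinarith
    · simp only [i1]; nlinarith
    · simp only [i2]; positivity
    · simp only [n2]; nlinarith
  have h3 : B (bl (e n) (s n) ((r : ℂ) * z0.1, (r : ℂ) * z0.2)) ∈ T5.Str h :=
    hE.B_im _ (hE.Dp_X hmem)
  have h4 : ψ (BN B e s n ((r : ℂ) * z0.1, (r : ℂ) * z0.2)) =
      ψ (B (bl (e n) (s n) ((r : ℂ) * z0.1, (r : ℂ) * z0.2))) -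
        2 * Real.pi * ((⌊(B (bl (e n) (s n) z0)).re⌋ : ℤ) : ℂ) := by
    unfold BN nB
    exact ψ_sub_int hE.curve h3 _
  have h5 : (ψ (BN B e s n ((r : ℂ) * z0.1, (r : ℂ) * z0.2))).im =
      (ψ (B (bl (e n) (s n) ((r : ℂ) * z0.1, (r : ℂ) * z0.2)))).im := by
    rw [h4]
    have : (2 * Real.pi * ((⌊(B (bl (e n) (s n) z0)).re⌋ : ℤ) : ℂ) : ℂ) =
      ((2 * Real.pi * ((⌊(B (bl (e n) (s n) z0)).re⌋ : ℤ) : ℝ) : ℝ) : ℂ) := by push_cast; ring
    rw [this, Complex.sub_im, Complex.ofReal_im, sub_zero]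
  have h6 := hn q hq
  rw [log_R0] at h6 ⊢
  rw [φN_im, φN_im, h5]
  exact h6

end seq

/-- **RIGIDITY** of interior windows -/
theorem rigid_of (hN : NormP) (hA : NrmAllP) (hW : ToWorld) (hCu : CuspP) (hF : FlatP) :
    ∀ (u0 R d h : ℝ) (ψ H A : ℂ → ℂ) (φ p B : ℂ × ℂ → ℂ) (X L : Set (ℂ × ℂ)),
      ED u0 R d h ψ H A φ p B X L → ∀ u s₀ a g : ℝ, u ∈ Ioo (u0 - R) (u0 + R) → u ≠ 0 →
      0 ≤ a → 0 < g → Rigid u0 R d h ψ φ p B X L u s₀ a g := by
  intro u0 R d h ψ H A φ p B X L hE u s₀ a g hu hu0 ha hg κ e s σ ρ η hκ hC hsσ hs0 hρ hρ0 hση hE2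
    ε hε K hK hKc K' hK' hKc'
  by_contra hcon
  rw [not_eventually] at hcon
  obtain ⟨f, hf, hbad⟩ := extraction_of_frequently_atTop hcon
  have hft := hf.tendsto_atTop
  -- common data for a subsequence `k`
  have data : ∀ k : ℕ → ℕ, Tendsto k atTop atTop →
      World h a g ψ H (A u) (φN φ (e ∘ k) (s ∘ k)) (fun n q => p (bl ((e ∘ k) n) ((s ∘ k) n) q))
        (BN B (e ∘ k) (s ∘ k)) := by
    intro k hk
    have hC' := hC.comp hk
    refine hW u0 R d h ψ H A φ p B X L hE u s₀ a g (e ∘ k) (s ∘ k) (ρ ∘ k) (η ∘ k) hu hu0 ha hg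
      hC'.e_lim hC'.s_pos (hs0.comp hk) (fun n => hρ (k n)) (hρ0.comp hk) (fun n => ?_) ?_
      (fun n => hE2 (k n))
    · exact ((hC.s_pos (k n)).trans_le (hC.s_le (k n))).trans_le (hση (k n))
    · refine squeeze_zero (fun n => ?_) (fun n => ?_) (hsσ.comp hk)
      · have h1 := hC.s_pos (k n)
        have h2 : 0 < η (k n) := (h1.trans_le (hC.s_le (k n))).trans_le (hση (k n))
        show 0 ≤ s (k n) / η (k n)
        positivity
      · have h1 := hC.s_pos (k n)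
        have h2 : 0 < σ (k n) := h1.trans_le (hC.s_le (k n))
        show s (k n) / η (k n) ≤ s (k n) / σ (k n)
        exact div_le_div_of_nonneg_left h1.le h2 (hση (k n))
  by_cases hb : ∃ M : ℝ, ∀ᶠ n in atTop, |(φ (ray (e (f n)) (s (f n)))).im| ≤ M
  · -- bounded
    obtain ⟨M, hM⟩ := hb
    have hC' := hC.comp hft
    have hsσ' : Tendsto (fun n => (s ∘ f) n / (σ ∘ f) n) atTop (𝓝 0) := hsσ.comp hft
    obtain ⟨hN1, sg, hN2⟩ := hN u0 R d h ψ H A φ p B X L hE u s₀ a g κ (e ∘ f) (s ∘ f) (σ ∘ f) hu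
      hu0 ha hg hκ hC' hsσ'
    have hN2' := nrm2 hN2
    have hNA := nrmAll hE hC' hsσ'
      (hA u0 R d h ψ H A φ p B X L hE u s₀ a g κ (e ∘ f) (s ∘ f) (σ ∘ f) hu hu0 ha hg hκ hC' hsσ')
    -- bound of `Im ψ` at interior labels
    obtain ⟨C0, hC0, hgr⟩ := hE.curve.grow 0
    have hh := hE.curve.h_pos
    set C1 : ℝ := Real.exp (C0 * (min (κ / 2) (h / 2)) ^ (-(1 / (((0 : ℕ) : ℝ) + 1)))) with hC1
    have hψb : ∀ z : ℂ, |z.im| ≤ h - κ → |(ψ z).im| ≤ 2 * Real.pi * h + C1 := by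
      intro z hz
      have hm0 : 0 < min (κ / 2) (h / 2) := lt_min (by positivity) (by positivity)
      have hm1 : min (κ / 2) (h / 2) < h := lt_of_le_of_lt (min_le_right _ _) (by linarith)
      have h1 := (hgr (min (κ / 2) (h / 2)) hm0 hm1 z
        (hz.trans (by have := min_le_left (κ / 2) (h / 2); linarith))).1
      have h2 : (ψ z).im = (ψ z - 2 * Real.pi * z).im + 2 * Real.pi * z.im := by
        simp [Complex.sub_im, Complex.mul_im]
      rw [h2]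
      refine (abs_add_le _ _).trans ?_
      have h3 : |2 * Real.pi * z.im| ≤ 2 * Real.pi * h := by
        rw [abs_mul, abs_of_pos (show (0 : ℝ) < 2 * Real.pi by positivity)]
        exact mul_le_mul_of_nonneg_left (by linarith) (by positivity)
      have h4 := (Complex.abs_im_le_norm _).trans h1
      linarith
    have hflat := hF h a g κ ψ H (A u) (φN φ (e ∘ f) (s ∘ f))
      (fun n q => p (bl ((e ∘ f) n) ((s ∘ f) n) q)) (BN B (e ∘ f) (s ∘ f)) hκ (data f hft)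
      (intrW hE hC') (fun n => BN_bd n) ?_ hNA ε hε K hK hKc K' hK' hKc'
    · obtain ⟨n, hn⟩ := hflat.exists
      rw [slowAt_iff hE hC'] at hn
      exact hbad n hn
    · intro K1 hK1 hK1c
      obtain ⟨Ca, hCa⟩ := hN1 K1 hK1 hK1c
      obtain ⟨Cb, hCb⟩ := hN2'.2 K1 hK1 hK1c
      set M2 : ℝ := |Ca| * (1 + (2 * (|M| + (2 * Real.pi * h + C1)))) + 2 * Real.pi with hM2
      refine ⟨max M2 (|Cb| * Real.exp M2), ?_⟩
      filter_upwards [hCa, hCb, hM] with n h1 h2 h3 q hq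
      have hray : |(B (ray (e (f n)) (s (f n)))).im| ≤ h - κ :=
        (hC'.col n ((s ∘ f) n) ⟨le_rfl, hC'.s_le n⟩).1
      have h4 : |Real.log ‖R0 ψ φ B (ray ((e ∘ f) n) ((s ∘ f) n))‖| ≤
          2 * (|M| + (2 * Real.pi * h + C1)) := by
        rw [log_R0, abs_mul, abs_of_pos (show (0 : ℝ) < 2 by norm_num)]
        refine mul_le_mul_of_nonneg_left ?_ (by norm_num)
        refine (abs_sub _ _).trans ?_
        exact add_le_add (h3.trans (le_abs_self M)) (hψb _ hray)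
      have h5 : ‖φ (bl ((e ∘ f) n) ((s ∘ f) n) q) - ((φ (ray ((e ∘ f) n) ((s ∘ f) n))).re : ℂ)‖ ≤
          |Ca| * (1 + (2 * (|M| + (2 * Real.pi * h + C1)))) := by
        refine (h1 q hq).trans ?_
        refine mul_le_mul (le_abs_self Ca) (by linarith) (by positivity) (abs_nonneg _)
      have h6 : ‖φN φ (e ∘ f) (s ∘ f) n q‖ ≤ M2 := by
        have e1 : φN φ (e ∘ f) (s ∘ f) n q = (φ (bl ((e ∘ f) n) ((s ∘ f) n) q) -
            ((φ (ray ((e ∘ f) n) ((s ∘ f) n))).re : ℂ)) +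
            (((φ (ray ((e ∘ f) n) ((s ∘ f) n))).re -
              (nφ (fun x => φ (bl ((e ∘ f) n) ((s ∘ f) n) x))).re : ℝ) : ℂ) := by
          have e2 : nφ (fun x => φ (bl ((e ∘ f) n) ((s ∘ f) n) x)) =
              (((nφ (fun x => φ (bl ((e ∘ f) n) ((s ∘ f) n) x))).re : ℝ) : ℂ) := by
            apply Complex.ext
            · simp
            · rw [nφ_im]; simp
          unfold φN
          push_cast
          rw [← e2]
          ring
        rw [e1]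
        refine (norm_add_le _ _).trans ?_
        rw [Complex.norm_real, Real.norm_eq_abs]
        have h7 := nφ_bd (fun x => φ (bl ((e ∘ f) n) ((s ∘ f) n) x))
        have h8 : |(φ (ray ((e ∘ f) n) ((s ∘ f) n))).re -
            (nφ (fun x => φ (bl ((e ∘ f) n) ((s ∘ f) n) x))).re| ≤ 2 * Real.pi := by
          rw [abs_le]
          have h9 : (φ (ray ((e ∘ f) n) ((s ∘ f) n))) =
            (fun x => φ (bl ((e ∘ f) n) ((s ∘ f) n) x)) z0 := rfl
          rw [h9]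
          constructor <;> linarith [h7.1, h7.2, Real.pi_pos]
        linarith
      refine ⟨h6.trans (le_max_left _ _), ?_⟩
      obtain ⟨h7, -⟩ := h2 q hq
      refine le_trans ?_ (le_max_right _ _)
      rw [norm_mul, Complex.norm_exp] at h7
      have e3 : ((sg n : ℂ) * I * φN φ (e ∘ f) (s ∘ f) n q).re =
          -(sg n * (φN φ (e ∘ f) (s ∘ f) n q).im) := by simp [Complex.mul_re]
      rw [e3] at h7
      have hsg : |sg n| = 1 := by rcases hN2.1 n with h8 | h8 <;> rw [h8] <;> simp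
      have h9 : sg n * (φN φ (e ∘ f) (s ∘ f) n q).im ≤ M2 := by
        refine (le_abs_self _).trans ?_
        rw [abs_mul, hsg, one_mul]
        exact (Complex.abs_im_le_norm _).trans h6
      have h10 : Real.exp (-M2) ≤ Real.exp (-(sg n * (φN φ (e ∘ f) (s ∘ f) n q).im)) :=
        Real.exp_le_exp.2 (by linarith)
      have h11 : ‖p (bl ((e ∘ f) n) ((s ∘ f) n) q)‖ * Real.exp (-M2) ≤ |Cb| :=
        (mul_le_mul_of_nonneg_left h10 (norm_nonneg _)).trans (h7.trans (le_abs_self _))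
      rw [Real.exp_neg, ← div_eq_mul_inv, div_le_iff₀ (Real.exp_pos _)] at h11
      exact h11
  · -- cusp
    push Not at hb
    have hb' : ∀ m : ℕ, ∃ᶠ n in atTop, (m : ℝ) < |(φ (ray (e (f n)) (s (f n)))).im| :=
      fun m => by
        have := hb m
        exact this.mono fun n hn => hn
    obtain ⟨f2, hf2, hlt⟩ := extraction_forall_of_frequently hb'
    set k : ℕ → ℕ := f ∘ f2 with hk
    have hkt : Tendsto k atTop atTop := hft.comp hf2.tendsto_atTop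
    have hC' := hC.comp hkt
    have hsσ' : Tendsto (fun n => (s ∘ k) n / (σ ∘ k) n) atTop (𝓝 0) := hsσ.comp hkt
    obtain ⟨-, sg, hN2⟩ := hN u0 R d h ψ H A φ p B X L hE u s₀ a g κ (e ∘ k) (s ∘ k) (σ ∘ k) hu
      hu0 ha hg hκ hC' hsσ'
    refine hCu h a g κ ψ H (A u) (φN φ (e ∘ k) (s ∘ k))
      (fun n q => p (bl ((e ∘ k) n) ((s ∘ k) n) q)) (BN B (e ∘ k) (s ∘ k)) sg hκ (data k hkt)
      (intrW hE hC') (nrm2 hN2) ?_ (fun n => BN_bd n)
    refine tendsto_atTop_mono (fun n => ?_) tendsto_natCast_atTop_atTop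
    rw [φN_im]
    exact (hlt n).le

/-- **EDGE from its nine leaves** -/
theorem edgeO_all (hED : EdOf) (hM : MarcP) (hB : BalP) (hN : NormP) (hA : NrmAllP)
    (hW : ToWorld) (hCu : CuspP) (hF : FlatP) (hS : SlowP) (hSup : Sup115.Sup) :
    Chain559.EdgeO :=
  edgeO_of hED hM hB (rigid_of hN hA hW hCu hF) hS hSup

end Crest.Agent.R102.Edge255
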