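import Crest.Agent.R102.GlueIV_812_Mg
import Crest.Agent.R102.HBirth_150

/-!
Row 102 (T1-B), EXIT (helper812): from the output of EDGE (nontangential limits on the product cones
in exact coordinates) to `Glue4812.Sit` (vertical limits on the real slice).
-/

set_option autoImplicit false

open Set Filter Topology Metric Complex MeasureTheory
open scoped Real ComplexConjugate

noncomputable section

namespace Crest.Agent.R102.Exit812

open Crest.Agent.R102.Sh982
open Crest.Agent.R102.Glue4812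
open Crest.Agent.R102.GlueII559 (OL OX VV VV_of_Nn mem_of_lt_VV)
open Crest.Agent.R102.PartII150 (ex ln Xe Le NTL exists_ntl hbirth)
open Crest.Agent.R102.Slope845 (Expn)
open Crest.Agent.R102.Sup115 (HDu GoodU)
open Crest.Agent.R102.S5 (Cn)
open Crest.Agent.R102.Out559 (OmL OmX Nn)

/-! ### Harnack in a disc -/

/-- Harnack: a holomorphic function with positive real part -/
theorem harn {R : ℝ} (hR : 0 < R) {c z : ℂ} {P : ℂ → ℂ} (hP : DifferentiableOn ℂ P (ball c R))
    (hpos : ∀ z ∈ ball c R, 0 < (P z).re) (hz : ‖z - c‖ ≤ R / 2) : (P c).re ≤ 3 * (P z).re := by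
  have hcb : c ∈ ball c R := mem_ball_self hR
  have hzb : z ∈ ball c R := by
    rw [mem_ball, dist_eq_norm]
    linarith
  set a : ℂ := P c with ha
  have ha0 : 0 < a.re := hpos c hcb
  have hden : ∀ y ∈ ball c R, P y + conj a ≠ 0 := by
    intro y hy h0
    have h1 : (P y + conj a).re = 0 := by rw [h0]; rfl
    rw [add_re, conj_re] at h1
    linarith [hpos y hy]
  set g : ℂ → ℂ := fun y => (P y - a) / (P y + conj a) with hg
  have hgd : DifferentiableOn ℂ g (ball c R) :=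
    (hP.sub_const a).div (hP.add_const (conj a)) hden
  have hnorm : ∀ y ∈ ball c R, ‖P y - a‖ < ‖P y + conj a‖ := by
    intro y hy
    have h1 := hpos y hy
    rw [← sq_lt_sq₀ (norm_nonneg _) (norm_nonneg _), Complex.sq_norm, Complex.sq_norm,
      Complex.normSq_apply, Complex.normSq_apply]
    simp only [sub_re, sub_im, add_re, add_im, conj_re, conj_im]
    nlinarith [mul_pos h1 ha0]
  have hgm : MapsTo g (ball c R) (ball (g c) 1) := by
    intro y hy
    have hgc : g c = 0 := by rw [hg]; simp [← ha]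
    rw [hgc, mem_ball_zero_iff, hg]
    simp only
    rw [norm_div, div_lt_one (norm_pos_iff.2 (hden y hy))]
    exact hnorm y hy
  have hgc : g c = 0 := by rw [hg]; simp [← ha]
  have hS := Complex.dist_le_div_mul_dist_of_mapsTo_ball hgd (hgm.mono_right ball_subset_closedBall)
    hzb
  rw [hgc, dist_zero_right, dist_eq_norm] at hS
  have hg2 : ‖g z‖ ≤ 1 / 2 := by
    refine hS.trans ?_
    rw [div_mul_eq_mul_div, div_le_iff₀ hR]
    linarith
  -- `(P z - a) = g (P z + conj a)`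
  have hlt : 2 * ‖P z - a‖ ≤ ‖P z + conj a‖ := by
    have h1 : ‖g z‖ = ‖P z - a‖ / ‖P z + conj a‖ := norm_div _ _
    rw [h1, div_le_iff₀ (norm_pos_iff.2 (hden z hzb))] at hg2
    linarith
  have hsq : 4 * ‖P z - a‖ ^ 2 ≤ ‖P z + conj a‖ ^ 2 := by
    have h0 := norm_nonneg (P z - a)
    nlinarith [norm_nonneg (P z + conj a)]
  rw [Complex.sq_norm, Complex.sq_norm, Complex.normSq_apply, Complex.normSq_apply] at hsq
  simp only [sub_re, sub_im, add_re, add_im, conj_re, conj_im] at hsq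
  have hpz := hpos z hzb
  -- `4 (x - α)^2 + 3 (y - β)^2 ≤ (x + α)^2`
  have h5 : (2 * (a.re - (P z).re)) ^ 2 ≤ ((P z).re + a.re) ^ 2 := by
    nlinarith [sq_nonneg ((P z).im - a.im)]
  have h6 := abs_le_of_sq_le_sq h5 (by linarith)
  linarith [le_abs_self (2 * (a.re - (P z).re))]

/-- Harnack for the two edges of the strip -/
theorem harn_strip {R h : ℝ} (hR : 0 < R) {c z : ℂ} {f : ℂ → ℂ}
    (hf : DifferentiableOn ℂ f (ball c R)) (hh : ∀ z ∈ ball c R, |(f z).im| < h)
    (hz : ‖z - c‖ ≤ R / 2) :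
    h - (f c).im ≤ 3 * (h - (f z).im) ∧ h + (f c).im ≤ 3 * (h + (f z).im) := by
  have e1 : ∀ y : ℂ, ((h : ℂ) + I * y).re = h - y.im := fun y => by simp; ring
  have e2 : ∀ y : ℂ, ((h : ℂ) - I * y).re = h + y.im := fun y => by simp
  constructor
  · have h1 := harn hR (c := c) (z := z) (P := fun y => (h : ℂ) + I * f y)
      ((hf.const_mul I).const_add _) (fun y hy => by
        rw [e1]
        linarith [(abs_lt.1 (hh y hy)).2]) hz
    simpa only [e1] using h1
  · have h1 := harn hR (c := c) (z := z) (P := fun y => (h : ℂ) - I * f y)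
      ((hf.const_mul I).const_sub _) (fun y hy => by
        rw [e2]
        linarith [(abs_lt.1 (hh y hy)).1]) hz
    simpa only [e2] using h1

/-! ### the balls below the top line -/

/-- (RB) from the two-sided one-point lower bound -/
theorem realball {G : ℂ → ℂ} {V : ℂ → ℝ} {u α β : ℝ} (hE : Expn G V u α β) :
    ∃ c > 0, ∃ η0 > 0, c * (|α| + |β| + 2) = 1 ∧ ∀ η : ℝ, 0 < η → η < η0 → ∀ w : ℂ,
      ‖w - u‖ < c * η → V u - η < V w := by
  obtain ⟨-, -, -, h4⟩ := hE
  obtain ⟨δ, hδ, hV⟩ := h4 1 one_pos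
  set K : ℝ := |α| + |β| + 2 with hK
  have hK0 : 0 < K := by positivity
  have hK1 : 1 ≤ K := by
    rw [hK]
    linarith [abs_nonneg α, abs_nonneg β]
  refine ⟨1 / K, by positivity, δ, hδ, by field_simp, ?_⟩
  intro η hη hηδ w hw
  have hwη : ‖w - u‖ < η := by
    refine hw.trans_le ?_
    rw [one_div, inv_mul_le_iff₀ hK0]
    nlinarith
  have h1 := hV (w - u) (hwη.trans hηδ)
  rw [add_sub_cancel] at h1
  have h2 : |α * (w - u).re| ≤ |α| * ‖w - u‖ := by
    rw [abs_mul]
    exact mul_le_mul_of_nonneg_left (Complex.abs_re_le_norm _) (abs_nonneg _)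
  have h3 : |β * (|(w - u).im|)| ≤ |β| * ‖w - u‖ := by
    rw [abs_mul, abs_abs]
    exact mul_le_mul_of_nonneg_left (Complex.abs_im_le_norm _) (abs_nonneg _)
  have h5 := (abs_le.1 h2).1
  have h6 := (abs_le.1 h3).1
  have h7 : K * ‖w - u‖ < η := by
    have := mul_lt_mul_of_pos_left hw hK0
    rwa [← mul_assoc, mul_one_div_cancel hK0.ne', one_mul] at this
  have h8 : 0 ≤ ‖w - u‖ := norm_nonneg _
  rw [hK] at h7
  nlinarith

section Dat

variable {q : C(ℂ, ℂ)} {η ρ r Bc : ℝ} {b φ p : ℂ × ℂ → ℂ} {m₀ : ℂ → ℂ} {h : ℝ} {ψ H : ℂ → ℂ}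
variable (D : Sh982.Dat q η ρ r Bc b φ p m₀ h ψ H)
include D

/-- below the top line over the small disc `‖w - u‖ < c η` everything is regular -/
theorem mem_SB_of {w t : ℂ} (hw : ‖w‖ < r) (h1 : -(ρ / 2) < t.im)
    (h2 : t.im < VV b φ p h ρ r w) : (t, w) ∈ SB b h ρ r ∧ (t, w) ∈ SL φ p ρ r := by
  have hw' : w ∈ ball (0 : ℂ) r := by simpa using hw
  obtain ⟨h3, h4⟩ := mem_of_lt_VV D hw' h2
  exact ⟨SB_iff.2 ⟨h4, h1⟩, SL_iff.2 ⟨h3, h1⟩⟩

/-- **comparison in the `w`-disc** -/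
theorem cmp {u c η0 : ℝ} (hc : 0 < c)
    (hRB : ∀ η : ℝ, 0 < η → η < η0 → ∀ w : ℂ, ‖w - u‖ < c * η →
      VV b φ p h ρ r u - η < VV b φ p h ρ r w) {y : ℝ} (hy : 0 < y) (hy0 : y < η0)
    (hyr : c * y < r - |u|) (hyρ : -(ρ / 2) < VV b φ p h ρ r u - y) (x : ℝ) {z : ℂ}
    (hz : ‖z - u‖ ≤ c * y / 2) :
    h - (be b h ρ r ((x : ℂ) + ((VV b φ p h ρ r u - y : ℝ) : ℂ) * I, (u : ℂ))).im ≤
      3 * (h - (be b h ρ r ((x : ℂ) + ((VV b φ p h ρ r u - y : ℝ) : ℂ) * I, z)).im) ∧
    h + (be b h ρ r ((x : ℂ) + ((VV b φ p h ρ r u - y : ℝ) : ℂ) * I, (u : ℂ))).im ≤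
      3 * (h + (be b h ρ r ((x : ℂ) + ((VV b φ p h ρ r u - y : ℝ) : ℂ) * I, z)).im) := by
  have him : ((x : ℂ) + ((VV b φ p h ρ r u - y : ℝ) : ℂ) * I).im = VV b φ p h ρ r u - y := by
    simp
  have hmem : ∀ w ∈ ball (u : ℂ) (c * y),
      ((x : ℂ) + ((VV b φ p h ρ r u - y : ℝ) : ℂ) * I, w) ∈ SB b h ρ r := by
    intro w hw
    rw [mem_ball, dist_eq_norm] at hw
    refine (mem_SB_of D ?_ ?_ ?_).1
    · calc ‖w‖ = ‖(w - u) + u‖ := by ring_nf
        _ ≤ ‖w - u‖ + ‖(u : ℂ)‖ := norm_add_le _ _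
        _ < r := by
          rw [Complex.norm_real, Real.norm_eq_abs]
          linarith
    · rw [him]
      exact hyρ
    · rw [him]
      exact hRB y hy hy0 w hw
  refine harn_strip (R := c * y) (by positivity)
    (f := fun w => be b h ρ r ((x : ℂ) + ((VV b φ p h ρ r u - y : ℝ) : ℂ) * I, w)) ?_ ?_ hz
  · intro w hw
    refine (DifferentiableAt.comp (g := be b h ρ r)
      (f := fun w : ℂ => (((x : ℂ) + ((VV b φ p h ρ r u - y : ℝ) : ℂ) * I, w) : ℂ × ℂ)) w
      (D.be_an _ (hmem w hw)).differentiableAt ?_).differentiableWithinAt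
    fun_prop
  · intro w hw
    exact D.be_mem (hmem w hw)

/-- **link**: a nontangential limit at an edge in the exact coordinates is the vertical limit on
the real slice -/
theorem link {G : ℂ → ℂ} {u α β : ℝ} {g0 : ℂ} (hur : |u| < r)
    (hV0 : 0 < VV b φ p h ρ r u)
    (hE : Expn G (VV b φ p h ρ r) u α β) (hg : NTL G u α β g0) (hg0 : g0.im = VV b φ p h ρ r u)
    {s : ℝ} {bb : ℂ}
    (hlim : ∀ M : ℝ, Tendsto (fun q => be b h ρ r (ex G q)) (𝓝[Cn (s, u) M] ((s : ℂ), (u : ℂ)))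
      (𝓝 bb)) (hbb : bb.im = h ∨ bb.im = -h) :
    Tendsto (fun y : ℝ => (be b h ρ r (((s + g0.re : ℝ) : ℂ) +
      ((VV b φ p h ρ r u - y : ℝ) : ℂ) * I, (u : ℂ))).im) (𝓝[>] 0) (𝓝 bb.im) := by
  have hρ := D.ρ_pos
  obtain ⟨c, hc, η0, hη0, hcK, hRB⟩ := realball hE
  set V := VV b φ p h ρ r with hVdef
  have hc2 : c ≤ 1 / 2 := by
    have h1 : 0 ≤ |α| + |β| := by positivity
    nlinarith
  have hcα : c * |α| ≤ 1 := by nlinarith [abs_nonneg α, abs_nonneg β]
  have hcβ : c * |β| ≤ 1 := by nlinarith [abs_nonneg α, abs_nonneg β]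
  obtain ⟨δ, hδ, hG⟩ := hg 1 one_pos (1 / 2) (by norm_num)
  -- the auxiliary points
  set wy : ℝ → ℂ := fun y => (u : ℂ) + ((c * y / 2 : ℝ) : ℂ) * I with hwy
  set qy : ℝ → ℂ × ℂ := fun y =>
    (((s + g0.re : ℝ) : ℂ) + ((V u - y : ℝ) : ℂ) * I - G (wy y), wy y) with hqy
  have hex : ∀ y, ex G (qy y) =
      (((s + g0.re : ℝ) : ℂ) + ((V u - y : ℝ) : ℂ) * I, wy y) := by
    intro y
    unfold PartII150.ex
    rw [hqy]
    simp
  have hnz : ∀ y : ℝ, 0 < y → ‖((c * y / 2 : ℝ) : ℂ) * I‖ = c * y / 2 := by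
    intro y hy
    rw [norm_mul, Complex.norm_I, mul_one, Complex.norm_real, Real.norm_eq_abs,
      abs_of_pos (by positivity)]
  -- estimate for `qy`
  have hq1 : ∀ y : ℝ, 0 < y → c * y / 2 < δ →
      ‖(qy y).1 - ((s : ℂ) - (y : ℂ) * I - ((β : ℂ) + I * α) * (((c * y / 2 : ℝ) : ℂ) * I))‖ ≤
        1 / 2 * (c * y / 2) := by
    intro y hy hyδ
    have h1 := hG (((c * y / 2 : ℝ) : ℂ) * I) (by simp; positivity) (by rw [hnz y hy]; exact hyδ)
      (by rw [hnz y hy]; simp)
    rw [hnz y hy] at h1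
    have e0 : g0 = (g0.re : ℂ) + (V u : ℂ) * I := by
      rw [← hg0]
      exact (Complex.re_add_im g0).symm
    have e1 : (qy y).1 - ((s : ℂ) - (y : ℂ) * I -
        ((β : ℂ) + I * α) * (((c * y / 2 : ℝ) : ℂ) * I)) =
        -(G (u + ((c * y / 2 : ℝ) : ℂ) * I) - g0 -
          ((β : ℂ) + I * α) * (((c * y / 2 : ℝ) : ℂ) * I)) := by
      rw [hqy, hwy]
      simp only
      push_cast at e0 ⊢
      linear_combination (-1 : ℂ) * e0
    rw [e1, norm_neg]
    exact h1
  have hre : ∀ y : ℝ, 0 < y → c * y / 2 < δ →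
      |(qy y).1.re - s| ≤ y ∧ -(2 * y) ≤ (qy y).1.im ∧ (qy y).1.im ≤ -(y / 4) := by
    intro y hy hyδ
    have h1 := hq1 y hy hyδ
    have h2 := (Complex.abs_re_le_norm _).trans h1
    have h3 := (Complex.abs_im_le_norm _).trans h1
    have e2 : ((qy y).1 - ((s : ℂ) - (y : ℂ) * I -
        ((β : ℂ) + I * α) * (((c * y / 2 : ℝ) : ℂ) * I))).re = (qy y).1.re - s - α * (c * y / 2) := by
      simp
      ring
    have e3 : ((qy y).1 - ((s : ℂ) - (y : ℂ) * I -
        ((β : ℂ) + I * α) * (((c * y / 2 : ℝ) : ℂ) * I))).im = (qy y).1.im + y + β * (c * y / 2) := by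
      simp
      ring
    rw [e2] at h2
    rw [e3] at h3
    have h4 := abs_le.1 h2
    have h5 := abs_le.1 h3
    have h6 : |α * (c * y / 2)| ≤ y / 2 := by
      rw [abs_mul, abs_of_pos (show (0 : ℝ) < c * y / 2 by positivity)]
      nlinarith
    have h7 : |β * (c * y / 2)| ≤ y / 2 := by
      rw [abs_mul, abs_of_pos (show (0 : ℝ) < c * y / 2 by positivity)]
      nlinarith
    have h8 := abs_le.1 h6
    have h9 := abs_le.1 h7
    have h10 : c * y ≤ y / 2 := by nlinarith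
    refine ⟨abs_le.2 ⟨by linarith [h4.1, h8.1], by linarith [h4.2, h8.2]⟩, ?_, ?_⟩
    · linarith [h5.1, h9.2]
    · linarith [h5.2, h9.1]
  have hsmall : ∀ᶠ y : ℝ in 𝓝[>] 0, 0 < y ∧ y < min (min η0 δ) (min (r - |u|) (V u)) :=
    Ioo_mem_nhdsGT (lt_min (lt_min hη0 hδ) (lt_min (by linarith) hV0))
  have hcy : ∀ y : ℝ, 0 < y → c * y ≤ y / 2 := by
    intro y hy
    nlinarith
  -- `qy y` in the cone
  set M : ℝ := 4 / c + 8 with hM
  have hMc : 4 ≤ M * c := by
    rw [hM, add_mul, div_mul_cancel₀ _ hc.ne']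
    linarith
  have hM8 : 8 ≤ M := by
    have : 0 < 4 / c := by positivity
    linarith
  have hcone : Tendsto qy (𝓝[>] 0) (𝓝[Cn (s, u) M] ((s : ℂ), (u : ℂ))) := by
    refine tendsto_nhdsWithin_iff.2 ⟨?_, ?_⟩
    · rw [nhds_prod_eq]
      refine Tendsto.prodMk ?_ ?_
      · have hb : ∀ᶠ y : ℝ in 𝓝[>] 0, ‖(qy y).1 - s‖ ≤ 3 * y := by
          filter_upwards [hsmall] with y hy
          have hyδ : c * y / 2 < δ := by
            have h1 := hcy y hy.1
            have h2 := hy.2.trans_le ((min_le_left _ _).trans (min_le_right _ _))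
            linarith [hy.1]
          obtain ⟨h1, h2, h3⟩ := hre y hy.1 hyδ
          refine (Complex.norm_le_abs_re_add_abs_im _).trans ?_
          have e1 : ((qy y).1 - s).re = (qy y).1.re - s := by simp
          have e2 : ((qy y).1 - s).im = (qy y).1.im := by simp
          rw [e1, e2]
          have h4 : |(qy y).1.im| ≤ 2 * y := abs_le.2 ⟨h2, by linarith [hy.1]⟩
          linarith
        have ht : Tendsto (fun y : ℝ => 3 * y) (𝓝[>] 0) (𝓝 0) := by
          have h1 : Continuous fun y : ℝ => 3 * y := by fun_prop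
          have h2 := h1.tendsto 0
          rw [mul_zero] at h2
          exact h2.mono_left nhdsWithin_le_nhds
        exact tendsto_iff_norm_sub_tendsto_zero.2
          (squeeze_zero' (Eventually.of_forall fun _ => norm_nonneg _) hb ht)
      · have h1 : Continuous wy := by
          rw [hwy]
          fun_prop
        have h2 := h1.tendsto 0
        have h3 : wy 0 = u := by
          rw [hwy]
          simp
        rw [h3] at h2
        exact h2.mono_left nhdsWithin_le_nhds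
    · filter_upwards [hsmall] with y hy
      have hyδ : c * y / 2 < δ := by
        have h1 := hcy y hy.1
        have h2 := hy.2.trans_le ((min_le_left _ _).trans (min_le_right _ _))
        linarith [hy.1]
      obtain ⟨h1, h2, h3⟩ := hre y hy.1 hyδ
      have hy0 := hy.1
      have e1 : (qy y).2.im = c * y / 2 := by
        rw [hqy, hwy]
        simp
      have e2 : ‖(qy y).2 - ((u : ℝ) : ℂ)‖ = c * y / 2 := by
        have : (qy y).2 - ((u : ℝ) : ℂ) = ((c * y / 2 : ℝ) : ℂ) * I := by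
          rw [hqy, hwy]
          simp
        rw [this]
        exact hnz y hy0
      refine ⟨by linarith, ?_, ?_⟩
      · rw [e1]
        have h4 : 4 * y ≤ M * c * y := mul_le_mul_of_nonneg_right hMc hy0.le
        linarith
      · simp only
        rw [e2]
        have h4 := hcy y hy0
        have h5 : 8 * (y / 4) ≤ M * (-(qy y).1.im) :=
          mul_le_mul hM8 (by linarith) (by linarith) (by linarith)
        linarith
  have hT := (hlim M).comp hcone
  have hTim : Tendsto (fun y => (be b h ρ r (ex G (qy y))).im) (𝓝[>] 0) (𝓝 bb.im) :=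
    (Complex.continuous_im.tendsto bb).comp hT
  simp only [hex] at hTim
  -- comparison
  have hcmp : ∀ᶠ y : ℝ in 𝓝[>] 0,
      h - (be b h ρ r (((s + g0.re : ℝ) : ℂ) + ((V u - y : ℝ) : ℂ) * I, (u : ℂ))).im ≤
        3 * (h - (be b h ρ r (((s + g0.re : ℝ) : ℂ) + ((V u - y : ℝ) : ℂ) * I, wy y)).im) ∧
      h + (be b h ρ r (((s + g0.re : ℝ) : ℂ) + ((V u - y : ℝ) : ℂ) * I, (u : ℂ))).im ≤
        3 * (h + (be b h ρ r (((s + g0.re : ℝ) : ℂ) + ((V u - y : ℝ) : ℂ) * I, wy y)).im) ∧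
      |(be b h ρ r (((s + g0.re : ℝ) : ℂ) + ((V u - y : ℝ) : ℂ) * I, (u : ℂ))).im| ≤ h := by
    filter_upwards [hsmall] with y hy
    have hy0 := hy.1
    have m1 := hy.2.trans_le ((min_le_left _ _).trans (min_le_left _ _))
    have m2 := hy.2.trans_le ((min_le_right _ _).trans (min_le_left _ _))
    have m3 := hy.2.trans_le ((min_le_right _ _).trans (min_le_right _ _))
    have h4 := hcy y hy0
    have h5 := cmp D (u := u) hc hRB hy0 m1 (by linarith) (by linarith) (s + g0.re)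
      (z := wy y) (by
        have : wy y - u = ((c * y / 2 : ℝ) : ℂ) * I := by rw [hwy]; simp
        rw [this, hnz y hy0])
    refine ⟨h5.1, h5.2, ?_⟩
    have him : ((((s + g0.re : ℝ) : ℂ) + ((V u - y : ℝ) : ℂ) * I)).im = V u - y := by simp
    have h6 := (mem_SB_of D (w := (u : ℂ)) (t := ((s + g0.re : ℝ) : ℂ) + ((V u - y : ℝ) : ℂ) * I)
      (by rw [Complex.norm_real, Real.norm_eq_abs]; exact hur) (by rw [him]; linarith)
      (by rw [him]; linarith)).1
    exact le_of_lt (D.be_mem h6)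
  rcases hbb with hbb | hbb
  · rw [hbb] at hTim ⊢
    have h1 : Tendsto (fun y : ℝ => h - 3 * (h - (be b h ρ r (((s + g0.re : ℝ) : ℂ) +
        ((V u - y : ℝ) : ℂ) * I, wy y)).im)) (𝓝[>] 0) (𝓝 h) := by
      have h2 := (hTim.const_sub h).const_mul 3 |>.const_sub h
      simpa using h2
    refine tendsto_of_tendsto_of_tendsto_of_le_of_le' h1 tendsto_const_nhds ?_ ?_
    · filter_upwards [hcmp] with y hy
      linarith [hy.1]
    · filter_upwards [hcmp] with y hy
      exact (abs_le.1 hy.2.2).2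
  · rw [hbb] at hTim ⊢
    have h1 : Tendsto (fun y : ℝ => 3 * (h + (be b h ρ r (((s + g0.re : ℝ) : ℂ) +
        ((V u - y : ℝ) : ℂ) * I, wy y)).im) - h) (𝓝[>] 0) (𝓝 (-h)) := by
      have h2 := ((hTim.const_add h).const_mul 3).sub_const h
      simpa using h2
    refine tendsto_of_tendsto_of_tendsto_of_le_of_le' tendsto_const_nhds h1 ?_ ?_
    · filter_upwards [hcmp] with y hy
      exact (abs_le.1 hy.2.2).1
    · filter_upwards [hcmp] with y hy
      linarith [hy.2.1]

end Dat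



end Crest.Agent.R102.Exit812
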