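import Mathlib
import Crest.Agent.R102.End_613

/-!
# Row 102, EDGE: limits of holomorphic functions on growing domains (helper151)

* `subseq_fin` : from ultrafilter limits of finitely many sequences to one common subsequence;
* `montel_exh` : Montel's theorem for finitely many sequences on growing domains;
* `tendsto_fderiv` : directional derivatives converge;
* `jac`, `jac_tendsto`, `jac_zero` : the Jacobian of two functions on `ℂ × ℂ` in the limit.
-/

set_option autoImplicit false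

open Set Filter Topology Metric

noncomputable section

namespace Crest.Agent.R102.Limits151

open Crest.Agent.R102.M948 Crest.Agent.R102.End613

variable {E : Type*} [NormedAddCommGroup E] [NormedSpace ℂ E] [FiniteDimensional ℂ E]

/-- from ultrafilter limits to a common subsequence -/
theorem subseq_fin {m : ℕ} {u : Ultrafilter ℕ} (hu : (u : Filter ℕ) ≤ atTop) {D : Set E}
    (hD : IsOpen D) {f : Fin m → ℕ → E → ℂ} {g : Fin m → E → ℂ}
    (h : ∀ i, TendstoLocallyUniformlyOn (f i) (g i) u D) :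
    ∃ φ : ℕ → ℕ, StrictMono φ ∧
      ∀ i, TendstoLocallyUniformlyOn (fun n => f i (φ n)) (g i) atTop D := by
  obtain ⟨K, hK, hKD, hKm, hKx⟩ := exists_exhaustion hD
  have h1 : ∀ n : ℕ, ∀ᶠ k in (u : Filter ℕ), ∀ i, ∀ x ∈ K n,
      dist (g i x) (f i k x) < 1 / (n + 1) := by
    intro n
    refine eventually_all.2 fun i => ?_
    have h2 := (tendstoLocallyUniformlyOn_iff_tendstoUniformlyOn_of_compact (hK n)).1
      ((h i).mono (hKD n))
    exact Metric.tendstoUniformlyOn_iff.1 h2 _ (by positivity)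
  have h2 : ∀ n : ℕ, ∃ᶠ k in atTop, ∀ i, ∀ x ∈ K n, dist (g i x) (f i k x) < 1 / (n + 1) :=
    fun n => ((h1 n).frequently).filter_mono hu
  obtain ⟨φ, hφ, hφ'⟩ := extraction_forall_of_frequently h2
  refine ⟨φ, hφ, fun i => ?_⟩
  rw [Metric.tendstoLocallyUniformlyOn_iff]
  intro ε hε x hx
  obtain ⟨n, hn⟩ := (hKx x hx).exists
  refine ⟨K n, mem_nhdsWithin_of_mem_nhds hn, ?_⟩
  obtain ⟨m, hm⟩ := exists_nat_one_div_lt hε
  filter_upwards [eventually_ge_atTop n, eventually_ge_atTop m] with k hkn hkm y hy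
  refine (hφ' k i y (hKm n k hkn hy)).trans_le (le_trans ?_ hm.le)
  have : (m : ℝ) ≤ k := by exact_mod_cast hkm
  gcongr

/-- Montel's theorem for finitely many sequences of functions on growing domains, ultrafilter form -/
theorem montel_exh_ultra {ι : Type*} (u : Ultrafilter ι) {U : Set E} (hU : IsOpen U)
    {D : ι → Set E} {f : ι → E → ℂ} (hf : ∀ n, DifferentiableOn ℂ (f n) (D n))
    (hD : ∀ K ⊆ U, IsCompact K → ∀ᶠ n in (u : Filter ι), K ⊆ D n)
    (hB : ∀ K ⊆ U, IsCompact K → ∃ C : ℝ, ∀ᶠ n in (u : Filter ι), ∀ x ∈ K, ‖f n x‖ ≤ C) :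
    ∃ g : E → ℂ, DifferentiableOn ℂ g U ∧ TendstoLocallyUniformlyOn f g u U := by
  have : ProperSpace E := FiniteDimensional.proper ℂ E
  refine montel_ev u hU fun x hx => ?_
  obtain ⟨r, hr, hrU⟩ := Metric.isOpen_iff.1 hU x hx
  have hsub : closedBall x (r / 2) ⊆ U :=
    (closedBall_subset_ball (by linarith)).trans hrU
  obtain ⟨C, hC⟩ := hB _ hsub (isCompact_closedBall _ _)
  refine ⟨r / 2, by positivity, C, (ball_subset_closedBall).trans hsub, ?_⟩
  filter_upwards [hD _ hsub (isCompact_closedBall _ _), hC] with k hk hk2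
  exact ⟨(hf k).mono (ball_subset_closedBall.trans hk),
    fun w hw => hk2 w (ball_subset_closedBall hw)⟩

/-- **Montel's theorem** for finitely many sequences of functions on growing domains -/
theorem montel_exh {m : ℕ} {U : Set E} (hU : IsOpen U) {D : Fin m → ℕ → Set E}
    {f : Fin m → ℕ → E → ℂ} (hf : ∀ i n, DifferentiableOn ℂ (f i n) (D i n))
    (hD : ∀ i, ∀ K ⊆ U, IsCompact K → ∀ᶠ n in atTop, K ⊆ D i n)
    (hB : ∀ i, ∀ K ⊆ U, IsCompact K → ∃ C : ℝ, ∀ᶠ n in atTop, ∀ x ∈ K, ‖f i n x‖ ≤ C) :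
    ∃ φ : ℕ → ℕ, StrictMono φ ∧ ∃ g : Fin m → E → ℂ, ∀ i, DifferentiableOn ℂ (g i) U ∧
      TendstoLocallyUniformlyOn (fun n => f i (φ n)) (g i) atTop U := by
  have hu : ((hyperfilter ℕ : Ultrafilter ℕ) : Filter ℕ) ≤ atTop := by
    rw [← Nat.cofinite_eq_atTop]; exact hyperfilter_le_cofinite
  have h1 : ∀ i, ∃ g : E → ℂ, DifferentiableOn ℂ g U ∧
      TendstoLocallyUniformlyOn (f i) g (hyperfilter ℕ : Ultrafilter ℕ) U := fun i =>
    montel_exh_ultra (hyperfilter ℕ) hU (hf i) (fun K hK hKc => (hD i K hK hKc).filter_mono hu)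
      (fun K hK hKc => (hB i K hK hKc).imp fun C hC => hC.filter_mono hu)
  choose g hg hgu using h1
  obtain ⟨φ, hφ, hφ'⟩ := subseq_fin hu hU hgu
  exact ⟨φ, hφ, g, fun i => ⟨hg i, hφ' i⟩⟩

/-- Montel's theorem for one sequence of functions on growing domains -/
theorem montel_exh1 {U : Set E} (hU : IsOpen U) {D : ℕ → Set E} {f : ℕ → E → ℂ}
    (hf : ∀ n, DifferentiableOn ℂ (f n) (D n))
    (hD : ∀ K ⊆ U, IsCompact K → ∀ᶠ n in atTop, K ⊆ D n)
    (hB : ∀ K ⊆ U, IsCompact K → ∃ C : ℝ, ∀ᶠ n in atTop, ∀ x ∈ K, ‖f n x‖ ≤ C) :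
    ∃ φ : ℕ → ℕ, StrictMono φ ∧ ∃ g : E → ℂ, DifferentiableOn ℂ g U ∧
      TendstoLocallyUniformlyOn (fun n => f (φ n)) g atTop U := by
  obtain ⟨φ, hφ, g, hg⟩ := montel_exh (m := 1) hU (f := fun _ => f) (D := fun _ => D)
    (fun _ => hf) (fun _ => hD) (fun _ => hB)
  exact ⟨φ, hφ, g 0, (hg 0).1, (hg 0).2⟩


/-! ### Jacobians on `ℂ × ℂ` -/

/-- the Jacobian of two functions on `ℂ × ℂ` -/
def jac (f g : ℂ × ℂ → ℂ) (x : ℂ × ℂ) : ℂ :=
  fderiv ℂ f x (1, 0) * fderiv ℂ g x (0, 1) - fderiv ℂ f x (0, 1) * fderiv ℂ g x (1, 0)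



end Crest.Agent.R102.Limits151
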