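import Mathlib.Dynamics.Circle.RotationNumber.TranslationNumber
import Mathlib.Topology.Instances.AddCircle.DenseSubgroup
import Mathlib.Topology.Baire.Lemmas
import Mathlib.Topology.Baire.CompleteMetrizable
import Mathlib.Topology.Order.Monotone
import Crest.Agent.R102.GeoDefs_821
import Mathlib.MeasureTheory.Function.Jacobian
import Mathlib.MeasureTheory.Measure.Prod
import Mathlib.MeasureTheory.Constructions.Polish.Basic
import Mathlib.MeasureTheory.Measure.Lebesgue.Basic
import Mathlib.MeasureTheory.Measure.Haar.OfBasis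
import Mathlib

-- ▼ part R102/Fol1_160
section

/-!
Row 102, leaf T3c (i) + (ii): the circle lemma (no wandering intervals ⇒ conjugate to a rotation)
and the Baire argument (good leaves are dense).
-/

set_option autoImplicit false

namespace Crest.Agent.R102.S0

open Set Function Filter Topology

/-- `(a,b)` is a wandering interval of the circle map with lift `g`. -/
def Wand (g : ℝ → ℝ) (a b : ℝ) : Prop :=
  a < b ∧ ∀ k : ℕ, 1 ≤ k → ∀ m : ℤ, ∀ x ∈ Set.Ioo a b, ∀ y ∈ Set.Ioo a b, g^[k] x + m ≠ y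

theorem conj_irrational (f : CircleDeg1Lift) (hc : Continuous f) (hm : StrictMono f)
    (hir : Irrational f.translationNumber) (hw : ∀ a b, ¬ Wand f a b) :
    ∃ h : ℝ → ℝ, Continuous h ∧ StrictMono h ∧ (∀ x, h (x + 1) = h x + 1) ∧
      ∀ x, h (f x) = h x + f.translationNumber := by
  set ρ := f.translationNumber with hρ
  have hbij : Bijective f := ⟨hm.injective, CircleDeg1Lift.continuous_iff_surjective f |>.1 hc⟩
  obtain ⟨F, hF⟩ := CircleDeg1Lift.semiconj_of_bijective_of_translationNumber_eq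
    (f₁ := f) (f₂ := (CircleDeg1Lift.translate (Multiplicative.ofAdd ρ) : CircleDeg1Liftˣ))
    hbij (CircleDeg1Lift.isUnit_iff_bijective.1 (Units.isUnit _))
    (by rw [CircleDeg1Lift.translationNumber_translate])
  have hFf : ∀ x, F (f x) = F x + ρ := by
    intro x
    have := hF x
    rw [CircleDeg1Lift.translate_apply] at this
    rw [this, add_comm]
  have hF1 : ∀ x, F (x + 1) = F x + 1 := F.map_add_one
  -- dense range
  have hdense : DenseRange F := by
    have key : ∀ z ∈ AddSubgroup.closure ({ρ, 1} : Set ℝ), ∀ r ∈ range F,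
        r + z ∈ range F ∧ r - z ∈ range F := by
      intro z hz
      induction hz using AddSubgroup.closure_induction with
      | mem z hz =>
        rintro r ⟨x, rfl⟩
        rcases hz with rfl | hz
        · obtain ⟨y, rfl⟩ := hbij.2 x
          refine ⟨⟨f (f y), by rw [hFf (f y)]⟩, ⟨y, by rw [hFf y]; ring⟩⟩
        · rw [mem_singleton_iff] at hz
          subst hz
          refine ⟨⟨x + 1, hF1 x⟩, ⟨x - 1, ?_⟩⟩
          have := hF1 (x - 1)
          rw [sub_add_cancel] at this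
          rw [this]; ring
      | zero => intro r hr; simpa using hr
      | add a b _ _ iha ihb =>
        intro r hr
        refine ⟨?_, ?_⟩
        · have := (ihb _ (iha r hr).1).1
          rwa [add_assoc] at this
        · have := (ihb _ (iha r hr).2).2
          rwa [sub_sub] at this
      | neg a _ iha =>
        intro r hr
        refine ⟨?_, ?_⟩
        · rw [← sub_eq_add_neg]; exact (iha r hr).2
        · rw [sub_neg_eq_add]; exact (iha r hr).1
    have hD : Dense (AddSubgroup.closure ({ρ, 1} : Set ℝ) : Set ℝ) := by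
      rw [dense_addSubgroupClosure_pair_iff]
      simpa using hir
    apply dense_of_exists_between
    intro a b hab
    obtain ⟨z, hz, hz1, hz2⟩ := hD.exists_between (sub_lt_sub_right hab (F 0))
    refine ⟨F 0 + z, (key z hz _ ⟨0, rfl⟩).1, by linarith, by linarith⟩
  have hFc : Continuous F := F.monotone.continuous_of_denseRange hdense
  have hFs : StrictMono F := by
    refine F.monotone.strictMono_of_injective ?_
    by_contra hni
    have : ∃ x y, x < y ∧ F x = F y := by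
      simp only [Injective, not_forall] at hni
      obtain ⟨x, y, hxy, hne⟩ := hni
      rcases lt_or_gt_of_ne hne with h | h
      · exact ⟨x, y, h, hxy⟩
      · exact ⟨y, x, h, hxy.symm⟩
    obtain ⟨a, b, hab, hFab⟩ := this
    have hconst : ∀ u ∈ Ioo a b, F u = F a := fun u hu =>
      le_antisymm (hFab ▸ F.monotone hu.2.le) (F.monotone hu.1.le)
    apply hw a b
    refine ⟨hab, ?_⟩
    intro k hk m x hx y hy hxy
    have h1 : ∀ k : ℕ, ∀ x, F (f^[k] x) = F x + k * ρ := by
      intro k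
      induction k with
      | zero => intro x; simp
      | succ k ih =>
        intro x
        rw [Function.iterate_succ_apply, ih, hFf]
        push_cast; ring
    have h2 : F (f^[k] x + m) = F a + k * ρ + m := by
      rw [F.map_add_int, h1, hconst x hx]
    rw [hxy, hconst y hy] at h2
    have h3 : (k : ℝ) * ρ = ((-m : ℤ) : ℝ) := by push_cast; linarith
    have hk0 : (k : ℝ) ≠ 0 := by exact_mod_cast (by omega : k ≠ 0)
    apply hir
    refine ⟨((-m : ℤ) : ℚ) / (k : ℚ), ?_⟩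
    push_cast
    push_cast at h3
    field_simp
    linarith
  exact ⟨F, hFc, hFs, hF1, hFf⟩

theorem pow_eq_of_rational (f : CircleDeg1Lift) (hc : Continuous f) (hm : StrictMono f)
    {j : ℤ} {n : ℕ} (hn : 0 < n) (hcop : j.natAbs.Coprime n)
    (hτ : f.translationNumber = (j : ℝ) / n) (hw : ∀ a b, ¬ Wand f a b) :
    ∀ x, f^[n] x = x + j := by
  by_contra hne
  push Not at hne
  obtain ⟨x, hx⟩ := hne
  set G : ℝ → ℝ := fun y => f^[n] y - j with hG
  have hGc : Continuous G := (hc.iterate n).sub continuous_const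
  have hGm : StrictMono G := fun a b hab => sub_lt_sub_right (hm.iterate n hab) _
  have hG1 : ∀ y (m : ℤ), G (y + m) = G y + m := by
    intro y m
    simp only [hG]
    have := (f ^ n).map_add_int y m
    rw [CircleDeg1Lift.coe_pow] at this
    rw [this]; ring
  have hxG : G x ≠ x := by
    intro h
    apply hx
    simp only [hG] at h
    linarith
  obtain ⟨z, hz⟩ := (f.translationNumber_eq_rat_iff hc hn).1 hτ
  rw [CircleDeg1Lift.coe_pow] at hz
  have hzG : G z = z := by simp only [hG]; linarith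
  set Z : Set ℝ := {y | G y = y} with hZ
  have hZc : IsClosed Z := isClosed_eq hGc continuous_id
  have hZm : ∀ m : ℤ, z + m ∈ Z := by
    intro m
    show G (z + m) = z + m
    rw [hG1, hzG]
  -- the fixed points adjacent to x
  have hne1 : (Z ∩ Iic x).Nonempty := by
    refine ⟨z + (⌊x - z⌋ : ℤ), hZm _, ?_⟩
    have := Int.floor_le (x - z)
    show z + (⌊x - z⌋ : ℝ) ≤ x
    linarith
  have hne2 : (Z ∩ Ici x).Nonempty := by
    refine ⟨z + (⌈x - z⌉ : ℤ), hZm _, ?_⟩
    have := Int.le_ceil (x - z)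
    show x ≤ z + (⌈x - z⌉ : ℝ)
    linarith
  have hbd1 : BddAbove (Z ∩ Iic x) := ⟨x, fun y hy => hy.2⟩
  have hbd2 : BddBelow (Z ∩ Ici x) := ⟨x, fun y hy => hy.2⟩
  set c := sSup (Z ∩ Iic x) with hcdef
  set d := sInf (Z ∩ Ici x) with hddef
  have hcZ : c ∈ Z ∩ Iic x := (hZc.inter isClosed_Iic).csSup_mem hne1 hbd1
  have hdZ : d ∈ Z ∩ Ici x := (hZc.inter isClosed_Ici).csInf_mem hne2 hbd2
  have hcG : G c = c := hcZ.1
  have hdG : G d = d := hdZ.1
  have hcx : c < x := lt_of_le_of_ne hcZ.2 (by rintro h; apply hxG; rw [← h]; exact hcG)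
  have hxd : x < d := lt_of_le_of_ne hdZ.2 (by rintro h; apply hxG; rw [h]; exact hdG)
  have hgap : ∀ y ∈ Z, y < d → y ≤ c := by
    intro y hy hyd
    by_contra hyc
    push Not at hyc
    rcases le_total y x with h | h
    · exact absurd (le_csSup hbd1 ⟨hy, h⟩) (not_le.2 hyc)
    · exact absurd (csInf_le hbd2 ⟨hy, h⟩) (not_le.2 hyd)
  have hgap' : ∀ y ∈ Z, c < y → d ≤ y := by
    intro y hy hyc
    by_contra hyd
    push Not at hyd
    exact absurd (hgap y hy hyd) (not_le.2 hyc)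
  -- iterates of `G`
  have hGl : ∀ l : ℕ, ∀ y, G^[l] y = f^[l * n] y - l * j := by
    intro l
    induction l with
    | zero => intro y; simp
    | succ l ih =>
      intro y
      rw [Function.iterate_succ_apply', ih]
      have h1 := hG1 (f^[l * n] y) (-(l * j))
      push_cast at h1
      rw [← sub_eq_add_neg] at h1
      rw [h1]
      simp only [hG]
      rw [← Function.iterate_add_apply]
      have : n + l * n = (l + 1) * n := by ring
      rw [this]
      push_cast
      ring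
  -- returning points
  have hret : ∀ u v, c < u → u < d → c < v → v < d → ∀ k : ℕ, 1 ≤ k → ∀ m : ℤ,
      f^[k] u + m = v → ∃ l : ℕ, 1 ≤ l ∧ v = G^[l] u := by
    intro u v hcu hud hcv hvd k hk m huv
    have hcomm : ∀ y, G y = y → G (f^[k] y + m) = f^[k] y + m := by
      intro y hy
      rw [hG1]
      congr 1
      simp only [hG] at hy ⊢
      rw [← Function.iterate_add_apply, add_comm n k, Function.iterate_add_apply]
      have h2 : f^[n] y = y + j := by linarith
      rw [h2]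
      have := (f ^ k).map_add_int y j
      rw [CircleDeg1Lift.coe_pow] at this
      rw [this]; ring
    have hAm : StrictMono (f^[k]) := hm.iterate k
    have h1 : f^[k] c + m ≤ c := by
      apply hgap _ (hcomm c hcG)
      have := hAm hcu
      linarith
    have h2 : d ≤ f^[k] d + m := by
      apply hgap' _ (hcomm d hdG)
      have := hAm hud
      linarith
    have h3 : (f ^ k).translationNumber ≤ ((-m : ℤ) : ℝ) := by
      apply CircleDeg1Lift.translationNumber_le_of_le_add_int (x := c)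
      rw [CircleDeg1Lift.coe_pow]
      push_cast
      linarith
    have h4 : ((-m : ℤ) : ℝ) ≤ (f ^ k).translationNumber := by
      apply CircleDeg1Lift.le_translationNumber_of_add_int_le (x := d)
      rw [CircleDeg1Lift.coe_pow]
      push_cast
      linarith
    have h5 : (k : ℝ) * ((j : ℝ) / n) = -m := by
      have := le_antisymm h3 h4
      rw [CircleDeg1Lift.translationNumber_pow, hτ] at this
      push_cast at this
      exact this
    have hn0 : (n : ℝ) ≠ 0 := by exact_mod_cast hn.ne'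
    have h6 : (k : ℤ) * j = -m * n := by
      have : (k : ℝ) * j = -m * n := by
        field_simp at h5
        linarith
      exact_mod_cast this
    have h7 : n ∣ k := by
      have h8 : (n : ℤ) ∣ k * j := ⟨-m, by rw [h6]; ring⟩
      have h9 : n ∣ k * j.natAbs := by
        have := Int.natAbs_dvd_natAbs.2 h8
        simpa [Int.natAbs_mul] using this
      exact (Nat.Coprime.symm hcop).dvd_of_dvd_mul_right h9
    obtain ⟨l, rfl⟩ := h7
    have hl : 1 ≤ l := by
      rcases Nat.eq_zero_or_pos l with h | h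
      · subst h; simp at hk
      · exact h
    refine ⟨l, hl, ?_⟩
    have h10 : (l : ℝ) * j = -m := by
      have : ((n * l : ℕ) : ℝ) * j = -m * n := by exact_mod_cast h6
      push_cast at this
      have h11 : (n : ℝ) * (l * j + m) = 0 := by linarith
      rcases mul_eq_zero.1 h11 with h | h
      · exact absurd h hn0
      · linarith
    rw [hGl, ← huv, mul_comm n l]
    linarith
  rcases lt_or_gt_of_ne hxG with hlt | hgt
  · -- `G x < x`
    apply hw (G x) x
    refine ⟨hlt, ?_⟩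
    intro k hk m u hu v hv huv
    have hcGx : c < G x := by rw [← hcG]; exact hGm hcx
    obtain ⟨l, hl, hvl⟩ := hret u v (hcGx.trans hu.1) (hu.2.trans hxd) (hcGx.trans hv.1)
      (hv.2.trans hxd) k hk m huv
    have h1 : G^[l] u < G^[l] x := (hGm.iterate l) hu.2
    have h2 : G^[l] x ≤ G^[1] x := (hGm.monotone.antitone_iterate_of_map_le hlt.le) hl
    rw [Function.iterate_one] at h2
    have := hv.1
    linarith
  · apply hw x (G x)
    refine ⟨hgt, ?_⟩
    intro k hk m u hu v hv huv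
    have hGxd : G x < d := by rw [← hdG]; exact hGm hxd
    obtain ⟨l, hl, hvl⟩ := hret u v (hcx.trans hu.1) (hu.2.trans hGxd) (hcx.trans hv.1)
      (hv.2.trans hGxd) k hk m huv
    have h1 : G^[l] x < G^[l] u := (hGm.iterate l) hu.1
    have h2 : G^[1] x ≤ G^[l] x := (hGm.monotone.monotone_iterate_of_le_map hgt.le) hl
    rw [Function.iterate_one] at h2
    have := hv.2
    linarith

theorem conj_rational (f : CircleDeg1Lift) (hc : Continuous f) (hm : StrictMono f)
    {j : ℤ} {n : ℕ} (hn : 0 < n) (hf : ∀ x, f^[n] x = x + j) :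
    ∃ h : ℝ → ℝ, Continuous h ∧ StrictMono h ∧ (∀ x, h (x + 1) = h x + 1) ∧
      ∀ x, h (f x) = h x + (j : ℝ) / n := by
  have hn0 : (n : ℝ) ≠ 0 := by exact_mod_cast hn.ne'
  have hn1 : (0 : ℝ) < n := by exact_mod_cast hn
  refine ⟨fun x => (∑ i ∈ Finset.range n, f^[i] x) / n, ?_, ?_, ?_, ?_⟩
  · exact (continuous_finsetSum _ fun i _ => hc.iterate i).div_const _
  · intro a b hab
    show (∑ i ∈ Finset.range n, f^[i] a) / n < (∑ i ∈ Finset.range n, f^[i] b) / n
    apply div_lt_div_of_pos_right _ hn1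
    apply Finset.sum_lt_sum_of_nonempty (by simpa using hn.ne')
    intro i _
    exact hm.iterate i hab
  · intro x
    show (∑ i ∈ Finset.range n, f^[i] (x + 1)) / n = (∑ i ∈ Finset.range n, f^[i] x) / n + 1
    have : ∀ i ∈ Finset.range n, f^[i] (x + 1) = f^[i] x + 1 := by
      intro i _
      have := (f ^ i).map_add_one x
      rwa [CircleDeg1Lift.coe_pow] at this
    rw [Finset.sum_congr rfl this, Finset.sum_add_distrib]
    simp
    field_simp
  · intro x
    show (∑ i ∈ Finset.range n, f^[i] (f x)) / n = (∑ i ∈ Finset.range n, f^[i] x) / n + j / n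
    have h1 : ∑ i ∈ Finset.range n, f^[i] (f x) = ∑ i ∈ Finset.range n, f^[i + 1] x := rfl
    have h2 : ∑ i ∈ Finset.range n, f^[i + 1] x + x = ∑ i ∈ Finset.range n, f^[i] x + f^[n] x := by
      have h3 := Finset.sum_range_succ' (fun i => f^[i] x) n
      have h4 := Finset.sum_range_succ (fun i => f^[i] x) n
      simp only [Function.iterate_zero, id] at h3
      linarith
    rw [hf] at h2
    rw [← add_div]
    congr 1
    linarith

/-- **Circle lemma**: a lift of a circle homeomorphism without wandering intervals is conjugate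
to a translation. -/
theorem exists_conj_of_not_wand {g : ℝ → ℝ} (hc : Continuous g) (hm : StrictMono g)
    (h1 : ∀ x, g (x + 1) = g x + 1) (hw : ∀ a b, ¬ Wand g a b) :
    ∃ (h : ℝ → ℝ) (ρ : ℝ), Continuous h ∧ StrictMono h ∧ (∀ x, h (x + 1) = h x + 1) ∧
      ∀ x, h (g x) = h x + ρ := by
  let f : CircleDeg1Lift := ⟨⟨g, hm.monotone⟩, h1⟩
  have hfg : (f : ℝ → ℝ) = g := rfl
  by_cases hir : Irrational f.translationNumber
  · obtain ⟨h, ha, hb, hc', hd⟩ := conj_irrational f hc hm hir hw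
    exact ⟨h, _, ha, hb, hc', hd⟩
  · unfold Irrational at hir
    push Not at hir
    obtain ⟨q, hq⟩ := hir
    have hτ : f.translationNumber = (q.num : ℝ) / q.den := by
      rw [← hq]
      exact Rat.cast_def q
    have := pow_eq_of_rational f hc hm q.pos q.reduced hτ hw
    obtain ⟨h, ha, hb, hc', hd⟩ := conj_rational f hc hm q.pos this
    exact ⟨h, _, ha, hb, hc', hd⟩

end Crest.Agent.R102.S0
end

-- ▼ part R102/Fol1B_160
section

/-!
Row 102, leaf T3c (i): the Baire argument: the leaves without wandering intervals are dense.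
The area lemma is a hypothesis here (`AreaL`).
-/

set_option autoImplicit false

namespace Crest.Agent.R102.S0

open Set Function Filter Topology

/-- `T` is the next-point map on pairs. -/
structure IsNext (P : ℝ) (q1 q2 : ℝ → ℝ → ℝ) (T : ℝ × ℝ → ℝ × ℝ) : Prop where
  fst : ∀ z ∈ Pairs P, (T z).1 = z.2
  mem : ∀ z ∈ Pairs P, T z ∈ Pairs P
  refl : ∀ z ∈ Pairs P, q2 z.1 z.2 = q1 z.2 (T z).2

/-- The area lemma (no wandering open sets with bounded orbit), as a property of `T`. -/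
def AreaL (P : ℝ) (T : ℝ × ℝ → ℝ × ℝ) : Prop :=
  ∀ C W : Set (ℝ × ℝ), IsCompact C → C ⊆ Pairs P → IsOpen W → W.Nonempty → W ⊆ Pairs P →
    (∀ k : ℕ, ∀ z ∈ W, ∃ m : ℤ, T^[k] z + ((m : ℝ) * P, (m : ℝ) * P) ∈ C) →
    (∀ k : ℕ, 1 ≤ k → ∀ z ∈ W, ∀ w ∈ W, ∀ m : ℤ,
      T^[k] z + ((m : ℝ) * P, (m : ℝ) * P) ≠ w) →
    (∀ z ∈ W, ∀ w ∈ W, ∀ m : ℤ, z + ((m : ℝ) * P, (m : ℝ) * P) = w → z = w) → False

theorem TwistData.strictAntiOn_q1 {P : ℝ} {q1 q2 h : ℝ → ℝ → ℝ} (hT : TwistData P q1 q2 h)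
    (s : ℝ) : StrictAntiOn (q1 s) (Ioo s (s + P)) := by
  apply strictAntiOn_of_deriv_neg (convex_Ioo _ _)
  · intro t ht
    exact (hT.der1 s t ht.1 ht.2).continuousAt.continuousWithinAt
  · intro t ht
    rw [interior_Ioo] at ht
    rw [(hT.der1 s t ht.1 ht.2).deriv]
    have := hT.hpos s t ht.1 ht.2
    linarith

theorem TwistData.strictMonoOn_q2 {P : ℝ} {q1 q2 h : ℝ → ℝ → ℝ} (hT : TwistData P q1 q2 h)
    (s' : ℝ) : StrictMonoOn (fun s => q2 s s') (Ioo (s' - P) s') := by
  apply strictMonoOn_of_deriv_pos (convex_Ioo _ _)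
  · intro t ht
    exact (hT.der2 t s' ht.2 (by linarith [ht.1])).continuousAt.continuousWithinAt
  · intro t ht
    rw [interior_Ioo] at ht
    rw [(hT.der2 t s' ht.2 (by linarith [ht.1])).deriv]
    exact hT.hpos t s' ht.2 (by linarith [ht.1])

theorem map_add_int_of_per {f : ℝ → ℝ} {c : ℝ} (hf : ∀ x, f (x + 1) = f x + c) (m : ℤ) (x : ℝ) :
    f (x + m) = f x + m * c := by
  induction m using Int.induction_on with
  | zero => simp
  | succ i ih =>
    have := hf (x + i)
    push_cast at ih ⊢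
    rw [← add_assoc, this, ih]; ring
  | pred i ih =>
    have := hf (x + (-(i:ℝ) - 1))
    push_cast at ih ⊢
    have h2 : x + (-(i:ℝ) - 1) + 1 = x + -(i:ℝ) := by ring
    rw [h2, ih] at this
    linarith

variable {P : ℝ} {q1 q2 h : ℝ → ℝ → ℝ} {S g : ℝ → ℝ → ℝ}

/-- the parametrisation of the foliation by pairs -/
def Psi (S g : ℝ → ℝ → ℝ) (z : ℝ × ℝ) : ℝ × ℝ := (S z.1 z.2, S z.1 (g z.1 z.2))

theorem FolData.psi_mem (hF : FolData P q1 q2 S g) {b : ℝ} (hb : b ∈ Ioo (0:ℝ) 1) (x : ℝ) :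
    Psi S g (b, x) ∈ Pairs P := ⟨hF.lo b hb x, hF.hi b hb x⟩

theorem FolData.psi_add (hF : FolData P q1 q2 S g) {b : ℝ} (hb : b ∈ Ioo (0:ℝ) 1) (x : ℝ)
    (m : ℤ) : Psi S g (b, x + m) = Psi S g (b, x) + ((m : ℝ) * P, (m : ℝ) * P) := by
  have h1 := map_add_int_of_per (hF.perS b hb) m x
  have h2 := map_add_int_of_per (c := 1) (hF.perg b hb) m x
  have h3 := map_add_int_of_per (hF.perS b hb) m (g b x)
  simp only [Psi]
  rw [h1, h2, mul_one, h3]
  rfl

theorem FolData.psi_cont (hF : FolData P q1 q2 S g) :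
    ContinuousOn (Psi S g) (Ioo 0 1 ×ˢ univ) := by
  refine hF.contS.prodMk ?_
  have : ContinuousOn (fun z : ℝ × ℝ => (z.1, g z.1 z.2)) (Ioo (0:ℝ) 1 ×ˢ univ) :=
    continuousOn_fst.prodMk hF.contg
  exact hF.contS.comp this (fun z hz => ⟨hz.1, mem_univ _⟩)

theorem FolData.T_psi (hT : TwistData P q1 q2 h) (hF : FolData P q1 q2 S g)
    {T : ℝ × ℝ → ℝ × ℝ} (hN : IsNext P q1 q2 T) {b : ℝ} (hb : b ∈ Ioo (0:ℝ) 1) (x : ℝ) :
    T (Psi S g (b, x)) = Psi S g (b, g b x) := by
  have hm := hF.psi_mem hb x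
  have h1 := hN.fst _ hm
  have h2 := hN.mem _ hm
  have h3 := hN.refl _ hm
  have h4 := hF.refl b hb x
  simp only [Psi] at h1 h2 h3 ⊢
  rw [h4] at h3
  have h5 : S b (g b (g b x)) = (T (S b x, S b (g b x))).2 := by
    apply (hT.strictAntiOn_q1 (S b (g b x))).injOn _ _ h3
    · exact ⟨hF.lo b hb _, hF.hi b hb _⟩
    · have := h2
      rw [Pairs, mem_ofPred_eq, h1] at this
      exact this
  exact Prod.ext h1 h5.symm

theorem FolData.T_iter_psi (hT : TwistData P q1 q2 h) (hF : FolData P q1 q2 S g)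
    {T : ℝ × ℝ → ℝ × ℝ} (hN : IsNext P q1 q2 T) {b : ℝ} (hb : b ∈ Ioo (0:ℝ) 1) (k : ℕ) :
    ∀ x, T^[k] (Psi S g (b, x)) = Psi S g (b, (g b)^[k] x) := by
  induction k with
  | zero => intro x; rfl
  | succ k ih =>
    intro x
    rw [Function.iterate_succ_apply, Function.iterate_succ_apply, hF.T_psi hT hN hb, ih]

theorem FolData.cont_iter (hF : FolData P q1 q2 S g) (k : ℕ) (x : ℝ) :
    ContinuousOn (fun b => (g b)^[k] x) (Ioo 0 1) := by
  induction k with
  | zero => exact continuousOn_const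
  | succ k ih =>
    have h1 : ContinuousOn (fun b => (b, (g b)^[k] x)) (Ioo (0:ℝ) 1) := continuousOn_id.prodMk ih
    have h2 := hF.contg.comp h1 (fun b hb => ⟨hb, mem_univ _⟩)
    refine h2.congr ?_
    intro b _
    simp only [Function.iterate_succ_apply']
    rfl

theorem Wand.inj {g : ℝ → ℝ} {a c : ℝ} (hW : Wand g a c) {x y : ℝ} (hx : x ∈ Ioo a c)
    (hy : y ∈ Ioo a c) (m : ℤ) (hm : x + m = y) : m = 0 := by
  -- an interval containing `[t, t + 1)` is not wandering
  have key : ∀ t, t ∈ Ioo a c → t + 1 ∈ Ioo a c → False := by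
    intro t ht ht1
    refine hW.2 1 le_rfl (-⌊g t - t⌋) t ht (t + Int.fract (g t - t)) ⟨?_, ?_⟩ ?_
    · linarith [ht.1, Int.fract_nonneg (g t - t)]
    · linarith [ht1.2, Int.fract_lt_one (g t - t)]
    · rw [Function.iterate_one, Int.fract]
      push_cast; ring
  rcases lt_trichotomy m 0 with hm0 | hm0 | hm0
  · exfalso
    have : (m : ℝ) ≤ -1 := by exact_mod_cast (by omega : m ≤ -1)
    exact key y hy ⟨by linarith [hy.1], by linarith [hx.2]⟩
  · exact hm0
  · exfalso
    have : (1 : ℝ) ≤ m := by exact_mod_cast (by omega : 1 ≤ m)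
    exact key x hx ⟨by linarith [hx.1], by linarith [hy.2]⟩

/-- a fixed interval cannot be wandering for an open set of leaves. -/
theorem exists_not_wand_of_area (hT : TwistData P q1 q2 h) (hF : FolData P q1 q2 S g)
    {T : ℝ × ℝ → ℝ × ℝ} (hN : IsNext P q1 q2 T) (hA : AreaL P T) {u v a c : ℝ} (hu : 0 ≤ u)
    (huv : u < v) (hv : v ≤ 1) : ∃ b ∈ Ioo u v, ¬ Wand (g b) a c := by
  by_contra hcon
  push Not at hcon
  obtain ⟨u', hu'⟩ := exists_between huv
  obtain ⟨v', hv'⟩ := exists_between hu'.2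
  have hsub : Icc u' v' ⊆ Ioo (0:ℝ) 1 := fun b hb =>
    ⟨by linarith [hb.1, hu'.1], by linarith [hb.2, hv'.2]⟩
  have hsub2 : Icc u' v' ⊆ Ioo u v := fun b hb =>
    ⟨by linarith [hb.1, hu'.1], by linarith [hb.2, hv'.2]⟩
  have hIo : Ioo u' v' ⊆ Icc u' v' := Ioo_subset_Icc_self
  have hac : a < c := (hcon u' ⟨hu'.1, hu'.2⟩).1
  have hin : ∀ z ∈ Ioo u' v' ×ˢ Ioo a c, z.1 ∈ Ioo (0:ℝ) 1 := fun z hz => hsub (hIo hz.1)
  refine hA (Psi S g '' (Icc u' v' ×ˢ Icc 0 1)) (Psi S g '' (Ioo u' v' ×ˢ Ioo a c)) ?_ ?_ ?_ ?_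
    ?_ ?_ ?_ ?_
  · apply (isCompact_Icc.prod isCompact_Icc).image_of_continuousOn
    exact hF.psi_cont.mono (fun z hz => ⟨hsub hz.1, mem_univ _⟩)
  · rintro _ ⟨z, hz, rfl⟩
    exact hF.psi_mem (hsub hz.1) z.2
  · exact hF.isOpen _ (isOpen_Ioo.prod isOpen_Ioo) (fun z hz => ⟨hin z hz, mem_univ _⟩)
  · exact ((nonempty_Ioo.2 hv'.1).prod (nonempty_Ioo.2 hac)).image _
  · rintro _ ⟨z, hz, rfl⟩
    exact hF.psi_mem (hin z hz) z.2
  · rintro k _ ⟨⟨b, t⟩, hz, rfl⟩
    have hb : b ∈ Ioo (0:ℝ) 1 := hin _ hz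
    refine ⟨-⌊(g b)^[k] t⌋, ?_⟩
    rw [hF.T_iter_psi hT hN hb, ← hF.psi_add hb]
    refine ⟨(b, (g b)^[k] t + ((-⌊(g b)^[k] t⌋ : ℤ) : ℝ)), ⟨hIo hz.1, ?_⟩, rfl⟩
    push_cast
    have h1 := Int.fract_nonneg ((g b)^[k] t)
    have h2 := Int.fract_lt_one ((g b)^[k] t)
    rw [Int.fract] at h1 h2
    exact ⟨by linarith, by linarith⟩
  · rintro k hk _ ⟨⟨b, t⟩, hz, rfl⟩ _ ⟨⟨b', t'⟩, hz', rfl⟩ m heq
    have hb : b ∈ Ioo (0:ℝ) 1 := hin _ hz
    have hb' : b' ∈ Ioo (0:ℝ) 1 := hin _ hz'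
    rw [hF.T_iter_psi hT hN hb, ← hF.psi_add hb] at heq
    simp only [Psi, Prod.mk.injEq] at heq
    obtain ⟨h1, h2⟩ := hF.inj b hb b' hb' _ _ heq.1 heq.2
    exact (hcon b (hsub2 (hIo hz.1))).2 k hk m t hz.2 t' hz'.2 h2
  · rintro _ ⟨⟨b, t⟩, hz, rfl⟩ _ ⟨⟨b', t'⟩, hz', rfl⟩ m heq
    have hb : b ∈ Ioo (0:ℝ) 1 := hin _ hz
    have hb' : b' ∈ Ioo (0:ℝ) 1 := hin _ hz'
    have heq' := heq
    rw [← hF.psi_add hb] at heq
    simp only [Psi, Prod.mk.injEq] at heq
    obtain ⟨h1, h2⟩ := hF.inj b hb b' hb' _ _ heq.1 heq.2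
    have hm := (hcon b (hsub2 (hIo hz.1))).inj hz.2 hz'.2 m h2
    subst hm
    rw [← heq']
    ext <;> simp

theorem isOpen_not_wand (hF : FolData P q1 q2 S g) {a c : ℝ} (hac : a < c) :
    IsOpen {b | b ∈ Ioo (0:ℝ) 1 ∧ ¬ Wand (g b) a c} := by
  rw [isOpen_iff_mem_nhds]
  rintro b0 ⟨hb0, hw⟩
  unfold Wand at hw
  push Not at hw
  obtain ⟨k, hk, m, x, hx, y, hy, hxy⟩ := hw hac
  have hc : ContinuousOn (fun b => (g b)^[k] x + (m : ℝ)) (Ioo 0 1) :=
    (hF.cont_iter k x).add continuousOn_const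
  have hca : ContinuousAt (fun b => (g b)^[k] x + (m : ℝ)) b0 :=
    hc.continuousAt (Ioo_mem_nhds hb0.1 hb0.2)
  have h1 : ∀ᶠ b in 𝓝 b0, (g b)^[k] x + (m : ℝ) ∈ Ioo a c :=
    hca.eventually_mem (by rw [hxy]; exact Ioo_mem_nhds hy.1 hy.2)
  filter_upwards [h1, Ioo_mem_nhds hb0.1 hb0.2] with b hb1 hb2
  exact ⟨hb2, fun hW => hW.2 k hk m x hx _ hb1 rfl⟩

/-- **Good leaves are dense** (with the area lemma as hypothesis). -/
theorem exists_good_leaf_of_area (hT : TwistData P q1 q2 h) (hF : FolData P q1 q2 S g)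
    {T : ℝ × ℝ → ℝ × ℝ} (hN : IsNext P q1 q2 T) (hA : AreaL P T) {u v : ℝ} (hu : 0 ≤ u)
    (huv : u < v) (hv : v ≤ 1) : ∃ b ∈ Ioo u v, ∀ a c, ¬ Wand (g b) a c := by
  -- the countable family
  let ι := {r : ℚ × ℚ // r.1 < r.2}
  let U : ι → Set ℝ := fun r =>
    {b | b ∈ Ioo (0:ℝ) 1 ∧ ¬ Wand (g b) (r.1.1 : ℝ) (r.1.2 : ℝ)} ∪ (Icc (0:ℝ) 1)ᶜ
  have hUo : ∀ r, IsOpen (U r) := by
    intro r
    exact (isOpen_not_wand hF (by exact_mod_cast r.2)).union isClosed_Icc.isOpen_compl
  have hUd : ∀ r, Dense (U r) := by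
    intro r
    apply dense_of_exists_between
    intro x y hxy
    by_cases hx0 : x < 0
    · obtain ⟨z, hz1, hz2⟩ := exists_between (lt_min hx0 hxy)
      refine ⟨z, Or.inr ?_, hz1, hz2.trans_le (min_le_right _ _)⟩
      intro hz
      exact absurd hz.1 (not_le.2 (hz2.trans_le (min_le_left _ _)))
    · by_cases hy1 : 1 < y
      · obtain ⟨z, hz1, hz2⟩ := exists_between (max_lt hy1 hxy)
        refine ⟨z, Or.inr ?_, (le_max_right _ _).trans_lt hz1, hz2⟩
        intro hz
        exact absurd hz.2 (not_le.2 ((le_max_left _ _).trans_lt hz1))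
      · push Not at hx0 hy1
        obtain ⟨b, hb, hW⟩ := exists_not_wand_of_area (a := (r.1.1 : ℝ)) (c := (r.1.2 : ℝ))
          hT hF hN hA hx0 hxy hy1
        exact ⟨b, Or.inl ⟨⟨hx0.trans_lt hb.1, hb.2.trans_le hy1⟩, hW⟩, hb.1, hb.2⟩
  have hD : Dense (⋂ r, U r) := dense_iInter_of_isOpen hUo hUd
  obtain ⟨b, hb, hb1, hb2⟩ := hD.exists_between huv
  refine ⟨b, ⟨hb1, hb2⟩, ?_⟩
  intro a c hW
  obtain ⟨a', ha1, ha2⟩ := exists_rat_btwn hW.1
  obtain ⟨c', hc1, hc2⟩ := exists_rat_btwn ha2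
  have hr : a' < c' := by exact_mod_cast hc1
  have := mem_iInter.1 hb ⟨(a', c'), hr⟩
  rcases this with ⟨_, hn⟩ | hn
  · apply hn
    refine ⟨hc1, ?_⟩
    intro k hk m x hx y hy
    exact hW.2 k hk m x ⟨ha1.trans hx.1, hx.2.trans hc2⟩ y ⟨ha1.trans hy.1, hy.2.trans hc2⟩
  · exact hn ⟨by linarith, by linarith⟩

end Crest.Agent.R102.S0
end

-- ▼ part R102/AreaB_160
section

/-!
Row 102: the area lemma (W): the next-point map of twist data preserves the area `h ds ds'`,
hence has no wandering open set with bounded orbit.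
-/

set_option autoImplicit false

namespace Crest.Agent.R102.S0

open Set Function Filter Topology MeasureTheory
open scoped ENNReal

variable {P : ℝ} {q1 q2 h : ℝ → ℝ → ℝ} {T : ℝ × ℝ → ℝ × ℝ}

theorem isOpen_pairs_160 (P : ℝ) : IsOpen (Pairs P) :=
  (isOpen_lt continuous_fst continuous_snd).inter
    (isOpen_lt continuous_snd (continuous_fst.add continuous_const))

/-- the density of the area -/
noncomputable def dens (P : ℝ) (h : ℝ → ℝ → ℝ) : ℝ × ℝ → ℝ≥0∞ :=
  (Pairs P).indicator (fun z => ENNReal.ofReal (h z.1 z.2))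

theorem dens_of_mem {z : ℝ × ℝ} (hz : z ∈ Pairs P) : dens P h z = ENNReal.ofReal (h z.1 z.2) :=
  indicator_of_mem hz _

/-- the area -/
noncomputable def areaM (P : ℝ) (h : ℝ → ℝ → ℝ) : Measure (ℝ × ℝ) :=
  volume.withDensity (dens P h)

theorem TwistData.measurable_dens (hT : TwistData P q1 q2 h) : Measurable (dens P h) := by
  classical
  unfold dens
  rw [← piecewise_eq_indicator]
  refine ContinuousOn.measurable_piecewise ?_ continuousOn_const (isOpen_pairs_160 P).measurableSet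
  exact ENNReal.continuous_ofReal.comp_continuousOn hT.conth

theorem areaM_apply {A : Set (ℝ × ℝ)} (hA : MeasurableSet A) :
    areaM P h A = ∫⁻ z, A.indicator (dens P h) z := by
  rw [areaM, withDensity_apply _ hA, ← lintegral_indicator hA]

theorem IsNext.injOn (hT : TwistData P q1 q2 h) (hN : IsNext P q1 q2 T) : InjOn T (Pairs P) := by
  intro z hz w hw hzw
  have h1 : z.2 = w.2 := by rw [← hN.fst z hz, ← hN.fst w hw, hzw]
  have h2 := hN.refl z hz
  have h3 := hN.refl w hw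
  rw [hzw, h1, ← h3] at h2
  have h4 : z.1 = w.1 := by
    apply (hT.strictMonoOn_q2 w.2).injOn _ _ h2
    · have := hz.2; rw [h1] at this
      have h5 := hz.1; rw [h1] at h5
      exact ⟨by linarith, h5⟩
    · exact ⟨by linarith [hw.2], hw.1⟩
  exact Prod.ext h4 h1

theorem IsNext.snd_mem (hN : IsNext P q1 q2 T) {z : ℝ × ℝ} (hz : z ∈ Pairs P) :
    (T z).2 ∈ Ioo z.2 (z.2 + P) := by
  have h1 := hN.mem z hz
  have h2 := hN.fst z hz
  have h3 := h1.1
  have h4 := h1.2
  rw [h2] at h3 h4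
  exact ⟨h3, h4⟩

theorem IsNext.continuousOn (hT : TwistData P q1 q2 h) (hN : IsNext P q1 q2 T) :
    ContinuousOn T (Pairs P) := by
  intro z0 hz0
  apply ContinuousAt.continuousWithinAt
  have hP : Pairs P ∈ 𝓝 z0 := (isOpen_pairs_160 P).mem_nhds hz0
  have hc : ContinuousAt (fun z => (z.2, (T z).2)) z0 := by
    refine continuousAt_snd.prodMk ?_
    have hn0 := hN.snd_mem hz0
    have hq2 : ContinuousAt (fun z : ℝ × ℝ => q2 z.1 z.2) z0 := hT.cont2.continuousAt hP
    -- continuity of `z ↦ q1 z.2 a`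
    have hq1 : ∀ a, z0.2 < a → a < z0.2 + P → ContinuousAt (fun z : ℝ × ℝ => q1 z.2 a) z0 := by
      intro a ha1 ha2
      have h1 : ContinuousAt (fun z : ℝ × ℝ => q1 z.1 z.2) (z0.2, a) :=
        hT.cont1.continuousAt ((isOpen_pairs_160 P).mem_nhds ⟨ha1, ha2⟩)
      have h2 : ContinuousAt (fun z : ℝ × ℝ => (z.2, a)) z0 :=
        continuousAt_snd.prodMk continuousAt_const
      exact ContinuousAt.comp (f := fun z : ℝ × ℝ => (z.2, a)) (x := z0)
        (g := fun z : ℝ × ℝ => q1 z.1 z.2) h1 h2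
    have hr0 := hN.refl z0 hz0
    rw [ContinuousAt, tendsto_order]
    constructor
    · intro a ha
      obtain ⟨a', ha1, ha2⟩ := exists_between (max_lt ha hn0.1)
      have haa : a < a' := (le_max_left _ _).trans_lt ha1
      have hza : z0.2 < a' := (le_max_right _ _).trans_lt ha1
      have hza2 : a' < z0.2 + P := ha2.trans hn0.2
      have h1 : q2 z0.1 z0.2 < q1 z0.2 a' := by
        rw [hr0]
        exact hT.strictAntiOn_q1 z0.2 ⟨hza, hza2⟩ hn0 ha2
      filter_upwards [hP, hq2.eventually_lt (hq1 a' hza hza2) h1,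
        continuousAt_snd.eventually_lt continuousAt_const hza,
        (continuousAt_const (y := a')).eventually_lt
          ((continuousAt_snd (p := z0)).add continuousAt_const) hza2] with z hz hz1 hz2 hz3
      rw [hN.refl z hz] at hz1
      by_contra hcon
      push Not at hcon
      have := (hT.strictAntiOn_q1 z.2).antitoneOn (hN.snd_mem hz) ⟨hz2, hz3⟩ (hcon.trans haa.le)
      linarith
    · intro a ha
      obtain ⟨a', ha1, ha2⟩ := exists_between (lt_min ha hn0.2)
      have haa : a' < a := ha2.trans_le (min_le_left _ _)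
      have hza : z0.2 < a' := hn0.1.trans ha1
      have hza2 : a' < z0.2 + P := ha2.trans_le (min_le_right _ _)
      have h1 : q1 z0.2 a' < q2 z0.1 z0.2 := by
        rw [hr0]
        exact hT.strictAntiOn_q1 z0.2 hn0 ⟨hza, hza2⟩ ha1
      filter_upwards [hP, (hq1 a' hza hza2).eventually_lt hq2 h1,
        continuousAt_snd.eventually_lt continuousAt_const hza,
        (continuousAt_const (y := a')).eventually_lt
          ((continuousAt_snd (p := z0)).add continuousAt_const) hza2] with z hz hz1 hz2 hz3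
      rw [hN.refl z hz] at hz1
      by_contra hcon
      push Not at hcon
      have := (hT.strictAntiOn_q1 z.2).antitoneOn ⟨hz2, hz3⟩ (hN.snd_mem hz) (haa.le.trans hcon)
      linarith
  refine hc.congr ?_
  filter_upwards [hP] with z hz
  exact Prod.ext (hN.fst z hz).symm rfl

theorem IsNext.measurableSet_image (hT : TwistData P q1 q2 h) (hN : IsNext P q1 q2 T)
    {A : Set (ℝ × ℝ)} (hA : MeasurableSet A) (hAP : A ⊆ Pairs P) : MeasurableSet (T '' A) :=
  hA.image_of_continuousOn_injOn ((hN.continuousOn hT).mono hAP) ((hN.injOn hT).mono hAP)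

/-- **Area preservation**. -/
theorem IsNext.areaM_image (hT : TwistData P q1 q2 h) (hN : IsNext P q1 q2 T)
    {A : Set (ℝ × ℝ)} (hA : MeasurableSet A) (hAP : A ⊆ Pairs P) :
    areaM P h (T '' A) = areaM P h A := by
  have hTA := hN.measurableSet_image hT hA hAP
  have hTAP : T '' A ⊆ Pairs P := by
    rintro _ ⟨z, hz, rfl⟩; exact hN.mem z (hAP hz)
  rw [areaM_apply hA, areaM_apply hTA, Measure.volume_eq_prod,
    lintegral_prod_symm _ ((hT.measurable_dens.indicator hA).aemeasurable),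
    lintegral_prod _ ((hT.measurable_dens.indicator hTA).aemeasurable)]
  congr 1
  ext s'
  have hm1 : MeasurableSet {x | (x, s') ∈ A} := measurable_prodMk_right hA
  have hm2 : MeasurableSet {y | (s', y) ∈ T '' A} := measurable_prodMk_left hTA
  have e1 : ∫⁻ x, A.indicator (dens P h) (x, s') =
      volume ((fun x => q2 x s') '' {x | (x, s') ∈ A}) := by
    have h1 := lintegral_image_eq_lintegral_abs_deriv_mul (s := {x | (x, s') ∈ A})
      (f := fun x => q2 x s') (f' := fun x => h x s') hm1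
      (fun x hx => (hT.der2 x s' (hAP hx).1 (hAP hx).2).hasDerivWithinAt)
      (by
        intro x hx y hy hxy
        exact (hT.strictMonoOn_q2 s').injOn ⟨by linarith [(hAP hx).2], (hAP hx).1⟩
          ⟨by linarith [(hAP hy).2], (hAP hy).1⟩ hxy) (fun _ => 1)
    rw [lintegral_one, Measure.restrict_apply_univ] at h1
    rw [h1, ← lintegral_indicator hm1]
    congr 1
    ext x
    by_cases hx : (x, s') ∈ A
    · rw [indicator_of_mem hx, indicator_of_mem (by exact hx), dens_of_mem (hAP hx), mul_one,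
        abs_of_pos (hT.hpos x s' (hAP hx).1 (hAP hx).2)]
    · rw [indicator_of_notMem hx, indicator_of_notMem (by exact hx)]
  have e2 : ∫⁻ y, (T '' A).indicator (dens P h) (s', y) =
      volume (q1 s' '' {y | (s', y) ∈ T '' A}) := by
    have h1 := lintegral_image_eq_lintegral_abs_deriv_mul (s := {y | (s', y) ∈ T '' A})
      (f := fun y => q1 s' y) (f' := fun y => -h s' y) hm2
      (fun y hy => (hT.der1 s' y (hTAP hy).1 (hTAP hy).2).hasDerivWithinAt)
      (by
        intro x hx y hy hxy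
        exact (hT.strictAntiOn_q1 s').injOn ⟨(hTAP hx).1, (hTAP hx).2⟩
          ⟨(hTAP hy).1, (hTAP hy).2⟩ hxy) (fun _ => 1)
    rw [lintegral_one, Measure.restrict_apply_univ] at h1
    rw [h1, ← lintegral_indicator hm2]
    congr 1
    ext y
    by_cases hy : (s', y) ∈ T '' A
    · rw [indicator_of_mem hy, indicator_of_mem (by exact hy), dens_of_mem (hTAP hy), mul_one,
        abs_neg, abs_of_pos (hT.hpos s' y (hTAP hy).1 (hTAP hy).2)]
    · rw [indicator_of_notMem hy, indicator_of_notMem (by exact hy)]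
  rw [e1, e2]
  congr 1
  ext t
  constructor
  · rintro ⟨y, ⟨z, hz, hzy⟩, rfl⟩
    have h1 := hN.fst z (hAP hz)
    rw [hzy] at h1
    have h2 := hN.refl z (hAP hz)
    rw [hzy] at h2
    simp only at h1 h2
    refine ⟨z.1, ?_, ?_⟩
    · show (z.1, s') ∈ A
      rw [h1]; exact hz
    · show q2 z.1 s' = q1 s' y
      rw [h1]; exact h2
  · rintro ⟨x, hx, rfl⟩
    have h1 := hN.fst _ (hAP hx)
    have h2 := hN.refl _ (hAP hx)
    refine ⟨(T (x, s')).2, ⟨(x, s'), hx, Prod.ext h1 rfl⟩, h2.symm⟩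

/-! ### the shift -/

/-- shift by `m P` -/
def shf (P : ℝ) (m : ℤ) (z : ℝ × ℝ) : ℝ × ℝ := z + ((m : ℝ) * P, (m : ℝ) * P)

theorem shf_mem {m : ℤ} {z : ℝ × ℝ} : shf P m z ∈ Pairs P ↔ z ∈ Pairs P := by
  simp only [shf, Pairs, mem_ofPred_eq, Prod.fst_add, Prod.snd_add]
  constructor
  · rintro ⟨h1, h2⟩; exact ⟨by linarith, by linarith⟩
  · rintro ⟨h1, h2⟩; exact ⟨by linarith, by linarith⟩

theorem shf_shf (m n : ℤ) (z : ℝ × ℝ) : shf P m (shf P n z) = shf P (n + m) z := by
  simp only [shf]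
  push_cast
  ext <;> simp <;> ring

theorem shf_zero (z : ℝ × ℝ) : shf P 0 z = z := by
  simp only [shf]
  ext <;> simp

theorem per_int {f : ℝ → ℝ → ℝ} (hf : ∀ s s', f (s + P) (s' + P) = f s s') (m : ℤ) (s s' : ℝ) :
    f (s + m * P) (s' + m * P) = f s s' := by
  induction m using Int.induction_on with
  | zero => simp
  | succ i ih =>
    have := hf (s + i * P) (s' + i * P)
    push_cast at ih ⊢
    rw [← ih, ← this]
    congr 1 <;> ring
  | pred i ih =>
    have := hf (s + (-(i:ℝ) - 1) * P) (s' + (-(i:ℝ) - 1) * P)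
    push_cast at ih ⊢
    rw [← ih, ← this]
    congr 1 <;> ring

theorem dens_shf (hT : TwistData P q1 q2 h) (m : ℤ) (z : ℝ × ℝ) :
    dens P h (shf P m z) = dens P h z := by
  by_cases hz : z ∈ Pairs P
  · rw [dens_of_mem hz, dens_of_mem (shf_mem.2 hz)]
    simp only [shf, Prod.fst_add, Prod.snd_add]
    rw [per_int hT.perh]
  · rw [dens, indicator_of_notMem hz, indicator_of_notMem (fun h => hz (shf_mem.1 h))]

theorem measurable_shf (m : ℤ) : Measurable (shf P m) := by
  unfold shf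
  exact (continuous_id.add continuous_const).measurable

theorem areaM_shf (hT : TwistData P q1 q2 h) (m : ℤ) {A : Set (ℝ × ℝ)} (hA : MeasurableSet A) :
    areaM P h (shf P m ⁻¹' A) = areaM P h A := by
  rw [areaM_apply hA, areaM_apply (measurable_shf m hA)]
  have h1 : ∀ z, (shf P m ⁻¹' A).indicator (dens P h) z = A.indicator (dens P h) (shf P m z) := by
    intro z
    by_cases hz : shf P m z ∈ A
    · rw [indicator_of_mem (by exact hz), indicator_of_mem hz, dens_shf hT]
    · rw [indicator_of_notMem (by exact hz), indicator_of_notMem hz]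
  simp_rw [h1]
  exact lintegral_add_right_eq_self (A.indicator (dens P h)) ((m : ℝ) * P, (m : ℝ) * P)

theorem IsNext.shf_comm (hT : TwistData P q1 q2 h) (hN : IsNext P q1 q2 T) (m : ℤ) {z : ℝ × ℝ}
    (hz : z ∈ Pairs P) : T (shf P m z) = shf P m (T z) := by
  have hz' : shf P m z ∈ Pairs P := shf_mem.2 hz
  have h1 := hN.fst _ hz'
  have h2 := hN.refl _ hz'
  have h3 := hN.fst _ hz
  have h4 := hN.refl _ hz
  have h5 := hN.snd_mem hz'
  have h6 := hN.snd_mem hz
  apply Prod.ext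
  · rw [h1]
    simp only [shf, Prod.fst_add, Prod.snd_add, h3]
  · apply (hT.strictAntiOn_q1 (shf P m z).2).injOn h5
    · simp only [shf, Prod.snd_add, mem_Ioo]
      exact ⟨by linarith [h6.1], by linarith [h6.2]⟩
    · rw [← h2]
      simp only [shf, Prod.fst_add, Prod.snd_add]
      rw [per_int hT.per2, per_int hT.per1]
      exact h4

theorem IsNext.iter_mem (hN : IsNext P q1 q2 T) (k : ℕ) {z : ℝ × ℝ} (hz : z ∈ Pairs P) :
    T^[k] z ∈ Pairs P := by
  induction k with
  | zero => exact hz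
  | succ k ih => rw [Function.iterate_succ_apply']; exact hN.mem _ ih

theorem IsNext.iter_shf_comm (hT : TwistData P q1 q2 h) (hN : IsNext P q1 q2 T) (m : ℤ) (k : ℕ)
    {z : ℝ × ℝ} (hz : z ∈ Pairs P) : T^[k] (shf P m z) = shf P m (T^[k] z) := by
  induction k with
  | zero => rfl
  | succ k ih =>
    rw [Function.iterate_succ_apply', Function.iterate_succ_apply', ih,
      hN.shf_comm hT m (hN.iter_mem k hz)]

theorem IsNext.iter_injOn (hT : TwistData P q1 q2 h) (hN : IsNext P q1 q2 T) (k : ℕ) :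
    InjOn T^[k] (Pairs P) := by
  induction k with
  | zero => exact injOn_id _
  | succ k ih =>
    intro z hz w hw hzw
    rw [Function.iterate_succ_apply', Function.iterate_succ_apply'] at hzw
    exact ih hz hw (hN.injOn hT (hN.iter_mem k hz) (hN.iter_mem k hw) hzw)

theorem IsNext.iter_image (hT : TwistData P q1 q2 h) (hN : IsNext P q1 q2 T) {A : Set (ℝ × ℝ)}
    (hA : MeasurableSet A) (hAP : A ⊆ Pairs P) (k : ℕ) :
    MeasurableSet (T^[k] '' A) ∧ T^[k] '' A ⊆ Pairs P ∧ areaM P h (T^[k] '' A) = areaM P h A := by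
  induction k with
  | zero => simpa using ⟨hA, hAP⟩
  | succ k ih =>
    have h1 : T^[k + 1] '' A = T '' (T^[k] '' A) := by
      rw [image_image]
      congr 1
      ext z <;> rw [Function.iterate_succ_apply']
    rw [h1]
    refine ⟨hN.measurableSet_image hT ih.1 ih.2.1, ?_, ?_⟩
    · rintro _ ⟨z, hz, rfl⟩; exact hN.mem z (ih.2.1 hz)
    · rw [hN.areaM_image hT ih.1 ih.2.1, ih.2.2]

theorem areaM_pos (hT : TwistData P q1 q2 h) {W : Set (ℝ × ℝ)} (hWo : IsOpen W)
    (hWn : W.Nonempty) (hWP : W ⊆ Pairs P) : areaM P h W ≠ 0 := by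
  intro h0
  rw [areaM, withDensity_apply _ hWo.measurableSet,
    lintegral_eq_zero_iff hT.measurable_dens] at h0
  have h1 : ∀ᵐ z ∂(volume.restrict W), z ∈ W := ae_restrict_mem hWo.measurableSet
  have h2 : ∀ᵐ z ∂(volume.restrict W), False := by
    filter_upwards [h0, h1] with z hz hzW
    rw [dens_of_mem (hWP hzW)] at hz
    have := hT.hpos z.1 z.2 (hWP hzW).1 (hWP hzW).2
    simp only [Pi.zero_apply, ENNReal.ofReal_eq_zero] at hz
    linarith
  have h3 : volume.restrict W = 0 := by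
    rw [← Measure.measure_univ_eq_zero]
    rw [ae_iff] at h2
    simpa using h2
  rw [Measure.restrict_eq_zero] at h3
  exact (hWo.measure_pos volume hWn).ne' h3

theorem areaM_lt_top (hT : TwistData P q1 q2 h) {C : Set (ℝ × ℝ)} (hC : IsCompact C)
    (hCP : C ⊆ Pairs P) : areaM P h C ≠ ⊤ := by
  obtain ⟨M, hM⟩ := hC.bddAbove_image (hT.conth.mono hCP)
  rw [areaM, withDensity_apply _ hC.measurableSet]
  have h1 : ∫⁻ z in C, dens P h z ≤ ∫⁻ z in C, ENNReal.ofReal M := by
    apply setLIntegral_mono measurable_const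
    intro z hz
    rw [dens_of_mem (hCP hz)]
    exact ENNReal.ofReal_le_ofReal (hM ⟨z, hz, rfl⟩)
  refine (lt_of_le_of_lt h1 ?_).ne
  rw [setLIntegral_const]
  exact ENNReal.mul_lt_top ENNReal.ofReal_lt_top hC.measure_lt_top

/-- **The area lemma (W).** -/
theorem areaL_of_isNext (hT : TwistData P q1 q2 h) (hN : IsNext P q1 q2 T) : AreaL P T := by
  intro C W hC hCP hWo hWn hWP hin hdis hdis0
  have hIm := fun k => hN.iter_image hT hWo.measurableSet hWP k
  -- pieces
  let E : ℕ → ℤ → Set (ℝ × ℝ) := fun k m => C ∩ shf P m ⁻¹' (T^[k] '' W)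
  have hEm : ∀ k m, MeasurableSet (E k m) := fun k m =>
    hC.measurableSet.inter (measurable_shf m (hIm k).1)
  let D : ℕ → Set (ℝ × ℝ) := fun k => ⋃ m, E k m
  have hDm : ∀ k, MeasurableSet (D k) := fun k => MeasurableSet.iUnion (hEm k)
  have hDC : ∀ k, D k ⊆ C := fun k => iUnion_subset fun m => inter_subset_left
  -- disjointness in `m`
  have hEd : ∀ k, Pairwise (Disjoint on (E k)) := by
    intro k m m' hmm
    show Disjoint (E k m) (E k m')
    rw [Set.disjoint_left]
    rintro z ⟨_, w, hw, hwz⟩ ⟨_, w', hw', hwz'⟩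
    have h1 : T^[k] (shf P (m' - m) w) = T^[k] w' := by
      rw [hN.iter_shf_comm hT _ k (hWP hw), hwz, hwz', shf_shf]
      congr 1; ring
    have h2 := hN.iter_injOn hT k (shf_mem.2 (hWP hw)) (hWP hw') h1
    have h3 := hdis0 w hw w' hw' (m' - m) h2
    rw [← h3] at h2
    simp only [shf] at h2
    have h4 := congrArg Prod.fst h2
    simp only [Prod.fst_add] at h4
    have h5 : ((m' - m : ℤ) : ℝ) * P = 0 := by linarith
    rcases mul_eq_zero.1 h5 with h | h
    · exact hmm (by have : m' - m = 0 := by exact_mod_cast h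
                    omega)
    · exact hT.hP.ne' h
  -- disjointness in `k`
  have hDd : Pairwise (Disjoint on D) := by
    have key : ∀ j k, j < k → Disjoint (D j) (D k) := by
      intro j k hjk
      rw [Set.disjoint_left]
      intro z hz hz'
      obtain ⟨m, _, w, hw, hwz⟩ := mem_iUnion.1 hz
      obtain ⟨m', _, w', hw', hwz'⟩ := mem_iUnion.1 hz'
      obtain ⟨l, rfl⟩ := Nat.exists_eq_add_of_lt hjk
      have h1 : T^[j] (T^[l + 1] w') = T^[j] (shf P (m' - m) w) := by
        rw [← Function.iterate_add_apply, hN.iter_shf_comm hT _ j (hWP hw), hwz, shf_shf]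
        have : j + (l + 1) = j + l + 1 := by ring
        rw [this, hwz']
        congr 1; ring
      have h2 := hN.iter_injOn hT j (hN.iter_mem _ (hWP hw')) (shf_mem.2 (hWP hw)) h1
      have h3 : T^[l + 1] w' + (((m - m' : ℤ) : ℝ) * P, ((m - m' : ℤ) : ℝ) * P) = w := by
        have : shf P (m - m') (T^[l + 1] w') = w := by
          rw [h2, shf_shf]
          have : m' - m + (m - m') = 0 := by ring
          rw [this, shf_zero]
        exact this
      exact hdis (l + 1) (by omega) w' hw' w hw (m - m') h3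
    intro j k hjk
    rcases lt_or_gt_of_ne hjk with h | h
    · exact key j k h
    · exact (key k j h).symm
  -- each `D k` has area at least that of `W`
  have hge : ∀ k, areaM P h W ≤ areaM P h (D k) := by
    intro k
    have h1 : areaM P h (D k) = ∑' m, areaM P h (E k m) := measure_iUnion (hEd k) (hEm k)
    have h2 : T^[k] '' W ⊆ ⋃ m : ℤ, T^[k] '' W ∩ shf P (-m) ⁻¹' C := by
      rintro _ ⟨w, hw, rfl⟩
      obtain ⟨m, hm⟩ := hin k w hw
      refine mem_iUnion.2 ⟨-m, ⟨w, hw, rfl⟩, ?_⟩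
      rw [neg_neg]
      exact hm
    calc areaM P h W = areaM P h (T^[k] '' W) := (hIm k).2.2.symm
      _ ≤ areaM P h (⋃ m : ℤ, T^[k] '' W ∩ shf P (-m) ⁻¹' C) := measure_mono h2
      _ ≤ ∑' m : ℤ, areaM P h (T^[k] '' W ∩ shf P (-m) ⁻¹' C) := measure_iUnion_le _
      _ = ∑' m : ℤ, areaM P h (E k m) := by
          congr 1
          ext m
          rw [← areaM_shf hT m ((hIm k).1.inter (measurable_shf _ hC.measurableSet))]
          congr 1
          ext z
          simp only [E, mem_preimage, mem_inter_iff, shf_shf, add_neg_cancel, shf_zero]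
          tauto
      _ = areaM P h (D k) := h1.symm
  have h1 : ∑' k, areaM P h (D k) = areaM P h (⋃ k, D k) := (measure_iUnion hDd hDm).symm
  have h2 : areaM P h (⋃ k, D k) ≤ areaM P h C := measure_mono (iUnion_subset hDC)
  have h3 : ∑' _ : ℕ, areaM P h W ≤ ∑' k, areaM P h (D k) := ENNReal.tsum_le_tsum hge
  rw [ENNReal.tsum_const_eq_top_of_ne_zero (areaM_pos hT hWo hWn hWP), h1, top_le_iff] at h3
  rw [h3, top_le_iff] at h2
  exact areaM_lt_top hT hC hCP h2

/-! ### the next-point map -/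

open Classical in
/-- the next-point map of twist data -/
noncomputable def nextT (P : ℝ) (q1 q2 : ℝ → ℝ → ℝ) (z : ℝ × ℝ) : ℝ × ℝ :=
  (z.2, if hz : ∃ s'', z.2 < s'' ∧ s'' < z.2 + P ∧ q2 z.1 z.2 = q1 z.2 s'' then hz.choose else 0)

theorem isNext_nextT (hT : TwistData P q1 q2 h) : IsNext P q1 q2 (nextT P q1 q2) := by
  have key : ∀ z ∈ Pairs P, z.2 < (nextT P q1 q2 z).2 ∧ (nextT P q1 q2 z).2 < z.2 + P ∧
      q2 z.1 z.2 = q1 z.2 (nextT P q1 q2 z).2 := by
    intro z hz
    have h1 : ∃ s'', z.2 < s'' ∧ s'' < z.2 + P ∧ q2 z.1 z.2 = q1 z.2 s'' :=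
      hT.next z.1 z.2 hz.1 hz.2
    have h2 : (nextT P q1 q2 z).2 = h1.choose := by
      simp only [nextT]
      rw [dif_pos h1]
    rw [h2]
    exact h1.choose_spec
  exact ⟨fun z _ => rfl, fun z hz => ⟨(key z hz).1, (key z hz).2.1⟩, fun z hz => (key z hz).2.2⟩



end Crest.Agent.R102.S0
end

-- ▼ part R102/Fol2_540
section

/-!
Row 102, link leaf (T3c) of `S0_821_v2`, parts (iii)-(v) (helper540): if the good leaves (conjugate
to a rotation) are dense then all leaves are graphs, and the foliation gives a `LeafFam`.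
-/

set_option autoImplicit false
set_option linter.unusedTactic false
set_option linter.unusedSectionVars false

open Set Filter Topology

namespace Crest.Agent.R102.S0

/-- a circle map conjugate to a rotation -/
def GoodLeaf (gb : ℝ → ℝ) : Prop :=
  ∃ (φ : ℝ → ℝ) (r : ℝ), Continuous φ ∧ StrictMono φ ∧ (∀ x, φ (x + 1) = φ x + 1) ∧
    ∀ x, φ (gb x) = φ x + r

section One

variable {P : ℝ} {q1 q2 h : ℝ → ℝ → ℝ} {σ n nm : ℝ → ℝ}

lemma TwistData.anti1 (hT : TwistData P q1 q2 h) (s : ℝ) : StrictAntiOn (q1 s) (Ioo s (s + P)) := by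
  refine strictAntiOn_of_deriv_neg (convex_Ioo _ _) (fun t ht =>
    (hT.der1 s t ht.1 ht.2).continuousAt.continuousWithinAt) (fun t ht => ?_)
  rw [interior_Ioo] at ht
  rw [(hT.der1 s t ht.1 ht.2).deriv]
  linarith [hT.hpos s t ht.1 ht.2]

lemma TwistData.mono2 (hT : TwistData P q1 q2 h) (s' : ℝ) :
    StrictMonoOn (fun s => q2 s s') (Ioo (s' - P) s') := by
  refine strictMonoOn_of_deriv_pos (convex_Ioo _ _) (fun t ht =>
    (hT.der2 t s' ht.2 (by linarith [ht.1])).continuousAt.continuousWithinAt) (fun t ht => ?_)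
  rw [interior_Ioo] at ht
  rw [(hT.der2 t s' ht.2 (by linarith [ht.1])).deriv]
  exact hT.hpos t s' ht.2 (by linarith [ht.1])

/-- one leaf -/
structure Leaf (P : ℝ) (q1 q2 : ℝ → ℝ → ℝ) (σ n nm : ℝ → ℝ) : Prop where
  cont : Continuous σ
  per : ∀ x, σ (x + 1) = σ x + P
  lo : ∀ x, σ x < σ (n x)
  hi : ∀ x, σ (n x) < σ x + P
  refl : ∀ x, q2 (σ x) (σ (n x)) = q1 (σ (n x)) (σ (n (n x)))
  inj : ∀ x y, σ x = σ y → σ (n x) = σ (n y) → x = y
  right : ∀ x, n (nm x) = x

lemma Leaf.twist (hT : TwistData P q1 q2 h) (hL : Leaf P q1 q2 σ n nm) {x y : ℝ}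
    (hxy : σ x = σ y) (hne : x ≠ y) :
    (σ (nm x) < σ (nm y) ∧ σ (n y) < σ (n x)) ∨ (σ (nm y) < σ (nm x) ∧ σ (n x) < σ (n y)) := by
  have hx1 : σ (nm x) ∈ Ioo (σ x - P) (σ x) := by
    have h1 := hL.lo (nm x)
    have h2 := hL.hi (nm x)
    rw [hL.right] at h1 h2
    exact ⟨by linarith, h1⟩
  have hy1 : σ (nm y) ∈ Ioo (σ x - P) (σ x) := by
    have h1 := hL.lo (nm y)
    have h2 := hL.hi (nm y)
    rw [hL.right] at h1 h2
    rw [hxy]
    exact ⟨by linarith, h1⟩
  have hx2 : σ (n x) ∈ Ioo (σ x) (σ x + P) := ⟨hL.lo x, hL.hi x⟩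
  have hy2 : σ (n y) ∈ Ioo (σ x) (σ x + P) := by rw [hxy]; exact ⟨hL.lo y, hL.hi y⟩
  have rx : q2 (σ (nm x)) (σ x) = q1 (σ x) (σ (n x)) := by
    have := hL.refl (nm x)
    rwa [hL.right] at this
  have ry : q2 (σ (nm y)) (σ x) = q1 (σ x) (σ (n y)) := by
    have := hL.refl (nm y)
    rw [hL.right] at this
    rw [hxy]
    exact this
  rcases lt_trichotomy (σ (n x)) (σ (n y)) with hlt | heq | hgt
  · right
    refine ⟨?_, hlt⟩
    have h1 := hT.anti1 (σ x) hx2 hy2 hlt
    rw [← rx, ← ry] at h1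
    exact ((hT.mono2 (σ x)).lt_iff_lt hy1 hx1).1 h1
  · exact absurd (hL.inj x y hxy heq) hne
  · left
    refine ⟨?_, hgt⟩
    have h1 := hT.anti1 (σ x) hy2 hx2 hgt
    rw [← rx, ← ry] at h1
    exact ((hT.mono2 (σ x)).lt_iff_lt hx1 hy1).1 h1

lemma Leaf.per_int (hL : Leaf P q1 q2 σ n nm) (k : ℤ) (x : ℝ) : σ (x + k) = σ x + k * P := by
  have h1 : Function.Periodic (fun x => σ x - P * x) 1 := by
    intro x
    change σ (x + 1) - P * (x + 1) = σ x - P * x
    rw [hL.per]
    ring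
  have h2 := h1.int_mul k x
  rw [mul_one] at h2
  change σ (x + k) - P * (x + k) = σ x - P * x at h2
  linarith

/-- a monotone leaf is strictly monotone -/
lemma Leaf.strict (hT : TwistData P q1 q2 h) (hL : Leaf P q1 q2 σ n nm) (hn : StrictMono n)
    (hm : Monotone σ) : StrictMono σ := by
  intro x y hxy
  refine lt_of_le_of_ne (hm hxy.le) (fun heq => ?_)
  have hnm : nm x < nm y := by
    rw [← hn.lt_iff_lt, hL.right, hL.right]
    exact hxy
  rcases hL.twist hT heq hxy.ne with h1 | h1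
  · exact absurd (hm (hn hxy).le) (not_le.2 h1.2)
  · exact absurd (hm hnm.le) (not_le.2 h1.1)

/-- translation trick -/
theorem Leaf.strictMono_of_rot (hT : TwistData P q1 q2 h) {r : ℝ}
    (hL : Leaf P q1 q2 σ (fun x => x + r) (fun x => x - r)) : StrictMono σ := by
  have hP := hT.hP
  -- no bad translation
  have key : ∀ a, 0 < a → a ≤ 1 → ∀ y, σ y < σ (y + a) := by
    by_contra hcon
    push Not at hcon
    obtain ⟨a0, ha0, ha1, y0, hy0⟩ := hcon
    set B : Set ℝ := {a | 0 < a ∧ a ≤ 1 ∧ ∃ y, σ (y + a) ≤ σ y} with hB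
    have hBne : B.Nonempty := ⟨a0, ha0, ha1, y0, hy0⟩
    have hBb : BddAbove B := ⟨1, fun a ha => ha.2.1⟩
    set s := sSup B with hs
    have hs0 : 0 < s := lt_of_lt_of_le ha0 (le_csSup hBb ⟨ha0, ha1, y0, hy0⟩)
    have hs1 : s ≤ 1 := csSup_le hBne (fun a ha => ha.2.1)
    obtain ⟨u, -, hu, huB⟩ := exists_seq_tendsto_sSup hBne hBb
    -- representatives in [0, 1]
    have hrep : ∀ k, ∃ y ∈ Icc (0 : ℝ) 1, σ (y + u k) ≤ σ y := by
      intro k
      obtain ⟨-, -, y, hy⟩ := huB k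
      refine ⟨Int.fract y, ⟨Int.fract_nonneg y, (Int.fract_lt_one y).le⟩, ?_⟩
      have h1 := hL.per_int ⌊y⌋ (Int.fract y)
      have h2 := hL.per_int ⌊y⌋ (Int.fract y + u k)
      have e1 : Int.fract y + (⌊y⌋ : ℝ) = y := Int.fract_add_floor y
      have e2 : Int.fract y + u k + (⌊y⌋ : ℝ) = y + u k := by
        linear_combination Int.fract_add_floor y
      rw [e1] at h1
      rw [e2] at h2
      rw [h1, h2] at hy
      linarith
    choose v hv hvle using hrep
    obtain ⟨y, -, φ, hφ, hy⟩ := isCompact_Icc.tendsto_subseq hv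
    have hys : σ (y + s) ≤ σ y := by
      have t1 : Tendsto (fun k => σ (v (φ k) + u (φ k))) atTop (𝓝 (σ (y + s))) :=
        (hL.cont.tendsto _).comp (hy.add (hu.comp hφ.tendsto_atTop))
      have t2 : Tendsto (fun k => σ (v (φ k))) atTop (𝓝 (σ y)) := (hL.cont.tendsto _).comp hy
      exact le_of_tendsto_of_tendsto' t1 t2 (fun k => hvle (φ k))
    have hs1' : s < 1 := by
      refine lt_of_le_of_ne hs1 (fun heq => ?_)
      rw [heq, hL.per] at hys
      linarith
    have hge : ∀ z, σ z ≤ σ (z + s) := by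
      intro z
      have t1 : Tendsto (fun a => σ (z + a)) (𝓝[>] s) (𝓝 (σ (z + s))) :=
        ((hL.cont.comp (continuous_const.add continuous_id)).tendsto s).mono_left
          nhdsWithin_le_nhds
      refine ge_of_tendsto t1 ?_
      filter_upwards [Ioo_mem_nhdsGT hs1'] with a ha
      by_contra hlt
      push Not at hlt
      have : a ∈ B := ⟨hs0.trans ha.1, ha.2.le, z, hlt.le⟩
      exact absurd (le_csSup hBb this) (not_le.2 ha.1)
    have heq : σ y = σ (y + s) := le_antisymm (hge y) hys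
    rcases hL.twist hT heq (by linarith : y ≠ y + s) with h1 | h1
    · have h2 := hge (y + r)
      have e : y + r + s = y + s + r := by ring
      rw [e] at h2
      exact absurd h1.2 (not_lt.2 h2)
    · have h2 := hge (y - r)
      have e : y - r + s = y + s - r := by ring
      rw [e] at h2
      exact absurd h1.1 (not_lt.2 h2)
  have key2 : ∀ k : ℕ, ∀ a : ℝ, 0 < a → a ≤ k → ∀ y, σ y < σ (y + a) := by
    intro k
    induction k with
    | zero =>
      intro a ha ha' y
      simp only [Nat.cast_zero] at ha'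
      linarith
    | succ k ih =>
      intro a ha ha' y
      rcases le_or_gt a 1 with h1 | h1
      · exact key a ha h1 y
      · have h2 := ih (a - 1) (by linarith) (by push_cast at ha'; linarith) y
        have e : y + a = y + (a - 1) + 1 := by ring
        rw [e, hL.per]
        linarith
  intro x y hxy
  obtain ⟨k, hk⟩ := exists_nat_ge (y - x)
  have := key2 k (y - x) (by linarith) hk x
  rwa [add_sub_cancel] at this

end One

section Fol

variable {P : ℝ} {q1 q2 h S g : ℝ → ℝ → ℝ}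

lemma FolData.cS (hF : FolData P q1 q2 S g) {b : ℝ} (hb : b ∈ Ioo (0 : ℝ) 1) :
    Continuous (S b) :=
  hF.contS.comp_continuous (f := fun x : ℝ => (b, x)) (by fun_prop) (fun _ => ⟨hb, mem_univ _⟩)

lemma FolData.cg (hF : FolData P q1 q2 S g) {b : ℝ} (hb : b ∈ Ioo (0 : ℝ) 1) :
    Continuous (g b) :=
  hF.contg.comp_continuous (f := fun x : ℝ => (b, x)) (by fun_prop) (fun _ => ⟨hb, mem_univ _⟩)

lemma FolData.cSb (hF : FolData P q1 q2 S g) (x : ℝ) :
    ContinuousOn (fun b => S b x) (Ioo (0 : ℝ) 1) :=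
  hF.contS.comp (f := fun b : ℝ => (b, x)) (by fun_prop) (fun _ hb => ⟨hb, mem_univ _⟩)

lemma FolData.leaf (hF : FolData P q1 q2 S g) {b : ℝ} (hb : b ∈ Ioo (0 : ℝ) 1) :
    Leaf P q1 q2 (S b) (g b) (Function.invFun (g b)) where
  cont := hF.cS hb
  per := hF.perS b hb
  lo := hF.lo b hb
  hi := hF.hi b hb
  refl := hF.refl b hb
  inj := fun x y h1 h2 => (hF.inj b hb b hb x y h1 h2).2
  right := fun x => Function.rightInverse_invFun (hF.surjg b hb) x

lemma surj_of_per {f : ℝ → ℝ} {P : ℝ} (hP : 0 < P) (hc : Continuous f)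
    (hp : ∀ x, f (x + 1) = f x + P) : Function.Surjective f := by
  have h1 : ∀ k : ℕ, ∀ x, f (x + k) = f x + k * P := by
    intro k
    induction k with
    | zero => intro x; simp
    | succ k ih =>
      intro x
      have e : x + ((k + 1 : ℕ) : ℝ) = x + k + 1 := by push_cast; ring
      rw [e, hp, ih]; push_cast; ring
  intro y
  obtain ⟨k, hk⟩ := exists_nat_ge (|y - f 0| / P)
  rw [div_le_iff₀ hP] at hk
  have h2 := abs_le.1 hk
  have h3 : f (-(k : ℝ)) ≤ y := by
    have h4 := h1 k (-(k : ℝ))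
    rw [neg_add_cancel] at h4
    linarith [h2.1]
  have h5 : y ≤ f (k : ℝ) := by
    have h4 := h1 k 0
    rw [zero_add] at h4
    linarith [h2.2]
  obtain ⟨x, hx⟩ := mem_range_of_exists_le_of_exists_ge hc ⟨_, h3⟩ ⟨_, h5⟩
  exact ⟨x, hx⟩

/-- good leaves are graphs -/
theorem FolData.strictMono_good (hT : TwistData P q1 q2 h) (hF : FolData P q1 q2 S g) {b : ℝ}
    (hb : b ∈ Ioo (0 : ℝ) 1) (hg : GoodLeaf (g b)) : StrictMono (S b) := by
  obtain ⟨φ, r, hφc, hφm, hφ1, hφg⟩ := hg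
  have hsurj : Function.Surjective φ := surj_of_per one_pos hφc hφ1
  set e : ℝ ≃o ℝ := hφm.orderIsoOfSurjective φ hsurj with he
  have heφ : ∀ x, e x = φ x := fun x => rfl
  have hψφ : ∀ x, e.symm (φ x) = x := fun x => e.symm_apply_apply x
  have hφψ : ∀ y, φ (e.symm y) = y := fun y => e.apply_symm_apply y
  have hψc : Continuous e.symm := e.symm.continuous
  have hgψ : ∀ y, g b (e.symm y) = e.symm (y + r) := by
    intro y
    apply e.injective
    rw [heφ, hφg, hφψ, e.apply_symm_apply]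
  have hψ1 : ∀ y, e.symm (y + 1) = e.symm y + 1 := by
    intro y
    apply e.injective
    rw [e.apply_symm_apply, heφ, hφ1, hφψ]
  have hL : Leaf P q1 q2 (fun y => S b (e.symm y)) (fun x => x + r) (fun x => x - r) := by
    refine { cont := (hF.cS hb).comp hψc, per := fun y => ?_, lo := fun y => ?_,
             hi := fun y => ?_, refl := fun y => ?_, inj := fun x y h1 h2 => ?_,
             right := fun x => by simp }
    · change S b (e.symm (y + 1)) = S b (e.symm y) + P
      rw [hψ1, hF.perS b hb]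
    · change S b (e.symm y) < S b (e.symm (y + r))
      rw [← hgψ]; exact hF.lo b hb _
    · change S b (e.symm (y + r)) < S b (e.symm y) + P
      rw [← hgψ]; exact hF.hi b hb _
    · change q2 (S b (e.symm y)) (S b (e.symm (y + r))) =
        q1 (S b (e.symm (y + r))) (S b (e.symm (y + r + r)))
      rw [← hgψ (y + r), ← hgψ]; exact hF.refl b hb _
    · change S b (e.symm (x + r)) = S b (e.symm (y + r)) at h2
      rw [← hgψ, ← hgψ] at h2
      exact e.symm.injective (hF.inj b hb b hb _ _ h1 h2).2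
  have hmono := hL.strictMono_of_rot hT
  intro x y hxy
  have := hmono (hφm hxy)
  change S b (e.symm (φ x)) < S b (e.symm (φ y)) at this
  rwa [hψφ, hψφ] at this

/-- all leaves are graphs -/
theorem FolData.strictMono_all (hT : TwistData P q1 q2 h) (hF : FolData P q1 q2 S g)
    (hd : ∀ u v, 0 ≤ u → u < v → v ≤ 1 → ∃ b ∈ Ioo u v, GoodLeaf (g b)) {b : ℝ}
    (hb : b ∈ Ioo (0 : ℝ) 1) : StrictMono (S b) := by
  refine (hF.leaf hb).strict hT (hF.monog b hb) (fun x y hxy => ?_)
  by_contra hlt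
  push Not at hlt
  have h1 : ∀ᶠ b' in 𝓝 b, S b' y < S b' x := by
    have c1 := ((hF.cSb y).continuousAt (isOpen_Ioo.mem_nhds hb))
    have c2 := ((hF.cSb x).continuousAt (isOpen_Ioo.mem_nhds hb))
    exact c1.eventually_lt c2 hlt
  have h2 : ∀ᶠ b' in 𝓝 b, b' ∈ Ioo (0 : ℝ) 1 := isOpen_Ioo.mem_nhds hb
  obtain ⟨u, v, huv, hsub⟩ := mem_nhds_iff_exists_Ioo_subset.1 (h1.and h2)
  have hub : u < b := huv.1
  have hbv : b < v := huv.2
  obtain ⟨b', hb', hgood⟩ := hd (max u 0) (min v 1) (le_max_right _ _)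
    (lt_of_lt_of_le (max_lt hub hb.1) (le_min hbv.le hb.2.le)) (min_le_right _ _)
  have hb'' : b' ∈ Ioo u v :=
    ⟨lt_of_le_of_lt (le_max_left _ _) hb'.1, lt_of_lt_of_le hb'.2 (min_le_left _ _)⟩
  have h3 := hsub hb''
  have h4 := (hF.strictMono_good hT h3.2 hgood).monotone hxy
  exact absurd h3.1 (not_lt.2 h4)

/-- inverse of the leaf parametrisation -/
noncomputable def TT (S : ℝ → ℝ → ℝ) (b : ℝ) : ℝ → ℝ := Function.invFun (S b)

/-- the circle map of the leaf -/
noncomputable def FF (S g : ℝ → ℝ → ℝ) (b s : ℝ) : ℝ := S b (g b (TT S b s))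

section Graph

variable (hT : TwistData P q1 q2 h) (hF : FolData P q1 q2 S g)
  (hS : ∀ b ∈ Ioo (0 : ℝ) 1, StrictMono (S b))

include hT hF in
lemma FolData.surjS {b : ℝ} (hb : b ∈ Ioo (0 : ℝ) 1) : Function.Surjective (S b) :=
  surj_of_per hT.hP (hF.cS hb) (hF.perS b hb)

include hT hF in
lemma FolData.S_TT {b : ℝ} (hb : b ∈ Ioo (0 : ℝ) 1) (s : ℝ) : S b (TT S b s) = s :=
  Function.rightInverse_invFun (hF.surjS hT hb) s

include hS in
lemma TT_S {b : ℝ} (hb : b ∈ Ioo (0 : ℝ) 1) (x : ℝ) : TT S b (S b x) = x :=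
  Function.leftInverse_invFun (hS b hb).injective x

include hS in
lemma FF_S {b : ℝ} (hb : b ∈ Ioo (0 : ℝ) 1) (x : ℝ) : FF S g b (S b x) = S b (g b x) := by
  unfold FF
  rw [TT_S hS hb]

include hT hF hS in
lemma continuousOn_TT : ContinuousOn (fun z : ℝ × ℝ => TT S z.1 z.2) (Ioo 0 1 ×ˢ univ) := by
  rintro ⟨b, s⟩ ⟨hb, -⟩
  refine ContinuousAt.continuousWithinAt ?_
  rw [Metric.continuousAt_iff']
  intro ε hε
  simp only at hb
  set x := TT S b s with hx
  have hSx : S b x = s := hF.S_TT hT hb s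
  have hO : (Ioo (0 : ℝ) 1 ×ˢ (univ : Set ℝ)) ∈ 𝓝 (b, s) :=
    (isOpen_Ioo.prod isOpen_univ).mem_nhds ⟨hb, mem_univ _⟩
  have hc : ∀ y, ContinuousAt (fun z : ℝ × ℝ => S z.1 y) (b, s) := fun y =>
    ContinuousAt.comp (f := fun z : ℝ × ℝ => z.1) (g := fun b => S b y)
      ((hF.cSb y).continuousAt (isOpen_Ioo.mem_nhds hb)) continuousAt_fst
  have h1 : ∀ᶠ z in 𝓝 (b, s), S z.1 (x - ε / 2) < z.2 := by
    refine (hc _).eventually_lt continuousAt_snd ?_
    change S b (x - ε / 2) < s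
    rw [← hSx]
    exact hS b hb (by linarith)
  have h2 : ∀ᶠ z in 𝓝 (b, s), z.2 < S z.1 (x + ε / 2) := by
    refine ContinuousAt.eventually_lt continuousAt_snd (hc _) ?_
    change s < S b (x + ε / 2)
    nth_rw 1 [← hSx]
    exact hS b hb (by linarith)
  filter_upwards [h1, h2, hO] with z hz1 hz2 hz3
  have hz : z.1 ∈ Ioo (0 : ℝ) 1 := hz3.1
  have e := hF.S_TT hT hz z.2
  have a1 : x - ε / 2 < TT S z.1 z.2 := by
    rw [← (hS z.1 hz).lt_iff_lt, e]; exact hz1
  have a2 : TT S z.1 z.2 < x + ε / 2 := by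
    rw [← (hS z.1 hz).lt_iff_lt, e]; exact hz2
  rw [Real.dist_eq, abs_lt]
  change -ε < TT S z.1 z.2 - x ∧ TT S z.1 z.2 - x < ε
  constructor <;> linarith

include hT hF hS in
lemma continuousOn_FF : ContinuousOn (fun z : ℝ × ℝ => FF S g z.1 z.2) (Ioo 0 1 ×ˢ univ) := by
  have h1 := continuousOn_TT hT hF hS
  have h2 : ContinuousOn (fun z : ℝ × ℝ => (z.1, TT S z.1 z.2)) (Ioo 0 1 ×ˢ univ) :=
    continuousOn_fst.prodMk h1
  have h3 : ContinuousOn (fun z : ℝ × ℝ => g z.1 (TT S z.1 z.2)) (Ioo 0 1 ×ˢ univ) :=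
    hF.contg.comp h2 (fun z hz => ⟨hz.1, mem_univ _⟩)
  exact hF.contS.comp (continuousOn_fst.prodMk h3) (fun z hz => ⟨hz.1, mem_univ _⟩)

include hT hF hS in
lemma FF_injOn (s : ℝ) : InjOn (fun b => FF S g b s) (Ioo 0 1) := by
  intro b hb b' hb' heq
  have e1 := hF.S_TT hT hb s
  have e2 := hF.S_TT hT hb' s
  exact (hF.inj b hb b' hb' (TT S b s) (TT S b' s) (by rw [e1, e2]) heq).1

include hT hF hS in
lemma FF_cont_b (s : ℝ) : ContinuousOn (fun b => FF S g b s) (Ioo 0 1) :=
  (continuousOn_FF hT hF hS).comp (f := fun b : ℝ => (b, s)) (by fun_prop)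
    (fun _ hb => ⟨hb, mem_univ _⟩)

include hT hF hS in
lemma FF_cont_s {b : ℝ} (hb : b ∈ Ioo (0 : ℝ) 1) : Continuous (fun s => FF S g b s) :=
  (continuousOn_FF hT hF hS).comp_continuous (f := fun s : ℝ => (b, s)) (by fun_prop)
    (fun _ => ⟨hb, mem_univ _⟩)

include hT hF hS in
/-- same direction for all base points -/
lemma FF_direction : (∀ s, StrictMonoOn (fun b => FF S g b s) (Ioo 0 1)) ∨
    (∀ s, StrictAntiOn (fun b => FF S g b s) (Ioo 0 1)) := by
  have hb1 : (1 / 3 : ℝ) ∈ Ioo (0 : ℝ) 1 := by constructor <;> norm_num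
  have hb2 : (1 / 2 : ℝ) ∈ Ioo (0 : ℝ) 1 := by constructor <;> norm_num
  have hdir : ∀ s, StrictMonoOn (fun b => FF S g b s) (Ioo 0 1) ∨
      StrictAntiOn (fun b => FF S g b s) (Ioo 0 1) := fun s =>
    ContinuousOn.strictMonoOn_of_injOn_Ioo one_pos (FF_cont_b hT hF hS s) (FF_injOn hT hF hS s)
  have hne : ∀ s, FF S g (1 / 2) s - FF S g (1 / 3) s ≠ 0 := by
    intro s h0
    have := FF_injOn hT hF hS s hb2 hb1 (sub_eq_zero.1 h0)
    norm_num at this
  have hc : Continuous (fun s => FF S g (1 / 2) s - FF S g (1 / 3) s) :=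
    (FF_cont_s hT hF hS hb2).sub (FF_cont_s hT hF hS hb1)
  have hsign : (∀ s, 0 < FF S g (1 / 2) s - FF S g (1 / 3) s) ∨
      (∀ s, FF S g (1 / 2) s - FF S g (1 / 3) s < 0) := by
    by_contra hcon
    push Not at hcon
    obtain ⟨⟨s1, h1⟩, ⟨s2, h2⟩⟩ := hcon
    obtain ⟨s, hs⟩ := mem_range_of_exists_le_of_exists_ge hc ⟨s1, h1⟩ ⟨s2, h2⟩
    exact hne s hs
  rcases hsign with hp | hn
  · left
    intro s
    rcases hdir s with h1 | h1
    · exact h1
    · have := h1 hb1 hb2 (by norm_num)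
      have h2 := hp s
      simp only at this
      linarith
  · right
    intro s
    rcases hdir s with h1 | h1
    · have := h1 hb1 hb2 (by norm_num)
      have h2 := hn s
      simp only at this
      linarith
    · exact h1

include hT hF hS in
lemma FF_mono {b : ℝ} (hb : b ∈ Ioo (0 : ℝ) 1) : StrictMono (FF S g b) := by
  intro s s' hss
  unfold FF
  apply hS b hb
  apply hF.monog b hb
  rw [← (hS b hb).lt_iff_lt, hF.S_TT hT hb, hF.S_TT hT hb]
  exact hss

include hT hF hS in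
lemma FF_per {b : ℝ} (hb : b ∈ Ioo (0 : ℝ) 1) (s : ℝ) : FF S g b (s + P) = FF S g b s + P := by
  have h1 : TT S b (s + P) = TT S b s + 1 := by
    apply (hS b hb).injective
    rw [hF.S_TT hT hb, hF.perS b hb, hF.S_TT hT hb]
  unfold FF
  rw [h1, hF.perg b hb, hF.perS b hb]

include hT hF in
lemma FF_lo {b : ℝ} (hb : b ∈ Ioo (0 : ℝ) 1) (s : ℝ) : s < FF S g b s := by
  have := hF.lo b hb (TT S b s)
  rwa [hF.S_TT hT hb] at this

include hT hF in
lemma FF_hi {b : ℝ} (hb : b ∈ Ioo (0 : ℝ) 1) (s : ℝ) : FF S g b s < s + P := by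
  have := hF.hi b hb (TT S b s)
  rwa [hF.S_TT hT hb] at this

include hT hF hS in
lemma FF_refl {b : ℝ} (hb : b ∈ Ioo (0 : ℝ) 1) (s : ℝ) :
    q2 s (FF S g b s) = q1 (FF S g b s) (FF S g b (FF S g b s)) := by
  have h1 := hF.refl b hb (TT S b s)
  rw [hF.S_TT hT hb] at h1
  have h2 : FF S g b (FF S g b s) = S b (g b (g b (TT S b s))) := by
    conv_lhs => rw [show FF S g b s = S b (g b (TT S b s)) from rfl]
    rw [FF_S hS hb]
  rw [h2]
  exact h1

include hT hF hS in
lemma FF_cover : ∃ ε > 0, ∀ s s', s < s' → s' < s + ε → ∃ b ∈ Ioo (0 : ℝ) 1, FF S g b s = s' := by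
  obtain ⟨ε, hε, hc⟩ := hF.cover
  refine ⟨ε, hε, fun s s' h1 h2 => ?_⟩
  obtain ⟨b, hb, x, hx, hx'⟩ := hc s s' h1 h2
  refine ⟨b, hb, ?_⟩
  rw [← hx, FF_S hS hb, hx']

end Graph

/-- limit at the boundary -/
lemma lim_of_cover {F : ℝ → ℝ → ℝ} (hlo : ∀ b ∈ Ioo (0 : ℝ) 1, ∀ s, s < F b s)
    (hm : ∀ s, StrictMonoOn (fun b => F b s) (Ioo 0 1))
    (hc : ∃ ε > 0, ∀ s s', s < s' → s' < s + ε → ∃ b ∈ Ioo (0 : ℝ) 1, F b s = s') (s : ℝ) :
    Tendsto (fun b => F b s) (𝓝[>] 0) (𝓝 s) := by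
  obtain ⟨ε, hε, hc⟩ := hc
  rw [Metric.tendsto_nhds]
  intro η hη
  obtain ⟨b, hb, hbe⟩ := hc s (s + min η ε / 2) (by have := lt_min hη hε; linarith)
    (by have := min_le_right η ε; linarith)
  filter_upwards [Ioo_mem_nhdsGT hb.1] with b' hb'
  have hb'1 : b' ∈ Ioo (0 : ℝ) 1 := ⟨hb'.1, hb'.2.trans hb.2⟩
  have h1 := hlo b' hb'1 s
  have h2 := hm s hb'1 hb hb'.2
  simp only at h2
  rw [hbe] at h2
  have h3 := min_le_left η ε
  rw [Real.dist_eq, abs_lt]
  constructor <;> linarith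

/-- (T3c), assembly -/
theorem leafFam_of_good (hT : TwistData P q1 q2 h) (hF : FolData P q1 q2 S g)
    (hd : ∀ u v, 0 ≤ u → u < v → v ≤ 1 → ∃ b ∈ Ioo u v, GoodLeaf (g b)) :
    ∃ F b₁, LeafFam P b₁ q1 q2 F := by
  have hS : ∀ b ∈ Ioo (0 : ℝ) 1, StrictMono (S b) := fun b hb => hF.strictMono_all hT hd hb
  have hcover := FF_cover hT hF hS
  rcases FF_direction hT hF hS with hm | ha
  · refine ⟨FF S g, 1, {
      hb := one_pos, cont := continuousOn_FF hT hF hS,
      mono := fun b hb => FF_mono hT hF hS hb, per := fun b hb s => FF_per hT hF hS hb s,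
      lo := fun b hb s => FF_lo hT hF hb s, hi := fun b hb s => FF_hi hT hF hb s,
      refl := fun b hb s => FF_refl hT hF hS hb s, mono_b := hm,
      lim := lim_of_cover (fun b hb s => FF_lo hT hF hb s) hm hcover }⟩
  · have hflip : ∀ b ∈ Ioo (0 : ℝ) 1, 1 - b ∈ Ioo (0 : ℝ) 1 := fun b hb =>
      ⟨by linarith [hb.2], by linarith [hb.1]⟩
    have hm : ∀ s, StrictMonoOn (fun b => FF S g (1 - b) s) (Ioo 0 1) := by
      intro s b hb b' hb' hlt
      exact ha s (hflip b' hb') (hflip b hb) (by linarith)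
    refine ⟨fun b s => FF S g (1 - b) s, 1, {
      hb := one_pos, cont := ?_,
      mono := fun b hb => FF_mono hT hF hS (hflip b hb),
      per := fun b hb s => FF_per hT hF hS (hflip b hb) s,
      lo := fun b hb s => FF_lo hT hF (hflip b hb) s,
      hi := fun b hb s => FF_hi hT hF (hflip b hb) s,
      refl := fun b hb s => FF_refl hT hF hS (hflip b hb) s, mono_b := hm,
      lim := lim_of_cover (fun b hb s => FF_lo hT hF (hflip b hb) s) hm ?_ }⟩
    · exact (continuousOn_FF hT hF hS).comp (f := fun z : ℝ × ℝ => (1 - z.1, z.2)) (by fun_prop)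
        (fun z hz => ⟨hflip z.1 hz.1, mem_univ _⟩)
    · obtain ⟨ε, hε, hc⟩ := hcover
      refine ⟨ε, hε, fun s s' h1 h2 => ?_⟩
      obtain ⟨b, hb, hbe⟩ := hc s s' h1 h2
      refine ⟨1 - b, hflip b hb, ?_⟩
      change FF S g (1 - (1 - b)) s = s'
      rw [sub_sub_cancel]
      exact hbe

end Fol

end Crest.Agent.R102.S0
end

-- ▼ part R102/Fol3_540

/-!
Row 102, link leaf (T3c) of `S0_821_v2`, assembly modulo the area lemma (helper540).
-/

set_option autoImplicit false

open Set Filter Topology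

namespace Crest.Agent.R102.S0

variable {P : ℝ} {q1 q2 h S g : ℝ → ℝ → ℝ} {T : ℝ × ℝ → ℝ × ℝ}



/-- (T3c) modulo the area lemma -/
theorem leafFam_of_folData_of_area (hT : TwistData P q1 q2 h) (hF : FolData P q1 q2 S g)
    (hN : IsNext P q1 q2 T) (hA : AreaL P T) : ∃ F b₁, LeafFam P b₁ q1 q2 F := by
  refine leafFam_of_good hT hF (fun u v hu huv hv => ?_)
  obtain ⟨b, hb, hw⟩ := exists_good_leaf_of_area hT hF hN hA hu huv hv
  have hb' : b ∈ Ioo (0 : ℝ) 1 := ⟨lt_of_le_of_lt hu hb.1, lt_of_lt_of_le hb.2 hv⟩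
  obtain ⟨φ, r, h1, h2, h3, h4⟩ := exists_conj_of_not_wand (hF.cg hb') (hF.monog b hb')
    (hF.perg b hb') hw
  exact ⟨b, hb, φ, r, h1, h2, h3, h4⟩

end Crest.Agent.R102.S0
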