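import Crest.Agent.R102.Geo_821
import Crest.Agent.R102.SmA_262_Mg

/-!
Row 102, leaf (T5) (helper576), part a: the Lazutkin coordinate of a table.

For a table with boundary curve `γ` there are a smooth 1-periodic real `q`, a smooth increasing
`σ` with `σ (x + 1) = σ x + P` and `K ≠ 0` with `γ (σ x) = γ (σ 0) + K * Gc q x` (complex notation),
where `Gc q` is the curve with velocity `exp(-2q + iΘ)`, `Θ' = exp q` of `Geo5_576`.
-/

set_option autoImplicit false

open Set Filter Topology MeasureTheory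
open scoped Real ContDiff ComplexConjugate
open Crest.AnalysisR.Billiard

noncomputable section

namespace Crest.Agent.R102.T5

open Crest.Agent.R102.S0
open Crest.Agent.R102.A929 (ofR Pq EP Xq LocQ IsAct RStarP RR Sm leafSMR exists_locQ)
open Crest.Agent.R102.G576

/-- a planar vector as a complex number -/
def toC (v : ℝ × ℝ) : ℂ := (v.1 : ℂ) + (v.2 : ℂ) * Complex.I

@[simp] lemma toC_re (v : ℝ × ℝ) : (toC v).re = v.1 := by simp [toC]
@[simp] lemma toC_im (v : ℝ × ℝ) : (toC v).im = v.2 := by simp [toC]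

lemma toC_sub (v w : ℝ × ℝ) : toC (v - w) = toC v - toC w := by
  apply Complex.ext <;> simp

lemma dot_eq (v w : ℝ × ℝ) : dot v w = (toC w * conj (toC v)).re := by
  simp [dot, Complex.mul_re]; ring

lemma det2_eq (v w : ℝ × ℝ) : det2 v w = (conj (toC v) * toC w).im := by
  simp [det2, Complex.mul_im]; ring

lemma norm_toC (v : ℝ × ℝ) : ‖toC v‖ = Real.sqrt (dot v v) := by
  rw [Complex.norm_def, Complex.normSq_apply]
  simp [dot]

lemma toC_hasDerivAt {f : ℝ → ℝ × ℝ} {f' : ℝ × ℝ} {s : ℝ} (h : HasDerivAt f f' s) :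
    HasDerivAt (fun t => toC (f t)) (toC f') s :=
  (hasDerivAt_fst h).ofReal_comp.add ((hasDerivAt_snd h).ofReal_comp.mul_const Complex.I)

/-- squared speed -/
def dd (γ : ℝ → ℝ × ℝ) (s : ℝ) : ℝ := dot (deriv γ s) (deriv γ s)

/-- `det (γ', γ'')` -/
def cur (γ : ℝ → ℝ × ℝ) (s : ℝ) : ℝ := det2 (deriv γ s) (deriv (deriv γ) s)

/-- Lazutkin density `κ^{2/3} |γ'|` -/
def lz (γ : ℝ → ℝ × ℝ) (s : ℝ) : ℝ :=
  Real.exp (2 / 3 * Real.log (cur γ s) - 1 / 2 * Real.log (dd γ s))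

/-- its primitive -/
def Lz (γ : ℝ → ℝ × ℝ) (s : ℝ) : ℝ := ∫ t in (0 : ℝ)..s, lz γ t

/-- Lazutkin length -/
def ell (γ : ℝ → ℝ × ℝ) (P : ℝ) : ℝ := Lz γ P

/-- normalised Lazutkin coordinate -/
def xi (γ : ℝ → ℝ × ℝ) (P s : ℝ) : ℝ := Lz γ s / ell γ P

section

variable {Ω : Set (ℝ × ℝ)} {γ : ℝ → ℝ × ℝ} {P : ℝ}

lemma tbl_deriv2_smooth (h : IsTable Ω γ P) : ContDiff ℝ (⊤ : ℕ∞) (deriv (deriv γ)) := by
  have h1 : ContDiff ℝ ((⊤ : ℕ∞) + 1) (deriv γ) := by
    simpa using tbl_deriv_smooth h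
  exact (contDiff_succ_iff_deriv.mp h1).2.2

lemma dd_pos (h : IsTable Ω γ P) (s : ℝ) : 0 < dd γ s := dot_self_pos (tbl_ne h s)
lemma cur_pos (h : IsTable Ω γ P) (s : ℝ) : 0 < cur γ s := tbl_curv h s

lemma contDiff_dd (h : IsTable Ω γ P) : ContDiff ℝ (⊤ : ℕ∞) (dd γ) := by
  have h1 := tbl_deriv_smooth h
  exact (h1.fst.mul h1.fst).add (h1.snd.mul h1.snd)

lemma contDiff_cur (h : IsTable Ω γ P) : ContDiff ℝ (⊤ : ℕ∞) (cur γ) := by
  have h1 := tbl_deriv_smooth h
  have h2 := tbl_deriv2_smooth h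
  exact (h1.fst.mul h2.snd).sub (h1.snd.mul h2.fst)

lemma contDiff_lz (h : IsTable Ω γ P) : ContDiff ℝ (⊤ : ℕ∞) (lz γ) := by
  have h1 := (contDiff_cur h).log (fun s => (cur_pos h s).ne')
  have h2 := (contDiff_dd h).log (fun s => (dd_pos h s).ne')
  exact ((contDiff_const.mul h1).sub (contDiff_const.mul h2)).exp

lemma lz_pos (s : ℝ) : 0 < lz γ s := Real.exp_pos _

lemma hasDerivAt_Lz (h : IsTable Ω γ P) (s : ℝ) : HasDerivAt (Lz γ) (lz γ s) s := by
  have hc : Continuous (lz γ) := (contDiff_lz h).continuous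
  exact intervalIntegral.integral_hasDerivAt_right (hc.intervalIntegrable _ _)
    (hc.stronglyMeasurableAtFilter _ _) hc.continuousAt

lemma contDiff_Lz (h : IsTable Ω γ P) : ContDiff ℝ (⊤ : ℕ∞) (Lz γ) := by
  rw [contDiff_infty_iff_deriv]
  have h1 : deriv (Lz γ) = lz γ := funext (fun s => (hasDerivAt_Lz h s).deriv)
  exact ⟨fun s => (hasDerivAt_Lz h s).differentiableAt, by rw [h1]; exact contDiff_lz h⟩

lemma tbl_deriv2_per (h : IsTable Ω γ P) : Function.Periodic (deriv (deriv γ)) P := by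
  intro s
  have h1 : (fun t => deriv γ (t + P)) = deriv γ := funext (tbl_deriv_per h)
  have h2 : deriv (fun t => deriv γ (t + P)) s = deriv (deriv γ) (s + P) :=
    deriv_comp_add_const (deriv γ) P s
  rw [← h2, h1]

lemma lz_per (h : IsTable Ω γ P) (s : ℝ) : lz γ (s + P) = lz γ s := by
  unfold lz cur dd
  rw [tbl_deriv_per h, tbl_deriv2_per h]

lemma Lz_per (h : IsTable Ω γ P) (s : ℝ) : Lz γ (s + P) = Lz γ s + ell γ P := by
  have h1 : ∀ x, HasDerivAt (fun x => Lz γ (x + P) - Lz γ x) 0 x := by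
    intro x
    have h2 := (hasDerivAt_Lz h (x + P)).comp_add_const x P
    have h3 := h2.sub (hasDerivAt_Lz h x)
    rw [lz_per h, sub_self] at h3
    exact h3
  have h4 := is_const_of_deriv_eq_zero (fun x => (h1 x).differentiableAt)
    (fun x => (h1 x).deriv) s 0
  simp only [zero_add] at h4
  have h5 : Lz γ 0 = 0 := by unfold Lz; simp
  rw [h5] at h4
  unfold ell
  linarith

lemma Lz_mono (h : IsTable Ω γ P) : StrictMono (Lz γ) := by
  apply strictMono_of_deriv_pos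
  intro s
  rw [(hasDerivAt_Lz h s).deriv]
  exact lz_pos s

lemma ell_pos (h : IsTable Ω γ P) : 0 < ell γ P := by
  have h5 : Lz γ 0 = 0 := by unfold Lz; simp
  have := Lz_mono h (tbl_P h)
  rw [h5] at this
  exact this

lemma hasDerivAt_xi (h : IsTable Ω γ P) (s : ℝ) : HasDerivAt (xi γ P) (lz γ s / ell γ P) s :=
  (hasDerivAt_Lz h s).div_const _

lemma contDiff_xi (h : IsTable Ω γ P) : ContDiff ℝ (⊤ : ℕ∞) (xi γ P) :=
  (contDiff_Lz h).div_const _

lemma xi_mono (h : IsTable Ω γ P) : StrictMono (xi γ P) := by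
  intro a b hab
  exact div_lt_div_of_pos_right (Lz_mono h hab) (ell_pos h)

lemma xi_per (h : IsTable Ω γ P) (s : ℝ) : xi γ P (s + P) = xi γ P s + 1 := by
  unfold xi
  rw [Lz_per h, add_div, div_self (ell_pos h).ne']

lemma xi_nat (h : IsTable Ω γ P) (n : ℕ) : xi γ P (n * P) = n ∧ xi γ P (-(n * P)) = -n := by
  induction n with
  | zero =>
    have h5 : Lz γ 0 = 0 := by unfold Lz; simp
    simp [xi, h5]
  | succ n ih =>
    constructor
    · have := xi_per h (n * P)
      rw [ih.1] at this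
      have h2 : ((n + 1 : ℕ) : ℝ) * P = n * P + P := by push_cast; ring
      rw [h2, this]
      push_cast
      rfl
    · have := xi_per h (-(((n + 1 : ℕ) : ℝ) * P))
      have h2 : -(((n + 1 : ℕ) : ℝ) * P) + P = -(n * P) := by push_cast; ring
      rw [h2, ih.2] at this
      push_cast at this ⊢
      linarith

lemma xi_surj (h : IsTable Ω γ P) : Function.Surjective (xi γ P) := by
  intro y
  obtain ⟨n, hn⟩ := exists_nat_ge |y|
  rw [abs_le] at hn
  have h1 := xi_nat h n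
  exact mem_range_of_exists_le_of_exists_ge (contDiff_xi h).continuous
    ⟨-(n * P), by rw [h1.2]; exact hn.1⟩ ⟨n * P, by rw [h1.1]; exact hn.2⟩

/-- the Lazutkin coordinate as a homeomorphism -/
def xiH (h : IsTable Ω γ P) : ℝ ≃ₜ ℝ :=
  (StrictMono.orderIsoOfSurjective _ (xi_mono h) (xi_surj h)).toHomeomorph


/-- inverse of the Lazutkin coordinate -/
def sig (h : IsTable Ω γ P) (x : ℝ) : ℝ := (xiH h).symm x

lemma xi_sig (h : IsTable Ω γ P) (x : ℝ) : xi γ P (sig h x) = x := (xiH h).apply_symm_apply x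

lemma sig_xi (h : IsTable Ω γ P) (s : ℝ) : sig h (xi γ P s) = s := (xiH h).symm_apply_apply s

lemma contDiff_sig (h : IsTable Ω γ P) : ContDiff ℝ (⊤ : ℕ∞) (sig h) :=
  Homeomorph.contDiff_symm_deriv (xiH h) (f' := fun s => lz γ s / ell γ P)
    (fun s => (div_pos (lz_pos s) (ell_pos h)).ne') (hasDerivAt_xi h) (contDiff_xi h)

lemma sig_mono (h : IsTable Ω γ P) : StrictMono (sig h) := by
  intro a b hab
  by_contra hc
  push Not at hc
  have := (xi_mono h).monotone hc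
  rw [xi_sig, xi_sig] at this
  linarith

lemma sig_surj (h : IsTable Ω γ P) : Function.Surjective (sig h) := fun s => ⟨_, sig_xi h s⟩

lemma sig_per (h : IsTable Ω γ P) (x : ℝ) : sig h (x + 1) = sig h x + P := by
  apply (xi_mono h).injective
  rw [xi_per h, xi_sig, xi_sig]

/-- derivative of `sig` -/
def sd (h : IsTable Ω γ P) (x : ℝ) : ℝ := ell γ P / lz γ (sig h x)

lemma sd_pos (h : IsTable Ω γ P) (x : ℝ) : 0 < sd h x := div_pos (ell_pos h) (lz_pos _)

lemma hasDerivAt_sig (h : IsTable Ω γ P) (x : ℝ) : HasDerivAt (sig h) (sd h x) x := by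
  have h1 := HasDerivAt.of_local_left_inverse (f := xi γ P) (g := sig h) (a := x)
    (contDiff_sig h).continuous.continuousAt (hasDerivAt_xi h (sig h x))
    (div_pos (lz_pos _) (ell_pos h)).ne' (Eventually.of_forall (xi_sig h))
  rw [inv_div] at h1
  exact h1

lemma contDiff_sd (h : IsTable Ω γ P) : ContDiff ℝ (⊤ : ℕ∞) (sd h) :=
  contDiff_const.div ((contDiff_lz h).comp (contDiff_sig h)) (fun _ => (lz_pos _).ne')

/-- the function `q`: one third of the logarithm of the normalised curvature -/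
def q0 (h : IsTable Ω γ P) (x : ℝ) : ℝ :=
  Real.log (ell γ P) + 1 / 3 * Real.log (cur γ (sig h x)) - 1 / 2 * Real.log (dd γ (sig h x))

lemma contDiff_q0 (h : IsTable Ω γ P) : ContDiff ℝ (⊤ : ℕ∞) (q0 h) := by
  have h1 := ((contDiff_cur h).comp (contDiff_sig h)).log (fun s => (cur_pos h _).ne')
  have h2 := ((contDiff_dd h).comp (contDiff_sig h)).log (fun s => (dd_pos h _).ne')
  exact (contDiff_const.add (contDiff_const.mul h1)).sub (contDiff_const.mul h2)

lemma q0_per (h : IsTable Ω γ P) (x : ℝ) : q0 h (x + 1) = q0 h x := by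
  unfold q0 cur dd
  rw [sig_per h, tbl_deriv_per h, tbl_deriv2_per h]

/-- velocity in the Lazutkin coordinate -/
def vel (h : IsTable Ω γ P) (x : ℝ) : ℂ := toC (deriv γ (sig h x)) * (sd h x : ℂ)

lemma hasDerivAt_cv (h : IsTable Ω γ P) (x : ℝ) :
    HasDerivAt (fun x => toC (γ (sig h x))) (vel h x) x := by
  have h1 := (toC_hasDerivAt (tbl_hasDeriv h (sig h x))).scomp x (hasDerivAt_sig h x)
  have h2 : (sd h x) • toC (deriv γ (sig h x)) = vel h x := by
    rw [Complex.real_smul, vel, mul_comm]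
  rw [h2] at h1
  exact h1

lemma hasDerivAt_vel (h : IsTable Ω γ P) (x : ℝ) :
    HasDerivAt (vel h) (toC (deriv (deriv γ) (sig h x)) * (sd h x : ℂ) * (sd h x : ℂ) +
      toC (deriv γ (sig h x)) * ((deriv (sd h) x : ℝ) : ℂ)) x := by
  have h1 := (toC_hasDerivAt (tbl_hasDeriv2 h (sig h x))).scomp x (hasDerivAt_sig h x)
  have h3 : HasDerivAt (sd h) (deriv (sd h) x) x :=
    (((contDiff_sd h).differentiable (by simp)) x).hasDerivAt
  have h4 := h1.mul h3.ofReal_comp
  have h2 : (sd h x) • toC (deriv (deriv γ) (sig h x)) =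
      toC (deriv (deriv γ) (sig h x)) * (sd h x : ℂ) := by
    rw [Complex.real_smul, mul_comm]
  rw [h2] at h4
  exact h4

lemma norm_vel_sq (h : IsTable Ω γ P) (x : ℝ) :
    ‖vel h x‖ ^ 2 = ell γ P ^ 6 * Real.exp (-4 * q0 h x) := by
  unfold vel
  rw [norm_mul, mul_pow, norm_toC, Real.sq_sqrt (dot_self_nonneg _), Complex.norm_real,
    Real.norm_of_nonneg (sd_pos h x).le]
  have h1 := dd_pos h (sig h x)
  have h2 := cur_pos h (sig h x)
  have h3 := ell_pos h
  have e1 : dot (deriv γ (sig h x)) (deriv γ (sig h x)) = Real.exp (Real.log (dd γ (sig h x))) :=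
    (Real.exp_log h1).symm
  rw [e1]
  unfold sd lz q0
  rw [div_pow, ← Real.exp_nat_mul, div_eq_mul_inv, ← Real.exp_neg]
  have e2 : ell γ P ^ 6 * Real.exp (-4 * (Real.log (ell γ P) + 1 / 3 * Real.log (cur γ (sig h x)) -
      1 / 2 * Real.log (dd γ (sig h x)))) = ell γ P ^ 2 *
      Real.exp (-4 / 3 * Real.log (cur γ (sig h x)) + 2 * Real.log (dd γ (sig h x))) := by
    have e3 : -4 * (Real.log (ell γ P) + 1 / 3 * Real.log (cur γ (sig h x)) -
      1 / 2 * Real.log (dd γ (sig h x))) = -((4 : ℕ) * Real.log (ell γ P)) +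
      (-4 / 3 * Real.log (cur γ (sig h x)) + 2 * Real.log (dd γ (sig h x))) := by
      push_cast; ring
    rw [e3, Real.exp_add, Real.exp_neg, Real.exp_nat_mul, Real.exp_log h3]
    field_simp
  rw [e2, mul_left_comm, ← Real.exp_add]
  congr 2
  push_cast
  ring

lemma im_vel (h : IsTable Ω γ P) (x : ℝ) :
    (conj (vel h x) * (toC (deriv (deriv γ) (sig h x)) * (sd h x : ℂ) * (sd h x : ℂ) +
      toC (deriv γ (sig h x)) * ((deriv (sd h) x : ℝ) : ℂ))).im =
    ‖vel h x‖ ^ 2 * Real.exp (q0 h x) := by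
  have e0 : conj (vel h x) * (toC (deriv (deriv γ) (sig h x)) * (sd h x : ℂ) * (sd h x : ℂ) +
      toC (deriv γ (sig h x)) * ((deriv (sd h) x : ℝ) : ℂ)) =
      ((sd h x ^ 3 : ℝ) : ℂ) * (conj (toC (deriv γ (sig h x))) * toC (deriv (deriv γ) (sig h x))) +
      ((sd h x * deriv (sd h) x * ‖toC (deriv γ (sig h x))‖ ^ 2 : ℝ) : ℂ) := by
    unfold vel
    rw [map_mul, Complex.conj_ofReal]
    have := Complex.mul_conj' (toC (deriv γ (sig h x)))
    push_cast
    rw [← this]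
    ring
  rw [e0, Complex.add_im, Complex.ofReal_im, add_zero, Complex.im_ofReal_mul, ← det2_eq]
  have h1 := dd_pos h (sig h x)
  have h2 := cur_pos h (sig h x)
  have h3 := ell_pos h
  have e4 : ‖vel h x‖ ^ 2 = dd γ (sig h x) * sd h x ^ 2 := by
    unfold vel
    rw [norm_mul, mul_pow, norm_toC, Real.sq_sqrt (dot_self_nonneg _), Complex.norm_real,
      Real.norm_of_nonneg (sd_pos h x).le]
    rfl
  rw [e4]
  have e5 : sd h x * cur γ (sig h x) = dd γ (sig h x) * Real.exp (q0 h x) := by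
    have e6 : sd h x = Real.exp (Real.log (ell γ P) - (2 / 3 * Real.log (cur γ (sig h x)) -
        1 / 2 * Real.log (dd γ (sig h x)))) := by
      rw [Real.exp_sub, Real.exp_log h3]
      rfl
    have e7 : cur γ (sig h x) = Real.exp (Real.log (cur γ (sig h x))) := (Real.exp_log h2).symm
    have e8 : dd γ (sig h x) = Real.exp (Real.log (dd γ (sig h x))) := (Real.exp_log h1).symm
    calc sd h x * cur γ (sig h x) = sd h x * Real.exp (Real.log (cur γ (sig h x))) := by rw [← e7]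
      _ = Real.exp (Real.log (dd γ (sig h x))) * Real.exp (q0 h x) := by
          rw [e6, ← Real.exp_add, ← Real.exp_add]
          congr 1
          unfold q0
          ring
      _ = _ := by rw [← e8]
  change sd h x ^ 3 * cur γ (sig h x) = _
  linear_combination sd h x ^ 2 * e5

lemma vel_ne (h : IsTable Ω γ P) (x : ℝ) : vel h x ≠ 0 := by
  intro h0
  have h1 := norm_vel_sq h x
  rw [h0, norm_zero] at h1
  have h2 := ell_pos h
  have h3 : 0 < ell γ P ^ 6 * Real.exp (-4 * q0 h x) := by positivity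
  rw [← h1] at h3
  norm_num at h3

/-- logarithmic derivative of the velocity -/
lemma hasDerivAt_vel' (h : IsTable Ω γ P) (x : ℝ) :
    HasDerivAt (vel h) (vel h x * ((-2 * deriv (q0 h) x : ℝ) + Complex.I * (Real.exp (q0 h x) : ℝ)))
      x := by
  have hv := hasDerivAt_vel h x
  refine hv.congr_deriv ?_
  set z' : ℂ := toC (deriv (deriv γ) (sig h x)) * (sd h x : ℂ) * (sd h x : ℂ) +
      toC (deriv γ (sig h x)) * ((deriv (sd h) x : ℝ) : ℂ) with hz'
  have him := im_vel h x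
  rw [← hz'] at him
  have hre : (conj (vel h x) * z').re = ‖vel h x‖ ^ 2 * (-2 * deriv (q0 h) x) := by
    have h1 := hv.norm_sq
    have hq : HasDerivAt (q0 h) (deriv (q0 h) x) x :=
      (((contDiff_q0 h).differentiable (by simp)) x).hasDerivAt
    have h2 := ((hq.const_mul (-4)).exp).const_mul (ell γ P ^ 6)
    have h3 : (fun x => ‖vel h x‖ ^ 2) = fun x => ell γ P ^ 6 * Real.exp (-4 * q0 h x) :=
      funext (norm_vel_sq h)
    rw [← h3] at h2
    have h4 := h1.unique h2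
    rw [Complex.inner] at h4
    rw [norm_vel_sq h, mul_comm (conj _)]
    linarith
  have hc : conj (vel h x) ≠ 0 := by
    rw [Ne, map_eq_zero]
    exact vel_ne h x
  apply mul_left_cancel₀ hc
  have hn : conj (vel h x) * vel h x = ((‖vel h x‖ ^ 2 : ℝ) : ℂ) := by
    rw [mul_comm, Complex.mul_conj']
    push_cast
    rfl
  rw [← mul_assoc, hn]
  apply Complex.ext
  · rw [hre, Complex.re_ofReal_mul]
    simp [- Complex.ofReal_exp]
  · rw [him, Complex.im_ofReal_mul]
    simp [- Complex.ofReal_exp]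

/-- the function `q` as an element of `C(ℂ, ℂ)` -/
def qT (h : IsTable Ω γ P) : C(ℂ, ℂ) := ofR (q0 h) (contDiff_q0 h).continuous

lemma qT_ofReal (h : IsTable Ω γ P) (x : ℝ) : qT h (x : ℂ) = ((q0 h x : ℝ) : ℂ) := by
  simp [qT, ofR]

lemma qr_qT (h : IsTable Ω γ P) : qr (qT h) = q0 h := by
  funext x
  unfold qr
  rw [qT_ofReal]
  simp

/-- the constant of proportionality -/
def Kc (h : IsTable Ω γ P) : ℂ := vel h 0 / Gd (qT h) 0

lemma Gd_ne (q : C(ℂ, ℂ)) (x : ℝ) : Gd q x ≠ 0 := Complex.exp_ne_zero _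

lemma Kc_ne (h : IsTable Ω γ P) : Kc h ≠ 0 := div_ne_zero (vel_ne h 0) (Gd_ne _ 0)

lemma vel_eq (h : IsTable Ω γ P) (x : ℝ) : vel h x = Kc h * Gd (qT h) x := by
  have hG : ∀ x, HasDerivAt (Gd (qT h)) (Gd (qT h) x * ((-2 * deriv (q0 h) x : ℝ) +
      Complex.I * (Real.exp (q0 h x) : ℝ))) x := by
    intro x
    have hq : HasDerivAt (q0 h) (deriv (q0 h) x) x :=
      (((contDiff_q0 h).differentiable (by simp)) x).hasDerivAt
    have hT := hasDerivAt_Th (q := qT h) x
    rw [qr_qT] at hT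
    have h1 : HasDerivAt (fun x => ((-2 * q0 h x : ℝ) : ℂ)) ((-2 * deriv (q0 h) x : ℝ) : ℂ) x :=
      (hq.const_mul (-2)).ofReal_comp
    have h2 := h1.add ((hT.ofReal_comp).const_mul Complex.I)
    have h3 := h2.cexp
    have h4 : Gd (qT h) = fun x => Complex.exp (((-2 * q0 h x : ℝ) : ℂ) +
        Complex.I * ((Th (qT h) x : ℝ) : ℂ)) := by
      funext y
      unfold Gd
      rw [qr_qT]
    rw [h4]
    exact h3
  have hW : ∀ x, HasDerivAt (fun x => vel h x / Gd (qT h) x) 0 x := by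
    intro x
    have h1 := (hasDerivAt_vel' h x).div (hG x) (Gd_ne _ x)
    refine h1.congr_deriv ?_
    have : vel h x * ((-2 * deriv (q0 h) x : ℝ) + Complex.I * (Real.exp (q0 h x) : ℝ)) * Gd (qT h) x -
      vel h x * (Gd (qT h) x * ((-2 * deriv (q0 h) x : ℝ) + Complex.I * (Real.exp (q0 h x) : ℝ))) =
      0 := by ring
    rw [this, zero_div]
  have h4 := is_const_of_deriv_eq_zero (fun x => (hW x).differentiableAt)
    (fun x => (hW x).deriv) x 0
  rw [div_eq_iff (Gd_ne _ x)] at h4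
  exact h4

lemma cv_eq (h : IsTable Ω γ P) (x : ℝ) :
    toC (γ (sig h x)) = toC (γ (sig h 0)) + Kc h * Gc (qT h) x := by
  have h1 : ∀ x, HasDerivAt (fun x => toC (γ (sig h x)) - Kc h * Gc (qT h) x) 0 x := by
    intro x
    have h2 := (hasDerivAt_cv h x).sub ((hasDerivAt_Gc (q := qT h) x).const_mul (Kc h))
    rw [vel_eq, sub_self] at h2
    exact h2
  have h4 := is_const_of_deriv_eq_zero (fun x => (h1 x).differentiableAt)
    (fun x => (h1 x).deriv) x 0
  have h5 : Gc (qT h) 0 = 0 := by unfold Gc; simp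
  simp only [h5] at h4
  linear_combination h4

end

/-- `q` (in the Lazutkin coordinate), the parameter change `σ` and the constant `K` of a table:
`γ (σ x) = γ (σ 0) + K * Gc q x`. Only the values of `q` on the real line matter. -/
structure Laz (γ : ℝ → ℝ × ℝ) (P : ℝ) (q : C(ℂ, ℂ)) (σ : ℝ → ℝ) (K : ℂ) : Prop where
  im : ∀ x : ℝ, (q x).im = 0
  per : ∀ x : ℝ, q ((x : ℂ) + 1) = q x
  smooth : ContDiff ℝ (⊤ : ℕ∞) (qr q)
  σ_smooth : ContDiff ℝ (⊤ : ℕ∞) σ
  σ_mono : StrictMono σ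
  σ_surj : Function.Surjective σ
  σ_per : ∀ x, σ (x + 1) = σ x + P
  σ_pos : ∀ x, 0 < deriv σ x
  K_ne : K ≠ 0
  curve : ∀ x, toC (γ (σ x)) = toC (γ (σ 0)) + K * Gc q x

theorem laz_of_isTable {Ω : Set (ℝ × ℝ)} {γ : ℝ → ℝ × ℝ} {P : ℝ} (h : IsTable Ω γ P) :
    Laz γ P (qT h) (sig h) (Kc h) where
  im x := by rw [qT_ofReal]; simp
  per x := by
    have : (x : ℂ) + 1 = ((x + 1 : ℝ) : ℂ) := by push_cast; rfl
    rw [this, qT_ofReal, qT_ofReal, q0_per]
  smooth := by rw [qr_qT]; exact contDiff_q0 h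
  σ_smooth := contDiff_sig h
  σ_mono := sig_mono h
  σ_surj := sig_surj h
  σ_per := sig_per h
  σ_pos x := by rw [(hasDerivAt_sig h x).deriv]; exact sd_pos h x
  K_ne := Kc_ne h
  curve := cv_eq h

lemma Gc_congr {q q' : C(ℂ, ℂ)} (h : ∀ x : ℝ, q' x = q x) :
    qr q' = qr q ∧ Th q' = Th q ∧ Gd q' = Gd q ∧ Gc q' = Gc q := by
  have h1 : qr q' = qr q := by funext x; unfold qr; rw [h]
  have h2 : Th q' = Th q := by unfold Th; rw [h1]
  have h3 : Gd q' = Gd q := by unfold Gd; rw [h1, h2]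
  exact ⟨h1, h2, h3, by unfold Gc; rw [h3]⟩

theorem Laz.congr {γ : ℝ → ℝ × ℝ} {P : ℝ} {q q' : C(ℂ, ℂ)} {σ : ℝ → ℝ} {K : ℂ}
    (hL : Laz γ P q σ K) (h : ∀ x : ℝ, q' x = q x) : Laz γ P q' σ K where
  im x := by rw [h]; exact hL.im x
  per x := by
    have : (x : ℂ) + 1 = ((x + 1 : ℝ) : ℂ) := by push_cast; rfl
    rw [this, h, h, ← hL.per x, this]
  smooth := by rw [(Gc_congr h).1]; exact hL.smooth
  σ_smooth := hL.σ_smooth
  σ_mono := hL.σ_mono
  σ_surj := hL.σ_surj
  σ_per := hL.σ_per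
  σ_pos := hL.σ_pos
  K_ne := hL.K_ne
  curve x := by rw [(Gc_congr h).2.2.2]; exact hL.curve x

end Crest.Agent.R102.T5
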