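import Mathlib
import Crest.Agent.R102.Geo_821
import Crest.Agent.R102.T5a_576

-- ▼ part R102/Fin_821
section

/-!
(FIN): a table whose boundary curve lies on a conic (zero set of a nonzero polynomial of degree
at most two) is the inside of an ellipse.
-/

set_option autoImplicit false

namespace Crest.Agent.R102.S0

open Crest.AnalysisR.Billiard Set Filter Topology Matrix

/-- polynomial of degree at most two. -/
def qpoly (A B C D E F : ℝ) (x : ℝ × ℝ) : ℝ :=
  A * x.1 ^ 2 + B * x.1 * x.2 + C * x.2 ^ 2 + D * x.1 + E * x.2 + F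

/-- the quadratic form part. -/
def qform (A B C : ℝ) (v : ℝ × ℝ) : ℝ := A * v.1 ^ 2 + B * v.1 * v.2 + C * v.2 ^ 2

/-- linear part at `p`. -/
def qlin (A B C D E : ℝ) (p v : ℝ × ℝ) : ℝ :=
  2 * A * p.1 * v.1 + B * (p.1 * v.2 + p.2 * v.1) + 2 * C * p.2 * v.2 + D * v.1 + E * v.2

lemma qpoly_line (A B C D E F : ℝ) (p v : ℝ × ℝ) (t : ℝ) :
    qpoly A B C D E F (p + t • v) =
      qform A B C v * t ^ 2 + qlin A B C D E p v * t + qpoly A B C D E F p := by
  simp only [qpoly, qform, qlin, Prod.fst_add, Prod.snd_add, Prod.smul_fst, Prod.smul_snd,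
    smul_eq_mul]
  ring

/-- a line through a point of a bounded open convex set: the two boundary parameters. -/
lemma exists_ends {Ω : Set (ℝ × ℝ)} (ho : IsOpen Ω) (hb : Bornology.IsBounded Ω)
    (hc : Convex ℝ Ω) {p v : ℝ × ℝ} (hp : p ∈ Ω) (hv : v ≠ 0) :
    ∃ a b : ℝ, a < 0 ∧ 0 < b ∧ p + a • v ∈ frontier Ω ∧ p + b • v ∈ frontier Ω ∧
      ∀ t : ℝ, p + t • v ∈ Ω ↔ a < t ∧ t < b := by
  set I : Set ℝ := {t | p + t • v ∈ Ω} with hI
  have hcontf : Continuous (fun t : ℝ => p + t • v) := by fun_prop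
  have hIo : IsOpen I := ho.preimage hcontf
  have h0 : (0 : ℝ) ∈ I := by simp only [hI, mem_ofPred_eq, zero_smul, add_zero]; exact hp
  have hIc : Convex ℝ I := by
    intro s hs t ht α β hα hβ hαβ
    have := hc hs ht hα hβ hαβ
    have he : α • (p + s • v) + β • (p + t • v) = p + (α • s + β • t) • v := by
      simp only [smul_add, smul_smul, add_smul, smul_eq_mul]
      have : α • p + β • p = p := by rw [← add_smul, hαβ, one_smul]
      nth_rewrite 3 [← this]
      abel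
    rw [he] at this
    exact this
  have hnv : 0 < ‖v‖ := norm_pos_iff.mpr hv
  obtain ⟨R, hR⟩ := hb.exists_norm_le
  have hbd : ∀ t ∈ I, |t| ≤ (R + ‖p‖) / ‖v‖ := by
    intro t ht
    rw [le_div_iff₀ hnv]
    have h1 : ‖t • v‖ ≤ ‖p + t • v‖ + ‖p‖ := by
      have : t • v = (p + t • v) - p := by abel
      calc ‖t • v‖ = ‖(p + t • v) - p‖ := by rw [← this]
        _ ≤ ‖p + t • v‖ + ‖p‖ := norm_sub_le _ _
    rw [norm_smul, Real.norm_eq_abs] at h1
    linarith [hR _ ht]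
  have hbA : BddAbove I := ⟨_, fun t ht => (abs_le.mp (hbd t ht)).2⟩
  have hbB : BddBelow I := ⟨_, fun t ht => (abs_le.mp (hbd t ht)).1⟩
  have hne : I.Nonempty := ⟨0, h0⟩
  have hsup : sSup I ∉ I := by
    intro hmem
    obtain ⟨ε, hε, hball⟩ := Metric.isOpen_iff.mp hIo _ hmem
    have : sSup I + ε / 2 ∈ I := hball (by
      rw [Metric.mem_ball, Real.dist_eq, show sSup I + ε / 2 - sSup I = ε / 2 by ring,
        abs_of_pos (by linarith)]; linarith)
    linarith [le_csSup hbA this]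
  have hinf : sInf I ∉ I := by
    intro hmem
    obtain ⟨ε, hε, hball⟩ := Metric.isOpen_iff.mp hIo _ hmem
    have : sInf I - ε / 2 ∈ I := hball (by
      rw [Metric.mem_ball, Real.dist_eq, show sInf I - ε / 2 - sInf I = -(ε / 2) by ring,
        abs_neg, abs_of_pos (by linarith)]; linarith)
    linarith [csInf_le hbB this]
  have hsupc : sSup I ∈ closure I := csSup_mem_closure hne hbA
  have hinfc : sInf I ∈ closure I := csInf_mem_closure hne hbB
  have hcl : ∀ t ∈ closure I, p + t • v ∈ closure Ω := by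
    intro t ht
    exact closure_mono (image_subset_iff.mpr (fun t ht => ht))
      (image_closure_subset_closure_image hcontf (mem_image_of_mem _ ht))
  have hfr : ∀ t ∈ closure I, t ∉ I → p + t • v ∈ frontier Ω := by
    intro t ht hnt
    rw [ho.frontier_eq]
    exact ⟨hcl t ht, hnt⟩
  have hiff : ∀ t : ℝ, p + t • v ∈ Ω ↔ sInf I < t ∧ t < sSup I := by
    intro t
    constructor
    · intro ht
      have ht' : t ∈ I := ht
      refine ⟨lt_of_le_of_ne (csInf_le hbB ht') ?_, lt_of_le_of_ne (le_csSup hbA ht') ?_⟩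
      · intro he; exact hinf (he ▸ ht')
      · intro he; exact hsup (he ▸ ht')
    · rintro ⟨h1, h2⟩
      obtain ⟨a, ha, hat⟩ := exists_lt_of_csInf_lt hne h1
      obtain ⟨b, hb', hbt⟩ := exists_lt_of_lt_csSup hne h2
      exact hIc.ordConnected.out ha hb' ⟨hat.le, hbt.le⟩
  have h00 := (hiff 0).mp (by simpa using hp)
  exact ⟨sInf I, sSup I, h00.1, h00.2, hfr _ hinfc hinf, hfr _ hsupc hsup, hiff⟩

theorem ellipse_of_conic {Ω : Set (ℝ × ℝ)} {γ : ℝ → ℝ × ℝ} {P : ℝ} (h : IsTable Ω γ P)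
    (A B C D E F : ℝ)
    (hne : ¬ (A = 0 ∧ B = 0 ∧ C = 0 ∧ D = 0 ∧ E = 0 ∧ F = 0))
    (hz : ∀ s, qpoly A B C D E F (γ s) = 0) :
    ∃ (c : ℝ × ℝ) (Q : Matrix (Fin 2) (Fin 2) ℝ), Q.PosDef ∧
      Ω = {x : ℝ × ℝ | dotProduct ![x.1 - c.1, x.2 - c.2]
        (Q.mulVec ![x.1 - c.1, x.2 - c.2]) < 1} := by
  obtain ⟨p, hp⟩ := tbl_nonempty h
  have hfr : ∀ z ∈ frontier Ω, qpoly A B C D E F z = 0 := by
    intro z hz'
    rw [← tbl_range h] at hz'
    obtain ⟨s, rfl⟩ := hz'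
    exact hz s
  have hends := fun {v : ℝ × ℝ} (hv : v ≠ 0) =>
    exists_ends (tbl_open h) h.2.1 (tbl_convex h) hp hv
  -- factorisation on lines through p
  have hfac : ∀ v : ℝ × ℝ, v ≠ 0 → ∃ a b : ℝ, a < 0 ∧ 0 < b ∧
      (∀ t, qpoly A B C D E F (p + t • v) = qform A B C v * (t - a) * (t - b)) ∧
      (∀ t : ℝ, p + t • v ∈ Ω ↔ a < t ∧ t < b) := by
    intro v hv
    obtain ⟨a, b, ha, hb, hfa, hfb, hiff⟩ := hends hv
    refine ⟨a, b, ha, hb, ?_, hiff⟩
    have h1 := hfr _ hfa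
    have h2 := hfr _ hfb
    rw [qpoly_line] at h1 h2
    intro t
    rw [qpoly_line]
    have hab : a - b ≠ 0 := by linarith
    have h3 : qlin A B C D E p v = - qform A B C v * (a + b) := by
      have : (a - b) * (qform A B C v * (a + b) + qlin A B C D E p v) = 0 := by
        linear_combination h1 - h2
      rcases mul_eq_zero.mp this with h4 | h4
      · exact absurd h4 hab
      · linarith
    have h4 : qpoly A B C D E F p = qform A B C v * (a * b) := by
      rw [h3] at h1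
      linear_combination h1
    rw [h3, h4]
    ring
  -- q(p) ≠ 0
  have hqp : qpoly A B C D E F p ≠ 0 := by
    intro h0
    apply hne
    have hall : ∀ v : ℝ × ℝ, v ≠ 0 → qform A B C v = 0 ∧ qlin A B C D E p v = 0 := by
      intro v hv
      obtain ⟨a, b, ha, hb, hf, -⟩ := hfac v hv
      have h1 := hf 0
      simp only [zero_smul, add_zero, h0] at h1
      have h2 : qform A B C v = 0 := by
        have : qform A B C v * (a * b) = 0 := by linear_combination -h1
        rcases mul_eq_zero.mp this with h3 | h3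
        · exact h3
        · exact absurd h3 (mul_neg_of_neg_of_pos ha hb).ne
      refine ⟨h2, ?_⟩
      have h3 := hf 1
      rw [qpoly_line, h2, h0] at h3
      linarith
    have e1 := hall (1, 0) (by simp)
    have e2 := hall (0, 1) (by simp)
    have e3 := hall (1, 1) (by simp)
    simp only [qform, qlin] at e1 e2 e3
    have hA : A = 0 := by linarith [e1.1]
    have hC : C = 0 := by linarith [e2.1]
    have hB : B = 0 := by linarith [e3.1]
    subst hA hC hB
    have hD : D = 0 := by linarith [e1.2]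
    have hE : E = 0 := by linarith [e2.2]
    subst hD hE
    have hF : F = 0 := by simpa [qpoly] using h0
    exact ⟨rfl, rfl, rfl, rfl, rfl, hF⟩
  -- WLOG sign: work with σ = -sign
  -- positive definiteness of (-q(p)) * form
  set k0 := - qpoly A B C D E F p with hk0
  have hdef : ∀ v : ℝ × ℝ, v ≠ 0 → 0 < k0 * qform A B C v := by
    intro v hv
    obtain ⟨a, b, ha, hb, hf, -⟩ := hfac v hv
    have h1 := hf 0
    simp only [zero_smul, add_zero] at h1
    have h2 : k0 = qform A B C v * (-(a * b)) := by rw [hk0, h1]; ring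
    have h3 : 0 < -(a * b) := by nlinarith
    have h4 : qform A B C v ≠ 0 := by
      intro h5
      rw [h5, zero_mul] at h1
      rw [zero_mul] at h1
      exact hqp h1
    rw [h2]
    have : 0 < qform A B C v ^ 2 := by positivity
    nlinarith
  have hk0ne : k0 ≠ 0 := by rw [hk0]; exact neg_ne_zero.mpr hqp
  -- discriminant
  have hA : 0 < k0 * A := by
    have := hdef (1, 0) (by simp)
    simpa [qform] using this
  have hdisc : 0 < 4 * A * C - B ^ 2 := by
    have hAne : A ≠ 0 := by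
      intro h0; rw [h0, mul_zero] at hA; exact lt_irrefl _ hA
    have h1 := hdef (-B, 2 * A) (by
      intro h0
      have := congrArg Prod.snd h0
      simp at this
      exact hAne this)
    have h2 : k0 * qform A B C (-B, 2 * A) = (k0 * A) * (4 * A * C - B ^ 2) := by
      simp only [qform]; ring
    rw [h2] at h1
    exact (mul_pos_iff_of_pos_left hA).mp h1
  set dd := 4 * A * C - B ^ 2 with hdd
  -- centre
  set c1 := (B * E - 2 * C * D) / dd with hc1
  set c2 := (B * D - 2 * A * E) / dd with hc2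
  have hlin1 : 2 * A * c1 + B * c2 + D = 0 := by
    rw [hc1, hc2]; field_simp; rw [hdd]; ring
  have hlin2 : B * c1 + 2 * C * c2 + E = 0 := by
    rw [hc1, hc2]; field_simp; rw [hdd]; ring
  set k := - qpoly A B C D E F (c1, c2) with hk
  have hcen : ∀ x : ℝ × ℝ, qpoly A B C D E F x =
      qform A B C (x.1 - c1, x.2 - c2) - k := by
    intro x
    simp only [qpoly, qform, hk]
    linear_combination (x.1 - c1) * hlin1 + (x.2 - c2) * hlin2
  have hkk : 0 < k0 * k := by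
    have h1 := hcen p
    have h2 : k0 * k = k0 * qform A B C (p.1 - c1, p.2 - c2) + k0 ^ 2 := by
      rw [hk0]; rw [h1]; ring
    rw [h2]
    have h3 : 0 ≤ k0 * qform A B C (p.1 - c1, p.2 - c2) := by
      by_cases h4 : (p.1 - c1, p.2 - c2) = ((0 : ℝ), (0 : ℝ))
      · rw [h4]; simp [qform]
      · exact (hdef _ h4).le
    positivity
  have hkne : k ≠ 0 := by
    intro h0; rw [h0, mul_zero] at hkk; exact lt_irrefl _ hkk
  refine ⟨(c1, c2), !![A / k, B / (2 * k); B / (2 * k), C / k], ?_, ?_⟩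
  · -- positive definite
    have hform : ∀ x : Fin 2 → ℝ, dotProduct x ((!![A / k, B / (2 * k); B / (2 * k), C / k] :
        Matrix (Fin 2) (Fin 2) ℝ).mulVec x) = qform A B C (x 0, x 1) / k := by
      intro x
      simp [dotProduct, Matrix.mulVec, Fin.sum_univ_two, qform]
      field_simp
      ring
    rw [Matrix.posDef_iff_dotProduct_mulVec]
    refine ⟨?_, ?_⟩
    · ext i j
      fin_cases i <;> fin_cases j <;> simp
    · intro x hx
      have hx' : (x 0, x 1) ≠ ((0 : ℝ), (0 : ℝ)) := by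
        intro h0
        apply hx
        funext i
        fin_cases i
        · exact congrArg Prod.fst h0
        · exact congrArg Prod.snd h0
      have h1 := hform x
      have hstar : star x = x := by funext i; simp
      rw [hstar, h1]
      have h2 := hdef _ hx'
      have h3 : qform A B C (x 0, x 1) / k = (k0 * qform A B C (x 0, x 1)) / (k0 * k) := by
        field_simp
      rw [h3]
      exact div_pos h2 hkk
  · ext x
    have hform : dotProduct ![x.1 - c1, x.2 - c2]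
        ((!![A / k, B / (2 * k); B / (2 * k), C / k] :
        Matrix (Fin 2) (Fin 2) ℝ).mulVec ![x.1 - c1, x.2 - c2]) =
        qform A B C (x.1 - c1, x.2 - c2) / k := by
      simp [dotProduct, Matrix.mulVec, Fin.sum_univ_two, qform]
      field_simp
      ring
    simp only [mem_ofPred_eq]
    rw [hform]
    -- k0 * q(x) < 0 iff x ∈ Ω
    have hside : x ∈ Ω ↔ k0 * qpoly A B C D E F x < 0 := by
      by_cases hxp : x = p
      · rw [hxp]
        constructor
        · intro _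
          have : 0 < k0 ^ 2 := by positivity
          rw [hk0] at this ⊢
          nlinarith
        · intro _; exact hp
      · have hv : x - p ≠ 0 := sub_ne_zero.mpr hxp
        obtain ⟨a, b, ha, hb, hf, hiff⟩ := hfac _ hv
        have h1 := hf 1
        have h2 := hiff 1
        have hx1 : p + (1 : ℝ) • (x - p) = x := by rw [one_smul]; abel
        rw [hx1] at h1 h2
        rw [h2, h1]
        have h3 := hdef _ hv
        constructor
        · rintro ⟨-, h5⟩
          have : k0 * (qform A B C (x - p) * (1 - a) * (1 - b)) =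
            (k0 * qform A B C (x - p)) * ((1 - a) * (1 - b)) := by ring
          rw [this]
          have h6 : (1 - a) * (1 - b) < 0 := mul_neg_of_pos_of_neg (by linarith) (by linarith)
          exact mul_neg_of_pos_of_neg h3 h6
        · intro h5
          refine ⟨by linarith, ?_⟩
          by_contra h6
          push Not at h6
          have : k0 * (qform A B C (x - p) * (1 - a) * (1 - b)) =
            (k0 * qform A B C (x - p)) * ((1 - a) * (1 - b)) := by ring
          rw [this] at h5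
          have h7 : 0 ≤ (1 - a) * (1 - b) := mul_nonneg (by linarith) (by linarith)
          have h8 := mul_nonneg h3.le h7
          linarith
    rw [hside, hcen x]
    have h9 : qform A B C (x.1 - c1, x.2 - c2) / k < 1 ↔
        (k0 * qform A B C (x.1 - c1, x.2 - c2)) / (k0 * k) < 1 := by
      rw [mul_div_mul_left _ _ hk0ne]
    rw [h9, div_lt_one hkk]
    constructor
    · intro h10; nlinarith
    · intro h10; nlinarith

end Crest.Agent.R102.S0
end

-- ▼ part R102/KC_821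

/-!
(KC): if `y = κ^{1/3}` satisfies `y'' = (K - 2 y²) y` with constant `K` in the Lazutkin
coordinate, then the table is the inside of an ellipse.
-/

set_option autoImplicit false

namespace Crest.Agent.R102.S0

open Crest.AnalysisR.Billiard Set Filter Topology Matrix
open Crest.Agent.R102.T5 Crest.Agent.R102.G576

/-- abstract version: real functions `y, y1, Θ, X, Y`. -/
theorem conic_of_Kconst {y y1 Θ X Y : ℝ → ℝ} {K : ℝ} (hy : ∀ x, 0 < y x)
    (dy : ∀ x, HasDerivAt y (y1 x) x) (dy1 : ∀ x, HasDerivAt y1 ((K - 2 * y x ^ 2) * y x) x)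
    (dΘ : ∀ x, HasDerivAt Θ (y x) x)
    (dX : ∀ x, HasDerivAt X ((y x ^ 2)⁻¹ * Real.cos (Θ x)) x)
    (dY : ∀ x, HasDerivAt Y ((y x ^ 2)⁻¹ * Real.sin (Θ x)) x)
    (hper : ∀ x, y (x + 1) = y x) :
    ∃ m11 m12 m22 c1 c2 C : ℝ, C < 0 ∧
      ∀ x, m11 * (X x - c1) ^ 2 + 2 * m12 * (X x - c1) * (Y x - c2) + m22 * (Y x - c2) ^ 2
        + C⁻¹ = 0 := by
  -- first integral
  have hconst : ∀ {f : ℝ → ℝ}, (∀ x, HasDerivAt f 0 x) → ∀ x, f x = f 0 := by
    intro f hf x
    exact is_const_of_deriv_eq_zero (fun x => (hf x).differentiableAt) (fun x => (hf x).deriv) x 0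
  set C : ℝ := y1 0 ^ 2 - K * y 0 ^ 2 + y 0 ^ 4 with hC
  have hint : ∀ x, y1 x ^ 2 - K * y x ^ 2 + y x ^ 4 = C := by
    intro x
    refine hconst (f := fun x => y1 x ^ 2 - K * y x ^ 2 + y x ^ 4) (fun x => ?_) x
    have h1 := (((dy1 x).pow 2).sub (((dy x).pow 2).const_mul K)).add ((dy x).pow 4)
    refine h1.congr_deriv ?_
    simp only [Nat.cast_ofNat]
    ring
  -- minimum of y
  have hyc : Continuous y := continuous_iff_continuousAt.2 (fun x => (dy x).continuousAt)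
  obtain ⟨xm, -, hxm⟩ := isCompact_Icc.exists_isMinOn (nonempty_Icc.mpr (zero_le_one (α := ℝ)))
    (hyc.continuousOn (s := Icc (0 : ℝ) 1))
  have hperZ : ∀ x : ℝ, ∃ x' ∈ Icc (0 : ℝ) 1, y x' = y x := by
    intro x
    have hP : Function.Periodic y 1 := hper
    refine ⟨Int.fract x, ⟨Int.fract_nonneg x, (Int.fract_lt_one x).le⟩, ?_⟩
    have : Int.fract x = x - (⌊x⌋ : ℤ) • (1 : ℝ) := by
      rw [zsmul_eq_mul, mul_one]; rfl
    rw [this]
    exact hP.sub_zsmul_eq ⌊x⌋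
  have hmin : ∀ x, y xm ≤ y x := by
    intro x
    obtain ⟨x', hx', he⟩ := hperZ x
    rw [← he]
    exact hxm hx'
  have hy1m : y1 xm = 0 :=
    IsLocalMin.hasDerivAt_eq_zero (Filter.Eventually.of_forall hmin) (dy xm)
  have hCm : C = y xm ^ 2 * (y xm ^ 2 - K) := by
    rw [← hint xm, hy1m]; ring
  have hCneg : C < 0 := by
    have hm := hy xm
    by_cases hcst : ∀ x, y x = y xm
    · have h1 : HasDerivAt y 0 xm := by
        have : y = fun _ => y xm := funext hcst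
        rw [this]; exact hasDerivAt_const _ _
      have hy1z : ∀ x, y1 x = 0 := by
        intro x
        have h2 : HasDerivAt y 0 x := by
          have : y = fun _ => y xm := funext hcst
          rw [this]; exact hasDerivAt_const _ _
        exact (dy x).unique h2
      have h3 : HasDerivAt y1 0 xm := by
        have : y1 = fun _ => (0 : ℝ) := funext hy1z
        rw [this]; exact hasDerivAt_const _ _
      have h4 := (dy1 xm).unique h3
      have h5 : K = 2 * y xm ^ 2 := by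
        rcases mul_eq_zero.mp h4 with h | h
        · linarith
        · exact absurd h hm.ne'
      rw [hCm, h5]
      have : 0 < y xm ^ 4 := by positivity
      nlinarith
    · push Not at hcst
      obtain ⟨x, hx⟩ := hcst
      have hlt : y xm < y x := lt_of_le_of_ne (hmin x) (Ne.symm hx)
      have h1 := hint x
      have h2 : 0 ≤ y1 x ^ 2 := sq_nonneg _
      -- (y x ^2 - ym^2) * (K - y x^2 - ym^2) = y1 x^2
      have h3 : (y x ^ 2 - y xm ^ 2) * (K - y x ^ 2 - y xm ^ 2) = y1 x ^ 2 := by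
        rw [hCm] at h1
        linear_combination -h1
      have h4 : 0 < y x ^ 2 - y xm ^ 2 := by nlinarith
      have h5 : 0 ≤ K - y x ^ 2 - y xm ^ 2 := by
        by_contra h6
        push Not at h6
        nlinarith
      have h6 : y xm ^ 2 - K < 0 := by
        have := hy x
        nlinarith [sq_nonneg (y x)]
      rw [hCm]
      exact mul_neg_of_pos_of_neg (by positivity) h6
  have hCne : C ≠ 0 := hCneg.ne
  -- centre
  have hcs : ∀ x, Real.cos (Θ x) ^ 2 + Real.sin (Θ x) ^ 2 = 1 := fun x =>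
    Real.cos_sq_add_sin_sq (Θ x)
  have dcos : ∀ x, HasDerivAt (fun x => Real.cos (Θ x)) (-(Real.sin (Θ x)) * y x) x :=
    fun x => (dΘ x).cos
  have dsin : ∀ x, HasDerivAt (fun x => Real.sin (Θ x)) (Real.cos (Θ x) * y x) x :=
    fun x => (dΘ x).sin
  have hyne : ∀ x, y x ≠ 0 := fun x => (hy x).ne'
  -- derivative of y1 / y
  have dq1 : ∀ x, HasDerivAt (fun x => y1 x / y x) (-(y x ^ 2) - C * (y x ^ 2)⁻¹) x := by
    intro x
    refine ((dy1 x).div (dy x) (hyne x)).congr_deriv ?_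
    have := hint x
    have h2 := hyne x
    field_simp
    linear_combination -this
  have hc1 : ∀ x, X x + C⁻¹ * (y1 x / y x) * Real.cos (Θ x) + C⁻¹ * y x * Real.sin (Θ x) =
      X 0 + C⁻¹ * (y1 0 / y 0) * Real.cos (Θ 0) + C⁻¹ * y 0 * Real.sin (Θ 0) := by
    intro x
    refine hconst (f := fun x => X x + C⁻¹ * (y1 x / y x) * Real.cos (Θ x) +
      C⁻¹ * y x * Real.sin (Θ x)) (fun x => ?_) x
    refine (((dX x).add (((dq1 x).const_mul C⁻¹).mul (dcos x))).add
      (((dy x).const_mul C⁻¹).mul (dsin x))).congr_deriv ?_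
    have h2 := hyne x
    field_simp
    ring
  have hc2 : ∀ x, Y x + C⁻¹ * (y1 x / y x) * Real.sin (Θ x) - C⁻¹ * y x * Real.cos (Θ x) =
      Y 0 + C⁻¹ * (y1 0 / y 0) * Real.sin (Θ 0) - C⁻¹ * y 0 * Real.cos (Θ 0) := by
    intro x
    refine hconst (f := fun x => Y x + C⁻¹ * (y1 x / y x) * Real.sin (Θ x) -
      C⁻¹ * y x * Real.cos (Θ x)) (fun x => ?_) x
    refine (((dY x).add (((dq1 x).const_mul C⁻¹).mul (dsin x))).sub
      (((dy x).const_mul C⁻¹).mul (dcos x))).congr_deriv ?_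
    have h2 := hyne x
    field_simp
    ring
  -- the matrix
  have hm11 : ∀ x, y x ^ 2 * Real.cos (Θ x) ^ 2 - 2 * y1 x * (Real.cos (Θ x) * Real.sin (Θ x)) +
      (K - y x ^ 2) * Real.sin (Θ x) ^ 2 = y 0 ^ 2 * Real.cos (Θ 0) ^ 2 -
      2 * y1 0 * (Real.cos (Θ 0) * Real.sin (Θ 0)) + (K - y 0 ^ 2) * Real.sin (Θ 0) ^ 2 := by
    intro x
    refine hconst (f := fun x => y x ^ 2 * Real.cos (Θ x) ^ 2 -
      2 * y1 x * (Real.cos (Θ x) * Real.sin (Θ x)) + (K - y x ^ 2) * Real.sin (Θ x) ^ 2)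
      (fun x => ?_) x
    refine (((((dy x).pow 2).mul ((dcos x).pow 2)).sub (((dy1 x).const_mul 2).mul
      ((dcos x).mul (dsin x)))).add ((((dy x).pow 2).const_sub K).mul ((dsin x).pow 2))).congr_deriv ?_
    simp only [Nat.cast_ofNat, Pi.mul_apply, Pi.pow_apply, Pi.sub_apply]
    ring
  have hm12 : ∀ x, y x ^ 2 * (Real.cos (Θ x) * Real.sin (Θ x)) +
      y1 x * (Real.cos (Θ x) ^ 2 - Real.sin (Θ x) ^ 2) -
      (K - y x ^ 2) * (Real.cos (Θ x) * Real.sin (Θ x)) =
      y 0 ^ 2 * (Real.cos (Θ 0) * Real.sin (Θ 0)) +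
      y1 0 * (Real.cos (Θ 0) ^ 2 - Real.sin (Θ 0) ^ 2) -
      (K - y 0 ^ 2) * (Real.cos (Θ 0) * Real.sin (Θ 0)) := by
    intro x
    refine hconst (f := fun x => y x ^ 2 * (Real.cos (Θ x) * Real.sin (Θ x)) +
      y1 x * (Real.cos (Θ x) ^ 2 - Real.sin (Θ x) ^ 2) -
      (K - y x ^ 2) * (Real.cos (Θ x) * Real.sin (Θ x))) (fun x => ?_) x
    refine (((((dy x).pow 2).mul ((dcos x).mul (dsin x))).add ((dy1 x).mul
      (((dcos x).pow 2).sub ((dsin x).pow 2)))).sub ((((dy x).pow 2).const_sub K).mul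
      ((dcos x).mul (dsin x)))).congr_deriv ?_
    simp only [Nat.cast_ofNat, Pi.mul_apply, Pi.pow_apply, Pi.sub_apply]
    ring
  have hm22 : ∀ x, y x ^ 2 * Real.sin (Θ x) ^ 2 + 2 * y1 x * (Real.cos (Θ x) * Real.sin (Θ x)) +
      (K - y x ^ 2) * Real.cos (Θ x) ^ 2 = y 0 ^ 2 * Real.sin (Θ 0) ^ 2 +
      2 * y1 0 * (Real.cos (Θ 0) * Real.sin (Θ 0)) + (K - y 0 ^ 2) * Real.cos (Θ 0) ^ 2 := by
    intro x
    refine hconst (f := fun x => y x ^ 2 * Real.sin (Θ x) ^ 2 +
      2 * y1 x * (Real.cos (Θ x) * Real.sin (Θ x)) + (K - y x ^ 2) * Real.cos (Θ x) ^ 2)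
      (fun x => ?_) x
    refine (((((dy x).pow 2).mul ((dsin x).pow 2)).add (((dy1 x).const_mul 2).mul
      ((dcos x).mul (dsin x)))).add ((((dy x).pow 2).const_sub K).mul ((dcos x).pow 2))).congr_deriv ?_
    simp only [Nat.cast_ofNat, Pi.mul_apply, Pi.pow_apply, Pi.sub_apply]
    ring
  refine ⟨y 0 ^ 2 * Real.cos (Θ 0) ^ 2 - 2 * y1 0 * (Real.cos (Θ 0) * Real.sin (Θ 0)) +
      (K - y 0 ^ 2) * Real.sin (Θ 0) ^ 2,
    y 0 ^ 2 * (Real.cos (Θ 0) * Real.sin (Θ 0)) +
      y1 0 * (Real.cos (Θ 0) ^ 2 - Real.sin (Θ 0) ^ 2) -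
      (K - y 0 ^ 2) * (Real.cos (Θ 0) * Real.sin (Θ 0)),
    y 0 ^ 2 * Real.sin (Θ 0) ^ 2 + 2 * y1 0 * (Real.cos (Θ 0) * Real.sin (Θ 0)) +
      (K - y 0 ^ 2) * Real.cos (Θ 0) ^ 2,
    X 0 + C⁻¹ * (y1 0 / y 0) * Real.cos (Θ 0) + C⁻¹ * y 0 * Real.sin (Θ 0),
    Y 0 + C⁻¹ * (y1 0 / y 0) * Real.sin (Θ 0) - C⁻¹ * y 0 * Real.cos (Θ 0),
    C, hCneg, fun x => ?_⟩
  · rw [← hm11 x, ← hm12 x, ← hm22 x, ← hc1 x, ← hc2 x]
    have h1 := hint x
    have h2 := hyne x
    have h3 := hcs x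
    set c := Real.cos (Θ x)
    set s := Real.sin (Θ x)
    set Y0 := y x
    set Y1 := y1 x
    -- X - c1 = -C⁻¹ ((Y1/Y0) c + Y0 s), Y - c2 = -C⁻¹ ((Y1/Y0) s - Y0 c)
    have e1 : X x - (X x + C⁻¹ * (Y1 / Y0) * c + C⁻¹ * Y0 * s) =
        -(C⁻¹ * ((Y1 / Y0) * c + Y0 * s)) := by ring
    have e2 : Y x - (Y x + C⁻¹ * (Y1 / Y0) * s - C⁻¹ * Y0 * c) =
        -(C⁻¹ * ((Y1 / Y0) * s - Y0 * c)) := by ring
    rw [e1, e2]
    have hc2' : c ^ 2 = 1 - s ^ 2 := by linarith
    have key : (Y0 ^ 2 * c ^ 2 - 2 * Y1 * (c * s) + (K - Y0 ^ 2) * s ^ 2) *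
        ((Y1 / Y0) * c + Y0 * s) ^ 2 + 2 * (Y0 ^ 2 * (c * s) + Y1 * (c ^ 2 - s ^ 2) -
        (K - Y0 ^ 2) * (c * s)) * ((Y1 / Y0) * c + Y0 * s) * ((Y1 / Y0) * s - Y0 * c) +
        (Y0 ^ 2 * s ^ 2 + 2 * Y1 * (c * s) + (K - Y0 ^ 2) * c ^ 2) *
        ((Y1 / Y0) * s - Y0 * c) ^ 2 = -C := by
      have e3 : (Y0 ^ 2 * c ^ 2 - 2 * Y1 * (c * s) + (K - Y0 ^ 2) * s ^ 2) *
        ((Y1 / Y0) * c + Y0 * s) ^ 2 + 2 * (Y0 ^ 2 * (c * s) + Y1 * (c ^ 2 - s ^ 2) -
        (K - Y0 ^ 2) * (c * s)) * ((Y1 / Y0) * c + Y0 * s) * ((Y1 / Y0) * s - Y0 * c) +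
        (Y0 ^ 2 * s ^ 2 + 2 * Y1 * (c * s) + (K - Y0 ^ 2) * c ^ 2) *
        ((Y1 / Y0) * s - Y0 * c) ^ 2 = (c ^ 2 + s ^ 2) ^ 2 *
          (Y0 ^ 2 * (Y1 / Y0) ^ 2 - 2 * Y1 * (Y1 / Y0) * Y0 + (K - Y0 ^ 2) * Y0 ^ 2) := by
        ring
      rw [e3, h3]
      field_simp
      linear_combination -h1
    have e4 : ∀ P Q R a b : ℝ, P * (-(C⁻¹ * a)) ^ 2 + 2 * Q * (-(C⁻¹ * a)) * (-(C⁻¹ * b)) +
        R * (-(C⁻¹ * b)) ^ 2 = C⁻¹ ^ 2 * (P * a ^ 2 + 2 * Q * a * b + R * b ^ 2) := by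
      intros; ring
    rw [e4, key]
    field_simp
    ring

theorem ellipse_of_Kconst {Ω : Set (ℝ × ℝ)} {γ : ℝ → ℝ × ℝ} {P : ℝ} (h : IsTable Ω γ P)
    {q : C(ℂ, ℂ)} {σ : ℝ → ℝ} {K₀ : ℂ} (hl : Laz γ P q σ K₀) (K : ℝ)
    (hK : ∀ x : ℝ, deriv (deriv (fun x => Real.exp (qr q x))) x =
      (K - 2 * Real.exp (qr q x) ^ 2) * Real.exp (qr q x)) :
    ∃ (c : ℝ × ℝ) (Q : Matrix (Fin 2) (Fin 2) ℝ), Q.PosDef ∧
      Ω = {x : ℝ × ℝ | dotProduct ![x.1 - c.1, x.2 - c.2]
        (Q.mulVec ![x.1 - c.1, x.2 - c.2]) < 1} := by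
  have hys : ContDiff ℝ (⊤ : ℕ∞) (fun x => Real.exp (qr q x)) :=
    Real.contDiff_exp.comp hl.smooth
  have hys1 : ContDiff ℝ (⊤ : ℕ∞) (deriv (fun x => Real.exp (qr q x))) := by
    have h1 : ContDiff ℝ ((⊤ : ℕ∞) + 1) (fun x => Real.exp (qr q x)) := by simpa using hys
    exact (contDiff_succ_iff_deriv.mp h1).2.2
  have dZ : ∀ x, HasDerivAt (Gc q) (Gd q x) x := fun x => hasDerivAt_Gc x
  have hGd : ∀ x, Gd q x = (((Real.exp (qr q x) ^ 2)⁻¹ : ℝ) : ℂ) *
      (((Real.cos (Th q x) : ℝ) : ℂ) + ((Real.sin (Th q x) : ℝ) : ℂ) * Complex.I) := by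
    intro x
    unfold Gd
    rw [Complex.exp_add, mul_comm Complex.I, Complex.exp_mul_I, ← Complex.ofReal_exp,
      ← Complex.ofReal_cos, ← Complex.ofReal_sin]
    congr 2
    rw [← Real.exp_nat_mul, ← Real.exp_neg]
    congr 1
    push_cast
    ring
  have dX : ∀ x, HasDerivAt (fun x => (Gc q x).re)
      ((Real.exp (qr q x) ^ 2)⁻¹ * Real.cos (Th q x)) x := by
    intro x
    have h1 := (Complex.reCLM.hasFDerivAt.comp_hasDerivAt x (dZ x))
    refine h1.congr_deriv ?_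
    rw [hGd, Complex.reCLM_apply, Complex.re_ofReal_mul]
    simp only [Complex.add_re, Complex.ofReal_re, Complex.mul_re, Complex.I_re,
      Complex.ofReal_im, Complex.I_im]
    ring
  have dY : ∀ x, HasDerivAt (fun x => (Gc q x).im)
      ((Real.exp (qr q x) ^ 2)⁻¹ * Real.sin (Th q x)) x := by
    intro x
    have h1 := (Complex.imCLM.hasFDerivAt.comp_hasDerivAt x (dZ x))
    refine h1.congr_deriv ?_
    rw [hGd, Complex.imCLM_apply, Complex.im_ofReal_mul]
    simp only [Complex.add_im, Complex.ofReal_re, Complex.mul_im, Complex.I_re,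
      Complex.ofReal_im, Complex.I_im]
    ring
  obtain ⟨m11, m12, m22, c1, c2, C, hC, hconic⟩ := conic_of_Kconst
    (y := fun x => Real.exp (qr q x)) (y1 := deriv (fun x => Real.exp (qr q x))) (Θ := Th q)
    (X := fun x => (Gc q x).re) (Y := fun x => (Gc q x).im) (K := K)
    (fun x => Real.exp_pos _)
    (fun x => ((hys.differentiable (by simp)) x).hasDerivAt)
    (fun x => by
      have := ((hys1.differentiable (by simp)) x).hasDerivAt
      rwa [hK x] at this)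
    (fun x => hasDerivAt_Th x) dX dY
    (fun x => by
      have h0 : qr q (x + 1) = qr q x := by
        unfold qr
        rw [show (((x + 1 : ℝ)) : ℂ) = (x : ℂ) + 1 by push_cast; rfl, hl.per]
      show Real.exp (qr q (x + 1)) = Real.exp (qr q x)
      rw [h0])
  -- the similarity
  set k1 : ℝ := (K₀⁻¹).re with hk1
  set k2 : ℝ := (K₀⁻¹).im with hk2
  set g0 := toC (γ (σ 0)) with hg0
  set e1 : ℝ := -(k1 * g0.re - k2 * g0.im) - c1 with he1
  set e2 : ℝ := -(k2 * g0.re + k1 * g0.im) - c2 with he2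
  have hpoly : ∀ g : ℝ × ℝ, qpoly
      (m11 * k1 ^ 2 + 2 * m12 * k1 * k2 + m22 * k2 ^ 2)
      (-2 * m11 * k1 * k2 + 2 * m12 * (k1 ^ 2 - k2 ^ 2) + 2 * m22 * k1 * k2)
      (m11 * k2 ^ 2 - 2 * m12 * k1 * k2 + m22 * k1 ^ 2)
      (2 * m11 * k1 * e1 + 2 * m12 * (k1 * e2 + k2 * e1) + 2 * m22 * k2 * e2)
      (-2 * m11 * k2 * e1 + 2 * m12 * (-k2 * e2 + k1 * e1) + 2 * m22 * k1 * e2)
      (m11 * e1 ^ 2 + 2 * m12 * e1 * e2 + m22 * e2 ^ 2 + C⁻¹) g =
      m11 * (k1 * g.1 - k2 * g.2 + e1) ^ 2 +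
      2 * m12 * (k1 * g.1 - k2 * g.2 + e1) * (k2 * g.1 + k1 * g.2 + e2) +
      m22 * (k2 * g.1 + k1 * g.2 + e2) ^ 2 + C⁻¹ := by
    intro g
    simp only [qpoly]
    ring
  have hKn : k1 ^ 2 + k2 ^ 2 ≠ 0 := by
    have h1 : K₀⁻¹ ≠ 0 := inv_ne_zero hl.K_ne
    have h2 : Complex.normSq K₀⁻¹ ≠ 0 := by
      rw [Ne, Complex.normSq_eq_zero]; exact h1
    rw [Complex.normSq_apply] at h2
    intro h3
    apply h2
    rw [← h3]; ring
  refine ellipse_of_conic h
      (m11 * k1 ^ 2 + 2 * m12 * k1 * k2 + m22 * k2 ^ 2)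
      (-2 * m11 * k1 * k2 + 2 * m12 * (k1 ^ 2 - k2 ^ 2) + 2 * m22 * k1 * k2)
      (m11 * k2 ^ 2 - 2 * m12 * k1 * k2 + m22 * k1 ^ 2)
      (2 * m11 * k1 * e1 + 2 * m12 * (k1 * e2 + k2 * e1) + 2 * m22 * k2 * e2)
      (-2 * m11 * k2 * e1 + 2 * m12 * (-k2 * e2 + k1 * e1) + 2 * m22 * k1 * e2)
      (m11 * e1 ^ 2 + 2 * m12 * e1 * e2 + m22 * e2 ^ 2 + C⁻¹) ?_ (fun s => ?_)
  rotate_left
  · obtain ⟨x, rfl⟩ := hl.σ_surj s
    rw [hpoly]
    have h1 := hl.curve x
    have h2 : Gc q x = K₀⁻¹ * (toC (γ (σ x)) - g0) := by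
      rw [h1, hg0]
      have := hl.K_ne
      field_simp
      ring
    have hre : (Gc q x).re = k1 * ((γ (σ x)).1 - g0.re) - k2 * ((γ (σ x)).2 - g0.im) := by
      rw [h2, Complex.mul_re, Complex.sub_re, Complex.sub_im, toC_re, toC_im]
    have him : (Gc q x).im = k2 * ((γ (σ x)).1 - g0.re) + k1 * ((γ (σ x)).2 - g0.im) := by
      rw [h2, Complex.mul_im, Complex.sub_re, Complex.sub_im, toC_re, toC_im]
      ring
    have h3 := hconic x
    simp only [hre, him] at h3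
    rw [← h3, he1, he2]
    ring
  · rintro ⟨hA, hB, hCc, hD, hE, hF⟩
    -- evaluate at the centre
    set D0 := k1 ^ 2 + k2 ^ 2 with hD0
    have h1 := hpoly (-(k1 * e1 + k2 * e2) / D0, (k2 * e1 - k1 * e2) / D0)
    rw [hA, hB, hCc, hD, hE, hF] at h1
    have h2 : k1 * (-(k1 * e1 + k2 * e2) / D0) - k2 * ((k2 * e1 - k1 * e2) / D0) + e1 = 0 := by
      field_simp
      rw [hD0]; ring
    have h3 : k2 * (-(k1 * e1 + k2 * e2) / D0) + k1 * ((k2 * e1 - k1 * e2) / D0) + e2 = 0 := by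
      field_simp
      rw [hD0]; ring
    simp only [h2, h3] at h1
    simp only [qpoly] at h1
    have h4 : C⁻¹ = 0 := by linarith
    exact (inv_ne_zero hC.ne) h4

end Crest.Agent.R102.S0
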