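import Mathlib
import Crest.Agent.R102.T5a_576

-- ▼ part R102/T4_576
section

/-!
Row 102, link leaf (T4) of `S0_821` (helper576): dynamics of a family of invariant graphs.

`Dyn p1 p2 P b1 F` : abstract form of the leaf family (`F b` = the circle map of the leaf `b`),
together with the only facts about `p1`, `p2` which are used (injectivity of `p1 s ·`,
periodicity).  Results: closing of short chains (`closing`), rational leaves through every point
with small steps (`exists_leaf`), uniform smallness of the steps (`exists_small`).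
-/

set_option autoImplicit false

open Set Filter Topology

namespace Crest.Agent.R102.T4576

structure Dyn (p1 p2 : ℝ → ℝ → ℝ) (P b1 : ℝ) (F : ℝ → ℝ → ℝ) : Prop where
  hP : 0 < P
  hb1 : 0 < b1
  inj : ∀ s s' s'', s < s' → s' < s + P → s < s'' → s'' < s + P → p1 s s' = p1 s s'' → s' = s''
  per1 : ∀ s s', p1 (s + P) (s' + P) = p1 s s'
  per2 : ∀ s s', p2 (s + P) (s' + P) = p2 s s'
  cont : ContinuousOn (fun p : ℝ × ℝ => F p.1 p.2) (Ioo 0 b1 ×ˢ univ)
  mono_s : ∀ b ∈ Ioo 0 b1, StrictMono (F b)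
  shift : ∀ b ∈ Ioo 0 b1, ∀ s, F b (s + P) = F b s + P
  lo : ∀ b ∈ Ioo 0 b1, ∀ s, s < F b s
  hi : ∀ b ∈ Ioo 0 b1, ∀ s, F b s < s + P
  refl : ∀ b ∈ Ioo 0 b1, ∀ s, p2 s (F b s) = p1 (F b s) (F b (F b s))
  mono_b : ∀ s, StrictMonoOn (fun b => F b s) (Ioo 0 b1)
  lim0 : ∀ s, Tendsto (fun b => F b s) (nhdsWithin 0 (Ioi 0)) (nhds s)

namespace Dyn

variable {p1 p2 : ℝ → ℝ → ℝ} {P b1 : ℝ} {F : ℝ → ℝ → ℝ}

lemma cont_s (D : Dyn p1 p2 P b1 F) {b : ℝ} (hb : b ∈ Ioo 0 b1) : Continuous (F b) :=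
  D.cont.comp_continuous (f := fun s : ℝ => (b, s)) (by fun_prop) (fun s => ⟨hb, mem_univ s⟩)

lemma cont_b (D : Dyn p1 p2 P b1 F) (s : ℝ) : ContinuousOn (fun b => F b s) (Ioo 0 b1) :=
  D.cont.comp (f := fun b : ℝ => (b, s)) (by fun_prop) (fun b hb => ⟨hb, mem_univ s⟩)


lemma periodic (D : Dyn p1 p2 P b1 F) {b : ℝ} (hb : b ∈ Ioo 0 b1) :
    Function.Periodic (fun s => F b s - s) P := by
  intro s
  change F b (s + P) - (s + P) = F b s - s
  rw [D.shift b hb s]; ring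

/-- uniform positive gap of a leaf -/
lemma exists_gap (D : Dyn p1 p2 P b1 F) {b : ℝ} (hb : b ∈ Ioo 0 b1) :
    ∃ e : ℝ, 0 < e ∧ e ≤ P ∧ ∀ s, e ≤ F b s - s := by
  have hc : ContinuousOn (fun s => F b s - s) (Icc 0 P) :=
    ((D.cont_s hb).sub continuous_id).continuousOn
  obtain ⟨s0, _, hs0⟩ := isCompact_Icc.exists_isMinOn (nonempty_Icc.2 D.hP.le) hc
  refine ⟨F b s0 - s0, by linarith [D.lo b hb s0], by linarith [D.hi b hb s0], fun s => ?_⟩
  obtain ⟨y, hy, hsy⟩ := (D.periodic hb).exists_mem_Ico₀ D.hP s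
  change F b s - s = F b y - y at hsy
  rw [hsy]
  exact hs0 ⟨hy.1, hy.2.le⟩

lemma exists_small (D : Dyn p1 p2 P b1 F) {η : ℝ} (hη : 0 < η) :
    ∃ b ∈ Ioo 0 b1, ∀ s, F b s - s < η := by
  set K : ℕ := ⌈P / (η / 2)⌉₊ with hK
  have hη2 : 0 < η / 2 := by linarith
  have hev : ∀ᶠ b in nhdsWithin (0 : ℝ) (Ioi 0), ∀ k ∈ Finset.range (K + 2),
      F b (k * (η / 2)) < k * (η / 2) + η / 2 := by
    rw [Filter.eventually_all_finset]
    intro k _
    exact (D.lim0 _).eventually (gt_mem_nhds (by linarith)) |>.mono (fun b hb => hb)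
  have hev2 : ∀ᶠ b in nhdsWithin (0 : ℝ) (Ioi 0), b ∈ Ioo 0 b1 :=
    Ioo_mem_nhdsGT D.hb1
  obtain ⟨b, hb1, hb2⟩ := (hev.and hev2).exists
  refine ⟨b, hb2, fun s => ?_⟩
  obtain ⟨y, hy, hsy⟩ := (D.periodic hb2).exists_mem_Ico₀ D.hP s
  change F b s - s = F b y - y at hsy
  rw [hsy]
  set k : ℕ := ⌈y / (η / 2)⌉₊ with hk
  have h1 : y / (η / 2) ≤ k := Nat.le_ceil _
  have h2 : (k : ℝ) < y / (η / 2) + 1 := Nat.ceil_lt_add_one (div_nonneg hy.1 hη2.le)
  have h1' : y ≤ k * (η / 2) := by rwa [div_le_iff₀ hη2] at h1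
  have h2' : (k : ℝ) * (η / 2) < y + η / 2 := by
    have := mul_lt_mul_of_pos_right h2 hη2
    rwa [add_mul, div_mul_cancel₀ _ hη2.ne', one_mul] at this
  have hkK : k ≤ K := Nat.ceil_le_ceil (by gcongr; exact hy.2.le)
  have h3 := hb1 k (Finset.mem_range.2 (by omega))
  have h4 : F b y ≤ F b (k * (η / 2)) := (D.mono_s b hb2).monotone h1'
  linarith

/-- every short pair lies on a leaf -/
lemma coverage (D : Dyn p1 p2 P b1 F) {bs : ℝ} (hbs : bs ∈ Ioo 0 b1) {s s' : ℝ} (h : s < s')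
    (h' : s' ≤ F bs s) : ∃ b ∈ Ioo 0 b1, b ≤ bs ∧ F b s = s' := by
  have hev : ∀ᶠ b in nhdsWithin (0 : ℝ) (Ioi 0), F b s < s' :=
    (D.lim0 s).eventually (gt_mem_nhds h)
  have hev2 : ∀ᶠ b in nhdsWithin (0 : ℝ) (Ioi 0), b ∈ Ioo 0 bs := Ioo_mem_nhdsGT hbs.1
  obtain ⟨b0, hb0, hb0'⟩ := (hev.and hev2).exists
  have hsub : Icc b0 bs ⊆ Ioo 0 b1 := fun b hb =>
    ⟨lt_of_lt_of_le hb0'.1 hb.1, lt_of_le_of_lt hb.2 hbs.2⟩
  have hc : ContinuousOn (fun b => F b s) (Icc b0 bs) := (D.cont_b s).mono hsub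
  obtain ⟨b, hb, hbe⟩ := intermediate_value_Icc hb0'.2.le hc ⟨hb0.le, h'⟩
  exact ⟨b, hsub hb, hb.2, hbe⟩

lemma shift_nat (D : Dyn p1 p2 P b1 F) {b : ℝ} (hb : b ∈ Ioo 0 b1) (s : ℝ) (j : ℕ) :
    F b (s + j * P) = F b s + j * P := by
  induction j with
  | zero => simp
  | succ j ih =>
    have : s + ((j + 1 : ℕ) : ℝ) * P = (s + j * P) + P := by push_cast; ring
    rw [this, D.shift b hb, ih]; push_cast; ring

lemma per1_nat (D : Dyn p1 p2 P b1 F) (s s' : ℝ) (j : ℕ) :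
    p1 (s + j * P) (s' + j * P) = p1 s s' := by
  induction j with
  | zero => simp
  | succ j ih =>
    have h1 : s + ((j + 1 : ℕ) : ℝ) * P = (s + j * P) + P := by push_cast; ring
    have h2 : s' + ((j + 1 : ℕ) : ℝ) * P = (s' + j * P) + P := by push_cast; ring
    rw [h1, h2, D.per1, ih]

lemma per2_nat (D : Dyn p1 p2 P b1 F) (s s' : ℝ) (j : ℕ) :
    p2 (s + j * P) (s' + j * P) = p2 s s' := by
  induction j with
  | zero => simp
  | succ j ih =>
    have h1 : s + ((j + 1 : ℕ) : ℝ) * P = (s + j * P) + P := by push_cast; ring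
    have h2 : s' + ((j + 1 : ℕ) : ℝ) * P = (s' + j * P) + P := by push_cast; ring
    rw [h1, h2, D.per2, ih]

/-- a chain of short steps follows one leaf -/
lemma chain_eq (D : Dyn p1 p2 P b1 F) {b : ℝ} (hb : b ∈ Ioo 0 b1) {n : ℕ} {x : ℕ → ℝ}
    (hx : ∀ i < n, 0 < x (i + 1) - x i ∧ x (i + 1) - x i < P)
    (hlaw : ∀ i, 1 ≤ i → i < n → p2 (x (i - 1)) (x i) = p1 (x i) (x (i + 1)))
    (h1 : x 1 = F b (x 0)) : ∀ i < n, x (i + 1) = F b (x i) := by
  intro i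
  induction i with
  | zero => intro _; simpa using h1
  | succ i ih =>
    intro hi
    have e1 : x (i + 1) = F b (x i) := ih (by omega)
    have law := hlaw (i + 1) (by omega) hi
    rw [Nat.add_sub_cancel] at law
    have r := D.refl b hb (x i)
    rw [← e1] at r
    rw [law] at r
    have hs := hx (i + 1) hi
    exact D.inj _ _ _ (by linarith [hs.1]) (by linarith [hs.2]) (D.lo b hb _) (D.hi b hb _) r

/-- (T4) closing of short chains -/
theorem closing (D : Dyn p1 p2 P b1 F) :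
    ∃ e1 : ℝ, 0 < e1 ∧ e1 ≤ P ∧ ∀ (n j : ℕ) (x : ℕ → ℝ), 1 ≤ n →
      (∀ i < n, 0 < x (i + 1) - x i ∧ x (i + 1) - x i < e1) → x n = x 0 + j * P →
      (∀ i, 1 ≤ i → i < n → p2 (x (i - 1)) (x i) = p1 (x i) (x (i + 1))) →
      p2 (x (n - 1) - j * P) (x 0) = p1 (x 0) (x 1) := by
  have hbs : b1 / 2 ∈ Ioo 0 b1 := ⟨by linarith [D.hb1], by linarith [D.hb1]⟩
  obtain ⟨e, he, heP, hge⟩ := D.exists_gap hbs
  refine ⟨e, he, heP, fun n j x hn hx hxn hlaw => ?_⟩
  have h0 := hx 0 (by omega)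
  rw [zero_add] at h0
  obtain ⟨b, hb, _, hb1⟩ := D.coverage hbs (s := x 0) (s' := x 1) (by linarith [h0.1])
    (by linarith [h0.2, hge (x 0)])
  have hch := D.chain_eq hb (fun i hi => ⟨(hx i hi).1, lt_of_lt_of_le (hx i hi).2 heP⟩) hlaw
    hb1.symm
  have hl := hch (n - 1) (by omega)
  rw [Nat.sub_add_cancel hn, hxn] at hl
  have r := D.refl b hb (x (n - 1))
  rw [← hl, D.shift_nat hb, D.per1_nat, hb1] at r
  rw [← r]
  have := D.per2_nat (x (n - 1) - j * P) (x 0) j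
  rw [← this]
  congr 1
  ring




lemma step_le (D : Dyn p1 p2 P b1 F) {b b' : ℝ} (hb : b ∈ Ioo 0 b1) (hb' : b' ∈ Ioo 0 b1)
    (h : b ≤ b') (s : ℝ) : F b s ≤ F b' s := (D.mono_b s).monotoneOn hb hb' h





end Dyn

end Crest.Agent.R102.T4576
end

-- ▼ part R102/T5b_576

/-!
Row 102, leaf (T5) (helper576), part b: closing property of a leaf family and its transport to the
Lazutkin coordinate: `RStarP`.
-/

set_option autoImplicit false

open Set Filter Topology MeasureTheory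
open scoped Real ContDiff ComplexConjugate
open Crest.AnalysisR.Billiard

noncomputable section

namespace Crest.Agent.R102.T5

open Crest.Agent.R102.S0
open Crest.Agent.R102.A929 (ofR Pq EP Xq dq LocQ IsAct RStarP RR Sm leafSMR exists_locQ CX CX_ge AA.ext'
  dq_apply)
open Crest.Agent.R102.G576

/-! ### the closing property -/

section closing

variable {P b₁ : ℝ} {q1 q2 h : ℝ → ℝ → ℝ} {F : ℝ → ℝ → ℝ}

lemma twist_anti (tw : TwistData P q1 q2 h) (s : ℝ) :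
    StrictAntiOn (fun t => q1 s t) (Ioo s (s + P)) := by
  apply strictAntiOn_of_deriv_neg (convex_Ioo _ _)
  · exact fun σ hσ => (tw.der1 s σ hσ.1 hσ.2).continuousAt.continuousWithinAt
  · intro σ hσ
    rw [interior_Ioo] at hσ
    rw [(tw.der1 s σ hσ.1 hσ.2).deriv]
    linarith [tw.hpos s σ hσ.1 hσ.2]

theorem dyn_of (tw : TwistData P q1 q2 h) (lf : LeafFam P b₁ q1 q2 F) :
    T4576.Dyn q1 q2 P b₁ F where
  hP := tw.hP
  hb1 := lf.hb
  inj s _ _ h1 h2 h3 h4 he := (twist_anti tw s).injOn ⟨h1, h2⟩ ⟨h3, h4⟩ he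
  per1 := tw.per1
  per2 := tw.per2
  cont := lf.cont
  mono_s := lf.mono
  shift := lf.per
  lo := lf.lo
  hi := lf.hi
  refl := lf.refl
  mono_b := lf.mono_b
  lim0 := lf.lim

/-- (T4) in the form of `S0_821_v2` -/
theorem closing_of_leafFam (tw : TwistData P q1 q2 h) (lf : LeafFam P b₁ q1 q2 F) :
    ∃ e₁ : ℝ, 0 < e₁ ∧ Closing P e₁ q1 q2 := by
  obtain ⟨e, he, heP, hc⟩ := (dyn_of tw lf).closing
  refine ⟨e, he, fun n j hn x hx hxn hlaw => ?_⟩
  have h1 := hc n j x hn (fun i hi => ⟨by linarith [(hx i hi).1], by linarith [(hx i hi).2]⟩) hxn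
    (fun i hi hin => by
      obtain ⟨k, rfl⟩ : ∃ k, i = k + 1 := ⟨i - 1, by omega⟩
      exact hlaw k hin)
  rw [← h1, ← (dyn_of tw lf).per2_nat (x (n - 1) - j * P) (x 0) j, hxn, sub_add_cancel]

end closing

/-! ### momenta in the Lazutkin coordinate -/

section lazutkin

variable {γ : ℝ → ℝ × ℝ} {P : ℝ} {q : C(ℂ, ℂ)} {σ : ℝ → ℝ} {K : ℂ}

lemma Laz.hasDerivAt_σ (hL : Laz γ P q σ K) (x : ℝ) : HasDerivAt σ (deriv σ x) x :=
  ((hL.σ_smooth.differentiable (by simp)) x).hasDerivAt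

lemma Laz.velocity (hL : Laz γ P q σ K) (hγ : Differentiable ℝ γ) (x : ℝ) :
    toC (deriv γ (σ x)) * ((deriv σ x : ℝ) : ℂ) = K * Gd q x := by
  have h1 := (toC_hasDerivAt (hγ (σ x)).hasDerivAt).scomp x (hL.hasDerivAt_σ x)
  have h2 : (deriv σ x) • toC (deriv γ (σ x)) = toC (deriv γ (σ x)) * ((deriv σ x : ℝ) : ℂ) := by
    rw [Complex.real_smul, mul_comm]
  rw [h2] at h1
  have h3 : HasDerivAt (fun x => toC (γ (σ x))) (K * Gd q x) x := by
    have h4 := ((hasDerivAt_Gc (q := q) x).const_mul K).const_add (toC (γ (σ 0)))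
    have h5 : (fun x => toC (γ (σ x))) = fun x => toC (γ (σ 0)) + K * Gc q x :=
      funext hL.curve
    rw [h5]
    exact h4
  exact h1.unique h3

lemma Laz.chord (hL : Laz γ P q σ K) (x y : ℝ) :
    toC (γ (σ y) - γ (σ x)) = K * (Gc q y - Gc q x) := by
  rw [toC_sub, hL.curve y, hL.curve x]
  ring

lemma Laz.len (hL : Laz γ P q σ K) (x y : ℝ) :
    S0.len γ (σ x) (σ y) = ‖K‖ * ‖Gc q y - Gc q x‖ := by
  unfold S0.len
  rw [← norm_toC, hL.chord, norm_mul]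

lemma Laz.p1 (hL : Laz γ P q σ K) (hγ : Differentiable ℝ γ) (x y : ℝ) :
    deriv σ x * S0.p1 γ (σ x) (σ y) = ‖K‖ *
      (((Gc q y - Gc q x) * conj (Gd q x)).re / ‖Gc q y - Gc q x‖) := by
  unfold S0.p1
  rw [hL.len, dot_eq, hL.chord]
  have h1 : deriv σ x * (K * (Gc q y - Gc q x) * conj (toC (deriv γ (σ x)))).re =
      ‖K‖ ^ 2 * ((Gc q y - Gc q x) * conj (Gd q x)).re := by
    have h2 : ((deriv σ x : ℝ) : ℂ) * (K * (Gc q y - Gc q x) * conj (toC (deriv γ (σ x)))) =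
        ((‖K‖ ^ 2 : ℝ) : ℂ) * ((Gc q y - Gc q x) * conj (Gd q x)) := by
      have h3 : conj (toC (deriv γ (σ x))) * ((deriv σ x : ℝ) : ℂ) = conj K * conj (Gd q x) := by
        rw [← map_mul, ← hL.velocity hγ x, map_mul, Complex.conj_ofReal]
      have h4 := Complex.mul_conj' K
      push_cast
      rw [← h4]
      linear_combination K * (Gc q y - Gc q x) * h3
    have h5 := congrArg Complex.re h2
    rw [Complex.re_ofReal_mul, Complex.re_ofReal_mul] at h5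
    exact h5
  rw [← mul_div_assoc, h1]
  have hK : ‖K‖ ≠ 0 := norm_ne_zero_iff.2 hL.K_ne
  rw [sq, mul_assoc, mul_div_mul_left _ _ hK, mul_div_assoc]

lemma Laz.p2 (hL : Laz γ P q σ K) (hγ : Differentiable ℝ γ) (x y : ℝ) :
    deriv σ y * S0.p2 γ (σ x) (σ y) = ‖K‖ *
      (((Gc q y - Gc q x) * conj (Gd q y)).re / ‖Gc q y - Gc q x‖) := by
  unfold S0.p2
  rw [hL.len, dot_eq, hL.chord]
  have h1 : deriv σ y * (K * (Gc q y - Gc q x) * conj (toC (deriv γ (σ y)))).re =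
      ‖K‖ ^ 2 * ((Gc q y - Gc q x) * conj (Gd q y)).re := by
    have h2 : ((deriv σ y : ℝ) : ℂ) * (K * (Gc q y - Gc q x) * conj (toC (deriv γ (σ y)))) =
        ((‖K‖ ^ 2 : ℝ) : ℂ) * ((Gc q y - Gc q x) * conj (Gd q y)) := by
      have h3 : conj (toC (deriv γ (σ y))) * ((deriv σ y : ℝ) : ℂ) = conj K * conj (Gd q y) := by
        rw [← map_mul, ← hL.velocity hγ y, map_mul, Complex.conj_ofReal]
      have h4 := Complex.mul_conj' K
      push_cast
      rw [← h4]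
      linear_combination K * (Gc q y - Gc q x) * h3
    have h5 := congrArg Complex.re h2
    rw [Complex.re_ofReal_mul, Complex.re_ofReal_mul] at h5
    exact h5
  rw [← mul_div_assoc, h1]
  have hK : ‖K‖ ≠ 0 := norm_ne_zero_iff.2 hL.K_ne
  rw [sq, mul_assoc, mul_div_mul_left _ _ hK, mul_div_assoc]

variable {ρ C : ℝ}

/-- outgoing momentum -/
lemma Laz.p1_eq (hL : Laz γ P q σ K) (hQ : LocQ ρ C) (hγ : Differentiable ℝ γ) {x y : ℝ}
    (hxy : x < y) (hX : ‖Xq q x ((y - x : ℝ) : ℂ)‖ < ρ) :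
    deriv σ x * S0.p1 γ (σ x) (σ y) = ‖K‖ *
      (Real.exp (-2 * qr q x) - (Pq q x ((y : ℂ) - x)).re) := by
  have he : 0 < y - x := by linarith
  have hI1 := Icr_pos hL.im hQ hX
  have := cos_chord hL.im (x := x) (e := y - x) (by positivity) hI1
  have hxe : x + (y - x) = y := by ring
  rw [hxe, abs_of_pos he, div_self he.ne', one_mul] at this
  rw [hL.p1 hγ, this]
  push_cast
  rfl

/-- incoming momentum -/
lemma Laz.p2_eq (hL : Laz γ P q σ K) (hQ : LocQ ρ C) (hγ : Differentiable ℝ γ) {x y : ℝ}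
    (hxy : x < y) (hY : ‖Xq q y ((-(y - x) : ℝ) : ℂ)‖ < ρ) :
    deriv σ y * S0.p2 γ (σ x) (σ y) = ‖K‖ *
      (Real.exp (-2 * qr q y) - (Pq q y (-((y : ℂ) - x))).re) := by
  have he : 0 < y - x := by linarith
  have hI2 := Icr_pos hL.im hQ hY
  have := cos_chord hL.im (x := y) (e := -(y - x)) (by rw [abs_neg]; positivity) hI2
  have hye : y + -(y - x) = x := by ring
  rw [hye, abs_neg, abs_of_pos he, neg_div, div_self he.ne'] at this
  have h1 : Gc q x - Gc q y = -(Gc q y - Gc q x) := by ring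
  rw [h1, norm_neg, neg_mul, Complex.neg_re, neg_div] at this
  have h2 : ((-(y - x) : ℝ) : ℂ) = -((y : ℂ) - x) := by push_cast; rfl
  rw [h2] at this
  rw [hL.p2 hγ]
  congr 1
  linarith

lemma Pq_im_zero (hre : ∀ x : ℝ, (q x).im = 0) (hQ : LocQ ρ C) {x e : ℝ}
    (hX : ‖Xq q x (e : ℂ)‖ < ρ) : (Pq q x (e : ℂ)).im = 0 := by
  rw [Pq_eq hre (Icr_pos hre hQ hX), Complex.ofReal_im]

/-- reflection law in the Lazutkin coordinate -/
theorem Laz.refl_iff (hL : Laz γ P q σ K) (hQ : LocQ ρ C) (hγ : Differentiable ℝ γ) {ε : ℝ}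
    (hX : ∀ x e : ℝ, |e| < ε → ‖Xq q x e‖ < ρ) {a b c : ℝ} (hab : a < b) (hab' : b - a < ε)
    (hbc : b < c) (hbc' : c - b < ε) :
    S0.p2 γ (σ a) (σ b) = S0.p1 γ (σ b) (σ c) ↔ EP q a b c = 0 := by
  have x1 : ‖Xq q b ((-(b - a) : ℝ) : ℂ)‖ < ρ :=
    hX b (-(b - a)) (by rw [abs_neg, abs_of_pos (by linarith)]; exact hab')
  have x2 : ‖Xq q b ((c - b : ℝ) : ℂ)‖ < ρ :=
    hX b (c - b) (by rw [abs_of_pos (by linarith)]; exact hbc')
  have h1 := hL.p2_eq hQ hγ hab x1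
  have h2 := hL.p1_eq hQ hγ hbc x2
  have hp := hL.σ_pos b
  have hK : ‖K‖ ≠ 0 := norm_ne_zero_iff.2 hL.K_ne
  have i1 := Pq_im_zero hL.im hQ x1
  have i2 := Pq_im_zero hL.im hQ x2
  have e1 : ((-(b - a) : ℝ) : ℂ) = -((b : ℂ) - a) := by push_cast; rfl
  have e2 : ((c - b : ℝ) : ℂ) = (c : ℂ) - b := by push_cast; rfl
  rw [e1] at i1
  rw [e2] at i2
  unfold EP
  constructor
  · intro h
    rw [h] at h1
    have h3 := h1.symm.trans h2
    have h4 := mul_left_cancel₀ hK h3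
    apply Complex.ext
    · rw [Complex.sub_re, Complex.zero_re]
      linarith
    · rw [Complex.sub_im, i1, i2, sub_zero, Complex.zero_im]
  · intro h
    have h3 := congrArg Complex.re h
    rw [Complex.sub_re, Complex.zero_re, sub_eq_zero] at h3
    rw [h3, ← h2] at h1
    exact mul_left_cancel₀ hp.ne' h1

/-! ### smallness -/

lemma Xq_congr {q q' : C(ℂ, ℂ)} (h : ∀ x : ℝ, q' x = q x) (x e : ℝ) :
    Xq q' x e = Xq q x e := by
  unfold Xq
  rw [h]
  congr 1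
  refine AA.ext' (fun r => ?_)
  rw [dq_apply, dq_apply, h]
  have : (x : ℂ) + (e : ℂ) * ((r : ℝ) : ℂ) = ((x + e * r : ℝ) : ℂ) := by push_cast; rfl
  rw [this, h]

lemma Laz.q_eq (hL : Laz γ P q σ K) (x : ℝ) :
    q x = ofR (qr q) hL.smooth.continuous x := by
  rw [q_pt hL.im]
  simp [ofR]

/-- uniform smallness of `Xq` -/
lemma Laz.exists_small (hL : Laz γ P q σ K) (hρ : 0 < ρ) :
    ∃ ε : ℝ, 0 < ε ∧ ∀ x e : ℝ, |e| < ε → ‖Xq q x e‖ < ρ := by
  have hper : ∀ x, qr q (x + 1) = qr q x := qr_per hL.per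
  obtain ⟨q1, q2, B, hS⟩ := leafSMR (qr q) (by exact_mod_cast contDiff_infty.1 hL.smooth 3) hper
  have hC := CX_ge hS.B_ge
  refine ⟨min 1 (ρ / CX B), by positivity, fun x e he => ?_⟩
  rw [lt_min_iff] at he
  have h1 : Xq q x e = Xq (ofR (qr q) hL.smooth.continuous) x e := Xq_congr hL.q_eq x e
  rw [h1]
  have h2 := hS.norm_Xq (x := (x : ℂ)) (e := (e : ℂ)) (m := 1) (by simp [RR]) (by simp [RR])
    (by rw [Complex.norm_real, Real.norm_eq_abs]; exact he.1.le) le_rfl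
  rw [Complex.norm_real, Real.norm_eq_abs] at h2
  refine h2.trans_lt ?_
  have h3 := he.2
  rw [lt_div_iff₀ (by linarith)] at h3
  linarith

/-- small steps in `x` are small steps in `s` -/
lemma Laz.exists_step (hL : Laz γ P q σ K) {η : ℝ} (hη : 0 < η) :
    ∃ ε : ℝ, 0 < ε ∧ ∀ x y : ℝ, x < y → y - x < ε → σ y < σ x + η := by
  have hc : Continuous (deriv σ) := (contDiff_infty_iff_deriv.1 hL.σ_smooth).2.continuous
  have hper : Function.Periodic (deriv σ) 1 := by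
    intro x
    have h1 : (fun t => σ (t + 1)) = fun t => σ t + P := funext hL.σ_per
    have h2 : deriv (fun t => σ (t + 1)) x = deriv σ (x + 1) := deriv_comp_add_const σ 1 x
    rw [← h2, h1, deriv_add_const]
  obtain ⟨B, hB⟩ := (isCompact_Icc (a := (0 : ℝ)) (b := 1)).exists_bound_of_continuousOn
    hc.continuousOn
  have hB' : ∀ x, deriv σ x ≤ max B 1 := by
    intro x
    obtain ⟨y, hy, hxy⟩ := hper.exists_mem_Ico₀ one_pos x
    rw [hxy]
    exact (le_abs_self _).trans ((hB y ⟨hy.1, hy.2.le⟩).trans (le_max_left _ _))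
  have hB1 : (0 : ℝ) < max B 1 := lt_of_lt_of_le one_pos (le_max_right _ _)
  refine ⟨η / max B 1, by positivity, fun x y hxy he => ?_⟩
  obtain ⟨c, hc1, hc2⟩ := exists_hasDerivAt_eq_slope σ (deriv σ) hxy
    hL.σ_smooth.continuous.continuousOn (fun z _ => hL.hasDerivAt_σ z)
  have h1 := hB' c
  rw [hc2, div_le_iff₀ (by linarith)] at h1
  rw [lt_div_iff₀ hB1] at he
  linarith

lemma Laz.σ_per_nat (hL : Laz γ P q σ K) (x : ℝ) (j : ℕ) : σ (x + j) = σ x + j * P := by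
  induction j with
  | zero => simp
  | succ j ih =>
    have : x + ((j + 1 : ℕ) : ℝ) = (x + j) + 1 := by push_cast; ring
    rw [this, hL.σ_per, ih]
    push_cast
    ring

/-- **(T5)** the closing property in the Lazutkin coordinate. -/
theorem rstarP_of_closing (hL : Laz γ P q σ K) (hγ : Differentiable ℝ γ)
    (hper2 : ∀ s s', S0.p2 γ (s + P) (s' + P) = S0.p2 γ s s') {e₁ : ℝ} (he₁ : 0 < e₁)
    (hC : Closing P e₁ (S0.p1 γ) (S0.p2 γ)) : ∃ ε₁ : ℝ, 0 < ε₁ ∧ RStarP q ε₁ := by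
  obtain ⟨ρ, C, hQ⟩ := exists_locQ
  obtain ⟨ε, hε, hX⟩ := hL.exists_small hQ.ρ_pos
  obtain ⟨ε', hε', hσ⟩ := hL.exists_step he₁
  refine ⟨min ε ε', lt_min hε hε', fun n j x hn hj hx hxn hlaw => ?_⟩
  have hx1 : ∀ i < n, x i < x (i + 1) := fun i hi => by linarith [(hx i hi).1]
  have hx2 : ∀ i < n, x (i + 1) - x i < ε := fun i hi => lt_of_lt_of_le (hx i hi).2 (min_le_left _ _)
  have hx3 : ∀ i < n, x (i + 1) - x i < ε' := fun i hi =>
    lt_of_lt_of_le (hx i hi).2 (min_le_right _ _)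
  have hper2n : ∀ (j : ℕ) (s s' : ℝ), S0.p2 γ (s + j * P) (s' + j * P) = S0.p2 γ s s' := by
    intro j
    induction j with
    | zero => intro s s'; simp
    | succ j ih =>
      intro s s'
      have e1 : s + ((j + 1 : ℕ) : ℝ) * P = (s + j * P) + P := by push_cast; ring
      have e2 : s' + ((j + 1 : ℕ) : ℝ) * P = (s' + j * P) + P := by push_cast; ring
      rw [e1, e2, hper2, ih]
  have hcl := hC n j hn (fun i => σ (x i))
    (fun i hi => ⟨hL.σ_mono (hx1 i hi), hσ _ _ (hx1 i hi) (hx3 i hi)⟩)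
    (by rw [hxn, hL.σ_per_nat])
    (fun i hi => by
      have h1 := hlaw (i + 1) (by omega) hi
      rw [Nat.add_sub_cancel] at h1
      exact (hL.refl_iff hQ hγ hX (hx1 i (by omega)) (hx2 i (by omega)) (hx1 (i + 1) hi)
        (hx2 (i + 1) hi)).2 h1)
  have h0 := hx 0 (by omega)
  have hlast : x (n - 1) < x n ∧ x n - x (n - 1) < ε := by
    have h1 := hx1 (n - 1) (by omega)
    have h2 := hx2 (n - 1) (by omega)
    rw [Nat.sub_add_cancel hn] at h1 h2
    exact ⟨h1, h2⟩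
  have e1 : σ (x (n - 1)) = σ (x (n - 1) - j) + j * P := by
    rw [← hL.σ_per_nat, sub_add_cancel]
  rw [hxn, hL.σ_per_nat, e1, hper2n] at hcl
  have h1 := (hL.refl_iff hQ hγ hX (a := x (n - 1) - j) (b := x 0) (c := x 1)
    (by linarith [hlast.1]) (by linarith [hlast.2]) (by linarith [h0.1])
    (lt_of_lt_of_le h0.2 (min_le_left _ _))).1 hcl
  push_cast at h1
  exact h1

end lazutkin

end Crest.Agent.R102.T5
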