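import Crest.Agent.R102.LagB_821

-- ▼ part R102/Dir_540
section

/-!
Row 102, part (B), lemma B4 (helper540): the inverse of the discrete Dirichlet operator
`v ↦ a_i (v_{i+1} - v_i) - a_{i-1} (v_i - v_{i-1})`, `v_0 = v_n = 0`, by two summations.
-/

set_option autoImplicit false

open Set Filter Topology Metric Complex MeasureTheory
open scoped Real ContDiff ComplexConjugate

noncomputable section

namespace Crest.Agent.R102.B540

/-- partial sums `f 1 + ... + f l` -/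
def psum (f : ℕ → ℂ) (l : ℕ) : ℂ := ∑ m ∈ Finset.range l, f (m + 1)

/-- the integration constant -/
def kap (a f : ℕ → ℂ) (n : ℕ) : ℂ :=
  -(∑ l ∈ Finset.range n, psum f l / a l) / (∑ l ∈ Finset.range n, 1 / a l)

/-- the Dirichlet inverse -/
def dinv (a f : ℕ → ℂ) (n i : ℕ) : ℂ := ∑ l ∈ Finset.range i, (kap a f n + psum f l) / a l

variable {a f g : ℕ → ℂ} {n i : ℕ} {w φ : ℝ}

lemma dinv_zero : dinv a f n 0 = 0 := by simp [dinv]

lemma dinv_end (hS : ∑ l ∈ Finset.range n, 1 / a l ≠ 0) : dinv a f n n = 0 := by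
  have h : dinv a f n n = kap a f n * (∑ l ∈ Finset.range n, 1 / a l) +
      ∑ l ∈ Finset.range n, psum f l / a l := by
    unfold dinv
    rw [Finset.mul_sum, ← Finset.sum_add_distrib]
    exact Finset.sum_congr rfl (fun l _ => by ring)
  rw [h, kap, div_mul_cancel₀ _ hS]
  ring

lemma psum_succ (f : ℕ → ℂ) (l : ℕ) : psum f (l + 1) = psum f l + f (l + 1) := by
  unfold psum
  rw [Finset.sum_range_succ]

lemma dinv_succ (a f : ℕ → ℂ) (n j : ℕ) :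
    dinv a f n (j + 1) = dinv a f n j + (kap a f n + psum f j) / a j := by
  unfold dinv
  rw [Finset.sum_range_succ]

lemma dinv_eq (h0 : a i ≠ 0) (h1 : a (i + 1) ≠ 0) :
    a (i + 1) * (dinv a f n (i + 1 + 1) - dinv a f n (i + 1)) -
      a i * (dinv a f n (i + 1) - dinv a f n i) = f (i + 1) := by
  rw [dinv_succ a f n (i + 1), dinv_succ a f n i, psum_succ]
  field_simp
  ring

lemma psum_sub (f g : ℕ → ℂ) (l : ℕ) : psum (fun m => f m - g m) l = psum f l - psum g l := by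
  unfold psum
  rw [← Finset.sum_sub_distrib]

lemma kap_sub (a f g : ℕ → ℂ) (n : ℕ) :
    kap a (fun m => f m - g m) n = kap a f n - kap a g n := by
  unfold kap
  have h : ∑ l ∈ Finset.range n, psum (fun m => f m - g m) l / a l =
      (∑ l ∈ Finset.range n, psum f l / a l) - ∑ l ∈ Finset.range n, psum g l / a l := by
    rw [← Finset.sum_sub_distrib]
    exact Finset.sum_congr rfl (fun l _ => by rw [psum_sub]; ring)
  rw [h]
  ring

lemma dinv_sub (a f g : ℕ → ℂ) (n i : ℕ) :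
    dinv a (fun m => f m - g m) n i = dinv a f n i - dinv a g n i := by
  unfold dinv
  rw [← Finset.sum_sub_distrib]
  exact Finset.sum_congr rfl (fun l _ => by rw [psum_sub, kap_sub]; ring)

/-- hypotheses on the coefficients -/
structure Coef (a : ℕ → ℂ) (w : ℝ) (n : ℕ) : Prop where
  w_pos : 0 < w
  n_pos : 0 < n
  bd : ∀ l < n, ‖a l + w‖ ≤ w / 10

lemma Coef.low (h : Coef a w n) {l : ℕ} (hl : l < n) : 9 / 10 * w ≤ ‖a l‖ := by
  have h1 := h.bd l hl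
  have h2 : ‖(w : ℂ)‖ = w := by rw [Complex.norm_real, Real.norm_of_nonneg h.w_pos.le]
  have h3 : ‖(w : ℂ)‖ ≤ ‖a l + w‖ + ‖a l‖ := by
    have := norm_sub_le (a l + w) (a l)
    rwa [add_sub_cancel_left] at this
  linarith

lemma Coef.ne (h : Coef a w n) {l : ℕ} (hl : l < n) : a l ≠ 0 := by
  intro h0
  have := h.low hl
  rw [h0, norm_zero] at this
  have := h.w_pos
  linarith

lemma Coef.inv_le (h : Coef a w n) {l : ℕ} (hl : l < n) : ‖1 / a l‖ ≤ 10 / 9 / w := by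
  have h1 := h.low hl
  have hw := h.w_pos
  rw [norm_div, norm_one, div_div, div_le_div_iff₀ (by linarith) (by positivity)]
  linarith

lemma Coef.inv_sub (h : Coef a w n) {l : ℕ} (hl : l < n) : ‖1 / a l + 1 / w‖ ≤ 1 / 9 / w := by
  have h1 := h.low hl
  have hw := h.w_pos
  have hne := h.ne hl
  have hwc : (w : ℂ) ≠ 0 := by exact_mod_cast hw.ne'
  have e : 1 / a l + 1 / (w : ℂ) = (a l + w) / (a l * w) := by
    field_simp
    ring
  rw [e, norm_div, norm_mul, Complex.norm_real, Real.norm_of_nonneg hw.le, div_div,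
    div_le_div_iff₀ (by positivity) (by positivity)]
  have h2 := h.bd l hl
  nlinarith

lemma Coef.sum_low (h : Coef a w n) : 8 / 9 * n / w ≤ ‖∑ l ∈ Finset.range n, 1 / a l‖ := by
  have hw := h.w_pos
  have hwc : (w : ℂ) ≠ 0 := by exact_mod_cast hw.ne'
  have h1 : ‖∑ l ∈ Finset.range n, (1 / a l + 1 / (w : ℂ))‖ ≤ n * (1 / 9 / w) := by
    refine (norm_sum_le _ _).trans ?_
    refine (Finset.sum_le_sum (fun l hl => h.inv_sub (Finset.mem_range.1 hl))).trans ?_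
    simp
  rw [Finset.sum_add_distrib, Finset.sum_const, Finset.card_range, nsmul_eq_mul] at h1
  set S := ∑ l ∈ Finset.range n, 1 / a l with hS
  have h2 : ‖(n : ℂ) * (1 / (w : ℂ))‖ = n / w := by
    rw [norm_mul, norm_div, norm_one, Complex.norm_real, Real.norm_of_nonneg hw.le,
      Complex.norm_natCast]
    ring
  have h3 : ‖(n : ℂ) * (1 / (w : ℂ))‖ ≤ ‖S + n * (1 / (w : ℂ))‖ + ‖S‖ := by
    have := norm_sub_le (S + n * (1 / (w : ℂ))) S
    rwa [add_sub_cancel_left] at this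
  rw [h2] at h3
  have e : 8 / 9 * (n : ℝ) / w = n / w - n * (1 / 9 / w) := by ring
  rw [e]
  linarith

lemma Coef.sum_ne (h : Coef a w n) : ∑ l ∈ Finset.range n, 1 / a l ≠ 0 := by
  intro h0
  have h1 := h.sum_low
  rw [h0, norm_zero] at h1
  have hw := h.w_pos
  have hn : (0 : ℝ) < n := by exact_mod_cast h.n_pos
  have : 0 < 8 / 9 * (n : ℝ) / w := by positivity
  linarith

lemma psum_le (hφ : 0 ≤ φ) (hf : ∀ m, 1 ≤ m → m < n → ‖f m‖ ≤ φ) {l : ℕ} (hl : l < n) :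
    ‖psum f l‖ ≤ n * φ := by
  unfold psum
  refine (norm_sum_le _ _).trans ?_
  refine (Finset.sum_le_sum (fun m hm => hf (m + 1) (by omega)
    (by have := Finset.mem_range.1 hm; omega))).trans ?_
  rw [Finset.sum_const, Finset.card_range, nsmul_eq_mul]
  have : (l : ℝ) ≤ n := by exact_mod_cast hl.le
  exact mul_le_mul_of_nonneg_right this hφ

lemma Coef.kap_le (h : Coef a w n) (hφ : 0 ≤ φ) (hf : ∀ m, 1 ≤ m → m < n → ‖f m‖ ≤ φ) :
    ‖kap a f n‖ ≤ 5 / 4 * (n * φ) := by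
  have hw := h.w_pos
  have hn : (0 : ℝ) < n := by exact_mod_cast h.n_pos
  unfold kap
  rw [norm_div, norm_neg]
  have h1 : ‖∑ l ∈ Finset.range n, psum f l / a l‖ ≤ n * (n * φ * (10 / 9 / w)) := by
    refine (norm_sum_le _ _).trans ?_
    refine (Finset.sum_le_sum (fun l hl => ?_)).trans (by rw [Finset.sum_const,
      Finset.card_range, nsmul_eq_mul])
    have hl' := Finset.mem_range.1 hl
    rw [div_eq_mul_one_div, norm_mul]
    exact mul_le_mul (psum_le hφ hf hl') (h.inv_le hl') (norm_nonneg _) (by positivity)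
  have h2 := h.sum_low
  rw [div_le_iff₀ (lt_of_lt_of_le (by positivity) h2)]
  refine h1.trans ?_
  calc (n : ℝ) * (n * φ * (10 / 9 / w)) = 5 / 4 * (n * φ) * (8 / 9 * n / w) := by ring
    _ ≤ _ := mul_le_mul_of_nonneg_left h2 (by positivity)

/-- the Dirichlet inverse is bounded by `(5/2) n² / w` -/
lemma Coef.dinv_le (h : Coef a w n) (hφ : 0 ≤ φ) (hf : ∀ m, 1 ≤ m → m < n → ‖f m‖ ≤ φ)
    (hi : i ≤ n) : ‖dinv a f n i‖ ≤ 5 / 2 * n ^ 2 / w * φ := by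
  have hw := h.w_pos
  have hn : (0 : ℝ) < n := by exact_mod_cast h.n_pos
  unfold dinv
  have h1 : ‖∑ l ∈ Finset.range i, (kap a f n + psum f l) / a l‖ ≤
      i * ((5 / 4 * (n * φ) + n * φ) * (10 / 9 / w)) := by
    refine (norm_sum_le _ _).trans ?_
    refine (Finset.sum_le_sum (fun l hl => ?_)).trans (by rw [Finset.sum_const,
      Finset.card_range, nsmul_eq_mul])
    have hl' : l < n := lt_of_lt_of_le (Finset.mem_range.1 hl) hi
    rw [div_eq_mul_one_div, norm_mul]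
    refine mul_le_mul ?_ (h.inv_le hl') (norm_nonneg _) (by positivity)
    exact (norm_add_le _ _).trans (add_le_add (h.kap_le hφ hf) (psum_le hφ hf hl'))
  refine h1.trans ?_
  have hi' : (i : ℝ) ≤ n := by exact_mod_cast hi
  calc (i : ℝ) * ((5 / 4 * (n * φ) + n * φ) * (10 / 9 / w))
      ≤ n * ((5 / 4 * (n * φ) + n * φ) * (10 / 9 / w)) :=
        mul_le_mul_of_nonneg_right hi' (by positivity)
    _ = 5 / 2 * n ^ 2 / w * φ := by ring

/-- reality -/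
lemma conj_dinv (ha : ∀ l < n, conj (a l) = a l) (hf : ∀ m, 1 ≤ m → m < n → conj (f m) = f m)
    (hi : i ≤ n) : conj (dinv a f n i) = dinv a f n i := by
  have hp : ∀ l < n, conj (psum f l) = psum f l := by
    intro l hl
    unfold psum
    rw [map_sum]
    exact Finset.sum_congr rfl (fun m hm => hf _ (by omega)
      (by have := Finset.mem_range.1 hm; omega))
  have hk : conj (kap a f n) = kap a f n := by
    unfold kap
    rw [map_div₀, map_neg, map_sum, map_sum]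
    congr 1
    · congr 1
      refine Finset.sum_congr rfl (fun l hl => ?_)
      rw [map_div₀, hp l (Finset.mem_range.1 hl), ha l (Finset.mem_range.1 hl)]
    · refine Finset.sum_congr rfl (fun l hl => ?_)
      rw [map_div₀, map_one, ha l (Finset.mem_range.1 hl)]
  unfold dinv
  rw [map_sum]
  refine Finset.sum_congr rfl (fun l hl => ?_)
  have hl' : l < n := lt_of_lt_of_le (Finset.mem_range.1 hl) hi
  rw [map_div₀, map_add, hk, hp l hl', ha l hl']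

/-- holomorphic dependence on a parameter -/
lemma differentiableOn_dinv {A F : ℂ → ℕ → ℂ} {U : Set ℂ}
    (hA : ∀ l < n, DifferentiableOn ℂ (fun t => A t l) U)
    (hA0 : ∀ t ∈ U, ∀ l < n, A t l ≠ 0)
    (hS : ∀ t ∈ U, ∑ l ∈ Finset.range n, 1 / A t l ≠ 0)
    (hF : ∀ m, 1 ≤ m → m < n → DifferentiableOn ℂ (fun t => F t m) U) (hi : i ≤ n) :
    DifferentiableOn ℂ (fun t => dinv (A t) (F t) n i) U := by
  have hp : ∀ l < n, DifferentiableOn ℂ (fun t => psum (F t) l) U := by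
    intro l hl
    unfold psum
    exact DifferentiableOn.fun_sum (fun m hm => hF _ (by omega)
      (by have := Finset.mem_range.1 hm; omega))
  have hk : DifferentiableOn ℂ (fun t => kap (A t) (F t) n) U := by
    unfold kap
    refine DifferentiableOn.div (DifferentiableOn.neg (DifferentiableOn.fun_sum
      (fun l hl => ?_))) (DifferentiableOn.fun_sum (fun l hl => ?_)) hS
    · exact (hp l (Finset.mem_range.1 hl)).div (hA l (Finset.mem_range.1 hl))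
        (fun t ht => hA0 t ht l (Finset.mem_range.1 hl))
    · exact (differentiableOn_const _).div (hA l (Finset.mem_range.1 hl))
        (fun t ht => hA0 t ht l (Finset.mem_range.1 hl))
  unfold dinv
  refine DifferentiableOn.fun_sum (fun l hl => ?_)
  have hl' : l < n := lt_of_lt_of_le (Finset.mem_range.1 hl) hi
  exact (hk.add (hp l hl')).div (hA l hl') (fun t ht => hA0 t ht l hl')

/-- summation by parts -/
lemma sum_parts (A B y : ℕ → ℂ) (m : ℕ) :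
    ∑ i ∈ Finset.range (m + 1), (A i * y i + B i * y (i + 1)) =
      A 0 * y 0 + B m * y (m + 1) + ∑ i ∈ Finset.range m, (A (i + 1) + B i) * y (i + 1) := by
  induction m with
  | zero => simp
  | succ m ih =>
    rw [Finset.sum_range_succ, ih, Finset.sum_range_succ _ m]
    ring

end Crest.Agent.R102.B540
end
end

-- ▼ part R102/Bds_540
section

/-!
Row 102, part (B), lemma B4 (helper540): Lipschitz bound for the Taylor remainder of the
Euler-Lagrange function and the second order Taylor bound of the Lagrangian.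
-/

set_option autoImplicit false

open Set Filter Topology Metric Complex MeasureTheory
open scoped Real ContDiff ComplexConjugate

noncomputable section

namespace Crest.Agent.R102.B540

open Crest.Agent.R102.B821 Crest.Agent.R266.SCV

/-- Lipschitz estimate of the second order remainder -/
lemma lip_rem {F : ℂ × ℂ → ℂ} {p h h' : ℂ × ℂ} {s K m : ℝ} (hs : 0 < s)
    (hF : AnalyticOnNhd ℂ F (ball p s)) (hK : ∀ q ∈ ball p s, ‖F q‖ ≤ K) (hh : ‖h‖ ≤ m)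
    (hh' : ‖h'‖ ≤ m) (hm : 4 * m < s) :
    ‖F (p + h) - F (p + h') - fderiv ℂ F p (h - h')‖ ≤ 8 * K / s ^ 2 * m * ‖h - h'‖ := by
  have hm0 : 0 ≤ m := (norm_nonneg _).trans hh
  have h1 : ∀ x ∈ ball p (s / 2), ‖fderiv ℂ F x‖ ≤ K / (s / 2) := by
    intro x hx
    have hsub : ball x (s / 2) ⊆ ball p s := by
      refine ball_subset_ball' ?_
      rw [mem_ball] at hx
      linarith
    exact norm_fderiv_le_of_ball (by linarith) (hF.differentiableOn.mono hsub)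
      (fun y hy => hK y (hsub hy))
  have hF' : AnalyticOnNhd ℂ (fderiv ℂ F) (ball p s) := hF.fderiv
  have h2 : ∀ x ∈ ball p (s / 4), ‖fderiv ℂ (fderiv ℂ F) x‖ ≤ K / (s / 2) / (s / 4) := by
    intro x hx
    have hsub : ball x (s / 4) ⊆ ball p (s / 2) := by
      refine ball_subset_ball' ?_
      rw [mem_ball] at hx
      linarith
    exact norm_fderiv_le_of_ball (by linarith)
      (hF'.differentiableOn.mono (hsub.trans (ball_subset_ball (by linarith))))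
      (fun y hy => h1 y (hsub hy))
  have hK0 : 0 ≤ K := (norm_nonneg _).trans (hK p (mem_ball_self hs))
  have hcb : closedBall p m ⊆ ball p (s / 4) := closedBall_subset_ball (by linarith)
  have h3 : ∀ x ∈ closedBall p m, ‖fderiv ℂ F x - fderiv ℂ F p‖ ≤ 8 * K / s ^ 2 * m := by
    intro x hx
    have h4 := (convex_closedBall p m).norm_image_sub_le_of_norm_hasFDerivWithin_le
      (f := fderiv ℂ F) (f' := fun x => fderiv ℂ (fderiv ℂ F) x)
      (C := K / (s / 2) / (s / 4)) (𝕜 := ℂ)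
      (fun y hy => ((hF' y (ball_subset_ball (by linarith) (hcb hy))).differentiableAt).hasFDerivAt.hasFDerivWithinAt)
      (fun y hy => h2 y (hcb hy)) (mem_closedBall_self hm0) hx
    refine h4.trans ?_
    have h5 : ‖x - p‖ ≤ m := by rwa [mem_closedBall, dist_eq_norm] at hx
    have e : K / (s / 2) / (s / 4) = 8 * K / s ^ 2 := by field_simp; ring
    rw [e]
    exact mul_le_mul_of_nonneg_left h5 (by positivity)
  have hx1 : p + h ∈ closedBall p m := by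
    rw [mem_closedBall, dist_eq_norm, add_sub_cancel_left]; exact hh
  have hx2 : p + h' ∈ closedBall p m := by
    rw [mem_closedBall, dist_eq_norm, add_sub_cancel_left]; exact hh'
  have h6 := (convex_closedBall p m).norm_image_sub_le_of_norm_hasFDerivWithin_le'
    (f := F) (f' := fun x => fderiv ℂ F x) (φ := fderiv ℂ F p) (C := 8 * K / s ^ 2 * m) (𝕜 := ℂ)
    (fun y hy => ((hF y (ball_subset_ball (by linarith) (hcb hy))).differentiableAt).hasFDerivAt.hasFDerivWithinAt)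
    (fun y hy => h3 y hy) hx2 hx1
  have e : p + h - (p + h') = h - h' := by abel
  rw [e] at h6
  exact h6

variable {ρ₀ ε₀ : ℝ} {L Ψ : ℂ × ℂ → ℂ}

/-- Lipschitz remainder of `EL` and Taylor remainder of `L` -/
theorem exists_bounds2 (h : IsLag ρ₀ ε₀ L Ψ) :
    ∃ K δ₀ : ℝ, 1 ≤ K ∧ 0 < δ₀ ∧
      (∀ x y z x' y' z' x'' y'' z'' : ℂ, ∀ m δ : ℝ, (x, y) ∈ Dg (3 / 4 * ρ₀) (ε₀ / 2) →
        (y, z) ∈ Dg (3 / 4 * ρ₀) (ε₀ / 2) → ‖x'‖ ≤ m → ‖y'‖ ≤ m → ‖z'‖ ≤ m →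
        ‖x''‖ ≤ m → ‖y''‖ ≤ m → ‖z''‖ ≤ m → ‖x' - x''‖ ≤ δ → ‖y' - y''‖ ≤ δ →
        ‖z' - z''‖ ≤ δ → m ≤ δ₀ →
        ‖EL L (x + x') (y + y') (z + z') - EL L (x + x'') (y + y'') (z + z'') -
          dEL L x y z (x' - x'') (y' - y'') (z' - z'')‖ ≤ K * m * δ) ∧
      (∀ x y x' y' : ℂ, ∀ m : ℝ, (x, y) ∈ Dg (3 / 4 * ρ₀) (ε₀ / 2) → ‖x'‖ ≤ m → ‖y'‖ ≤ m →
        m ≤ δ₀ → ‖L (x + x', y + y') - L (x, y) - (q1 L (x, y) * x' + q2 L (x, y) * y')‖ ≤
          K * m ^ 2) := by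
  obtain ⟨K0, hK0⟩ := h.bdd
  have hρ := h.ρ_pos
  have hε := h.ε_pos
  set s : ℝ := min (ρ₀ / 32) (ε₀ / 32) with hs
  have hs0 : 0 < s := lt_min (by linarith) (by linarith)
  have hs1 : s ≤ ρ₀ / 32 := min_le_left _ _
  have hs2 : s ≤ ε₀ / 32 := min_le_right _ _
  have hKn : 0 ≤ K0 := by
    have hmem : ((0 : ℂ), (0 : ℂ)) ∈ Dg ρ₀ ε₀ := by
      refine ⟨by simpa using hρ, by simpa using hρ, by simpa using hε⟩
    exact (norm_nonneg _).trans (hK0 _ hmem)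
  have hmono : ∀ {ρ₁ ε₁ : ℝ}, ρ₁ ≤ ρ₀ → ε₁ ≤ ε₀ → Dg ρ₁ ε₁ ⊆ Dg ρ₀ ε₀ := fun h1 h2 => Dg_mono h1 h2
  set KL : ℝ := ε₀ ^ 3 * K0 with hKL
  have hKL0 : 0 ≤ KL := by positivity
  have hLb : ∀ p ∈ Dg ρ₀ ε₀, ‖L p‖ ≤ KL := by
    intro p hp
    rw [h.eq p.1 p.2 hp, norm_mul, norm_pow]
    exact mul_le_mul (pow_le_pow_left₀ (norm_nonneg _) hp.2.2.le 3) (hK0 _ hp) (norm_nonneg _)
      (by positivity)
  have hL1 : ∀ p ∈ Dg (3 / 4 * ρ₀ + 3 * s) (ε₀ / 2 + 6 * s), ‖fderiv ℂ L p‖ ≤ KL / s :=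
    fderiv_bound_Dg hs0 (h.diffL.mono (hmono (by linarith) (by linarith)))
      (fun p hp => hLb p (hmono (by linarith) (by linarith) hp))
  refine ⟨2 * (8 * (KL / s) / s ^ 2) + 6 * KL / s ^ 2 + 1, s / 5, ?_, by linarith, ?_, ?_⟩
  · have : 0 ≤ 2 * (8 * (KL / s) / s ^ 2) + 6 * KL / s ^ 2 := by positivity
    linarith
  · intro x y z x' y' z' x'' y'' z'' m δ hxy hyz hx' hy' hz' hx'' hy'' hz'' dx dy dz hm
    have hm0 : 0 ≤ m := (norm_nonneg _).trans hx'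
    have hδ0 : 0 ≤ δ := (norm_nonneg _).trans dx
    have key : ∀ (F : ℂ × ℂ → ℂ) (a b a' b' a'' b'' : ℂ), AnalyticOnNhd ℂ F (Dg ρ₀ ε₀) →
        (∀ q ∈ Dg (3 / 4 * ρ₀ + 3 * s) (ε₀ / 2 + 6 * s), ‖F q‖ ≤ KL / s) →
        (a, b) ∈ Dg (3 / 4 * ρ₀) (ε₀ / 2) → ‖a'‖ ≤ m → ‖b'‖ ≤ m → ‖a''‖ ≤ m → ‖b''‖ ≤ m →
        ‖a' - a''‖ ≤ δ → ‖b' - b''‖ ≤ δ →
        ‖F (a + a', b + b') - F (a + a'', b + b'') -
          (q1 F (a, b) * (a' - a'') + q2 F (a, b) * (b' - b''))‖ ≤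
          8 * (KL / s) / s ^ 2 * m * δ := by
      intro F a b a' b' a'' b'' hF hFb hab ha' hb' ha'' hb'' da db
      have hh : ‖((a', b') : ℂ × ℂ)‖ ≤ m := by
        rw [Prod.norm_def]; exact max_le ha' hb'
      have hh' : ‖((a'', b'') : ℂ × ℂ)‖ ≤ m := by
        rw [Prod.norm_def]; exact max_le ha'' hb''
      have hd : ‖((a', b') : ℂ × ℂ) - (a'', b'')‖ ≤ δ := by
        rw [Prod.mk_sub_mk, Prod.norm_def]; exact max_le da db
      have hsub : ball ((a, b) : ℂ × ℂ) s ⊆ Dg (3 / 4 * ρ₀ + s) (ε₀ / 2 + 2 * s) :=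
        ball_subset_Dg hab
      have h1 := lip_rem (F := F) (p := ((a, b) : ℂ × ℂ)) (h := ((a', b') : ℂ × ℂ))
        (h' := ((a'', b'') : ℂ × ℂ)) hs0
        (hF.mono (hsub.trans (hmono (by linarith) (by linarith))))
        (fun q hq => hFb q (Dg_mono (by linarith) (by linarith) (hsub hq))) hh hh'
        (by linarith)
      rw [Prod.mk_sub_mk, fderiv_eq_q] at h1
      rw [Prod.mk_sub_mk] at hd
      refine h1.trans ?_
      exact mul_le_mul_of_nonneg_left hd (by positivity)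
    have k1 := key (q2 L) x y x' y' x'' y'' (ana_q2 h.anaL)
      (fun q hq => (norm_q2_le _ _).trans (hL1 q hq)) hxy hx' hy' hx'' hy'' dx dy
    have k2 := key (q1 L) y z y' z' y'' z'' (ana_q1 h.anaL)
      (fun q hq => (norm_q1_le _ _).trans (hL1 q hq)) hyz hy' hz' hy'' hz'' dy dz
    have hxy' : (x, y) ∈ Dg ρ₀ ε₀ := hmono (by linarith) (by linarith) hxy
    have e : EL L (x + x') (y + y') (z + z') - EL L (x + x'') (y + y'') (z + z'') -
          dEL L x y z (x' - x'') (y' - y'') (z' - z'') =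
        (q2 L (x + x', y + y') - q2 L (x + x'', y + y'') -
          (q1 (q2 L) (x, y) * (x' - x'') + q2 (q2 L) (x, y) * (y' - y''))) +
        (q1 L (y + y', z + z') - q1 L (y + y'', z + z'') -
          (q1 (q1 L) (y, z) * (y' - y'') + q2 (q1 L) (y, z) * (z' - z''))) := by
      unfold EL dEL
      rw [q_symm (h.anaL _ hxy')]
      ring
    rw [e]
    refine (norm_add_le _ _).trans ((add_le_add k1 k2).trans ?_)
    have h0 : 0 ≤ (6 * KL / s ^ 2 + 1) * (m * δ) := by positivity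
    have e2 : (2 * (8 * (KL / s) / s ^ 2) + 6 * KL / s ^ 2 + 1) * m * δ =
      8 * (KL / s) / s ^ 2 * m * δ + 8 * (KL / s) / s ^ 2 * m * δ +
        (6 * KL / s ^ 2 + 1) * (m * δ) := by ring
    rw [e2]
    linarith
  · intro x y x' y' m hxy hx' hy' hm
    have hm0 : 0 ≤ m := (norm_nonneg _).trans hx'
    have hh : ‖((x', y') : ℂ × ℂ)‖ ≤ m := by
      rw [Prod.norm_def]; exact max_le hx' hy'
    have hsub : ball ((x, y) : ℂ × ℂ) s ⊆ Dg (3 / 4 * ρ₀ + s) (ε₀ / 2 + 2 * s) :=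
      ball_subset_Dg hxy
    have hsub' : ball ((x, y) : ℂ × ℂ) s ⊆ Dg ρ₀ ε₀ :=
      hsub.trans (hmono (by linarith) (by linarith))
    have h1 := taylor_ball (F := L) (p := ((x, y) : ℂ × ℂ)) (h := ((x', y') : ℂ × ℂ)) hs0
      (h.diffL.mono hsub') (fun q hq => hLb q (hsub' hq)) (by linarith)
    rw [fderiv_eq_q] at h1
    refine h1.trans ?_
    have h2 : ‖((x', y') : ℂ × ℂ)‖ ^ 2 ≤ m ^ 2 := pow_le_pow_left₀ (norm_nonneg _) hh 2
    have h3 : 0 ≤ 6 * KL / s ^ 2 := by positivity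
    have h4 : 0 ≤ (2 * (8 * (KL / s) / s ^ 2) + 1) * m ^ 2 := by positivity
    calc 6 * KL / s ^ 2 * ‖((x', y') : ℂ × ℂ)‖ ^ 2 ≤ 6 * KL / s ^ 2 * m ^ 2 :=
          mul_le_mul_of_nonneg_left h2 h3
      _ ≤ _ := by nlinarith

end Crest.Agent.R102.B540
end
end

-- ▼ part R102/Chain_540

/-!
Row 102, part (B), lemma B4 (helper540): the Dirichlet chain near an approximate leaf.
-/

set_option autoImplicit false

open Set Filter Topology Metric Complex MeasureTheory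
open scoped Real ContDiff ComplexConjugate

noncomputable section

namespace Crest.Agent.R102.B540

open Crest.Agent.R102.B821 Crest.Agent.R266.SCV

/-- the data of B4, with all smallness conditions -/
structure Dat (ρ₀ ε₀ ρ d w ε K δ₀ b : ℝ) (n j : ℕ) (L Ψ : ℂ × ℂ → ℂ) (X : ℂ → ℂ) : Prop where
  lag : IsLag ρ₀ ε₀ L Ψ
  q12 : ∀ x y : ℂ, (x, y) ∈ Dg (3 / 4 * ρ₀) (ε₀ / 2) → ‖y - x‖ ≤ 2 * w →
    ‖q2 (q1 L) (x, y) + (y - x)‖ ≤ 1 / 100 * ‖y - x‖
  lip : ∀ x y z x' y' z' x'' y'' z'' : ℂ, ∀ m δ : ℝ, (x, y) ∈ Dg (3 / 4 * ρ₀) (ε₀ / 2) →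
        (y, z) ∈ Dg (3 / 4 * ρ₀) (ε₀ / 2) → ‖x'‖ ≤ m → ‖y'‖ ≤ m → ‖z'‖ ≤ m →
        ‖x''‖ ≤ m → ‖y''‖ ≤ m → ‖z''‖ ≤ m → ‖x' - x''‖ ≤ δ → ‖y' - y''‖ ≤ δ →
        ‖z' - z''‖ ≤ δ → m ≤ δ₀ →
        ‖EL L (x + x') (y + y') (z + z') - EL L (x + x'') (y + y'') (z + z'') -
          dEL L x y z (x' - x'') (y' - y'') (z' - z'')‖ ≤ K * m * δ
  tay : ∀ x y x' y' : ℂ, ∀ m : ℝ, (x, y) ∈ Dg (3 / 4 * ρ₀) (ε₀ / 2) → ‖x'‖ ≤ m → ‖y'‖ ≤ m →
        m ≤ δ₀ → ‖L (x + x', y + y') - L (x, y) - (q1 L (x, y) * x' + q2 L (x, y) * y')‖ ≤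
          K * m ^ 2
  K_pos : 0 ≤ K
  d_pos : 0 < d
  d_lt : d < ρ
  ρ_le : ρ ≤ ρ₀ / 2
  n_pos : 0 < n
  hw : w = j / n
  w_pos : 0 < w
  w_lt : 4 * w < ε₀
  ε_nn : 0 ≤ ε
  hb : b = 5 * n ^ 2 / w * ε
  b_w : b ≤ w / 8
  b_ρ : b ≤ ρ₀ / 20
  b_δ : 2 * b ≤ δ₀
  contr : 10 * n ^ 2 / w * (ε / d + K * b) ≤ 1
  Xd : DifferentiableOn ℂ X {t | |t.im| < ρ}
  Xper : ∀ t : ℂ, |t.im| < ρ → X (t + 1) = X t + 1
  Xre : ∀ t : ℝ, (X t).im = 0
  Xid : ∀ t : ℂ, |t.im| < ρ → ‖X t - t‖ ≤ ρ₀ / 8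
  X' : ∀ t : ℂ, |t.im| < ρ → ‖deriv X t - 1‖ ≤ 1 / 100
  XE : ∀ t : ℂ, |t.im| < ρ → ‖deriv X t * EL L (X (t - w)) (X t) (X (t + w))‖ ≤ ε

variable {ρ₀ ε₀ ρ d w ε K δ₀ b : ℝ} {n j : ℕ} {L Ψ : ℂ × ℂ → ℂ} {X : ℂ → ℂ}

/-- leaf points -/
def XX (X : ℂ → ℂ) (w : ℝ) (t : ℂ) (i : ℕ) : ℂ := X (t + i * w)

/-- leaf derivatives -/
def DX (X : ℂ → ℂ) (w : ℝ) (t : ℂ) (i : ℕ) : ℂ := deriv X (t + i * w)

/-- the coefficients -/
def aa (L : ℂ × ℂ → ℂ) (X : ℂ → ℂ) (w : ℝ) (t : ℂ) (l : ℕ) : ℂ :=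
  q2 (q1 L) (XX X w t l, XX X w t (l + 1)) * (DX X w t l * DX X w t (l + 1))

/-- perturbed points -/
def yy (X : ℂ → ℂ) (w : ℝ) (t : ℂ) (v : ℕ → ℂ) (i : ℕ) : ℂ := XX X w t i + DX X w t i * v i

/-- the right hand side, at the interior index `m + 1` -/
def gg (L : ℂ × ℂ → ℂ) (X : ℂ → ℂ) (w : ℝ) (t : ℂ) (v : ℕ → ℂ) (m : ℕ) : ℂ :=
  aa L X w t (m + 1) * (v (m + 1 + 1) - v (m + 1)) - aa L X w t m * (v (m + 1) - v m) -
    DX X w t (m + 1) * EL L (yy X w t v m) (yy X w t v (m + 1)) (yy X w t v (m + 1 + 1))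

/-- the right hand side -/
def ff (L : ℂ × ℂ → ℂ) (X : ℂ → ℂ) (w : ℝ) (t : ℂ) (v : ℕ → ℂ) (m : ℕ) : ℂ :=
  gg L X w t v (m - 1)

/-- the fixed point map -/
def TT (L : ℂ × ℂ → ℂ) (X : ℂ → ℂ) (w : ℝ) (n : ℕ) (t : ℂ) (v : ℕ → ℂ) (i : ℕ) : ℂ :=
  dinv (aa L X w t) (ff L X w t v) n i

lemma im_shift (t : ℂ) (i : ℕ) (w : ℝ) : (t + i * w).im = t.im := by simp

lemma Dat.ρ_pos (D : Dat ρ₀ ε₀ ρ d w ε K δ₀ b n j L Ψ X) : 0 < ρ := D.d_pos.trans D.d_lt

lemma Dat.ρ₀_pos (D : Dat ρ₀ ε₀ ρ d w ε K δ₀ b n j L Ψ X) : 0 < ρ₀ := by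
  have := D.ρ_pos; have := D.ρ_le; linarith

lemma Dat.b_nn (D : Dat ρ₀ ε₀ ρ d w ε K δ₀ b n j L Ψ X) : 0 ≤ b := by
  have h1 := D.ε_nn
  have h2 := D.w_pos
  rw [D.hb]; positivity

lemma Dat.DX_sub (D : Dat ρ₀ ε₀ ρ d w ε K δ₀ b n j L Ψ X) {t : ℂ} (ht : |t.im| < ρ) (i : ℕ) :
    ‖DX X w t i - 1‖ ≤ 1 / 100 := D.X' _ (by rwa [im_shift])

lemma Dat.DX_le (D : Dat ρ₀ ε₀ ρ d w ε K δ₀ b n j L Ψ X) {t : ℂ} (ht : |t.im| < ρ) (i : ℕ) :
    ‖DX X w t i‖ ≤ 101 / 100 := by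
  have h := D.DX_sub ht i
  have := norm_add_le (DX X w t i - 1) 1
  rw [sub_add_cancel, norm_one] at this
  linarith

lemma Dat.DX_ge (D : Dat ρ₀ ε₀ ρ d w ε K δ₀ b n j L Ψ X) {t : ℂ} (ht : |t.im| < ρ) (i : ℕ) :
    99 / 100 ≤ ‖DX X w t i‖ := by
  have h := D.DX_sub ht i
  have := norm_sub_le (DX X w t i) (DX X w t i - 1)
  rw [sub_sub_cancel, norm_one] at this
  linarith

lemma Dat.DX_ne (D : Dat ρ₀ ε₀ ρ d w ε K δ₀ b n j L Ψ X) {t : ℂ} (ht : |t.im| < ρ) (i : ℕ) :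
    DX X w t i ≠ 0 := by
  intro h0
  have := D.DX_ge ht i
  rw [h0, norm_zero] at this
  linarith

lemma Dat.XX_im (D : Dat ρ₀ ε₀ ρ d w ε K δ₀ b n j L Ψ X) {t : ℂ} (ht : |t.im| < ρ) (i : ℕ) :
    |(XX X w t i).im| < 5 / 8 * ρ₀ := by
  have h := D.Xid (t + i * w) (by rwa [im_shift])
  have h1 := Complex.abs_im_le_norm (X (t + i * w) - (t + i * w))
  rw [Complex.sub_im, im_shift] at h1
  have h2 := abs_sub_abs_le_abs_sub (X (t + i * w)).im t.im
  have h3 := D.ρ_le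
  unfold XX
  linarith

lemma Dat.XX_step (D : Dat ρ₀ ε₀ ρ d w ε K δ₀ b n j L Ψ X) {t : ℂ} (ht : |t.im| < ρ) (i : ℕ) :
    ‖XX X w t (i + 1) - XX X w t i - w‖ ≤ w / 100 := by
  have ho : IsOpen {t : ℂ | |t.im| < ρ} := isOpen_lt (by fun_prop) continuous_const
  have h1 := (convex_strip ρ).norm_image_sub_le_of_norm_hasDerivWithin_le
    (f := fun s => X s - s) (f' := fun s => deriv X s - 1) (C := 1 / 100)
    (fun s hs => (((D.Xd.differentiableAt (ho.mem_nhds hs)).hasDerivAt).sub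
      (hasDerivAt_id s)).hasDerivWithinAt) (fun s hs => D.X' s hs)
    (show t + i * w ∈ {t : ℂ | |t.im| < ρ} by simpa using ht)
    (show t + (i + 1 : ℕ) * w ∈ {t : ℂ | |t.im| < ρ} by simpa using ht)
  have e1 : t + ((i + 1 : ℕ) : ℂ) * w - (t + i * w) = w := by push_cast; ring
  have e2 : ‖(w : ℂ)‖ = w := by rw [Complex.norm_real, Real.norm_of_nonneg D.w_pos.le]
  rw [e1, e2] at h1
  have e3 : XX X w t (i + 1) - XX X w t i - w =
      X (t + ((i + 1 : ℕ) : ℂ) * w) - (t + ((i + 1 : ℕ) : ℂ) * w) -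
        (X (t + i * w) - (t + i * w)) := by
    unfold XX
    push_cast
    ring
  rw [e3]
  linarith

lemma Dat.XX_step' (D : Dat ρ₀ ε₀ ρ d w ε K δ₀ b n j L Ψ X) {t : ℂ} (ht : |t.im| < ρ) (i : ℕ) :
    ‖XX X w t (i + 1) - XX X w t i‖ ≤ 101 / 100 * w := by
  have h := D.XX_step ht i
  have e2 : ‖(w : ℂ)‖ = w := by rw [Complex.norm_real, Real.norm_of_nonneg D.w_pos.le]
  have := norm_add_le (XX X w t (i + 1) - XX X w t i - w) w
  rw [sub_add_cancel, e2] at this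
  linarith

lemma Dat.XX_Dg (D : Dat ρ₀ ε₀ ρ d w ε K δ₀ b n j L Ψ X) {t : ℂ} (ht : |t.im| < ρ) (i : ℕ) :
    (XX X w t i, XX X w t (i + 1)) ∈ Dg (3 / 4 * ρ₀) (ε₀ / 2) := by
  have h0 := D.ρ₀_pos
  have h1 := D.w_lt
  have h2 := D.w_pos
  refine ⟨?_, ?_, ?_⟩
  · have := D.XX_im ht i
    simp only; linarith
  · have := D.XX_im ht (i + 1)
    simp only; linarith
  · have := D.XX_step' ht i
    simp only; linarith

lemma Dat.coef (D : Dat ρ₀ ε₀ ρ d w ε K δ₀ b n j L Ψ X) {t : ℂ} (ht : |t.im| < ρ) :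
    Coef (aa L X w t) w n := by
  have hw := D.w_pos
  refine ⟨hw, D.n_pos, fun l _ => ?_⟩
  set x := XX X w t l with hx
  set y := XX X w t (l + 1) with hy
  set A := DX X w t l with hA
  set B := DX X w t (l + 1) with hB
  set Λ := q2 (q1 L) (x, y) with hΛ
  have haf : aa L X w t l = Λ * (A * B) := rfl
  have s1 : ‖y - x - w‖ ≤ w / 100 := D.XX_step ht l
  have s2 : ‖y - x‖ ≤ 101 / 100 * w := D.XX_step' ht l
  have s3 : ‖Λ + (y - x)‖ ≤ 1 / 100 * ‖y - x‖ := D.q12 x y (D.XX_Dg ht l) (by linarith)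
  have u1 : ‖A - 1‖ ≤ 1 / 100 := D.DX_sub ht l
  have u2 : ‖B - 1‖ ≤ 1 / 100 := D.DX_sub ht (l + 1)
  have nB : ‖B‖ ≤ 101 / 100 := D.DX_le ht (l + 1)
  have nAB : ‖A * B - 1‖ ≤ 3 / 100 := by
    have e : A * B - 1 = (A - 1) * B + (B - 1) := by ring
    rw [e]
    refine (norm_add_le _ _).trans ?_
    rw [norm_mul]
    have := norm_nonneg (A - 1)
    have := norm_nonneg B
    nlinarith
  have nAB' : ‖A * B‖ ≤ 103 / 100 := by
    have := norm_add_le (A * B - 1) 1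
    rw [sub_add_cancel, norm_one] at this
    linarith
  have e5 : aa L X w t l + w = (Λ + (y - x)) * (A * B) - (y - x) * (A * B - 1) -
      (y - x - w) := by
    rw [haf]
    ring
  rw [e5]
  have t1 := norm_sub_le ((Λ + (y - x)) * (A * B) - (y - x) * (A * B - 1)) (y - x - w)
  have t2 := norm_sub_le ((Λ + (y - x)) * (A * B)) ((y - x) * (A * B - 1))
  have t3 : ‖(Λ + (y - x)) * (A * B)‖ ≤ 1 / 100 * ‖y - x‖ * (103 / 100) := by
    rw [norm_mul]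
    exact mul_le_mul s3 nAB' (norm_nonneg _) (by positivity)
  have t4 : ‖(y - x) * (A * B - 1)‖ ≤ ‖y - x‖ * (3 / 100) := by
    rw [norm_mul]
    exact mul_le_mul_of_nonneg_left nAB (norm_nonneg _)
  linarith

lemma Dat.DXv_le (D : Dat ρ₀ ε₀ ρ d w ε K δ₀ b n j L Ψ X) {t : ℂ} (ht : |t.im| < ρ)
    {u : ℂ} {m : ℝ} (hu : ‖u‖ ≤ m) (i : ℕ) : ‖DX X w t i * u‖ ≤ 101 / 100 * m := by
  rw [norm_mul]
  exact mul_le_mul (D.DX_le ht i) hu (norm_nonneg _) (by norm_num)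

/-- derivative of the defect -/
lemma Dat.dE (D : Dat ρ₀ ε₀ ρ d w ε K δ₀ b n j L Ψ X) {t : ℂ} (ht : |t.im| < ρ - d) (m : ℕ) :
    ‖dEL L (XX X w t m) (XX X w t (m + 1)) (XX X w t (m + 1 + 1)) (DX X w t m)
      (DX X w t (m + 1)) (DX X w t (m + 1 + 1))‖ ≤ 100 / 99 * ε / d := by
  have hd := D.d_pos
  have ho : IsOpen {t : ℂ | |t.im| < ρ} := isOpen_lt (by fun_prop) continuous_const
  have hsubDg : Dg (3 / 4 * ρ₀) (ε₀ / 2) ⊆ Dg ρ₀ ε₀ :=
    Dg_mono (by have := D.ρ₀_pos; linarith) (by have := D.lag.ε_pos; linarith)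
  set Ef : ℂ → ℂ := fun s => EL L (X (s + m * w)) (X (s + (m + 1 : ℕ) * w))
    (X (s + (m + 1 + 1 : ℕ) * w)) with hEf
  have hX : ∀ (i : ℕ) (s : ℂ), |s.im| < ρ →
      HasDerivAt (fun s => X (s + i * w)) (DX X w s i) s := by
    intro i s hs
    have h1 : HasDerivAt X (deriv X (s + i * w)) (s + i * w) :=
      (D.Xd.differentiableAt (ho.mem_nhds (by simpa using hs))).hasDerivAt
    have h2 : HasDerivAt (fun s : ℂ => s + i * w) 1 s := (hasDerivAt_id s).add_const _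
    have := h1.comp s h2
    rw [mul_one] at this
    exact this
  have hder : ∀ s : ℂ, |s.im| < ρ → HasDerivAt Ef (dEL L (XX X w s m) (XX X w s (m + 1))
      (XX X w s (m + 1 + 1)) (DX X w s m) (DX X w s (m + 1)) (DX X w s (m + 1 + 1))) s := by
    intro s hs
    exact D.lag.hasDerivAt_EL (hsubDg (D.XX_Dg hs m)) (hsubDg (D.XX_Dg hs (m + 1)))
      (hX m s hs) (hX (m + 1) s hs) (hX (m + 1 + 1) s hs)
  have hbd : ∀ s : ℂ, |s.im| < ρ → ‖Ef s‖ ≤ 100 / 99 * ε := by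
    intro s hs
    have h1 := D.XE (s + (m + 1 : ℕ) * w) (by simpa using hs)
    have e1 : s + ((m + 1 : ℕ) : ℂ) * w - w = s + m * w := by push_cast; ring
    have e2 : s + ((m + 1 : ℕ) : ℂ) * w + w = s + ((m + 1 + 1 : ℕ) : ℂ) * w := by push_cast; ring
    rw [e1, e2, norm_mul] at h1
    have h2 : 99 / 100 ≤ ‖deriv X (s + ((m + 1 : ℕ) : ℂ) * w)‖ := D.DX_ge hs (m + 1)
    have h3 : 99 / 100 * ‖Ef s‖ ≤ ε :=
      (mul_le_mul_of_nonneg_right h2 (norm_nonneg _)).trans h1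
    linarith
  have hcb : closedBall t d ⊆ {s : ℂ | |s.im| < ρ} := by
    intro s hs
    rw [mem_closedBall, dist_eq_norm] at hs
    have h1 := Complex.abs_im_le_norm (s - t)
    rw [Complex.sub_im] at h1
    have h2 := abs_sub_abs_le_abs_sub s.im t.im
    simp only [Set.mem_ofPred_eq]
    linarith
  have hdiff : DifferentiableOn ℂ Ef {s : ℂ | |s.im| < ρ} := fun s hs =>
    (hder s hs).differentiableAt.differentiableWithinAt
  have h4 := norm_deriv_le_of_forall_mem_sphere_norm_le hd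
    ((hdiff.mono hcb).diffContOnCl_ball subset_rfl)
    (fun s hs => hbd s (hcb (sphere_subset_closedBall hs)))
  rw [(hder t (by linarith)).deriv] at h4
  exact h4

lemma ff_succ (v : ℕ → ℂ) (t : ℂ) (m : ℕ) : ff L X w t v (m + 1) = gg L X w t v m := rfl

/-- Lipschitz bound of the right hand side -/
lemma Dat.gg_lip (D : Dat ρ₀ ε₀ ρ d w ε K δ₀ b n j L Ψ X) {t : ℂ} (ht : |t.im| < ρ - d)
    {v v' : ℕ → ℂ} {δ : ℝ} (hv : ∀ i ≤ n, ‖v i‖ ≤ b) (hv' : ∀ i ≤ n, ‖v' i‖ ≤ b)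
    (hδ : ∀ i ≤ n, ‖v i - v' i‖ ≤ δ) {m : ℕ} (hm : m + 1 < n) :
    ‖gg L X w t v m - gg L X w t v' m‖ ≤ 2 * (ε / d + K * b) * δ := by
  have hd := D.d_pos
  have hbn := D.b_nn
  have hK := D.K_pos
  have ht' : |t.im| < ρ := by linarith
  have hδ0 : 0 ≤ δ := (norm_nonneg _).trans (hδ 0 (Nat.zero_le _))
  have i0 : m ≤ n := by omega
  have i1 : m + 1 ≤ n := by omega
  have i2 : m + 1 + 1 ≤ n := by omega
  set x := XX X w t m with hx
  set y := XX X w t (m + 1) with hy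
  set z := XX X w t (m + 1 + 1) with hz
  set A := DX X w t m with hA
  set B := DX X w t (m + 1) with hB
  set C := DX X w t (m + 1 + 1) with hC
  have hdiff : ∀ i ≤ n, ‖DX X w t i * v i - DX X w t i * v' i‖ ≤ 101 / 100 * δ := by
    intro i hi
    rw [← mul_sub]
    exact D.DXv_le ht' (hδ i hi) i
  have h1 := D.lip x y z (A * v m) (B * v (m + 1)) (C * v (m + 1 + 1)) (A * v' m)
    (B * v' (m + 1)) (C * v' (m + 1 + 1)) (101 / 100 * b) (101 / 100 * δ) (D.XX_Dg ht' m)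
    (D.XX_Dg ht' (m + 1)) (D.DXv_le ht' (hv _ i0) _) (D.DXv_le ht' (hv _ i1) _)
    (D.DXv_le ht' (hv _ i2) _) (D.DXv_le ht' (hv' _ i0) _) (D.DXv_le ht' (hv' _ i1) _)
    (D.DXv_le ht' (hv' _ i2) _) (hdiff _ i0) (hdiff _ i1) (hdiff _ i2)
    (by have := D.b_δ; linarith)
  set R := EL L (x + A * v m) (y + B * v (m + 1)) (z + C * v (m + 1 + 1)) -
    EL L (x + A * v' m) (y + B * v' (m + 1)) (z + C * v' (m + 1 + 1)) -
    dEL L x y z (A * v m - A * v' m) (B * v (m + 1) - B * v' (m + 1))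
      (C * v (m + 1 + 1) - C * v' (m + 1 + 1)) with hR
  have e : gg L X w t v m - gg L X w t v' m =
      -(B * (dEL L x y z A B C * (v (m + 1) - v' (m + 1)))) - B * R := by
    rw [hR]
    unfold gg yy aa dEL
    rw [← hx, ← hy, ← hz, ← hA, ← hB, ← hC]
    ring
  rw [e]
  have t1 := norm_sub_le (-(B * (dEL L x y z A B C * (v (m + 1) - v' (m + 1))))) (B * R)
  have t2 : ‖-(B * (dEL L x y z A B C * (v (m + 1) - v' (m + 1))))‖ ≤
      101 / 100 * (100 / 99 * ε / d * δ) := by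
    rw [norm_neg]
    refine D.DXv_le ht' ?_ (m + 1)
    rw [norm_mul]
    exact mul_le_mul (D.dE ht m) (hδ _ i1) (norm_nonneg _) (by have := D.ε_nn; positivity)
  have t3 : ‖B * R‖ ≤ 101 / 100 * (K * (101 / 100 * b) * (101 / 100 * δ)) :=
    D.DXv_le ht' h1 (m + 1)
  have t4 : 0 ≤ ε / d * δ := by have := D.ε_nn; positivity
  have t5 : 0 ≤ K * b * δ := by positivity
  have e1 : 101 / 100 * (100 / 99 * ε / d * δ) = 101 / 99 * (ε / d * δ) := by ring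
  have e2 : 101 / 100 * (K * (101 / 100 * b) * (101 / 100 * δ)) =
    (101 / 100) ^ 3 * (K * b * δ) := by ring
  have e3 : 2 * (ε / d + K * b) * δ = 2 * (ε / d * δ) + 2 * (K * b * δ) := by ring
  rw [e1] at t2
  rw [e2] at t3
  rw [e3]
  have : ((101 : ℝ) / 100) ^ 3 ≤ 2 := by norm_num
  have t6 : (101 / 100) ^ 3 * (K * b * δ) ≤ 2 * (K * b * δ) :=
    mul_le_mul_of_nonneg_right this t5
  linarith

lemma Dat.gg_zero (D : Dat ρ₀ ε₀ ρ d w ε K δ₀ b n j L Ψ X) {t : ℂ} (ht : |t.im| < ρ) (m : ℕ) :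
    ‖gg L X w t (fun _ => 0) m‖ ≤ ε := by
  have h1 := D.XE (t + (m + 1 : ℕ) * w) (by simpa using ht)
  have e1 : t + ((m + 1 : ℕ) : ℂ) * w - w = t + m * w := by push_cast; ring
  have e2 : t + ((m + 1 : ℕ) : ℂ) * w + w = t + ((m + 1 + 1 : ℕ) : ℂ) * w := by push_cast; ring
  rw [e1, e2] at h1
  have e3 : gg L X w t (fun _ => 0) m =
      -(deriv X (t + ((m + 1 : ℕ) : ℂ) * w) * EL L (X (t + m * w))
        (X (t + ((m + 1 : ℕ) : ℂ) * w)) (X (t + ((m + 1 + 1 : ℕ) : ℂ) * w))) := by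
    unfold gg yy XX DX
    simp
  rw [e3, norm_neg]
  exact h1

lemma Dat.TT_lip (D : Dat ρ₀ ε₀ ρ d w ε K δ₀ b n j L Ψ X) {t : ℂ} (ht : |t.im| < ρ - d)
    {v v' : ℕ → ℂ} {δ : ℝ} (hv : ∀ i ≤ n, ‖v i‖ ≤ b) (hv' : ∀ i ≤ n, ‖v' i‖ ≤ b)
    (hδ : ∀ i ≤ n, ‖v i - v' i‖ ≤ δ) {i : ℕ} (hi : i ≤ n) :
    ‖TT L X w n t v i - TT L X w n t v' i‖ ≤ δ / 2 := by
  have hd := D.d_pos
  have hbn := D.b_nn
  have hK := D.K_pos
  have hε := D.ε_nn
  have hw := D.w_pos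
  have hδ0 : 0 ≤ δ := (norm_nonneg _).trans (hδ 0 (Nat.zero_le _))
  have ht' : |t.im| < ρ := by linarith
  unfold TT
  rw [← dinv_sub]
  have h1 := (D.coef ht').dinv_le (f := fun m => ff L X w t v m - ff L X w t v' m)
    (φ := 2 * (ε / d + K * b) * δ) (by positivity) (fun m hm1 hm2 => by
      obtain ⟨k, rfl⟩ : ∃ k, m = k + 1 := ⟨m - 1, by omega⟩
      exact D.gg_lip ht hv hv' hδ hm2) hi
  refine h1.trans ?_
  have h2 := D.contr
  have e : 5 / 2 * (n : ℝ) ^ 2 / w * (2 * (ε / d + K * b) * δ) =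
    (10 * n ^ 2 / w * (ε / d + K * b)) * (δ / 2) := by ring
  rw [e]
  have := mul_le_mul_of_nonneg_right h2 (show 0 ≤ δ / 2 by positivity)
  linarith

lemma Dat.TT_zero (D : Dat ρ₀ ε₀ ρ d w ε K δ₀ b n j L Ψ X) {t : ℂ} (ht : |t.im| < ρ)
    {i : ℕ} (hi : i ≤ n) : ‖TT L X w n t (fun _ => 0) i‖ ≤ b / 2 := by
  unfold TT
  have h1 := (D.coef ht).dinv_le (f := ff L X w t (fun _ => 0)) (φ := ε) D.ε_nn
    (fun m hm1 hm2 => by
      obtain ⟨k, rfl⟩ : ∃ k, m = k + 1 := ⟨m - 1, by omega⟩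
      exact D.gg_zero ht k) hi
  refine h1.trans (le_of_eq ?_)
  rw [D.hb]; ring

/-- Picard iterates -/
def VV (L : ℂ × ℂ → ℂ) (X : ℂ → ℂ) (w : ℝ) (n : ℕ) (t : ℂ) : ℕ → ℕ → ℂ
  | 0 => fun _ => 0
  | k + 1 => TT L X w n t (VV L X w n t k)

lemma Dat.VV_bd (D : Dat ρ₀ ε₀ ρ d w ε K δ₀ b n j L Ψ X) {t : ℂ} (ht : |t.im| < ρ - d) (k : ℕ) :
    (∀ i ≤ n, ‖VV L X w n t k i‖ ≤ b - b / 2 ^ k) ∧
      ∀ i ≤ n, ‖VV L X w n t (k + 1) i - VV L X w n t k i‖ ≤ b / 2 / 2 ^ k := by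
  have hd := D.d_pos
  have hbn := D.b_nn
  have ht' : |t.im| < ρ := by linarith
  induction k with
  | zero =>
    refine ⟨fun i _ => ?_, fun i hi => ?_⟩
    · simp [VV]
    · have := D.TT_zero ht' hi
      simpa [VV] using this
  | succ k ih =>
    have h1 : ∀ i ≤ n, ‖VV L X w n t (k + 1) i‖ ≤ b - b / 2 ^ (k + 1) := by
      intro i hi
      have h2 := norm_add_le (VV L X w n t (k + 1) i - VV L X w n t k i) (VV L X w n t k i)
      rw [sub_add_cancel] at h2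
      have h3 := ih.1 i hi
      have h4 := ih.2 i hi
      have e : b / 2 ^ (k + 1) = b / 2 / 2 ^ k := by rw [pow_succ]; ring
      have e2 : b / 2 ^ k = 2 * (b / 2 / 2 ^ k) := by ring
      rw [e]
      linarith
    refine ⟨h1, fun i hi => ?_⟩
    have hle : ∀ m, b - b / 2 ^ m ≤ b := fun m => by
      have : 0 ≤ b / 2 ^ m := by positivity
      linarith
    have h5 := D.TT_lip ht (v := VV L X w n t (k + 1)) (v' := VV L X w n t k)
      (fun i hi => (h1 i hi).trans (hle _)) (fun i hi => (ih.1 i hi).trans (hle _)) ih.2 hi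
    refine h5.trans (le_of_eq ?_)
    rw [pow_succ]; ring

lemma Dat.VV_le (D : Dat ρ₀ ε₀ ρ d w ε K δ₀ b n j L Ψ X) {t : ℂ} (ht : |t.im| < ρ - d) (k : ℕ)
    {i : ℕ} (hi : i ≤ n) : ‖VV L X w n t k i‖ ≤ b := by
  have h := (D.VV_bd ht k).1 i hi
  have hbn := D.b_nn
  have : 0 ≤ b / 2 ^ k := by positivity
  linarith

/-- the solution -/
def WW (L : ℂ × ℂ → ℂ) (X : ℂ → ℂ) (w : ℝ) (n : ℕ) (t : ℂ) (i : ℕ) : ℂ :=
  limUnder atTop (fun k => VV L X w n t k i)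

lemma Dat.tendsto_WW (D : Dat ρ₀ ε₀ ρ d w ε K δ₀ b n j L Ψ X) {t : ℂ} (ht : |t.im| < ρ - d)
    {i : ℕ} (hi : i ≤ n) : Tendsto (fun k => VV L X w n t k i) atTop (𝓝 (WW L X w n t i)) := by
  have h1 : CauchySeq (fun k => VV L X w n t k i) := by
    refine cauchySeq_of_le_geometric_two (C := b) (fun k => ?_)
    rw [dist_comm, dist_eq_norm]
    exact (D.VV_bd ht k).2 i hi
  exact CauchySeq.tendsto_limUnder h1

lemma Dat.dist_WW (D : Dat ρ₀ ε₀ ρ d w ε K δ₀ b n j L Ψ X) {t : ℂ} (ht : |t.im| < ρ - d)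
    {i : ℕ} (hi : i ≤ n) (k : ℕ) : ‖VV L X w n t k i - WW L X w n t i‖ ≤ b / 2 ^ k := by
  rw [← dist_eq_norm]
  refine dist_le_of_le_geometric_two_of_tendsto (C := b) (fun k => ?_) (D.tendsto_WW ht hi) k
  rw [dist_comm, dist_eq_norm]
  exact (D.VV_bd ht k).2 i hi

lemma Dat.WW_le (D : Dat ρ₀ ε₀ ρ d w ε K δ₀ b n j L Ψ X) {t : ℂ} (ht : |t.im| < ρ - d)
    {i : ℕ} (hi : i ≤ n) : ‖WW L X w n t i‖ ≤ b :=
  le_of_tendsto (D.tendsto_WW ht hi).norm (Eventually.of_forall (fun k => D.VV_le ht k hi))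

lemma Dat.WW_fix (D : Dat ρ₀ ε₀ ρ d w ε K δ₀ b n j L Ψ X) {t : ℂ} (ht : |t.im| < ρ - d)
    {i : ℕ} (hi : i ≤ n) : WW L X w n t i = TT L X w n t (WW L X w n t) i := by
  have h1 := (tendsto_add_atTop_iff_nat 1).2 (D.tendsto_WW ht hi)
  refine tendsto_nhds_unique h1 ?_
  rw [tendsto_iff_norm_sub_tendsto_zero]
  have hbn := D.b_nn
  have h2 : ∀ k, ‖VV L X w n t (k + 1) i - TT L X w n t (WW L X w n t) i‖ ≤ b / 2 ^ k / 2 :=
    fun k => D.TT_lip ht (v := VV L X w n t k) (v' := WW L X w n t)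
      (fun i hi => D.VV_le ht k hi) (fun i hi => D.WW_le ht hi)
      (fun i hi => D.dist_WW ht hi k) hi
  refine squeeze_zero (fun k => norm_nonneg _) h2 ?_
  have h3 : Tendsto (fun k : ℕ => b / 2 * (1 / 2 : ℝ) ^ k) atTop (𝓝 (b / 2 * 0)) :=
    (tendsto_pow_atTop_nhds_zero_of_lt_one (by norm_num) (by norm_num)).const_mul _
  rw [mul_zero] at h3
  refine h3.congr (fun k => ?_)
  rw [div_pow, one_pow]
  ring

lemma Dat.WW_zero (D : Dat ρ₀ ε₀ ρ d w ε K δ₀ b n j L Ψ X) {t : ℂ} (ht : |t.im| < ρ - d) :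
    WW L X w n t 0 = 0 := by
  rw [D.WW_fix ht (Nat.zero_le _)]
  exact dinv_zero

lemma Dat.WW_end (D : Dat ρ₀ ε₀ ρ d w ε K δ₀ b n j L Ψ X) {t : ℂ} (ht : |t.im| < ρ - d) :
    WW L X w n t n = 0 := by
  have ht' : |t.im| < ρ := by have := D.d_pos; linarith
  rw [D.WW_fix ht le_rfl]
  exact dinv_end (D.coef ht').sum_ne

/-- the chain satisfies the reflection law at the interior points -/
lemma Dat.EL_zero (D : Dat ρ₀ ε₀ ρ d w ε K δ₀ b n j L Ψ X) {t : ℂ} (ht : |t.im| < ρ - d)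
    {m : ℕ} (hm : m + 1 < n) :
    EL L (yy X w t (WW L X w n t) m) (yy X w t (WW L X w n t) (m + 1))
      (yy X w t (WW L X w n t) (m + 1 + 1)) = 0 := by
  have ht' : |t.im| < ρ := by have := D.d_pos; linarith
  have hc := D.coef ht'
  have h1 := dinv_eq (a := aa L X w t) (f := ff L X w t (WW L X w n t)) (n := n) (i := m)
    (hc.ne (by omega)) (hc.ne hm)
  have f0 := D.WW_fix ht (i := m) (by omega)
  have f1 := D.WW_fix ht (i := m + 1) (by omega)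
  have f2 := D.WW_fix ht (i := m + 1 + 1) (by omega)
  unfold TT at f0 f1 f2
  rw [← f0, ← f1, ← f2, ff_succ] at h1
  unfold gg at h1
  have h2 : DX X w t (m + 1) * EL L (yy X w t (WW L X w n t) m)
      (yy X w t (WW L X w n t) (m + 1)) (yy X w t (WW L X w n t) (m + 1 + 1)) = 0 := by
    linear_combination h1
  exact (mul_eq_zero.1 h2).resolve_left (D.DX_ne ht' _)

end Crest.Agent.R102.B540
end
private theorem rz_64e79dfdd7 : type_of% @_root_.Crest.Agent.R102.B540.VV.eq_def := @_root_.Crest.Agent.R102.B540.VV.eq_def -- L382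
private theorem rz_d7b88cfb10 : type_of% @_root_.Crest.Agent.R102.B540.VV.eq_1 := @_root_.Crest.Agent.R102.B540.VV.eq_1 -- L382
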