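import Crest.Agent.R266.SCV

/-!
Row 102, part (B), piece B1 (helper821): adapted domains
`D_k(ρ, r) = {(t, w) : |Im t| + k |Im w| < ρ, |w| < r}`, 1-periodic holomorphic functions on them,
Fourier coefficients in `t` (contour shift, decay, summation), centred difference.
-/

set_option autoImplicit false

open Set Filter Topology Metric Complex MeasureTheory
open scoped Real ContDiff

noncomputable section

namespace Crest.Agent.R102.B821

open Crest.Agent.R266.SCV

/-- the adapted domain `D_k(ρ, r)` -/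
def Dom (k ρ r : ℝ) : Set (ℂ × ℂ) := {p | |p.1.im| + k * |p.2.im| < ρ ∧ ‖p.2‖ < r}

lemma mem_Dom {k ρ r : ℝ} {p : ℂ × ℂ} :
    p ∈ Dom k ρ r ↔ |p.1.im| + k * |p.2.im| < ρ ∧ ‖p.2‖ < r := Iff.rfl

lemma isOpen_Dom (k ρ r : ℝ) : IsOpen (Dom k ρ r) := by
  have h1 : IsOpen {p : ℂ × ℂ | |p.1.im| + k * |p.2.im| < ρ} :=
    isOpen_lt (by fun_prop) continuous_const
  have h2 : IsOpen {p : ℂ × ℂ | ‖p.2‖ < r} := isOpen_lt (by fun_prop) continuous_const
  exact h1.inter h2

/-- `f` is holomorphic on `D_k(ρ, r)` and 1-periodic in `t` -/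
structure IsH (k ρ r : ℝ) (f : ℂ × ℂ → ℂ) : Prop where
  diff : DifferentiableOn ℂ f (Dom k ρ r)
  per : ∀ t w : ℂ, (t, w) ∈ Dom k ρ r → f (t + 1, w) = f (t, w)

/-- `|f(t, w)| ≤ A |w|^M` on `D_k(ρ, r)` -/
def Bdd (k ρ r : ℝ) (M : ℕ) (A : ℝ) (f : ℂ × ℂ → ℂ) : Prop :=
  ∀ p ∈ Dom k ρ r, ‖f p‖ ≤ A * ‖p.2‖ ^ M

/-- the exponential `e(x) = exp(2 π i x)` -/
def ee (z : ℂ) : ℂ := Complex.exp (2 * π * I * z)

lemma ee_add (a b : ℂ) : ee (a + b) = ee a * ee b := by
  unfold ee; rw [← Complex.exp_add]; ring_nf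

lemma ee_zero : ee 0 = 1 := by simp [ee]



lemma ee_int (n : ℤ) : ee (n : ℂ) = 1 := by
  unfold ee
  rw [Complex.exp_eq_one_iff]
  exact ⟨n, by ring⟩

lemma norm_ee (z : ℂ) : ‖ee z‖ = Real.exp (-(2 * π * z.im)) := by
  unfold ee
  rw [Complex.norm_exp]
  congr 1
  simp [Complex.mul_re, Complex.mul_im]

lemma differentiable_ee : Differentiable ℂ ee := by
  unfold ee; fun_prop

lemma continuous_ee : Continuous ee := differentiable_ee.continuous

/-- Fourier coefficient in `t` -/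
def fc (f : ℂ × ℂ → ℂ) (n : ℤ) (w : ℂ) : ℂ :=
  ∫ x in (0 : ℝ)..1, f ((x : ℂ), w) * ee (-(n * x))

/-- periodic functions on a strip: the integral over a period does not depend on the line -/
theorem strip_shift {g : ℂ → ℂ} {σ : ℝ} (hg : DifferentiableOn ℂ g {z | |z.im| < σ})
    (hper : ∀ z : ℂ, |z.im| < σ → g (z + 1) = g z) {s : ℂ} (hs : |s.im| < σ) :
    ∫ x in (0 : ℝ)..1, g (x + s) = ∫ x in (0 : ℝ)..1, g x := by
  have hσ : 0 < σ := (abs_nonneg _).trans_lt hs
  -- real shift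
  have h1 : ∫ x in (0 : ℝ)..1, g (x + s) = ∫ x in (0 : ℝ)..1, g (x + s.im * I) := by
    have hp : Function.Periodic (fun y : ℝ => g (y + s.im * I)) 1 := by
      intro y
      have := hper (y + s.im * I) (by simpa using hs)
      beta_reduce
      rw [← this]
      congr 1
      push_cast
      ring
    have h2 := hp.intervalIntegral_add_eq s.re 0
    rw [zero_add] at h2
    rw [← h2]
    have h3 := intervalIntegral.integral_comp_add_right (fun y : ℝ => g (y + s.im * I)) s.re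
      (a := 0) (b := 1)
    rw [zero_add, add_comm (1 : ℝ)] at h3
    rw [← h3]
    refine intervalIntegral.integral_congr (fun x _ => ?_)
    congr 1
    push_cast
    rw [add_assoc, Complex.re_add_im]
  rw [h1]
  have hsub : (uIcc (0 : ℂ).re (1 + s.im * I : ℂ).re ×ℂ uIcc (0 : ℂ).im (1 + s.im * I : ℂ).im) ⊆
      {z : ℂ | |z.im| < σ} := by
    intro z hz
    rw [Complex.mem_reProdIm] at hz
    have h4 := hz.2
    simp only [Complex.zero_im, Complex.add_im, Complex.one_im, Complex.mul_im, Complex.ofReal_re,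
      Complex.I_im, mul_one, Complex.ofReal_im, Complex.I_re, mul_zero, add_zero, zero_add] at h4
    have h5 : |z.im| ≤ |s.im| := by
      rcases le_total 0 s.im with h | h
      · rw [uIcc_of_le h] at h4
        rw [abs_of_nonneg h4.1, abs_of_nonneg h]; exact h4.2
      · rw [uIcc_of_ge h] at h4
        rw [abs_of_nonpos h4.2, abs_of_nonpos h]; linarith [h4.1]
    exact h5.trans_lt hs
  have hrect := Complex.integral_boundary_rect_eq_zero_of_differentiableOn g 0 (1 + s.im * I)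
    (hg.mono hsub)
  simp only [Complex.zero_im, Complex.add_im, Complex.one_im, Complex.mul_im, Complex.ofReal_re,
      Complex.I_im, mul_one, Complex.ofReal_im, Complex.I_re, mul_zero, add_zero, zero_add,
      Complex.zero_re, Complex.add_re, Complex.one_re, Complex.mul_re, sub_zero, Complex.ofReal_zero,
      zero_mul, Complex.ofReal_one] at hrect
  have hvert : (∫ y in (0 : ℝ)..s.im, g (1 + y * I)) = ∫ y in (0 : ℝ)..s.im, g (y * I) := by
    refine intervalIntegral.integral_congr (fun y hy => ?_)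
    have h5 : |y| < σ := by
      refine lt_of_le_of_lt ?_ hs
      rcases le_total 0 s.im with h | h
      · rw [uIcc_of_le h] at hy
        rw [abs_of_nonneg hy.1, abs_of_nonneg h]; exact hy.2
      · rw [uIcc_of_ge h] at hy
        rw [abs_of_nonpos hy.2, abs_of_nonpos h]; linarith [hy.1]
    have := hper (y * I) (by simpa using h5)
    rw [← this, add_comm]
  rw [hvert] at hrect
  have h6 : (∫ x in (0 : ℝ)..1, g (x : ℂ)) - ∫ x in (0 : ℝ)..1, g (x + s.im * I) = 0 := by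
    linear_combination hrect
  exact (sub_eq_zero.1 h6).symm

section Basic

variable {k ρ r : ℝ} {f g : ℂ × ℂ → ℂ}

lemma Dom_mono {k k' ρ ρ' r r' : ℝ} (hk : k ≤ k') (hρ : ρ' ≤ ρ) (hr : r' ≤ r) :
    Dom k' ρ' r' ⊆ Dom k ρ r := by
  intro p hp
  refine ⟨?_, hp.2.trans_le hr⟩
  have h1 := hp.1
  have h2 : k * |p.2.im| ≤ k' * |p.2.im| := mul_le_mul_of_nonneg_right hk (abs_nonneg _)
  linarith

lemma mem_Dom_add_one {t w : ℂ} : (t + 1, w) ∈ Dom k ρ r ↔ (t, w) ∈ Dom k ρ r := by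
  simp [mem_Dom]


lemma real_mem_Dom {x : ℝ} {w : ℂ} : ((x : ℂ), w) ∈ Dom k ρ r ↔ k * |w.im| < ρ ∧ ‖w‖ < r := by
  simp [mem_Dom]

lemma IsH.mono {k k' ρ ρ' r r' : ℝ} (hf : IsH k ρ r f) (hk : k ≤ k') (hρ : ρ' ≤ ρ) (hr : r' ≤ r) :
    IsH k' ρ' r' f :=
  ⟨hf.diff.mono (Dom_mono hk hρ hr), fun t w h => hf.per t w (Dom_mono hk hρ hr h)⟩

lemma Bdd.mono {k k' ρ ρ' r r' : ℝ} {M : ℕ} {A : ℝ} (hf : Bdd k ρ r M A f) (hk : k ≤ k')
    (hρ : ρ' ≤ ρ) (hr : r' ≤ r) : Bdd k' ρ' r' M A f :=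
  fun p h => hf p (Dom_mono hk hρ hr h)

lemma Bdd.le {M : ℕ} {A A' : ℝ} (hf : Bdd k ρ r M A f) (h : A ≤ A') : Bdd k ρ r M A' f :=
  fun p hp => (hf p hp).trans (mul_le_mul_of_nonneg_right h (by positivity))

lemma IsH.add (hf : IsH k ρ r f) (hg : IsH k ρ r g) : IsH k ρ r (fun p => f p + g p) :=
  ⟨hf.diff.add hg.diff, fun t w h => by rw [hf.per t w h, hg.per t w h]⟩

lemma IsH.sub (hf : IsH k ρ r f) (hg : IsH k ρ r g) : IsH k ρ r (fun p => f p - g p) :=
  ⟨hf.diff.sub hg.diff, fun t w h => by rw [hf.per t w h, hg.per t w h]⟩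

lemma IsH.mul (hf : IsH k ρ r f) (hg : IsH k ρ r g) : IsH k ρ r (fun p => f p * g p) :=
  ⟨hf.diff.mul hg.diff, fun t w h => by rw [hf.per t w h, hg.per t w h]⟩

lemma IsH.neg (hf : IsH k ρ r f) : IsH k ρ r (fun p => - f p) :=
  ⟨hf.diff.neg, fun t w h => by rw [hf.per t w h]⟩

lemma IsH.const (c : ℂ) : IsH k ρ r (fun _ => c) := ⟨differentiableOn_const c, fun _ _ _ => rfl⟩

/-- functions of `w` only -/
lemma IsH.ofW {a : ℂ → ℂ} (ha : DifferentiableOn ℂ a (ball 0 r)) : IsH k ρ r (fun p => a p.2) :=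
  ⟨ha.comp differentiable_snd.differentiableOn (fun p hp => by simpa using hp.2),
    fun _ _ _ => rfl⟩

lemma IsH.snd : IsH k ρ r (fun p => p.2) :=
  ⟨differentiable_snd.differentiableOn, fun _ _ _ => rfl⟩

lemma IsH.inv (hf : IsH k ρ r f) (h0 : ∀ p ∈ Dom k ρ r, f p ≠ 0) :
    IsH k ρ r (fun p => (f p)⁻¹) :=
  ⟨hf.diff.inv h0, fun t w h => by rw [hf.per t w h]⟩

lemma IsH.congr (hf : IsH k ρ r f) (h : ∀ p ∈ Dom k ρ r, g p = f p) : IsH k ρ r g :=
  ⟨hf.diff.congr h, fun t w hp => by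
    rw [h _ hp, h _ (mem_Dom_add_one.2 hp), hf.per t w hp]⟩

lemma IsH.slice (hf : IsH k ρ r f) {w : ℂ} (hw : ‖w‖ < r) :
    DifferentiableOn ℂ (fun t => f (t, w)) {t : ℂ | |t.im| < ρ - k * |w.im|} := by
  refine hf.diff.comp (by fun_prop) (fun t ht => ⟨?_, hw⟩)
  have : |t.im| < ρ - k * |w.im| := ht
  simp only
  linarith

/-- contour shift in `t` -/
theorem fc_shift (hf : IsH k ρ r f) (n : ℤ) {w s : ℂ} (hw : (s, w) ∈ Dom k ρ r) :
    ∫ x in (0 : ℝ)..1, f (x + s, w) * ee (-(n * (x + s))) = fc f n w := by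
  have h1 : |s.im| < ρ - k * |w.im| := by
    have := hw.1
    simp only at this
    linarith
  have h2 : DifferentiableOn ℂ (fun t => f (t, w) * ee (-(n * t)))
      {t : ℂ | |t.im| < ρ - k * |w.im|} := by
    refine (hf.slice hw.2).mul ?_
    exact (differentiable_ee.comp (by fun_prop)).differentiableOn
  have h3 := strip_shift (g := fun t => f (t, w) * ee (-(n * t))) h2 (fun z hz => by
    have h4 : (z, w) ∈ Dom k ρ r := ⟨by simp only; linarith, hw.2⟩
    rw [hf.per z w h4]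
    congr 1
    rw [show (-((n : ℂ) * (z + 1))) = -(n * z) + ((-n : ℤ) : ℂ) by push_cast; ring, ee_add, ee_int,
      mul_one]) h1
  exact h3

theorem fc_shift_real (hf : IsH k ρ r f) (n : ℤ) {w : ℂ} (hw : ‖w‖ < r) {σ : ℝ}
    (hσ : |σ| + k * |w.im| < ρ) :
    fc f n w = ∫ x in (0 : ℝ)..1, f (x + σ * I, w) * ee (-(n * (x + σ * I))) := by
  rw [fc_shift hf n (s := σ * I) ⟨by simpa using hσ, hw⟩]

/-- decay of the Fourier coefficients -/
theorem norm_fc_le (hf : IsH k ρ r f) {M : ℕ} {A : ℝ} (hb : Bdd k ρ r M A f) (n : ℤ) {w : ℂ}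
    (hw : ‖w‖ < r) (hk : k * |w.im| < ρ) :
    ‖fc f n w‖ ≤ A * ‖w‖ ^ M * Real.exp (-(2 * π * |(n : ℝ)| * (ρ - k * |w.im|))) := by
  have key : ∀ τ : ℝ, 0 ≤ τ → τ < ρ - k * |w.im| →
      ‖fc f n w‖ ≤ A * ‖w‖ ^ M * Real.exp (-(2 * π * |(n : ℝ)| * τ)) := by
    intro τ hτ0 hτ
    obtain ⟨σ, hσ1, hσ2⟩ : ∃ σ : ℝ, |σ| = τ ∧ (n : ℝ) * σ = - (|(n : ℝ)| * τ) := by
      rcases le_total 0 n with h | h
      · refine ⟨-τ, by rw [abs_neg, abs_of_nonneg hτ0], ?_⟩
        rw [abs_of_nonneg (by exact_mod_cast h : (0 : ℝ) ≤ (n : ℝ))]; ring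
      · refine ⟨τ, abs_of_nonneg hτ0, ?_⟩
        rw [abs_of_nonpos (by exact_mod_cast h : ((n : ℝ)) ≤ 0)]; ring
    rw [fc_shift_real hf n hw (σ := σ) (by rw [hσ1]; linarith)]
    have h5 := intervalIntegral.norm_integral_le_of_norm_le_const
      (f := fun x : ℝ => f (x + σ * I, w) * ee (-(n * (x + σ * I)))) (a := 0) (b := 1)
      (C := A * ‖w‖ ^ M * Real.exp (-(2 * π * |(n : ℝ)| * τ))) (fun x _ => ?_)
    · simpa using h5
    · rw [norm_mul, norm_ee]
      have h6 : ((x : ℂ) + σ * I, w) ∈ Dom k ρ r := ⟨by simp [hσ1]; linarith, hw⟩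
      have h7 := hb _ h6
      simp only at h7
      have h8 : (-(2 * π * (-((n : ℂ) * (x + σ * I))).im)) = -(2 * π * |(n : ℝ)| * τ) := by
        have : (-((n : ℂ) * (x + σ * I))).im = -((n : ℝ) * σ) := by
          simp
        rw [this, hσ2]; ring
      rw [h8]
      exact mul_le_mul_of_nonneg_right h7 (Real.exp_nonneg _)
  have hT : 0 < ρ - k * |w.im| := by linarith
  have hcont : Continuous (fun τ : ℝ => A * ‖w‖ ^ M * Real.exp (-(2 * π * |(n : ℝ)| * τ))) := by
    fun_prop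
  have hlim : Tendsto (fun τ : ℝ => A * ‖w‖ ^ M * Real.exp (-(2 * π * |(n : ℝ)| * τ)))
      (𝓝[<] (ρ - k * |w.im|))
      (𝓝 (A * ‖w‖ ^ M * Real.exp (-(2 * π * |(n : ℝ)| * (ρ - k * |w.im|))))) :=
    (hcont.tendsto _).mono_left nhdsWithin_le_nhds
  refine ge_of_tendsto hlim ?_
  filter_upwards [self_mem_nhdsWithin, mem_nhdsWithin_of_mem_nhds (lt_mem_nhds hT)] with τ h1 h2
  exact key τ h2.le h1

end Basic

section Coefficients

variable {k ρ r : ℝ} {f g : ℂ × ℂ → ℂ}

lemma IsH.continuousOn (hf : IsH k ρ r f) : ContinuousOn f (Dom k ρ r) := hf.diff.continuousOn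

lemma fc_intervalIntegrable (hf : IsH k ρ r f) (n : ℤ) {w : ℂ} (hw : ‖w‖ < r)
    (hk : k * |w.im| < ρ) :
    IntervalIntegrable (fun x : ℝ => f ((x : ℂ), w) * ee (-(n * x))) volume 0 1 := by
  refine Continuous.intervalIntegrable ?_ _ _
  refine Continuous.mul ?_ (continuous_ee.comp (by fun_prop))
  exact hf.continuousOn.comp_continuous (by fun_prop) (fun x => real_mem_Dom.2 ⟨hk, hw⟩)

lemma fc_add (hf : IsH k ρ r f) (hg : IsH k ρ r g) (n : ℤ) {w : ℂ} (hw : ‖w‖ < r)
    (hk : k * |w.im| < ρ) : fc (fun p => f p + g p) n w = fc f n w + fc g n w := by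
  unfold fc
  rw [← intervalIntegral.integral_add (fc_intervalIntegrable hf n hw hk)
    (fc_intervalIntegrable hg n hw hk)]
  simp only [add_mul]

lemma fc_sub (hf : IsH k ρ r f) (hg : IsH k ρ r g) (n : ℤ) {w : ℂ} (hw : ‖w‖ < r)
    (hk : k * |w.im| < ρ) : fc (fun p => f p - g p) n w = fc f n w - fc g n w := by
  unfold fc
  rw [← intervalIntegral.integral_sub (fc_intervalIntegrable hf n hw hk)
    (fc_intervalIntegrable hg n hw hk)]
  simp only [sub_mul]

lemma fc_mul_w (a : ℂ → ℂ) (f : ℂ × ℂ → ℂ) (n : ℤ) (w : ℂ) :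
    fc (fun p => a p.2 * f p) n w = a w * fc f n w := by
  unfold fc
  rw [← intervalIntegral.integral_const_mul]
  simp only [mul_assoc]

lemma fc_congr {w : ℂ} (h : ∀ x : ℝ, f ((x : ℂ), w) = g ((x : ℂ), w)) (n : ℤ) :
    fc f n w = fc g n w := by
  unfold fc
  simp only [h]

/-- Fourier coefficients are holomorphic in `w` -/
theorem differentiableOn_fc (hf : IsH k ρ r f) (n : ℤ) {U : Set ℂ} (hU : IsOpen U)
    (hU' : ∀ w ∈ U, ‖w‖ < r ∧ k * |w.im| < ρ) : DifferentiableOn ℂ (fc f n) U := by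
  have h1 := analyticOnNhd_intervalIntegral (E := ℂ) (F := ℂ)
    (f := fun p : ℂ × ℝ => f ((p.2 : ℂ), p.1) * ee (-(n * p.2))) (a := 0) (b := 1) (U := U) hU
    (by
      refine ContinuousOn.mul ?_ (continuous_ee.comp (by fun_prop)).continuousOn
      refine hf.continuousOn.comp (by fun_prop) ?_
      intro p hp
      have := hU' p.1 hp.1
      exact real_mem_Dom.2 ⟨this.2, this.1⟩)
    (by
      intro t _
      refine DifferentiableOn.mul_const (𝔸 := ℂ) ?_ (ee (-((n : ℂ) * (t : ℂ))))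
      refine DifferentiableOn.comp (g := f) (f := fun x : ℂ => ((t : ℂ), x)) hf.diff
        ((differentiable_const _).prodMk differentiable_id).differentiableOn ?_
      intro w hw
      exact real_mem_Dom.2 ⟨(hU' w hw).2, (hU' w hw).1⟩)
  exact h1.differentiableOn

/-- bound of a geometric series over `ℤ` -/
theorem summable_exp_abs {c : ℝ} (hc : 0 < c) :
    Summable (fun n : ℤ => Real.exp (-(c * |(n : ℝ)|))) := by
  have h1 : Summable (fun n : ℕ => Real.exp (-(c * n))) := by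
    have h2 : (fun n : ℕ => Real.exp (-(c * n))) = (fun n : ℕ => (Real.exp (-c)) ^ n) := by
      ext n
      rw [← Real.exp_nat_mul]
      congr 1; ring
    rw [h2]
    exact summable_geometric_of_lt_one (Real.exp_nonneg _) (by
      rw [Real.exp_lt_one_iff]; linarith)
  refine Summable.of_nat_of_neg ?_ ?_
  · refine h1.congr (fun n => ?_)
    simp
  · refine h1.congr (fun n => ?_)
    simp

/-- Fourier expansion in `t` -/
theorem hasSum_fc (hf : IsH k ρ r f) {A : ℝ} (hb : Bdd k ρ r 0 A f) {t w : ℂ}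
    (h : (t, w) ∈ Dom k ρ r) : HasSum (fun n : ℤ => fc f n w * ee (n * t)) (f (t, w)) := by
  have hk : k * |w.im| < ρ := by
    have := h.1; simp only at this
    have h2 := abs_nonneg t.im
    linarith
  have hw : ‖w‖ < r := h.2
  have hT : |t.im| < ρ - k * |w.im| := by
    have := h.1; simp only at this
    linarith
  set φ : ℝ → ℂ := fun x => f ((x : ℂ) + t.im * I, w) with hφ
  have hφc : Continuous φ := by
    refine hf.continuousOn.comp_continuous (by fun_prop) (fun x => ?_)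
    refine ⟨?_, hw⟩
    simp only [Complex.add_im, Complex.ofReal_im, Complex.mul_im, Complex.ofReal_re,
      Complex.I_im, Complex.I_re]
    simpa using h.1
  have hφp : Function.Periodic φ 1 := by
    intro x
    have h1 : ((x : ℂ) + t.im * I, w) ∈ Dom k ρ r := by
      refine ⟨?_, hw⟩
      simpa using h.1
    have h2 := hf.per _ _ h1
    simp only [hφ]
    rw [← h2]
    congr 2
    push_cast
    ring
  let F : C(AddCircle (1 : ℝ), ℂ) := ⟨hφp.lift, by
    exact continuous_coinduced_dom.mpr hφc⟩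
  have hFapp : ∀ x : ℝ, F (x : AddCircle (1 : ℝ)) = φ x := fun x => rfl
  have hcoef : ∀ n : ℤ, fourierCoeff F n = fc f n w * ee (n * (t.im * I)) := by
    intro n
    rw [fourierCoeff_eq_intervalIntegral F n 0]
    rw [fc_shift_real hf n hw (σ := t.im) (by linarith)]
    simp only [one_div, inv_one, one_smul, zero_add]
    rw [← intervalIntegral.integral_mul_const]
    refine intervalIntegral.integral_congr (fun x _ => ?_)
    rw [fourier_coe_apply, hFapp, smul_eq_mul, mul_comm, mul_assoc (f _), ← ee_add]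
    change φ x * _ = φ x * _
    congr 1
    unfold ee
    congr 1
    push_cast
    ring
  have hsum : Summable (fourierCoeff F) := by
    have hc : 0 < 2 * π * (ρ - k * |w.im| - |t.im|) := by
      have := Real.pi_pos
      have h3 : 0 < ρ - k * |w.im| - |t.im| := by linarith
      positivity
    refine Summable.of_norm_bounded
      (g := fun n : ℤ => A * Real.exp (-((2 * π * (ρ - k * |w.im| - |t.im|)) * |(n : ℝ)|)))
      ((summable_exp_abs hc).mul_left A) (fun n => ?_)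
    rw [hcoef, norm_mul, norm_ee]
    have h4 := norm_fc_le hf hb n hw hk
    rw [pow_zero, mul_one] at h4
    have hA : 0 ≤ A := by
      have := hb _ h
      simp only [pow_zero, mul_one] at this
      exact (norm_nonneg _).trans this
    have h5 : Real.exp (-(2 * π * ((n : ℂ) * (t.im * I)).im)) ≤
        Real.exp (2 * π * |(n : ℝ)| * |t.im|) := by
      apply Real.exp_le_exp.2
      have h6 : ((n : ℂ) * (t.im * I)).im = n * t.im := by simp
      rw [h6]
      have h7 : -((n : ℝ) * t.im) ≤ |(n : ℝ)| * |t.im| := by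
        rw [← abs_mul]; exact neg_le_abs _
      have := Real.pi_pos
      nlinarith
    calc ‖fc f n w‖ * Real.exp (-(2 * π * ((n : ℂ) * (t.im * I)).im))
        ≤ (A * Real.exp (-(2 * π * |(n : ℝ)| * (ρ - k * |w.im|)))) *
          Real.exp (2 * π * |(n : ℝ)| * |t.im|) := by
          exact mul_le_mul h4 h5 (Real.exp_nonneg _) (by positivity)
      _ = A * Real.exp (-((2 * π * (ρ - k * |w.im| - |t.im|)) * |(n : ℝ)|)) := by
          rw [mul_assoc, ← Real.exp_add]
          congr 2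
          ring
  have h8 := has_pointwise_sum_fourier_series_of_summable hsum (t.re : AddCircle (1 : ℝ))
  have h9 : F (t.re : AddCircle (1 : ℝ)) = f (t, w) := by
    rw [hFapp, hφ]
    simp only
    rw [Complex.re_add_im]
  rw [h9] at h8
  have h10 : (fun n : ℤ => fc f n w * ee (n * t)) =
      fun n : ℤ => fourierCoeff F n • fourier n (t.re : AddCircle (1 : ℝ)) := by
    ext n
    rw [hcoef, fourier_coe_apply, smul_eq_mul, mul_assoc]
    congr 1
    unfold ee
    rw [← Complex.exp_add]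
    congr 1
    conv_lhs => rw [← Complex.re_add_im t]
    push_cast
    ring
  rw [h10]
  exact h8

end Coefficients

section Synthesis

variable {k ρ r : ℝ} {f g : ℂ × ℂ → ℂ}

/-- the trigonometric series with coefficients `a n w` -/
def syn (a : ℤ → ℂ → ℂ) (p : ℂ × ℂ) : ℂ := ∑' n : ℤ, a n p.2 * ee (n * p.1)

lemma term_bound {a : ℤ → ℂ → ℂ} {u : ℤ → ℝ} {M : ℕ}
    (hb : ∀ n, ∀ w : ℂ, ‖w‖ < r → ‖a n w‖ ≤ u n * ‖w‖ ^ M *
      Real.exp (-(2 * π * |(n : ℝ)| * (ρ - k * |w.im|)))) (hu0 : ∀ n, 0 ≤ u n)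
    (n : ℤ) {p : ℂ × ℂ} (hp : p ∈ Dom k ρ r) : ‖a n p.2 * ee (n * p.1)‖ ≤ u n * ‖p.2‖ ^ M := by
  rw [norm_mul, norm_ee]
  have h5 : Real.exp (-(2 * π * ((n : ℂ) * p.1).im)) ≤
      Real.exp (2 * π * |(n : ℝ)| * |p.1.im|) := by
    apply Real.exp_le_exp.2
    have h6 : ((n : ℂ) * p.1).im = n * p.1.im := by simp
    rw [h6]
    have h7 : -((n : ℝ) * p.1.im) ≤ |(n : ℝ)| * |p.1.im| := by
      rw [← abs_mul]; exact neg_le_abs _
    have := Real.pi_pos
    nlinarith
  calc ‖a n p.2‖ * Real.exp (-(2 * π * ((n : ℂ) * p.1).im))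
      ≤ (u n * ‖p.2‖ ^ M * Real.exp (-(2 * π * |(n : ℝ)| * (ρ - k * |p.2.im|)))) *
        Real.exp (2 * π * |(n : ℝ)| * |p.1.im|) := by
        have := hu0 n
        exact mul_le_mul (hb n p.2 hp.2) h5 (Real.exp_nonneg _) (by positivity)
    _ = (u n * ‖p.2‖ ^ M) * Real.exp (-(2 * π * |(n : ℝ)| *
        (ρ - (|p.1.im| + k * |p.2.im|)))) := by
        rw [mul_assoc (u n * ‖p.2‖ ^ M), ← Real.exp_add]
        congr 2
        ring
    _ ≤ (u n * ‖p.2‖ ^ M) * 1 := by
        have := hu0 n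
        refine mul_le_mul_of_nonneg_left ?_ (by positivity)
        rw [Real.exp_le_one_iff]
        have h1 : 0 ≤ ρ - (|p.1.im| + k * |p.2.im|) := by
          have := hp.1; linarith
        have := Real.pi_pos
        have h2 : 0 ≤ 2 * π * |(n : ℝ)| * (ρ - (|p.1.im| + k * |p.2.im|)) := by positivity
        linarith
    _ = u n * ‖p.2‖ ^ M := mul_one _

/-- synthesis: series with decaying coefficients are in `H_k` -/
theorem isH_syn {a : ℤ → ℂ → ℂ} {u : ℤ → ℝ} {M : ℕ}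
    (ha : ∀ n, DifferentiableOn ℂ (a n) (ball 0 r))
    (hb : ∀ n, ∀ w : ℂ, ‖w‖ < r → ‖a n w‖ ≤ u n * ‖w‖ ^ M *
      Real.exp (-(2 * π * |(n : ℝ)| * (ρ - k * |w.im|)))) (hu0 : ∀ n, 0 ≤ u n)
    (hu : Summable u) : IsH k ρ r (syn a) := by
  refine ⟨?_, ?_⟩
  · have h1 : TendstoUniformlyOn (fun (s : Finset ℤ) (p : ℂ × ℂ) => ∑ n ∈ s, a n p.2 * ee (n * p.1))
        (syn a) atTop (Dom k ρ r) := by
      refine tendstoUniformlyOn_tsum (u := fun n => u n * r ^ M) (hu.mul_right _) ?_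
      intro n p hp
      refine (term_bound hb hu0 n hp).trans ?_
      have := hu0 n
      gcongr
      exact hp.2.le
    refine (analyticOnNhd_of_tendstoLocallyUniformlyOn (isOpen_Dom k ρ r)
      h1.tendstoLocallyUniformlyOn (Eventually.of_forall (fun s => ?_))).differentiableOn
    refine DifferentiableOn.fun_sum (fun n _ => ?_)
    refine DifferentiableOn.mul ?_ ?_
    · exact (IsH.ofW (k := k) (ρ := ρ) (ha n)).diff
    · exact (differentiable_ee.comp (by fun_prop)).differentiableOn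
  · intro t w _
    unfold syn
    refine tsum_congr (fun n => ?_)
    simp only
    rw [mul_add, mul_one, ee_add, ee_int, mul_one]

theorem bdd_syn {a : ℤ → ℂ → ℂ} {u : ℤ → ℝ} {M : ℕ}
    (hb : ∀ n, ∀ w : ℂ, ‖w‖ < r → ‖a n w‖ ≤ u n * ‖w‖ ^ M *
      Real.exp (-(2 * π * |(n : ℝ)| * (ρ - k * |w.im|)))) (hu0 : ∀ n, 0 ≤ u n)
    (hu : Summable u) : Bdd k ρ r M (∑' n, u n) (syn a) := by
  intro p hp
  have h1 : Summable (fun n : ℤ => ‖a n p.2 * ee (n * p.1)‖) :=
    Summable.of_nonneg_of_le (fun _ => norm_nonneg _) (fun n => term_bound hb hu0 n hp)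
      (hu.mul_right _)
  refine (norm_tsum_le_tsum_norm h1).trans ?_
  rw [← tsum_mul_right]
  exact h1.tsum_le_tsum (fun n => term_bound hb hu0 n hp) (hu.mul_right _)

lemma integral_ee (n : ℤ) : ∫ x in (0 : ℝ)..1, ee (n * x) = if n = 0 then 1 else 0 := by
  split_ifs with h
  · subst h; simp [ee_zero]
  · have h1 : (2 * π * I * n : ℂ) ≠ 0 := by
      have := Real.pi_ne_zero
      have h2 : (n : ℂ) ≠ 0 := by exact_mod_cast h
      have h3 : (π : ℂ) ≠ 0 := by exact_mod_cast this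
      simp [h2, h3, Complex.I_ne_zero]
    have h2 := integral_exp_mul_complex (a := 0) (b := 1) h1
    have h3 : (fun x : ℝ => ee (n * x)) = fun x : ℝ => Complex.exp (2 * π * I * n * x) := by
      ext x; unfold ee; congr 1; ring
    rw [h3, h2]
    have h4 : Complex.exp (2 * π * I * n * (1 : ℝ)) = 1 := by
      have := ee_int n
      unfold ee at this
      simpa using this
    rw [h4]
    simp

/-- the Fourier coefficients of a synthesised function -/
theorem fc_syn {a : ℤ → ℂ → ℂ} {u : ℤ → ℝ} {M : ℕ}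
    (hb : ∀ n, ∀ w : ℂ, ‖w‖ < r → ‖a n w‖ ≤ u n * ‖w‖ ^ M *
      Real.exp (-(2 * π * |(n : ℝ)| * (ρ - k * |w.im|)))) (hu0 : ∀ n, 0 ≤ u n)
    (hu : Summable u) (n : ℤ) {w : ℂ} (hw : ‖w‖ < r) (hk : k * |w.im| < ρ) :
    fc (syn a) n w = a n w := by
  have h1 : HasSum (fun m : ℤ => ∫ x in (0 : ℝ)..1, (a m w * ee (m * x)) * ee (-(n * x)))
      (∫ x in (0 : ℝ)..1, syn a ((x : ℂ), w) * ee (-(n * x))) := by
    refine intervalIntegral.hasSum_integral_of_dominated_convergence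
      (fun m _ => u m * ‖w‖ ^ M) ?_ ?_ ?_ ?_ ?_
    · intro m
      refine Continuous.aestronglyMeasurable ?_
      refine Continuous.mul (continuous_const.mul (continuous_ee.comp (by fun_prop)))
        (continuous_ee.comp (by fun_prop))
    · intro m
      refine Eventually.of_forall (fun x _ => ?_)
      rw [norm_mul]
      have h2 := term_bound hb hu0 m (real_mem_Dom (x := x).2 ⟨hk, hw⟩)
      have h3 : ‖ee (-((n : ℂ) * x))‖ = 1 := by
        rw [norm_ee]; simp
      rw [h3, mul_one]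
      exact h2
    · exact Eventually.of_forall (fun x _ => hu.mul_right _)
    · exact intervalIntegrable_const
    · refine Eventually.of_forall (fun x _ => ?_)
      refine HasSum.mul_right _ ?_
      have h2 : Summable (fun m : ℤ => ‖a m w * ee (m * x)‖) :=
        Summable.of_nonneg_of_le (fun _ => norm_nonneg _)
          (fun m => term_bound hb hu0 m (real_mem_Dom (x := x).2 ⟨hk, hw⟩)) (hu.mul_right _)
      exact h2.of_norm.hasSum
  have h2 : ∀ m : ℤ, ∫ x in (0 : ℝ)..1, (a m w * ee (m * x)) * ee (-(n * x)) =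
      if m = n then a n w else 0 := by
    intro m
    have h3 : ∀ x : ℝ, (a m w * ee (m * x)) * ee (-(n * x)) = a m w * ee (((m - n : ℤ) : ℂ) * x) := by
      intro x
      rw [mul_assoc, ← ee_add]
      congr 2
      push_cast
      ring
    simp only [h3]
    rw [intervalIntegral.integral_const_mul, integral_ee]
    by_cases h : m = n
    · subst h; simp
    · have : m - n ≠ 0 := sub_ne_zero.2 h
      simp [h, this]
  simp only [h2] at h1
  have h3 := hasSum_ite_eq n (a n w)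
  exact h1.unique h3

end Synthesis

section Translate

variable {k ρ r : ℝ} {f g : ℂ × ℂ → ℂ}

/-- translate `f(t + c w, w)` -/
def tr (c : ℝ) (f : ℂ × ℂ → ℂ) (p : ℂ × ℂ) : ℂ := f (p.1 + c * p.2, p.2)

lemma tr_mem (c : ℝ) {p : ℂ × ℂ} (hp : p ∈ Dom (k + |c|) ρ r) : (p.1 + c * p.2, p.2) ∈ Dom k ρ r := by
  refine ⟨?_, hp.2⟩
  have h1 := hp.1
  have h2 : |(p.1 + c * p.2).im| ≤ |p.1.im| + |c| * |p.2.im| := by
    have : (p.1 + c * p.2).im = p.1.im + c * p.2.im := by simp
    rw [this, ← abs_mul]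
    exact abs_add_le _ _
  simp only
  nlinarith

lemma IsH.tr (hf : IsH k ρ r f) (c : ℝ) : IsH (k + |c|) ρ r (tr c f) := by
  refine ⟨?_, ?_⟩
  · exact hf.diff.comp (by fun_prop) (fun p hp => tr_mem c hp)
  · intro t w h
    have h1 := hf.per _ _ (tr_mem c h)
    unfold B821.tr
    simp only at h1 ⊢
    rw [← h1]
    congr 2
    ring

lemma Bdd.tr {M : ℕ} {A : ℝ} (hf : Bdd k ρ r M A f) (c : ℝ) : Bdd (k + |c|) ρ r M A (tr c f) :=
  fun _ hp => hf _ (tr_mem c hp)

/-- Fourier coefficients of a translate -/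
theorem fc_tr (hf : IsH k ρ r f) (c : ℝ) (n : ℤ) {w : ℂ} (hw : ‖w‖ < r)
    (hk : (k + |c|) * |w.im| < ρ) : fc (tr c f) n w = ee (n * (c * w)) * fc f n w := by
  have h0 : ((c : ℂ) * w, w) ∈ Dom k ρ r := by
    have := tr_mem (k := k) (ρ := ρ) (r := r) c (p := (0, w)) ⟨by simpa using hk, hw⟩
    simpa using this
  rw [← fc_shift hf n h0, ← intervalIntegral.integral_const_mul]
  unfold fc
  refine intervalIntegral.integral_congr (fun x _ => ?_)
  unfold tr
  simp only
  rw [mul_left_comm, ← ee_add]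
  congr 2
  ring

/-- the centred difference -/
def del (f : ℂ × ℂ → ℂ) (p : ℂ × ℂ) : ℂ := tr (1 / 2) f p - tr (-(1 / 2)) f p

lemma del_apply (f : ℂ × ℂ → ℂ) (t w : ℂ) : del f (t, w) = f (t + w / 2, w) - f (t - w / 2, w) := by
  unfold del tr
  simp only
  congr 3
  · push_cast; ring
  · push_cast; ring

lemma IsH.del (hf : IsH k ρ r f) : IsH (k + 1 / 2) ρ r (del f) := by
  have h1 := hf.tr (1 / 2)
  have h2 := hf.tr (-(1 / 2))
  rw [abs_neg] at h2
  rw [show |(1 / 2 : ℝ)| = 1 / 2 by norm_num] at h1 h2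
  exact h1.sub h2

theorem fc_del (hf : IsH k ρ r f) (n : ℤ) {w : ℂ} (hw : ‖w‖ < r)
    (hk : (k + 1 / 2) * |w.im| < ρ) :
    fc (del f) n w = 2 * I * Complex.sin (π * n * w) * fc f n w := by
  have e1 : |(1 / 2 : ℝ)| = 1 / 2 := by norm_num
  have e2 : |(-(1 / 2) : ℝ)| = 1 / 2 := by norm_num
  have h1 := hf.tr (1 / 2)
  have h2 := hf.tr (-(1 / 2))
  rw [e1] at h1
  rw [e2] at h2
  unfold del
  rw [fc_sub h1 h2 n hw hk, fc_tr hf _ n hw (by rw [e1]; exact hk),
    fc_tr hf _ n hw (by rw [e2]; exact hk)]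
  rw [Complex.sin, ← sub_mul]
  congr 1
  unfold ee
  have e3 : (2 * π * I * (n * (((1 / 2 : ℝ) : ℂ) * w)) : ℂ) = π * n * w * I := by push_cast; ring
  have e4 : (2 * π * I * (n * (((-(1 / 2) : ℝ) : ℂ) * w)) : ℂ) = -(π * n * w) * I := by
    push_cast; ring
  rw [e3, e4]
  linear_combination (Complex.exp (π * n * w * I) - Complex.exp (-(π * n * w) * I)) * Complex.I_sq

end Translate

end Crest.Agent.R102.B821
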