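import Crest.Agent.R102.Start2_821
import Crest.Agent.R102.Chain_540
import Crest.Agent.R102.HolA_929
import Crest.Agent.R102.Four_821
import Crest.Agent.R102.T5b_576
import Crest.Agent.R102.Lag_821
import Crest.Agent.R266.SCV

-- ▼ part R102/FinalB_821
section

/-!
Row 102, part (B) (helper821): assembly.  Joint analyticity of the leaf family at `w = 0`, given
the Lagrangian (`IsLag`), the dynamical input `(R*)` and the resonance lemma `ResonanceB4`.
-/

set_option autoImplicit false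

open Set Filter Topology Metric Complex MeasureTheory
open scoped Real ContDiff ComplexConjugate

noncomputable section

namespace Crest.Agent.R102.B821

open Crest.Agent.R266.SCV

variable {ρ₀ ε₀ k ρ r d A B : ℝ} {L Ψ U f g : ℂ × ℂ → ℂ} {M : ℕ}

/-- the area form: if `E = 0` then `μ = w m₀(w)` -/
theorem Adm.area (hL : IsLag ρ₀ ε₀ L Ψ) {r₂ : ℝ}
    (hr₂ : ∀ x y : ℂ, (x, y) ∈ Dg (3 / 4 * ρ₀) (ε₀ / 2) → ‖y - x‖ ≤ r₂ →
        ‖q2 (q1 L) (x, y) + (y - x)‖ ≤ 1 / 100 * ‖y - x‖)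
    (h : Adm ρ₀ ε₀ ρ r U) (hr : 2 * r ≤ r₂) (hE : ∀ p ∈ Dom (3 / 2) ρ r, Ef L U p = 0) :
    ∃ m₀ : ℂ → ℂ, DifferentiableOn ℂ m₀ (ball 0 (r / 2)) ∧
      (∀ p ∈ Dom 1 (ρ / 2) (r / 2), muf L U p = p.2 * m₀ p.2) ∧
      ∀ w : ℂ, ‖w‖ < r / 2 → ‖m₀ w - 1‖ ≤ 1 / 8 := by
  have hr0 := h.r_pos
  have hr1 := h.r_le
  have hρ := h.ρ_pos
  have hrρ := h.r_le_ρ
  obtain ⟨α, hα, hαb, hαe⟩ := h.exists_at hL hr₂ hr
  have hm : IsH 1 ρ r (mmf α U) := (hα.mul ((IsH.const 1).add h.huf1)).neg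
  have hdm : IsH (3 / 2) ρ r (del (mmf α U)) := by
    have := hm.del
    norm_num at this
    exact this
  have hmu : ∀ p ∈ Dom 1 ρ r, muf L U p = p.2 * mmf α U p := by
    intro p hp
    unfold muf mmf
    rw [hαe p hp]
    ring
  have hq : ∀ t w : ℂ, (t, w) ∈ Dom (3 / 2) ρ r → q1 (Ef L U) (t, w) = 0 ∧ q2 (Ef L U) (t, w) = 0 := by
    intro t w hp
    have hev : Ef L U =ᶠ[𝓝 (t, w)] (fun _ => (0 : ℂ)) := by
      filter_upwards [(isOpen_Dom (3 / 2) ρ r).mem_nhds hp] with q hq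
      exact hE q hq
    have hfd : fderiv ℂ (Ef L U) (t, w) = 0 := by
      rw [hev.fderiv_eq]
      simp
    unfold q1 q2
    rw [hfd]
    simp
  have hdel0 : ∀ p ∈ Dom (3 / 2) ρ r, del (mmf α U) p = 0 := by
    refine hdm.eq_zero_of_ne (by norm_num) (fun t w hp hw => ?_)
    have h1 := h.ident3 hL hp
    rw [(hq t w hp).1, (hq t w hp).2, mul_zero, mul_zero, sub_zero] at h1
    have m1 : (t + ((1 / 2 : ℝ) : ℂ) * w, w) ∈ Dom 1 ρ r := tr_mem_half (1 / 2) (by norm_num) hp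
    have m2 : (t + ((-(1 / 2) : ℝ) : ℂ) * w, w) ∈ Dom 1 ρ r :=
      tr_mem_half (-(1 / 2)) (by rw [abs_neg]; norm_num) hp
    have h2 : del (muf L U) (t, w) = w * del (mmf α U) (t, w) := by
      unfold del tr
      simp only
      rw [hmu _ m1, hmu _ m2]
      ring
    rw [h2] at h1
    exact (mul_eq_zero.1 h1).resolve_left hw
  have hmb : Bdd 1 ρ r 0 (9 / 8) (mmf α U) := by
    intro p hp
    have h1 := mmf_bd (α := α) h hp (hαb p hp)
    rw [pow_zero, mul_one]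
    have := norm_add_le (mmf α U p - 1) 1
    rw [sub_add_cancel, norm_one] at this
    linarith
  have e32 : (1 : ℝ) + 1 / 2 = 3 / 2 := by norm_num
  have key := del_bound (k := 1) (ρ := ρ) (r := r) (d := r / 2) (B := 0)
    (A := 9 / 8) (by norm_num) le_rfl hr0 hr1 (by linarith) (by linarith) (by linarith) le_rfl
    (g := fun _ => 0) (μ := mmf α U) (by rw [e32]; exact IsH.const 0)
    (by intro p _; simp) hm hmb
    (by
      rw [e32]
      intro p hp
      rw [hdel0 p hp, mul_zero])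
  rw [mul_zero] at key
  have hkey : ∀ p ∈ Dom 1 (ρ / 2) (r / 2), mmf α U p = fc (mmf α U) 0 p.2 := by
    intro p hp
    have h1 := key p (Dom_mono le_rfl (by linarith) (by linarith) hp)
    rw [zero_mul] at h1
    exact sub_eq_zero.1 (norm_le_zero_iff.1 h1)
  refine ⟨fc (mmf α U) 0, ?_, ?_, ?_⟩
  · exact differentiableOn_fc hm 0 isOpen_ball (fun w hw => by
      rw [mem_ball_zero_iff] at hw
      exact ⟨by linarith, k_im_lt (r := r) (by norm_num) hρ (by linarith) (by linarith)⟩)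
  · intro p hp
    rw [hmu p (Dom_mono le_rfl (by linarith) (by linarith) hp), hkey p hp]
  · intro w hw
    have hmem : (((0 : ℝ) : ℂ), w) ∈ Dom 1 (ρ / 2) (r / 2) :=
      real_mem_Dom.2 ⟨k_im_lt (by norm_num) (by linarith) (by linarith) hw, hw⟩
    rw [← hkey _ hmem]
    exact mmf_bd h (Dom_mono le_rfl (by linarith) (by linarith) hmem)
      (hαb _ (Dom_mono le_rfl (by linarith) (by linarith) hmem))

/-- PART (B) of row 102: joint analyticity of the leaf family at `w = 0`. -/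
theorem part_B (hL : IsLag ρ₀ ε₀ L Ψ) {ε₁ : ℝ} (hε₁ : 0 < ε₁) (hR : RStar L ε₁)
    (hB4 : ResonanceB4) :
    ∃ (ρ r B : ℝ) (U : ℂ × ℂ → ℂ) (m₀ : ℂ → ℂ), 0 ≤ B ∧ Adm ρ₀ ε₀ ρ r U ∧
      Bdd (1 / 2) ρ r 2 B U ∧ (∀ p ∈ Dom (3 / 2) ρ r, Ef L U p = 0) ∧
      DifferentiableOn ℂ m₀ (ball 0 r) ∧ (∀ p ∈ Dom 1 ρ r, muf L U p = p.2 * m₀ p.2) ∧
      ∀ w : ℂ, ‖w‖ < r → ‖m₀ w - 1‖ ≤ 1 / 8 := by
  obtain ⟨C, c, r₁, hC, hc, hr₁, hB4'⟩ := hB4 ρ₀ ε₀ ε₁ L Ψ hL hε₁ hR
  obtain ⟨K, r₂, δ₀, hK1, hr₂, hδ₀, hr₂b, hKb⟩ := hL.exists_bounds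
  obtain ⟨C₀, hC₀, hlim⟩ := newton_limit hL hC.le hc hB4' hδ₀ (by linarith) hr₂b hKb
  obtain ⟨ρ, r, B, A, U, hB, hA, hadm, hUb, hP⟩ := exists_start hL 32
  have hρ₀ := hL.ρ_pos
  obtain ⟨ra, hra0, hra1, hS⟩ := adm_of_bdd hL hadm.hU hB hUb hadm.re hadm.par hadm.ρ_pos hadm.ρ_le
    hadm.r_pos hadm.r_le
  set s₀ : ℝ := min (ρ₀ / 16) (1 / 200) with hs₀
  have hs₀0 : 0 < s₀ := lt_min (by positivity) (by norm_num)
  set Z : ℝ := (200 ^ 3 * C₀) ^ 20 with hZ
  have hZ0 : 0 < Z := by positivity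
  set rn : ℝ := min ra (min r₁ (min (r₂ / 2) (min (1 / ((A + 1) * Z)) (s₀ / 2)))) with hrn
  have hrn0 : 0 < rn := lt_min hra0 (lt_min hr₁ (lt_min (by positivity)
    (lt_min (by positivity) (by positivity))))
  have c1 : rn ≤ ra := min_le_left _ _
  have c2 : rn ≤ r₁ := (min_le_right _ _).trans (min_le_left _ _)
  have c3 : rn ≤ r₂ / 2 := (min_le_right _ _).trans ((min_le_right _ _).trans (min_le_left _ _))
  have c4 : rn ≤ 1 / ((A + 1) * Z) :=
    (min_le_right _ _).trans ((min_le_right _ _).trans ((min_le_right _ _).trans (min_le_left _ _)))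
  have c5 : rn ≤ s₀ / 2 :=
    (min_le_right _ _).trans ((min_le_right _ _).trans ((min_le_right _ _).trans (min_le_right _ _)))
  have hrr : rn ≤ r := c1.trans hra1
  have hrn1 : rn ≤ 1 := hrr.trans hadm.r_le
  set x : ℝ := (rn / 200) ^ 3 / C₀ with hx
  have hC₀p : 0 < C₀ := by linarith
  have hx0 : 0 < x := by positivity
  have hxC : C₀ * x ≤ (rn / 200) ^ 3 := by
    rw [hx]
    exact le_of_eq (by field_simp)
  have hxr : x ≤ rn := by
    have h1 : x ≤ (rn / 200) ^ 3 := by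
      rw [hx]; exact div_le_self (by positivity) hC₀
    have h2 : (rn / 200) ^ 3 ≤ rn / 200 := by
      calc (rn / 200) ^ 3 ≤ (rn / 200) ^ 1 :=
            pow_le_pow_of_le_one (by positivity) (by linarith) (by norm_num)
        _ = rn / 200 := pow_one _
    linarith
  have hAdmS : AdmS ρ₀ ε₀ (ρ / 2) rn (2 * x) U := (hS rn hrn0 c1).slack (by linarith)
  have hPb : Bdd (3 / 2) (ρ / 2) rn 8 (x ^ 20) (Pf L U) := by
    intro p hp
    have h1 := hP p (Dom_mono le_rfl (by linarith [hadm.ρ_pos]) hrr hp)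
    have hw : ‖p.2‖ ≤ rn := hp.2.le
    have e1 : (2 * 32 + 5 : ℕ) = 61 + 8 := by norm_num
    rw [e1, pow_add] at h1
    have h2 : ‖p.2‖ ^ 61 ≤ rn ^ 61 := pow_le_pow_left₀ (norm_nonneg _) hw 61
    have h3 : A * rn ^ 61 ≤ x ^ 20 := by
      have e2 : x ^ 20 = rn ^ 60 / Z := by
        rw [hx, hZ]
        rw [div_pow, div_pow, mul_pow]
        rw [div_pow, ← pow_mul, ← pow_mul, div_div]
      rw [e2, le_div_iff₀ hZ0]
      have h4 : rn * ((A + 1) * Z) ≤ 1 := by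
        rw [le_div_iff₀ (by positivity)] at c4
        exact c4
      calc A * rn ^ 61 * Z = rn ^ 60 * (rn * (A * Z)) := by ring
        _ ≤ rn ^ 60 * (rn * ((A + 1) * Z)) := by
            have : A ≤ A + 1 := by linarith
            gcongr
        _ ≤ rn ^ 60 * 1 := mul_le_mul_of_nonneg_left h4 (by positivity)
        _ = rn ^ 60 := mul_one _
    calc ‖Pf L U p‖ ≤ A * (‖p.2‖ ^ 61 * ‖p.2‖ ^ 8) := h1
      _ ≤ A * (rn ^ 61 * ‖p.2‖ ^ 8) := by gcongr
      _ = A * rn ^ 61 * ‖p.2‖ ^ 8 := by ring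
      _ ≤ x ^ 20 * ‖p.2‖ ^ 8 := mul_le_mul_of_nonneg_right h3 (by positivity)
  obtain ⟨Un, hUn, hE, hdiff⟩ := hlim (ρ / 2) rn x U c2 (by linarith) hx0 hxC hAdmS hPb
  have hρp := hadm.ρ_pos
  obtain ⟨m₀, hm₀d, hm₀, hm₀b⟩ := hUn.area hL hr₂b (by linarith) hE
  have h8 := hUn.r_le_ρ
  have hUnr := hUn.r_pos
  refine ⟨ρ / 2 / 2 / 2, rn / 2 / 2, B + 2, Un, m₀, by positivity,
    hUn.mono (by linarith) (by linarith) (by positivity) (by positivity) (by linarith), ?_, ?_,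
    hm₀d, hm₀, hm₀b⟩
  · intro p hp
    have h1 := hdiff p (Dom_mono le_rfl (by linarith) (by linarith) hp)
    have h2 := hUb p (Dom_mono le_rfl (by linarith) (by linarith) hp)
    have h3 := norm_add_le (Un p - U p) (U p)
    rw [sub_add_cancel] at h3
    have hw1 : ‖p.2‖ ≤ 1 := by have : ‖p.2‖ < rn / 2 / 2 := hp.2; linarith
    have h4 : ‖p.2‖ ^ 5 ≤ ‖p.2‖ ^ 2 := pow_le_pow_of_le_one (norm_nonneg _) hw1 (by norm_num)
    have h5 : 2 * x * ‖p.2‖ ^ 5 ≤ 2 * ‖p.2‖ ^ 2 := by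
      have : 2 * x ≤ 2 := by linarith
      calc 2 * x * ‖p.2‖ ^ 5 ≤ 2 * ‖p.2‖ ^ 5 := mul_le_mul_of_nonneg_right this (by positivity)
        _ ≤ 2 * ‖p.2‖ ^ 2 := by linarith
    have e : (B + 2) * ‖p.2‖ ^ 2 = B * ‖p.2‖ ^ 2 + 2 * ‖p.2‖ ^ 2 := by ring
    rw [e]
    linarith
  · intro p hp
    exact hE p (Dom_mono le_rfl (by linarith) (by linarith) hp)

end Crest.Agent.R102.B821
end
end

-- ▼ part R102/Holo_540
section

/-!
Row 102, part (B), lemma B4 (helper540): holomorphy and reality of the Dirichlet chain.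
-/

set_option autoImplicit false

open Set Filter Topology Metric Complex MeasureTheory
open scoped Real ContDiff ComplexConjugate

noncomputable section

namespace Crest.Agent.R102.B540

open Crest.Agent.R102.B821 Crest.Agent.R266.SCV

variable {ρ₀ ε₀ ρ d w ε K δ₀ b : ℝ} {n j : ℕ} {L Ψ : ℂ × ℂ → ℂ} {X : ℂ → ℂ}

lemma isOpen_strip (σ : ℝ) : IsOpen {t : ℂ | |t.im| < σ} :=
  isOpen_lt (by fun_prop) continuous_const

lemma Dat.hasDerivAt_XX (D : Dat ρ₀ ε₀ ρ d w ε K δ₀ b n j L Ψ X) {t : ℂ} (ht : |t.im| < ρ)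
    (i : ℕ) : HasDerivAt (fun s => XX X w s i) (DX X w t i) t := by
  have h1 : HasDerivAt X (deriv X (t + i * w)) (t + i * w) :=
    (D.Xd.differentiableAt ((isOpen_strip ρ).mem_nhds (by simpa using ht))).hasDerivAt
  have h2 : HasDerivAt (fun s : ℂ => s + i * w) 1 t := (hasDerivAt_id t).add_const _
  have := h1.comp t h2
  rw [mul_one] at this
  exact this

lemma Dat.diff_XX (D : Dat ρ₀ ε₀ ρ d w ε K δ₀ b n j L Ψ X) (i : ℕ) :
    DifferentiableOn ℂ (fun s => XX X w s i) {t | |t.im| < ρ} := fun _ ht =>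
  (D.hasDerivAt_XX ht i).differentiableAt.differentiableWithinAt

lemma Dat.diff_DX (D : Dat ρ₀ ε₀ ρ d w ε K δ₀ b n j L Ψ X) (i : ℕ) :
    DifferentiableOn ℂ (fun s => DX X w s i) {t | |t.im| < ρ} := by
  have h1 : DifferentiableOn ℂ (deriv X) {t | |t.im| < ρ} := D.Xd.deriv (isOpen_strip ρ)
  refine h1.comp (g := deriv X) (f := fun s : ℂ => s + i * w) ?_ ?_
  · exact (differentiable_id.add_const _).differentiableOn
  · intro s hs
    simpa using hs

lemma Dat.sub_Dg (D : Dat ρ₀ ε₀ ρ d w ε K δ₀ b n j L Ψ X) :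
    Dg (3 / 4 * ρ₀) (ε₀ / 2) ⊆ Dg ρ₀ ε₀ :=
  Dg_mono (by have := D.ρ₀_pos; linarith) (by have := D.lag.ε_pos; linarith)

lemma Dat.diff_aa (D : Dat ρ₀ ε₀ ρ d w ε K δ₀ b n j L Ψ X) (l : ℕ) :
    DifferentiableOn ℂ (fun s => aa L X w s l) {t | |t.im| < ρ} := by
  have h1 : DifferentiableOn ℂ (q2 (q1 L)) (Dg ρ₀ ε₀) :=
    (ana_q2 (ana_q1 D.lag.anaL)).differentiableOn
  have h2 : DifferentiableOn ℂ (fun s => (XX X w s l, XX X w s (l + 1))) {t | |t.im| < ρ} :=
    (D.diff_XX l).prodMk (D.diff_XX (l + 1))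
  have h3 : DifferentiableOn ℂ (fun s => q2 (q1 L) (XX X w s l, XX X w s (l + 1)))
      {t | |t.im| < ρ} := h1.comp h2 (fun s hs => D.sub_Dg (D.XX_Dg hs l))
  exact h3.mul ((D.diff_DX l).mul (D.diff_DX (l + 1)))

lemma Dat.yy_step (D : Dat ρ₀ ε₀ ρ d w ε K δ₀ b n j L Ψ X) {t : ℂ} (ht : |t.im| < ρ)
    {v : ℕ → ℂ} {i : ℕ} (h0 : ‖v i‖ ≤ b) (h1 : ‖v (i + 1)‖ ≤ b) :
    ‖yy X w t v (i + 1) - yy X w t v i - w‖ ≤ 27 / 100 * w := by
  have e : yy X w t v (i + 1) - yy X w t v i - w = (XX X w t (i + 1) - XX X w t i - w) +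
      DX X w t (i + 1) * v (i + 1) - DX X w t i * v i := by
    unfold yy; ring
  rw [e]
  have s1 := D.XX_step ht i
  have s2 := D.DXv_le ht h0 i
  have s3 := D.DXv_le ht h1 (i + 1)
  have s4 := norm_sub_le ((XX X w t (i + 1) - XX X w t i - w) +
      DX X w t (i + 1) * v (i + 1)) (DX X w t i * v i)
  have s5 := norm_add_le (XX X w t (i + 1) - XX X w t i - w) (DX X w t (i + 1) * v (i + 1))
  have s6 := D.b_w
  have s7 := D.w_pos
  linarith

lemma Dat.yy_im (D : Dat ρ₀ ε₀ ρ d w ε K δ₀ b n j L Ψ X) {t : ℂ} (ht : |t.im| < ρ)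
    {v : ℕ → ℂ} {i : ℕ} (h0 : ‖v i‖ ≤ b) : |(yy X w t v i).im| < 3 / 4 * ρ₀ := by
  have s0 := D.ρ₀_pos
  have s1 := D.XX_im ht i
  have s2 := D.DXv_le ht h0 i
  have s3 := Complex.abs_im_le_norm (DX X w t i * v i)
  have s4 : (yy X w t v i).im = (XX X w t i).im + (DX X w t i * v i).im := by
    unfold yy; rw [Complex.add_im]
  have s5 := abs_add_le (XX X w t i).im (DX X w t i * v i).im
  have s6 := D.b_ρ
  rw [s4]
  linarith

lemma Dat.yy_Dg (D : Dat ρ₀ ε₀ ρ d w ε K δ₀ b n j L Ψ X) {t : ℂ} (ht : |t.im| < ρ)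
    {v : ℕ → ℂ} {i : ℕ} (h0 : ‖v i‖ ≤ b) (h1 : ‖v (i + 1)‖ ≤ b) :
    (yy X w t v i, yy X w t v (i + 1)) ∈ Dg (3 / 4 * ρ₀) (ε₀ / 2) := by
  refine ⟨D.yy_im ht h0, D.yy_im ht h1, ?_⟩
  have s1 := D.yy_step ht h0 h1
  have s2 := D.w_lt
  have s3 := D.w_pos
  have e2 : ‖(w : ℂ)‖ = w := by rw [Complex.norm_real, Real.norm_of_nonneg D.w_pos.le]
  have s4 := norm_add_le (yy X w t v (i + 1) - yy X w t v i - w) w
  rw [sub_add_cancel, e2] at s4
  simp only
  linarith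

lemma Dat.diff_yy (D : Dat ρ₀ ε₀ ρ d w ε K δ₀ b n j L Ψ X) {v : ℂ → ℕ → ℂ} {U : Set ℂ}
    (hU : U ⊆ {t | |t.im| < ρ}) {i : ℕ} (hv : DifferentiableOn ℂ (fun t => v t i) U) :
    DifferentiableOn ℂ (fun t => yy X w t (v t) i) U :=
  ((D.diff_XX i).mono hU).add (((D.diff_DX i).mono hU).mul hv)

lemma Dat.diff_gg (D : Dat ρ₀ ε₀ ρ d w ε K δ₀ b n j L Ψ X) {v : ℂ → ℕ → ℂ} {U : Set ℂ}
    (hU : U ⊆ {t | |t.im| < ρ}) (hv : ∀ i ≤ n, DifferentiableOn ℂ (fun t => v t i) U)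
    (hb : ∀ t ∈ U, ∀ i ≤ n, ‖v t i‖ ≤ b) {m : ℕ} (hm : m + 1 < n) :
    DifferentiableOn ℂ (fun t => gg L X w t (v t) m) U := by
  have i0 : m ≤ n := by omega
  have i1 : m + 1 ≤ n := by omega
  have i2 : m + 1 + 1 ≤ n := by omega
  have y0 := D.diff_yy hU (hv _ i0)
  have y1 := D.diff_yy hU (hv _ i1)
  have y2 := D.diff_yy hU (hv _ i2)
  have h1 : DifferentiableOn ℂ (q2 L) (Dg ρ₀ ε₀) := (ana_q2 D.lag.anaL).differentiableOn
  have h2 : DifferentiableOn ℂ (q1 L) (Dg ρ₀ ε₀) := (ana_q1 D.lag.anaL).differentiableOn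
  have e1 : DifferentiableOn ℂ (fun t => q2 L (yy X w t (v t) m, yy X w t (v t) (m + 1))) U :=
    h1.comp (y0.prodMk y1) (fun t ht => D.sub_Dg (D.yy_Dg (hU ht) (hb t ht _ i0) (hb t ht _ i1)))
  have e2 : DifferentiableOn ℂ
      (fun t => q1 L (yy X w t (v t) (m + 1), yy X w t (v t) (m + 1 + 1))) U :=
    h2.comp (y1.prodMk y2) (fun t ht => D.sub_Dg (D.yy_Dg (hU ht) (hb t ht _ i1) (hb t ht _ i2)))
  have a0 := (D.diff_aa m).mono hU
  have a1 := (D.diff_aa (m + 1)).mono hU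
  exact ((a1.mul ((hv _ i2).sub (hv _ i1))).sub (a0.mul ((hv _ i1).sub (hv _ i0)))).sub
    (((D.diff_DX (m + 1)).mono hU).mul (e1.add e2))

lemma Dat.strip_sub (D : Dat ρ₀ ε₀ ρ d w ε K δ₀ b n j L Ψ X) :
    {t : ℂ | |t.im| < ρ - d} ⊆ {t : ℂ | |t.im| < ρ} := by
  intro t ht
  have := D.d_pos
  simp only [Set.mem_ofPred_eq] at ht ⊢
  linarith

lemma Dat.diff_VV (D : Dat ρ₀ ε₀ ρ d w ε K δ₀ b n j L Ψ X) (k : ℕ) :
    ∀ i ≤ n, DifferentiableOn ℂ (fun t => VV L X w n t k i) {t | |t.im| < ρ - d} := by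
  induction k with
  | zero => intro i _; exact differentiableOn_const _
  | succ k ih =>
    intro i hi
    refine differentiableOn_dinv (A := fun t => aa L X w t)
      (F := fun t => ff L X w t (VV L X w n t k)) (fun l _ => (D.diff_aa l).mono D.strip_sub)
      (fun t ht l hl => (D.coef (D.strip_sub ht)).ne hl)
      (fun t ht => (D.coef (D.strip_sub ht)).sum_ne) (fun m hm1 hm2 => ?_) hi
    obtain ⟨q, rfl⟩ : ∃ q, m = q + 1 := ⟨m - 1, by omega⟩
    exact D.diff_gg D.strip_sub ih (fun t ht i hi => D.VV_le ht k hi) hm2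

lemma Dat.diff_WW (D : Dat ρ₀ ε₀ ρ d w ε K δ₀ b n j L Ψ X) {i : ℕ} (hi : i ≤ n) :
    DifferentiableOn ℂ (fun t => WW L X w n t i) {t | |t.im| < ρ - d} := by
  have hbn := D.b_nn
  have h1 : TendstoUniformlyOn (fun k t => VV L X w n t k i) (fun t => WW L X w n t i) atTop
      {t | |t.im| < ρ - d} := by
    rw [Metric.tendstoUniformlyOn_iff]
    intro η hη
    have h3 : Tendsto (fun k : ℕ => b * (1 / 2 : ℝ) ^ k) atTop (𝓝 (b * 0)) :=
      (tendsto_pow_atTop_nhds_zero_of_lt_one (by norm_num) (by norm_num)).const_mul _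
    rw [mul_zero] at h3
    filter_upwards [h3.eventually (gt_mem_nhds hη)] with k hk t ht
    rw [dist_comm, dist_eq_norm]
    refine (D.dist_WW ht hi k).trans_lt ?_
    rw [div_pow, one_pow] at hk
    calc b / 2 ^ k = b * (1 / 2 ^ k) := by ring
      _ < η := hk
  exact h1.tendstoLocallyUniformlyOn.differentiableOn
    (Eventually.of_forall (fun k => D.diff_VV k i hi)) (isOpen_strip _)

/-! reality -/

lemma Dat.XX_real (D : Dat ρ₀ ε₀ ρ d w ε K δ₀ b n j L Ψ X) (t : ℝ) (i : ℕ) :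
    conj (XX X w t i) = XX X w t i := by
  rw [Complex.conj_eq_iff_im]
  have h := D.Xre (t + i * w)
  unfold XX
  push_cast at h
  exact h

lemma Dat.DX_real (D : Dat ρ₀ ε₀ ρ d w ε K δ₀ b n j L Ψ X) (t : ℝ) (i : ℕ) :
    conj (DX X w t i) = DX X w t i := by
  rw [Complex.conj_eq_iff_im]
  have hρ := D.ρ_pos
  have h1 : HasDerivAt X (deriv X ((t + i * w : ℝ) : ℂ)) ((t + i * w : ℝ) : ℂ) :=
    (D.Xd.differentiableAt ((isOpen_strip ρ).mem_nhds (by simpa using hρ))).hasDerivAt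
  have h2 := h1.comp_ofReal
  have h3 := Complex.imCLM.hasFDerivAt.comp_hasDerivAt (t + i * w : ℝ) h2
  have h4 : (fun s : ℝ => Complex.imCLM (X (s : ℂ))) = fun _ => (0 : ℝ) := by
    funext s
    exact D.Xre s
  have h5 : HasDerivAt (fun s : ℝ => Complex.imCLM (X (s : ℂ))) 0 (t + i * w : ℝ) := by
    rw [h4]
    exact hasDerivAt_const _ _
  have h6 := h3.unique h5
  unfold DX
  have e : ((t + i * w : ℝ) : ℂ) = (t : ℂ) + i * w := by push_cast; ring
  rw [e] at h6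
  exact h6

lemma Dat.real_strip (D : Dat ρ₀ ε₀ ρ d w ε K δ₀ b n j L Ψ X) (t : ℝ) :
    |((t : ℂ)).im| < ρ - d := by
  rw [Complex.ofReal_im, abs_zero]
  have := D.d_lt
  linarith

lemma Dat.aa_real (D : Dat ρ₀ ε₀ ρ d w ε K δ₀ b n j L Ψ X) (t : ℝ) (l : ℕ) :
    conj (aa L X w t l) = aa L X w t l := by
  have hm := D.sub_Dg (D.XX_Dg (D.strip_sub (D.real_strip t)) l)
  have h1 := D.lag.q12_real hm
  rw [D.XX_real t l, D.XX_real t (l + 1)] at h1
  unfold aa
  rw [map_mul, map_mul, D.DX_real, D.DX_real, ← h1]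

lemma Dat.yy_real (D : Dat ρ₀ ε₀ ρ d w ε K δ₀ b n j L Ψ X) (t : ℝ) {v : ℕ → ℂ} {i : ℕ}
    (hv : conj (v i) = v i) : conj (yy X w t v i) = yy X w t v i := by
  unfold yy
  rw [map_add, map_mul, D.XX_real, D.DX_real, hv]

lemma Dat.gg_real (D : Dat ρ₀ ε₀ ρ d w ε K δ₀ b n j L Ψ X) (t : ℝ) {v : ℕ → ℂ}
    (hv : ∀ i ≤ n, conj (v i) = v i) (hb : ∀ i ≤ n, ‖v i‖ ≤ b) {m : ℕ} (hm : m + 1 < n) :
    conj (gg L X w t v m) = gg L X w t v m := by
  have i0 : m ≤ n := by omega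
  have i1 : m + 1 ≤ n := by omega
  have i2 : m + 1 + 1 ≤ n := by omega
  have ht := D.strip_sub (D.real_strip t)
  have h1 := D.lag.EL_real (D.sub_Dg (D.yy_Dg ht (hb _ i0) (hb _ i1)))
    (D.sub_Dg (D.yy_Dg ht (hb _ i1) (hb _ i2)))
  rw [D.yy_real t (hv _ i0), D.yy_real t (hv _ i1), D.yy_real t (hv _ i2)] at h1
  unfold gg
  rw [map_sub, map_sub, map_mul, map_mul, map_mul, map_sub, map_sub, D.aa_real, D.aa_real,
    D.DX_real, hv _ i0, hv _ i1, hv _ i2, ← h1]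

lemma Dat.VV_real (D : Dat ρ₀ ε₀ ρ d w ε K δ₀ b n j L Ψ X) (t : ℝ) (k : ℕ) :
    ∀ i ≤ n, conj (VV L X w n t k i) = VV L X w n t k i := by
  induction k with
  | zero => intro i _; simp [VV]
  | succ k ih =>
    intro i hi
    refine conj_dinv (fun l _ => D.aa_real t l) (fun m hm1 hm2 => ?_) hi
    obtain ⟨q, rfl⟩ : ∃ q, m = q + 1 := ⟨m - 1, by omega⟩
    exact D.gg_real t ih (fun i hi => D.VV_le (D.real_strip t) k hi) hm2

lemma Dat.WW_real (D : Dat ρ₀ ε₀ ρ d w ε K δ₀ b n j L Ψ X) (t : ℝ) {i : ℕ} (hi : i ≤ n) :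
    conj (WW L X w n t i) = WW L X w n t i := by
  have h1 := D.tendsto_WW (D.real_strip t) hi
  have h2 := (Complex.continuous_conj.tendsto _).comp h1
  have h3 : (conj ∘ fun k => VV L X w n t k i) = fun k => VV L X w n t k i := by
    funext k
    exact D.VV_real t k i hi
  rw [h3] at h2
  exact tendsto_nhds_unique h2 h1

end Crest.Agent.R102.B540
end
end

-- ▼ part R102/ResB4_540
section

/-!
Row 102, part (B), lemma B4 (helper540): the action of an approximate leaf is constant up to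
`C n^5 w^{-2} ε²`.
-/

set_option autoImplicit false

open Set Filter Topology Metric Complex MeasureTheory
open scoped Real ContDiff ComplexConjugate

noncomputable section

namespace Crest.Agent.R102.B540

open Crest.Agent.R102.B821 Crest.Agent.R266.SCV

variable {ρ₀ ε₀ ε₁ ρ d w ε K δ₀ b : ℝ} {n j : ℕ} {L Ψ : ℂ × ℂ → ℂ} {X : ℂ → ℂ}

/-- the true chain -/
def YY (L : ℂ × ℂ → ℂ) (X : ℂ → ℂ) (w : ℝ) (n : ℕ) (t : ℂ) (i : ℕ) : ℂ :=
  yy X w t (WW L X w n t) i

lemma Dat.YY_Dg (D : Dat ρ₀ ε₀ ρ d w ε K δ₀ b n j L Ψ X) {t : ℂ} (ht : |t.im| < ρ - d) {i : ℕ}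
    (hi : i + 1 ≤ n) : (YY L X w n t i, YY L X w n t (i + 1)) ∈ Dg (3 / 4 * ρ₀) (ε₀ / 2) :=
  D.yy_Dg (D.strip_sub ht) (D.WW_le ht (by omega)) (D.WW_le ht hi)

lemma Dat.diff_YY (D : Dat ρ₀ ε₀ ρ d w ε K δ₀ b n j L Ψ X) {i : ℕ} (hi : i ≤ n) :
    DifferentiableOn ℂ (fun t => YY L X w n t i) {t | |t.im| < ρ - d} :=
  D.diff_yy D.strip_sub (D.diff_WW hi)

lemma Dat.nw (D : Dat ρ₀ ε₀ ρ d w ε K δ₀ b n j L Ψ X) : (n : ℂ) * w = j := by
  have hn : (n : ℝ) ≠ 0 := by exact_mod_cast D.n_pos.ne'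
  have h : (n : ℝ) * w = j := by rw [D.hw]; field_simp
  exact_mod_cast h

lemma Dat.X_add (D : Dat ρ₀ ε₀ ρ d w ε K δ₀ b n j L Ψ X) {t : ℂ} (ht : |t.im| < ρ) (m : ℕ) :
    X (t + m) = X t + m := by
  induction m with
  | zero => simp
  | succ m ih =>
    have h := D.Xper (t + m) (by simpa using ht)
    push_cast
    rw [← add_assoc, h, ih]
    ring

lemma Dat.YY_zero (D : Dat ρ₀ ε₀ ρ d w ε K δ₀ b n j L Ψ X) {t : ℂ} (ht : |t.im| < ρ - d) :
    YY L X w n t 0 = X t := by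
  unfold YY yy XX
  rw [D.WW_zero ht]
  simp

lemma Dat.YY_end (D : Dat ρ₀ ε₀ ρ d w ε K δ₀ b n j L Ψ X) {t : ℂ} (ht : |t.im| < ρ - d) :
    YY L X w n t n = X t + j := by
  unfold YY yy XX
  rw [D.WW_end ht, D.nw, D.X_add (D.strip_sub ht)]
  simp

lemma q2_per_nat (h : IsLag ρ₀ ε₀ L Ψ) (m : ℕ) {a c : ℂ} (hp : (a, c) ∈ Dg ρ₀ ε₀) :
    q2 L (a + m, c + m) = q2 L (a, c) := by
  induction m with
  | zero => simp
  | succ m ih =>
    have hm : (a + m, c + m) ∈ Dg ρ₀ ε₀ := by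
      refine ⟨?_, ?_, ?_⟩
      · simpa using hp.1
      · simpa using hp.2.1
      · simpa using hp.2.2
    have h1 := h.q2_per hm
    rw [← ih, ← h1]
    push_cast
    congr 2 <;> ring

/-- the reflection law at the starting point, real parameters -/
lemma Dat.closing_real (D : Dat ρ₀ ε₀ ρ d w ε K δ₀ b n j L Ψ X) (hR : RStar L ε₁)
    (hw1 : 2 * w < ε₁) (hj : 1 ≤ j) (t : ℝ) :
    EL L (YY L X w n t (n - 1) - j) (YY L X w n t 0) (YY L X w n t 1) = 0 := by
  have ht := D.real_strip t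
  have hn := D.n_pos
  have hwp := D.w_pos
  set x : ℕ → ℝ := fun i => (YY L X w n t i).re with hx
  have hre : ∀ i ≤ n, ((x i : ℝ) : ℂ) = YY L X w n t i := by
    intro i hi
    have h1 : conj (YY L X w n t i) = YY L X w n t i := D.yy_real t (D.WW_real t hi)
    rw [Complex.conj_eq_iff_re] at h1
    exact h1
  have h1 : ∀ i < n, 0 < x (i + 1) - x i ∧ x (i + 1) - x i < ε₁ := by
    intro i hi
    have h2 : ‖YY L X w n t (i + 1) - YY L X w n t i - w‖ ≤ 27 / 100 * w :=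
      D.yy_step (D.strip_sub ht) (D.WW_le ht (by omega)) (D.WW_le ht (by omega))
    have h3 := Complex.abs_re_le_norm (YY L X w n t (i + 1) - YY L X w n t i - w)
    rw [Complex.sub_re, Complex.sub_re, Complex.ofReal_re] at h3
    have h4 := abs_le.1 (h3.trans h2)
    simp only [hx]
    constructor <;> linarith [h4.1, h4.2]
  have h2 : x n = x 0 + j := by
    simp only [hx]
    rw [D.YY_end ht, D.YY_zero ht]
    simp
  have h3 : ∀ i, 1 ≤ i → i < n → EL L (x (i - 1)) (x i) (x (i + 1)) = 0 := by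
    intro i hi1 hi2
    obtain ⟨m, rfl⟩ : ∃ m, i = m + 1 := ⟨i - 1, by omega⟩
    rw [hre _ (by omega), hre _ (by omega), hre _ (by omega)]
    exact D.EL_zero ht hi2
  have h4 := hR n j x hn hj h1 h2 h3
  rwa [hre _ (by omega), hre _ (by omega), hre _ (by omega)] at h4

/-- the reflection law at the starting point, complex parameters -/
lemma Dat.closing (D : Dat ρ₀ ε₀ ρ d w ε K δ₀ b n j L Ψ X) (hR : RStar L ε₁)
    (hw1 : 2 * w < ε₁) (hj : 1 ≤ j) {t : ℂ} (ht : |t.im| < ρ - d) :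
    q2 L (YY L X w n t (n - 1), YY L X w n t n) + q1 L (YY L X w n t 0, YY L X w n t 1) = 0 := by
  have hn := D.n_pos
  have hρd : 0 < ρ - d := by have := D.d_lt; linarith
  set H : ℂ → ℂ := fun t =>
    q2 L (YY L X w n t (n - 1), YY L X w n t n) + q1 L (YY L X w n t 0, YY L X w n t 1) with hH
  have e1 : n - 1 + 1 = n := by omega
  have m1 : ∀ t : ℂ, |t.im| < ρ - d →
      (YY L X w n t (n - 1), YY L X w n t n) ∈ Dg ρ₀ ε₀ := by
    intro t ht
    have := D.YY_Dg ht (i := n - 1) (by omega)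
    rw [e1] at this
    exact D.sub_Dg this
  have m2 : ∀ t : ℂ, |t.im| < ρ - d →
      (YY L X w n t 0, YY L X w n t 1) ∈ Dg ρ₀ ε₀ := by
    intro t ht
    exact D.sub_Dg (D.YY_Dg ht (i := 0) (by omega))
  have h1 : DifferentiableOn ℂ (q2 L) (Dg ρ₀ ε₀) := (ana_q2 D.lag.anaL).differentiableOn
  have h2 : DifferentiableOn ℂ (q1 L) (Dg ρ₀ ε₀) := (ana_q1 D.lag.anaL).differentiableOn
  have hHd : DifferentiableOn ℂ H {t | |t.im| < ρ - d} :=
    (h1.comp ((D.diff_YY (by omega)).prodMk (D.diff_YY le_rfl)) m1).add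
      (h2.comp ((D.diff_YY (by omega)).prodMk (D.diff_YY (by omega))) m2)
  have hHa : AnalyticOnNhd ℂ H {t | |t.im| < ρ - d} := hHd.analyticOnNhd (isOpen_strip _)
  have hreal : ∀ t : ℝ, H t = 0 := by
    intro t
    have ht := D.real_strip t
    have h3 := D.closing_real hR hw1 hj t
    unfold EL at h3
    have hm := m1 t ht
    have hm' : (YY L X w n t (n - 1) - j, YY L X w n t 0) ∈ Dg ρ₀ ε₀ := by
      have e2 : YY L X w n t 0 = YY L X w n t n - j := by
        rw [D.YY_zero ht, D.YY_end ht]; ring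
      rw [e2]
      refine ⟨?_, ?_, ?_⟩
      · simpa using hm.1
      · simpa using hm.2.1
      · simpa using hm.2.2
    have h4 := q2_per_nat D.lag j hm'
    have e3 : YY L X w n t (n - 1) - j + j = YY L X w n t (n - 1) := by ring
    have e4 : YY L X w n t 0 + j = YY L X w n t n := by
      rw [D.YY_zero ht, D.YY_end ht]
    rw [e3, e4] at h4
    simp only [hH]
    rw [h4]
    exact h3
  have hfreq : ∃ᶠ z in 𝓝[≠] (0 : ℂ), H z = 0 := by
    have h5 : Tendsto (fun k : ℕ => ((1 / ((k : ℝ) + 1) : ℝ) : ℂ)) atTop (𝓝[≠] (0 : ℂ)) := by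
      rw [tendsto_nhdsWithin_iff]
      constructor
      · have h6 := tendsto_one_div_add_atTop_nhds_zero_nat (𝕜 := ℝ)
        have h7 := (Complex.continuous_ofReal.tendsto (0 : ℝ)).comp h6
        rw [Complex.ofReal_zero] at h7
        exact h7
      · refine Eventually.of_forall (fun k => ?_)
        rw [Set.mem_compl_iff, Set.mem_singleton_iff, Complex.ofReal_eq_zero]
        positivity
    exact h5.frequently (Frequently.of_forall (fun k => hreal _))
  have h0 : (0 : ℂ) ∈ {t : ℂ | |t.im| < ρ - d} := by simpa using hρd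
  have hz := hHa.eqOn_zero_of_preconnected_of_frequently_eq_zero
    (convex_strip _).isPreconnected h0 hfreq
  exact hz ht

/-- the true action -/
def AA (L : ℂ × ℂ → ℂ) (X : ℂ → ℂ) (w : ℝ) (n : ℕ) (t : ℂ) : ℂ :=
  ∑ i ∈ Finset.range n, L (YY L X w n t i, YY L X w n t (i + 1))

lemma Dat.deriv_AA (D : Dat ρ₀ ε₀ ρ d w ε K δ₀ b n j L Ψ X) (hR : RStar L ε₁)
    (hw1 : 2 * w < ε₁) (hj : 1 ≤ j) {t : ℂ} (ht : |t.im| < ρ - d) :
    HasDerivAt (AA L X w n) 0 t := by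
  have hn := D.n_pos
  have hD : ∀ i ≤ n, HasDerivAt (fun s => YY L X w n s i) (deriv (fun s => YY L X w n s i) t) t :=
    fun i hi => ((D.diff_YY hi).differentiableAt ((isOpen_strip _).mem_nhds ht)).hasDerivAt
  set y' : ℕ → ℂ := fun i => deriv (fun s => YY L X w n s i) t with hy'
  have h1 : ∀ i ∈ Finset.range n, HasDerivAt (fun s => L (YY L X w n s i, YY L X w n s (i + 1)))
      (q1 L (YY L X w n t i, YY L X w n t (i + 1)) * y' i +
        q2 L (YY L X w n t i, YY L X w n t (i + 1)) * y' (i + 1)) t := by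
    intro i hi
    have hi' := Finset.mem_range.1 hi
    exact hasDerivAt_comp2 (D.lag.dL _ (D.sub_Dg (D.YY_Dg ht (by omega)))) (hD i (by omega))
      (hD (i + 1) (by omega))
  have h2 := HasDerivAt.fun_sum h1
  refine h2.congr_deriv ?_
  obtain ⟨m, rfl⟩ : ∃ m, n = m + 1 := ⟨n - 1, by omega⟩
  rw [sum_parts (fun i => q1 L (YY L X w (m + 1) t i, YY L X w (m + 1) t (i + 1)))
    (fun i => q2 L (YY L X w (m + 1) t i, YY L X w (m + 1) t (i + 1))) y' m]
  have h3 : ∑ i ∈ Finset.range m,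
      (q1 L (YY L X w (m + 1) t (i + 1), YY L X w (m + 1) t (i + 1 + 1)) +
        q2 L (YY L X w (m + 1) t i, YY L X w (m + 1) t (i + 1))) * y' (i + 1) = 0 := by
    refine Finset.sum_eq_zero (fun i hi => ?_)
    have hi' := Finset.mem_range.1 hi
    have h4 := D.EL_zero ht (m := i) (by omega)
    unfold EL at h4
    rw [add_comm] at h4
    unfold YY
    rw [h4, zero_mul]
  rw [h3, add_zero]
  have h5 : y' 0 = y' (m + 1) := by
    have h6 : HasDerivAt (fun s => YY L X w (m + 1) s (m + 1)) (y' 0) t := by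
      have h7 := (hD 0 (by omega)).add_const (j : ℂ)
      refine h7.congr_of_eventuallyEq ?_
      filter_upwards [(isOpen_strip _).mem_nhds ht] with s hs
      rw [D.YY_end hs, D.YY_zero hs]
    exact h6.deriv.symm
  have h8 := D.closing hR hw1 hj ht
  simp only [Nat.add_sub_cancel] at h8
  rw [← h5, zero_add]
  linear_combination (y' 0) * h8

lemma Dat.AA_const (D : Dat ρ₀ ε₀ ρ d w ε K δ₀ b n j L Ψ X) (hR : RStar L ε₁)
    (hw1 : 2 * w < ε₁) (hj : 1 ≤ j) : ∃ A : ℂ, ∀ t : ℂ, |t.im| < ρ - d → AA L X w n t = A := by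
  have hρd : 0 < ρ - d := by have := D.d_lt; linarith
  have h1 : DifferentiableOn ℂ (AA L X w n) {t | |t.im| < ρ - d} := fun t ht =>
    (D.deriv_AA hR hw1 hj ht).differentiableAt.differentiableWithinAt
  have h2 : ({t : ℂ | |t.im| < ρ - d}).EqOn (deriv (AA L X w n)) 0 := fun t ht =>
    (D.deriv_AA hR hw1 hj ht).deriv
  obtain ⟨A, hA⟩ := (isOpen_strip (ρ - d)).exists_is_const_of_deriv_eq_zero
    (convex_strip _).isPreconnected h1 h2
  exact ⟨A, fun t ht => hA t ht⟩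

lemma Dat.AA_sub (D : Dat ρ₀ ε₀ ρ d w ε K δ₀ b n j L Ψ X) {t : ℂ} (ht : |t.im| < ρ - d) :
    ‖(∑ i ∈ Finset.range n, L (XX X w t i, XX X w t (i + 1))) - AA L X w n t‖ ≤
      26 * K * n ^ 5 / w ^ 2 * ε ^ 2 := by
  have hn := D.n_pos
  have hK := D.K_pos
  have hbn := D.b_nn
  have hwp := D.w_pos
  set h : ℕ → ℂ := fun i => -(DX X w t i * WW L X w n t i) with hh
  have hhb : ∀ i ≤ n, ‖h i‖ ≤ 101 / 100 * b := by
    intro i hi
    simp only [hh]
    rw [norm_neg]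
    exact D.DXv_le (D.strip_sub ht) (D.WW_le ht hi) i
  have hXY : ∀ i, XX X w t i = YY L X w n t i + h i := by
    intro i
    simp only [hh]
    unfold YY yy
    ring
  have hlin : ∑ i ∈ Finset.range n, (q1 L (YY L X w n t i, YY L X w n t (i + 1)) * h i +
      q2 L (YY L X w n t i, YY L X w n t (i + 1)) * h (i + 1)) = 0 := by
    obtain ⟨m, hm⟩ : ∃ m, n = m + 1 := ⟨n - 1, by omega⟩
    have hz := D.WW_zero ht
    have he := D.WW_end ht
    have h0 : h 0 = 0 := by simp only [hh]; rw [hz]; ring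
    have h1 : h n = 0 := by
      simp only [hh]; rw [he]; ring
    have hsum := sum_parts (fun i => q1 L (YY L X w n t i, YY L X w n t (i + 1)))
      (fun i => q2 L (YY L X w n t i, YY L X w n t (i + 1))) h m
    rw [← hm, h0, h1, mul_zero, mul_zero, add_zero, zero_add] at hsum
    rw [hsum]
    refine Finset.sum_eq_zero (fun i hi => ?_)
    have hi' := Finset.mem_range.1 hi
    have h4 := D.EL_zero ht (m := i) (by omega)
    unfold EL at h4
    rw [add_comm] at h4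
    unfold YY
    rw [h4, zero_mul]
  have e : (∑ i ∈ Finset.range n, L (XX X w t i, XX X w t (i + 1))) - AA L X w n t =
      ∑ i ∈ Finset.range n, (L (YY L X w n t i + h i, YY L X w n t (i + 1) + h (i + 1)) -
        L (YY L X w n t i, YY L X w n t (i + 1)) -
        (q1 L (YY L X w n t i, YY L X w n t (i + 1)) * h i +
          q2 L (YY L X w n t i, YY L X w n t (i + 1)) * h (i + 1))) := by
    rw [Finset.sum_sub_distrib, Finset.sum_sub_distrib, hlin, sub_zero]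
    unfold AA
    congr 1
    refine Finset.sum_congr rfl (fun i _ => ?_)
    rw [hXY i, hXY (i + 1)]
  rw [e]
  have hbd : ∀ i ∈ Finset.range n, ‖L (YY L X w n t i + h i, YY L X w n t (i + 1) + h (i + 1)) -
        L (YY L X w n t i, YY L X w n t (i + 1)) -
        (q1 L (YY L X w n t i, YY L X w n t (i + 1)) * h i +
          q2 L (YY L X w n t i, YY L X w n t (i + 1)) * h (i + 1))‖ ≤
      K * (101 / 100 * b) ^ 2 := by
    intro i hi
    have hi' := Finset.mem_range.1 hi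
    exact D.tay _ _ _ _ _ (D.YY_Dg ht (by omega)) (hhb i (by omega)) (hhb (i + 1) (by omega))
      (by have := D.b_δ; linarith)
  refine (norm_sum_le _ _).trans ((Finset.sum_le_sum hbd).trans ?_)
  rw [Finset.sum_const, Finset.card_range, nsmul_eq_mul, D.hb]
  have e2 : (n : ℝ) * (K * (101 / 100 * (5 * n ^ 2 / w * ε)) ^ 2) =
    (101 / 100 * 5) ^ 2 * (K * n ^ 5 / w ^ 2 * ε ^ 2) := by
    field_simp
  rw [e2]
  have e3 : 26 * K * n ^ 5 / w ^ 2 * ε ^ 2 = 26 * (K * n ^ 5 / w ^ 2 * ε ^ 2) := by ring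
  rw [e3]
  refine mul_le_mul_of_nonneg_right (by norm_num) (by positivity)

/-- the resonance lemma -/
theorem resonanceB4 : ResonanceB4 := by
  intro ρ₀ ε₀ ε₁ L Ψ hL hε₁ hR
  obtain ⟨K1, r₂, δ₁, -, hr₂, -, hq, -⟩ := hL.exists_bounds
  obtain ⟨K, δ₀, hK1, hδ₀, hlip, htay⟩ := exists_bounds2 hL
  have hρ₀ := hL.ρ_pos
  have hε₀ := hL.ε_pos
  have hK : 0 < K := by linarith
  set c : ℝ := min (min (1 / 40) (ρ₀ / 100)) (min (δ₀ / 10) (1 / (10 + 50 * K))) with hc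
  have hc0 : 0 < c := by
    refine lt_min (lt_min (by norm_num) (by positivity)) (lt_min (by positivity) (by positivity))
  have hc1 : c ≤ 1 / 40 := (min_le_left _ _).trans (min_le_left _ _)
  have hc2 : c ≤ ρ₀ / 100 := (min_le_left _ _).trans (min_le_right _ _)
  have hc3 : c ≤ δ₀ / 10 := (min_le_right _ _).trans (min_le_left _ _)
  have hc4 : c ≤ 1 / (10 + 50 * K) := (min_le_right _ _).trans (min_le_right _ _)
  refine ⟨26 * K, c, min (r₂ / 2) (min (ε₀ / 4) (ε₁ / 2)), by positivity, hc0,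
    lt_min (by positivity) (lt_min (by positivity) (by positivity)), ?_⟩
  intro ρ d w ε n j X hd hdρ hd1 hρ hn hj hw hwr hε hsmall Xd Xper Xre Xid X' XE
  have hnR : (1 : ℝ) ≤ n := by exact_mod_cast hn
  have hjR : (1 : ℝ) ≤ j := by exact_mod_cast hj
  have hn0 : (0 : ℝ) < n := by linarith
  have hwp : 0 < w := by rw [hw]; positivity
  have hw1 : 1 / (n : ℝ) ≤ w := by
    rw [hw]
    exact div_le_div_of_nonneg_right hjR hn0.le
  have hw2 : 1 / w ≤ n := by
    rw [div_le_iff₀ hwp]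
    rw [div_le_iff₀ hn0] at hw1
    linarith
  have hwr2 : w < r₂ / 2 := hwr.trans_le (min_le_left _ _)
  have hwε₀ : w < ε₀ / 4 := hwr.trans_le ((min_le_right _ _).trans (min_le_left _ _))
  have hwε₁ : w < ε₁ / 2 := hwr.trans_le ((min_le_right _ _).trans (min_le_right _ _))
  -- powers of n
  have hsm : (n : ℝ) ^ 6 * ε ≤ c := hsmall.trans (by nlinarith)
  have hpow : ∀ k ≤ 6, (n : ℝ) ^ k * ε ≤ (n : ℝ) ^ 6 * ε := fun k hk =>
    mul_le_mul_of_nonneg_right (pow_le_pow_right₀ hnR hk) hε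
  have h3 : (n : ℝ) ^ 3 * ε ≤ c := (hpow 3 (by norm_num)).trans hsm
  have h4 : (n : ℝ) ^ 4 * ε ≤ c := (hpow 4 (by norm_num)).trans hsm
  have h3d : (n : ℝ) ^ 3 * ε ≤ c * d := (hpow 3 (by norm_num)).trans hsmall
  have hb3 : 5 * (n : ℝ) ^ 2 / w * ε ≤ 5 * (n ^ 3 * ε) := by
    have e : 5 * (n : ℝ) ^ 2 / w * ε = (5 * n ^ 2 * ε) * (1 / w) := by ring
    rw [e]
    calc (5 * (n : ℝ) ^ 2 * ε) * (1 / w) ≤ (5 * n ^ 2 * ε) * n :=
          mul_le_mul_of_nonneg_left hw2 (by positivity)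
      _ = _ := by ring
  have hbw : 5 * (n : ℝ) ^ 2 / w * ε ≤ w / 8 := by
    have h5 : 5 * ((n : ℝ) ^ 3 * ε) ≤ 1 / 8 * (1 / n) := by
      rw [mul_one_div, le_div_iff₀ hn0]
      calc 5 * ((n : ℝ) ^ 3 * ε) * n = 5 * (n ^ 4 * ε) := by ring
        _ ≤ 5 * c := by linarith
        _ ≤ 1 / 8 := by linarith
    linarith
  have D : Dat ρ₀ ε₀ ρ d w ε K δ₀ (5 * n ^ 2 / w * ε) n j L Ψ X := by
    refine { lag := hL, q12 := fun x y hxy h => hq x y hxy (by linarith), lip := hlip,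
             tay := htay, K_pos := hK.le, d_pos := hd, d_lt := hdρ, ρ_le := hρ, n_pos := hn,
             hw := hw, w_pos := hwp, w_lt := by linarith, ε_nn := hε, hb := rfl, b_w := hbw,
             b_ρ := by linarith, b_δ := by linarith, contr := ?_, Xd := Xd, Xper := Xper,
             Xre := Xre, Xid := Xid, X' := X', XE := XE }
    have t1 : 10 * (n : ℝ) ^ 2 / w ≤ 10 * n ^ 3 := by
      have e : 10 * (n : ℝ) ^ 2 / w = (10 * n ^ 2) * (1 / w) := by ring
      rw [e]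
      calc (10 * (n : ℝ) ^ 2) * (1 / w) ≤ (10 * n ^ 2) * n :=
            mul_le_mul_of_nonneg_left hw2 (by positivity)
        _ = _ := by ring
    have t2 : 0 ≤ ε / d + K * (5 * (n ^ 3 * ε)) := by positivity
    have t3 : ε / d + K * (5 * n ^ 2 / w * ε) ≤ ε / d + K * (5 * (n ^ 3 * ε)) := by
      have := mul_le_mul_of_nonneg_left hb3 hK.le
      linarith
    have t4 : 10 * (n : ℝ) ^ 2 / w * (ε / d + K * (5 * n ^ 2 / w * ε)) ≤
        10 * n ^ 3 * (ε / d + K * (5 * (n ^ 3 * ε))) :=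
      (mul_le_mul_of_nonneg_left t3 (by positivity)).trans (mul_le_mul_of_nonneg_right t1 t2)
    refine t4.trans ?_
    have t5 : 10 * (n : ℝ) ^ 3 * (ε / d + K * (5 * (n ^ 3 * ε))) =
        10 * ((n ^ 3 * ε) / d) + 50 * K * (n ^ 6 * ε) := by ring
    rw [t5]
    have t6 : (n : ℝ) ^ 3 * ε / d ≤ c := by rw [div_le_iff₀ hd]; exact h3d
    have t7 : 50 * K * ((n : ℝ) ^ 6 * ε) ≤ 50 * K * c :=
      mul_le_mul_of_nonneg_left hsm (by positivity)
    have t8 : (10 + 50 * K) * c ≤ 1 := by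
      rw [le_div_iff₀ (by positivity)] at hc4
      linarith
    linarith
  obtain ⟨A, hA⟩ := D.AA_const hR (by linarith) hj
  refine ⟨A, fun t ht => ?_⟩
  have h7 := D.AA_sub ht
  rw [hA t ht] at h7
  have e : (∑ i ∈ Finset.range n, L (X (t + i * w), X (t + (i + 1) * w))) =
      ∑ i ∈ Finset.range n, L (XX X w t i, XX X w t (i + 1)) := by
    refine Finset.sum_congr rfl (fun i _ => ?_)
    unfold XX
    push_cast
    rfl
  rw [e]
  exact h7

end Crest.Agent.R102.B540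
end
end

-- ▼ part R102/T5c_576
section

/-!
Row 102, leaf (T5) (helper576), part c: exponential decay of the Fourier coefficients of a
1-periodic real function gives a holomorphic extension to a strip.
-/

set_option autoImplicit false

open Set Filter Topology MeasureTheory
open scoped Real ContDiff ComplexConjugate

noncomputable section

namespace Crest.Agent.R102.T5

/-- open strip -/
def Str (η : ℝ) : Set ℂ := {z | |z.im| < η}

lemma isOpen_Str (η : ℝ) : IsOpen (Str η) :=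
  isOpen_lt (by fun_prop) continuous_const

lemma convex_Str (η : ℝ) : Convex ℝ (Str η) := by
  have h1 : Str η = Complex.imLm ⁻¹' (Ioo (-η) η) := by
    ext z
    simp [Str, abs_lt]
  rw [h1]
  exact (convex_Ioo _ _).linear_preimage _

lemma real_mem_Str {η : ℝ} (hη : 0 < η) (x : ℝ) : (x : ℂ) ∈ Str η := by
  simp [Str, hη]

lemma conj_mem_Str {η : ℝ} {z : ℂ} (hz : z ∈ Str η) : conj z ∈ Str η := by
  simpa [Str] using hz

lemma add_one_mem_Str {η : ℝ} {z : ℂ} (hz : z ∈ Str η) : z + 1 ∈ Str η := by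
  simpa [Str] using hz

/-- identity theorem from real points -/
theorem eqOn_of_real {F G : ℂ → ℂ} {U : Set ℂ} (hU : IsOpen U) (hc : IsPreconnected U)
    (hF : DifferentiableOn ℂ F U) (hG : DifferentiableOn ℂ G U) {x₀ : ℝ} (hx₀ : (x₀ : ℂ) ∈ U)
    {δ : ℝ} (hδ : 0 < δ) (h : ∀ x : ℝ, |x - x₀| < δ → (x : ℂ) ∈ U → F x = G x) : EqOn F G U := by
  refine (hF.analyticOnNhd hU).eqOn_of_preconnected_of_frequently_eq (hG.analyticOnNhd hU) hc hx₀ ?_
  have h1 : Tendsto (fun x : ℝ => (x : ℂ)) (𝓝[≠] x₀) (𝓝[≠] (x₀ : ℂ)) := by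
    refine tendsto_nhdsWithin_of_tendsto_nhds_of_eventually_within _ ?_ ?_
    · exact (Complex.continuous_ofReal.tendsto x₀).mono_left nhdsWithin_le_nhds
    · filter_upwards [self_mem_nhdsWithin] with x hx
      simpa using hx
  refine h1.frequently (Eventually.frequently ?_)
  have h2 : ∀ᶠ x : ℝ in 𝓝 x₀, (x : ℂ) ∈ U :=
    Complex.continuous_ofReal.continuousAt.eventually (hU.mem_nhds hx₀)
  have h3 : ∀ᶠ x : ℝ in 𝓝 x₀, |x - x₀| < δ := by
    have := Metric.ball_mem_nhds x₀ hδ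
    filter_upwards [this] with x hx
    rwa [Metric.mem_ball, Real.dist_eq] at hx
  filter_upwards [nhdsWithin_le_nhds h2, nhdsWithin_le_nhds h3] with x hx hx'
  exact h x hx' hx

theorem eqOn_Str {F G : ℂ → ℂ} {η : ℝ} (hη : 0 < η)
    (hF : DifferentiableOn ℂ F (Str η)) (hG : DifferentiableOn ℂ G (Str η))
    (h : ∀ x : ℝ, F x = G x) : EqOn F G (Str η) :=
  eqOn_of_real (isOpen_Str η) (convex_Str η).isPreconnected hF hG (real_mem_Str hη 0) one_pos
    (fun x _ _ => h x)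

/-- reflection of a holomorphic function -/
lemma differentiableOn_reflect {F : ℂ → ℂ} {U : Set ℂ} (hU : IsOpen U)
    (hF : DifferentiableOn ℂ F U) (hc : ∀ z ∈ U, conj z ∈ U) :
    DifferentiableOn ℂ (fun z => conj (F (conj z))) U := by
  intro z hz
  have h1 : DifferentiableAt ℂ F (conj z) := hF.differentiableAt (hU.mem_nhds (hc z hz))
  have h2 : DifferentiableAt ℂ (star ∘ F ∘ star) (star (conj z)) := h1.star_star
  have h3 : star (conj z) = z := star_star z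
  rw [h3] at h2
  exact h2.differentiableWithinAt

/-- exponential decay of Fourier coefficients gives a holomorphic extension -/
theorem analytic_ext {f : ℝ → ℝ} (hf : Continuous f) (hper : ∀ x, f (x + 1) = f x) {C a : ℝ}
    (ha : 0 < a)
    (hc : ∀ k : ℤ, ‖∫ x in (0 : ℝ)..1, (f x : ℂ) * A929.ee (-(k * x))‖ ≤
      C * Real.exp (-(a * |(k : ℝ)|))) :
    ∃ Q : ℂ → ℂ, DifferentiableOn ℂ Q (Str (a / (2 * π))) ∧ ∀ x : ℝ, Q x = f x := by
  set c : ℤ → ℂ := fun k => ∫ x in (0 : ℝ)..1, (f x : ℂ) * A929.ee (-(k * x)) with hcdef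
  have hC : 0 ≤ C := by
    have := hc 0
    simp only [Int.cast_zero, abs_zero, mul_zero, neg_zero, Real.exp_zero, mul_one] at this
    exact (norm_nonneg _).trans this
  have hpi := Real.pi_pos
  refine ⟨fun z => ∑' k : ℤ, c k * A929.ee (k * z), ?_, ?_⟩
  · -- differentiability
    intro z hz
    have hz' : |z.im| < a / (2 * π) := hz
    obtain ⟨η, h1, h2⟩ := exists_between hz'
    have hη : 0 < η := (abs_nonneg _).trans_lt h1
    rw [lt_div_iff₀ (by positivity)] at h2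
    have hU := isOpen_Str η
    have hs : 0 < a - η * (2 * π) := by linarith
    have hd : DifferentiableOn ℂ (fun z => ∑' k : ℤ, c k * A929.ee (k * z)) (Str η) := by
      refine Complex.differentiableOn_tsum_of_summable_norm
        (u := fun k : ℤ => C * Real.exp (-((a - η * (2 * π)) * |(k : ℝ)|)))
        ((B821.summable_exp_abs hs).mul_left C) (fun k => ?_) hU (fun k w hw => ?_)
      · exact ((A929.differentiable_ee.comp (by fun_prop)).const_mul _).differentiableOn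
      · have hw' : |w.im| < η := hw
        rw [norm_mul, A929.norm_ee]
        have h3 : -(2 * π * ((k : ℂ) * w).im) ≤ η * (2 * π) * |(k : ℝ)| := by
          have h4 : ((k : ℂ) * w).im = k * w.im := by simp
          rw [h4]
          have h5 : -((k : ℝ) * w.im) ≤ |(k : ℝ)| * |w.im| := by
            rw [← abs_mul]; exact neg_le_abs _
          have h6 : |(k : ℝ)| * |w.im| ≤ |(k : ℝ)| * η :=
            mul_le_mul_of_nonneg_left hw'.le (abs_nonneg _)
          nlinarith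
        calc ‖c k‖ * Real.exp (-(2 * π * ((k : ℂ) * w).im))
            ≤ (C * Real.exp (-(a * |(k : ℝ)|))) * Real.exp (η * (2 * π) * |(k : ℝ)|) :=
              mul_le_mul (hc k) (Real.exp_le_exp.2 h3) (Real.exp_nonneg _) (by positivity)
          _ = C * Real.exp (-((a - η * (2 * π)) * |(k : ℝ)|)) := by
              rw [mul_assoc, ← Real.exp_add]
              congr 2
              ring
    exact (hd.differentiableAt (hU.mem_nhds h1)).differentiableWithinAt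
  · -- values on the real line
    intro x
    set φ : ℝ → ℂ := fun x => (f x : ℂ) with hφ
    have hφc : Continuous φ := by fun_prop
    have hφp : Function.Periodic φ 1 := by
      intro x
      simp only [hφ]
      rw [hper]
    let F : C(AddCircle (1 : ℝ), ℂ) := ⟨hφp.lift, by
      exact continuous_coinduced_dom.mpr hφc⟩
    have hFapp : ∀ x : ℝ, F (x : AddCircle (1 : ℝ)) = φ x := fun x => rfl
    have hcoef : ∀ n : ℤ, fourierCoeff F n = c n := by
      intro n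
      rw [fourierCoeff_eq_intervalIntegral F n 0]
      simp only [one_div, inv_one, one_smul, zero_add]
      refine intervalIntegral.integral_congr (fun x _ => ?_)
      rw [fourier_coe_apply, hFapp, smul_eq_mul, mul_comm]
      change φ x * _ = φ x * _
      congr 1
      unfold A929.ee
      congr 1
      push_cast
      ring
    have hsum : Summable (fourierCoeff F) := by
      refine Summable.of_norm_bounded
        (g := fun n : ℤ => C * Real.exp (-(a * |(n : ℝ)|)))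
        ((B821.summable_exp_abs ha).mul_left C) (fun n => ?_)
      rw [hcoef]
      exact hc n
    have h8 := has_pointwise_sum_fourier_series_of_summable hsum (x : AddCircle (1 : ℝ))
    have h10 : (fun n : ℤ => c n * A929.ee (n * x)) =
        fun n : ℤ => fourierCoeff F n • fourier n (x : AddCircle (1 : ℝ)) := by
      ext n
      rw [hcoef, fourier_coe_apply, smul_eq_mul]
      congr 1
      unfold A929.ee
      congr 1
      push_cast
      ring
    rw [← h10] at h8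
    exact h8.tsum_eq

/-- projection onto a closed strip -/
def clip (η : ℝ) (z : ℂ) : ℂ := (z.re : ℂ) + ((max (-η) (min η z.im) : ℝ) : ℂ) * Complex.I

lemma continuous_clip (η : ℝ) : Continuous (clip η) := by
  unfold clip
  fun_prop

lemma clip_im (η : ℝ) (z : ℂ) : (clip η z).im = max (-η) (min η z.im) := by
  simp [clip]

lemma clip_mem {η η' : ℝ} (hη : 0 ≤ η) (h : η < η') (z : ℂ) : clip η z ∈ Str η' := by
  change |(clip η z).im| < η'
  rw [clip_im, abs_lt]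
  constructor
  · have := le_max_left (-η) (min η z.im); linarith
  · refine (max_le (by linarith) (min_le_left _ _)).trans_lt h

lemma clip_eq {η : ℝ} {z : ℂ} (hz : |z.im| ≤ η) : clip η z = z := by
  rw [abs_le] at hz
  apply Complex.ext
  · simp [clip]
  · rw [clip_im, min_eq_right hz.2, max_eq_right hz.1]

/-- a globally continuous function which agrees with `Q` on a closed strip -/
theorem exists_cont_ext {Q : ℂ → ℂ} {η η' : ℝ} (hη : 0 ≤ η) (h : η < η')
    (hQ : DifferentiableOn ℂ Q (Str η')) :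
    ∃ q : C(ℂ, ℂ), ∀ z : ℂ, |z.im| ≤ η → q z = Q z := by
  refine ⟨⟨fun z => Q (clip η z), ?_⟩, fun z hz => ?_⟩
  · exact hQ.continuousOn.comp_continuous (continuous_clip η) (fun z => clip_mem hη h z)
  · change Q (clip η z) = Q z
    rw [clip_eq hz]

/-- a real 1-periodic function with exponentially decaying Fourier coefficients has an extension
`q : C(ℂ, ℂ)` which is holomorphic, 1-periodic and real on an open strip -/
theorem exists_q {f : ℝ → ℝ} (hf : Continuous f) (hper : ∀ x, f (x + 1) = f x) {C a : ℝ}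
    (ha : 0 < a)
    (hc : ∀ k : ℤ, ‖∫ x in (0 : ℝ)..1, (f x : ℂ) * A929.ee (-(k * x))‖ ≤
      C * Real.exp (-(a * |(k : ℝ)|))) :
    ∃ (q : C(ℂ, ℂ)) (η : ℝ), 0 < η ∧ DifferentiableOn ℂ q (Str η) ∧ (∀ x : ℝ, q x = f x) ∧
      (∀ z ∈ Str η, q (z + 1) = q z) ∧ ∀ z ∈ Str η, q (conj z) = conj (q z) := by
  obtain ⟨Q, hQ, hQr⟩ := analytic_ext hf hper ha hc
  have hpi := Real.pi_pos
  have ha' : 0 < a / (2 * π) := by positivity
  obtain ⟨η, hη, hη'⟩ := exists_between ha'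
  obtain ⟨q, hq⟩ := exists_cont_ext hη.le hη' hQ
  have hd : DifferentiableOn ℂ q (Str η) := by
    refine (hQ.mono (fun z hz => lt_trans hz hη')).congr (fun z hz => hq z (le_of_lt hz))
  have hqr : ∀ x : ℝ, q x = f x := fun x => by rw [hq _ (by simpa using hη.le), hQr]
  refine ⟨q, η, hη, hd, hqr, ?_, ?_⟩
  · have h1 : EqOn (fun z => q (z + 1)) q (Str η) := by
      refine eqOn_Str hη ?_ hd (fun x => ?_)
      · exact hd.comp (by fun_prop) (fun z hz => add_one_mem_Str hz)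
      · have : (x : ℂ) + 1 = ((x + 1 : ℝ) : ℂ) := by push_cast; rfl
        change q ((x : ℂ) + 1) = q x
        rw [this, hqr, hqr, hper]
    exact h1
  · have h1 : EqOn (fun z => conj (q (conj z))) q (Str η) := by
      refine eqOn_Str hη (differentiableOn_reflect (isOpen_Str η) hd (fun z hz => conj_mem_Str hz))
        hd (fun x => ?_)
      rw [Complex.conj_ofReal, hqr, Complex.conj_ofReal]
    intro z hz
    have h2 := h1 hz
    simp only at h2
    rw [← h2, starRingEnd_self_apply]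

end Crest.Agent.R102.T5
end
end

-- ▼ part R102/T5d_576

/-!
Row 102, leaf (T5) (helper576), part d: for `q` holomorphic on a strip, real and 1-periodic, the
billiard Lagrangian `L(x, y) = (y - x)^3 Ψ(x, y)` is a Lagrangian in the sense of `Lag_821`
(`IsLag`), and `RStarP q` gives `RStar L`.
-/

set_option autoImplicit false

open Set Filter Topology MeasureTheory
open scoped Real ContDiff ComplexConjugate

noncomputable section

namespace Crest.Agent.R102.T5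

open Crest.Agent.R102.A929 (ofR Pq EP Xq dq LocQ IsAct RStarP exists_locQ AA AA.ext'
  dq_apply Qf Qf_zero Xq_zero)
open Crest.Agent.R102.G576
open Crest.Agent.R102.B821 (IsLag RStar EL Dg isOpen_Dg)

/-! ### bounds on strips -/

lemma exists_bound_Str {G : ℂ → ℂ} {η η' : ℝ} (h : η' < η) (hG : ContinuousOn G (Str η))
    (hper : ∀ z ∈ Str η, G (z + 1) = G z) : ∃ B : ℝ, 0 < B ∧ ∀ z : ℂ, |z.im| ≤ η' → ‖G z‖ ≤ B := by
  have hK : IsCompact (Icc (0 : ℝ) 1 ×ℂ Icc (-η') η') := isCompact_Icc.reProdIm isCompact_Icc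
  obtain ⟨B, hB⟩ := hK.exists_bound_of_continuousOn (hG.mono (fun z hz => by
    rw [Complex.mem_reProdIm] at hz
    change |z.im| < η
    rw [abs_lt]
    exact ⟨by linarith [hz.2.1], by linarith [hz.2.2]⟩))
  refine ⟨max B 1, lt_of_lt_of_le one_pos (le_max_right _ _), fun z hz => ?_⟩
  have hn : ∀ (n : ℕ) (z : ℂ), |z.im| < η → G (z + n) = G z := by
    intro n
    induction n with
    | zero => intro z _; simp
    | succ n ih =>
      intro z hz
      have : z + ((n + 1 : ℕ) : ℂ) = (z + n) + 1 := by push_cast; ring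
      rw [this, hper (z + n) (by simpa [Str] using hz), ih z hz]
  have hz' : |(z - (⌊z.re⌋ : ℂ)).im| < η := by
    simpa using hz.trans_lt h
  have hzint : G (z - (⌊z.re⌋ : ℂ)) = G z := by
    rcases le_total 0 ⌊z.re⌋ with h0 | h0
    · obtain ⟨n, hn'⟩ := Int.eq_ofNat_of_zero_le h0
      have := hn n (z - (⌊z.re⌋ : ℂ)) hz'
      rw [hn'] at this ⊢
      rw [← this]
      congr 1
      push_cast
      ring
    · obtain ⟨n, hn'⟩ := Int.exists_eq_neg_ofNat h0
      have := hn n z (hz.trans_lt h)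
      rw [hn']
      rw [← this]
      congr 1
      push_cast
      ring
  rw [← hzint]
  refine (hB _ ?_).trans (le_max_left _ _)
  rw [Complex.mem_reProdIm]
  rw [abs_le] at hz
  simp only [Complex.sub_re, Complex.intCast_re, Complex.sub_im, Complex.intCast_im, sub_zero]
  refine ⟨⟨by linarith [Int.floor_le z.re], by linarith [Int.lt_floor_add_one z.re]⟩, hz⟩

/-! ### holomorphy of `Xq` -/

section

variable {q : C(ℂ, ℂ)} {η : ℝ}

/-- pairs `(x, e)` with `x`, `x + e` in the strip -/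
def SE (η : ℝ) : Set (ℂ × ℂ) := {p | p.1 ∈ Str η ∧ p.1 + p.2 ∈ Str η}

lemma isOpen_SE (η : ℝ) : IsOpen (SE η) :=
  ((isOpen_Str η).preimage continuous_fst).inter
    ((isOpen_Str η).preimage (continuous_fst.add continuous_snd))

lemma seg_mem_Str {x e : ℂ} (hx : x ∈ Str η) (hxe : x + e ∈ Str η) {r : ℝ} (h0 : 0 ≤ r)
    (h1 : r ≤ 1) : x + e * (r : ℂ) ∈ Str η := by
  have h2 := convex_Str η hx hxe (a := 1 - r) (b := r) (by linarith) h0 (by ring)
  have h3 : (1 - r) • x + r • (x + e) = x + e * (r : ℂ) := by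
    rw [Complex.real_smul, Complex.real_smul]
    push_cast
    ring
  rwa [h3] at h2

theorem differentiableOn_dq (hd : DifferentiableOn ℂ q (Str η)) :
    DifferentiableOn ℂ (fun p : ℂ × ℂ => dq q p.1 p.2) (SE η) := by
  have hc : ContinuousOn (fun p : (ℂ × ℂ) × unitInterval =>
      q (p.1.1 + p.1.2 * (((p.2 : unitInterval) : ℝ) : ℂ)) - q p.1.1) (SE η ×ˢ univ) := by
    apply Continuous.continuousOn
    fun_prop
  have h1 := R266.SCV.analyticOnNhd_fam (E := ℂ × ℂ) (K := unitInterval) (isOpen_SE η) hc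
    (fun k x hx v => by
      have hm : x.1 + x.2 * (((k : unitInterval) : ℝ) : ℂ) ∈ Str η :=
        seg_mem_Str hx.1 hx.2 k.2.1 k.2.2
      have d1 : DifferentiableAt ℂ q (x.1 + x.2 * (((k : unitInterval) : ℝ) : ℂ)) :=
        hd.differentiableAt ((isOpen_Str η).mem_nhds hm)
      have d2 : DifferentiableAt ℂ q x.1 := hd.differentiableAt ((isOpen_Str η).mem_nhds hx.1)
      refine DifferentiableAt.sub ?_ ?_
      · refine DifferentiableAt.comp (g := q) (f := fun z : ℂ => (x + z • v).1 + (x + z • v).2 *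
          (((k : unitInterval) : ℝ) : ℂ)) 0 ?_ ?_
        · simpa using d1
        · simp only [Prod.fst_add, Prod.smul_fst, Prod.snd_add, Prod.smul_snd, smul_eq_mul]
          fun_prop
      · refine DifferentiableAt.comp (g := q) (f := fun z : ℂ => (x + z • v).1) 0 ?_ ?_
        · simpa using d2
        · simp only [Prod.fst_add, Prod.smul_fst, smul_eq_mul]
          fun_prop)
  have h2 : (fun p : ℂ × ℂ => dq q p.1 p.2) = (R266.SCV.fam (fun p : (ℂ × ℂ) × unitInterval =>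
      q (p.1.1 + p.1.2 * (((p.2 : unitInterval) : ℝ) : ℂ)) - q p.1.1) : ℂ × ℂ → C(unitInterval, ℂ)) := by
    funext p
    refine AA.ext' (fun r => ?_)
    rw [dq_apply]
    unfold R266.SCV.fam
    change _ = (ContinuousMap.mkD (fun k : unitInterval => q (p.1 + p.2 * (((k : unitInterval) : ℝ) : ℂ)) -
      q p.1) 0) r
    rw [ContinuousMap.mkD_apply_of_continuous]
    fun_prop
  rw [h2]
  exact h1.differentiableOn

theorem differentiableOn_Xq (hd : DifferentiableOn ℂ q (Str η)) :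
    DifferentiableOn ℂ (fun p : ℂ × ℂ => Xq q p.1 p.2) (SE η) := by
  intro p hp
  have h1 : DifferentiableAt ℂ (fun p : ℂ × ℂ => dq q p.1 p.2) p :=
    (differentiableOn_dq hd).differentiableAt ((isOpen_SE η).mem_nhds hp)
  have h2 : DifferentiableAt ℂ (fun p : ℂ × ℂ => q p.1) p :=
    (hd.differentiableAt ((isOpen_Str η).mem_nhds hp.1)).comp p differentiableAt_fst
  exact (h1.prodMk (differentiableAt_snd.mul h2.cexp)).differentiableWithinAt

theorem exists_small_Str (hd : DifferentiableOn ℂ q (Str η))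
    (hper : ∀ z ∈ Str η, q (z + 1) = q z) {ρ₀ ρ : ℝ} (h : ρ₀ < η) (hρ : 0 < ρ) :
    ∃ ε₀ : ℝ, 0 < ε₀ ∧ ∀ x e : ℂ, x ∈ Str ρ₀ → x + e ∈ Str ρ₀ → ‖e‖ < ε₀ → ‖Xq q x e‖ < ρ := by
  obtain ⟨B0, hB0, hb0⟩ := exists_bound_Str h hd.continuousOn hper
  have hd1 : DifferentiableOn ℂ (deriv q) (Str η) := hd.deriv (isOpen_Str η)
  obtain ⟨B1, hB1, hb1⟩ := exists_bound_Str h hd1.continuousOn (fun z hz => by
    have h1 : (fun w => q (w + 1)) =ᶠ[𝓝 z] q := by
      filter_upwards [(isOpen_Str η).mem_nhds hz] with w hw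
      exact hper w hw
    have h2 := h1.deriv_eq
    rw [deriv_comp_add_const] at h2
    exact h2)
  have hlip : ∀ x ∈ Str ρ₀, ∀ y ∈ Str ρ₀, ‖q y - q x‖ ≤ B1 * ‖y - x‖ := by
    intro x hx y hy
    refine Convex.norm_image_sub_le_of_norm_deriv_le (𝕜 := ℂ) (f := q) (s := Str ρ₀)
      (fun z hz => ?_) (fun z hz => hb1 z (le_of_lt hz)) (convex_Str ρ₀) hx hy
    exact hd.differentiableAt ((isOpen_Str η).mem_nhds (lt_trans hz h))
  refine ⟨ρ / (B1 + Real.exp B0), by positivity, fun x e hx hxe he => ?_⟩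
  have h1 : ‖dq q x e‖ ≤ B1 * ‖e‖ := by
    refine (A929.AA.norm_le (by positivity)).2 (fun r => ?_)
    rw [dq_apply]
    have hm := seg_mem_Str hx hxe r.2.1 r.2.2
    refine (hlip x hx _ hm).trans ?_
    refine mul_le_mul_of_nonneg_left ?_ hB1.le
    rw [add_sub_cancel_left, norm_mul, Complex.norm_real, Real.norm_of_nonneg r.2.1]
    exact mul_le_of_le_one_right (norm_nonneg _) r.2.2
  have h2 : ‖e * Complex.exp (q x)‖ ≤ Real.exp B0 * ‖e‖ := by
    rw [norm_mul, mul_comm, Complex.norm_exp]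
    refine mul_le_mul_of_nonneg_right ?_ (norm_nonneg _)
    exact Real.exp_le_exp.2 ((Complex.re_le_norm _).trans (hb0 x (le_of_lt hx)))
  have h3 : ‖Xq q x e‖ = max ‖dq q x e‖ ‖e * Complex.exp (q x)‖ := rfl
  have h4 : (B1 + Real.exp B0) * ‖e‖ < ρ := by
    rw [lt_div_iff₀ (by positivity)] at he
    linarith
  have h5 := norm_nonneg e
  have h6 := Real.exp_pos B0
  rw [h3]
  refine max_lt ?_ ?_ <;> nlinarith

/-! ### the Lagrangian -/

/-- `Ψ(x, y) = 4 ∫_0^1 r^2 Qf(Xq q (x + r e) (-r e)) dr`, `e = y - x` -/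
def Psq (q : C(ℂ, ℂ)) (p : ℂ × ℂ) : ℂ :=
  4 * ∫ r in (0 : ℝ)..1, (r : ℂ) ^ 2 * Qf (Xq q (p.1 + r * (p.2 - p.1)) (-(r * (p.2 - p.1))))

/-- the billiard Lagrangian, `4 (arc - chord)` -/
def Lq (q : C(ℂ, ℂ)) (p : ℂ × ℂ) : ℂ := (p.2 - p.1) ^ 3 * Psq q p

/-- data for the construction of the Lagrangian -/
structure Sml (q : C(ℂ, ℂ)) (ρ C η ρ₀ ε₀ : ℝ) : Prop where
  loc : LocQ ρ C
  ρ_pos : 0 < ρ₀
  lt : ρ₀ < η
  ε_pos : 0 < ε₀
  hd : DifferentiableOn ℂ q (Str η)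
  per : ∀ z ∈ Str η, q (z + 1) = q z
  real : ∀ x : ℝ, (q x).im = 0
  sm : ∀ x e : ℂ, x ∈ Str ρ₀ → x + e ∈ Str ρ₀ → ‖e‖ < ε₀ → ‖Xq q x e‖ < ρ

variable {ρ C ρ₀ ε₀ : ℝ}

/-- the domain of `Qf ∘ Xq` -/
def SEe (ρ₀ ε₀ : ℝ) : Set (ℂ × ℂ) := {p | p ∈ SE ρ₀ ∧ ‖p.2‖ < ε₀}


lemma Sml.diff (h : Sml q ρ C η ρ₀ ε₀) :
    DifferentiableOn ℂ (fun p : ℂ × ℂ => Qf (Xq q p.1 p.2)) (SEe ρ₀ ε₀) := by
  intro p hp
  have h1 : p ∈ SE η := ⟨lt_trans hp.1.1 h.lt, lt_trans hp.1.2 h.lt⟩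
  have h2 : DifferentiableAt ℂ (fun p : ℂ × ℂ => Xq q p.1 p.2) p :=
    (differentiableOn_Xq h.hd).differentiableAt ((isOpen_SE η).mem_nhds h1)
  have h3 : DifferentiableAt ℂ Qf (Xq q p.1 p.2) :=
    (h.loc.an _ (h.sm _ _ hp.1.1 hp.1.2 hp.2)).differentiableAt
  exact (DifferentiableAt.comp (g := Qf) (f := fun p : ℂ × ℂ => Xq q p.1 p.2) p h3
    h2).differentiableWithinAt

lemma seg_SEe {x y : ℂ} (h : (x, y) ∈ Dg ρ₀ ε₀) {r : ℝ} (h0 : 0 ≤ r) (h1 : r ≤ 1) :
    (x + r * (y - x), -(r * (y - x))) ∈ SEe ρ₀ ε₀ := by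
  have hx : x ∈ Str ρ₀ := h.1
  have hy : y ∈ Str ρ₀ := h.2.1
  have hxy : ‖y - x‖ < ε₀ := h.2.2
  refine ⟨⟨?_, ?_⟩, ?_⟩
  · have := seg_mem_Str (x := x) (e := y - x) hx (by rwa [add_sub_cancel]) h0 h1
    simp only
    rwa [mul_comm]
  · simp only
    rw [add_neg_cancel_right]
    exact hx
  · simp only
    rw [norm_neg, norm_mul, Complex.norm_real, Real.norm_of_nonneg h0]
    exact (mul_le_of_le_one_left (norm_nonneg _) h1).trans_lt hxy

lemma Sml.diff_Psq (h : Sml q ρ C η ρ₀ ε₀) : DifferentiableOn ℂ (Psq q) (Dg ρ₀ ε₀) := by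
  have hm : MapsTo (fun p : (ℂ × ℂ) × ℝ =>
      ((p.1.1 + p.2 * (p.1.2 - p.1.1), -(p.2 * (p.1.2 - p.1.1))) : ℂ × ℂ))
      (Dg ρ₀ ε₀ ×ˢ uIcc 0 1) (SEe ρ₀ ε₀) := by
    intro p hp
    have h2 := hp.2
    rw [uIcc_of_le zero_le_one] at h2
    exact seg_SEe (x := p.1.1) (y := p.1.2) hp.1 h2.1 h2.2
  have hc : ContinuousOn (fun p : (ℂ × ℂ) × ℝ => (p.2 : ℂ) ^ 2 *
      Qf (Xq q (p.1.1 + p.2 * (p.1.2 - p.1.1)) (-(p.2 * (p.1.2 - p.1.1)))))
      (Dg ρ₀ ε₀ ×ˢ uIcc 0 1) := by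
    refine ContinuousOn.mul (by fun_prop) ?_
    exact h.diff.continuousOn.comp (f := fun p : (ℂ × ℂ) × ℝ =>
      ((p.1.1 + p.2 * (p.1.2 - p.1.1), -(p.2 * (p.1.2 - p.1.1))) : ℂ × ℂ)) (by fun_prop) hm
  have h1 := R266.SCV.analyticOnNhd_intervalIntegral (E := ℂ × ℂ) (isOpen_Dg ρ₀ ε₀) hc
    (fun t ht => by
      refine (differentiableOn_const ((t : ℂ) ^ 2)).mul ?_
      exact h.diff.comp (f := fun p : ℂ × ℂ =>
        ((p.1 + t * (p.2 - p.1), -(t * (p.2 - p.1))) : ℂ × ℂ)) (by fun_prop)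
        (fun p hp => hm (show (p, t) ∈ Dg ρ₀ ε₀ ×ˢ uIcc 0 1 from ⟨hp, ht⟩)))
  exact (h1.differentiableOn).const_mul 4

lemma Sml.norm_Psq (h : Sml q ρ C η ρ₀ ε₀) {p : ℂ × ℂ} (hp : p ∈ Dg ρ₀ ε₀) :
    ‖Psq q p‖ ≤ 4 * C := by
  unfold Psq
  rw [norm_mul]
  have h1 := intervalIntegral.norm_integral_le_of_norm_le_const
    (f := fun r : ℝ => (r : ℂ) ^ 2 * Qf (Xq q (p.1 + r * (p.2 - p.1)) (-(r * (p.2 - p.1)))))
    (a := 0) (b := 1) (C := C) (fun r hr => by
      rw [uIoc_of_le zero_le_one] at hr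
      have hm := seg_SEe (x := p.1) (y := p.2) hp hr.1.le hr.2
      have h2 := h.loc.bd _ (h.sm _ _ hm.1.1 hm.1.2 hm.2)
      rw [norm_mul, norm_pow, Complex.norm_real, Real.norm_of_nonneg hr.1.le]
      have h3 : r ^ 2 ≤ 1 := pow_le_one₀ hr.1.le hr.2
      have h4 := norm_nonneg (Qf (Xq q (p.1 + r * (p.2 - p.1)) (-(r * (p.2 - p.1)))))
      calc r ^ 2 * ‖Qf (Xq q (p.1 + r * (p.2 - p.1)) (-(r * (p.2 - p.1))))‖
          ≤ 1 * ‖Qf (Xq q (p.1 + r * (p.2 - p.1)) (-(r * (p.2 - p.1))))‖ :=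
            mul_le_mul_of_nonneg_right h3 h4
        _ ≤ C := by rw [one_mul]; exact h2)
  simp only [sub_zero, abs_one, mul_one] at h1
  have h5 : ‖(4 : ℂ)‖ = 4 := by norm_num
  rw [h5]
  linarith

lemma Psq_diag (x : ℂ) : Psq q (x, x) = 1 / 6 := by
  unfold Psq
  simp only [sub_self, mul_zero, neg_zero, add_zero]
  rw [Xq_zero, Qf_zero, intervalIntegral.integral_mul_const]
  have : ∫ r in (0 : ℝ)..1, (r : ℂ) ^ 2 = 1 / 3 := by
    have h1 : ∀ r : ℝ, (r : ℂ) ^ 2 = ((r ^ 2 : ℝ) : ℂ) := fun r => by push_cast; rfl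
    simp_rw [h1]
    rw [intervalIntegral.integral_ofReal, integral_pow]
    norm_num
  rw [this]
  norm_num

lemma Xq_per (hper : ∀ z ∈ Str η, q (z + 1) = q z) {x e : ℂ} (hx : x ∈ Str η)
    (hxe : x + e ∈ Str η) : Xq q (x + 1) e = Xq q x e := by
  unfold Xq
  rw [hper x hx]
  congr 1
  refine AA.ext' (fun r => ?_)
  rw [dq_apply, dq_apply, hper x hx]
  have h1 := seg_mem_Str hx hxe r.2.1 r.2.2
  have : x + 1 + e * (((r : unitInterval) : ℝ) : ℂ) = (x + e * (((r : unitInterval) : ℝ) : ℂ)) + 1 := by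
    ring
  rw [this, hper _ h1]

lemma Sml.per_Psq (h : Sml q ρ C η ρ₀ ε₀) {x y : ℂ} (hp : (x, y) ∈ Dg ρ₀ ε₀) :
    Psq q (x + 1, y + 1) = Psq q (x, y) := by
  unfold Psq
  congr 1
  refine intervalIntegral.integral_congr (fun r hr => ?_)
  rw [uIcc_of_le zero_le_one] at hr
  simp only
  congr 2
  have hm := seg_SEe hp hr.1 hr.2
  have e1 : x + 1 + (r : ℂ) * (y + 1 - (x + 1)) = (x + r * (y - x)) + 1 := by ring
  have e2 : (r : ℂ) * (y + 1 - (x + 1)) = r * (y - x) := by ring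
  rw [e1, e2]
  exact Xq_per h.per (lt_trans hm.1.1 h.lt) (lt_trans hm.1.2 h.lt)

/-! ### identity theorem on `Dg` from real pairs -/

/-- increments allowed at `x` -/
def Vx (ρ₀ ε₀ : ℝ) (x : ℂ) : Set ℂ := {e | x + e ∈ Str ρ₀ ∧ ‖e‖ < ε₀}

lemma isOpen_Vx (x : ℂ) : IsOpen (Vx ρ₀ ε₀ x) := by
  have h1 : IsOpen {e : ℂ | ‖e‖ < ε₀} := isOpen_lt (by fun_prop) continuous_const
  have h2 : IsOpen {e : ℂ | x + e ∈ Str ρ₀} := (isOpen_Str ρ₀).preimage (by fun_prop)
  exact h2.inter h1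

lemma convex_Vx (x : ℂ) : Convex ℝ (Vx ρ₀ ε₀ x) := by
  have h1 : Vx ρ₀ ε₀ x = ((fun e => x + e) ⁻¹' (Str ρ₀)) ∩ Metric.ball 0 ε₀ := by
    ext e
    simp [Vx]
  rw [h1]
  exact ((convex_Str ρ₀).translate_preimage_right x).inter (convex_ball _ _)

/-- holomorphic along the two families of slices -/
structure SlD (ρ₀ ε₀ : ℝ) (F : ℂ × ℂ → ℂ) : Prop where
  base : ∀ e : ℝ, 0 < e → e < ε₀ → DifferentiableOn ℂ (fun c : ℂ => F (c, c + e)) (Str ρ₀)
  incr : ∀ x ∈ Str ρ₀, DifferentiableOn ℂ (fun e : ℂ => F (x, x + e)) (Vx ρ₀ ε₀ x)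

lemma slD_of_diff {F : ℂ × ℂ → ℂ} (hF : DifferentiableOn ℂ F (Dg ρ₀ ε₀)) : SlD ρ₀ ε₀ F where
  base e he he' := by
    have hmap : MapsTo (fun c : ℂ => ((c, c + e) : ℂ × ℂ)) (Str ρ₀) (Dg ρ₀ ε₀) := by
      intro c hc
      refine ⟨hc, ?_, ?_⟩
      · simpa [Str] using hc
      · simp only [add_sub_cancel_left]
        rw [Complex.norm_real, Real.norm_of_nonneg he.le]
        exact he'
    have hd : Differentiable ℂ (fun c : ℂ => ((c, c + e) : ℂ × ℂ)) := by fun_prop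
    exact hF.comp hd.differentiableOn hmap
  incr x hx := by
    have hmap : MapsTo (fun e : ℂ => ((x, x + e) : ℂ × ℂ)) (Vx ρ₀ ε₀ x) (Dg ρ₀ ε₀) := by
      intro e he
      refine ⟨hx, he.1, ?_⟩
      simp only [add_sub_cancel_left]
      exact he.2
    have hd : Differentiable ℂ (fun e : ℂ => ((x, x + e) : ℂ × ℂ)) := by fun_prop
    exact hF.comp hd.differentiableOn hmap

lemma differentiableOn_reflect' {F : ℂ → ℂ} {U U' : Set ℂ} (hU : IsOpen U')
    (hF : DifferentiableOn ℂ F U') (hc : ∀ z ∈ U, conj z ∈ U') :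
    DifferentiableOn ℂ (fun z => conj (F (conj z))) U := by
  intro z hz
  have h1 : DifferentiableAt ℂ F (conj z) := hF.differentiableAt (hU.mem_nhds (hc z hz))
  have h2 : DifferentiableAt ℂ (star ∘ F ∘ star) (star (conj z)) := h1.star_star
  have h3 : star (conj z) = z := star_star z
  rw [h3] at h2
  exact h2.differentiableWithinAt

lemma SlD.reflect {F : ℂ × ℂ → ℂ} (hF : SlD ρ₀ ε₀ F) :
    SlD ρ₀ ε₀ (fun p => conj (F (conj p.1, conj p.2))) where
  base e he he' := by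
    have h1 := differentiableOn_reflect (isOpen_Str ρ₀) (hF.base e he he')
      (fun z hz => conj_mem_Str hz)
    refine h1.congr (fun c _ => ?_)
    simp only [map_add, Complex.conj_ofReal]
  incr x hx := by
    have h1 := differentiableOn_reflect' (F := fun e => F (conj x, conj x + e))
      (U := Vx ρ₀ ε₀ x) (isOpen_Vx (conj x)) (hF.incr (conj x) (conj_mem_Str hx)) (fun z hz => by
        refine ⟨?_, ?_⟩
        · rw [← map_add]
          exact conj_mem_Str hz.1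
        · rw [Complex.norm_conj]
          exact hz.2)
    refine h1.congr (fun c _ => ?_)
    simp only [map_add]

lemma Dg_ident {F G : ℂ × ℂ → ℂ} (hρ₀ : 0 < ρ₀) (hε₀ : 0 < ε₀)
    (hF : SlD ρ₀ ε₀ F) (hG : SlD ρ₀ ε₀ G)
    (h : ∀ x y : ℝ, x < y → y - x < ε₀ → F (x, y) = G (x, y)) : EqOn F G (Dg ρ₀ ε₀) := by
  have step1 : ∀ e : ℝ, 0 < e → e < ε₀ → ∀ c ∈ Str ρ₀, F (c, c + e) = G (c, c + e) := by
    intro e he he' c hc
    have := eqOn_Str hρ₀ (hF.base e he he') (hG.base e he he')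
      (fun x => by
        have h1 := h x (x + e) (by linarith) (by linarith)
        push_cast at h1
        exact h1) hc
    exact this
  intro p hp
  obtain ⟨x, y⟩ := p
  have hx : x ∈ Str ρ₀ := hp.1
  have hxim : |x.im| < ρ₀ := hp.1
  have hmid : (((ε₀ / 2 : ℝ)) : ℂ) ∈ Vx ρ₀ ε₀ x := by
    refine ⟨?_, ?_⟩
    · simpa [Str] using hxim
    · rw [Complex.norm_real, Real.norm_of_nonneg (by positivity)]
      linarith
  have h2 := eqOn_of_real (isOpen_Vx x) (convex_Vx x).isPreconnected (hF.incr x hx)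
    (hG.incr x hx) (x₀ := ε₀ / 2) hmid (δ := ε₀ / 2) (by positivity)
    (fun e he hev => by
      rw [abs_lt] at he
      exact step1 e (by linarith) (by linarith) x hp.1)
  have h3 : y - x ∈ Vx ρ₀ ε₀ x := by
    refine ⟨?_, hp.2.2⟩
    rw [add_sub_cancel]
    exact hp.2.1
  have h4 := h2 h3
  simp only [add_sub_cancel] at h4
  exact h4

/-! ### real identities -/

lemma Sml.sm_real (h : Sml q ρ C η ρ₀ ε₀) (x e : ℝ) (he : |e| < ε₀) : ‖Xq q x e‖ < ρ := by
  refine h.sm x e (real_mem_Str h.ρ_pos x) ?_ ?_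
  · have : (x : ℂ) + e = ((x + e : ℝ) : ℂ) := by push_cast; rfl
    rw [this]
    exact real_mem_Str h.ρ_pos _
  · rwa [Complex.norm_real, Real.norm_eq_abs]

lemma Sml.act (h : Sml q ρ C η ρ₀ ε₀) : IsAct q ε₀ (Mf q) :=
  isAct_Mf h.loc h.real (fun x => h.per x (real_mem_Str (h.ρ_pos.trans h.lt) x)) h.sm_real

lemma Sml.Pq_real (h : Sml q ρ C η ρ₀ ε₀) (x e : ℝ) (he : |e| < ε₀) :
    (((Pq q x (e : ℂ)).re : ℝ) : ℂ) = Pq q x e := by
  apply Complex.ext
  · simp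
  · rw [Complex.ofReal_im, Pq_im_zero h.real h.loc (h.sm_real x e he)]

lemma real_mem_Dg (h : Sml q ρ C η ρ₀ ε₀) {x y : ℝ} (hxy : |y - x| < ε₀) :
    ((x : ℂ), (y : ℂ)) ∈ Dg ρ₀ ε₀ := by
  refine ⟨real_mem_Str h.ρ_pos x, real_mem_Str h.ρ_pos y, ?_⟩
  simp only
  rw [← Complex.ofReal_sub, Complex.norm_real, Real.norm_eq_abs]
  exact hxy

lemma Sml.cont_int (h : Sml q ρ C η ρ₀ ε₀) {x y : ℂ} (hp : (x, y) ∈ Dg ρ₀ ε₀) :
    ContinuousOn (fun r : ℝ => (r : ℂ) ^ 2 * Qf (Xq q (x + r * (y - x)) (-(r * (y - x)))))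
      (Icc 0 1) := by
  refine ContinuousOn.mul (by fun_prop) ?_
  exact h.diff.continuousOn.comp (f := fun r : ℝ =>
      ((x + r * (y - x), -(r * (y - x))) : ℂ × ℂ)) (by fun_prop)
      (fun r hr => seg_SEe hp hr.1 hr.2)

lemma continuous_Mf : Continuous (fun p : ℝ × ℝ => Mf q p.1 p.2) := by
  have h1 : Continuous (Ar q) := continuous_iff_continuousAt.2
    (fun x => (hasDerivAt_Ar x).continuousAt)
  have h2 : Continuous (Gc q) := continuous_iff_continuousAt.2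
    (fun x => (hasDerivAt_Gc x).continuousAt)
  unfold Mf
  fun_prop

lemma Mf_self (x : ℝ) : Mf q x x = 0 := by simp [Mf]

/-- `L = 4 (arc - chord)`, first form -/
lemma Sml.real1 (h : Sml q ρ C η ρ₀ ε₀) {x y : ℝ} (hxy : x < y) (hxy' : y - x < ε₀) :
    ((4 * Mf q x y : ℝ) : ℂ) = ((y : ℂ) - x) ^ 3 * Psq q (x, y) := by
  have he : 0 < y - x := by linarith
  have hmem := real_mem_Dg h (x := x) (y := y) (by rwa [abs_of_pos he])
  have hcont := h.cont_int hmem
  have hder : ∀ r ∈ Ioo (0 : ℝ) 1, HasDerivAt (fun r : ℝ => ((Mf q x (x + r * (y - x)) : ℝ) : ℂ))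
      (((y : ℂ) - x) ^ 3 * ((r : ℂ) ^ 2 *
        Qf (Xq q (x + r * ((y : ℂ) - x)) (-(r * ((y : ℂ) - x)))))) r := by
    intro r hr
    have hre : 0 < r * (y - x) := mul_pos hr.1 he
    have hre' : r * (y - x) < ε₀ := by nlinarith [hr.2]
    have h1 := h.act.d x (x + r * (y - x)) (by linarith) (by linarith)
    have h2 : HasDerivAt (fun r : ℝ => ((x, x + r * (y - x)) : ℝ × ℝ)) (0, y - x) r := by
      refine (hasDerivAt_const r x).prodMk ?_
      simpa using ((hasDerivAt_id r).mul_const (y - x)).const_add x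
    have h3 := h1.comp_hasDerivAt r h2
    have h4 := h3.ofReal_comp
    refine h4.congr_deriv ?_
    have h5 := h.Pq_real (x + r * (y - x)) (-(r * (y - x))) (by rwa [abs_neg, abs_of_pos hre])
    simp only [add_apply, smul_apply,
      ContinuousLinearMap.coe_fst', ContinuousLinearMap.coe_snd', smul_eq_mul, mul_zero, zero_add]
    have e1 : -((((x + r * (y - x) : ℝ)) : ℂ) - x) = ((-(r * (y - x)) : ℝ) : ℂ) := by
      push_cast; ring
    rw [e1, Complex.ofReal_mul, h5]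
    unfold Pq
    push_cast
    ring
  have hcg : ContinuousOn (fun r : ℝ => ((Mf q x (x + r * (y - x)) : ℝ) : ℂ)) (Icc 0 1) := by
    have := continuous_Mf (q := q)
    have h2 : Continuous (fun r : ℝ => ((x, x + r * (y - x)) : ℝ × ℝ)) := by fun_prop
    exact (Complex.continuous_ofReal.comp (this.comp h2)).continuousOn
  have hint : IntervalIntegrable (fun r : ℝ => ((y : ℂ) - x) ^ 3 * ((r : ℂ) ^ 2 *
        Qf (Xq q (x + r * ((y : ℂ) - x)) (-(r * ((y : ℂ) - x)))))) volume 0 1 := by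
    apply ContinuousOn.intervalIntegrable
    rw [uIcc_of_le zero_le_one]
    exact continuousOn_const.mul hcont
  have h1 := intervalIntegral.integral_eq_sub_of_hasDerivAt_of_le zero_le_one hcg hder hint
  simp only [one_mul, zero_mul, add_zero, add_sub_cancel, Mf_self, Complex.ofReal_zero,
    sub_zero] at h1
  rw [intervalIntegral.integral_const_mul] at h1
  unfold Psq
  push_cast
  rw [← h1]
  ring

/-- `L = 4 (arc - chord)`, second form -/
lemma Sml.real2 (h : Sml q ρ C η ρ₀ ε₀) {x y : ℝ} (hxy : x < y) (hxy' : y - x < ε₀) :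
    ((4 * Mf q x y : ℝ) : ℂ) = ((y : ℂ) - x) ^ 3 * Psq q (y, x) := by
  have he : 0 < y - x := by linarith
  have hmem := real_mem_Dg h (x := y) (y := x) (by rw [abs_sub_comm, abs_of_pos he]; exact hxy')
  have hcont := h.cont_int hmem
  have hder : ∀ r ∈ Ioo (0 : ℝ) 1, HasDerivAt (fun r : ℝ => ((Mf q (y + r * (x - y)) y : ℝ) : ℂ))
      (((y : ℂ) - x) ^ 3 * ((r : ℂ) ^ 2 *
        Qf (Xq q (y + r * ((x : ℂ) - y)) (-(r * ((x : ℂ) - y)))))) r := by
    intro r hr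
    have hre : 0 < r * (y - x) := mul_pos hr.1 he
    have hre' : r * (y - x) < ε₀ := by nlinarith [hr.2]
    have h1 := h.act.d (y + r * (x - y)) y (by linarith) (by linarith)
    have h2 : HasDerivAt (fun r : ℝ => ((y + r * (x - y), y) : ℝ × ℝ)) (x - y, 0) r := by
      refine HasDerivAt.prodMk ?_ (hasDerivAt_const r y)
      simpa using ((hasDerivAt_id r).mul_const (x - y)).const_add y
    have h3 := h1.comp_hasDerivAt r h2
    have h4 := h3.ofReal_comp
    refine h4.congr_deriv ?_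
    have h5 := h.Pq_real (y + r * (x - y)) (-(r * (x - y))) (by
      rw [abs_neg, abs_of_neg (by linarith)]; linarith)
    simp only [add_apply, smul_apply,
      ContinuousLinearMap.coe_fst', ContinuousLinearMap.coe_snd', smul_eq_mul, mul_zero, add_zero]
    have e1 : ((y : ℂ) - ((y + r * (x - y) : ℝ) : ℂ)) = ((-(r * (x - y)) : ℝ) : ℂ) := by
      push_cast; ring
    rw [e1, Complex.ofReal_mul, Complex.ofReal_neg, h5]
    unfold Pq
    push_cast
    ring
  have hcg : ContinuousOn (fun r : ℝ => ((Mf q (y + r * (x - y)) y : ℝ) : ℂ)) (Icc 0 1) := by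
    have := continuous_Mf (q := q)
    have h2 : Continuous (fun r : ℝ => ((y + r * (x - y), y) : ℝ × ℝ)) := by fun_prop
    exact (Complex.continuous_ofReal.comp (this.comp h2)).continuousOn
  have hint : IntervalIntegrable (fun r : ℝ => ((y : ℂ) - x) ^ 3 * ((r : ℂ) ^ 2 *
        Qf (Xq q (y + r * ((x : ℂ) - y)) (-(r * ((x : ℂ) - y)))))) volume 0 1 := by
    apply ContinuousOn.intervalIntegrable
    rw [uIcc_of_le zero_le_one]
    exact continuousOn_const.mul hcont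
  have h1 := intervalIntegral.integral_eq_sub_of_hasDerivAt_of_le zero_le_one hcg hder hint
  simp only [one_mul, zero_mul, add_zero, add_sub_cancel, Mf_self, Complex.ofReal_zero,
    sub_zero] at h1
  rw [intervalIntegral.integral_const_mul] at h1
  unfold Psq
  push_cast
  rw [← h1]
  ring

/-- symmetry -/
lemma Sml.symm (h : Sml q ρ C η ρ₀ ε₀) {x y : ℂ} (hp : (x, y) ∈ Dg ρ₀ ε₀) :
    Psq q (y, x) = Psq q (x, y) := by
  have hswap : MapsTo (fun p : ℂ × ℂ => ((p.2, p.1) : ℂ × ℂ)) (Dg ρ₀ ε₀) (Dg ρ₀ ε₀) := by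
    intro p hp
    refine ⟨hp.2.1, hp.1, ?_⟩
    simp only
    rw [norm_sub_rev]
    exact hp.2.2
  have hd : DifferentiableOn ℂ (fun p : ℂ × ℂ => Psq q (p.2, p.1)) (Dg ρ₀ ε₀) :=
    h.diff_Psq.comp (f := fun p : ℂ × ℂ => ((p.2, p.1) : ℂ × ℂ)) (by fun_prop) hswap
  have := Dg_ident h.ρ_pos h.ε_pos (slD_of_diff hd) (slD_of_diff h.diff_Psq)
    (fun x y hxy hxy' => by
      have h1 := h.real1 hxy hxy'
      rw [h.real2 hxy hxy'] at h1
      have h2 : ((y : ℂ) - x) ^ 3 ≠ 0 := by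
        apply pow_ne_zero
        rw [← Complex.ofReal_sub, Complex.ofReal_ne_zero]
        linarith
      exact mul_left_cancel₀ h2 h1) hp
  exact this

/-- reality -/
lemma Sml.conj (h : Sml q ρ C η ρ₀ ε₀) {x y : ℂ} (hp : (x, y) ∈ Dg ρ₀ ε₀) :
    Psq q (conj x, conj y) = conj (Psq q (x, y)) := by
  have hs := slD_of_diff h.diff_Psq
  have := Dg_ident h.ρ_pos h.ε_pos hs.reflect hs
    (fun x y hxy hxy' => by
      have h1 := h.real1 hxy hxy'
      have h3 : ((y : ℂ) - x) ≠ 0 := by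
        rw [← Complex.ofReal_sub, Complex.ofReal_ne_zero]
        linarith
      have h2 : Psq q (x, y) = ((4 * Mf q x y / (y - x) ^ 3 : ℝ) : ℂ) := by
        push_cast
        rw [eq_div_iff (pow_ne_zero 3 h3)]
        push_cast at h1
        rw [h1, mul_comm]
      simp only [Complex.conj_ofReal]
      rw [h2, Complex.conj_ofReal]) hp
  simp only at this
  rw [← this, starRingEnd_self_apply]

/-- **(T5)** `L` is a Lagrangian in the sense of part (B) -/
theorem Sml.isLag (h : Sml q ρ C η ρ₀ ε₀) : IsLag ρ₀ ε₀ (Lq q) (Psq q) where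
  ρ_pos := h.ρ_pos
  ε_pos := h.ε_pos
  diff := h.diff_Psq
  eq _ _ _ := rfl
  diag x _ := Psq_diag x
  symm _ _ hp := h.symm hp
  per _ _ hp := h.per_Psq hp
  real _ _ hp := h.conj hp
  bdd := ⟨4 * C, fun _ hp => h.norm_Psq hp⟩

lemma Sml.diff_Lq (h : Sml q ρ C η ρ₀ ε₀) : DifferentiableOn ℂ (Lq q) (Dg ρ₀ ε₀) := by
  have h1 : DifferentiableOn ℂ (fun p : ℂ × ℂ => (p.2 - p.1) ^ 3) (Dg ρ₀ ε₀) := by fun_prop
  exact h1.mul h.diff_Psq

/-- partial derivatives of `L` at real points -/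
lemma Sml.fderiv_Lq (h : Sml q ρ C η ρ₀ ε₀) {x y : ℝ} (hxy : x < y) (hxy' : y - x < ε₀) :
    B821.q2 (Lq q) (x, y) = 4 * Pq q y (-((y : ℂ) - x)) ∧
      B821.q1 (Lq q) (x, y) = -(4 * Pq q x ((y : ℂ) - x)) := by
  have he : 0 < y - x := by linarith
  have hmem := real_mem_Dg h (x := x) (y := y) (by rwa [abs_of_pos he])
  have hL : HasFDerivAt (Lq q) (fderiv ℂ (Lq q) (x, y)) ((x : ℂ), (y : ℂ)) :=
    (h.diff_Lq.differentiableAt ((isOpen_Dg ρ₀ ε₀).mem_nhds hmem)).hasFDerivAt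
  have hLr := hL.restrictScalars ℝ
  have hM := h.act.d x y hxy hxy'
  constructor
  · have h1 : HasDerivAt (fun t : ℝ => (((x : ℂ), (t : ℂ)) : ℂ × ℂ)) (0, 1) y := by
      refine (hasDerivAt_const y (x : ℂ)).prodMk ?_
      exact Complex.ofRealCLM.hasDerivAt
    have h2 := hLr.comp_hasDerivAt y h1
    have h3 : HasDerivAt (fun t : ℝ => ((x, t) : ℝ × ℝ)) (0, 1) y :=
      (hasDerivAt_const y x).prodMk (hasDerivAt_id y)
    have h4 := ((hM.comp_hasDerivAt y h3).const_mul 4).ofReal_comp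
    have hev : (Lq q ∘ fun t : ℝ => (((x : ℂ), (t : ℂ)) : ℂ × ℂ)) =ᶠ[𝓝 y]
        fun t : ℝ => ((4 * Mf q x t : ℝ) : ℂ) := by
      have e1 : ∀ᶠ t : ℝ in 𝓝 y, x < t := lt_mem_nhds hxy
      have e2 : ∀ᶠ t : ℝ in 𝓝 y, t < x + ε₀ := gt_mem_nhds (by linarith)
      filter_upwards [e1, e2] with t h5 h6
      rw [h.real1 h5 (by linarith)]
      rfl
    have h7 := h2.unique (h4.congr_of_eventuallyEq hev)
    have h5 := h.Pq_real y (-(y - x)) (by rw [abs_neg, abs_of_pos he]; exact hxy')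
    have e1 : ((-(y - x) : ℝ) : ℂ) = -((y : ℂ) - x) := by push_cast; ring
    rw [e1] at h5
    unfold B821.q2
    have h8 : (fderiv ℂ (Lq q) (x, y)) (0, 1) = ((fderiv ℂ (Lq q) (x, y)).restrictScalars ℝ) (0, 1) :=
      rfl
    rw [h8, h7]
    simp only [add_apply, smul_apply, ContinuousLinearMap.coe_fst',
      ContinuousLinearMap.coe_snd', smul_eq_mul, mul_zero, zero_add, mul_one]
    rw [Complex.ofReal_mul, h5]
    push_cast
    rfl
  · have h1 : HasDerivAt (fun t : ℝ => (((t : ℂ), (y : ℂ)) : ℂ × ℂ)) (1, 0) x := by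
      refine HasDerivAt.prodMk ?_ (hasDerivAt_const x (y : ℂ))
      exact Complex.ofRealCLM.hasDerivAt
    have h2 := hLr.comp_hasDerivAt x h1
    have h3 : HasDerivAt (fun t : ℝ => ((t, y) : ℝ × ℝ)) (1, 0) x :=
      (hasDerivAt_id x).prodMk (hasDerivAt_const x y)
    have h4 := ((hM.comp_hasDerivAt x h3).const_mul 4).ofReal_comp
    have hev : (Lq q ∘ fun t : ℝ => (((t : ℂ), (y : ℂ)) : ℂ × ℂ)) =ᶠ[𝓝 x]
        fun t : ℝ => ((4 * Mf q t y : ℝ) : ℂ) := by
      have e1 : ∀ᶠ t : ℝ in 𝓝 x, t < y := gt_mem_nhds hxy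
      have e2 : ∀ᶠ t : ℝ in 𝓝 x, y - ε₀ < t := lt_mem_nhds (by linarith)
      filter_upwards [e1, e2] with t h5 h6
      rw [h.real1 h5 (by linarith)]
      rfl
    have h7 := h2.unique (h4.congr_of_eventuallyEq hev)
    have h5 := h.Pq_real x (y - x) (by rw [abs_of_pos he]; exact hxy')
    have e1 : ((y - x : ℝ) : ℂ) = (y : ℂ) - x := by push_cast; ring
    rw [e1] at h5
    unfold B821.q1
    have h8 : (fderiv ℂ (Lq q) (x, y)) (1, 0) = ((fderiv ℂ (Lq q) (x, y)).restrictScalars ℝ) (1, 0) :=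
      rfl
    rw [h8, h7]
    simp only [add_apply, smul_apply, ContinuousLinearMap.coe_fst',
      ContinuousLinearMap.coe_snd', smul_eq_mul, mul_zero, add_zero, mul_one]
    rw [Complex.ofReal_mul, Complex.ofReal_neg, h5]
    push_cast
    ring

lemma Sml.EL_eq (h : Sml q ρ C η ρ₀ ε₀) {a b c : ℝ} (hab : a < b) (hab' : b - a < ε₀)
    (hbc : b < c) (hbc' : c - b < ε₀) : EL (Lq q) a b c = 4 * EP q a b c := by
  unfold EL EP
  rw [(h.fderiv_Lq hab hab').1, (h.fderiv_Lq hbc hbc').2]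
  ring

/-- **(T5)** `(R*)` for the Lagrangian -/
theorem Sml.rStar (h : Sml q ρ C η ρ₀ ε₀) {ε₁ : ℝ} (hε : ε₁ ≤ ε₀) (hR : RStarP q ε₁) :
    RStar (Lq q) ε₁ := by
  intro n j x hn hj hx hxn hlaw
  have h0 := hx 0 (by omega)
  have hl := hx (n - 1) (by omega)
  rw [Nat.sub_add_cancel hn, hxn] at hl
  rw [zero_add] at h0
  have h1 := hR n j x hn hj hx hxn (fun i hi hin => by
    have a1 := hx (i - 1) (by omega)
    have a2 := hx i hin
    rw [Nat.sub_add_cancel hi] at a1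
    have h2 := hlaw i hi hin
    rw [h.EL_eq (by linarith) (by linarith) (by linarith) (by linarith)] at h2
    exact (mul_eq_zero.1 h2).resolve_left (by norm_num))
  have e1 : ((x (n - 1) : ℂ) - j) = ((x (n - 1) - j : ℝ) : ℂ) := by push_cast; rfl
  rw [e1] at h1 ⊢
  rw [h.EL_eq (by linarith) (by linarith) (by linarith) (by linarith), h1, mul_zero]

lemma rStarP_mono {q : C(ℂ, ℂ)} {ε ε' : ℝ} (h : RStarP q ε) (hε : ε' ≤ ε) : RStarP q ε' :=
  fun n j x hn hj hx hxn hlaw =>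
    h n j x hn hj (fun i hi => ⟨(hx i hi).1, lt_of_lt_of_le (hx i hi).2 hε⟩) hxn hlaw

lemma EP_congr {q q' : C(ℂ, ℂ)} (h : ∀ x : ℝ, q' x = q x) (a b c : ℝ) :
    EP q' a b c = EP q a b c := by
  have e1 : -((b : ℂ) - a) = ((-(b - a) : ℝ) : ℂ) := by push_cast; ring
  have e2 : (c : ℂ) - b = ((c - b : ℝ) : ℂ) := by push_cast; ring
  unfold EP Pq
  rw [e1, e2, Xq_congr h, Xq_congr h]

lemma rStarP_congr {q q' : C(ℂ, ℂ)} {ε : ℝ} (h : RStarP q ε) (hq : ∀ x : ℝ, q' x = q x) :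
    RStarP q' ε := by
  intro n j x hn hj hx hxn hlaw
  have h1 := h n j x hn hj hx hxn (fun i hi hin => by rw [← EP_congr hq]; exact hlaw i hi hin)
  have e1 : ((x (n - 1) : ℂ) - j) = ((x (n - 1) - j : ℝ) : ℂ) := by push_cast; rfl
  rw [e1] at h1 ⊢
  rw [EP_congr hq]
  exact h1

/-- every strip carries the data `Sml` -/
theorem exists_sml (hd : DifferentiableOn ℂ q (Str η)) (hper : ∀ z ∈ Str η, q (z + 1) = q z)
    (hre : ∀ x : ℝ, (q x).im = 0) {ρ₀ : ℝ} (hρ₀ : 0 < ρ₀) (h : ρ₀ < η) :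
    ∃ ρ C ε₀ : ℝ, Sml q ρ C η ρ₀ ε₀ := by
  obtain ⟨ρ, C, hQ⟩ := exists_locQ
  obtain ⟨ε₀, hε₀, hs⟩ := exists_small_Str hd hper h hQ.ρ_pos
  exact ⟨ρ, C, ε₀, hQ, hρ₀, h, hε₀, hd, hper, hre, hs⟩

/-- **(T5)** summary: `q` holomorphic on a strip, real and 1-periodic, with `(R*)`. -/
theorem lag_of_q (hd : DifferentiableOn ℂ q (Str η)) (hper : ∀ z ∈ Str η, q (z + 1) = q z)
    (hre : ∀ x : ℝ, (q x).im = 0) {ε₁ : ℝ} (hε₁ : 0 < ε₁) (hR : RStarP q ε₁) {ρ₀ : ℝ}
    (hρ₀ : 0 < ρ₀) (h : ρ₀ < η) :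
    ∃ ε₀ ε₂ : ℝ, 0 < ε₂ ∧ IsLag ρ₀ ε₀ (Lq q) (Psq q) ∧ RStar (Lq q) ε₂ := by
  obtain ⟨ρ, C, ε₀, hS⟩ := exists_sml hd hper hre hρ₀ h
  exact ⟨ε₀, min ε₀ ε₁, lt_min hS.ε_pos hε₁, hS.isLag,
    hS.rStar (min_le_left _ _) (rStarP_mono hR (min_le_right _ _))⟩

end

end Crest.Agent.R102.T5
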