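import Crest.Agent.R102.GeoDefs_821
import Crest.Agent.R102.LiftA_785
import Crest.Agent.R102.Geo_821
import Crest.Prelude.Def_ConvexBilliard
import Crest.Agent.R102.Fol3_540_Mg
import Crest.Agent.R102.T5b_576
import Mathlib
import Crest.Agent.R102.KC_821
import Crest.Agent.R102.T5d_576_Mg
import Crest.Agent.R102.EndA_575

-- ▼ part R102/LiftB_785
section

/-!
Row 102, leaf T3l, part B: the circle of boundary points and the lift of the phase foliation.
-/

set_option autoImplicit false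

namespace Crest.Agent.R102.L785

open Set Filter Topology
open Crest.AnalysisR.Billiard Crest.Agent.R102.S0

/-- values of `γ` agree iff the parameters agree mod `P`. -/
theorem gamma_eq_iff {C : Set (ℝ × ℝ)} {γ : ℝ → ℝ × ℝ} {P : ℝ} (h : IsSmoothClosedCurve γ P C)
    {s t : ℝ} : γ s = γ t ↔ ∃ n : ℤ, t = s + n * P := by
  obtain ⟨hP, -, hper, hinj, -, -⟩ := h
  constructor
  · intro hst
    have : Fact (0 < P) := ⟨hP⟩
    -- reduce both to `[0,P)`
    have h1 : γ (toIcoMod hP 0 s) = γ s := by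
      have := toIcoMod_add_toIcoDiv_zsmul hP 0 s
      conv_rhs => rw [← this]
      exact (hper.zsmul _ _).symm
    have h2 : γ (toIcoMod hP 0 t) = γ t := by
      have := toIcoMod_add_toIcoDiv_zsmul hP 0 t
      conv_rhs => rw [← this]
      exact (hper.zsmul _ _).symm
    have m1 : toIcoMod hP 0 s ∈ Ico 0 P := by simpa using toIcoMod_mem_Ico hP 0 s
    have m2 : toIcoMod hP 0 t ∈ Ico 0 P := by simpa using toIcoMod_mem_Ico hP 0 t
    have h3 := hinj m1 m2 (by rw [h1, h2, hst])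
    have h4 := toIcoMod_add_toIcoDiv_zsmul hP 0 s
    have h5 := toIcoMod_add_toIcoDiv_zsmul hP 0 t
    refine ⟨toIcoDiv hP 0 t - toIcoDiv hP 0 s, ?_⟩
    simp only [zsmul_eq_mul] at h4 h5
    push_cast
    rw [h3] at h4
    linarith
  · rintro ⟨n, rfl⟩
    have := hper.zsmul n s
    rw [zsmul_eq_mul] at this
    exact this.symm

theorem table_homeo {Ω : Set (ℝ × ℝ)} {γ : ℝ → ℝ × ℝ} {P : ℝ} (h : IsTable Ω γ P) :
    ∃ e : AddCircle P ≃ₜ frontier Ω, ∀ s : ℝ, ((e (s : AddCircle P) : frontier Ω) : ℝ × ℝ) = γ s := by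
  have hc := h.2.2.2.2.1
  have hP : 0 < P := hc.1
  have hper : Function.Periodic γ P := hc.2.2.1
  have hγc : Continuous γ := hc.2.1.continuous
  have hr : range γ = frontier Ω := hc.2.2.2.2.2
  have : Fact (0 < P) := ⟨hP⟩
  let f : AddCircle P → frontier Ω := fun t => ⟨hper.lift t, by
    obtain ⟨s, rfl⟩ := exists_rep P t
    rw [← hr]
    exact ⟨s, rfl⟩⟩
  have hf : Continuous f := by
    refine Continuous.subtype_mk ?_ _
    exact continuous_coinduced_dom.2 hγc
  have hbij : Function.Bijective f := by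
    constructor
    · intro a b hab
      obtain ⟨s, rfl⟩ := exists_rep P a
      obtain ⟨t, rfl⟩ := exists_rep P b
      have : γ s = γ t := congrArg Subtype.val hab
      obtain ⟨n, hn⟩ := (gamma_eq_iff hc).1 this
      exact (coe_eq_iff P).2 ⟨n, hn⟩
    · rintro ⟨z, hz⟩
      rw [← hr] at hz
      obtain ⟨s, rfl⟩ := hz
      exact ⟨(s : AddCircle P), rfl⟩
  refine ⟨Continuous.homeoOfEquivCompactToT2 (f := Equiv.ofBijective f hbij) hf, fun s => rfl⟩

/-- Lift of an invariant phase foliation. -/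
theorem lift_foliation {Ω : Set (ℝ × ℝ)} {γ : ℝ → ℝ × ℝ} {P : ℝ} (h : IsTable Ω γ P)
    {U : Set ((ℝ × ℝ) × ℝ)} (hUs : U ⊆ phaseSpace Ω) {O : Set ((ℝ × ℝ) × ℝ)} (hO : IsOpen O)
    (hUO : U = O ∩ phaseSpace Ω) {η : ℝ} (hη : 0 < η) (hηU : {x | x ∈ phaseSpace Ω ∧ x.2 < η} ⊆ U)
    (H : UnitAddCircle × Ioo (0 : ℝ) 1 ≃ₜ U) :
    ∃ κ : AA → ℝ × ℝ, IsOpenEmbedding κ ∧ (∀ b x, κ (b, x + 1) = κ (b, x) + (P, 0)) ∧
      (∀ z : ℝ × ℝ, z ∈ range κ ↔ (γ z.1, z.2) ∈ U) ∧
      (∀ (b : Ioo (0:ℝ) 1) (y : (ℝ × ℝ) × ℝ),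
        (∃ x, (γ (κ (b, x)).1, (κ (b, x)).2) = y) ↔
          ∃ θ : UnitAddCircle, ((H (θ, b) : U) : (ℝ × ℝ) × ℝ) = y) := by
  obtain ⟨e, he⟩ := table_homeo h
  have hP : 0 < P := h.2.2.2.2.1.1
  set W : Set (AddCircle P × ℝ) := {w | (((e w.1 : frontier Ω) : ℝ × ℝ), w.2) ∈ U} with hWdef
  have hW : IsOpen W := by
    have : W = (fun w : AddCircle P × ℝ => (((e w.1 : frontier Ω) : ℝ × ℝ), w.2)) ⁻¹' O ∩
        Prod.snd ⁻¹' (Ioo 0 Real.pi) := by
      ext w
      simp only [hWdef, hUO, phaseSpace, mem_setOf_eq, mem_inter_iff, mem_preimage]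
      constructor
      · rintro ⟨h1, -, h3⟩
        exact ⟨h1, h3⟩
      · rintro ⟨h1, h3⟩
        exact ⟨h1, (e w.1).2, h3⟩
    rw [this]
    refine (hO.preimage (by fun_prop)).inter (isOpen_Ioo.preimage continuous_snd)
  let Φ : U ≃ₜ W :=
    { toFun := fun u => ⟨(e.symm ⟨u.1.1, (hUs u.2).1⟩, u.1.2), by
        simp only [hWdef, mem_setOf_eq, Homeomorph.apply_symm_apply]
        exact u.2⟩
      invFun := fun w => ⟨(((e w.1.1 : frontier Ω) : ℝ × ℝ), w.1.2), w.2⟩
      left_inv := by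
        rintro ⟨⟨p, δ⟩, hu⟩
        simp
      right_inv := by
        rintro ⟨⟨t, δ⟩, hw⟩
        simp
      continuous_toFun := by
        refine Continuous.subtype_mk ?_ _
        refine Continuous.prodMk (e.symm.continuous.comp (Continuous.subtype_mk ?_ _)) ?_ <;>
        fun_prop
      continuous_invFun := by
        refine Continuous.subtype_mk ?_ _
        fun_prop }
  set δ₀ : ℝ := min (η / 2) (Real.pi / 2) with hδ₀
  have hπ := Real.pi_pos
  have hδ : ∀ t : AddCircle P, (t, δ₀) ∈ W := by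
    intro t
    have h1 : 0 < δ₀ := lt_min (by linarith) (by linarith)
    have h2 : δ₀ < η := (min_le_left _ _).trans_lt (by linarith)
    have h3 : δ₀ < Real.pi := (min_le_right _ _).trans_lt (by linarith)
    exact hηU ⟨⟨(e t).2, h1, h3⟩, h2⟩
  obtain ⟨κ, k1, k2, k3, k4⟩ := lift_main hP hW (H.trans Φ) hδ
  -- dictionary
  have hdict : ∀ (z : ℝ × ℝ), (((e (qq P z).1 : frontier Ω) : ℝ × ℝ), (qq P z).2) = (γ z.1, z.2) := by
    intro z
    simp only [qq, he]
  refine ⟨κ, k1, k2, ?_, ?_⟩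
  · intro z
    rw [k3]
    simp only [mem_setOf_eq, hWdef, hdict]
  · intro b y
    constructor
    · rintro ⟨x, rfl⟩
      obtain ⟨θ, hθ⟩ := (k4 b (qq P (κ (b, x)))).1 ⟨x, rfl⟩
      refine ⟨θ, ?_⟩
      have h1 : H (θ, b) = Φ.symm ⟨qq P (κ (b, x)), by rw [← hθ]; exact ((H.trans Φ) (θ, b)).2⟩ := by
        rw [Homeomorph.eq_symm_apply]
        exact Subtype.ext hθ
      rw [h1]
      exact hdict _
    · rintro ⟨θ, rfl⟩
      obtain ⟨x, hx⟩ := (k4 b ((H.trans Φ) (θ, b) : AddCircle P × ℝ)).2 ⟨θ, rfl⟩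
      refine ⟨x, ?_⟩
      rw [← hdict, hx]
      exact congrArg Subtype.val (Φ.symm_apply_apply (H (θ, b)))

end Crest.Agent.R102.L785
end

-- ▼ part R102/LiftC_785
section

/-!
Row 102, leaf T3l, part C: chord angles, and the billiard map in terms of pairs.
-/

set_option autoImplicit false

namespace Crest.Agent.R102.L785

open Set Filter Topology
open Crest.AnalysisR.Billiard Crest.Agent.R102.S0

/-- speed. -/
noncomputable def nn (γ : ℝ → ℝ × ℝ) (s : ℝ) : ℝ := Real.sqrt (dot (deriv γ s) (deriv γ s))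

/-- outgoing angle at `s` of the chord `(s, s')`. -/
noncomputable def ang (γ : ℝ → ℝ × ℝ) (s s' : ℝ) : ℝ := Real.arccos (p1 γ s s' / nn γ s)

/-- outgoing angle at `s'` after reflection of the chord `(s, s')`. -/
noncomputable def ang2 (γ : ℝ → ℝ × ℝ) (s s' : ℝ) : ℝ := Real.arccos (p2 γ s s' / nn γ s')

section
variable {Ω : Set (ℝ × ℝ)} {γ : ℝ → ℝ × ℝ} {P : ℝ}

lemma nn_pos (h : IsTable Ω γ P) (s : ℝ) : 0 < nn γ s :=
  Real.sqrt_pos.mpr (dot_self_pos (tbl_ne h s))

lemma nn_sq (s : ℝ) : nn γ s ^ 2 = dot (deriv γ s) (deriv γ s) :=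
  Real.sq_sqrt (dot_self_nonneg _)

lemma c1_abs (h : IsTable Ω γ P) {s s' : ℝ} (h1 : s < s') (h2 : s' < s + P) :
    |p1 γ s s' / nn γ s| < 1 := by
  rw [abs_div, abs_of_pos (nn_pos h s), div_lt_one (nn_pos h s)]
  exact p1_abs_lt h h1 h2

lemma c2_abs (h : IsTable Ω γ P) {s s' : ℝ} (h1 : s < s') (h2 : s' < s + P) :
    |p2 γ s s' / nn γ s'| < 1 := by
  rw [abs_div, abs_of_pos (nn_pos h s'), div_lt_one (nn_pos h s')]
  exact p2_abs_lt h h1 h2

lemma ang_mem (h : IsTable Ω γ P) {s s' : ℝ} (h1 : s < s') (h2 : s' < s + P) :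
    ang γ s s' ∈ Ioo 0 Real.pi := by
  have := abs_lt.1 (c1_abs h h1 h2)
  exact ⟨Real.arccos_pos.2 this.2, Real.arccos_lt_pi.2 this.1⟩

lemma ang2_mem (h : IsTable Ω γ P) {s s' : ℝ} (h1 : s < s') (h2 : s' < s + P) :
    ang2 γ s s' ∈ Ioo 0 Real.pi := by
  have := abs_lt.1 (c2_abs h h1 h2)
  exact ⟨Real.arccos_pos.2 this.2, Real.arccos_lt_pi.2 this.1⟩

lemma cos_ang (h : IsTable Ω γ P) {s s' : ℝ} (h1 : s < s') (h2 : s' < s + P) :
    Real.cos (ang γ s s') = p1 γ s s' / nn γ s := by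
  have := abs_lt.1 (c1_abs h h1 h2)
  exact Real.cos_arccos this.1.le this.2.le

lemma cos_ang2 (h : IsTable Ω γ P) {s s' : ℝ} (h1 : s < s') (h2 : s' < s + P) :
    Real.cos (ang2 γ s s') = p2 γ s s' / nn γ s' := by
  have := abs_lt.1 (c2_abs h h1 h2)
  exact Real.cos_arccos this.1.le this.2.le

lemma sin_arccos_aux {c d n l : ℝ} (hn : 0 < n) (hl : 0 < l) (hd : 0 < d)
    (hcd : c ^ 2 + d ^ 2 = n ^ 2 * l ^ 2) :
    Real.sin (Real.arccos (c / l / n)) = d / (n * l) := by
  rw [Real.sin_arccos]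
  have h1 : 1 - (c / l / n) ^ 2 = (d / (n * l)) ^ 2 := by
    field_simp
    linarith
  rw [h1]
  exact Real.sqrt_sq (by positivity)

lemma sin_ang (h : IsTable Ω γ P) {s s' : ℝ} (h1 : s < s') (h2 : s' < s + P) :
    Real.sin (ang γ s s') = det2 (deriv γ s) (γ s' - γ s) / (nn γ s * len γ s s') := by
  refine sin_arccos_aux (nn_pos h s) (len_pos h h1 h2) (tbl_tan_pos h h1 h2) ?_
  rw [nn_sq, len_sq]
  exact dot_sq_add_det_sq _ _

lemma sin_ang2 (h : IsTable Ω γ P) {s s' : ℝ} (h1 : s < s') (h2 : s' < s + P) :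
    Real.sin (ang2 γ s s') = det2 (γ s' - γ s) (deriv γ s') / (nn γ s' * len γ s s') := by
  refine sin_arccos_aux (nn_pos h s') (len_pos h h1 h2) (tbl_tan_pos' h h1 h2) ?_
  rw [nn_sq, len_sq, det2_neg_swap]
  have := dot_sq_add_det_sq (deriv γ s') (γ s' - γ s)
  linarith

lemma outDir_ang (h : IsTable Ω γ P) {s s' : ℝ} (h1 : s < s') (h2 : s' < s + P) :
    outDir γ s (ang γ s s') = (1 / len γ s s') • (γ s' - γ s) := by
  have hn := nn_pos h s
  have hl := len_pos h h1 h2
  have hn2 : nn γ s ^ 2 = (deriv γ s).1 * (deriv γ s).1 + (deriv γ s).2 * (deriv γ s).2 := nn_sq s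
  rw [outDir, cos_ang h h1 h2, sin_ang h h1 h2]
  have hu : unitTangent γ s = (1 / nn γ s) • deriv γ s := rfl
  rw [hu]
  refine Prod.ext ?_ ?_
  · simp only [p1, dot, det2, perp, Prod.fst_add, Prod.smul_fst, Prod.smul_snd, smul_eq_mul,
      Prod.fst_sub, Prod.snd_sub]
    field_simp
    rw [hn2]
    ring
  · simp only [p1, dot, det2, perp, Prod.snd_add, Prod.smul_fst, Prod.smul_snd, smul_eq_mul,
      Prod.fst_sub, Prod.snd_sub]
    field_simp
    rw [hn2]
    ring

/-- pairs give billiard steps. -/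
lemma isNextHit_pair (h : IsTable Ω γ P) {s s' : ℝ} (h1 : s < s') (h2 : s' < s + P) :
    IsNextHit Ω γ (γ s, ang γ s s') (γ s', ang2 γ s s') := by
  have hl := len_pos h h1 h2
  have hn := nn_pos h s'
  refine ⟨⟨tbl_mem_frontier h s, ang_mem h h1 h2⟩, ⟨tbl_mem_frontier h s', ang2_mem h h1 h2⟩,
    s, s', len γ s s', rfl, rfl, hl, ?_, ?_, ?_⟩
  · simp only
    rw [outDir_ang h h1 h2, smul_smul, mul_one_div_cancel hl.ne', one_smul]
    abel
  · simp only
    rw [outDir_ang h h1 h2, cos_ang2 h h1 h2]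
    have hu : unitTangent γ s' = (1 / nn γ s') • deriv γ s' := rfl
    rw [hu]
    simp only [p2, dot, Prod.smul_fst, Prod.smul_snd, smul_eq_mul, Prod.fst_sub, Prod.snd_sub]
    field_simp
  · simp only
    rw [outDir_ang h h1 h2, sin_ang2 h h1 h2]
    have hu : unitTangent γ s' = (1 / nn γ s') • deriv γ s' := rfl
    rw [hu]
    simp only [det2, dot, perp, Prod.smul_fst, Prod.smul_snd, smul_eq_mul, Prod.fst_sub,
      Prod.snd_sub]
    field_simp
    ring

lemma exists_ang (h : IsTable Ω γ P) (s : ℝ) {δ : ℝ} (hδ : δ ∈ Ioo 0 Real.pi) :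
    ∃ s', s < s' ∧ s' < s + P ∧ ang γ s s' = δ := by
  have hn := nn_pos h s
  have hc : |Real.cos δ| < 1 := by
    rw [abs_lt]
    constructor
    · have := Real.cos_lt_cos_of_nonneg_of_le_pi hδ.1.le le_rfl hδ.2
      rwa [Real.cos_pi] at this
    · have := Real.cos_lt_cos_of_nonneg_of_le_pi le_rfl hδ.2.le hδ.1
      rwa [Real.cos_zero] at this
  obtain ⟨t, ht1, ht2, ht3⟩ := exists_p1_eq h s (nn γ s * Real.cos δ) (by
    rw [abs_mul, abs_of_pos hn]
    change _ < nn γ s
    nlinarith)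
  refine ⟨t, ht1, ht2, ?_⟩
  rw [ang, ht3, mul_div_cancel_left₀ _ hn.ne']
  exact Real.arccos_cos hδ.1.le hδ.2.le

lemma ang_strictMono (h : IsTable Ω γ P) (s : ℝ) : StrictMonoOn (ang γ s) (Ioo s (s + P)) := by
  intro a ha b hb hab
  have h1 := p1_strictAnti h s ha hb hab
  have h2 := abs_lt.1 (c1_abs h ha.1 ha.2)
  have h3 := abs_lt.1 (c1_abs h hb.1 hb.2)
  exact Real.strictAntiOn_arccos ⟨h3.1.le, h3.2.le⟩ ⟨h2.1.le, h2.2.le⟩
    (div_lt_div_of_pos_right h1 (nn_pos h s))

lemma ang2_inj (h : IsTable Ω γ P) {s' a b : ℝ} (ha : a < s') (ha' : s' < a + P)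
    (hb : b < s') (hb' : s' < b + P) (hab : ang2 γ a s' = ang2 γ b s') : a = b := by
  have h2 := abs_lt.1 (c2_abs h ha ha')
  have h3 := abs_lt.1 (c2_abs h hb hb')
  have h4 := Real.arccos_injOn ⟨h2.1.le, h2.2.le⟩ ⟨h3.1.le, h3.2.le⟩ hab
  have h5 := (div_left_inj' (nn_pos h s').ne').1 h4
  exact (p2_strictMono h s').injOn ⟨by linarith, ha⟩ ⟨by linarith, hb⟩ h5

lemma refl_of_ang (h : IsTable Ω γ P) {s s' s'' : ℝ} (h1 : s < s') (h2 : s' < s + P)
    (h3 : s' < s'') (h4 : s'' < s' + P) (he : ang γ s' s'' = ang2 γ s s') :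
    p2 γ s s' = p1 γ s' s'' := by
  have a2 := abs_lt.1 (c1_abs h h3 h4)
  have a3 := abs_lt.1 (c2_abs h h1 h2)
  have a4 := Real.arccos_injOn ⟨a2.1.le, a2.2.le⟩ ⟨a3.1.le, a3.2.le⟩ he
  exact ((div_left_inj' (nn_pos h s').ne').1 a4).symm

lemma nn_per (h : IsTable Ω γ P) (s : ℝ) : nn γ (s + P) = nn γ s := by
  simp only [nn]; rw [tbl_deriv_per h]

lemma ang_per (h : IsTable Ω γ P) (s s' : ℝ) : ang γ (s + P) (s' + P) = ang γ s s' := by
  simp only [ang]; rw [nn_per h, (twistData_of_isTable h).per1]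

lemma ang2_per (h : IsTable Ω γ P) (s s' : ℝ) : ang2 γ (s + P) (s' + P) = ang2 γ s s' := by
  simp only [ang2]; rw [nn_per h, (twistData_of_isTable h).per2]

lemma continuous_nn (h : IsTable Ω γ P) : Continuous (nn γ) := by
  have h0 := tbl_deriv_cont h
  unfold nn dot
  fun_prop

lemma isOpen_Pairs (P : ℝ) : IsOpen (Pairs P) :=
  (isOpen_lt continuous_fst continuous_snd).inter
    (isOpen_lt continuous_snd (continuous_fst.add continuous_const))

lemma continuousOn_ang (h : IsTable Ω γ P) :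
    ContinuousOn (fun z : ℝ × ℝ => ang γ z.1 z.2) (Pairs P) := by
  have h1 := continuousOn_p1 h
  have h2 : Continuous (fun z : ℝ × ℝ => nn γ z.1) := (continuous_nn h).comp continuous_fst
  exact Real.continuous_arccos.comp_continuousOn
    (h1.div h2.continuousOn fun z _ => (nn_pos h z.1).ne')

lemma continuousOn_ang2 (h : IsTable Ω γ P) :
    ContinuousOn (fun z : ℝ × ℝ => ang2 γ z.1 z.2) (Pairs P) := by
  have h1 := continuousOn_p2 h
  have h2 : Continuous (fun z : ℝ × ℝ => nn γ z.2) := (continuous_nn h).comp continuous_snd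
  exact Real.continuous_arccos.comp_continuousOn
    (h1.div h2.continuousOn fun z _ => (nn_pos h z.2).ne')

/-- short chords have small angles, locally uniformly. -/
lemma ang_small_local (h : IsTable Ω γ P) {η : ℝ} (hη : 0 < η) (s₀ : ℝ) :
    ∀ᶠ z : ℝ × ℝ in 𝓝 (0, s₀), 0 < z.1 → ang γ z.2 (z.2 + z.1) < η := by
  have hstr : HasStrictDerivAt γ (deriv γ s₀) s₀ :=
    ((tbl_smooth h).contDiffAt).hasStrictDerivAt (by simp)
  -- slopes
  have h1 : Tendsto (fun z : ℝ × ℝ => (z.1)⁻¹ • (γ (z.2 + z.1) - γ z.2))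
      (𝓝 (0, s₀) ⊓ 𝓟 {z | 0 < z.1}) (𝓝 (deriv γ s₀)) := by
    have h2 : Tendsto (fun z : ℝ × ℝ => (z.2 + z.1, z.2)) (𝓝 ((0 : ℝ), s₀)) (𝓝 (s₀, s₀)) := by
      have : Continuous (fun z : ℝ × ℝ => (z.2 + z.1, z.2)) := by fun_prop
      have h3 := this.tendsto (0, s₀)
      simpa using h3
    have h4 := hstr.hasStrictFDerivAt.isLittleO.comp_tendsto h2
    simp only [Function.comp_def] at h4
    rw [tendsto_iff_norm_sub_tendsto_zero]
    rw [Asymptotics.isLittleO_iff] at h4
    rw [Metric.tendsto_nhds]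
    intro ε hε
    have h5 := h4 (half_pos hε)
    rw [eventually_inf_principal]
    filter_upwards [h5] with z hz hz0
    have hz0' : (0:ℝ) < z.1 := hz0
    have e1 : (z.1)⁻¹ • (γ (z.2 + z.1) - γ z.2) - deriv γ s₀
        = (z.1)⁻¹ • (γ (z.2 + z.1) - γ z.2 - z.1 • deriv γ s₀) := by
      rw [smul_sub _ (γ (z.2 + z.1) - γ z.2), smul_smul, inv_mul_cancel₀ hz0'.ne', one_smul]
    rw [dist_zero_right, norm_norm, e1, norm_smul, norm_inv, Real.norm_of_nonneg hz0'.le]
    have e2 : z.2 + z.1 - z.2 = z.1 := by ring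
    simp only [e2, ContinuousLinearMap.toSpanSingleton_apply, Real.norm_of_nonneg hz0'.le] at hz
    rw [inv_mul_lt_iff₀ hz0']
    calc _ ≤ ε / 2 * z.1 := hz
      _ < z.1 * ε := by nlinarith
  have h6 : Tendsto (fun z : ℝ × ℝ => p1 γ z.2 (z.2 + z.1) / nn γ z.2)
      (𝓝 (0, s₀) ⊓ 𝓟 {z | 0 < z.1}) (𝓝 1) := by
    have hd : Tendsto (fun z : ℝ × ℝ => deriv γ z.2) (𝓝 (0, s₀) ⊓ 𝓟 {z | 0 < z.1})
        (𝓝 (deriv γ s₀)) := by
      have : Continuous (fun z : ℝ × ℝ => deriv γ z.2) := (tbl_deriv_cont h).comp continuous_snd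
      exact (this.tendsto (0, s₀)).mono_left inf_le_left
    have hdot : Tendsto (fun z : ℝ × ℝ => dot (deriv γ z.2)
        ((z.1)⁻¹ • (γ (z.2 + z.1) - γ z.2))) (𝓝 (0, s₀) ⊓ 𝓟 {z | 0 < z.1})
        (𝓝 (dot (deriv γ s₀) (deriv γ s₀))) :=
      (continuous_dot.tendsto _).comp (hd.prodMk_nhds h1)
    have hsq : Tendsto (fun z : ℝ × ℝ => Real.sqrt (dot ((z.1)⁻¹ • (γ (z.2 + z.1) - γ z.2))
        ((z.1)⁻¹ • (γ (z.2 + z.1) - γ z.2)))) (𝓝 (0, s₀) ⊓ 𝓟 {z | 0 < z.1})
        (𝓝 (nn γ s₀)) :=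
      (Real.continuous_sqrt.tendsto _).comp ((continuous_dot.tendsto _).comp (h1.prodMk_nhds h1))
    have hnn : Tendsto (fun z : ℝ × ℝ => nn γ z.2) (𝓝 (0, s₀) ⊓ 𝓟 {z | 0 < z.1})
        (𝓝 (nn γ s₀)) := by
      have : Continuous (fun z : ℝ × ℝ => nn γ z.2) := (continuous_nn h).comp continuous_snd
      exact (this.tendsto (0, s₀)).mono_left inf_le_left
    have hq := (hdot.div hsq (nn_pos h s₀).ne').div hnn (nn_pos h s₀).ne'
    have e3 : dot (deriv γ s₀) (deriv γ s₀) / nn γ s₀ / nn γ s₀ = 1 := by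
      have := nn_sq (γ := γ) s₀
      have hp := nn_pos h s₀
      rw [← this]; field_simp
    rw [e3] at hq
    refine hq.congr' ?_
    rw [EventuallyEq, eventually_inf_principal]
    refine Eventually.of_forall fun z hz => ?_
    have hz' : (0:ℝ) < (z.1)⁻¹ := inv_pos.2 hz
    have := dirq_smul_pos (deriv γ z.2) (γ (z.2 + z.1) - γ z.2) hz'
    simp only [Pi.div_apply]
    rw [p1_eq_dirq, ← this]
    rfl
  have h7 : Tendsto (fun z : ℝ × ℝ => ang γ z.2 (z.2 + z.1))
      (𝓝 (0, s₀) ⊓ 𝓟 {z | 0 < z.1}) (𝓝 0) := by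
    have := (Real.continuous_arccos.tendsto 1).comp h6
    rwa [Real.arccos_one] at this
  have h8 := h7.eventually (gt_mem_nhds hη)
  rwa [eventually_inf_principal] at h8

/-- short chords have small angles, uniformly. -/
lemma ang_small (h : IsTable Ω γ P) {η : ℝ} (hη : 0 < η) :
    ∃ ε > 0, ε ≤ P ∧ ∀ s s', s < s' → s' < s + ε → ang γ s s' < η := by
  have hP := tbl_P h
  have h1 := (isCompact_Icc (a := (0:ℝ)) (b := P)).eventually_forall_of_forall_eventually
    (x₀ := (0:ℝ)) (P := fun t s => 0 < t → ang γ s (s + t) < η)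
    (fun s₀ _ => ang_small_local h hη s₀)
  obtain ⟨ε, hε, hb⟩ := Metric.eventually_nhds_iff.1 h1
  refine ⟨min ε P, lt_min hε hP, min_le_right _ _, ?_⟩
  intro s s' hs hs'
  -- reduce `s` to `[0,P]`
  obtain ⟨m, hm, -⟩ := existsUnique_sub_zsmul_mem_Ico hP s 0
  rw [zero_add] at hm
  have hper : ∀ (m : ℤ) (a b : ℝ), ang γ (a - m • P) (b - m • P) = ang γ a b := by
    intro m
    induction m using Int.induction_on with
    | zero => simp
    | succ i ih =>
      intro a b
      rw [← ang_per h, ← ih a b]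
      congr 1 <;> (simp only [zsmul_eq_mul]; push_cast; ring)
    | pred i ih =>
      intro a b
      have e := ang_per h (a - (-(i : ℤ)) • P) (b - (-(i : ℤ)) • P)
      rw [ih] at e
      rw [← e]
      congr 1 <;> (simp only [zsmul_eq_mul]; push_cast; ring)
  have ht : dist (s' - s) 0 < ε := by
    rw [dist_zero_right, Real.norm_of_nonneg (by linarith)]
    have := min_le_left ε P
    linarith
  have h2 := hb ht (s - m • P) ⟨hm.1, hm.2.le⟩ (by linarith)
  have e : s - m • P + (s' - s) = s' - m • P := by ring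
  rw [e, hper] at h2
  exact h2

end

/-- continuity of a root of a family of strictly monotone functions. -/
theorem continuous_of_root {Z : Type*} [TopologicalSpace Z] {f : Z → ℝ → ℝ}
    {c r lo hi : Z → ℝ} (hlo : Continuous lo) (hhi : Continuous hi) (hc : Continuous c)
    (hr : ∀ z, lo z < r z ∧ r z < hi z) (hroot : ∀ z, f z (r z) = c z)
    (hmono : ∀ z, StrictMonoOn (f z) (Ioo (lo z) (hi z)))
    (hf : ∀ z t, lo z < t → t < hi z → ContinuousAt (fun w => f w t) z) : Continuous r := by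
  rw [continuous_iff_continuousAt]
  intro z₀
  obtain ⟨hr1, hr2⟩ := hr z₀
  rw [ContinuousAt, tendsto_order]
  constructor
  · intro u hu
    set u' := max u ((lo z₀ + r z₀) / 2) with hu'
    have h1 : u' < r z₀ := max_lt hu (by linarith)
    have h2 : lo z₀ < u' := lt_of_lt_of_le (by linarith) (le_max_right _ _)
    have h3 : u' < hi z₀ := h1.trans hr2
    have h4 : f z₀ u' < c z₀ := by
      rw [← hroot]; exact hmono z₀ ⟨h2, h3⟩ ⟨hr1, hr2⟩ h1
    have h5 : ∀ᶠ z in 𝓝 z₀, f z u' < c z := (hf z₀ u' h2 h3).eventually_lt hc.continuousAt h4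
    have h6 : ∀ᶠ z in 𝓝 z₀, lo z < u' := hlo.continuousAt.eventually_lt_const h2
    have h7 : ∀ᶠ z in 𝓝 z₀, u' < hi z := hhi.continuousAt.eventually_const_lt h3
    filter_upwards [h5, h6, h7] with z e5 e6 e7
    by_contra hcon
    push Not at hcon
    have e8 : r z ≤ u' := hcon.trans (le_max_left _ _)
    have e9 := (hmono z).monotoneOn (hr z) ⟨e6, e7⟩ e8
    rw [hroot] at e9
    exact absurd e9 (not_le.2 e5)
  · intro u hu
    set u' := min u ((hi z₀ + r z₀) / 2) with hu'
    have h1 : r z₀ < u' := lt_min hu (by linarith)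
    have h2 : u' < hi z₀ := lt_of_le_of_lt (min_le_right _ _) (by linarith)
    have h3 : lo z₀ < u' := hr1.trans h1
    have h4 : c z₀ < f z₀ u' := by
      rw [← hroot]; exact hmono z₀ ⟨hr1, hr2⟩ ⟨h3, h2⟩ h1
    have h5 : ∀ᶠ z in 𝓝 z₀, c z < f z u' := hc.continuousAt.eventually_lt (hf z₀ u' h3 h2) h4
    have h6 : ∀ᶠ z in 𝓝 z₀, lo z < u' := hlo.continuousAt.eventually_lt_const h3
    have h7 : ∀ᶠ z in 𝓝 z₀, u' < hi z := hhi.continuousAt.eventually_const_lt h2
    filter_upwards [h5, h6, h7] with z e5 e6 e7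
    by_contra hcon
    push Not at hcon
    have e8 : u' ≤ r z := (min_le_left _ _).trans hcon
    have e9 := (hmono z).monotoneOn ⟨e6, e7⟩ (hr z) e8
    rw [hroot] at e9
    exact absurd e9 (not_le.2 e5)

end Crest.Agent.R102.L785
end

-- ▼ part R102/Lift_785
section

/-!
Row 102, leaf T3l: an invariant phase foliation gives `FolData`.
-/

set_option autoImplicit false

namespace Crest.Agent.R102.L785

open Set Filter Topology
open Crest.AnalysisR.Billiard Crest.Agent.R102.S0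

section
variable {Ω : Set (ℝ × ℝ)} {γ : ℝ → ℝ × ℝ} {P : ℝ}

/-- The data of the lift, before turning `(0,1)` into a subset. -/
structure PreFol (P : ℝ) (q1 q2 : ℝ → ℝ → ℝ) (ρ : AA → ℝ × ℝ) (G : AA → ℝ) : Prop where
  emb : IsOpenEmbedding ρ
  pair : ∀ a, ρ a ∈ Pairs P
  per : ∀ b x, ρ (b, x + 1) = ρ (b, x) + (P, P)
  contG : Continuous G
  perG : ∀ b x, G (b, x + 1) = G (b, x) + 1
  injG : ∀ b, Function.Injective fun x => G (b, x)
  next : ∀ a : AA, (ρ (a.1, G a)).1 = (ρ a).2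
  refl : ∀ a : AA, q2 (ρ a).1 (ρ a).2 = q1 (ρ (a.1, G a)).1 (ρ (a.1, G a)).2
  cover : ∃ ε > 0, ∀ s s', s < s' → s' < s + ε → ∃ a, ρ a = (s, s')

theorem exists_preFol (h : IsTable Ω γ P) (hf : HasInvariantPhaseFoliation Ω γ) :
    ∃ ρ G, PreFol P (p1 γ) (p2 γ) ρ G := by
  obtain ⟨U, hUs, ⟨O, hO, hUO⟩, ⟨η, hη, hηU⟩, -, H, hH⟩ := hf
  obtain ⟨κ, k1, k2, k3, k4⟩ := lift_foliation h hUs hO hUO hη hηU H
  have hP := tbl_P h
  have k2m : ∀ (b : Ioo (0:ℝ) 1) (x : ℝ) (k : ℤ), κ (b, x + k) = κ (b, x) + (k * P, 0) := by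
    intro b x k
    induction k using Int.induction_on with
    | zero => simp
    | succ i ih =>
      have := k2 b (x + i)
      push_cast at ih ⊢
      rw [← add_assoc, this, ih]
      refine Prod.ext ?_ ?_
      · simp only [Prod.fst_add]; ring
      · simp only [Prod.snd_add]; ring
    | pred i ih =>
      have := k2 b (x + (-(i:ℤ) - 1 : ℤ))
      push_cast at ih this ⊢
      have e : x + (-(i:ℝ) - 1) + 1 = x + -(i:ℝ) := by ring
      rw [e, ih] at this
      have e1 := congrArg Prod.fst this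
      have e2 := congrArg Prod.snd this
      simp only [Prod.fst_add, Prod.snd_add] at e1 e2
      refine Prod.ext ?_ ?_
      · simp only [Prod.fst_add]; linarith
      · simp only [Prod.snd_add]; linarith
  have hU : ∀ a, (γ (κ a).1, (κ a).2) ∈ U := fun a => (k3 (κ a)).1 ⟨a, rfl⟩
  have hδ : ∀ a, (κ a).2 ∈ Ioo 0 Real.pi := fun a => (hUs (hU a)).2
  -- next boundary parameter
  choose E hE1 hE2 hE3 using fun a : AA => exists_ang h (κ a).1 (hδ a)
  set ρ : AA → ℝ × ℝ := fun a => ((κ a).1, E a) with hρ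
  have hρp : ∀ a, ρ a ∈ Pairs P := fun a => ⟨hE1 a, hE2 a⟩
  have hEc : Continuous E := by
    have hκ1 : Continuous fun a => (κ a).1 := continuous_fst.comp k1.continuous
    refine continuous_of_root (f := fun a t => ang γ (κ a).1 t) (c := fun a => (κ a).2)
      (lo := fun a => (κ a).1) (hi := fun a => (κ a).1 + P) hκ1 (hκ1.add continuous_const)
      (continuous_snd.comp k1.continuous) (fun a => ⟨hE1 a, hE2 a⟩) hE3
      (fun a => ang_strictMono h _) ?_
    intro a t h1 h2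
    have h3 : ContinuousAt (fun z : ℝ × ℝ => ang γ z.1 z.2) ((κ a).1, t) :=
      (continuousOn_ang h).continuousAt ((isOpen_Pairs P).mem_nhds ⟨h1, h2⟩)
    have h4 : ContinuousAt (fun w : AA => ((κ w).1, t)) a :=
      (hκ1.prodMk continuous_const).continuousAt
    exact ContinuousAt.comp (f := fun w : AA => ((κ w).1, t)) h3 h4
  have hρc : Continuous ρ := (continuous_fst.comp k1.continuous).prodMk hEc
  have hρκ : ∀ a a', ρ a = ρ a' → κ a = κ a' := by
    intro a a' haa
    have h1 : (κ a).1 = (κ a').1 := (Prod.ext_iff.1 haa).1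
    have h2 : E a = E a' := (Prod.ext_iff.1 haa).2
    refine Prod.ext h1 ?_
    rw [← hE3 a, ← hE3 a', h1, h2]
  have hκρ : ∀ a a', κ a = κ a' → ρ a = ρ a' := fun a a' haa => by rw [k1.injective haa]
  have hρinj : Function.Injective ρ := fun a a' haa => k1.injective (hρκ a a' haa)
  have hρopen : IsOpenMap ρ := by
    intro V hV
    have h1 : ρ '' V = Pairs P ∩ (fun z : ℝ × ℝ => (z.1, ang γ z.1 z.2)) ⁻¹' (κ '' V) := by
      ext z
      constructor
      · rintro ⟨a, ha, rfl⟩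
        refine ⟨hρp a, ⟨a, ha, ?_⟩⟩
        refine Prod.ext rfl ?_
        exact (hE3 a).symm
      · rintro ⟨hz, a, ha, hza⟩
        refine ⟨a, ha, ?_⟩
        have e1 : (κ a).1 = z.1 := (Prod.ext_iff.1 hza).1
        have e2 : (κ a).2 = ang γ z.1 z.2 := (Prod.ext_iff.1 hza).2
        refine Prod.ext e1 ?_
        refine (ang_strictMono h z.1).injOn ⟨?_, ?_⟩ ⟨hz.1, hz.2⟩ ?_
        · rw [← e1]; exact hE1 a
        · rw [← e1]; exact hE2 a
        · change ang γ z.1 (E a) = _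
          rw [← e2, ← hE3 a, e1]
    rw [h1]
    refine ContinuousOn.isOpen_inter_preimage ?_ (isOpen_Pairs P) (k1.isOpenMap V hV)
    exact continuous_fst.continuousOn.prodMk (continuousOn_ang h)
  have hemb : IsOpenEmbedding ρ :=
    .of_continuous_injective_isOpenMap hρc hρinj hρopen
  -- leaf map
  have hleaf : ∀ a : AA, ∃ y : ℝ, κ (a.1, y) = (E a, ang2 γ (κ a).1 (E a)) := by
    rintro ⟨b, x⟩
    obtain ⟨-, hinv, -⟩ := hH b
    obtain ⟨θ, hθ⟩ := (k4 b (γ (κ (b, x)).1, (κ (b, x)).2)).1 ⟨x, rfl⟩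
    have h1 := isNextHit_pair h (hE1 (b, x)) (hE2 (b, x))
    rw [hE3] at h1
    obtain ⟨θ', hθ'⟩ := hinv _ ⟨θ, hθ⟩ _ h1
    obtain ⟨x', hx'⟩ := (k4 b _).2 ⟨θ', hθ'⟩
    have e1 : γ (κ (b, x')).1 = γ (E (b, x)) := congrArg Prod.fst hx'
    have e2 : (κ (b, x')).2 = ang2 γ (κ (b, x)).1 (E (b, x)) := congrArg Prod.snd hx'
    obtain ⟨m, hm⟩ := tbl_inj_mod h e1
    refine ⟨x' + m, ?_⟩
    rw [k2m]
    refine Prod.ext ?_ ?_
    · simp only [Prod.fst_add]; exact hm.symm
    · simp only [Prod.snd_add, add_zero]; exact e2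
  choose G hG using hleaf
  have hGc : Continuous G := by
    have h1 : Continuous (fun a : AA => ((a.1, G a) : AA)) := by
      rw [k1.isInducing.continuous_iff]
      have h2 : (κ ∘ fun a : AA => ((a.1, G a) : AA)) =
          fun a => (E a, ang2 γ (κ a).1 (E a)) := by
        funext a; exact hG a
      rw [h2]
      refine hEc.prodMk ?_
      have h3 : (fun a => ang2 γ (κ a).1 (E a)) = (fun z : ℝ × ℝ => ang2 γ z.1 z.2) ∘ ρ := rfl
      rw [h3]
      exact (continuousOn_ang2 h).comp_continuous hρc hρp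
    exact continuous_snd.comp h1
  have hEper : ∀ b x, E (b, x + 1) = E (b, x) + P := by
    intro b x
    have h1 := k2 b x
    have e1 : (κ (b, x + 1)).1 = (κ (b, x)).1 + P := by rw [h1]; rfl
    have e2 : (κ (b, x + 1)).2 = (κ (b, x)).2 := by rw [h1]; simp
    have h3 := hE1 (b, x + 1)
    have h4 := hE2 (b, x + 1)
    have h5 := hE1 (b, x)
    have h6 := hE2 (b, x)
    rw [e1] at h3 h4
    refine (ang_strictMono h ((κ (b, x)).1 + P)).injOn ⟨h3, h4⟩ ⟨by linarith, by linarith⟩ ?_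
    rw [ang_per h, hE3, ← e1, hE3, e2]
  have hρper : ∀ b x, ρ (b, x + 1) = ρ (b, x) + (P, P) := by
    intro b x
    refine Prod.ext ?_ ?_
    · simp only [hρ, Prod.fst_add]; rw [k2 b x]; rfl
    · simp only [hρ, Prod.snd_add]; exact hEper b x
  have hGper : ∀ b x, G (b, x + 1) = G (b, x) + 1 := by
    intro b x
    have h1 := hG (b, x + 1)
    have h2 := hG (b, x)
    have h3 := k2 b (G (b, x))
    simp only at h1 h2
    rw [h2] at h3
    have h4 : κ (b, G (b, x + 1)) = κ (b, G (b, x) + 1) := by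
      rw [h1, h3, hEper]
      refine Prod.ext ?_ ?_
      · simp
      · simp only [Prod.snd_add, add_zero]
        rw [k2 b x]
        simp only [Prod.fst_add]
        exact ang2_per h _ _
    have h5 := k1.injective h4
    exact congrArg Prod.snd h5
  have hnext : ∀ a : AA, (ρ (a.1, G a)).1 = (ρ a).2 := by
    intro a
    simp only [hρ]
    rw [hG]
  have hang : ∀ a : AA, ang γ (ρ (a.1, G a)).1 (ρ (a.1, G a)).2 = ang2 γ (ρ a).1 (ρ a).2 := by
    intro a
    simp only [hρ]
    rw [hE3, hG]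
  obtain ⟨ε, hε, -, hsm⟩ := ang_small h hη
  refine ⟨ρ, G, hemb, hρp, hρper, hGc, hGper, ?_, hnext, ?_, ⟨min ε P, lt_min hε hP, ?_⟩⟩
  · intro b x y hxy
    have h1 := hG (b, x)
    have h2 := hG (b, y)
    simp only at h1 h2 hxy
    rw [hxy, h2] at h1
    have e1 : E (b, y) = E (b, x) := congrArg Prod.fst h1
    have e2 : ang2 γ (κ (b, y)).1 (E (b, y)) = ang2 γ (κ (b, x)).1 (E (b, x)) :=
      congrArg Prod.snd h1
    have h3 := hE1 (b, x)
    have h4 := hE2 (b, x)
    have h5 := hE1 (b, y)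
    have h6 := hE2 (b, y)
    rw [e1] at e2 h5 h6
    have e3 := ang2_inj h h5 h6 h3 h4 e2
    have h7 : ρ (b, y) = ρ (b, x) := Prod.ext e3 e1
    have h8 := hρinj h7
    exact (congrArg Prod.snd h8).symm
  · intro a
    have h1 := hρp a
    have h2 := hρp (a.1, G a)
    have h3 := hang a
    have h4 := hnext a
    rw [h4]
    have h2a := h2.1
    have h2b := h2.2
    rw [h4] at h2a h2b h3
    exact refl_of_ang h h1.1 h1.2 h2a h2b h3
  · intro s s' hs hs'
    have hs'1 : s' < s + ε := by linarith [min_le_left ε P]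
    have hs'2 : s' < s + P := by linarith [min_le_right ε P]
    have h1 := hsm s s' hs hs'1
    have h2 : (γ s, ang γ s s') ∈ U := hηU ⟨⟨tbl_mem_frontier h s, ang_mem h hs hs'2⟩, h1⟩
    obtain ⟨a, ha⟩ := (k3 (s, ang γ s s')).2 h2
    refine ⟨a, ?_⟩
    have e1 : (κ a).1 = s := congrArg Prod.fst ha
    have e2 : (κ a).2 = ang γ s s' := congrArg Prod.snd ha
    refine Prod.ext e1 ?_
    have h3 := hE1 a
    have h4 := hE2 a
    have h5 := hE3 a
    rw [e1] at h3 h4 h5
    rw [e2] at h5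
    exact (ang_strictMono h s).injOn ⟨h3, h4⟩ ⟨hs, hs'2⟩ h5

/-- a function of `(b, x)`, `b ∈ (0,1)`, extended by zero. -/
noncomputable def ext0 (f : AA → ℝ) (b x : ℝ) : ℝ :=
  open Classical in if hb : b ∈ Ioo (0:ℝ) 1 then f (⟨b, hb⟩, x) else 0

lemma ext0_of {f : AA → ℝ} {b : ℝ} (hb : b ∈ Ioo (0:ℝ) 1) (x : ℝ) :
    ext0 f b x = f (⟨b, hb⟩, x) := dif_pos hb

lemma ext0_cont {f : AA → ℝ} (hf : Continuous f) :
    ContinuousOn (fun z : ℝ × ℝ => ext0 f z.1 z.2) (Ioo 0 1 ×ˢ univ) := by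
  rw [continuousOn_iff_continuous_domRestrict]
  have h1 : ((Ioo (0:ℝ) 1) ×ˢ univ).domRestrict (fun z : ℝ × ℝ => ext0 f z.1 z.2) =
      f ∘ fun z : ((Ioo (0:ℝ) 1) ×ˢ (univ : Set ℝ) : Set (ℝ × ℝ)) =>
        ((⟨z.1.1, z.2.1⟩, z.1.2) : AA) := by
    funext z
    exact ext0_of z.2.1 _
  rw [h1]
  refine hf.comp (Continuous.prodMk (Continuous.subtype_mk ?_ _) ?_) <;> fun_prop

theorem folData_of_preFol {q1 q2 : ℝ → ℝ → ℝ} {ρ : AA → ℝ × ℝ} {G : AA → ℝ}
    (h : PreFol P q1 q2 ρ G) :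
    FolData P q1 q2 (ext0 fun a => (ρ a).1) (ext0 G) := by
  have hc1 : Continuous fun a => (ρ a).1 := continuous_fst.comp h.emb.continuous
  have key : ∀ b ∈ Ioo (0:ℝ) 1, StrictMono (ext0 G b) := by
    intro b hb
    have e : ext0 G b = fun x => G (⟨b, hb⟩, x) := funext fun x => ext0_of hb x
    have hcont : Continuous fun x => G (⟨b, hb⟩, x) :=
      h.contG.comp (continuous_const.prodMk continuous_id)
    rw [e]
    rcases hcont.strictMono_of_inj (h.injG _) with h1 | h1
    · exact h1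
    · exfalso
      have h2 := h1 (show (0:ℝ) < 0 + 1 by norm_num)
      simp only [h.perG] at h2
      linarith
  have hnxt : ∀ b (hb : b ∈ Ioo (0:ℝ) 1) (x : ℝ),
      ext0 (fun a => (ρ a).1) b (ext0 G b x) = (ρ (⟨b, hb⟩, x)).2 := by
    intro b hb x
    rw [ext0_of hb, ext0_of hb]
    exact h.next (⟨b, hb⟩, x)
  refine ⟨ext0_cont hc1, ext0_cont h.contG, ?_, ?_, key, ?_, ?_, ?_, ?_, ?_, ?_, ?_⟩
  · intro b hb x
    rw [ext0_of hb, ext0_of hb, h.per]; rfl
  · intro b hb x
    rw [ext0_of hb, ext0_of hb, h.perG]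
  · intro b hb y
    have hcont : Continuous (ext0 G b) := by
      have e : ext0 G b = fun x => G (⟨b, hb⟩, x) := funext fun x => ext0_of hb x
      rw [e]
      exact h.contG.comp (continuous_const.prodMk continuous_id)
    have hper : ∀ (x : ℝ) (k : ℤ), ext0 G b (x + k) = ext0 G b x + k := by
      intro x k
      induction k using Int.induction_on with
      | zero => simp
      | succ i ih =>
        push_cast at ih ⊢
        rw [← add_assoc, ext0_of (f := G) hb, h.perG, ← ext0_of (f := G) hb, ih]; ring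
      | pred i ih =>
        have := h.perG ⟨b, hb⟩ (x + (-(i:ℤ) - 1 : ℤ))
        rw [← ext0_of (f := G) hb, ← ext0_of (f := G) hb] at this
        push_cast at ih this ⊢
        have e : x + (-(i:ℝ) - 1) + 1 = x + -(i:ℝ) := by ring
        rw [e, ih] at this
        linarith
    set n : ℤ := ⌊y - ext0 G b 0⌋ with hn
    have h1 : ext0 G b (0 + n) ≤ y := by
      rw [hper]; have := Int.floor_le (y - ext0 G b 0); linarith
    have h2 : y ≤ ext0 G b (0 + (n + 1 : ℤ)) := by
      rw [hper]; have := Int.lt_floor_add_one (y - ext0 G b 0); push_cast; linarith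
    have h3 : (0 + (n : ℝ)) ≤ 0 + ((n + 1 : ℤ) : ℝ) := by push_cast; linarith
    obtain ⟨x, -, hx⟩ := intermediate_value_Icc h3 hcont.continuousOn ⟨h1, h2⟩
    exact ⟨x, hx⟩
  · intro b hb x
    rw [hnxt b hb, ext0_of hb]
    exact (h.pair (⟨b, hb⟩, x)).1
  · intro b hb x
    rw [hnxt b hb, ext0_of hb]
    exact (h.pair (⟨b, hb⟩, x)).2
  · intro b hb x
    rw [hnxt b hb, hnxt b hb, ext0_of hb, ext0_of hb]
    have h1 := h.refl (⟨b, hb⟩, x)
    have h2 := h.next (⟨b, hb⟩, x)
    simp only at h1 h2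
    rw [h2] at h1
    exact h1
  · intro b hb b' hb' x x' h1 h2
    rw [hnxt b hb, hnxt b' hb'] at h2
    rw [ext0_of hb, ext0_of hb'] at h1
    have h3 := h.emb.injective (Prod.ext h1 h2)
    simp only [Prod.mk.injEq, Subtype.mk.injEq] at h3
    exact h3
  · intro O hO hOs
    have h1 : (fun z : ℝ × ℝ => (ext0 (fun a => (ρ a).1) z.1 z.2,
        ext0 (fun a => (ρ a).1) z.1 (ext0 G z.1 z.2))) '' O =
        ρ '' ((fun a : AA => ((a.1 : ℝ), a.2)) ⁻¹' O) := by
      ext w
      constructor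
      · rintro ⟨⟨b, x⟩, hz, rfl⟩
        have hb : b ∈ Ioo (0:ℝ) 1 := (hOs hz).1
        refine ⟨(⟨b, hb⟩, x), hz, ?_⟩
        simp only
        rw [hnxt b hb, ext0_of hb]
      · rintro ⟨⟨⟨b, hb⟩, x⟩, hz, rfl⟩
        refine ⟨(b, x), hz, ?_⟩
        simp only
        rw [hnxt b hb, ext0_of hb]
    rw [h1]
    exact h.emb.isOpenMap _ (hO.preimage (by fun_prop))
  · obtain ⟨ε, hε, hc⟩ := h.cover
    refine ⟨ε, hε, fun s s' hs hs' => ?_⟩
    obtain ⟨⟨⟨b, hb⟩, x⟩, ha⟩ := hc s s' hs hs'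
    refine ⟨b, hb, x, ?_, ?_⟩
    · rw [ext0_of hb, ha]
    · rw [hnxt b hb, ha]

/-- **T3l**: an invariant phase foliation lifts to foliation data. -/
theorem folData_of_foliation (h : IsTable Ω γ P) (hf : HasInvariantPhaseFoliation Ω γ) :
    ∃ S g, FolData P (p1 γ) (p2 γ) S g := by
  obtain ⟨ρ, G, hG⟩ := exists_preFol h hf
  exact ⟨_, _, folData_of_preFol hG⟩

end

end Crest.Agent.R102.L785
end

-- ▼ part R102/T2a_849
section

/-!
Row 102, leaf (T2) of S0_821 (helper849), part a: support functions of the caustics of a collar,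
nestedness of the caustics.
-/

set_option autoImplicit false

open Set Filter Topology
open Crest.AnalysisR.Billiard

noncomputable section

namespace Crest.Agent.R102.T2


lemma dot_add (e v w : ℝ × ℝ) : dot e (v + w) = dot e v + dot e w := by
  simp [dot]; ring


lemma dot_smul (e v : ℝ × ℝ) (c : ℝ) : dot e (c • v) = c * dot e v := by
  simp [dot]; ring

lemma smul_dot (e v : ℝ × ℝ) (c : ℝ) : dot (c • e) v = c * dot e v := by
  simp [dot]; ring

lemma neg_dot (e v : ℝ × ℝ) : dot (-e) v = -dot e v := by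
  simp [dot]; ring

lemma zero_dot (v : ℝ × ℝ) : dot 0 v = 0 := by
  simp [dot]

lemma dot_self_pos {e : ℝ × ℝ} (he : e ≠ 0) : 0 < dot e e := by
  unfold dot
  rcases lt_or_eq_of_le (add_nonneg (mul_self_nonneg e.1) (mul_self_nonneg e.2)) with h | h
  · exact h
  · exfalso
    apply he
    have h1 : e.1 * e.1 = 0 := by
      have := mul_self_nonneg e.1; have := mul_self_nonneg e.2; linarith
    have h2 : e.2 * e.2 = 0 := by
      have := mul_self_nonneg e.1; have := mul_self_nonneg e.2; linarith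
    exact Prod.ext (mul_self_eq_zero.mp h1) (mul_self_eq_zero.mp h2)

lemma continuous_dot : Continuous fun p : (ℝ × ℝ) × (ℝ × ℝ) => dot p.1 p.2 := by
  unfold dot
  fun_prop

/-- a continuous linear functional on the plane is a `dot` -/
lemma clm_eq_dot (f : (ℝ × ℝ) →L[ℝ] ℝ) : ∃ e : ℝ × ℝ, ∀ v, f v = dot e v := by
  refine ⟨(f (1, 0), f (0, 1)), fun v => ?_⟩
  have : v = v.1 • ((1 : ℝ), (0 : ℝ)) + v.2 • ((0 : ℝ), (1 : ℝ)) := by
    ext <;> simp
  conv_lhs => rw [this]
  rw [map_add, map_smul, map_smul]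
  simp [dot]
  ring

/-- the maximum of a nonzero linear functional on a compact set is attained on the frontier -/
lemma exists_max_frontier {K : Set (ℝ × ℝ)} (hK : IsCompact K) (hne : K.Nonempty) {e : ℝ × ℝ}
    (he : e ≠ 0) : ∃ z ∈ frontier K, ∀ y ∈ K, dot e y ≤ dot e z := by
  have hc : Continuous fun z : ℝ × ℝ => dot e z :=
    continuous_dot.comp (continuous_const.prodMk continuous_id)
  obtain ⟨z, hz, hmax⟩ := hK.exists_isMaxOn hne hc.continuousOn
  refine ⟨z, ⟨subset_closure hz, fun hzi => ?_⟩, fun y hy => hmax hy⟩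
  have hcont : Continuous fun t : ℝ => z + t • e := by fun_prop
  have h0 : (fun t : ℝ => z + t • e) 0 ∈ interior K := by simpa using hzi
  have hev : ∀ᶠ t in 𝓝 (0 : ℝ), z + t • e ∈ interior K :=
    hcont.continuousAt.eventually_mem (isOpen_interior.mem_nhds h0)
  obtain ⟨ε, hε, hball⟩ := Metric.eventually_nhds_iff.1 hev
  have h1 : z + (ε / 2) • e ∈ interior K := hball (by
    rw [Real.dist_eq]; rw [sub_zero, abs_of_pos (by linarith)]; linarith)
  have h2 := hmax (interior_subset h1)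
  simp only [mem_ofPred_eq] at h2
  rw [dot_add, dot_smul] at h2
  have := mul_pos (half_pos hε) (dot_self_pos he)
  linarith

/-- a maximiser over `K` of a nonzero functional lies on the frontier -/
lemma mem_frontier_of_max {K : Set (ℝ × ℝ)} {e z : ℝ × ℝ} (he : e ≠ 0) (hz : z ∈ K)
    (hmax : ∀ y ∈ K, dot e y ≤ dot e z) : z ∈ frontier K := by
  refine ⟨subset_closure hz, fun hzi => ?_⟩
  have hcont : Continuous fun t : ℝ => z + t • e := by fun_prop
  have h0 : (fun t : ℝ => z + t • e) 0 ∈ interior K := by simpa using hzi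
  have hev : ∀ᶠ t in 𝓝 (0 : ℝ), z + t • e ∈ interior K :=
    hcont.continuousAt.eventually_mem (isOpen_interior.mem_nhds h0)
  obtain ⟨ε, hε, hball⟩ := Metric.eventually_nhds_iff.1 hev
  have h1 : z + (ε / 2) • e ∈ interior K := hball (by
    rw [Real.dist_eq]; rw [sub_zero, abs_of_pos (by linarith)]; linarith)
  have h2 := hmax _ (interior_subset h1)
  rw [dot_add, dot_smul] at h2
  have := mul_pos (half_pos hε) (dot_self_pos he)
  linarith

/-- separation: if `z` satisfies all the support inequalities of the closed convex `K`, `z ∈ K` -/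
lemma mem_of_dot_le {K : Set (ℝ × ℝ)} (hK : IsClosed K) (hc : Convex ℝ K) {z : ℝ × ℝ}
    (h : ∀ e : ℝ × ℝ, ∃ y ∈ K, dot e z ≤ dot e y) : z ∈ K := by
  by_contra hz
  obtain ⟨f, u, hfu, huf⟩ := geometric_hahn_banach_closed_point hc hK hz
  obtain ⟨e, he⟩ := clm_eq_dot f
  obtain ⟨y, hy, hle⟩ := h e
  have h1 := hfu y hy
  rw [he] at h1 huf
  linarith

/-- from a point of a bounded open set one reaches the frontier in every direction -/
lemma exists_frontier_ray {Ω : Set (ℝ × ℝ)} (ho : IsOpen Ω) (hb : Bornology.IsBounded Ω)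
    {z e : ℝ × ℝ} (hz : z ∈ Ω) (he : e ≠ 0) : ∃ t : ℝ, 0 < t ∧ z + t • e ∈ frontier Ω := by
  have hcont : Continuous fun t : ℝ => z + t • e := by fun_prop
  set S : Set ℝ := {t | 0 ≤ t ∧ z + t • e ∉ Ω} with hS
  have hSc : IsClosed S := by
    have h1 : IsClosed {t : ℝ | 0 ≤ t} := isClosed_le continuous_const continuous_id
    have h2 : IsClosed {t : ℝ | z + t • e ∉ Ω} := (ho.preimage hcont).isClosed_compl
    exact h1.inter h2
  have hSne : S.Nonempty := by
    obtain ⟨R, hR⟩ := hb.exists_norm_le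
    have hen : 0 < ‖e‖ := norm_pos_iff.mpr he
    have hzR : ‖z‖ ≤ R := hR z hz
    have hz0 : 0 ≤ ‖z‖ := norm_nonneg z
    have hR0 : 0 ≤ R := hz0.trans hzR
    refine ⟨(‖z‖ + R + 1) / ‖e‖, ?_, fun hmem => ?_⟩
    · positivity
    · have h1 := hR _ hmem
      have h2 : ‖((‖z‖ + R + 1) / ‖e‖) • e‖ = ‖z‖ + R + 1 := by
        rw [norm_smul, Real.norm_of_nonneg (by positivity)]
        field_simp
      have h3 : ‖((‖z‖ + R + 1) / ‖e‖) • e‖ ≤ ‖z + ((‖z‖ + R + 1) / ‖e‖) • e‖ + ‖z‖ := by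
        have := norm_sub_le (z + ((‖z‖ + R + 1) / ‖e‖) • e) z
        simpa using this
      linarith
  have hSb : BddBelow S := ⟨0, fun t ht => ht.1⟩
  have hmem : sInf S ∈ S := hSc.csInf_mem hSne hSb
  have hpos : 0 < sInf S := by
    rcases lt_or_eq_of_le hmem.1 with h | h
    · exact h
    · exfalso
      apply hmem.2
      rw [← h]
      simpa using hz
  refine ⟨sInf S, hpos, ?_⟩
  rw [ho.frontier_eq]
  refine ⟨?_, hmem.2⟩
  -- points before sInf S are in Ω
  have h1 : ∀ t ∈ Ico 0 (sInf S), z + t • e ∈ Ω := by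
    intro t ht
    by_contra hc
    exact absurd (csInf_le hSb ⟨ht.1, hc⟩) (not_le.mpr ht.2)
  have h2 : sInf S ∈ closure (Ico 0 (sInf S)) := by
    rw [closure_Ico hpos.ne]
    exact ⟨hpos.le, le_rfl⟩
  exact map_mem_closure (f := fun t : ℝ => z + t • e) hcont h2 h1

/-- the collar data used below -/
structure Collar (Ω : Set (ℝ × ℝ)) (γ : ℝ → ℝ × ℝ) (G : UnitAddCircle × ℝ → ℝ × ℝ) : Prop where
  cont : Continuous G
  inj : ∀ (θ θ' : UnitAddCircle) (x x' : ℝ), x ∈ Icc (0 : ℝ) (1 / 2) → x' ∈ Icc (0 : ℝ) (1 / 2) →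
    G (θ, x) = G (θ', x') → x = x'
  zero : range (fun θ : UnitAddCircle => G (θ, 0)) = frontier Ω
  caustic : ∀ x ∈ Ioc (0 : ℝ) (1 / 2), IsCaustic Ω γ (range fun θ : UnitAddCircle => G (θ, x))

/-- the clamp `ℝ → [0, 1/2] ⊆ [0, 1)` -/
def clamp (x : ℝ) : Ico (0 : ℝ) 1 :=
  ⟨max 0 (min x (1 / 2)), le_max_left _ _, by
    refine max_lt (by norm_num) (lt_of_le_of_lt (min_le_right _ _) (by norm_num))⟩

lemma continuous_clamp : Continuous clamp := by
  unfold clamp
  exact Continuous.subtype_mk (by fun_prop) _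

lemma clamp_of_mem {x : ℝ} (hx : x ∈ Icc (0 : ℝ) (1 / 2)) : ((clamp x : Ico (0 : ℝ) 1) : ℝ) = x := by
  unfold clamp
  simp only
  rw [min_eq_left hx.2, max_eq_right hx.1]

lemma exists_collar {Ω : Set (ℝ × ℝ)} {γ : ℝ → ℝ × ℝ} (h : HasCausticCollar Ω γ) :
    ∃ G : UnitAddCircle × ℝ → ℝ × ℝ, Collar Ω γ G := by
  obtain ⟨A, -, -, -, H, h0, hC⟩ := h
  refine ⟨fun p => ((H (p.1, clamp p.2) : A) : ℝ × ℝ), ?_, ?_, ?_, ?_⟩
  · have : Continuous fun p : UnitAddCircle × ℝ => (p.1, clamp p.2) :=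
      continuous_fst.prodMk (continuous_clamp.comp continuous_snd)
    exact continuous_subtype_val.comp (H.continuous.comp this)
  · intro θ θ' x x' hx hx' he
    have h1 := H.injective (Subtype.ext he)
    have h2 : clamp x = clamp x' := (Prod.ext_iff.1 h1).2
    rw [← clamp_of_mem hx, ← clamp_of_mem hx', h2]
  · rw [← h0]
    ext z
    constructor
    · rintro ⟨θ, rfl⟩
      exact ⟨θ, clamp 0, clamp_of_mem (by norm_num), rfl⟩
    · rintro ⟨θ, b, hb, rfl⟩
      refine ⟨θ, ?_⟩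
      have : clamp 0 = b := by
        apply Subtype.ext
        rw [clamp_of_mem (by norm_num), hb]
      simp only [this]
  · intro x hx
    have h1 := hC (clamp x) (by rw [clamp_of_mem ⟨hx.1.le, hx.2⟩]; exact hx.1)
    exact h1

section
variable {Ω : Set (ℝ × ℝ)} {γ : ℝ → ℝ × ℝ} {G : UnitAddCircle × ℝ → ℝ × ℝ}

/-- the support function of the circle at height `x` -/
def hs (G : UnitAddCircle × ℝ → ℝ × ℝ) (x : ℝ) (e : ℝ × ℝ) : ℝ :=
  sSup ((fun θ : UnitAddCircle => dot e (G (θ, x))) '' univ)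

lemma hs_cont (hG : Continuous G) : Continuous fun p : ℝ × (ℝ × ℝ) => hs G p.1 p.2 := by
  unfold hs
  refine IsCompact.continuous_sSup (f := fun (p : ℝ × (ℝ × ℝ)) (θ : UnitAddCircle) =>
    dot p.2 (G (θ, p.1))) isCompact_univ ?_
  have : Continuous fun q : (ℝ × (ℝ × ℝ)) × UnitAddCircle => dot q.1.2 (G (q.2, q.1.1)) :=
    continuous_dot.comp ((continuous_snd.comp continuous_fst).prodMk
      (hG.comp (continuous_snd.prodMk (continuous_fst.comp continuous_fst))))
  exact this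

lemma slice_cont (hG : Continuous G) (x : ℝ) (e : ℝ × ℝ) :
    Continuous fun θ : UnitAddCircle => dot e (G (θ, x)) :=
  continuous_dot.comp (continuous_const.prodMk (hG.comp (continuous_id.prodMk continuous_const)))

lemma le_hs (hG : Continuous G) (x : ℝ) (e : ℝ × ℝ) (θ : UnitAddCircle) :
    dot e (G (θ, x)) ≤ hs G x e := by
  unfold hs
  exact le_csSup (isCompact_univ.bddAbove_image (slice_cont hG x e).continuousOn)
    ⟨θ, mem_univ _, rfl⟩

lemma exists_hs (hG : Continuous G) (x : ℝ) (e : ℝ × ℝ) :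
    ∃ θ : UnitAddCircle, dot e (G (θ, x)) = hs G x e := by
  obtain ⟨θ, -, hθ⟩ := (isCompact_univ (X := UnitAddCircle)).exists_sSup_image_eq
    ⟨0, mem_univ _⟩ (slice_cont hG x e).continuousOn
  exact ⟨θ, hθ.symm⟩

lemma hs_smul (hG : Continuous G) (x : ℝ) (e : ℝ × ℝ) {c : ℝ} (hc : 0 ≤ c) :
    hs G x (c • e) = c * hs G x e := by
  apply le_antisymm
  · obtain ⟨θ, hθ⟩ := exists_hs hG x (c • e)
    rw [← hθ, smul_dot]
    exact mul_le_mul_of_nonneg_left (le_hs hG x e θ) hc
  · obtain ⟨θ, hθ⟩ := exists_hs hG x e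
    rw [← hθ, ← smul_dot]
    exact le_hs hG x _ θ

/-- the convex body bounded by the caustic at height `x` -/
structure Body (Ω : Set (ℝ × ℝ)) (γ : ℝ → ℝ × ℝ) (G : UnitAddCircle × ℝ → ℝ × ℝ) (x : ℝ)
    (K : Set (ℝ × ℝ)) : Prop where
  cpt : IsCompact K
  conv : Convex ℝ K
  ne : (interior K).Nonempty
  sub : K ⊆ Ω
  fr : frontier K = range fun θ : UnitAddCircle => G (θ, x)
  refl : ∀ (s : ℝ) (v : ℝ × ℝ), v ≠ 0 → Touches K (γ s) v →
    Touches K (γ s) (reflect (perp (deriv γ s)) v)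

lemma Collar.body (h : Collar Ω γ G) {x : ℝ} (hx : x ∈ Ioc (0 : ℝ) (1 / 2)) :
    ∃ K, Body Ω γ G x K := by
  obtain ⟨-, K, h1, h2, h3, h4, h5, h6⟩ := h.caustic x hx
  exact ⟨K, h1, h2.convex, h3, h4, h5, h6⟩

lemma Body.nonempty {x : ℝ} {K : Set (ℝ × ℝ)} (h : Body Ω γ G x K) : K.Nonempty :=
  h.ne.mono interior_subset

lemma Body.mem_G {x : ℝ} {K : Set (ℝ × ℝ)} (h : Body Ω γ G x K) (θ : UnitAddCircle) :
    G (θ, x) ∈ K := by
  have : G (θ, x) ∈ frontier K := by rw [h.fr]; exact ⟨θ, rfl⟩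
  exact h.cpt.isClosed.frontier_subset this

lemma Body.le_hs {x : ℝ} {K : Set (ℝ × ℝ)} (h : Body Ω γ G x K) (hG : Continuous G) (e : ℝ × ℝ)
    {z : ℝ × ℝ} (hz : z ∈ K) : dot e z ≤ hs G x e := by
  by_cases he : e = 0
  · subst he
    rw [zero_dot]
    have := Crest.Agent.R102.T2.le_hs hG x 0 0
    rwa [zero_dot] at this
  · obtain ⟨y, hy, hmax⟩ := exists_max_frontier h.cpt h.nonempty he
    rw [h.fr] at hy
    obtain ⟨θ, rfl⟩ := hy
    exact (hmax z hz).trans (Crest.Agent.R102.T2.le_hs hG x e θ)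

/-- at height `0` the support function is strictly bigger than that of any point of `Ω` -/
lemma Collar.lt_zero (h : Collar Ω γ G) (ho : IsOpen Ω) (hb : Bornology.IsBounded Ω)
    {z e : ℝ × ℝ} (hz : z ∈ Ω) (he : e ≠ 0) : dot e z < hs G 0 e := by
  obtain ⟨t, ht, hf⟩ := exists_frontier_ray ho hb hz he
  rw [← h.zero] at hf
  obtain ⟨θ, hθ⟩ := hf
  have h1 := le_hs h.cont 0 e θ
  have h2 : dot e (G (θ, 0)) = dot e z + t * dot e e := by
    have : G (θ, 0) = z + t • e := hθ
    rw [this, dot_add, dot_smul]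
  have := mul_pos ht (dot_self_pos he)
  linarith

/-- NESTED: the support functions are strictly decreasing in the height -/
theorem Collar.nested (h : Collar Ω γ G) (ho : IsOpen Ω) (hb : Bornology.IsBounded Ω)
    {x x₀ : ℝ} (hx : 0 ≤ x) (hxx : x < x₀) (hx₀ : x₀ ≤ 1 / 2) {e : ℝ × ℝ} (he : e ≠ 0) :
    hs G x₀ e < hs G x e := by
  -- the compact circle of directions (sup norm)
  set Sp : Set (ℝ × ℝ) := Metric.sphere (0 : ℝ × ℝ) 1 with hSp
  have hSpc : IsCompact Sp := isCompact_sphere _ _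
  have hSp0 : ∀ u ∈ Sp, u ≠ 0 := by
    intro u hu h0
    rw [h0, hSp, mem_sphere_zero_iff_norm, norm_zero] at hu
    exact zero_ne_one hu
  obtain ⟨K₀, hK₀⟩ := h.body (x := x₀) ⟨by linarith, hx₀⟩
  set Q : Set ℝ := {y | ∀ u ∈ Sp, hs G x₀ u < hs G y u} with hQ
  have hQo : IsOpen Q := by
    rw [← isClosed_compl_iff]
    have h3 : Qᶜ = {y : ℝ | ∃ u : Sp, hs G y u ≤ hs G x₀ u} := by
      ext y
      simp only [hQ, mem_compl_iff, mem_ofPred_eq, not_forall, not_lt, Subtype.exists, exists_prop]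
    rw [h3]
    have : CompactSpace Sp := isCompact_iff_compactSpace.mp hSpc
    have h4 : IsClosed {p : ℝ × Sp | hs G p.1 (p.2 : ℝ × ℝ) ≤ hs G x₀ (p.2 : ℝ × ℝ)} :=
      isClosed_le ((hs_cont h.cont).comp
          (continuous_fst.prodMk (continuous_subtype_val.comp continuous_snd)))
        ((hs_cont h.cont).comp
          (continuous_const.prodMk (continuous_subtype_val.comp continuous_snd)))
    have h5 := isClosedMap_fst_of_compactSpace (X := ℝ) (Y := Sp) _ h4
    convert h5 using 1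
    ext y
    simp only [mem_ofPred_eq, mem_image, Prod.exists, exists_and_right, exists_eq_right]
  have hnorm : ∀ e : ℝ × ℝ, e ≠ 0 → ∃ u ∈ Sp, e = ‖e‖ • u := by
    intro e he
    have hen : 0 < ‖e‖ := norm_pos_iff.mpr he
    refine ⟨‖e‖⁻¹ • e, ?_, ?_⟩
    · rw [hSp, mem_sphere_zero_iff_norm, norm_smul, norm_inv, norm_norm,
        inv_mul_cancel₀ hen.ne']
    · rw [smul_smul, mul_inv_cancel₀ hen.ne', one_smul]
  have hQ0 : (0 : ℝ) ∈ Q := by
    intro u hu
    obtain ⟨θ, hθ⟩ := exists_hs h.cont x₀ u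
    rw [← hθ]
    exact h.lt_zero ho hb (hK₀.sub (hK₀.mem_G θ)) (hSp0 u hu)
  have hsub : Ico 0 x₀ ⊆ Q := by
    apply isPreconnected_Ico.subset_of_closure_inter_subset hQo
      ⟨0, ⟨le_rfl, by linarith⟩, hQ0⟩
    rintro y ⟨hyc, hy0, hy1⟩
    have hle : ∀ u ∈ Sp, hs G x₀ u ≤ hs G y u := by
      intro u hu
      have hcl : IsClosed {y : ℝ | hs G x₀ u ≤ hs G y u} :=
        isClosed_le continuous_const
          ((hs_cont h.cont).comp (continuous_id.prodMk continuous_const))
      exact hcl.closure_subset_iff.2 (fun y hy => (hy u hu).le) hyc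
    rcases hy0.eq_or_lt with h0 | h0
    · rw [← h0]
      exact hQ0
    · obtain ⟨K, hK⟩ := h.body (x := y) ⟨h0, by linarith⟩
      have hKK : K₀ ⊆ K := by
        intro z hz
        refine mem_of_dot_le hK.cpt.isClosed hK.conv fun e => ?_
        by_cases he : e = 0
        · subst he
          obtain ⟨y', hy'⟩ := hK.nonempty
          exact ⟨y', hy', by rw [zero_dot, zero_dot]⟩
        · obtain ⟨u, hu, heu⟩ := hnorm e he
          obtain ⟨θ, hθ⟩ := exists_hs h.cont y e
          refine ⟨G (θ, y), hK.mem_G θ, ?_⟩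
          rw [hθ]
          refine (hK₀.le_hs h.cont e hz).trans ?_
          rw [heu, hs_smul h.cont _ _ (norm_nonneg e), hs_smul h.cont _ _ (norm_nonneg e)]
          exact mul_le_mul_of_nonneg_left (hle u hu) (norm_nonneg e)
      intro u hu
      by_contra hcon
      have heq : hs G x₀ u = hs G y u := le_antisymm (hle u hu) (not_lt.1 hcon)
      obtain ⟨θ, hθ⟩ := exists_hs h.cont x₀ u
      have hmem : G (θ, x₀) ∈ frontier K := by
        refine mem_frontier_of_max (hSp0 u hu) (hKK (hK₀.mem_G θ)) fun z hz => ?_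
        rw [hθ, heq]
        exact hK.le_hs h.cont u hz
      rw [hK.fr] at hmem
      obtain ⟨θ', hθ'⟩ := hmem
      have := h.inj θ' θ y x₀ ⟨hy0, by linarith⟩ ⟨by linarith, hx₀⟩ hθ'
      linarith
  obtain ⟨u, hu, heu⟩ := hnorm e he
  have hen : 0 < ‖e‖ := norm_pos_iff.mpr he
  rw [heu, hs_smul h.cont _ _ (norm_nonneg e), hs_smul h.cont _ _ (norm_nonneg e)]
  exact mul_lt_mul_of_pos_left (hsub ⟨hx, hxx⟩ u hu) hen

end

end Crest.Agent.R102.T2
end
end

-- ▼ part R102/T2b_849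
section

/-!
Row 102, leaf (T2) of S0_821 (helper849), part b: the function `m(s, s', x)` and the leaf map `F`.
-/

set_option autoImplicit false

open Set Filter Topology
open Crest.AnalysisR.Billiard

noncomputable section

namespace Crest.Agent.R102.T2

/-- the determinant of two plane vectors -/
def dt (v w : ℝ × ℝ) : ℝ := v.1 * w.2 - v.2 * w.1

lemma dt_eq (v w : ℝ × ℝ) : dt v w = dot (perp v) w := by unfold dt dot perp; simp; ring

/-- Plücker relation -/
lemma pl (a u v w : ℝ × ℝ) : dt a u * dt v w - dt a v * dt u w + dt a w * dt u v = 0 := by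
  unfold dt; ring

lemma dt_sub (a u v : ℝ × ℝ) : dt a (u - v) = dt a u - dt a v := by
  unfold dt; simp; ring


lemma dt_smul (a u : ℝ × ℝ) (c : ℝ) : dt a (c • u) = c * dt a u := by
  unfold dt; simp; ring

lemma smul_dt (a u : ℝ × ℝ) (c : ℝ) : dt (c • a) u = c * dt a u := by
  unfold dt; simp; ring

lemma dt_neg (a u : ℝ × ℝ) : dt a (-u) = -dt a u := by
  unfold dt; simp; ring

lemma dt_self (a : ℝ × ℝ) : dt a a = 0 := by unfold dt; ring

lemma dt_swap (a b : ℝ × ℝ) : dt a b = -dt b a := by unfold dt; ring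

lemma continuous_dt : Continuous fun p : (ℝ × ℝ) × (ℝ × ℝ) => dt p.1 p.2 := by
  unfold dt
  fun_prop

/-- the facts (T1) about a table which are used for (T2) -/
structure TF (Ω : Set (ℝ × ℝ)) (γ : ℝ → ℝ × ℝ) (P : ℝ) : Prop where
  hP : 0 < P
  op : IsOpen Ω
  bd : Bornology.IsBounded Ω
  per : ∀ s, γ (s + P) = γ s
  der : ∀ s, HasDerivAt γ (deriv γ s) s
  dne : ∀ s, deriv γ s ≠ 0
  fr : range γ = frontier Ω
  tan : ∀ s, ∀ z ∈ closure Ω, z ≠ γ s → 0 < dt (deriv γ s) (z - γ s)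
  ori : ∀ s s' σ, s < s' → s' < σ → σ < s + P → 0 < dt (γ s' - γ s) (γ σ - γ s)

section
variable {Ω : Set (ℝ × ℝ)} {γ : ℝ → ℝ × ℝ} {P : ℝ} {G : UnitAddCircle × ℝ → ℝ × ℝ}

lemma TF.cont (h : TF Ω γ P) : Continuous γ :=
  continuous_iff_continuousAt.2 fun s => (h.der s).continuousAt

lemma TF.tan' (h : TF Ω γ P) (s : ℝ) {z : ℝ × ℝ} (hz : z ∈ Ω) :
    0 < dt (deriv γ s) (z - γ s) := by
  refine h.tan s z (subset_closure hz) fun he => ?_
  have h1 : γ s ∈ frontier Ω := by rw [← h.fr]; exact ⟨s, rfl⟩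
  rw [h.op.frontier_eq, ← he] at h1
  exact h1.2 hz

/-- chords: strictly inside a period the points of the curve are different -/
lemma TF.ne (h : TF Ω γ P) {s s' : ℝ} (h1 : s < s') (h2 : s' < s + P) : γ s' ≠ γ s := by
  intro he
  have := h.ori s s' ((s' + (s + P)) / 2) h1 (by linarith) (by linarith)
  rw [he, sub_self] at this
  unfold dt at this
  simp at this

lemma TF.tanγ (h : TF Ω γ P) {s s' : ℝ} (h1 : s < s') (h2 : s' < s + P) :
    0 < dt (deriv γ s) (γ s' - γ s) := by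
  refine h.tan s _ ?_ (h.ne h1 h2)
  have : γ s' ∈ frontier Ω := by rw [← h.fr]; exact ⟨s', rfl⟩
  exact frontier_subset_closure this

lemma TF.tanγ' (h : TF Ω γ P) {s s' : ℝ} (h1 : s < s') (h2 : s' < s + P) :
    0 < dt (deriv γ s') (γ s - γ s') := by
  refine h.tan s' _ ?_ (h.ne h1 h2).symm
  have : γ s ∈ frontier Ω := by rw [← h.fr]; exact ⟨s, rfl⟩
  exact frontier_subset_closure this

lemma TF.ori' (h : TF Ω γ P) {s s' σ : ℝ} (h1 : s < σ) (h2 : σ < s') (h3 : s' < s + P) :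
    dt (γ s' - γ s) (γ σ - γ s) < 0 := by
  have := h.ori s σ s' h1 h2 h3
  rw [dt_swap] at this
  linarith

/-- `m(s, s', x)`: minimum over the caustic of height `x` of the determinant with the chord -/
def mm (γ : ℝ → ℝ × ℝ) (G : UnitAddCircle × ℝ → ℝ × ℝ) (s s' x : ℝ) : ℝ :=
  -hs G x (-perp (γ s' - γ s)) - dt (γ s' - γ s) (γ s)

lemma perp_smul (c : ℝ) (v : ℝ × ℝ) : perp (c • v) = c • perp v := by
  unfold perp; ext <;> simp

lemma continuous_perp : Continuous perp := by unfold perp; fun_prop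

lemma mm_le (hG : Continuous G) (s s' x : ℝ) (θ : UnitAddCircle) :
    mm γ G s s' x ≤ dt (γ s' - γ s) (G (θ, x) - γ s) := by
  have h1 := le_hs hG x (-perp (γ s' - γ s)) θ
  rw [neg_dot, ← dt_eq] at h1
  unfold mm
  rw [dt_sub (γ s' - γ s)]
  linarith

lemma exists_mm (hG : Continuous G) (s s' x : ℝ) :
    ∃ θ : UnitAddCircle, dt (γ s' - γ s) (G (θ, x) - γ s) = mm γ G s s' x := by
  obtain ⟨θ, hθ⟩ := exists_hs hG x (-perp (γ s' - γ s))
  refine ⟨θ, ?_⟩
  rw [neg_dot, ← dt_eq] at hθ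
  unfold mm
  rw [dt_sub (γ s' - γ s), ← hθ]
  ring

lemma mm_le_body {x : ℝ} {K : Set (ℝ × ℝ)} (hK : Body Ω γ G x K) (hG : Continuous G) (s s' : ℝ)
    {z : ℝ × ℝ} (hz : z ∈ K) : mm γ G s s' x ≤ dt (γ s' - γ s) (z - γ s) := by
  have h1 := hK.le_hs hG (-perp (γ s' - γ s)) hz
  rw [neg_dot, ← dt_eq] at h1
  unfold mm
  rw [dt_sub (γ s' - γ s)]
  linarith

lemma mm_cont (h : TF Ω γ P) (hG : Continuous G) :
    Continuous fun p : ℝ × ℝ × ℝ => mm γ G p.1 p.2.1 p.2.2 := by
  have hγ := h.cont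
  have hd : Continuous fun p : ℝ × ℝ × ℝ => γ p.2.1 - γ p.1 := by fun_prop
  have h1 : Continuous fun p : ℝ × ℝ × ℝ => hs G p.2.2 (-perp (γ p.2.1 - γ p.1)) :=
    (hs_cont hG).comp ((continuous_snd.comp continuous_snd).prodMk
      (continuous_perp.comp hd).neg)
  have h2 : Continuous fun p : ℝ × ℝ × ℝ => dt (γ p.2.1 - γ p.1) (γ p.1) :=
    continuous_dt.comp (hd.prodMk (hγ.comp continuous_fst))
  unfold mm
  exact h1.neg.sub h2

lemma mm_cont_mid (h : TF Ω γ P) (hG : Continuous G) (s x : ℝ) :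
    Continuous fun s' : ℝ => mm γ G s s' x := by
  have hf : Continuous fun s' : ℝ => (s, s', x) := by fun_prop
  have h2 := (mm_cont h hG).comp hf
  simp only [Function.comp_def] at h2
  exact h2

lemma mm_cont_x (h : TF Ω γ P) (hG : Continuous G) (s s' : ℝ) :
    Continuous fun x : ℝ => mm γ G s s' x := by
  have hf : Continuous fun x : ℝ => (s, s', x) := by fun_prop
  have h2 := (mm_cont h hG).comp hf
  simp only [Function.comp_def] at h2
  exact h2

lemma mm_cont_sx (h : TF Ω γ P) (hG : Continuous G) (s' : ℝ) :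
    Continuous fun p : ℝ × ℝ => mm γ G p.2 s' p.1 := by
  have hf : Continuous fun p : ℝ × ℝ => (p.2, s', p.1) := by fun_prop
  have h2 := (mm_cont h hG).comp hf
  simp only [Function.comp_def] at h2
  exact h2

/-- strict monotonicity in the height -/
lemma mm_strict (h : TF Ω γ P) (hc : Collar Ω γ G) {s s' x x' : ℝ} (h1 : s < s')
    (h2 : s' < s + P) (hx : 0 ≤ x) (hxx : x < x') (hx' : x' ≤ 1 / 2) :
    mm γ G s s' x < mm γ G s s' x' := by
  have hne : -perp (γ s' - γ s) ≠ 0 := by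
    intro he
    apply h.ne h1 h2
    have h3 : perp (γ s' - γ s) = 0 := neg_eq_zero.1 he
    unfold perp at h3
    have h4 := Prod.ext_iff.1 h3
    simp only [Prod.fst_zero, Prod.snd_zero, neg_eq_zero] at h4
    exact sub_eq_zero.1 (Prod.ext h4.2 h4.1)
  have := hc.nested h.op h.bd hx hxx hx' hne
  unfold mm
  linarith

/-- at height `0` the function `m` is negative -/
lemma mm_zero (h : TF Ω γ P) (hc : Collar Ω γ G) {s s' : ℝ} (h1 : s < s') (h2 : s' < s + P) :
    mm γ G s s' 0 < 0 := by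
  have hf : γ ((s + s') / 2) ∈ frontier Ω := by rw [← h.fr]; exact ⟨_, rfl⟩
  rw [← hc.zero] at hf
  obtain ⟨θ, hθ⟩ := hf
  have h3 := mm_le (γ := γ) hc.cont s s' 0 θ
  have h4 : G (θ, 0) = γ ((s + s') / 2) := hθ
  rw [h4] at h3
  exact h3.trans_lt (h.ori' (by linarith) (by linarith) h2)

/-- key sign propagation -/
lemma mm_neg (h : TF Ω γ P) (hc : Collar Ω γ G) {s s₁ s₂ x : ℝ} (hx : x ∈ Ioc (0 : ℝ) (1 / 2))
    (h0 : s < s₁) (h1 : s₁ < s₂) (h2 : s₂ < s + P) (hm : mm γ G s s₁ x ≤ 0) :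
    mm γ G s s₂ x < 0 := by
  obtain ⟨K, hK⟩ := hc.body hx
  obtain ⟨θ, hθ⟩ := exists_mm (γ := γ) hc.cont s s₁ x
  have hz : G (θ, x) ∈ Ω := hK.sub (hK.mem_G θ)
  have e1 := h.tan' s hz
  have e2 := h.ori s s₁ s₂ h0 h1 h2
  have e3 := h.tanγ (s := s) (s' := s₁) h0 (by linarith)
  have e4 := h.tanγ (s := s) (s' := s₂) (by linarith) h2
  have e5 : dt (γ s₁ - γ s) (G (θ, x) - γ s) ≤ 0 := by rw [hθ]; exact hm
  have e6 := pl (deriv γ s) (γ s₁ - γ s) (γ s₂ - γ s) (G (θ, x) - γ s)
  refine (mm_le hc.cont s s₂ x θ).trans_lt ?_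
  by_contra hcon
  have e7 : 0 ≤ dt (γ s₂ - γ s) (G (θ, x) - γ s) := not_lt.1 hcon
  have t1 : 0 ≤ dt (deriv γ s) (γ s₁ - γ s) * dt (γ s₂ - γ s) (G (θ, x) - γ s) :=
    mul_nonneg e3.le e7
  have t2 : dt (deriv γ s) (γ s₂ - γ s) * dt (γ s₁ - γ s) (G (θ, x) - γ s) ≤ 0 :=
    mul_nonpos_of_nonneg_of_nonpos e4.le e5
  have t3 : 0 < dt (deriv γ s) (G (θ, x) - γ s) * dt (γ s₁ - γ s) (γ s₂ - γ s) :=
    mul_pos e1 e2
  linarith

/-- `m > 0` for `s'` slightly bigger than `s` -/
lemma mm_pos_near (h : TF Ω γ P) (hc : Collar Ω γ G) {x : ℝ} (hx : x ∈ Ioc (0 : ℝ) (1 / 2))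
    (s : ℝ) : ∀ᶠ s' in 𝓝[>] s, 0 < mm γ G s s' x := by
  obtain ⟨K, hK⟩ := hc.body hx
  -- the limit of the difference quotient
  have hs1 : Tendsto (fun s' => slope γ s s') (𝓝[>] s) (𝓝 (deriv γ s)) := by
    have := (hasDerivAt_iff_tendsto_slope.1 (h.der s))
    exact this.mono_left (nhdsWithin_mono _ (fun y hy => ne_of_gt hy))
  have hcont : Continuous fun v : ℝ × ℝ => -hs G x (-perp v) - dt v (γ s) := by
    have h1 : Continuous fun v : ℝ × ℝ => hs G x (-perp v) :=
      (hs_cont hc.cont).comp (continuous_const.prodMk continuous_perp.neg)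
    have h2 : Continuous fun v : ℝ × ℝ => dt v (γ s) :=
      continuous_dt.comp (continuous_id.prodMk continuous_const)
    exact h1.neg.sub h2
  have hpos : 0 < -hs G x (-perp (deriv γ s)) - dt (deriv γ s) (γ s) := by
    obtain ⟨θ, hθ⟩ := exists_hs hc.cont x (-perp (deriv γ s))
    rw [neg_dot, ← dt_eq] at hθ
    have := h.tan' s (hK.sub (hK.mem_G θ))
    rw [dt_sub] at this
    linarith
  have hlim := (hcont.tendsto (deriv γ s)).comp hs1
  have hev := hlim.eventually (lt_mem_nhds hpos)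
  filter_upwards [hev, self_mem_nhdsWithin] with s' h1 h2
  have h3 : 0 < s' - s := sub_pos.2 h2
  have h4 : γ s' - γ s = (s' - s) • slope γ s s' := by
    rw [slope_def_module, smul_smul, mul_inv_cancel₀ h3.ne', one_smul]
  have h5 : mm γ G s s' x = (s' - s) * (-hs G x (-perp (slope γ s s')) - dt (slope γ s s') (γ s)) := by
    unfold mm
    rw [h4, perp_smul, ← smul_neg, hs_smul hc.cont x _ h3.le, smul_dt]
    ring
  rw [h5]
  exact mul_pos h3 h1

/-- `m < 0` for `s'` slightly smaller than `s + P` -/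
lemma mm_neg_near (h : TF Ω γ P) (hc : Collar Ω γ G) {x : ℝ} (hx : x ∈ Ioc (0 : ℝ) (1 / 2))
    (s : ℝ) : ∀ᶠ s' in 𝓝[<] (s + P), mm γ G s s' x < 0 := by
  obtain ⟨K, hK⟩ := hc.body hx
  have hds : HasDerivAt γ (deriv γ (s + P)) (s + P) := h.der _
  have hs1 : Tendsto (fun s' => slope γ (s + P) s') (𝓝[<] (s + P)) (𝓝 (deriv γ (s + P))) := by
    have := (hasDerivAt_iff_tendsto_slope.1 hds)
    exact this.mono_left (nhdsWithin_mono _ (fun y hy => ne_of_lt hy))
  obtain ⟨z, hz⟩ := hK.nonempty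
  have hcont : Continuous fun v : ℝ × ℝ => dt v (z - γ s) :=
    continuous_dt.comp (continuous_id.prodMk continuous_const)
  have hpos : 0 < dt (deriv γ (s + P)) (z - γ s) := by
    have := h.tan' (s + P) (hK.sub hz)
    rwa [h.per] at this
  have hlim := (hcont.tendsto (deriv γ (s + P))).comp hs1
  have hev := hlim.eventually (lt_mem_nhds hpos)
  filter_upwards [hev, self_mem_nhdsWithin] with s' h1 h2
  have h3 : s' - (s + P) < 0 := sub_neg.2 h2
  have h4 : γ s' - γ s = (s' - (s + P)) • slope γ (s + P) s' := by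
    rw [slope_def_module, smul_smul, mul_inv_cancel₀ h3.ne, one_smul, h.per]
  refine (mm_le_body hK hc.cont s s' hz).trans_lt ?_
  rw [h4, smul_dt]
  exact mul_neg_of_neg_of_pos h3 h1

/-- the zero of `m` -/
lemma exists_F (h : TF Ω γ P) (hc : Collar Ω γ G) {x : ℝ} (hx : x ∈ Ioc (0 : ℝ) (1 / 2)) (s : ℝ) :
    ∃ s', s < s' ∧ s' < s + P ∧ mm γ G s s' x = 0 := by
  have hP := h.hP
  have h1 : ∀ᶠ s' in 𝓝[>] s, s' ∈ Ioo s (s + P) := Ioo_mem_nhdsGT (by linarith)
  obtain ⟨a, ha0, ha2', ha1⟩ := ((mm_pos_near h hc hx s).and h1).exists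
  have h2 : ∀ᶠ s' in 𝓝[<] (s + P), s' ∈ Ioo a (s + P) := Ioo_mem_nhdsLT ha1
  obtain ⟨b, hb0, hb1, hb2'⟩ := ((mm_neg_near h hc hx s).and h2).exists
  have hcont : Continuous fun s' => mm γ G s s' x := mm_cont_mid h hc.cont s x
  have himg := intermediate_value_Icc' hb1.le hcont.continuousOn
  obtain ⟨c, hcm, hc0⟩ := himg ⟨hb0.le, ha0.le⟩
  exact ⟨c, by linarith [hcm.1], by linarith [hcm.2], hc0⟩

/-- the leaf map -/
def FF (γ : ℝ → ℝ × ℝ) (P : ℝ) (G : UnitAddCircle × ℝ → ℝ × ℝ) (x s : ℝ) : ℝ :=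
  open Classical in
  if hh : ∃ s', s < s' ∧ s' < s + P ∧ mm γ G s s' x = 0 then hh.choose else s

lemma FF_spec (h : TF Ω γ P) (hc : Collar Ω γ G) {x : ℝ} (hx : x ∈ Ioc (0 : ℝ) (1 / 2)) (s : ℝ) :
    s < FF γ P G x s ∧ FF γ P G x s < s + P ∧ mm γ G s (FF γ P G x s) x = 0 := by
  have hh := exists_F h hc hx s
  unfold FF
  rw [dif_pos hh]
  exact hh.choose_spec

lemma mm_pos_of_lt (h : TF Ω γ P) (hc : Collar Ω γ G) {x : ℝ} (hx : x ∈ Ioc (0 : ℝ) (1 / 2))
    {s s' : ℝ} (h1 : s < s') (h2 : s' < FF γ P G x s) : 0 < mm γ G s s' x := by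
  obtain ⟨a1, a2, a3⟩ := FF_spec h hc hx s
  by_contra hcon
  have := mm_neg h hc hx h1 h2 a2 (not_lt.1 hcon)
  linarith

lemma mm_neg_of_gt (h : TF Ω γ P) (hc : Collar Ω γ G) {x : ℝ} (hx : x ∈ Ioc (0 : ℝ) (1 / 2))
    {s s' : ℝ} (h1 : FF γ P G x s < s') (h2 : s' < s + P) : mm γ G s s' x < 0 := by
  obtain ⟨a1, a2, a3⟩ := FF_spec h hc hx s
  exact mm_neg h hc hx a1 h1 h2 a3.le

lemma lt_FF_of_pos (h : TF Ω γ P) (hc : Collar Ω γ G) {x : ℝ} (hx : x ∈ Ioc (0 : ℝ) (1 / 2))
    {s s' : ℝ} (h1 : s' < s + P) (h2 : 0 < mm γ G s s' x) : s' < FF γ P G x s := by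
  obtain ⟨a1, a2, a3⟩ := FF_spec h hc hx s
  by_contra hcon
  rcases (not_lt.1 hcon).eq_or_lt with he | hl
  · rw [← he, a3] at h2
    exact lt_irrefl _ h2
  · have := mm_neg_of_gt h hc hx hl h1
    linarith

lemma FF_lt_of_neg (h : TF Ω γ P) (hc : Collar Ω γ G) {x : ℝ} (hx : x ∈ Ioc (0 : ℝ) (1 / 2))
    {s s' : ℝ} (h1 : s < s') (h2 : mm γ G s s' x < 0) : FF γ P G x s < s' := by
  obtain ⟨a1, a2, a3⟩ := FF_spec h hc hx s
  by_contra hcon
  rcases (not_lt.1 hcon).eq_or_lt with he | hl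
  · rw [he, a3] at h2
    exact lt_irrefl _ h2
  · have := mm_pos_of_lt h hc hx h1 hl
    linarith

lemma FF_unique (h : TF Ω γ P) (hc : Collar Ω γ G) {x : ℝ} (hx : x ∈ Ioc (0 : ℝ) (1 / 2))
    {s s' : ℝ} (h1 : s < s') (h2 : s' < s + P) (h3 : mm γ G s s' x = 0) : FF γ P G x s = s' := by
  obtain ⟨a1, a2, a3⟩ := FF_spec h hc hx s
  rcases lt_trichotomy (FF γ P G x s) s' with hl | he | hl
  · have := mm_neg_of_gt h hc hx hl h2
    linarith
  · exact he
  · have := mm_pos_of_lt h hc hx h1 hl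
    linarith

lemma mm_per (h : TF Ω γ P) (s s' x : ℝ) : mm γ G (s + P) (s' + P) x = mm γ G s s' x := by
  unfold mm
  rw [h.per, h.per]

lemma FF_per (h : TF Ω γ P) (hc : Collar Ω γ G) {x : ℝ} (hx : x ∈ Ioc (0 : ℝ) (1 / 2)) (s : ℝ) :
    FF γ P G x (s + P) = FF γ P G x s + P := by
  obtain ⟨a1, a2, a3⟩ := FF_spec h hc hx s
  exact FF_unique h hc hx (by linarith) (by linarith) (by rw [mm_per h]; exact a3)

/-- strictly increasing in the base point -/
lemma FF_strictMono (h : TF Ω γ P) (hc : Collar Ω γ G) {x : ℝ} (hx : x ∈ Ioc (0 : ℝ) (1 / 2)) :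
    StrictMono (FF γ P G x) := by
  intro s₁ s₂ h12
  obtain ⟨a1, a2, a3⟩ := FF_spec h hc hx s₁
  obtain ⟨b1, b2, b3⟩ := FF_spec h hc hx s₂
  rcases le_or_gt (FF γ P G x s₁) s₂ with hle | hlt
  · linarith
  · set s' := FF γ P G x s₁ with hs'
    apply lt_FF_of_pos h hc hx (by linarith)
    obtain ⟨K, hK⟩ := hc.body hx
    obtain ⟨θ, hθ⟩ := exists_mm (γ := γ) hc.cont s₂ s' x
    rw [← hθ]
    have hz : G (θ, x) ∈ Ω := hK.sub (hK.mem_G θ)
    -- vectors based at `γ s'`
    have e1 : 0 < dt (deriv γ s') (G (θ, x) - γ s') := h.tan' s' hz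
    have e2 : 0 ≤ dt (γ s' - γ s₁) (G (θ, x) - γ s') := by
      have h1 := mm_le (γ := γ) hc.cont s₁ s' x θ
      rw [a3] at h1
      have h2 : dt (γ s' - γ s₁) (G (θ, x) - γ s') = dt (γ s' - γ s₁) (G (θ, x) - γ s₁) := by
        unfold dt; simp; ring
      rw [h2]; exact h1
    have e3 : dt (deriv γ s') (γ s' - γ s₁) < 0 := by
      have h1 := h.tanγ' (s := s₁) (s' := s') a1 a2
      have h2 : dt (deriv γ s') (γ s' - γ s₁) = -dt (deriv γ s') (γ s₁ - γ s') := by
        unfold dt; simp; ring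
      linarith
    have e4 : dt (deriv γ s') (γ s' - γ s₂) < 0 := by
      have h1 := h.tanγ' (s := s₂) (s' := s') hlt (by linarith)
      have h2 : dt (deriv γ s') (γ s' - γ s₂) = -dt (deriv γ s') (γ s₂ - γ s') := by
        unfold dt; simp; ring
      linarith
    have e5 : 0 < dt (γ s' - γ s₁) (γ s' - γ s₂) := by
      have h1 := h.ori s₁ s₂ s' h12 hlt a2
      have h2 : dt (γ s' - γ s₁) (γ s' - γ s₂) = dt (γ s₂ - γ s₁) (γ s' - γ s₁) := by
        unfold dt; simp; ring
      linarith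
    have e6 := pl (deriv γ s') (γ s' - γ s₁) (γ s' - γ s₂) (G (θ, x) - γ s')
    have e7 : dt (γ s' - γ s₂) (G (θ, x) - γ s₂) = dt (γ s' - γ s₂) (G (θ, x) - γ s') := by
      unfold dt; simp; ring
    rw [e7]
    by_contra hcon
    have e8 : dt (γ s' - γ s₂) (G (θ, x) - γ s') ≤ 0 := not_lt.1 hcon
    have t1 : 0 ≤ dt (deriv γ s') (γ s' - γ s₁) * dt (γ s' - γ s₂) (G (θ, x) - γ s') :=
      mul_nonneg_of_nonpos_of_nonpos e3.le e8
    have t2 : dt (deriv γ s') (γ s' - γ s₂) * dt (γ s' - γ s₁) (G (θ, x) - γ s') ≤ 0 :=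
      mul_nonpos_of_nonpos_of_nonneg e4.le e2
    have t3 : 0 < dt (deriv γ s') (G (θ, x) - γ s') * dt (γ s' - γ s₁) (γ s' - γ s₂) :=
      mul_pos e1 e5
    linarith

/-- strictly increasing in the height -/
lemma FF_strictMonoOn (h : TF Ω γ P) (hc : Collar Ω γ G) (s : ℝ) :
    StrictMonoOn (fun x => FF γ P G x s) (Ioo (0 : ℝ) (1 / 2)) := by
  intro x hx y hy hxy
  obtain ⟨a1, a2, a3⟩ := FF_spec h hc (x := x) ⟨hx.1, hx.2.le⟩ s
  refine lt_FF_of_pos h hc ⟨hy.1, hy.2.le⟩ a2 ?_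
  have := mm_strict h hc a1 a2 hx.1.le hxy hy.2.le
  linarith

/-- limit at height `0` -/
lemma FF_tendsto (h : TF Ω γ P) (hc : Collar Ω γ G) (s : ℝ) :
    Tendsto (fun x => FF γ P G x s) (𝓝[>] 0) (𝓝 s) := by
  rw [tendsto_order]
  have hev : ∀ᶠ x in 𝓝[>] (0 : ℝ), x ∈ Ioc (0 : ℝ) (1 / 2) :=
    Ioc_mem_nhdsGT (by norm_num)
  constructor
  · intro a ha
    filter_upwards [hev] with x hx
    exact ha.trans (FF_spec h hc hx s).1
  · intro a ha
    -- choose s' in (s, min a (s + P))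
    set s' := (s + min a (s + P)) / 2 with hs'
    have hP := h.hP
    have h0 : s < min a (s + P) := lt_min ha (by linarith)
    have h1 : s < s' := by rw [hs']; linarith
    have h2 : s' < min a (s + P) := by rw [hs']; linarith
    have h3 : s' < a := h2.trans_le (min_le_left _ _)
    have h4 : s' < s + P := h2.trans_le (min_le_right _ _)
    have hneg := mm_zero h hc h1 h4
    have hcont : Continuous fun x => mm γ G s s' x := mm_cont_x h hc.cont s s'
    have hev2 : ∀ᶠ x in 𝓝[>] (0 : ℝ), mm γ G s s' x < 0 :=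
      mem_nhdsWithin_of_mem_nhds ((isOpen_lt hcont continuous_const).mem_nhds hneg)
    filter_upwards [hev, hev2] with x hx hx2
    exact (FF_lt_of_neg h hc hx h1 hx2).trans h3

/-- joint continuity -/
lemma FF_continuousOn (h : TF Ω γ P) (hc : Collar Ω γ G) :
    ContinuousOn (fun p : ℝ × ℝ => FF γ P G p.1 p.2) (Ioo 0 (1 / 2) ×ˢ univ) := by
  rintro ⟨x, s⟩ ⟨hx, -⟩
  apply ContinuousAt.continuousWithinAt
  rw [ContinuousAt, tendsto_order]
  simp only at hx ⊢
  have hx' : x ∈ Ioc (0 : ℝ) (1 / 2) := ⟨hx.1, hx.2.le⟩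
  obtain ⟨a1, a2, a3⟩ := FF_spec h hc hx' s
  have hevx : ∀ᶠ p : ℝ × ℝ in 𝓝 (x, s), p.1 ∈ Ioc (0 : ℝ) (1 / 2) := by
    have : Ioo (0 : ℝ) (1 / 2) ∈ 𝓝 x := Ioo_mem_nhds hx.1 hx.2
    filter_upwards [continuous_fst.continuousAt (x := (x, s)) this] with p hp
    exact ⟨hp.1, (le_of_lt hp.2)⟩
  have hcontm : ∀ s' : ℝ, Continuous fun p : ℝ × ℝ => mm γ G p.2 s' p.1 := fun s' =>
    mm_cont_sx h hc.cont s'
  constructor
  · intro a ha
    -- s' between max a s and FF
    set s' := (max a s + FF γ P G x s) / 2 with hs'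
    have h0 : max a s < FF γ P G x s := max_lt ha a1
    have h1 : max a s < s' := by rw [hs']; linarith
    have h2 : s' < FF γ P G x s := by rw [hs']; linarith
    have h3 : a < s' := (le_max_left _ _).trans_lt h1
    have h4 : s < s' := (le_max_right _ _).trans_lt h1
    have hpos := mm_pos_of_lt h hc hx' h4 h2
    have hev2 : ∀ᶠ p : ℝ × ℝ in 𝓝 (x, s), 0 < mm γ G p.2 s' p.1 :=
      (isOpen_lt continuous_const (hcontm s')).mem_nhds hpos
    have hev3 : ∀ᶠ p : ℝ × ℝ in 𝓝 (x, s), s' < p.2 + P :=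
      (isOpen_lt continuous_const (continuous_snd.add continuous_const)).mem_nhds
        (show s' < s + P by linarith)
    filter_upwards [hevx, hev2, hev3] with p hp1 hp2 hp3
    exact h3.trans (lt_FF_of_pos h hc hp1 hp3 hp2)
  · intro a ha
    set s' := (FF γ P G x s + min a (s + P)) / 2 with hs'
    have h0 : FF γ P G x s < min a (s + P) := lt_min ha a2
    have h1 : FF γ P G x s < s' := by rw [hs']; linarith
    have h2 : s' < min a (s + P) := by rw [hs']; linarith
    have h3 : s' < a := h2.trans_le (min_le_left _ _)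
    have h4 : s' < s + P := h2.trans_le (min_le_right _ _)
    have hneg := mm_neg_of_gt h hc hx' h1 h4
    have hev2 : ∀ᶠ p : ℝ × ℝ in 𝓝 (x, s), mm γ G p.2 s' p.1 < 0 :=
      (isOpen_lt (hcontm s') continuous_const).mem_nhds hneg
    have hev3 : ∀ᶠ p : ℝ × ℝ in 𝓝 (x, s), p.2 < s' :=
      (isOpen_lt continuous_snd continuous_const).mem_nhds (show s < s' by linarith)
    filter_upwards [hevx, hev2, hev3] with p hp1 hp2 hp3
    exact (FF_lt_of_neg h hc hp1 hp3 hp2).trans h3

end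

end Crest.Agent.R102.T2
end
end

-- ▼ part R102/T2_849
section

/-!
Row 102, leaf (T2) of S0_821 (helper849), part c: the reflection law along the leaf map, and the
leaf family of a caustic collar.
-/

set_option autoImplicit false

open Set Filter Topology
open Crest.AnalysisR.Billiard

noncomputable section

namespace Crest.Agent.R102.T2

/-- parallel vectors -/
lemma par {v w : ℝ × ℝ} (hv : v ≠ 0) (h : dt v w = 0) : ∃ c : ℝ, w = c • v := by
  have hp := dot_self_pos hv
  refine ⟨dot v w / dot v v, ?_⟩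
  have h1 : dot v v • w = dot v w • v := by
    unfold dt at h
    unfold dot
    ext
    · simp only [Prod.smul_fst, smul_eq_mul]
      linear_combination (-v.2) * h
    · simp only [Prod.smul_snd, smul_eq_mul]
      linear_combination v.1 * h
  rw [div_eq_inv_mul, mul_smul, ← h1, smul_smul, inv_mul_cancel₀ hp.ne', one_smul]

section
variable {Ω : Set (ℝ × ℝ)} {γ : ℝ → ℝ × ℝ} {P : ℝ} {G : UnitAddCircle × ℝ → ℝ × ℝ}
  {K : Set (ℝ × ℝ)}

/-- if a closed half plane contains `K`, interior points are strictly inside -/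
lemma interior_pos {v p : ℝ × ℝ} (hv : v ≠ 0) (h : ∀ z ∈ K, 0 ≤ dt v (z - p)) {z : ℝ × ℝ}
    (hz : z ∈ interior K) : 0 < dt v (z - p) := by
  have hcont : Continuous fun t : ℝ => z + t • perp v := by fun_prop
  have h0 : (fun t : ℝ => z + t • perp v) 0 ∈ interior K := by simpa using hz
  have hev : ∀ᶠ t in 𝓝 (0 : ℝ), z + t • perp v ∈ interior K :=
    hcont.continuousAt.eventually_mem (isOpen_interior.mem_nhds h0)
  obtain ⟨ε, hε, hball⟩ := Metric.eventually_nhds_iff.1 hev
  have h1 : z + (-(ε / 2)) • perp v ∈ interior K := hball (by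
    rw [Real.dist_eq, sub_zero, abs_neg, abs_of_pos (by linarith)]; linarith)
  have h2 := h _ (interior_subset h1)
  have h3 : dt v (z + (-(ε / 2)) • perp v - p) = dt v (z - p) - ε / 2 * dot v v := by
    unfold dt perp dot; simp; ring
  rw [h3] at h2
  have := mul_pos (half_pos hε) (dot_self_pos hv)
  linarith

/-- a supporting line touches -/
lemma touches_of_left {v p z₀ : ℝ × ℝ} (hv : v ≠ 0) (h : ∀ z ∈ K, 0 ≤ dt v (z - p))
    (hz₀ : z₀ ∈ K) (h0 : dt v (z₀ - p) = 0) : Touches K p v := by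
  obtain ⟨c, hc⟩ := par hv h0
  refine ⟨⟨c, ?_⟩, fun t ht => ?_⟩
  · rw [← hc]; simpa using hz₀
  · have h1 := interior_pos hv h ht
    have h2 : dt v (p + t • v - p) = 0 := by unfold dt; simp; ring
    linarith

/-- a touching line has `K` on one side -/
lemma side_of_touches (hc : Convex ℝ K) (hne : (interior K).Nonempty) {v p : ℝ × ℝ} (hv : v ≠ 0)
    (h : Touches K p v) :
    (∀ z ∈ K, 0 ≤ dt v (z - p)) ∨ (∀ z ∈ K, dt v (z - p) ≤ 0) := by
  have hcont : Continuous fun z : ℝ × ℝ => dt v (z - p) := by unfold dt; fun_prop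
  have hnz : ∀ z ∈ interior K, dt v (z - p) ≠ 0 := by
    intro z hz h0
    obtain ⟨c, hcz⟩ := par hv h0
    apply h.2 c
    rw [← hcz]
    simpa using hz
  have hcl : closure (interior K) = closure K := hc.closure_interior_eq_closure_of_nonempty_interior hne
  have hpre : IsPreconnected (interior K) := hc.interior.isPreconnected
  obtain ⟨y, hy⟩ := hne
  rcases lt_or_gt_of_ne (hnz y hy) with hl | hg
  · right
    have hall : ∀ z ∈ interior K, dt v (z - p) ≤ 0 := by
      intro z hz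
      by_contra hcon
      have himg := hpre.intermediate_value hy hz hcont.continuousOn
      obtain ⟨w, hw, hw0⟩ := himg ⟨hl.le, (not_le.1 hcon).le⟩
      exact hnz w hw hw0
    intro z hz
    have hz' : z ∈ closure (interior K) := by rw [hcl]; exact subset_closure hz
    exact (isClosed_le hcont continuous_const).closure_subset_iff.2 hall hz'
  · left
    have hall : ∀ z ∈ interior K, 0 ≤ dt v (z - p) := by
      intro z hz
      by_contra hcon
      have himg := hpre.intermediate_value hz hy hcont.continuousOn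
      obtain ⟨w, hw, hw0⟩ := himg ⟨(not_le.1 hcon).le, hg.le⟩
      exact hnz w hw hw0
    intro z hz
    have hz' : z ∈ closure (interior K) := by rw [hcl]; exact subset_closure hz
    exact (isClosed_le continuous_const hcont).closure_subset_iff.2 hall hz'

lemma perp_ne {v : ℝ × ℝ} (hv : v ≠ 0) : perp v ≠ 0 := by
  intro h
  apply hv
  unfold perp at h
  have h4 := Prod.ext_iff.1 h
  simp only [Prod.fst_zero, Prod.snd_zero, neg_eq_zero] at h4
  exact Prod.ext h4.2 h4.1

lemma reflect_tan {a v : ℝ × ℝ} : dot a (reflect (perp a) v) = dot a v := by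
  unfold reflect dot perp
  simp
  ring

lemma reflect_nor {a v : ℝ × ℝ} (ha : a ≠ 0) : dt a (reflect (perp a) v) = -dt a v := by
  have hp : dot (perp a) (perp a) ≠ 0 := (dot_self_pos (perp_ne ha)).ne'
  have hk : 2 * dot v (perp a) / dot (perp a) (perp a) * dot (perp a) (perp a)
      = 2 * dot v (perp a) := div_mul_cancel₀ _ hp
  unfold reflect
  set k := 2 * dot v (perp a) / dot (perp a) (perp a) with hkdef
  clear_value k
  unfold dot perp at hk
  unfold dt perp
  simp only [Prod.fst_sub, Prod.snd_sub, Prod.smul_fst, Prod.smul_snd, smul_eq_mul] at hk ⊢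
  linear_combination (-1) * hk

lemma reflect_norm {a v : ℝ × ℝ} (ha : a ≠ 0) :
    dot (reflect (perp a) v) (reflect (perp a) v) = dot v v := by
  have hp : dot (perp a) (perp a) ≠ 0 := (dot_self_pos (perp_ne ha)).ne'
  have hk : 2 * dot v (perp a) / dot (perp a) (perp a) * dot (perp a) (perp a)
      = 2 * dot v (perp a) := div_mul_cancel₀ _ hp
  unfold reflect
  set k := 2 * dot v (perp a) / dot (perp a) (perp a) with hkdef
  clear_value k
  unfold dot perp at hk
  unfold dot perp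
  simp only [Prod.fst_sub, Prod.snd_sub, Prod.smul_fst, Prod.smul_snd, smul_eq_mul] at hk ⊢
  linear_combination k * hk

lemma reflect_ne {a v : ℝ × ℝ} (ha : a ≠ 0) (hv : v ≠ 0) : reflect (perp a) v ≠ 0 := by
  intro h
  have h1 := reflect_norm (v := v) ha
  rw [h] at h1
  have := dot_self_pos hv
  rw [zero_dot] at h1
  linarith

/-- the geometric heart: `u` incoming, `u₁` outgoing supporting directions at `x`; the reflection
of `u` is a positive multiple of `u₁` -/
lemma reflect_heart {a u u₁ x za zb : ℝ × ℝ} (hc : Convex ℝ K) (hne : (interior K).Nonempty)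
    (ha : a ≠ 0) (hK : ∀ z ∈ K, 0 < dt a (z - x))
    (hA : ∀ z ∈ K, 0 ≤ dt u (z - x)) (hza : za ∈ K) (hza0 : dt u (za - x) = 0)
    (hB : ∀ z ∈ K, 0 ≤ dt u₁ (z - x)) (hzb : zb ∈ K) (hzb0 : dt u₁ (zb - x) = 0)
    (hu : dt a u < 0) (hu₁ : 0 < dt a u₁)
    (hrefl : ∀ v : ℝ × ℝ, v ≠ 0 → Touches K x v → Touches K x (reflect (perp a) v)) :
    ∃ c : ℝ, 0 < c ∧ reflect (perp a) u = c • u₁ := by
  have hu0 : u ≠ 0 := by rintro rfl; unfold dt at hu; simp at hu
  have hu10 : u₁ ≠ 0 := by rintro rfl; unfold dt at hu₁; simp at hu₁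
  obtain ⟨α, hα⟩ := par hu0 hza0
  obtain ⟨β, hβ⟩ := par hu10 hzb0
  have hα0 : α < 0 := by
    have h1 := hK za hza
    rw [hα, dt_smul] at h1
    by_contra hcon
    have := mul_nonpos_of_nonneg_of_nonpos (not_lt.1 hcon) hu.le
    linarith
  have hβ0 : 0 < β := by
    have h1 := hK zb hzb
    rw [hβ, dt_smul] at h1
    by_contra hcon
    have := mul_nonpos_of_nonpos_of_nonneg (not_lt.1 hcon) hu₁.le
    linarith
  -- the reflected directions
  set v' := reflect (perp a) u with hv'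
  set w' := reflect (perp a) u₁ with hw'
  have tv : dot a v' = dot a u := reflect_tan
  have nv : dt a v' = -dt a u := reflect_nor ha
  have tw : dot a w' = dot a u₁ := reflect_tan
  have nw : dt a w' = -dt a u₁ := reflect_nor ha
  have hv0 : v' ≠ 0 := reflect_ne ha hu0
  have hw0 : w' ≠ 0 := reflect_ne ha hu10
  have Tv : Touches K x v' := hrefl u hu0 (touches_of_left hu0 hA hza hza0)
  have Tw : Touches K x w' := hrefl u₁ hu10 (touches_of_left hu10 hB hzb hzb0)
  obtain ⟨t, ht⟩ := Tv.1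
  obtain ⟨t', ht'⟩ := Tw.1
  have hxt : ∀ (r : ℝ) (q : ℝ × ℝ), x + r • q - x = r • q := by intro r q; simp
  have ht0 : 0 < t := by
    have h1 := hK _ ht
    rw [hxt, dt_smul, nv] at h1
    by_contra hcon
    have := mul_nonpos_of_nonpos_of_nonneg (not_lt.1 hcon) (neg_nonneg.2 hu.le)
    linarith
  have ht'0 : t' < 0 := by
    have h1 := hK _ ht'
    rw [hxt, dt_smul, nw] at h1
    by_contra hcon
    have := mul_nonpos_of_nonneg_of_nonpos (not_lt.1 hcon) (neg_nonpos.2 hu₁.le)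
    linarith
  rcases side_of_touches hc hne hv0 Tv with hL | hR
  · have e1 : 0 ≤ β * dt v' u₁ := by
      have := hL zb hzb
      rwa [hβ, dt_smul] at this
    have e2 : 0 ≤ t * dt u₁ v' := by
      have := hB _ ht
      rwa [hxt, dt_smul] at this
    have e3 : 0 ≤ dt v' u₁ := nonneg_of_mul_nonneg_right e1 hβ0
    have e4 : 0 ≤ dt u₁ v' := nonneg_of_mul_nonneg_right e2 ht0
    have e5 : dt u₁ v' = 0 := by
      have := dt_swap u₁ v'
      linarith
    obtain ⟨c, hcc⟩ := par hu10 e5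
    refine ⟨c, ?_, hcc⟩
    have h1 : dt a v' = c * dt a u₁ := by rw [hcc, dt_smul]
    by_contra hcon
    have := mul_nonpos_of_nonpos_of_nonneg (not_lt.1 hcon) hu₁.le
    linarith
  · exfalso
    have e1 : α * dt v' u ≤ 0 := by
      have := hR za hza
      rwa [hα, dt_smul] at this
    have e2 : 0 ≤ t * dt u v' := by
      have := hA _ ht
      rwa [hxt, dt_smul] at this
    have e3 : 0 ≤ dt v' u := by
      by_contra hcon
      have := mul_pos_of_neg_of_neg hα0 (not_le.1 hcon)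
      linarith
    have e4 : 0 ≤ dt u v' := nonneg_of_mul_nonneg_right e2 ht0
    have e5 : dt u v' = 0 := by
      have := dt_swap u v'
      linarith
    obtain ⟨c, hcc⟩ := par hu0 e5
    have h1 : dt a v' = c * dt a u := by rw [hcc, dt_smul]
    have hc1 : c = -1 := by
      have : (c + 1) * dt a u = 0 := by linarith
      rcases mul_eq_zero.1 this with h | h
      · linarith
      · linarith
    have hdu : dot a u = 0 := by
      have h2 : dot a v' = c * dot a u := by rw [hcc, dot_smul]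
      rw [hc1] at h2
      linarith
    have hdu1 : dot a u₁ = 0 := by
      rcases side_of_touches hc hne hw0 Tw with hL' | hR'
      · have f1 : 0 ≤ α * dt w' u := by
          have := hL' za hza
          rwa [hα, dt_smul] at this
        have f2 : 0 ≤ t' * dt u w' := by
          have := hA _ ht'
          rwa [hxt, dt_smul] at this
        have f3 : dt w' u ≤ 0 := by
          by_contra hcon
          have := mul_neg_of_neg_of_pos hα0 (not_le.1 hcon)
          linarith
        have f4 : dt u w' ≤ 0 := by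
          by_contra hcon
          have := mul_neg_of_neg_of_pos ht'0 (not_le.1 hcon)
          linarith
        have f5 : dt u w' = 0 := by
          have := dt_swap u w'
          linarith
        obtain ⟨d, hd⟩ := par hu0 f5
        have : dot a w' = d * dot a u := by rw [hd, dot_smul]
        rw [tw, hdu, mul_zero] at this
        exact this
      · have f1 : β * dt w' u₁ ≤ 0 := by
          have := hR' zb hzb
          rwa [hβ, dt_smul] at this
        have f2 : 0 ≤ t' * dt u₁ w' := by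
          have := hB _ ht'
          rwa [hxt, dt_smul] at this
        have f3 : dt w' u₁ ≤ 0 := by
          by_contra hcon
          have := mul_pos hβ0 (not_le.1 hcon)
          linarith
        have f4 : dt u₁ w' ≤ 0 := by
          by_contra hcon
          have := mul_neg_of_neg_of_pos ht'0 (not_le.1 hcon)
          linarith
        have f5 : dt u₁ w' = 0 := by
          have := dt_swap u₁ w'
          linarith
        obtain ⟨d, hd⟩ := par hu10 f5
        have g1 : dt a w' = d * dt a u₁ := by rw [hd, dt_smul]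
        have g2 : d = -1 := by
          have : (d + 1) * dt a u₁ = 0 := by linarith
          rcases mul_eq_zero.1 this with h | h
          · linarith
          · linarith
        have : dot a w' = d * dot a u₁ := by rw [hd, dot_smul]
        rw [tw, g2] at this
        linarith
    -- `u` and `u₁` are both normal: `dt u u₁ = 0`, and `K` lies in a line
    have hpa := dot_self_pos ha
    have g1 : ∀ v : ℝ × ℝ, dot a v = 0 → dot a a • v = dt a v • perp a := by
      intro v hv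
      unfold dot at hv
      unfold dot dt perp
      ext
      · simp only [Prod.smul_fst, smul_eq_mul]
        linear_combination a.1 * hv
      · simp only [Prod.smul_snd, smul_eq_mul]
        linear_combination a.2 * hv
    have g2 : ∀ z : ℝ × ℝ, dot a a * dt u z = dt a u * dt (perp a) z := by
      intro z
      have := g1 u hdu
      rw [← smul_dt, this, smul_dt]
    have g3 : ∀ z : ℝ × ℝ, dot a a * dt u₁ z = dt a u₁ * dt (perp a) z := by
      intro z
      have := g1 u₁ hdu1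
      rw [← smul_dt, this, smul_dt]
    obtain ⟨y, hy⟩ := hne
    have i1 := interior_pos hu0 hA hy
    have i2 := interior_pos hu10 hB hy
    have j1 : 0 < dt a u * dt (perp a) (y - x) := by rw [← g2]; exact mul_pos hpa i1
    have j2 : 0 < dt a u₁ * dt (perp a) (y - x) := by rw [← g3]; exact mul_pos hpa i2
    have j3 : 0 < dt (perp a) (y - x) := by
      by_contra hcon
      have := mul_nonpos_of_nonneg_of_nonpos hu₁.le (not_lt.1 hcon)
      linarith
    have := mul_neg_of_neg_of_pos hu j3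
    linarith

/-- the reflection law along the leaf map -/
theorem FF_refl (h : TF Ω γ P) (hc : Collar Ω γ G) {x : ℝ} (hx : x ∈ Ioc (0 : ℝ) (1 / 2)) (s : ℝ) :
    S0.p2 γ s (FF γ P G x s) = S0.p1 γ (FF γ P G x s) (FF γ P G x (FF γ P G x s)) := by
  obtain ⟨K, hK⟩ := hc.body hx
  set s' := FF γ P G x s with hs'
  set s'' := FF γ P G x s' with hs''
  obtain ⟨a1, a2, a3⟩ := FF_spec h hc hx s
  obtain ⟨b1, b2, b3⟩ := FF_spec h hc hx s'
  rw [← hs'] at a1 a2 a3
  rw [← hs''] at b1 b2 b3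
  obtain ⟨θa, hθa⟩ := exists_mm (γ := γ) hc.cont s s' x
  obtain ⟨θb, hθb⟩ := exists_mm (γ := γ) hc.cont s' s'' x
  have shift : ∀ z : ℝ × ℝ, dt (γ s' - γ s) (z - γ s) = dt (γ s' - γ s) (z - γ s') := by
    intro z; unfold dt; simp; ring
  have key := reflect_heart (K := K) (a := deriv γ s') (u := γ s' - γ s) (u₁ := γ s'' - γ s')
    (x := γ s') (za := G (θa, x)) (zb := G (θb, x)) hK.conv hK.ne (h.dne s')
    (fun z hz => h.tan' s' (hK.sub hz))
    (fun z hz => by
      have := mm_le_body hK hc.cont s s' hz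
      rw [a3, shift] at this
      exact this)
    (hK.mem_G θa) (by rw [← shift, hθa, a3])
    (fun z hz => by
      have := mm_le_body hK hc.cont s' s'' hz
      rwa [b3] at this)
    (hK.mem_G θb) (by rw [hθb, b3])
    (by
      have h1 := h.tanγ' a1 a2
      have h2 : dt (deriv γ s') (γ s' - γ s) = -dt (deriv γ s') (γ s - γ s') := by
        unfold dt; simp; ring
      linarith)
    (h.tanγ b1 b2)
    (fun v hv hT => hK.refl s' v hv hT)
  obtain ⟨c, hc0, hcc⟩ := key
  have t1 : dot (deriv γ s') (γ s' - γ s) = c * dot (deriv γ s') (γ s'' - γ s') := by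
    rw [← dot_smul, ← hcc, reflect_tan]
  have t2 : dot (γ s' - γ s) (γ s' - γ s) = c ^ 2 * dot (γ s'' - γ s') (γ s'' - γ s') := by
    rw [← reflect_norm (v := γ s' - γ s) (h.dne s'), hcc, dot_smul, smul_dot]
    ring
  unfold S0.p2 S0.p1 S0.len
  rw [t1, t2, Real.sqrt_mul (by positivity), Real.sqrt_sq hc0.le, mul_div_mul_left _ _ hc0.ne']

/-- **(T2)** the caustics of a collar form a leaf family -/
theorem leafFam_of_collar (h : TF Ω γ P) (hc : HasCausticCollar Ω γ) :
    ∃ F : ℝ → ℝ → ℝ, S0.LeafFam P (1 / 2) (S0.p1 γ) (S0.p2 γ) F := by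
  obtain ⟨G, hG⟩ := exists_collar hc
  refine ⟨FF γ P G, ?_⟩
  exact
    { hb := by norm_num
      cont := FF_continuousOn h hG
      mono := fun b hb => FF_strictMono h hG ⟨hb.1, hb.2.le⟩
      per := fun b hb s => FF_per h hG ⟨hb.1, hb.2.le⟩ s
      lo := fun b hb s => (FF_spec h hG ⟨hb.1, hb.2.le⟩ s).1
      hi := fun b hb s => (FF_spec h hG ⟨hb.1, hb.2.le⟩ s).2.1
      refl := fun b hb s => FF_refl h hG ⟨hb.1, hb.2.le⟩ s
      mono_b := fun s => FF_strictMonoOn h hG s
      lim := fun s => FF_tendsto h hG s }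

end

end Crest.Agent.R102.T2
end
end

-- ▼ part R102/TF_849
section

/-!
Row 102, leaf (T1) facts used by (T2): `IsTable → TF` (helper849).
-/

set_option autoImplicit false

open Set Filter Topology
open Crest.AnalysisR.Billiard

noncomputable section

namespace Crest.Agent.R102.T2

section
variable {Ω : Set (ℝ × ℝ)} {γ : ℝ → ℝ × ℝ} {P : ℝ}

/-- a derivative of `t ↦ dt u (γ t - p)` -/
lemma hasDerivAt_dt {u p g' : ℝ × ℝ} {t : ℝ} (h : HasDerivAt γ g' t) :
    HasDerivAt (fun t => dt u (γ t - p)) (dt u g') t := by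
  have h1 : HasDerivAt (fun t => (γ t).1) g'.1 t := h.fst
  have h2 : HasDerivAt (fun t => (γ t).2) g'.2 t := h.snd
  have h3 : HasDerivAt (fun t => u.1 * ((γ t).2 - p.2) - u.2 * ((γ t).1 - p.1))
      (u.1 * g'.2 - u.2 * g'.1) t :=
    ((h2.sub_const _).const_mul _).sub ((h1.sub_const _).const_mul _)
  exact h3

lemma sm_der (hs : ContDiff ℝ (⊤ : ℕ∞) γ) (s : ℝ) : HasDerivAt γ (deriv γ s) s :=
  (hs.differentiable (by simp) s).hasDerivAt

lemma sm_der2 (hs : ContDiff ℝ (⊤ : ℕ∞) γ) (s : ℝ) :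
    HasDerivAt (deriv γ) (deriv (deriv γ) s) s := by
  have h1 : ContDiff ℝ 2 γ := hs.of_le (by
    have : ((2 : ℕ∞) : WithTop ℕ∞) ≤ ((⊤ : ℕ∞) : WithTop ℕ∞) := WithTop.coe_le_coe.2 le_top
    exact this)
  have h2 : ContDiff ℝ 1 (deriv γ) := by
    have : (2 : WithTop ℕ∞) = 1 + 1 := by norm_num
    rw [this] at h1
    exact ((contDiff_succ_iff_deriv).1 h1).2.2
  exact (h2.differentiable (by simp) s).hasDerivAt

/-- injectivity within a period -/
lemma ne_of_table (h : IsTable Ω γ P) {s s' : ℝ} (h1 : s < s') (h2 : s' < s + P) :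
    γ s' ≠ γ s := by
  obtain ⟨-, -, -, -, ⟨hP, -, hper, hinj, -, -⟩, -⟩ := h
  intro he
  set n : ℤ := ⌊s / P⌋ with hn
  have a1 : (n : ℝ) ≤ s / P := Int.floor_le _
  have a2 : s / P < n + 1 := Int.lt_floor_add_one _
  rw [le_div_iff₀ hP] at a1
  rw [div_lt_iff₀ hP] at a2
  have e1 : γ (s - n * P) = γ s := by
    have := hper.sub_zsmul_eq (x := s) n
    rwa [zsmul_eq_mul] at this
  have e2 : γ (s' - n * P) = γ s' := by
    have := hper.sub_zsmul_eq (x := s') n
    rwa [zsmul_eq_mul] at this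
  have m1 : s - n * P ∈ Ico (0 : ℝ) P := ⟨by linarith, by linarith⟩
  rcases lt_or_ge (s' - n * P) P with hl | hg
  · have m2 : s' - n * P ∈ Ico (0 : ℝ) P := ⟨by linarith, hl⟩
    have := hinj m2 m1 (by rw [e1, e2, he])
    linarith
  · have m2 : s' - n * P - P ∈ Ico (0 : ℝ) P := ⟨by linarith, by linarith⟩
    have e3 : γ (s' - n * P - P) = γ (s' - n * P) := hper.sub_eq _
    have := hinj m2 m1 (by rw [e3, e1, e2, he])
    linarith

/-- near `s` the curve is strictly on the left of its tangent line -/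
lemma near_of_table (h : IsTable Ω γ P) (s : ℝ) :
    ∃ δ > 0, ∀ t, t ≠ s → |t - s| < δ → 0 < dt (deriv γ s) (γ t - γ s) := by
  obtain ⟨-, -, -, -, ⟨hP, hs, hper, hinj, -, -⟩, hcv⟩ := h
  set a := deriv γ s with ha
  set g : ℝ → ℝ := fun t => dt a (γ t - γ s) with hg
  set g' : ℝ → ℝ := fun t => dt a (deriv γ t - 0) with hg'
  have d1 : ∀ t, HasDerivAt g (g' t) t := by
    intro t
    have := hasDerivAt_dt (u := a) (p := γ s) (sm_der hs t)
    simpa [hg', sub_zero] using this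
  have d2 : HasDerivAt g' (dt a (deriv (deriv γ) s)) s :=
    hasDerivAt_dt (u := a) (p := 0) (sm_der2 hs s)
  have hpos : 0 < deriv g' s := by
    rw [d2.deriv, dt_eq]
    exact hcv s
  have hz : g' s = 0 := by simp [hg', ← ha, dt_self]
  have hgs : g s = 0 := by simp [hg, dt]
  obtain ⟨δ, hδ, hsig⟩ := Metric.eventually_nhds_iff.1
    (eventually_nhdsWithin_sign_eq_of_deriv_pos hpos hz)
  have hcont : Continuous g := continuous_iff_continuousAt.2 fun t => (d1 t).continuousAt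
  have hdg : ∀ t, deriv g t = g' t := fun t => (d1 t).deriv
  refine ⟨δ, hδ, fun t hne ht => ?_⟩
  change 0 < g t
  rw [← hgs]
  rcases lt_or_gt_of_ne hne with hl | hr
  · -- strictly decreasing on `[t, s]`
    have : StrictAntiOn g (Icc t s) := by
      apply strictAntiOn_of_deriv_neg (convex_Icc _ _) hcont.continuousOn
      intro x hx
      rw [interior_Icc] at hx
      rw [hdg]
      have h1 := hsig (y := x) (by
        rw [Real.dist_eq, abs_of_neg (by linarith [hx.2])]
        rw [abs_of_neg (by linarith)] at ht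
        linarith [hx.1])
      rw [_root_.sign_neg (show x - s < 0 by linarith [hx.2])] at h1
      exact sign_eq_neg_one_iff.1 h1
    exact this (left_mem_Icc.2 hl.le) (right_mem_Icc.2 hl.le) hl
  · have : StrictMonoOn g (Icc s t) := by
      apply strictMonoOn_of_deriv_pos (convex_Icc _ _) hcont.continuousOn
      intro x hx
      rw [interior_Icc] at hx
      rw [hdg]
      have h1 := hsig (y := x) (by
        rw [Real.dist_eq, abs_of_pos (by linarith [hx.1])]
        rw [abs_of_pos (by linarith)] at ht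
        linarith [hx.2])
      rw [_root_.sign_pos (show 0 < x - s by linarith [hx.1])] at h1
      exact sign_eq_one_iff.1 h1
    exact this (left_mem_Icc.2 hr.le) (right_mem_Icc.2 hr.le) hr

/-- the table is on the left of every tangent line (weakly on the closure, strictly inside) -/
lemma side_of_table (h : IsTable Ω γ P) (s : ℝ) :
    (∀ z ∈ Ω, 0 < dt (deriv γ s) (z - γ s)) ∧
      ∀ z ∈ closure Ω, 0 ≤ dt (deriv γ s) (z - γ s) := by
  have hnear := near_of_table h s
  obtain ⟨hop, -, -, hsc, ⟨hP, hs, hper, hinj, hd, hfr⟩, hcv⟩ := h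
  set p := γ s with hp
  set a := deriv γ s with ha
  have hpf : p ∈ frontier Ω := by rw [← hfr]; exact ⟨s, rfl⟩
  have hpn : p ∉ Ω := by rw [hop.frontier_eq] at hpf; exact hpf.2
  obtain ⟨f, hf⟩ := geometric_hahn_banach_open_point hsc.convex hop hpn
  have hfc : ∀ z ∈ closure Ω, f z ≤ f p := by
    intro z hz
    exact (isClosed_le f.continuous continuous_const).closure_subset_iff.2
      (fun z hz => (hf z hz).le) hz
  have hγc : ∀ t, γ t ∈ closure Ω := fun t => by
    apply frontier_subset_closure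
    rw [← hfr]; exact ⟨t, rfl⟩
  have hder : HasDerivAt (fun t => f (γ t)) (f a) s := f.hasFDerivAt.comp_hasDerivAt s (sm_der hs s)
  have hmax : IsLocalMax (fun t => f (γ t)) s :=
    Filter.Eventually.of_forall fun t => hfc _ (hγc t)
  have hfa : f a = 0 := hmax.hasDerivAt_eq_zero hder
  have ha0 := dot_self_pos (hd s)
  rw [← ha] at ha0
  have key : ∀ v : ℝ × ℝ, dot a a * f v = dt a v * f (perp a) := by
    intro v
    have h1 : dot a a • v = dot a v • a + dt a v • perp a := by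
      unfold dot dt perp
      ext
      · simp only [Prod.smul_fst, Prod.fst_add, smul_eq_mul]; ring
      · simp only [Prod.smul_snd, Prod.snd_add, smul_eq_mul]; ring
    have h2 : f (dot a a • v) = f (dot a v • a + dt a v • perp a) := by rw [h1]
    rw [map_add, map_smul, map_smul, map_smul, hfa, smul_eq_mul, smul_eq_mul, smul_eq_mul,
      mul_zero, zero_add] at h2
    exact h2
  -- the sign of `f (perp a)`
  obtain ⟨δ, hδ, hnr⟩ := hnear
  have hneg : f (perp a) < 0 := by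
    have h1 := hnr (s + δ / 2) (by linarith) (by
      rw [show s + δ / 2 - s = δ / 2 by ring, abs_of_pos (by linarith)]; linarith)
    have h2 := key (γ (s + δ / 2) - p)
    have h3 : f (γ (s + δ / 2) - p) ≤ 0 := by
      rw [map_sub]; linarith [hfc _ (hγc (s + δ / 2))]
    have h4 : dt a (γ (s + δ / 2) - p) * f (perp a) ≤ 0 := by
      rw [← h2]; exact mul_nonpos_of_nonneg_of_nonpos ha0.le h3
    have h5 : f (perp a) ≤ 0 := by
      by_contra hcon
      have := mul_pos h1 (not_le.1 hcon)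
      linarith
    rcases h5.lt_or_eq with h6 | h6
    · exact h6
    · exfalso
      -- then `f = 0`
      have : ∀ v, f v = 0 := by
        intro v
        have := key v
        rw [h6, mul_zero] at this
        rcases mul_eq_zero.1 this with h | h
        · exact absurd h ha0.ne'
        · exact h
      have hne : (closure Ω).Nonempty := ⟨p, hγc s⟩
      obtain ⟨z, hz⟩ := closure_nonempty_iff.1 hne
      have := hf z hz
      rw [‹∀ v, f v = 0› z, ‹∀ v, f v = 0› p] at this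
      exact lt_irrefl _ this
  constructor
  · intro z hz
    have h2 := key (z - p)
    have h3 : f (z - p) < 0 := by rw [map_sub]; linarith [hf z hz]
    have h4 : dt a (z - p) * f (perp a) < 0 := by rw [← h2]; exact mul_neg_of_pos_of_neg ha0 h3
    by_contra hcon
    have := mul_nonneg_of_nonpos_of_nonpos (not_lt.1 hcon) hneg.le
    linarith
  · intro z hz
    have h2 := key (z - p)
    have h3 : f (z - p) ≤ 0 := by rw [map_sub]; linarith [hfc z hz]
    have h4 : dt a (z - p) * f (perp a) ≤ 0 := by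
      rw [← h2]; exact mul_nonpos_of_nonneg_of_nonpos ha0.le h3
    by_contra hcon
    have := mul_pos_of_neg_of_neg (not_le.1 hcon) hneg
    linarith

/-- strict on the closure, except at the point of tangency -/
lemma tan_of_table (h : IsTable Ω γ P) (s : ℝ) {z : ℝ × ℝ} (hz : z ∈ closure Ω)
    (hne : z ≠ γ s) : 0 < dt (deriv γ s) (z - γ s) := by
  have hside := side_of_table h s
  obtain ⟨δ, hδ, hnr⟩ := near_of_table h s
  have hinj' := fun t h1 h2 => ne_of_table h (s := s) (s' := t) h1 h2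
  obtain ⟨hop, -, -, hsc, ⟨hP, hs, hper, hinj, hd, hfr⟩, hcv⟩ := h
  refine lt_of_le_of_ne (hside.2 z hz) fun h0 => ?_
  set p := γ s with hp
  set a := deriv γ s with ha
  have hγc : ∀ t, γ t ∈ closure Ω := fun t => by
    apply frontier_subset_closure
    rw [← hfr]; exact ⟨t, rfl⟩
  set K' : Set (ℝ × ℝ) := γ '' Icc (s + δ) (s + P - δ) with hK'
  have hK'c : IsClosed K' := (isCompact_Icc.image hs.continuous).isClosed
  have hmem : ∀ r ∈ Ioc (0 : ℝ) 1, p + r • (z - p) ∈ K' := by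
    intro r hr
    have h1 : p + r • (z - p) ∈ closure Ω :=
      (hsc.convex.closure).add_smul_sub_mem (hγc s) hz ⟨hr.1.le, hr.2⟩
    have h2 : dt a (p + r • (z - p) - p) = 0 := by
      rw [add_sub_cancel_left, dt_smul, ← h0, mul_zero]
    have h3 : p + r • (z - p) ∉ Ω := fun hin => by
      have := hside.1 _ hin
      linarith
    have h4 : p + r • (z - p) ∈ frontier Ω := by rw [hop.frontier_eq]; exact ⟨h1, h3⟩
    rw [← hfr] at h4
    obtain ⟨t, ht⟩ := h4
    -- shift `t` into `[s, s + P)`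
    set n : ℤ := ⌊(t - s) / P⌋ with hn
    have a1 : (n : ℝ) ≤ (t - s) / P := Int.floor_le _
    have a2 : (t - s) / P < n + 1 := Int.lt_floor_add_one _
    rw [le_div_iff₀ hP] at a1
    rw [div_lt_iff₀ hP] at a2
    have e1 : γ (t - n * P) = γ t := by
      have := hper.sub_zsmul_eq (x := t) n
      rwa [zsmul_eq_mul] at this
    set t' := t - n * P with ht'
    have b1 : s ≤ t' := by rw [ht']; linarith
    have b2 : t' < s + P := by rw [ht']; linarith
    have hzp : z - p ≠ 0 := sub_ne_zero.2 hne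
    have b3 : t' ≠ s := by
      rintro hts
      have h5 : p + r • (z - p) = p := by rw [← ht, ← e1, hts]
      have h6 : r • (z - p) = 0 := by simpa using h5
      rcases smul_eq_zero.1 h6 with h7 | h7
      · exact hr.1.ne' h7
      · exact hzp h7
    refine ⟨t', ⟨?_, ?_⟩, by rw [e1, ht]⟩
    · by_contra hcon
      have h7 := hnr t' b3 (by
        rw [abs_of_nonneg (by linarith)]; linarith [not_le.1 hcon])
      rw [e1, ht, h2] at h7
      exact lt_irrefl _ h7
    · by_contra hcon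
      have e2 : γ (t' - P) = γ t' := hper.sub_eq _
      have h7 := hnr (t' - P) (by intro hh; linarith) (by
        rw [abs_of_neg (by linarith)]; linarith [not_le.1 hcon])
      rw [e2, e1, ht, h2] at h7
      exact lt_irrefl _ h7
  have htd : Tendsto (fun r : ℝ => p + r • (z - p)) (𝓝[>] 0) (𝓝 p) := by
    have hc : Continuous fun r : ℝ => p + r • (z - p) := by fun_prop
    have := hc.tendsto 0
    simp only [zero_smul, add_zero] at this
    exact this.mono_left nhdsWithin_le_nhds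
  have hin : p ∈ K' := by
    apply hK'c.mem_of_tendsto htd
    filter_upwards [Ioc_mem_nhdsGT (show (0 : ℝ) < 1 by norm_num)] with r hr using hmem r hr
  obtain ⟨t, ht, hte⟩ := hin
  exact hinj' t (by linarith [ht.1]) (by linarith [ht.2]) hte

/-- orientation of three points of the curve -/
lemma ori_of_table (h : IsTable Ω γ P) {s s' σ : ℝ} (h1 : s < s') (h2 : s' < σ)
    (h3 : σ < s + P) : 0 < dt (γ s' - γ s) (γ σ - γ s) := by
  have hne : ∀ x y, x < y → y < x + P → γ y ≠ γ x := fun x y => ne_of_table h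
  have htan : ∀ x y, γ y ≠ γ x → 0 < dt (deriv γ x) (γ y - γ x) := by
    intro x y hxy
    refine tan_of_table h x ?_ hxy
    apply frontier_subset_closure
    rw [← h.2.2.2.2.1.2.2.2.2.2]; exact ⟨y, rfl⟩
  obtain ⟨hop, -, -, hsc, ⟨hP, hs, hper, hinj, hd, hfr⟩, hcv⟩ := h
  set u := γ s' - γ s with hu
  have n1 := hne s s' h1 (by linarith)
  have hu0 : u ≠ 0 := sub_ne_zero.2 n1
  -- no zero
  have nz : ∀ x, s' < x → x < s + P → dt u (γ x - γ s) ≠ 0 := by
    intro x hx1 hx2 h0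
    obtain ⟨c, hc⟩ := par hu0 h0
    have n2 := hne s x (by linarith) hx2
    have n3 := hne s' x hx1 (by linarith)
    have c0 : c ≠ 0 := by
      rintro rfl
      rw [zero_smul] at hc
      exact n2 (sub_eq_zero.1 hc)
    have c1 : c ≠ 1 := by
      rintro rfl
      rw [one_smul, hu] at hc
      exact n3 (sub_left_injective hc)
    rcases lt_or_gt_of_ne c0 with hneg | hpos
    · have t1 := htan s s' n1
      have t2 := htan s x n2
      rw [hc, dt_smul] at t2
      have := mul_neg_of_neg_of_pos hneg t1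
      linarith
    rcases lt_or_gt_of_ne c1 with hlt | hgt
    · have t1 := htan x s n2.symm
      have t2 := htan x s' n3.symm
      have e1 : γ s - γ x = (-c) • u := by
        have : γ s - γ x = -(γ x - γ s) := by abel
        rw [this, hc, neg_smul]
      have e2 : γ s' - γ x = (1 - c) • u := by
        have : γ s' - γ x = u - (γ x - γ s) := by rw [hu]; abel
        rw [this, hc, sub_smul, one_smul]
      rw [e1, dt_smul] at t1
      rw [e2, dt_smul] at t2
      have q1 : 0 < dt (deriv γ x) u := by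
        by_contra hcon
        have := mul_nonpos_of_nonneg_of_nonpos (show (0 : ℝ) ≤ 1 - c by linarith) (not_lt.1 hcon)
        linarith
      have := mul_neg_of_neg_of_pos (show -c < 0 by linarith) q1
      linarith
    · have t1 := htan s' s n1.symm
      have t2 := htan s' x n3
      have e1 : γ s - γ s' = (-1 : ℝ) • u := by rw [hu, neg_smul, one_smul]; abel
      have e2 : γ x - γ s' = (c - 1) • u := by
        have : γ x - γ s' = (γ x - γ s) - u := by rw [hu]; abel
        rw [this, hc, sub_smul, one_smul]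
      rw [e1, dt_smul] at t1
      rw [e2, dt_smul] at t2
      have q1 : 0 < dt (deriv γ s') u := by
        by_contra hcon
        have := mul_nonpos_of_nonneg_of_nonpos (show (0 : ℝ) ≤ c - 1 by linarith) (not_lt.1 hcon)
        linarith
      linarith
  -- positive near `s'`
  set f : ℝ → ℝ := fun x => dt u (γ x - γ s) with hf
  have hder : HasDerivAt f (dt u (deriv γ s')) s' := hasDerivAt_dt (sm_der hs s')
  have hfs : f s' = 0 := by rw [hf]; exact dt_self u
  have hpos : 0 < deriv f s' := by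
    rw [hder.deriv, dt_swap, ← dt_neg, hu, neg_sub]
    exact htan s' s n1.symm
  have hcont : Continuous f := by
    rw [hf]
    unfold dt
    have := hs.continuous
    fun_prop
  obtain ⟨ε, hε, hsig⟩ := Metric.eventually_nhds_iff.1
    (eventually_nhdsWithin_sign_eq_of_deriv_pos hpos hfs)
  set x1 := s' + min (ε / 2) ((σ - s') / 2) with hx1
  have m0 : 0 < min (ε / 2) ((σ - s') / 2) := lt_min (by linarith) (by linarith)
  have m1 : min (ε / 2) ((σ - s') / 2) ≤ ε / 2 := min_le_left _ _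
  have m2 : min (ε / 2) ((σ - s') / 2) ≤ (σ - s') / 2 := min_le_right _ _
  have hf1 : 0 < f x1 := by
    have h4 := hsig (y := x1) (by
      rw [Real.dist_eq, hx1, add_sub_cancel_left, abs_of_pos m0]; linarith)
    rw [_root_.sign_pos (show 0 < x1 - s' by rw [hx1]; linarith)] at h4
    exact sign_eq_one_iff.1 h4
  by_contra hcon
  have hiv := intermediate_value_Icc' (show x1 ≤ σ by rw [hx1]; linarith) hcont.continuousOn
  obtain ⟨x, hx, hx0⟩ := hiv ⟨not_lt.1 hcon, hf1.le⟩
  exact nz x (by linarith [hx.1]) (by linarith [hx.2]) hx0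

/-- the facts (T1) about a table -/
theorem tf_of_isTable (h : IsTable Ω γ P) : TF Ω γ P where
  hP := h.2.2.2.2.1.1
  op := h.1
  bd := h.2.1
  per := h.2.2.2.2.1.2.2.1
  der := sm_der h.2.2.2.2.1.2.1
  dne := h.2.2.2.2.1.2.2.2.2.1
  fr := h.2.2.2.2.1.2.2.2.2.2
  tan := fun s _ hz hne => tan_of_table h s hz hne
  ori := fun _ _ _ h1 h2 h3 => ori_of_table h h1 h2 h3

/-- **(T2)**, literal form -/
theorem leafFam_of_hasCausticCollar (h : IsTable Ω γ P) (hc : HasCausticCollar Ω γ) :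
    ∃ (F : ℝ → ℝ → ℝ) (b₁ : ℝ), S0.LeafFam P b₁ (S0.p1 γ) (S0.p2 γ) F := by
  obtain ⟨F, hF⟩ := leafFam_of_collar (tf_of_isTable h) hc
  exact ⟨F, _, hF⟩

end

end Crest.Agent.R102.T2
end
end

-- ▼ part R102/Link_160
section

/-!
Row 102: the links S0134/S0135 ⇒ `LeafFam` ⇒ `Closing` for a table.
-/

set_option autoImplicit false

namespace Crest.Agent.R102.S0

open Set Crest.AnalysisR.Billiard

/-- **T3c**: a foliation by invariant curves consists (near the boundary) of graphs. -/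
theorem leafFam_of_folData {P : ℝ} {q1 q2 h : ℝ → ℝ → ℝ} {S g : ℝ → ℝ → ℝ}
    (hT : TwistData P q1 q2 h) (hF : FolData P q1 q2 S g) : ∃ F b₁, LeafFam P b₁ q1 q2 F :=
  leafFam_of_folData_of_area hT hF (isNext_nextT hT) (areaL_of_isNext hT (isNext_nextT hT))

/-- the link for S0135. -/
theorem leafFam_of_hasInvariantPhaseFoliation {Ω : Set (ℝ × ℝ)} {γ : ℝ → ℝ × ℝ} {P : ℝ}
    (ht : IsTable Ω γ P) (hf : HasInvariantPhaseFoliation Ω γ) :
    ∃ F b₁, LeafFam P b₁ (p1 γ) (p2 γ) F := by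
  obtain ⟨S, g, hF⟩ := L785.folData_of_foliation ht hf
  exact leafFam_of_folData (twistData_of_isTable ht) hF

/-- **The complete link**: for a table with a continuous collar of caustics (S0134) or an
invariant phase foliation (S0135), the Lazutkin datum `qT ht` satisfies the closing condition
`RStarP`. -/
theorem rstarP_of_table {Ω : Set (ℝ × ℝ)} {γ : ℝ → ℝ × ℝ} {P : ℝ} (ht : IsTable Ω γ P)
    (hf : HasCausticCollar Ω γ ∨ HasInvariantPhaseFoliation Ω γ) :
    T5.Laz γ P (T5.qT ht) (T5.sig ht) (T5.Kc ht) ∧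
      ∃ ε₁ : ℝ, 0 < ε₁ ∧ A929.RStarP (T5.qT ht) ε₁ := by
  have hL : ∃ F b₁, LeafFam P b₁ (p1 γ) (p2 γ) F := by
    rcases hf with hf | hf
    · exact T2.leafFam_of_hasCausticCollar ht hf
    · exact leafFam_of_hasInvariantPhaseFoliation ht hf
  obtain ⟨F, b₁, lf⟩ := hL
  have tw := twistData_of_isTable ht
  obtain ⟨e, he, hC⟩ := T5.closing_of_leafFam tw lf
  have hγ : Differentiable ℝ γ := ht.2.2.2.2.1.2.1.differentiable (by simp)
  exact ⟨T5.laz_of_isTable ht, T5.rstarP_of_closing (T5.laz_of_isTable ht) hγ tw.per2 he hC⟩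

end Crest.Agent.R102.S0
end

-- ▼ part R102/Asm_821
section

/-!
Row 102, assembly: a table with a continuous collar of caustics or an invariant phase foliation
has an analytic Lazutkin datum `q` with `(R*)` (link `S0` + part (A)), and a jointly analytic leaf
family (part (B)).  What remains is the analytic statement `PartC`.
-/

set_option autoImplicit false

namespace Crest.Agent.R102.C0

open Crest.AnalysisR.Billiard Set Filter Topology
open Crest.Agent.R102.T5 Crest.Agent.R102.G576 Crest.Agent.R102.A929 Crest.Agent.R102.B821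
open Crest.Agent.R102.S0
open Crest.Agent.R102
open scoped ComplexConjugate

/-- **(S0) + (A)**: the analytic datum of a table with a collar/foliation. -/
theorem table_datum {Ω : Set (ℝ × ℝ)} {γ : ℝ → ℝ × ℝ} {P : ℝ} (ht : IsTable Ω γ P)
    (hf : HasCausticCollar Ω γ ∨ HasInvariantPhaseFoliation Ω γ) :
    ∃ (q : C(ℂ, ℂ)) (η : ℝ) (σ : ℝ → ℝ) (K₀ : ℂ) (ε₁ : ℝ), 0 < η ∧
      DifferentiableOn ℂ q (Str η) ∧ (∀ z ∈ Str η, q (z + 1) = q z) ∧
      (∀ z ∈ Str η, q (conj z) = conj (q z)) ∧ Laz γ P q σ K₀ ∧ 0 < ε₁ ∧ RStarP q ε₁ := by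
  obtain ⟨hl, ε₁, hε₁, hR⟩ := rstarP_of_table ht hf
  obtain ⟨C, a, ha, hc⟩ := EndA575.partA (q0 ht) (contDiff_q0 ht) (q0_per ht) ε₁ hε₁ hR
  obtain ⟨q, η, hη, hd, hq, hper, hconj⟩ := exists_q (contDiff_q0 ht).continuous (q0_per ht) ha hc
  have hqq : ∀ x : ℝ, q x = qT ht x := fun x => by rw [hq, qT_ofReal]
  exact ⟨q, η, sig ht, Kc ht, ε₁, hη, hd, hper, hconj, hl.congr hqq, hε₁, rStarP_congr hR hqq⟩

/-- an analytic datum `q`: holomorphic, real and 1-periodic on the strip, and its real curve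
`Gc q` (velocity `exp (-2 q + i Th)`, `Th' = exp q`) is a simple closed strictly convex curve. -/
structure Datum (q : C(ℂ, ℂ)) (η : ℝ) : Prop where
  η_pos : 0 < η
  diff : DifferentiableOn ℂ q (Str η)
  per : ∀ z ∈ Str η, q (z + 1) = q z
  cj : ∀ z ∈ Str η, q (conj z) = conj (q z)
  closed : ∀ x : ℝ, Gc q (x + 1) = Gc q x
  inj : ∀ x y : ℝ, Gc q x = Gc q y → ∃ n : ℤ, y = x + n
  turn : ∀ x : ℝ, Th q (x + 1) = Th q x + 2 * Real.pi
  convex : ∀ x y : ℝ, x < y → y < x + 1 → 0 < (conj (Gd q x) * (Gc q y - Gc q x)).im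

/-- a jointly analytic leaf family, as delivered by part (B) -/
structure Leaves (q : C(ℂ, ℂ)) (ρ₀ ε₀ ρ r B : ℝ) (U : ℂ × ℂ → ℂ) (m₀ : ℂ → ℂ) : Prop where
  lag : IsLag ρ₀ ε₀ (Lq q) (Psq q)
  B_nn : 0 ≤ B
  adm : Adm ρ₀ ε₀ ρ r U
  bdd : Bdd (1 / 2) ρ r 2 B U
  el : ∀ p ∈ Dom (3 / 2) ρ r, Ef (Lq q) U p = 0
  m_diff : DifferentiableOn ℂ m₀ (Metric.ball 0 r)
  area : ∀ p ∈ Dom 1 ρ r, muf (Lq q) U p = p.2 * m₀ p.2
  m_near : ∀ w : ℂ, ‖w‖ < r → ‖m₀ w - 1‖ ≤ 1 / 8

theorem datum_of_laz {Ω : Set (ℝ × ℝ)} {γ : ℝ → ℝ × ℝ} {P : ℝ} (ht : IsTable Ω γ P)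
    {q : C(ℂ, ℂ)} {η : ℝ} {σ : ℝ → ℝ} {K₀ : ℂ} (hη : 0 < η) (hd : DifferentiableOn ℂ q (Str η))
    (hper : ∀ z ∈ Str η, q (z + 1) = q z) (hconj : ∀ z ∈ Str η, q (conj z) = conj (q z))
    (hl : Laz γ P q σ K₀) : Datum q η := by
  have hγ : Differentiable ℝ γ := (tbl_smooth ht).differentiable (by simp)
  have hclosed : ∀ x : ℝ, Gc q (x + 1) = Gc q x := by
    intro x
    have h1 := hl.curve x
    have h2 := hl.curve (x + 1)
    rw [hl.σ_per, tbl_per ht (σ x), h1] at h2
    exact (mul_left_cancel₀ hl.K_ne (add_left_cancel h2)).symm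
  have hconvex : ∀ x y : ℝ, x < y → y < x + 1 →
      0 < (conj (Gd q x) * (Gc q y - Gc q x)).im := by
    intro x y hxy hy1
    have h1 : σ x < σ y := hl.σ_mono hxy
    have h2 : σ y < σ x + P := by rw [← hl.σ_per]; exact hl.σ_mono hy1
    have h3 := tbl_tan_pos ht h1 h2
    rw [det2_eq, hl.chord] at h3
    have h4 := hl.velocity hγ x
    have h5 : ((deriv σ x : ℝ) : ℂ) * (conj (toC (deriv γ (σ x))) * (K₀ * (Gc q y - Gc q x))) =
        ((‖K₀‖ ^ 2 : ℝ) : ℂ) * (conj (Gd q x) * (Gc q y - Gc q x)) := by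
      have h6 : conj (toC (deriv γ (σ x))) * ((deriv σ x : ℝ) : ℂ) = conj K₀ * conj (Gd q x) := by
        rw [← map_mul, ← h4, map_mul, Complex.conj_ofReal]
      have h7 := Complex.mul_conj' K₀
      push_cast
      rw [← h7]
      linear_combination K₀ * (Gc q y - Gc q x) * h6
    have h6 := congrArg Complex.im h5
    rw [Complex.im_ofReal_mul, Complex.im_ofReal_mul] at h6
    have h7 : 0 < deriv σ x * (conj (toC (deriv γ (σ x))) * (K₀ * (Gc q y - Gc q x))).im :=
      mul_pos (hl.σ_pos x) h3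
    rw [h6] at h7
    exact pos_of_mul_pos_right h7 (by positivity)
  have hTm : ∀ x y : ℝ, x < y → Th q x < Th q y := by
    have : StrictMono (Th q) := strictMono_of_deriv_pos (fun x => by
      rw [(hasDerivAt_Th x).deriv]; exact Real.exp_pos _)
    exact fun x y h => this h
  have hqp : ∀ x : ℝ, qr q (x + 1) = qr q x := by
    intro x
    unfold qr
    rw [show (((x + 1 : ℝ)) : ℂ) = (x : ℂ) + 1 by push_cast; rfl, hl.per]
  refine ⟨hη, hd, hper, hconj, hclosed, ?_, ?_, hconvex⟩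
  · intro x y hxy
    have h1 : toC (γ (σ x)) = toC (γ (σ y)) := by rw [hl.curve x, hl.curve y, hxy]
    have h2 : γ (σ x) = γ (σ y) := by
      have h3 := congrArg Complex.re h1
      have h4 := congrArg Complex.im h1
      rw [toC_re, toC_re] at h3
      rw [toC_im, toC_im] at h4
      exact Prod.ext h3 h4
    obtain ⟨m, hm⟩ := tbl_inj_mod ht h2
    refine ⟨m, hl.σ_mono.injective ?_⟩
    have h5 : ∀ n : ℤ, σ (x + n) = σ x + n * P := by
      intro n
      obtain ⟨k, rfl | rfl⟩ := n.eq_nat_or_neg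
      · have := hl.σ_per_nat x k
        push_cast
        exact this
      · have := hl.σ_per_nat (x - k) k
        rw [sub_add_cancel] at this
        push_cast
        rw [← sub_eq_add_neg]
        linarith
    rw [h5, hm]
  · intro x
    have h1 : Gd q (x + 1) = Gd q x := by
      have h2 : HasDerivAt (fun x => Gc q (x + 1)) (Gd q (x + 1)) x :=
        HasDerivAt.comp_add_const x 1 (hasDerivAt_Gc (x + 1))
      have h3 : (fun x => Gc q (x + 1)) = Gc q := funext hclosed
      rw [h3] at h2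
      exact h2.unique (hasDerivAt_Gc x)
    unfold Gd at h1
    rw [hqp, Complex.exp_add, Complex.exp_add] at h1
    have h2 := mul_left_cancel₀ (Complex.exp_ne_zero _) h1
    rw [Complex.exp_eq_exp_iff_exists_int] at h2
    obtain ⟨n, hn⟩ := h2
    have h3 : Th q (x + 1) = Th q x + n * (2 * Real.pi) := by
      have h4 : ((Th q (x + 1) : ℝ) : ℂ) = ((Th q x + n * (2 * Real.pi) : ℝ) : ℂ) := by
        have : Complex.I * ((Th q (x + 1) : ℝ) : ℂ) =
            Complex.I * ((Th q x + n * (2 * Real.pi) : ℝ) : ℂ) := by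
          rw [hn]; push_cast; ring
        exact mul_left_cancel₀ Complex.I_ne_zero this
      exact_mod_cast h4
    have hpi := Real.pi_pos
    have h4 : (0 : ℝ) < n := by
      have := hTm x (x + 1) (by linarith)
      rw [h3] at this
      by_contra hc
      push Not at hc
      nlinarith
    have h5 : n = 1 := by
      have h6 : 0 < n := by exact_mod_cast h4
      by_contra hne
      have h7 : (2 : ℤ) ≤ n := by omega
      have h8 : (2 : ℝ) ≤ n := by exact_mod_cast h7
      have hTc : Continuous (Th q) := continuous_iff_continuousAt.2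
        (fun x => (hasDerivAt_Th x).continuousAt)
      obtain ⟨y, hy, hTy⟩ := intermediate_value_Icc (show x ≤ x + 1 by linarith)
        hTc.continuousOn (show Th q x + 2 * Real.pi ∈ Icc (Th q x) (Th q (x + 1)) from
          ⟨by linarith, by rw [h3]; nlinarith⟩)
      have hxy : x < y := by
        rcases lt_or_eq_of_le hy.1 with h | h
        · exact h
        · exfalso; rw [← h] at hTy; linarith
      have hy1 : y < x + 1 := by
        rcases lt_or_eq_of_le hy.2 with h | h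
        · exact h
        · exfalso; rw [h, h3] at hTy; nlinarith
      have c1 := hconvex x y hxy hy1
      have c2 := hconvex y (x + 1) hy1 (by linarith)
      rw [hclosed] at c2
      have h9 : Gd q y = ((Real.exp (-2 * qr q y + 2 * qr q x) : ℝ) : ℂ) * Gd q x := by
        unfold Gd
        rw [hTy, Complex.ofReal_exp, ← Complex.exp_add, Complex.exp_eq_exp_iff_exists_int]
        refine ⟨1, ?_⟩
        push_cast
        ring
      rw [h9, map_mul, Complex.conj_ofReal, mul_assoc, Complex.im_ofReal_mul] at c2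
      have h10 := pos_of_mul_pos_right c2 (Real.exp_pos _).le
      have h11 : conj (Gd q x) * (Gc q x - Gc q y) = -(conj (Gd q x) * (Gc q y - Gc q x)) := by
        ring
      rw [h11, Complex.neg_im] at h10
      linarith
    rw [h3, h5]
    push_cast
    ring

/-- **The one open statement of row 102**: an analytic datum with a jointly analytic family of
leaves is a conic datum. -/
def PartC : Prop :=
  ∀ (q : C(ℂ, ℂ)) (η ρ₀ ε₀ ρ r B : ℝ) (U : ℂ × ℂ → ℂ) (m₀ : ℂ → ℂ), Datum q η → ρ₀ < η →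
    Leaves q ρ₀ ε₀ ρ r B U m₀ →
    ∃ K : ℝ, ∀ x : ℝ, deriv (deriv (fun x => Real.exp (qr q x))) x =
      (K - 2 * Real.exp (qr q x) ^ 2) * Real.exp (qr q x)

theorem conclusion_of_partC (hC : PartC) {Ω : Set (ℝ × ℝ)} {γ : ℝ → ℝ × ℝ} {P : ℝ}
    (ht : IsTable Ω γ P) (hf : HasCausticCollar Ω γ ∨ HasInvariantPhaseFoliation Ω γ) :
    ∃ (c : ℝ × ℝ) (Q : Matrix (Fin 2) (Fin 2) ℝ), Q.PosDef ∧
      Ω = {x : ℝ × ℝ | dotProduct ![x.1 - c.1, x.2 - c.2]
        (Q.mulVec ![x.1 - c.1, x.2 - c.2]) < 1} := by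
  obtain ⟨q, η, σ, K₀, ε₁, hη, hd, hper, hconj, hl, hε₁, hR⟩ := table_datum ht hf
  obtain ⟨ε₀, ε₂, hε₂, hL, hRS⟩ := lag_of_q hd hper hl.im hε₁ hR (ρ₀ := η / 2) (by positivity)
    (by linarith)
  obtain ⟨ρ, r, B, U, m₀, hB, hadm, hUb, hE, hm, hmu, hmb⟩ := part_B hL hε₂ hRS B540.resonanceB4
  obtain ⟨K, hK⟩ := hC q η (η / 2) ε₀ ρ r B U m₀ (datum_of_laz ht hη hd hper hconj hl)
    (by linarith) ⟨hL, hB, hadm, hUb, hE, hm, hmu, hmb⟩
  exact ellipse_of_Kconst ht hl K hK

end Crest.Agent.R102.C0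
end

-- ▼ part R102/Crv_821

/-!
Row 102, (C0), part 1: the complexified curve of an analytic datum: primitives on a strip,
tangent angle `Tc`, isotropic coordinates `Zs q 1 = X + iY`, `Zs q (-1) = X - iY`, arclength `Sc`,
chords, direction `ph` and length of a chord near the diagonal.
-/

set_option autoImplicit false

open Set Filter Topology MeasureTheory
open scoped ComplexConjugate

noncomputable section

namespace Crest.Agent.R102.C0

open Crest.Agent.R102.T5 Crest.Agent.R102.G576 Crest.Agent.R102.A929 Crest.Agent.R102.B821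

section Prim

variable {f : ℂ → ℂ} {η : ℝ}

/-- the primitive of `f` which vanishes at `0` -/
def prim (f : ℂ → ℂ) (z : ℂ) : ℂ := ∫ r in (0 : ℝ)..1, z * f (r * z)

lemma mul_mem_Str {z : ℂ} (hz : z ∈ Str η) {r : ℝ} (h0 : 0 ≤ r) (h1 : r ≤ 1) :
    (r : ℂ) * z ∈ Str η := by
  have h2 : |z.im| < η := hz
  change |((r : ℂ) * z).im| < η
  rw [Complex.im_ofReal_mul, abs_mul, abs_of_nonneg h0]
  exact (mul_le_of_le_one_left (abs_nonneg _) h1).trans_lt h2

lemma differentiableOn_prim (hf : DifferentiableOn ℂ f (Str η)) :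
    DifferentiableOn ℂ (prim f) (Str η) := by
  have h1 := R266.SCV.analyticOnNhd_intervalIntegral (E := ℂ) (F := ℂ)
    (f := fun p : ℂ × ℝ => p.1 * f (p.2 * p.1)) (a := 0) (b := 1) (isOpen_Str η) ?_ ?_
  · exact h1.differentiableOn
  · refine continuousOn_fst.mul ?_
    refine hf.continuousOn.comp (f := fun p : ℂ × ℝ => (p.2 : ℂ) * p.1) (by fun_prop) ?_
    intro p hp
    have h2 := hp.2
    rw [uIcc_of_le zero_le_one] at h2
    exact mul_mem_Str hp.1 h2.1 h2.2
  · intro r hr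
    rw [uIcc_of_le zero_le_one] at hr
    refine differentiableOn_id.mul ?_
    exact hf.comp (f := fun z : ℂ => (r : ℂ) * z) (by fun_prop)
      (fun z hz => mul_mem_Str hz hr.1 hr.2)

lemma prim_ofReal (f : ℂ → ℂ) (x : ℝ) : prim f x = ∫ t in (0 : ℝ)..x, f (t : ℂ) := by
  have h1 := intervalIntegral.smul_integral_comp_mul_right (a := 0) (b := 1)
    (fun t : ℝ => f (t : ℂ)) x
  rw [zero_mul, one_mul] at h1
  rw [← h1]
  unfold prim
  rw [intervalIntegral.integral_const_mul, Complex.real_smul]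
  push_cast
  rfl

lemma hasDerivAt_prim (hη : 0 < η) (hf : DifferentiableOn ℂ f (Str η)) {z : ℂ} (hz : z ∈ Str η) :
    HasDerivAt (prim f) (f z) z := by
  have hd := differentiableOn_prim hf
  have h1 : EqOn (deriv (prim f)) f (Str η) := by
    refine eqOn_Str hη (hd.deriv (isOpen_Str η)) hf (fun x => ?_)
    have hx : (x : ℂ) ∈ Str η := real_mem_Str hη x
    have h2 : HasDerivAt (prim f) (deriv (prim f) x) (x : ℂ) :=
      (hd.differentiableAt ((isOpen_Str η).mem_nhds hx)).hasDerivAt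
    have h3 := h2.comp_ofReal
    have hc : Continuous (fun t : ℝ => f (t : ℂ)) := by
      rw [← continuousOn_univ]
      exact hf.continuousOn.comp Complex.continuous_ofReal.continuousOn
        (fun t _ => real_mem_Str hη t)
    have h4 : HasDerivAt (fun t : ℝ => prim f (t : ℂ)) (f (x : ℂ)) x := by
      have h5 : (fun t : ℝ => prim f (t : ℂ)) = fun t => ∫ s in (0 : ℝ)..t, f (s : ℂ) :=
        funext (prim_ofReal f)
      rw [h5]
      exact intervalIntegral.integral_hasDerivAt_right (hc.intervalIntegrable _ _)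
        (hc.stronglyMeasurableAtFilter _ _) hc.continuousAt
    exact h3.unique h4
  have h2 := (hd.differentiableAt ((isOpen_Str η).mem_nhds hz)).hasDerivAt
  rwa [h1 hz] at h2

lemma prim_zero (f : ℂ → ℂ) : prim f 0 = 0 := by simp [prim]

end Prim

section Curve

variable {q : C(ℂ, ℂ)} {η : ℝ}

/-- complexified tangent angle -/
def Tc (q : C(ℂ, ℂ)) : ℂ → ℂ := prim (fun z => Complex.exp (q z))

/-- complexified arclength -/
def Sc (q : C(ℂ, ℂ)) : ℂ → ℂ := prim (fun z => Complex.exp (-2 * q z))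

/-- velocities of the isotropic coordinates, `s = ± 1` -/
def vel (q : C(ℂ, ℂ)) (s : ℂ) (z : ℂ) : ℂ := Complex.exp (-2 * q z + s * (Complex.I * Tc q z))

/-- isotropic coordinates of the curve: `Zs q 1 = X + i Y`, `Zs q (-1) = X - i Y` -/
def Zs (q : C(ℂ, ℂ)) (s : ℂ) : ℂ → ℂ := prim (vel q s)

variable (h : Datum q η)

include h

lemma Datum.exp_diff : DifferentiableOn ℂ (fun z => Complex.exp (q z)) (Str η) := h.diff.cexp

lemma Datum.hasDerivAt_Tc {z : ℂ} (hz : z ∈ Str η) :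
    HasDerivAt (Tc q) (Complex.exp (q z)) z := hasDerivAt_prim h.η_pos h.exp_diff hz

lemma Datum.Tc_diff : DifferentiableOn ℂ (Tc q) (Str η) :=
  fun _ hz => (h.hasDerivAt_Tc hz).differentiableAt.differentiableWithinAt

lemma Datum.hasDerivAt_Sc {z : ℂ} (hz : z ∈ Str η) :
    HasDerivAt (Sc q) (Complex.exp (-2 * q z)) z :=
  hasDerivAt_prim h.η_pos (h.diff.const_mul _).cexp hz

lemma Datum.Sc_diff : DifferentiableOn ℂ (Sc q) (Str η) :=
  fun _ hz => (h.hasDerivAt_Sc hz).differentiableAt.differentiableWithinAt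

lemma Datum.vel_diff (s : ℂ) : DifferentiableOn ℂ (vel q s) (Str η) :=
  ((h.diff.const_mul _).add ((h.Tc_diff.const_mul _).const_mul _)).cexp

lemma Datum.hasDerivAt_Zs (s : ℂ) {z : ℂ} (hz : z ∈ Str η) :
    HasDerivAt (Zs q s) (vel q s z) z := hasDerivAt_prim h.η_pos (h.vel_diff s) hz

lemma Datum.Zs_diff (s : ℂ) : DifferentiableOn ℂ (Zs q s) (Str η) :=
  fun _ hz => (h.hasDerivAt_Zs s hz).differentiableAt.differentiableWithinAt

/-! #### real values -/

lemma Datum.q_real (x : ℝ) : q (x : ℂ) = ((qr q x : ℝ) : ℂ) := by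
  have h1 := h.cj x (real_mem_Str h.η_pos x)
  rw [Complex.conj_ofReal] at h1
  exact (Complex.conj_eq_iff_re.1 h1.symm).symm

lemma Datum.Tc_real (x : ℝ) : Tc q x = ((Th q x : ℝ) : ℂ) := by
  unfold Tc Th
  rw [prim_ofReal, ← intervalIntegral.integral_ofReal]
  refine intervalIntegral.integral_congr (fun t _ => ?_)
  rw [h.q_real, Complex.ofReal_exp]

lemma Datum.Sc_real (x : ℝ) : Sc q x = ((Ar q x : ℝ) : ℂ) := by
  unfold Sc Ar
  rw [prim_ofReal, ← intervalIntegral.integral_ofReal]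
  refine intervalIntegral.integral_congr (fun t _ => ?_)
  rw [h.q_real, Complex.ofReal_exp]
  push_cast
  rfl

lemma Datum.vel_real (x : ℝ) : vel q 1 x = Gd q x := by
  unfold vel Gd
  rw [h.q_real, h.Tc_real]
  push_cast
  ring_nf

lemma Datum.Zs_real (x : ℝ) : Zs q 1 x = Gc q x := by
  unfold Zs Gc
  rw [prim_ofReal]
  exact intervalIntegral.integral_congr (fun t _ => h.vel_real t)

/-! #### conjugation -/

lemma Datum.Tc_conj {z : ℂ} (hz : z ∈ Str η) : Tc q (conj z) = conj (Tc q z) := by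
  have h1 : EqOn (fun z => conj (Tc q (conj z))) (Tc q) (Str η) := by
    refine eqOn_Str h.η_pos (differentiableOn_reflect (isOpen_Str η) h.Tc_diff
      (fun z hz => conj_mem_Str hz)) h.Tc_diff (fun x => ?_)
    rw [Complex.conj_ofReal, h.Tc_real, Complex.conj_ofReal]
  have h2 := h1 hz
  simp only at h2
  rw [← h2, starRingEnd_self_apply]


lemma Datum.vel_conj {z : ℂ} (hz : z ∈ Str η) : vel q (-1) (conj z) = conj (vel q 1 z) := by
  unfold vel
  rw [← Complex.exp_conj, h.cj z hz, h.Tc_conj hz]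
  congr 1
  simp only [map_add, map_mul, Complex.conj_I, map_neg, map_one, map_ofNat]
  ring

lemma Datum.Zs_conj {z : ℂ} (hz : z ∈ Str η) : Zs q (-1) (conj z) = conj (Zs q 1 z) := by
  have h1 : EqOn (fun z => conj (Zs q 1 (conj z))) (Zs q (-1)) (Str η) := by
    refine eqOn_Str h.η_pos (differentiableOn_reflect (isOpen_Str η) (h.Zs_diff 1)
      (fun z hz => conj_mem_Str hz)) (h.Zs_diff (-1)) (fun x => ?_)
    rw [Complex.conj_ofReal]
    unfold Zs
    rw [prim_ofReal, prim_ofReal, ← intervalIntegral.intervalIntegral_conj]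
    refine intervalIntegral.integral_congr (fun t _ => ?_)
    have := h.vel_conj (z := (t : ℂ)) (real_mem_Str h.η_pos t)
    rw [Complex.conj_ofReal] at this
    exact this.symm
  have h2 := h1 (conj_mem_Str hz)
  simp only [starRingEnd_self_apply] at h2
  exact h2.symm

/-! #### periods -/

lemma Datum.Tc_per {z : ℂ} (hz : z ∈ Str η) : Tc q (z + 1) = Tc q z + 2 * Real.pi := by
  have h1 : EqOn (fun z => Tc q (z + 1)) (fun z => Tc q z + 2 * Real.pi) (Str η) := by
    refine eqOn_Str h.η_pos ?_ (h.Tc_diff.add_const _) (fun x => ?_)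
    · exact h.Tc_diff.comp (by fun_prop) (fun z hz => add_one_mem_Str hz)
    · have : (x : ℂ) + 1 = ((x + 1 : ℝ) : ℂ) := by push_cast; rfl
      rw [this, h.Tc_real, h.Tc_real, h.turn]
      push_cast
      rfl
  exact h1 hz

lemma Datum.vel_per {z : ℂ} (hz : z ∈ Str η) {s : ℂ} (hs : s = 1 ∨ s = -1) :
    vel q s (z + 1) = vel q s z := by
  unfold vel
  rw [h.per z hz, h.Tc_per hz, Complex.exp_eq_exp_iff_exists_int]
  rcases hs with rfl | rfl
  · exact ⟨1, by push_cast; ring⟩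
  · exact ⟨-1, by push_cast; ring⟩

lemma Datum.Zs_per {z : ℂ} (hz : z ∈ Str η) {s : ℂ} (hs : s = 1 ∨ s = -1) :
    Zs q s (z + 1) = Zs q s z := by
  have key : ∀ z ∈ Str η, Zs q 1 (z + 1) = Zs q 1 z := by
    intro z hz
    have h1 : EqOn (fun z => Zs q 1 (z + 1)) (Zs q 1) (Str η) := by
      refine eqOn_Str h.η_pos ?_ (h.Zs_diff 1) (fun x => ?_)
      · exact (h.Zs_diff 1).comp (by fun_prop) (fun z hz => add_one_mem_Str hz)
      · have : (x : ℂ) + 1 = ((x + 1 : ℝ) : ℂ) := by push_cast; rfl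
        rw [this, h.Zs_real, h.Zs_real, h.closed]
    exact h1 hz
  rcases hs with rfl | rfl
  · exact key z hz
  · have h1 := key (conj z) (conj_mem_Str hz)
    have h2 := h.Zs_conj (z := conj z + 1) (add_one_mem_Str (conj_mem_Str hz))
    have h3 := h.Zs_conj (z := conj z) (conj_mem_Str hz)
    rw [map_add, map_one, starRingEnd_self_apply] at h2
    rw [starRingEnd_self_apply] at h3
    rw [h2, h1, h3]

end Curve

end Crest.Agent.R102.C0
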