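import Mathlib
import Crest.Agent.R102.Crv_821
import Crest.Agent.R102.C0Defs_821

-- ▼ part R102/Crd_821
section

/-!
Row 102, (C0), part 2: chords near the diagonal: direction `ph` and (reduced) length `cl`.
-/

set_option autoImplicit false

open Set Filter Topology MeasureTheory
open scoped ComplexConjugate

noncomputable section

namespace Crest.Agent.R102.C0

open Crest.Agent.R102.T5 Crest.Agent.R102.G576 Crest.Agent.R102.A929 Crest.Agent.R102.B821

variable {q : C(ℂ, ℂ)} {η ρ₀ ε₀ : ℝ}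

/-- reduced chord in isotropic coordinates: `(y - x) * Ach q s (x, y) = Zs q s y - Zs q s x` -/
def Ach (q : C(ℂ, ℂ)) (s : ℂ) (p : ℂ × ℂ) : ℂ :=
  ∫ r in (0 : ℝ)..1, vel q s (p.1 + r * (p.2 - p.1))

lemma vel_ne (s z : ℂ) : vel q s z ≠ 0 := Complex.exp_ne_zero _

lemma seg_mem_Str' {x y : ℂ} (hx : x ∈ Str η) (hy : y ∈ Str η) {r : ℝ} (h0 : 0 ≤ r) (h1 : r ≤ 1) :
    x + r * (y - x) ∈ Str η := by
  have := seg_mem_Str (x := x) (e := y - x) hx (by rwa [add_sub_cancel]) h0 h1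
  rwa [mul_comm] at this

lemma Datum.Ach_cont (h : Datum q η) (s : ℂ) {x y : ℂ} (hx : x ∈ Str η) (hy : y ∈ Str η) :
    ContinuousOn (fun r : ℝ => vel q s (x + r * (y - x))) (uIcc 0 1) := by
  refine (h.vel_diff s).continuousOn.comp (f := fun r : ℝ => x + (r : ℂ) * (y - x))
    (by fun_prop) (fun r hr => ?_)
  rw [uIcc_of_le zero_le_one] at hr
  exact seg_mem_Str' hx hy hr.1 hr.2

lemma Datum.Ach_diff (h : Datum q η) (s : ℂ) :
    DifferentiableOn ℂ (Ach q s) (Str η ×ˢ Str η) := by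
  have h1 := R266.SCV.analyticOnNhd_intervalIntegral (E := ℂ × ℂ) (F := ℂ)
    (f := fun p : (ℂ × ℂ) × ℝ => vel q s (p.1.1 + p.2 * (p.1.2 - p.1.1))) (a := 0) (b := 1)
    ((isOpen_Str η).prod (isOpen_Str η)) ?_ ?_
  · exact h1.differentiableOn
  · refine (h.vel_diff s).continuousOn.comp
      (f := fun p : (ℂ × ℂ) × ℝ => p.1.1 + (p.2 : ℂ) * (p.1.2 - p.1.1)) (by fun_prop) ?_
    intro p hp
    have h2 := hp.2
    rw [uIcc_of_le zero_le_one] at h2
    exact seg_mem_Str' hp.1.1 hp.1.2 h2.1 h2.2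
  · intro r hr
    rw [uIcc_of_le zero_le_one] at hr
    exact (h.vel_diff s).comp (f := fun p : ℂ × ℂ => p.1 + (r : ℂ) * (p.2 - p.1)) (by fun_prop)
      (fun p hp => seg_mem_Str' hp.1 hp.2 hr.1 hr.2)

lemma Datum.Ach_mul (h : Datum q η) (s : ℂ) {x y : ℂ} (hx : x ∈ Str η) (hy : y ∈ Str η) :
    (y - x) * Ach q s (x, y) = Zs q s y - Zs q s x := by
  have h1 : ∀ r ∈ uIcc (0 : ℝ) 1, HasDerivAt (fun r : ℝ => Zs q s (x + r * (y - x)))
      ((y - x) * vel q s (x + r * (y - x))) r := by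
    intro r hr
    rw [uIcc_of_le zero_le_one] at hr
    have h2 := h.hasDerivAt_Zs s (seg_mem_Str' hx hy hr.1 hr.2)
    have h3 : HasDerivAt (fun r : ℝ => x + (r : ℂ) * (y - x)) (y - x) r := by
      have := ((Complex.ofRealCLM.hasDerivAt (x := r)).mul_const (y - x)).const_add x
      simpa using this
    have h4 := h2.comp r h3
    rw [mul_comm]
    exact h4
  have hc := (continuousOn_const (c := y - x)).mul (h.Ach_cont s hx hy)
  have h2 := intervalIntegral.integral_eq_sub_of_hasDerivAt h1 hc.intervalIntegrable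
  rw [intervalIntegral.integral_const_mul] at h2
  simp only [Complex.ofReal_one, one_mul, Complex.ofReal_zero, zero_mul, add_zero,
    add_sub_cancel] at h2
  exact h2

lemma Ach_diag (s x : ℂ) : Ach q s (x, x) = vel q s x := by
  unfold Ach
  simp

lemma Ach_swap (s x y : ℂ) : Ach q s (y, x) = Ach q s (x, y) := by
  unfold Ach
  have h1 := intervalIntegral.integral_comp_sub_left (a := 0) (b := 1)
    (fun r : ℝ => vel q s (x + r * (y - x))) 1
  simp only [sub_self, sub_zero] at h1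
  rw [← h1]
  refine intervalIntegral.integral_congr (fun r _ => ?_)
  simp only
  congr 1
  push_cast
  ring

lemma Datum.Ach_conj (h : Datum q η) {x y : ℂ} (hx : x ∈ Str η) (hy : y ∈ Str η) :
    Ach q (-1) (conj x, conj y) = conj (Ach q 1 (x, y)) := by
  unfold Ach
  rw [← intervalIntegral.intervalIntegral_conj]
  refine intervalIntegral.integral_congr (fun r hr => ?_)
  rw [uIcc_of_le zero_le_one] at hr
  simp only
  rw [← h.vel_conj (seg_mem_Str' hx hy hr.1 hr.2)]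
  congr 1
  simp only [map_add, map_mul, map_sub, Complex.conj_ofReal]

lemma Datum.Ach_per (h : Datum q η) {s : ℂ} (hs : s = 1 ∨ s = -1) {x y : ℂ} (hx : x ∈ Str η)
    (hy : y ∈ Str η) : Ach q s (x + 1, y + 1) = Ach q s (x, y) := by
  unfold Ach
  refine intervalIntegral.integral_congr (fun r hr => ?_)
  rw [uIcc_of_le zero_le_one] at hr
  simp only
  rw [← h.vel_per (seg_mem_Str' hx hy hr.1 hr.2) hs]
  congr 1
  ring

/-- smallness data for the chord functions -/
structure Sm (q : C(ℂ, ℂ)) (η ρ₀ ε₀ : ℝ) : Prop where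
  dat : Datum q η
  ρ_pos : 0 < ρ₀
  lt : ρ₀ < η
  ε_pos : 0 < ε₀
  sm : ∀ x e : ℂ, x ∈ Str ρ₀ → x + e ∈ Str ρ₀ → ‖e‖ < ε₀ → ‖Xq q x e‖ < 1 / 100

theorem Datum.exists_Sm (h : Datum q η) (hρ : 0 < ρ₀) (hlt : ρ₀ < η) :
    ∃ ε₀, Sm q η ρ₀ ε₀ := by
  obtain ⟨ε₀, hε₀, hs⟩ := exists_small_Str h.diff h.per hlt (ρ := 1 / 100) (by norm_num)
  exact ⟨ε₀, h, hρ, hlt, hε₀, hs⟩

lemma Sm.mono (h : Sm q η ρ₀ ε₀) {ρ₁ ε₁ : ℝ} (h1 : 0 < ρ₁) (h2 : ρ₁ ≤ ρ₀) (h3 : 0 < ε₁)
    (h4 : ε₁ ≤ ε₀) : Sm q η ρ₁ ε₁ :=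
  ⟨h.dat, h1, lt_of_le_of_lt h2 h.lt, h3, fun x e hx hxe he =>
    h.sm x e (lt_of_lt_of_le hx h2) (lt_of_lt_of_le hxe h2) (lt_of_lt_of_le he h4)⟩

section

variable (h : Sm q η ρ₀ ε₀) {x y : ℂ} (hp : (x, y) ∈ Dg ρ₀ ε₀)

include h hp

lemma Sm.mx : x ∈ Str η := lt_trans hp.1 h.lt
lemma Sm.my : y ∈ Str η := lt_trans hp.2.1 h.lt

lemma Sm.Xq_lt : ‖Xq q x (y - x)‖ < 1 / 100 :=
  h.sm x (y - x) hp.1 (by rw [add_sub_cancel]; exact hp.2.1) hp.2.2

lemma Sm.dq_le {r : ℝ} (h0 : 0 ≤ r) (h1 : r ≤ 1) :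
    ‖q (x + r * (y - x)) - q x‖ ≤ 1 / 100 := by
  have h2 : ‖dq q x (y - x)‖ ≤ 1 / 100 := by
    have h3 : ‖Xq q x (y - x)‖ = max ‖dq q x (y - x)‖ ‖(y - x) * Complex.exp (q x)‖ := rfl
    have h4 := h.Xq_lt hp
    rw [h3] at h4
    exact ((le_max_left _ _).trans_lt h4).le
  have h3 := (AA.norm_coe_le_norm (dq q x (y - x)) ⟨r, h0, h1⟩).trans h2
  rw [dq_apply] at h3
  simp only at h3
  rwa [mul_comm (y - x) (r : ℂ)] at h3

lemma Sm.e_le : ‖(y - x) * Complex.exp (q x)‖ ≤ 1 / 100 := by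
  have h3 : ‖Xq q x (y - x)‖ = max ‖dq q x (y - x)‖ ‖(y - x) * Complex.exp (q x)‖ := rfl
  have h4 := h.Xq_lt hp
  rw [h3] at h4
  exact ((le_max_right _ _).trans_lt h4).le

lemma Sm.Tc_le {r : ℝ} (h0 : 0 ≤ r) (h1 : r ≤ 1) :
    ‖Tc q (x + r * (y - x)) - Tc q x‖ ≤ 11 / 1000 := by
  have hd : ∀ a ∈ Icc (0 : ℝ) 1, HasDerivWithinAt (fun a : ℝ => Tc q (x + a * (y - x)))
      (Complex.exp (q (x + a * (y - x))) * (y - x)) (Icc 0 1) a := by
    intro a ha
    have h2 := h.dat.hasDerivAt_Tc (seg_mem_Str' (h.mx hp) (h.my hp) ha.1 ha.2)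
    have h3 : HasDerivAt (fun r : ℝ => x + (r : ℂ) * (y - x)) (y - x) a := by
      have := ((Complex.ofRealCLM.hasDerivAt (x := a)).mul_const (y - x)).const_add x
      simpa using this
    exact (h2.comp a h3).hasDerivWithinAt
  have hb : ∀ a ∈ Ico (0 : ℝ) 1, ‖Complex.exp (q (x + a * (y - x))) * (y - x)‖ ≤ 11 / 1000 := by
    intro a ha
    have h2 := h.dq_le hp ha.1 ha.2.le
    have h3 : Complex.exp (q (x + a * (y - x))) * (y - x) =
        Complex.exp (q (x + a * (y - x)) - q x) * ((y - x) * Complex.exp (q x)) := by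
      rw [Complex.exp_sub]
      have := Complex.exp_ne_zero (q x)
      field_simp
    rw [h3, norm_mul]
    have h4 : ‖Complex.exp (q (x + a * (y - x)) - q x)‖ ≤ 11 / 10 := by
      have h5 := Complex.norm_exp_sub_one_le (x := q (x + a * (y - x)) - q x) (by linarith)
      have h6 : ‖Complex.exp (q (x + a * (y - x)) - q x)‖ ≤
          ‖Complex.exp (q (x + a * (y - x)) - q x) - 1‖ + ‖(1 : ℂ)‖ := by
        have := norm_add_le (Complex.exp (q (x + a * (y - x)) - q x) - 1) 1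
        rwa [sub_add_cancel] at this
      rw [norm_one] at h6
      linarith
    have h5 := h.e_le hp
    calc _ ≤ 11 / 10 * (1 / 100) := mul_le_mul h4 h5 (norm_nonneg _) (by norm_num)
      _ = 11 / 1000 := by norm_num
  have h2 := norm_image_sub_le_of_norm_deriv_le_segment' (f := fun a : ℝ => Tc q (x + a * (y - x)))
    hd hb r ⟨h0, h1⟩
  simp only [Complex.ofReal_zero, zero_mul, add_zero, sub_zero] at h2
  refine h2.trans ?_
  nlinarith

lemma Sm.vel_near {s : ℂ} (hs : s = 1 ∨ s = -1) {r : ℝ} (h0 : 0 ≤ r) (h1 : r ≤ 1) :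
    ‖vel q s (x + r * (y - x)) * (vel q s x)⁻¹ - 1‖ ≤ 7 / 100 := by
  have hs1 : ‖s‖ = 1 := by rcases hs with rfl | rfl <;> simp
  have e1 : vel q s (x + r * (y - x)) * (vel q s x)⁻¹ =
      Complex.exp (-2 * (q (x + r * (y - x)) - q x) +
        s * (Complex.I * (Tc q (x + r * (y - x)) - Tc q x))) := by
    unfold vel
    rw [← Complex.exp_neg, ← Complex.exp_add]
    congr 1
    ring
  have h2 := h.dq_le hp h0 h1
  have h3 := h.Tc_le hp h0 h1
  have h4 : ‖-2 * (q (x + r * (y - x)) - q x) +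
        s * (Complex.I * (Tc q (x + r * (y - x)) - Tc q x))‖ ≤ 31 / 1000 := by
    refine (norm_add_le _ _).trans ?_
    rw [norm_mul, norm_mul, norm_mul, hs1, Complex.norm_I]
    have : ‖(-2 : ℂ)‖ = 2 := by norm_num
    rw [this]
    linarith
  rw [e1]
  refine (Complex.norm_exp_sub_one_le (by linarith)).trans ?_
  linarith

lemma Sm.Ach_near {s : ℂ} (hs : s = 1 ∨ s = -1) :
    ‖Ach q s (x, y) * (vel q s x)⁻¹ - 1‖ ≤ 7 / 100 := by
  have hc := h.dat.Ach_cont s (h.mx hp) (h.my hp)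
  have e1 : Ach q s (x, y) * (vel q s x)⁻¹ - 1 =
      ∫ r in (0 : ℝ)..1, (vel q s (x + r * (y - x)) * (vel q s x)⁻¹ - 1) := by
    rw [intervalIntegral.integral_sub (f := fun r : ℝ => vel q s (x + r * (y - x)) *
      (vel q s x)⁻¹) (g := fun _ => (1 : ℂ)) (hc.mul continuousOn_const).intervalIntegrable
      (continuousOn_const.intervalIntegrable), intervalIntegral.integral_mul_const]
    simp [Ach]
  rw [e1]
  have h1 := intervalIntegral.norm_integral_le_of_norm_le_const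
    (f := fun r : ℝ => vel q s (x + r * (y - x)) * (vel q s x)⁻¹ - 1)
    (a := 0) (b := 1) (C := 7 / 100) (fun r hr => by
      rw [uIoc_of_le zero_le_one] at hr
      exact h.vel_near hp hs hr.1.le hr.2)
  simpa using h1

lemma Sm.Ach_ne {s : ℂ} (hs : s = 1 ∨ s = -1) : Ach q s (x, y) ≠ 0 := by
  intro h0
  have h1 := h.Ach_near hp hs
  rw [h0] at h1
  simp at h1
  norm_num at h1

end

/-- `exp (2 i (ph - (Θ(x)+Θ(y))/2))` -/
def Vch (q : C(ℂ, ℂ)) (p : ℂ × ℂ) : ℂ :=
  Ach q 1 p / Ach q (-1) p * Complex.exp (-(Complex.I * (Tc q p.1 + Tc q p.2)))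

/-- direction of the chord -/
def ph (q : C(ℂ, ℂ)) (p : ℂ × ℂ) : ℂ :=
  (Tc q p.1 + Tc q p.2) / 2 + Complex.log (Vch q p) / (2 * Complex.I)

/-- chord length divided by `y - x` -/
def cl (q : C(ℂ, ℂ)) (p : ℂ × ℂ) : ℂ := Complex.exp (-(Complex.I * ph q p)) * Ach q 1 p

section

variable (h : Sm q η ρ₀ ε₀) {x y : ℂ} (hp : (x, y) ∈ Dg ρ₀ ε₀)

include h hp

lemma Sm.Vch_near : ‖Vch q (x, y) - 1‖ ≤ 1 / 5 := by
  set α := Ach q 1 (x, y) * (vel q 1 x)⁻¹ - 1 with hα
  set β := Ach q (-1) (x, y) * (vel q (-1) x)⁻¹ - 1 with hβ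
  have h1 : ‖α‖ ≤ 7 / 100 := h.Ach_near hp (Or.inl rfl)
  have h2 : ‖β‖ ≤ 7 / 100 := h.Ach_near hp (Or.inr rfl)
  have v1 := vel_ne (q := q) 1 x
  have v2 := vel_ne (q := q) (-1) x
  have e1 : Ach q 1 (x, y) = vel q 1 x * (1 + α) := by rw [hα]; field_simp; ring
  have e2 : Ach q (-1) (x, y) = vel q (-1) x * (1 + β) := by rw [hβ]; field_simp; ring
  have hβ1 : (93 / 100 : ℝ) ≤ ‖1 + β‖ := by
    have := norm_sub_norm_le (1 : ℂ) (-β)
    rw [norm_neg, norm_one, sub_neg_eq_add] at this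
    linarith
  have hβ0 : 1 + β ≠ 0 := by
    intro h0; rw [h0, norm_zero] at hβ1; linarith
  have e3 : Vch q (x, y) = (1 + (α - β) / (1 + β)) *
      Complex.exp (-(Complex.I * (Tc q y - Tc q x))) := by
    have e4 : vel q 1 x / vel q (-1) x * Complex.exp (-(Complex.I * (Tc q x + Tc q y))) =
        Complex.exp (-(Complex.I * (Tc q y - Tc q x))) := by
      unfold vel
      rw [← Complex.exp_sub, ← Complex.exp_add]
      congr 1
      ring
    rw [← e4]
    unfold Vch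
    simp only
    rw [e1, e2]
    field_simp
    ring
  have h3 : ‖(α - β) / (1 + β)‖ ≤ 151 / 1000 := by
    rw [norm_div, div_le_iff₀ (by linarith)]
    have := norm_sub_le α β
    nlinarith
  have h4 := h.Tc_le hp (r := 1) zero_le_one le_rfl
  simp only [Complex.ofReal_one, one_mul, add_sub_cancel] at h4
  have h5 : ‖Complex.exp (-(Complex.I * (Tc q y - Tc q x))) - 1‖ ≤ 22 / 1000 := by
    have h6 : ‖-(Complex.I * (Tc q y - Tc q x))‖ ≤ 11 / 1000 := by
      rw [norm_neg, norm_mul, Complex.norm_I, one_mul]; exact h4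
    refine (Complex.norm_exp_sub_one_le (by linarith)).trans ?_
    linarith
  rw [e3]
  set a := (α - β) / (1 + β)
  set b := Complex.exp (-(Complex.I * (Tc q y - Tc q x))) - 1 with hb
  have e5 : (1 + a) * Complex.exp (-(Complex.I * (Tc q y - Tc q x))) - 1 = a + b + a * b := by
    have : Complex.exp (-(Complex.I * (Tc q y - Tc q x))) = 1 + b := by rw [hb]; ring
    rw [this]; ring
  rw [e5]
  have h6 : ‖a + b + a * b‖ ≤ ‖a‖ + ‖b‖ + ‖a‖ * ‖b‖ := by
    refine (norm_add_le _ _).trans ?_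
    rw [norm_mul]
    have := norm_add_le a b
    linarith
  have h7 : ‖a‖ * ‖b‖ ≤ 151 / 1000 * (22 / 1000) :=
    mul_le_mul h3 h5 (norm_nonneg _) (by norm_num)
  linarith

lemma Sm.Vch_slit : Vch q (x, y) ∈ Complex.slitPlane := by
  have h1 := h.Vch_near hp
  have h2 : |(Vch q (x, y) - 1).re| ≤ 1 / 5 := (Complex.abs_re_le_norm _).trans h1
  rw [Complex.sub_re, Complex.one_re, abs_le] at h2
  exact Or.inl (by linarith [h2.1])

lemma Sm.Vch_ne : Vch q (x, y) ≠ 0 := Complex.slitPlane_ne_zero (h.Vch_slit hp)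

lemma Sm.log_le : ‖Complex.log (Vch q (x, y))‖ ≤ 1 / 4 := by
  have h1 := h.Vch_near hp
  have h2 := Complex.norm_log_one_add_le (z := Vch q (x, y) - 1) (by linarith)
  rw [add_sub_cancel] at h2
  refine h2.trans ?_
  set n := ‖Vch q (x, y) - 1‖
  have hn : 0 ≤ n := norm_nonneg _
  have h3 : (1 - n)⁻¹ ≤ 5 / 4 := by
    rw [inv_le_comm₀ (by linarith) (by norm_num)]
    norm_num
    linarith
  have h4 : n ^ 2 ≤ 1 / 25 := by nlinarith
  have h5 : n ^ 2 * (1 - n)⁻¹ ≤ 1 / 25 * (5 / 4) :=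
    mul_le_mul h4 h3 (by have : 0 < 1 - n := by linarith
                         positivity) (by norm_num)
  linarith

lemma Sm.exp_ph : Complex.exp (2 * (Complex.I * ph q (x, y))) =
    Ach q 1 (x, y) / Ach q (-1) (x, y) := by
  have h1 : 2 * (Complex.I * ph q (x, y)) =
      Complex.I * (Tc q x + Tc q y) + Complex.log (Vch q (x, y)) := by
    unfold ph
    have := Complex.I_ne_zero
    field_simp
  rw [h1, Complex.exp_add, Complex.exp_log (h.Vch_ne hp)]
  unfold Vch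
  simp only
  rw [mul_comm, mul_assoc, ← Complex.exp_add]
  simp

lemma Sm.cl_eq : cl q (x, y) = Complex.exp (Complex.I * ph q (x, y)) * Ach q (-1) (x, y) := by
  have h1 := h.exp_ph hp
  have h2 := h.Ach_ne hp (s := -1) (Or.inr rfl)
  unfold cl
  rw [eq_div_iff h2] at h1
  rw [← h1, ← mul_assoc, ← Complex.exp_add]
  congr 2
  ring

lemma Sm.chord1 : (y - x) * cl q (x, y) * Complex.exp (Complex.I * ph q (x, y)) =
    Zs q 1 y - Zs q 1 x := by
  rw [← h.dat.Ach_mul 1 (h.mx hp) (h.my hp)]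
  unfold cl
  have : Complex.exp (-(Complex.I * ph q (x, y))) * Complex.exp (Complex.I * ph q (x, y)) = 1 := by
    rw [← Complex.exp_add]; simp
  linear_combination (y - x) * Ach q 1 (x, y) * this

lemma Sm.chord2 : (y - x) * cl q (x, y) * Complex.exp (-(Complex.I * ph q (x, y))) =
    Zs q (-1) y - Zs q (-1) x := by
  rw [← h.dat.Ach_mul (-1) (h.mx hp) (h.my hp), h.cl_eq hp]
  have : Complex.exp (-(Complex.I * ph q (x, y))) * Complex.exp (Complex.I * ph q (x, y)) = 1 := by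
    rw [← Complex.exp_add]; simp
  linear_combination (y - x) * Ach q (-1) (x, y) * this

lemma Sm.ph_near : ‖ph q (x, y) - Tc q x‖ ≤ 1 / 5 ∧ ‖ph q (x, y) - Tc q y‖ ≤ 1 / 5 := by
  have h1 := h.log_le hp
  have h2 := h.Tc_le hp (r := 1) zero_le_one le_rfl
  simp only [Complex.ofReal_one, one_mul, add_sub_cancel] at h2
  have h3 : ‖Complex.log (Vch q (x, y)) / (2 * Complex.I)‖ ≤ 1 / 8 := by
    rw [norm_div, norm_mul, Complex.norm_I, mul_one, div_le_iff₀ (by norm_num)]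
    have : ‖(2 : ℂ)‖ = 2 := by norm_num
    rw [this]
    linarith
  have h4 : ‖(Tc q y - Tc q x) / 2‖ ≤ 11 / 2000 := by
    rw [norm_div]
    have : ‖(2 : ℂ)‖ = 2 := by norm_num
    rw [this]
    linarith
  constructor
  · have e1 : ph q (x, y) - Tc q x = (Tc q y - Tc q x) / 2 +
        Complex.log (Vch q (x, y)) / (2 * Complex.I) := by unfold ph; simp only; ring
    rw [e1]
    refine (norm_add_le _ _).trans ?_
    linarith
  · have e1 : ph q (x, y) - Tc q y = -((Tc q y - Tc q x) / 2) +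
        Complex.log (Vch q (x, y)) / (2 * Complex.I) := by unfold ph; simp only; ring
    rw [e1]
    refine (norm_add_le _ _).trans ?_
    rw [norm_neg]
    linarith

end

lemma Vch_diag (x : ℂ) : Vch q (x, x) = 1 := by
  unfold Vch
  rw [Ach_diag, Ach_diag]
  unfold vel
  simp only
  rw [← Complex.exp_sub, ← Complex.exp_add]
  have : -2 * q x + 1 * (Complex.I * Tc q x) - (-2 * q x + -1 * (Complex.I * Tc q x)) +
      -(Complex.I * (Tc q x + Tc q x)) = 0 := by ring
  rw [this, Complex.exp_zero]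

lemma ph_diag (x : ℂ) : ph q (x, x) = Tc q x := by
  unfold ph
  rw [Vch_diag, Complex.log_one]
  simp

lemma Vch_swap (x y : ℂ) : Vch q (y, x) = Vch q (x, y) := by
  unfold Vch
  rw [Ach_swap 1 x y, Ach_swap (-1) x y]
  simp only
  rw [add_comm (Tc q y)]

lemma ph_swap (x y : ℂ) : ph q (y, x) = ph q (x, y) := by
  unfold ph
  rw [Vch_swap]
  simp only
  rw [add_comm (Tc q y)]


lemma Sm.ph_diff (h : Sm q η ρ₀ ε₀) : DifferentiableOn ℂ (ph q) (Dg ρ₀ ε₀) := by
  have hsub : Dg ρ₀ ε₀ ⊆ Str η ×ˢ Str η := fun p hp =>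
    ⟨lt_trans hp.1 h.lt, lt_trans hp.2.1 h.lt⟩
  have h1 := (h.dat.Ach_diff 1).mono hsub
  have h2 := (h.dat.Ach_diff (-1)).mono hsub
  have h3 : DifferentiableOn ℂ (fun p : ℂ × ℂ => Tc q p.1) (Dg ρ₀ ε₀) :=
    h.dat.Tc_diff.comp differentiable_fst.differentiableOn (fun p hp => (hsub hp).1)
  have h4 : DifferentiableOn ℂ (fun p : ℂ × ℂ => Tc q p.2) (Dg ρ₀ ε₀) :=
    h.dat.Tc_diff.comp differentiable_snd.differentiableOn (fun p hp => (hsub hp).2)
  have hV : DifferentiableOn ℂ (Vch q) (Dg ρ₀ ε₀) := by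
    have h5 := (h1.mul (h2.inv (fun (p : ℂ × ℂ) hp =>
      h.Ach_ne (x := p.1) (y := p.2) hp (Or.inr rfl)))).mul
      (((h3.add h4).const_mul Complex.I).neg.cexp)
    refine h5.congr (fun p _ => ?_)
    unfold Vch
    rw [div_eq_mul_inv]
    rfl
  have hL : DifferentiableOn ℂ (fun p : ℂ × ℂ => Complex.log (Vch q p)) (Dg ρ₀ ε₀) :=
    hV.clog (fun (p : ℂ × ℂ) hp => h.Vch_slit (x := p.1) (y := p.2) hp)
  have h6 := ((h3.add h4).mul_const ((2 : ℂ)⁻¹)).add (hL.mul_const ((2 * Complex.I)⁻¹))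
  refine h6.congr (fun p _ => ?_)
  unfold ph
  rw [div_eq_mul_inv, div_eq_mul_inv]
  rfl

lemma Sm.cl_diff (h : Sm q η ρ₀ ε₀) : DifferentiableOn ℂ (cl q) (Dg ρ₀ ε₀) := by
  have hsub : Dg ρ₀ ε₀ ⊆ Str η ×ˢ Str η := fun p hp =>
    ⟨lt_trans hp.1 h.lt, lt_trans hp.2.1 h.lt⟩
  exact ((h.ph_diff.const_mul Complex.I).neg.cexp).mul ((h.dat.Ach_diff 1).mono hsub)

lemma Sm.ph_per (h : Sm q η ρ₀ ε₀) {x y : ℂ} (hp : (x, y) ∈ Dg ρ₀ ε₀) :
    ph q (x + 1, y + 1) = ph q (x, y) + 2 * Real.pi := by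
  have e1 : Vch q (x + 1, y + 1) = Vch q (x, y) := by
    unfold Vch
    simp only
    rw [h.dat.Ach_per (Or.inl rfl) (h.mx hp) (h.my hp), h.dat.Ach_per (Or.inr rfl) (h.mx hp) (h.my hp),
      h.dat.Tc_per (h.mx hp), h.dat.Tc_per (h.my hp)]
    congr 1
    rw [Complex.exp_eq_exp_iff_exists_int]
    exact ⟨-2, by push_cast; ring⟩
  unfold ph
  rw [e1]
  simp only
  rw [h.dat.Tc_per (h.mx hp), h.dat.Tc_per (h.my hp)]
  ring

lemma Sm.ph_conj (h : Sm q η ρ₀ ε₀) {x y : ℂ} (hp : (x, y) ∈ Dg ρ₀ ε₀) :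
    ph q (conj x, conj y) = conj (ph q (x, y)) := by
  have hx := h.mx hp
  have hy := h.my hp
  have a1 := h.dat.Ach_conj hx hy
  have a2 : Ach q 1 (conj x, conj y) = conj (Ach q (-1) (x, y)) := by
    have := h.dat.Ach_conj (conj_mem_Str hx) (conj_mem_Str hy)
    rw [starRingEnd_self_apply, starRingEnd_self_apply] at this
    rw [this, starRingEnd_self_apply]
  have e1 : Vch q (conj x, conj y) = (conj (Vch q (x, y)))⁻¹ := by
    unfold Vch
    simp only
    rw [a1, a2, h.dat.Tc_conj hx, h.dat.Tc_conj hy, map_mul, map_div₀, mul_inv, inv_div,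
      ← Complex.exp_conj, ← Complex.exp_neg]
    congr 2
    simp only [map_neg, map_mul, map_add, Complex.conj_I]
    ring
  have hV := h.Vch_slit hp
  have e2 : Complex.log (Vch q (conj x, conj y)) = -conj (Complex.log (Vch q (x, y))) := by
    have harg : Complex.arg (Vch q (x, y)) ≠ Real.pi := Complex.mem_slitPlane_iff_arg.1 hV |>.1
    have harg' : Complex.arg (conj (Vch q (x, y))) ≠ Real.pi := by
      have h1 : conj (Vch q (x, y)) ∈ Complex.slitPlane := by
        rw [Complex.mem_slitPlane_iff] at hV ⊢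
        rcases hV with h1 | h1
        · exact Or.inl (by simpa using h1)
        · exact Or.inr (by simpa using h1)
      exact (Complex.mem_slitPlane_iff_arg.1 h1).1
    rw [e1, Complex.log_inv _ harg', Complex.log_conj _ harg]
  unfold ph
  rw [e2]
  simp only [map_add, map_div₀, map_mul, Complex.conj_I, map_ofNat]
  rw [h.dat.Tc_conj hx, h.dat.Tc_conj hy]
  have := Complex.I_ne_zero
  field_simp

end Crest.Agent.R102.C0
end
end

-- ▼ part R102/Lqc_821
section

/-!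
Row 102, (C0), part 3: the Lagrangian of part (B) is `4 (arc - chord)`; its partial derivatives in
terms of the direction `ph` of the chord; the area form of the space of lines.
-/

set_option autoImplicit false

open Set Filter Topology MeasureTheory
open scoped ComplexConjugate

noncomputable section

namespace Crest.Agent.R102.C0

open Crest.Agent.R102.T5 Crest.Agent.R102.G576 Crest.Agent.R102.A929 Crest.Agent.R102.B821

variable {q : C(ℂ, ℂ)} {η ρ₀ ε₀ : ℝ}

/-! ### real chords -/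

lemma Sm.real_mem (h : Sm q η ρ₀ ε₀) {x y : ℝ} (hxy : |y - x| < ε₀) :
    ((x : ℂ), (y : ℂ)) ∈ Dg ρ₀ ε₀ := by
  refine ⟨real_mem_Str h.ρ_pos x, real_mem_Str h.ρ_pos y, ?_⟩
  simp only
  rw [← Complex.ofReal_sub, Complex.norm_real, Real.norm_eq_abs]
  exact hxy

/-- for real `x < y` the chord function is the euclidean length -/
lemma Sm.cl_real (h : Sm q η ρ₀ ε₀) {x y : ℝ} (hxy : x < y) (hxy' : y - x < ε₀) :
    ((y : ℂ) - x) * cl q (x, y) = ((‖Gc q y - Gc q x‖ : ℝ) : ℂ) := by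
  have hp : ((x : ℂ), (y : ℂ)) ∈ Dg ρ₀ ε₀ := h.real_mem (by rw [abs_of_pos (by linarith)]; exact hxy')
  have hph := h.ph_conj hp
  rw [Complex.conj_ofReal, Complex.conj_ofReal] at hph
  obtain ⟨f, hf⟩ : ∃ f : ℝ, ph q (x, y) = f := ⟨_, (Complex.conj_eq_iff_re.1 hph.symm).symm⟩
  have hA := h.dat.Ach_conj (h.mx hp) (h.my hp)
  rw [Complex.conj_ofReal, Complex.conj_ofReal] at hA
  have hcc : conj (cl q (x, y)) = cl q (x, y) := by
    conv_rhs => rw [h.cl_eq hp]
    unfold cl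
    rw [map_mul, ← Complex.exp_conj, ← hA]
    congr 2
    rw [hf]
    simp
  obtain ⟨c, hc⟩ : ∃ c : ℝ, cl q (x, y) = c := ⟨_, (Complex.conj_eq_iff_re.1 hcc).symm⟩
  have hpos : 0 < c := by
    set α := Ach q 1 ((x : ℂ), (y : ℂ)) * (vel q 1 x)⁻¹ - 1 with hα
    have h1 : ‖α‖ ≤ 7 / 100 := h.Ach_near hp (Or.inl rfl)
    have v1 := vel_ne (q := q) 1 (x : ℂ)
    have e1 : Ach q 1 ((x : ℂ), (y : ℂ)) = vel q 1 x * (1 + α) := by
      rw [hα]; field_simp; ring
    have h2 := (h.ph_near hp).1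
    set δ := ph q ((x : ℂ), (y : ℂ)) - Tc q x with hδ
    set β := Complex.exp (-(Complex.I * δ)) - 1 with hβ
    have h3 : ‖β‖ ≤ 2 / 5 := by
      have h4 : ‖-(Complex.I * δ)‖ ≤ 1 / 5 := by
        rw [norm_neg, norm_mul, Complex.norm_I, one_mul]; exact h2
      refine (Complex.norm_exp_sub_one_le (by linarith)).trans ?_
      linarith
    have e2 : cl q ((x : ℂ), (y : ℂ)) = ((Real.exp (-2 * qr q x) : ℝ) : ℂ) * ((1 + β) * (1 + α)) := by
      unfold cl
      rw [e1]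
      have e3 : Complex.exp (-(Complex.I * ph q ((x : ℂ), (y : ℂ)))) * vel q 1 x =
          ((Real.exp (-2 * qr q x) : ℝ) : ℂ) * (1 + β) := by
        rw [hβ, add_sub_cancel, Complex.ofReal_exp, ← Complex.exp_add]
        unfold vel
        rw [← Complex.exp_add, h.dat.q_real]
        congr 1
        rw [hδ]
        push_cast
        ring
      rw [← mul_assoc, e3, mul_assoc]
    rw [hc] at e2
    have e4 := congrArg Complex.re e2
    rw [Complex.re_ofReal_mul, Complex.ofReal_re] at e4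
    have h5 : (1 / 2 : ℝ) ≤ ((1 + β) * (1 + α)).re := by
      have h6 : ‖(1 + β) * (1 + α) - 1‖ ≤ 1 / 2 := by
        have : (1 + β) * (1 + α) - 1 = β + α + β * α := by ring
        rw [this]
        have h7 : ‖β + α + β * α‖ ≤ ‖β‖ + ‖α‖ + ‖β‖ * ‖α‖ := by
          refine (norm_add_le _ _).trans ?_
          rw [norm_mul]
          have := norm_add_le β α
          linarith
        have h8 : ‖β‖ * ‖α‖ ≤ 2 / 5 * (7 / 100) := mul_le_mul h3 h1 (norm_nonneg _) (by norm_num)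
        linarith
      have h9 := (Complex.abs_re_le_norm _).trans h6
      rw [Complex.sub_re, Complex.one_re, abs_le] at h9
      linarith [h9.1]
    rw [e4]
    have := Real.exp_pos (-2 * qr q x)
    nlinarith
  have hn : ‖(((y : ℂ) - x) * cl q (x, y))‖ = ‖Gc q y - Gc q x‖ := by
    rw [← h.dat.Zs_real, ← h.dat.Zs_real, ← h.chord1 hp, norm_mul _ (Complex.exp _)]
    have : ‖Complex.exp (Complex.I * ph q ((x : ℂ), (y : ℂ)))‖ = 1 := by
      rw [hf, mul_comm]; exact Complex.norm_exp_ofReal_mul_I f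
    rw [this, mul_one]
  rw [← hn, hc, ← Complex.ofReal_sub, ← Complex.ofReal_mul, Complex.norm_real,
    Real.norm_of_nonneg (mul_nonneg (by linarith) hpos.le)]

/-- **the Lagrangian is `4 (arc - chord)`** on the complex domain -/
theorem Sm.Lq_eq (h : Sm q η ρ₀ ε₀) {ρ C : ℝ} (hS : Sml q ρ C η ρ₀ ε₀) {x y : ℂ}
    (hp : (x, y) ∈ Dg ρ₀ ε₀) :
    Lq q (x, y) = 4 * (Sc q y - Sc q x - (y - x) * cl q (x, y)) := by
  have hsub : Dg ρ₀ ε₀ ⊆ Str η ×ˢ Str η := fun p hp =>
    ⟨lt_trans hp.1 h.lt, lt_trans hp.2.1 h.lt⟩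
  have h3 : DifferentiableOn ℂ (fun p : ℂ × ℂ => Sc q p.1) (Dg ρ₀ ε₀) :=
    h.dat.Sc_diff.comp differentiable_fst.differentiableOn (fun p hp => (hsub hp).1)
  have h4 : DifferentiableOn ℂ (fun p : ℂ × ℂ => Sc q p.2) (Dg ρ₀ ε₀) :=
    h.dat.Sc_diff.comp differentiable_snd.differentiableOn (fun p hp => (hsub hp).2)
  have h5 : DifferentiableOn ℂ (fun p : ℂ × ℂ =>
      4 * (Sc q p.2 - Sc q p.1 - (p.2 - p.1) * cl q p)) (Dg ρ₀ ε₀) := by
    refine ((h4.sub h3).sub (DifferentiableOn.mul (by fun_prop) h.cl_diff)).const_mul 4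
  have := Dg_ident h.ρ_pos h.ε_pos (slD_of_diff hS.diff_Lq) (slD_of_diff h5)
    (fun x y hxy hxy' => by
      have h1 := hS.real1 hxy hxy'
      have h2 : Lq q ((x : ℂ), (y : ℂ)) = ((4 * Mf q x y : ℝ) : ℂ) := h1.symm
      rw [h2]
      simp only
      rw [h.cl_real hxy hxy', h.dat.Sc_real, h.dat.Sc_real]
      unfold Mf
      push_cast
      ring) hp
  exact this

/-! ### partial derivatives -/

section partials

variable (h : Sm q η ρ₀ ε₀) {x y : ℂ} (hp : (x, y) ∈ Dg ρ₀ ε₀)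

include h hp

lemma Sm.hph : DifferentiableAt ℂ (ph q) (x, y) :=
  h.ph_diff.differentiableAt ((isOpen_Dg ρ₀ ε₀).mem_nhds hp)

lemma Sm.hcl : DifferentiableAt ℂ (cl q) (x, y) :=
  h.cl_diff.differentiableAt ((isOpen_Dg ρ₀ ε₀).mem_nhds hp)

lemma Sm.ph_y : HasDerivAt (fun y => ph q (x, y)) (q2 (ph q) (x, y)) y := by
  have := hasDerivAt_comp2 (F := ph q) (h.hph hp) (hasDerivAt_const y x) (hasDerivAt_id y)
  simpa using this

lemma Sm.ph_x : HasDerivAt (fun x => ph q (x, y)) (q1 (ph q) (x, y)) x := by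
  have := hasDerivAt_comp2 (F := ph q) (h.hph hp) (hasDerivAt_id x) (hasDerivAt_const x y)
  simpa using this

lemma Sm.cl_y : HasDerivAt (fun y => cl q (x, y)) (q2 (cl q) (x, y)) y := by
  have := hasDerivAt_comp2 (F := cl q) (h.hcl hp) (hasDerivAt_const y x) (hasDerivAt_id y)
  simpa using this

lemma Sm.cl_x : HasDerivAt (fun x => cl q (x, y)) (q1 (cl q) (x, y)) x := by
  have := hasDerivAt_comp2 (F := cl q) (h.hcl hp) (hasDerivAt_id x) (hasDerivAt_const x y)
  simpa using this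

/-- `∂_y` of chord length and direction -/
lemma Sm.part_y : (cl q (x, y) + (y - x) * q2 (cl q) (x, y) =
      Complex.exp (-2 * q y) * Complex.cos (Tc q y - ph q (x, y))) ∧
    ((y - x) * cl q (x, y) * q2 (ph q) (x, y) =
      Complex.exp (-2 * q y) * Complex.sin (Tc q y - ph q (x, y))) := by
  have hev : ∀ᶠ y' in 𝓝 y, (x, y') ∈ Dg ρ₀ ε₀ := by
    have hc : ContinuousAt (fun y' : ℂ => (x, y')) y := by fun_prop
    exact hc.eventually ((isOpen_Dg ρ₀ ε₀).mem_nhds hp)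
  have d1 : HasDerivAt (fun y => (y - x) * cl q (x, y))
      (1 * cl q (x, y) + (y - x) * q2 (cl q) (x, y)) y :=
    ((hasDerivAt_id y).sub_const x).mul (h.cl_y hp)
  have d2 : HasDerivAt (fun y => Complex.exp (Complex.I * ph q (x, y)))
      (Complex.exp (Complex.I * ph q (x, y)) * (Complex.I * q2 (ph q) (x, y))) y :=
    ((h.ph_y hp).const_mul Complex.I).cexp
  have d3 : HasDerivAt (fun y => Complex.exp (-(Complex.I * ph q (x, y))))
      (Complex.exp (-(Complex.I * ph q (x, y))) * (-(Complex.I * q2 (ph q) (x, y)))) y :=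
    ((h.ph_y hp).const_mul Complex.I).neg.cexp
  have e1 : HasDerivAt (fun y => (y - x) * cl q (x, y) * Complex.exp (Complex.I * ph q (x, y)))
      (vel q 1 y) y := by
    refine ((h.dat.hasDerivAt_Zs 1 (h.my hp)).sub_const (Zs q 1 x)).congr_of_eventuallyEq ?_
    filter_upwards [hev] with y' hy'
    exact h.chord1 hy'
  have e2 : HasDerivAt (fun y => (y - x) * cl q (x, y) * Complex.exp (-(Complex.I * ph q (x, y))))
      (vel q (-1) y) y := by
    refine ((h.dat.hasDerivAt_Zs (-1) (h.my hp)).sub_const (Zs q (-1) x)).congr_of_eventuallyEq ?_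
    filter_upwards [hev] with y' hy'
    exact h.chord2 hy'
  have f1 := e1.unique (d1.mul d2)
  have f2 := e2.unique (d1.mul d3)
  set E := Complex.exp (Complex.I * ph q (x, y)) with hE
  have hE0 : E ≠ 0 := Complex.exp_ne_zero _
  have hEi : Complex.exp (-(Complex.I * ph q (x, y))) = E⁻¹ := Complex.exp_neg _
  rw [hEi] at f2
  have g1 : vel q 1 y * E⁻¹ = Complex.exp (-2 * q y) *
      Complex.exp ((Tc q y - ph q (x, y)) * Complex.I) := by
    rw [← hEi]
    unfold vel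
    rw [← Complex.exp_add, ← Complex.exp_add]
    congr 1
    ring
  have g2 : vel q (-1) y * E = Complex.exp (-2 * q y) *
      Complex.exp (-(Tc q y - ph q (x, y)) * Complex.I) := by
    rw [hE]
    unfold vel
    rw [← Complex.exp_add, ← Complex.exp_add]
    congr 1
    ring
  rw [f1] at g1
  rw [f2] at g2
  have k1 : (cl q (x, y) + (y - x) * q2 (cl q) (x, y)) +
      (y - x) * cl q (x, y) * (Complex.I * q2 (ph q) (x, y)) = Complex.exp (-2 * q y) *
      Complex.exp ((Tc q y - ph q (x, y)) * Complex.I) := by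
    rw [← g1]; field_simp
  have k2 : (cl q (x, y) + (y - x) * q2 (cl q) (x, y)) -
      (y - x) * cl q (x, y) * (Complex.I * q2 (ph q) (x, y)) = Complex.exp (-2 * q y) *
      Complex.exp (-(Tc q y - ph q (x, y)) * Complex.I) := by
    rw [← g2]; field_simp; ring
  have hI := Complex.I_sq
  constructor
  · rw [Complex.cos]
    linear_combination (1 / 2) * (k1 + k2)
  · rw [Complex.sin]
    linear_combination (-Complex.I / 2) * (k1 - k2) +
      (y - x) * cl q (x, y) * q2 (ph q) (x, y) * hI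

/-- `∂_x` of chord length and direction -/
lemma Sm.part_x : (-cl q (x, y) + (y - x) * q1 (cl q) (x, y) =
      -(Complex.exp (-2 * q x) * Complex.cos (Tc q x - ph q (x, y)))) ∧
    ((y - x) * cl q (x, y) * q1 (ph q) (x, y) =
      -(Complex.exp (-2 * q x) * Complex.sin (Tc q x - ph q (x, y)))) := by
  have hev : ∀ᶠ x' in 𝓝 x, (x', y) ∈ Dg ρ₀ ε₀ := by
    have hc : ContinuousAt (fun x' : ℂ => (x', y)) x := by fun_prop
    exact hc.eventually ((isOpen_Dg ρ₀ ε₀).mem_nhds hp)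
  have d1 : HasDerivAt (fun x => (y - x) * cl q (x, y))
      ((-1) * cl q (x, y) + (y - x) * q1 (cl q) (x, y)) x :=
    ((hasDerivAt_id x).const_sub y).mul (h.cl_x hp)
  have d2 : HasDerivAt (fun x => Complex.exp (Complex.I * ph q (x, y)))
      (Complex.exp (Complex.I * ph q (x, y)) * (Complex.I * q1 (ph q) (x, y))) x :=
    ((h.ph_x hp).const_mul Complex.I).cexp
  have d3 : HasDerivAt (fun x => Complex.exp (-(Complex.I * ph q (x, y))))
      (Complex.exp (-(Complex.I * ph q (x, y))) * (-(Complex.I * q1 (ph q) (x, y)))) x :=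
    ((h.ph_x hp).const_mul Complex.I).neg.cexp
  have e1 : HasDerivAt (fun x => (y - x) * cl q (x, y) * Complex.exp (Complex.I * ph q (x, y)))
      (-vel q 1 x) x := by
    refine ((h.dat.hasDerivAt_Zs 1 (h.mx hp)).const_sub (Zs q 1 y)).congr_of_eventuallyEq ?_
    filter_upwards [hev] with x' hx'
    exact h.chord1 hx'
  have e2 : HasDerivAt (fun x => (y - x) * cl q (x, y) * Complex.exp (-(Complex.I * ph q (x, y))))
      (-vel q (-1) x) x := by
    refine ((h.dat.hasDerivAt_Zs (-1) (h.mx hp)).const_sub (Zs q (-1) y)).congr_of_eventuallyEq ?_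
    filter_upwards [hev] with x' hx'
    exact h.chord2 hx'
  have f1 := e1.unique (d1.mul d2)
  have f2 := e2.unique (d1.mul d3)
  set E := Complex.exp (Complex.I * ph q (x, y)) with hE
  have hE0 : E ≠ 0 := Complex.exp_ne_zero _
  have hEi : Complex.exp (-(Complex.I * ph q (x, y))) = E⁻¹ := Complex.exp_neg _
  rw [hEi] at f2
  have g1 : -vel q 1 x * E⁻¹ = -(Complex.exp (-2 * q x) *
      Complex.exp ((Tc q x - ph q (x, y)) * Complex.I)) := by
    rw [← hEi, neg_mul]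
    unfold vel
    rw [← Complex.exp_add, ← Complex.exp_add]
    congr 2
    ring
  have g2 : -vel q (-1) x * E = -(Complex.exp (-2 * q x) *
      Complex.exp (-(Tc q x - ph q (x, y)) * Complex.I)) := by
    rw [hE, neg_mul]
    unfold vel
    rw [← Complex.exp_add, ← Complex.exp_add]
    congr 2
    ring
  rw [f1] at g1
  rw [f2] at g2
  have k1 : (-cl q (x, y) + (y - x) * q1 (cl q) (x, y)) +
      (y - x) * cl q (x, y) * (Complex.I * q1 (ph q) (x, y)) = -(Complex.exp (-2 * q x) *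
      Complex.exp ((Tc q x - ph q (x, y)) * Complex.I)) := by
    rw [← g1]; field_simp
  have k2 : (-cl q (x, y) + (y - x) * q1 (cl q) (x, y)) -
      (y - x) * cl q (x, y) * (Complex.I * q1 (ph q) (x, y)) = -(Complex.exp (-2 * q x) *
      Complex.exp (-(Tc q x - ph q (x, y)) * Complex.I)) := by
    rw [← g2]; field_simp; ring
  have hI := Complex.I_sq
  constructor
  · rw [Complex.cos]
    linear_combination (1 / 2) * (k1 + k2)
  · rw [Complex.sin]
    linear_combination (-Complex.I / 2) * (k1 - k2) +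
      (y - x) * cl q (x, y) * q1 (ph q) (x, y) * hI

variable {ρ C : ℝ} (hS : Sml q ρ C η ρ₀ ε₀)

include hS

lemma Sm.Lq_y : q2 (Lq q) (x, y) =
    4 * (Complex.exp (-2 * q y) * (1 - Complex.cos (Tc q y - ph q (x, y)))) := by
  have hev : ∀ᶠ y' in 𝓝 y, (x, y') ∈ Dg ρ₀ ε₀ := by
    have hc : ContinuousAt (fun y' : ℂ => (x, y')) y := by fun_prop
    exact hc.eventually ((isOpen_Dg ρ₀ ε₀).mem_nhds hp)
  have hL : DifferentiableAt ℂ (Lq q) (x, y) :=
    hS.diff_Lq.differentiableAt ((isOpen_Dg ρ₀ ε₀).mem_nhds hp)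
  have d0 : HasDerivAt (fun y => Lq q (x, y)) (q2 (Lq q) (x, y)) y := by
    have := hasDerivAt_comp2 (F := Lq q) hL (hasDerivAt_const y x) (hasDerivAt_id y)
    simpa using this
  have d1 : HasDerivAt (fun y => (y - x) * cl q (x, y))
      (1 * cl q (x, y) + (y - x) * q2 (cl q) (x, y)) y :=
    ((hasDerivAt_id y).sub_const x).mul (h.cl_y hp)
  have d2 := ((((h.dat.hasDerivAt_Sc (h.my hp)).sub_const (Sc q x)).sub d1).const_mul 4)
  have d3 := d2.congr_of_eventuallyEq (f₁ := fun y => Lq q (x, y)) (by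
    filter_upwards [hev] with y' hy'
    exact h.Lq_eq hS hy')
  rw [d0.unique d3, one_mul, (h.part_y hp).1]
  ring

lemma Sm.Lq_x : q1 (Lq q) (x, y) =
    -(4 * (Complex.exp (-2 * q x) * (1 - Complex.cos (Tc q x - ph q (x, y))))) := by
  have hev : ∀ᶠ x' in 𝓝 x, (x', y) ∈ Dg ρ₀ ε₀ := by
    have hc : ContinuousAt (fun x' : ℂ => (x', y)) x := by fun_prop
    exact hc.eventually ((isOpen_Dg ρ₀ ε₀).mem_nhds hp)
  have hL : DifferentiableAt ℂ (Lq q) (x, y) :=
    hS.diff_Lq.differentiableAt ((isOpen_Dg ρ₀ ε₀).mem_nhds hp)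
  have d0 : HasDerivAt (fun x => Lq q (x, y)) (q1 (Lq q) (x, y)) x := by
    have := hasDerivAt_comp2 (F := Lq q) hL (hasDerivAt_id x) (hasDerivAt_const x y)
    simpa using this
  have d1 : HasDerivAt (fun x => (y - x) * cl q (x, y))
      ((-1) * cl q (x, y) + (y - x) * q1 (cl q) (x, y)) x :=
    ((hasDerivAt_id x).const_sub y).mul (h.cl_x hp)
  have d2 := ((((h.dat.hasDerivAt_Sc (h.mx hp)).const_sub (Sc q y)).sub d1).const_mul 4)
  have d3 := d2.congr_of_eventuallyEq (f₁ := fun x => Lq q (x, y)) (by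
    filter_upwards [hev] with x' hx'
    exact h.Lq_eq hS hx')
  rw [d0.unique d3, neg_one_mul, (h.part_x hp).1]
  ring

lemma Sm.Lq_xy : q2 (q1 (Lq q)) (x, y) =
    4 * (Complex.exp (-2 * q x) * Complex.sin (Tc q x - ph q (x, y)) * q2 (ph q) (x, y)) := by
  have hev : ∀ᶠ y' in 𝓝 y, (x, y') ∈ Dg ρ₀ ε₀ := by
    have hc : ContinuousAt (fun y' : ℂ => (x, y')) y := by fun_prop
    exact hc.eventually ((isOpen_Dg ρ₀ ε₀).mem_nhds hp)
  have hL : DifferentiableAt ℂ (q1 (Lq q)) (x, y) :=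
    (ana_q1 hS.isLag.anaL _ hp).differentiableAt
  have d0 : HasDerivAt (fun y => q1 (Lq q) (x, y)) (q2 (q1 (Lq q)) (x, y)) y := by
    have := hasDerivAt_comp2 (F := q1 (Lq q)) hL (hasDerivAt_const y x) (hasDerivAt_id y)
    simpa using this
  have d1 : HasDerivAt (fun y => -(4 * (Complex.exp (-2 * q x) *
      (1 - Complex.cos (Tc q x - ph q (x, y))))))
      (-(4 * (Complex.exp (-2 * q x) *
      (-(-Complex.sin (Tc q x - ph q (x, y)) * (-(q2 (ph q) (x, y)))))))) y := by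
    have e1 := ((h.ph_y hp).const_sub (Tc q x)).ccos
    exact (((e1.const_sub 1).const_mul _).const_mul 4).neg
  have d3 := d1.congr_of_eventuallyEq (f₁ := fun y => q1 (Lq q) (x, y)) (by
    filter_upwards [hev] with y' hy'
    exact h.Lq_x hy' hS)
  rw [d0.unique d3]
  ring

end partials

/-! ### support function and area form -/

/-- `p = n(φ) · X` with `n(φ) = (- sin φ, cos φ)` for the line through `x` and `y` -/
def pc (q : C(ℂ, ℂ)) (p : ℂ × ℂ) : ℂ :=
  (Complex.exp (-(Complex.I * ph q p)) * Zs q 1 p.1 -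
    Complex.exp (Complex.I * ph q p) * Zs q (-1) p.1) / (2 * Complex.I)

lemma Sm.pc_eq_snd (h : Sm q η ρ₀ ε₀) {x y : ℂ} (hp : (x, y) ∈ Dg ρ₀ ε₀) :
    pc q (x, y) = (Complex.exp (-(Complex.I * ph q (x, y))) * Zs q 1 y -
      Complex.exp (Complex.I * ph q (x, y)) * Zs q (-1) y) / (2 * Complex.I) := by
  have h1 := h.chord1 hp
  have h2 := h.chord2 hp
  have : Complex.exp (-(Complex.I * ph q (x, y))) * Complex.exp (Complex.I * ph q (x, y)) = 1 := by
    rw [← Complex.exp_add]; simp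
  unfold pc
  simp only
  congr 1
  linear_combination Complex.exp (-(Complex.I * ph q (x, y))) * h1 -
    Complex.exp (Complex.I * ph q (x, y)) * h2

lemma Sm.pc_diff (h : Sm q η ρ₀ ε₀) : DifferentiableOn ℂ (pc q) (Dg ρ₀ ε₀) := by
  have hsub : Dg ρ₀ ε₀ ⊆ Str η ×ˢ Str η := fun p hp =>
    ⟨lt_trans hp.1 h.lt, lt_trans hp.2.1 h.lt⟩
  have h3 : ∀ s : ℂ, DifferentiableOn ℂ (fun p : ℂ × ℂ => Zs q s p.1) (Dg ρ₀ ε₀) := fun s =>
    (h.dat.Zs_diff s).comp differentiable_fst.differentiableOn (fun p hp => (hsub hp).1)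
  have h4 := (((h.ph_diff.const_mul Complex.I).neg.cexp).mul (h3 1)).sub
    (((h.ph_diff.const_mul Complex.I).cexp).mul (h3 (-1)))
  refine (h4.mul_const ((2 * Complex.I)⁻¹)).congr (fun p _ => ?_)
  unfold pc
  rw [div_eq_mul_inv]
  rfl

/-- **area form**: `dφ ∧ dp = - (1/4) L_12 dx ∧ dy` -/
theorem Sm.area (h : Sm q η ρ₀ ε₀) {ρ C : ℝ} (hS : Sml q ρ C η ρ₀ ε₀) {x y : ℂ}
    (hp : (x, y) ∈ Dg ρ₀ ε₀) :
    q1 (ph q) (x, y) * q2 (pc q) (x, y) - q2 (ph q) (x, y) * q1 (pc q) (x, y) =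
      -(q2 (q1 (Lq q)) (x, y) / 4) := by
  have hd : DifferentiableAt ℂ (pc q) (x, y) :=
    h.pc_diff.differentiableAt ((isOpen_Dg ρ₀ ε₀).mem_nhds hp)
  have a1 : HasDerivAt (fun y => pc q (x, y)) (q2 (pc q) (x, y)) y := by
    have := hasDerivAt_comp2 (F := pc q) hd (hasDerivAt_const y x) (hasDerivAt_id y)
    simpa using this
  have a2 : HasDerivAt (fun x => pc q (x, y)) (q1 (pc q) (x, y)) x := by
    have := hasDerivAt_comp2 (F := pc q) hd (hasDerivAt_id x) (hasDerivAt_const x y)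
    simpa using this
  have b1 := ((((((h.ph_y hp).const_mul Complex.I).neg.cexp).mul_const (Zs q 1 x)).sub
    ((((h.ph_y hp).const_mul Complex.I).cexp).mul_const (Zs q (-1) x))).div_const (2 * Complex.I))
  have b2 := ((((((h.ph_x hp).const_mul Complex.I).neg.cexp).mul
    (h.dat.hasDerivAt_Zs 1 (h.mx hp))).sub
    ((((h.ph_x hp).const_mul Complex.I).cexp).mul (h.dat.hasDerivAt_Zs (-1) (h.mx hp)))).div_const
    (2 * Complex.I))
  have c1 := a1.unique b1
  have c2 := a2.unique b2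
  rw [c1, c2, h.Lq_xy hp hS]
  have g1 : Complex.exp (-(Complex.I * ph q (x, y))) * vel q 1 x = Complex.exp (-2 * q x) *
      Complex.exp ((Tc q x - ph q (x, y)) * Complex.I) := by
    unfold vel
    rw [← Complex.exp_add, ← Complex.exp_add]
    congr 1
    ring
  have g2 : Complex.exp (Complex.I * ph q (x, y)) * vel q (-1) x = Complex.exp (-2 * q x) *
      Complex.exp (-(Tc q x - ph q (x, y)) * Complex.I) := by
    unfold vel
    rw [← Complex.exp_add, ← Complex.exp_add]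
    congr 1
    ring
  rw [Complex.sin]
  have hI := Complex.I_ne_zero
  have hI2 := Complex.I_sq
  simp only [Pi.neg_apply]
  generalize Complex.exp ((Tc q x - ph q (x, y)) * Complex.I) = E1 at g1 ⊢
  generalize Complex.exp (-(Tc q x - ph q (x, y)) * Complex.I) = E2 at g2 ⊢
  generalize Complex.exp (-2 * q x) = E3 at g1 g2 ⊢
  generalize Complex.exp (-(Complex.I * ph q (x, y))) = A at g1 ⊢
  generalize Complex.exp (Complex.I * ph q (x, y)) = B at g2 ⊢
  field_simp
  linear_combination (-q2 (ph q) (x, y)) * g1 + q2 (ph q) (x, y) * g2 +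
    q2 (ph q) (x, y) * E3 * (E2 - E1) * hI2

end Crest.Agent.R102.C0
end
end

-- ▼ part R102/C0_821

/-!
Row 102, (C0): the analytic family of lines from the output of part (B), and
`PartCL → PartC`.
-/

set_option autoImplicit false

open Set Filter Topology MeasureTheory
open scoped ComplexConjugate

noncomputable section

namespace Crest.Agent.R102.C0

open Crest.Agent.R102.T5 Crest.Agent.R102.G576 Crest.Agent.R102.A929 Crest.Agent.R102.B821

variable {q : C(ℂ, ℂ)} {η ρ₀ ε₀ ρ r B ρq Cq : ℝ} {U : ℂ × ℂ → ℂ} {m₀ : ℂ → ℂ}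

/-- direction of the line `l(t, w)` -/
def phl (q : C(ℂ, ℂ)) (U : ℂ × ℂ → ℂ) (p : ℂ × ℂ) : ℂ :=
  ph q (tr (-(1 / 2)) (Xf U) p, tr (1 / 2) (Xf U) p)

/-- support function of the line `l(t, w)` -/
def pcl (q : C(ℂ, ℂ)) (U : ℂ × ℂ → ℂ) (p : ℂ × ℂ) : ℂ :=
  pc q (tr (-(1 / 2)) (Xf U) p, tr (1 / 2) (Xf U) p)

lemma sin_ne_zero_of_small {z : ℂ} (hz : ‖z‖ ≤ 1) (h0 : z ≠ 0) : Complex.sin z ≠ 0 := by
  intro hs
  rw [Complex.sin_eq_zero_iff] at hs
  obtain ⟨k, hk⟩ := hs
  rcases eq_or_ne k 0 with rfl | hk0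
  · exact h0 (by rw [hk]; simp)
  · have h1 : (1 : ℝ) ≤ |(k : ℝ)| := by
      exact_mod_cast Int.one_le_abs hk0
    rw [hk, norm_mul, Complex.norm_intCast, Complex.norm_real, Real.norm_of_nonneg Real.pi_pos.le]
      at hz
    have := Real.pi_gt_three
    nlinarith

/-- all data with common constants -/
structure Good (q : C(ℂ, ℂ)) (η ρ₀ ε₀ ρ r B : ℝ) (U : ℂ × ℂ → ℂ) (m₀ : ℂ → ℂ) (ρq Cq : ℝ) :
    Prop where
  sm : Sm q η ρ₀ ε₀
  sml : Sml q ρq Cq η ρ₀ ε₀
  adm : Adm ρ₀ ε₀ ρ r U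
  B_nn : 0 ≤ B
  B_le : B * r ≤ ρ / 2
  bdd : Bdd (1 / 2) ρ r 2 B U
  el : ∀ p ∈ Dom (3 / 2) ρ r, Ef (Lq q) U p = 0
  m_diff : DifferentiableOn ℂ m₀ (Metric.ball 0 r)
  area : ∀ p ∈ Dom 1 ρ r, muf (Lq q) U p = p.2 * m₀ p.2
  m_near : ∀ w : ℂ, ‖w‖ < r → ‖m₀ w - 1‖ ≤ 1 / 8

theorem good_of_leaves (hD : Datum q η) (hlt : ρ₀ < η) (hl : Leaves q ρ₀ ε₀ ρ r B U m₀) :
    ∃ ρq Cq ε' r' : ℝ, Good q η ρ₀ ε' ρ r' B U m₀ ρq Cq := by
  have hρ₀ := hl.lag.ρ_pos
  obtain ⟨ρq, Cq, εq, hq⟩ := exists_sml hD.diff hD.per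
    (fun x => by rw [hD.q_real]; simp) hρ₀ hlt
  obtain ⟨ε1, h1⟩ := hD.exists_Sm hρ₀ hlt
  have hε₀ := hl.lag.ε_pos
  have hr := hl.adm.r_pos
  have hρ := hl.adm.ρ_pos
  have hB := hl.B_nn
  set ε' : ℝ := min εq (min ε1 ε₀) with hε'
  have hε'0 : 0 < ε' := lt_min hq.ε_pos (lt_min h1.ε_pos hε₀)
  have a1 : ε' ≤ εq := min_le_left _ _
  have a2 : ε' ≤ ε1 := (min_le_right _ _).trans (min_le_left _ _)
  set r' : ℝ := min r (min (ε' / 4) (ρ / (2 * (B + 1)))) with hr'
  have hr'0 : 0 < r' := lt_min hr (lt_min (by positivity) (by positivity))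
  have b1 : r' ≤ r := min_le_left _ _
  have b2 : r' ≤ ε' / 4 := (min_le_right _ _).trans (min_le_left _ _)
  have b3 : r' ≤ ρ / (2 * (B + 1)) := (min_le_right _ _).trans (min_le_right _ _)
  have hadm0 := hl.adm.mono (ρ' := ρ) (r' := r') le_rfl b1 hρ hr'0 (by
    have := hl.adm.r_le_ρ
    linarith)
  refine ⟨ρq, Cq, ε', r', h1.mono hρ₀ le_rfl hε'0 a2, ?_, ?_, hB, ?_, ?_, ?_, ?_, ?_, ?_⟩
  · exact ⟨hq.loc, hq.ρ_pos, hq.lt, hε'0, hq.hd, hq.per, hq.real, fun x e hx hxe he =>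
      hq.sm x e hx hxe (lt_of_lt_of_le he a1)⟩
  · exact { hadm0 with r_le_ε := by linarith }
  · rw [le_div_iff₀ (by positivity)] at b3
    nlinarith
  · exact fun p hp => hl.bdd p (Dom_mono le_rfl le_rfl b1 hp)
  · exact fun p hp => hl.el p (Dom_mono le_rfl le_rfl b1 hp)
  · exact hl.m_diff.mono (Metric.ball_subset_ball b1)
  · exact fun p hp => hl.area p (Dom_mono le_rfl le_rfl b1 hp)
  · exact fun w hw => hl.m_near w (lt_of_lt_of_le hw b1)

section

variable (h : Good q η ρ₀ ε₀ ρ r B U m₀ ρq Cq)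

include h

lemma Good.pair {p : ℂ × ℂ} (hp : p ∈ Dom 1 ρ r) :
    (tr (-(1 / 2)) (Xf U) p, tr (1 / 2) (Xf U) p) ∈ Dg ρ₀ ε₀ := h.adm.pair_half h.sml.isLag hp

lemma Good.U_zero {t : ℂ} (ht : |t.im| < ρ) : U (t, 0) = 0 := by
  have h1 := h.bdd (t, 0) ⟨by simpa using ht, by simpa using h.adm.r_pos⟩
  simpa using h1

lemma Good.zero_mem {k : ℝ} {t : ℂ} (ht : |t.im| < ρ) : ((t, 0) : ℂ × ℂ) ∈ Dom k ρ r :=
  ⟨by simpa using ht, by simpa using h.adm.r_pos⟩

lemma Good.tr_zero' {c : ℝ} {t : ℂ} (ht : |t.im| < ρ) : tr c (Xf U) (t, 0) = t := by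
  unfold tr Xf
  simp only [mul_zero, add_zero]
  rw [h.U_zero ht, add_zero]

/-! ### differentiability -/

lemma Good.Xtr_diff (c : ℝ) : DifferentiableOn ℂ (tr c (Xf U)) (Dom (1 / 2 + |c|) ρ r) :=
  (h.adm.hU.isX.tr c).diff

lemma Good.pair_diff :
    DifferentiableOn ℂ (fun p => (tr (-(1 / 2)) (Xf U) p, tr (1 / 2) (Xf U) p)) (Dom 1 ρ r) := by
  have h1 := h.Xtr_diff (-(1 / 2))
  have h2 := h.Xtr_diff (1 / 2)
  have e : |(1 / 2 : ℝ)| = 1 / 2 := by norm_num
  rw [abs_neg, e] at h1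
  rw [e] at h2
  norm_num at h1 h2
  refine DifferentiableOn.prodMk ?_ ?_
  · simpa using h1
  · simpa using h2

lemma Good.phl_diff : DifferentiableOn ℂ (phl q U) (Dom 1 ρ r) :=
  h.sm.ph_diff.comp h.pair_diff (fun _ hp => h.pair hp)

lemma Good.pcl_diff : DifferentiableOn ℂ (pcl q U) (Dom 1 ρ r) :=
  h.sm.pc_diff.comp h.pair_diff (fun _ hp => h.pair hp)

/-! ### symmetries -/

lemma Good.Xtr_per {c : ℝ} {t w : ℂ} (hp : (t, w) ∈ Dom (1 / 2 + |c|) ρ r) :
    tr c (Xf U) (t + 1, w) = tr c (Xf U) (t, w) + 1 := (h.adm.hU.isX.tr c).per t w hp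

lemma Good.Xm_per {t w : ℂ} (hp : (t, w) ∈ Dom 1 ρ r) :
    tr (-(1 / 2)) (Xf U) (t + 1, w) = tr (-(1 / 2)) (Xf U) (t, w) + 1 := by
  refine h.Xtr_per ?_
  have e : |(-(1 / 2) : ℝ)| = 1 / 2 := by norm_num [abs_of_pos]
  rw [e]
  norm_num
  exact hp

lemma Good.Xp_per {t w : ℂ} (hp : (t, w) ∈ Dom 1 ρ r) :
    tr (1 / 2) (Xf U) (t + 1, w) = tr (1 / 2) (Xf U) (t, w) + 1 := by
  refine h.Xtr_per ?_
  have e : |(1 / 2 : ℝ)| = 1 / 2 := by norm_num
  rw [e]
  norm_num
  exact hp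

lemma Good.phl_per {t w : ℂ} (hp : (t, w) ∈ Dom 1 ρ r) :
    phl q U (t + 1, w) = phl q U (t, w) + 2 * Real.pi := by
  unfold phl
  rw [h.Xm_per hp, h.Xp_per hp, h.sm.ph_per (h.pair hp)]

lemma Good.pcl_per {t w : ℂ} (hp : (t, w) ∈ Dom 1 ρ r) :
    pcl q U (t + 1, w) = pcl q U (t, w) := by
  have hm := h.pair hp
  unfold pcl pc
  rw [h.Xm_per hp, h.Xp_per hp, h.sm.ph_per hm]
  simp only
  rw [h.sm.dat.Zs_per (h.sm.mx hm) (Or.inl rfl), h.sm.dat.Zs_per (h.sm.mx hm) (Or.inr rfl)]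
  set f := ph q (tr (-(1 / 2)) (Xf U) (t, w), tr (1 / 2) (Xf U) (t, w))
  have e1 : Complex.exp (-(Complex.I * (f + 2 * Real.pi))) = Complex.exp (-(Complex.I * f)) := by
    rw [Complex.exp_eq_exp_iff_exists_int]
    exact ⟨-1, by push_cast; ring⟩
  have e2 : Complex.exp (Complex.I * (f + 2 * Real.pi)) = Complex.exp (Complex.I * f) := by
    rw [Complex.exp_eq_exp_iff_exists_int]
    exact ⟨1, by push_cast; ring⟩
  rw [e1, e2]

lemma Good.X_neg {t w : ℂ} (hp : (t, w) ∈ Dom 1 ρ r) :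
    tr (-(1 / 2)) (Xf U) (t, -w) = tr (1 / 2) (Xf U) (t, w) ∧
    tr (1 / 2) (Xf U) (t, -w) = tr (-(1 / 2)) (Xf U) (t, w) := by
  have h1 := h.adm.Xf_par (-(1 / 2)) (k' := 1) (by norm_num [abs_of_pos]) hp
  have h2 := h.adm.Xf_par (1 / 2) (k' := 1) (by norm_num [abs_of_pos]) hp
  rw [neg_neg] at h1
  exact ⟨h1, h2⟩

lemma Good.phl_even {t w : ℂ} (hp : (t, w) ∈ Dom 1 ρ r) :
    phl q U (t, -w) = phl q U (t, w) := by
  unfold phl
  rw [(h.X_neg hp).1, (h.X_neg hp).2, ph_swap]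

lemma Good.pcl_even {t w : ℂ} (hp : (t, w) ∈ Dom 1 ρ r) :
    pcl q U (t, -w) = pcl q U (t, w) := by
  unfold pcl
  rw [(h.X_neg hp).1, (h.X_neg hp).2, h.sm.pc_eq_snd (h.pair hp)]
  unfold pc
  simp only
  rw [ph_swap]

lemma Good.X_conj {c : ℝ} (hc : |c| = 1 / 2) {t w : ℂ} (hp : (t, w) ∈ Dom 1 ρ r) :
    tr c (Xf U) (conj t, conj w) = conj (tr c (Xf U) (t, w)) :=
  h.adm.Xf_re c (k' := 1) (by rw [hc]; norm_num) hp

lemma Good.phl_conj {t w : ℂ} (hp : (t, w) ∈ Dom 1 ρ r) :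
    phl q U (conj t, conj w) = conj (phl q U (t, w)) := by
  unfold phl
  rw [h.X_conj (by norm_num [abs_of_pos]) hp, h.X_conj (by norm_num) hp,
    h.sm.ph_conj (h.pair hp)]

lemma Good.pcl_conj {t w : ℂ} (hp : (t, w) ∈ Dom 1 ρ r) :
    pcl q U (conj t, conj w) = conj (pcl q U (t, w)) := by
  have hm := h.pair hp
  unfold pcl pc
  rw [h.X_conj (by norm_num [abs_of_pos]) hp, h.X_conj (by norm_num) hp, h.sm.ph_conj hm]
  simp only
  have hx := h.sm.mx hm
  have a1 := h.sm.dat.Zs_conj hx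
  have a2 : Zs q 1 (conj (tr (-(1 / 2)) (Xf U) (t, w))) =
      conj (Zs q (-1) (tr (-(1 / 2)) (Xf U) (t, w))) := by
    have := h.sm.dat.Zs_conj (conj_mem_Str hx)
    rw [starRingEnd_self_apply] at this
    rw [this, starRingEnd_self_apply]
  rw [a1, a2]
  simp only [map_div₀, map_sub, map_mul, ← Complex.exp_conj, map_neg, Complex.conj_I, map_ofNat]
  have := Complex.I_ne_zero
  field_simp
  ring_nf

lemma Good.phl_zero {t : ℂ} (ht : |t.im| < ρ) : phl q U (t, 0) = Tc q t := by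
  unfold phl
  rw [h.tr_zero' ht, h.tr_zero' ht, ph_diag]

/-! ### reflection -/

lemma Good.hasDerivAt_X_zero {c : ℝ} {t : ℂ} (ht : |t.im| < ρ) :
    HasDerivAt (fun w => tr c (Xf U) (t, w)) (c : ℂ) 0 := by
  have hm : ((t, 0) : ℂ × ℂ) ∈ Dom (1 / 2) ρ r := h.zero_mem ht
  have hU : DifferentiableAt ℂ U (t + c * 0, 0) := by
    rw [mul_zero, add_zero]; exact h.adm.hU.differentiableAt hm
  have h1 := hasDerivAt_Xf_w (c := c) (U := U) (t := t) (w := 0) hU
  have hUd : DifferentiableAt ℂ U (t, 0) := h.adm.hU.differentiableAt hm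
  have h2 : q2 U (t, 0) = 0 := by
    have e1 := hasDerivAt_snd hUd
    have e2 : HasDerivAt (fun s => U (t, s)) 0 0 := by
      rw [hasDerivAt_iff_isLittleO_nhds_zero]
      have hev : ∀ᶠ s : ℂ in 𝓝 0, (t, s) ∈ Dom (1 / 2) ρ r := by
        have hc : ContinuousAt (fun s : ℂ => (t, s)) 0 := by fun_prop
        exact hc.eventually ((isOpen_Dom _ _ _).mem_nhds hm)
      have hO : (fun s => U (t, 0 + s) - U (t, 0) - s • (0 : ℂ)) =O[𝓝 0] fun s : ℂ => s ^ 2 := by
        refine Asymptotics.IsBigO.of_bound B ?_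
        filter_upwards [hev] with s hs
        have := h.bdd _ hs
        rw [smul_zero, sub_zero, h.U_zero ht, sub_zero, zero_add, norm_pow]
        exact this
      refine hO.trans_isLittleO ?_
      have := Asymptotics.isLittleO_pow_id (𝕜 := ℂ) (n := 2) (by norm_num)
      exact this
    exact e1.unique e2
  have h3 : q1 U (t, 0) = 0 := by
    have e1 := hasDerivAt_fst hUd
    have e2 : HasDerivAt (fun s => U (s, 0)) 0 t := by
      refine (hasDerivAt_const t (0 : ℂ)).congr_of_eventuallyEq ?_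
      have : ∀ᶠ s : ℂ in 𝓝 t, |s.im| < ρ :=
        (isOpen_lt (by fun_prop) continuous_const).mem_nhds ht
      filter_upwards [this] with s hs
      exact h.U_zero hs
    exact e1.unique e2
  refine h1.congr_deriv ?_
  unfold tr Xw Xt
  simp only [mul_zero, add_zero]
  rw [h2, h3]
  ring

/-- **law of reflection** -/
theorem Good.refl {t w : ℂ} (hp : (t, w) ∈ Dom (3 / 2) ρ r) :
    ph q (tr (-1) (Xf U) (t, w), Xf U (t, w)) + ph q (Xf U (t, w), tr 1 (Xf U) (t, w)) =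
      2 * Tc q (Xf U (t, w)) := by
  have ht : |t.im| < ρ := by
    have := hp.1
    simp only at this
    have := abs_nonneg w.im
    linarith
  set S : Set ℂ := {w | (t, w) ∈ Dom (3 / 2) ρ r} with hS
  have hSo : IsOpen S := (isOpen_Dom _ _ _).preimage (by fun_prop)
  have hSc : IsPreconnected S := by
    have : Convex ℝ S := by
      intro a ha b hb s s' hs hs' hss
      have ha1 := ha.1
      have hb1 := hb.1
      have ha2 : ‖a‖ < r := ha.2
      have hb2 : ‖b‖ < r := hb.2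
      simp only at ha1 hb1
      refine ⟨?_, ?_⟩
      · simp only [Complex.real_smul, Complex.add_im, Complex.im_ofReal_mul]
        have h1 : |s * a.im + s' * b.im| ≤ s * |a.im| + s' * |b.im| := by
          refine (abs_add_le _ _).trans ?_
          rw [abs_mul, abs_mul, abs_of_nonneg hs, abs_of_nonneg hs']
        have h2 : s' = 1 - s := by linarith
        subst h2
        rcases eq_or_lt_of_le hs with h0 | h0
        · rw [← h0] at h1 ⊢
          simp only [zero_mul, sub_zero, one_mul, zero_add] at h1 ⊢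
          linarith
        · nlinarith
      · have h1 : ‖s • a + s' • b‖ ≤ s * ‖a‖ + s' * ‖b‖ := by
          refine (norm_add_le _ _).trans ?_
          rw [norm_smul, norm_smul, Real.norm_of_nonneg hs, Real.norm_of_nonneg hs']
        have h2 : s' = 1 - s := by linarith
        subst h2
        simp only
        rcases eq_or_lt_of_le hs with h0 | h0
        · rw [← h0] at h1 ⊢
          simp only [zero_mul, sub_zero, one_mul, zero_add] at h1 ⊢
          linarith
        · nlinarith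
    exact this.isPreconnected
  have h0S : (0 : ℂ) ∈ S := h.zero_mem ht
  have hmem := fun (w : ℂ) (hw : w ∈ S) => h.adm.mem3 h.sml.isLag hw
  -- the functions
  have dX : ∀ w ∈ S, DifferentiableAt ℂ (fun w => Xf U (t, w)) w := by
    intro w hw
    have h1 := hasDerivAt_Xf_w (c := 0) (U := U) (t := t) (w := w) (by
      rw [Complex.ofReal_zero, zero_mul, add_zero]
      exact h.adm.hU.differentiableAt (h.adm.mem_0 hw))
    have h2 : (fun s => tr 0 (Xf U) (t, s)) = fun s => Xf U (t, s) := by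
      funext s; exact tr_zero _ _
    rw [h2] at h1
    exact h1.differentiableAt
  have dXp : ∀ w ∈ S, DifferentiableAt ℂ (fun w => tr 1 (Xf U) (t, w)) w := by
    intro w hw
    exact (hasDerivAt_Xf_w (c := 1) (U := U) (t := t) (w := w)
      (h.adm.hU.differentiableAt (h.adm.mem_p hw))).differentiableAt
  have dXm : ∀ w ∈ S, DifferentiableAt ℂ (fun w => tr (-1) (Xf U) (t, w)) w := by
    intro w hw
    exact (hasDerivAt_Xf_w (c := -1) (U := U) (t := t) (w := w)
      (h.adm.hU.differentiableAt (h.adm.mem_m hw))).differentiableAt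
  set a : ℂ → ℂ := fun w => ph q (Xf U (t, w), tr 1 (Xf U) (t, w)) with ha
  set c : ℂ → ℂ := fun w => ph q (tr (-1) (Xf U) (t, w), Xf U (t, w)) with hc
  set T : ℂ → ℂ := fun w => Tc q (Xf U (t, w)) with hT
  have da : DifferentiableOn ℂ a S := by
    intro w hw
    have h1 := h.sm.hph (hmem w hw).2
    exact (DifferentiableAt.comp (g := ph q) (f := fun w => (Xf U (t, w), tr 1 (Xf U) (t, w))) w
      h1 ((dX w hw).prodMk (dXp w hw))).differentiableWithinAt
  have dc : DifferentiableOn ℂ c S := by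
    intro w hw
    have h1 := h.sm.hph (hmem w hw).1
    exact (DifferentiableAt.comp (g := ph q) (f := fun w => (tr (-1) (Xf U) (t, w), Xf U (t, w))) w
      h1 ((dXm w hw).prodMk (dX w hw))).differentiableWithinAt
  have dT : DifferentiableOn ℂ T S := by
    intro w hw
    have h1 := (h.sm.dat.hasDerivAt_Tc (h.sm.mx (hmem w hw).2)).differentiableAt
    exact (DifferentiableAt.comp (g := Tc q) (f := fun w => Xf U (t, w)) w
      h1 (dX w hw)).differentiableWithinAt
  -- bounds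
  have ba : ∀ w ∈ S, ‖a w - T w‖ ≤ 1 / 5 := fun w hw => (h.sm.ph_near (hmem w hw).2).1
  have bc : ∀ w ∈ S, ‖c w - T w‖ ≤ 1 / 5 := fun w hw => (h.sm.ph_near (hmem w hw).1).2
  -- Euler-Lagrange
  have hEL : ∀ w ∈ S, Complex.cos (T w - c w) = Complex.cos (T w - a w) := by
    intro w hw
    have h1 := h.el (t, w) hw
    unfold B821.Ef B821.EL at h1
    rw [h.sm.Lq_y (hmem w hw).1 h.sml, h.sm.Lq_x (hmem w hw).2 h.sml] at h1
    have h2 := Complex.exp_ne_zero (-2 * q (Xf U (t, w)))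
    have h3 : Complex.exp (-2 * q (Xf U (t, w))) * (Complex.cos (T w - a w) -
        Complex.cos (T w - c w)) = 0 := by
      simp only [ha, hc, hT]
      linear_combination h1 / 4
    rcases mul_eq_zero.1 h3 with h4 | h4
    · exact absurd h4 h2
    · exact (sub_eq_zero.1 h4).symm
  have hsin : ∀ w ∈ S, Complex.sin ((a w + c w - 2 * T w) / 2) *
      Complex.sin ((a w - c w) / 2) = 0 := by
    intro w hw
    have h1 := Complex.cos_sub_cos (T w - c w) (T w - a w)
    rw [hEL w hw, sub_self] at h1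
    have e1 : (T w - c w + (T w - a w)) / 2 = -((a w + c w - 2 * T w) / 2) := by ring
    have e2 : (T w - c w - (T w - a w)) / 2 = (a w - c w) / 2 := by ring
    rw [e1, e2, Complex.sin_neg] at h1
    linear_combination (-1 / 2) * h1
  -- the derivative of a - c at 0
  have hXt0 : Xf U (t, 0) = t := by
    have := h.tr_zero' (c := 0) ht
    rwa [tr_zero] at this
  have htt : ((t, t) : ℂ × ℂ) ∈ Dg ρ₀ ε₀ := by
    have := (hmem 0 h0S).2
    rw [hXt0, h.tr_zero' ht] at this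
    exact this
  have hdiag : q1 (ph q) (t, t) + q2 (ph q) (t, t) = Complex.exp (q t) := by
    have h1 := hasDerivAt_comp2 (F := ph q) (x := fun s => s) (y := fun s => s) (s := t)
      (h.sm.hph htt) (hasDerivAt_id t) (hasDerivAt_id t)
    have h2 : (fun s => ph q (s, s)) = Tc q := funext (fun s => ph_diag s)
    rw [h2] at h1
    have h3 := h1.unique (h.sm.dat.hasDerivAt_Tc (h.sm.mx htt))
    rw [mul_one, mul_one] at h3
    exact h3
  have hd0 : HasDerivAt (fun w => a w - c w) (Complex.exp (q t)) 0 := by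
    have x0 := h.hasDerivAt_X_zero (c := 0) ht
    have e0 : (fun w => tr 0 (Xf U) (t, w)) = fun w => Xf U (t, w) := by
      funext s; exact tr_zero _ _
    rw [e0] at x0
    have x1 := h.hasDerivAt_X_zero (c := 1) ht
    have x2 := h.hasDerivAt_X_zero (c := -1) ht
    have f1 : DifferentiableAt ℂ (ph q) (Xf U (t, 0), tr 1 (Xf U) (t, 0)) := by
      rw [hXt0, h.tr_zero' ht]; exact h.sm.hph htt
    have f2 : DifferentiableAt ℂ (ph q) (tr (-1) (Xf U) (t, 0), Xf U (t, 0)) := by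
      rw [hXt0, h.tr_zero' ht]; exact h.sm.hph htt
    have h1 := hasDerivAt_comp2 (F := ph q) (s := 0) f1 x0 x1
    have h2 := hasDerivAt_comp2 (F := ph q) (s := 0) f2 x2 x0
    refine (h1.sub h2).congr_deriv ?_
    rw [hXt0, h.tr_zero' ht, h.tr_zero' ht, ← hdiag]
    push_cast
    ring
  have hne : ∀ᶠ w in 𝓝[≠] (0 : ℂ), a w - c w ≠ 0 := by
    have h1 := hd0.eventually_ne (Complex.exp_ne_zero _) (c := 0)
    exact h1
  have hF0 : ∀ᶠ w in 𝓝[≠] (0 : ℂ), a w + c w - 2 * T w = 0 := by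
    have hSn : ∀ᶠ w in 𝓝[≠] (0 : ℂ), w ∈ S := nhdsWithin_le_nhds (hSo.mem_nhds h0S)
    filter_upwards [hne, hSn] with w hw hwS
    have b1 := ba w hwS
    have b2 := bc w hwS
    have h2 : ‖(2 : ℂ)‖ = 2 := by norm_num
    have hG : ‖(a w - c w) / 2‖ ≤ 1 := by
      rw [norm_div, h2]
      have : a w - c w = (a w - T w) - (c w - T w) := by ring
      rw [this]
      have := norm_sub_le (a w - T w) (c w - T w)
      linarith
    have hFn : ‖(a w + c w - 2 * T w) / 2‖ ≤ 1 := by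
      rw [norm_div, h2]
      have : a w + c w - 2 * T w = (a w - T w) + (c w - T w) := by ring
      rw [this]
      have := norm_add_le (a w - T w) (c w - T w)
      linarith
    have h3 : Complex.sin ((a w - c w) / 2) ≠ 0 :=
      sin_ne_zero_of_small hG (div_ne_zero hw (by norm_num))
    have h4 := (mul_eq_zero.1 (hsin w hwS)).resolve_right h3
    by_contra h5
    exact sin_ne_zero_of_small hFn (div_ne_zero h5 (by norm_num)) h4
  have hFd : DifferentiableOn ℂ (fun w => a w + c w - 2 * T w) S :=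
    (da.add dc).sub (dT.const_mul 2)
  have hid : EqOn (fun w => a w + c w - 2 * T w) (fun _ => 0) S :=
    (hFd.analyticOnNhd hSo).eqOn_of_preconnected_of_frequently_eq
      analyticOnNhd_const hSc h0S hF0.frequently
  have := hid hp
  simp only [ha, hc, hT] at this
  linear_combination this

/-! ### area form -/

theorem Good.area_form {t w : ℂ} (hp : (t, w) ∈ Dom 1 ρ r) :
    q1 (phl q U) (t, w) * q2 (pcl q U) (t, w) - q2 (phl q U) (t, w) * q1 (pcl q U) (t, w) =
      w / 4 * m₀ w := by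
  have hm := h.pair hp
  have e12 : |(1 / 2 : ℝ)| = 1 / 2 := by norm_num
  have hpm : (t + ((-(1 / 2) : ℝ) : ℂ) * w, w) ∈ Dom (1 / 2) ρ r :=
    tr_mem_half (-(1 / 2)) (by rw [abs_neg, e12]; norm_num) hp
  have hpp : (t + ((1 / 2 : ℝ) : ℂ) * w, w) ∈ Dom (1 / 2) ρ r :=
    tr_mem_half (1 / 2) (by rw [e12]; norm_num) hp
  have Um := h.adm.hU.differentiableAt hpm
  have Up := h.adm.hU.differentiableAt hpp
  have xt := hasDerivAt_Xf_t Um
  have yt := hasDerivAt_Xf_t Up
  have xw := hasDerivAt_Xf_w Um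
  have yw := hasDerivAt_Xf_w Up
  have hph := h.sm.hph hm
  have hpc : DifferentiableAt ℂ (pc q) (tr (-(1 / 2)) (Xf U) (t, w), tr (1 / 2) (Xf U) (t, w)) :=
    h.sm.pc_diff.differentiableAt ((isOpen_Dg ρ₀ ε₀).mem_nhds hm)
  have hphl : DifferentiableAt ℂ (phl q U) (t, w) :=
    h.phl_diff.differentiableAt ((isOpen_Dom _ _ _).mem_nhds hp)
  have hpcl : DifferentiableAt ℂ (pcl q U) (t, w) :=
    h.pcl_diff.differentiableAt ((isOpen_Dom _ _ _).mem_nhds hp)
  have a1 := (hasDerivAt_fst hphl).unique (hasDerivAt_comp2 (F := ph q)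
    (x := fun s => tr (-(1 / 2)) (Xf U) (s, w)) (y := fun s => tr (1 / 2) (Xf U) (s, w)) hph xt yt)
  have a2 := (hasDerivAt_snd hphl).unique (hasDerivAt_comp2 (F := ph q)
    (x := fun s => tr (-(1 / 2)) (Xf U) (t, s)) (y := fun s => tr (1 / 2) (Xf U) (t, s)) hph xw yw)
  have a3 := (hasDerivAt_fst hpcl).unique (hasDerivAt_comp2 (F := pc q)
    (x := fun s => tr (-(1 / 2)) (Xf U) (s, w)) (y := fun s => tr (1 / 2) (Xf U) (s, w)) hpc xt yt)
  have a4 := (hasDerivAt_snd hpcl).unique (hasDerivAt_comp2 (F := pc q)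
    (x := fun s => tr (-(1 / 2)) (Xf U) (t, s)) (y := fun s => tr (1 / 2) (Xf U) (t, s)) hpc xw yw)
  have har := h.sm.area h.sml hm
  have hmu := h.area (t, w) hp
  have e1 : muf (Lq q) U (t, w) = -(q2 (q1 (Lq q)) (tr (-(1 / 2)) (Xf U) (t, w),
      tr (1 / 2) (Xf U) (t, w)) * (tr (-(1 / 2)) (Xt U) (t, w) * tr (1 / 2) (Xt U) (t, w)) *
      (1 + (tr (1 / 2) (uf U) (t, w) - tr (-(1 / 2)) (uf U) (t, w)))) := rfl
  have um : tr (-(1 / 2)) (uf U) (t, w) =
      tr (-(1 / 2)) (Xw U) (t, w) * (tr (-(1 / 2)) (Xt U) (t, w))⁻¹ := rfl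
  have up : tr (1 / 2) (uf U) (t, w) =
      tr (1 / 2) (Xw U) (t, w) * (tr (1 / 2) (Xt U) (t, w))⁻¹ := rfl
  have nm : tr (-(1 / 2)) (Xt U) (t, w) ≠ 0 := h.adm.Xt_ne hpm
  have np : tr (1 / 2) (Xt U) (t, w) ≠ 0 := h.adm.Xt_ne hpp
  rw [e1, um, up] at hmu
  simp only at hmu
  rw [a1, a2, a3, a4]
  push_cast at *
  generalize tr (-(1 / 2)) (Xt U) (t, w) = A at *
  generalize tr (1 / 2) (Xt U) (t, w) = A' at *
  generalize tr (-(1 / 2)) (Xw U) (t, w) = W at *
  generalize tr (1 / 2) (Xw U) (t, w) = W' at *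
  generalize q1 (ph q) (tr (-(1 / 2)) (Xf U) (t, w), tr (1 / 2) (Xf U) (t, w)) = a at *
  generalize q2 (ph q) (tr (-(1 / 2)) (Xf U) (t, w), tr (1 / 2) (Xf U) (t, w)) = b at *
  generalize q1 (pc q) (tr (-(1 / 2)) (Xf U) (t, w), tr (1 / 2) (Xf U) (t, w)) = c at *
  generalize q2 (pc q) (tr (-(1 / 2)) (Xf U) (t, w), tr (1 / 2) (Xf U) (t, w)) = d at *
  generalize q2 (q1 (Lq q)) (tr (-(1 / 2)) (Xf U) (t, w), tr (1 / 2) (Xf U) (t, w)) = L at *
  have e2 : w / 4 * m₀ w = (w * m₀ w) / 4 := by ring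
  rw [e2, ← hmu]
  have e3 : A * A' * (1 + (W' * A'⁻¹ - W * A⁻¹)) = A * A' + W' * A - W * A' := by
    field_simp
    ring
  have e4 : -(L * (A * A') * (1 + (W' * A'⁻¹ - W * A⁻¹))) / 4 =
      -(L / 4) * (A * A' * (1 + (W' * A'⁻¹ - W * A⁻¹))) := by ring
  rw [e4, e3, ← har]
  ring

end

/-! ### the line family -/

lemma PD_sub (hρ : 0 < ρ) (hr : 8 * r ≤ ρ) : PD (ρ / 2) r ⊆ Dom (3 / 2) ρ r := by
  intro p hp
  have h1 : |p.1.im| < ρ / 2 := hp.1
  have h2 : ‖p.2‖ < r := hp.2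
  have h3 := Complex.abs_im_le_norm p.2
  exact ⟨by linarith, h2⟩

theorem Good.lineFam (h : Good q η ρ₀ ε₀ ρ r B U m₀ ρq Cq) :
    LineFam q η (ρ / 2) r B (Xf U) (phl q U) (pcl q U) m₀ := by
  have hρ := h.adm.ρ_pos
  have hr := h.adm.r_pos
  have h8 := h.adm.r_le_ρ
  have s3 : PD (ρ / 2) r ⊆ Dom (3 / 2) ρ r := PD_sub hρ h8
  have s1 : PD (ρ / 2) r ⊆ Dom 1 ρ r := s3.trans (Dom_mono (by norm_num) le_rfl le_rfl)
  have s0 : PD (ρ / 2) r ⊆ Dom (1 / 2) ρ r := s3.trans (Dom_mono (by norm_num) le_rfl le_rfl)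
  have eh : ∀ w : ℂ, (((1 / 2 : ℝ)) : ℂ) * w = w / 2 := fun w => by push_cast; ring
  have ehm : ∀ w : ℂ, (((-(1 / 2) : ℝ)) : ℂ) * w = -(w / 2) := fun w => by push_cast; ring
  have hXp : ∀ t w : ℂ, tr (1 / 2) (Xf U) (t, w) = Xf U (t + w / 2, w) := by
    intro t w; unfold tr; simp only; rw [eh]
  have hXm : ∀ t w : ℂ, tr (-(1 / 2)) (Xf U) (t, w) = Xf U (t - w / 2, w) := by
    intro t w; unfold tr; simp only; rw [ehm, ← sub_eq_add_neg]
  have hUb : ∀ x ∈ PD (ρ / 2) r, ‖U x‖ ≤ B * ‖x.2‖ ^ 2 := fun x hx => h.bdd x (s0 hx)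
  have hI := Complex.I_ne_zero
  refine
    { dat := h.sm.dat
      ρ_pos := by positivity
      r_pos := hr
      r_le := by linarith
      ρ_lt := by
        have := h.adm.ρ_le
        have := h.sm.lt
        have := h.sm.ρ_pos
        linarith
      b_diff := h.adm.hU.isX.diff.mono s0
      b_near := fun x hx => by
        have e1 : Xf U x - x.1 = U x := by unfold Xf; ring
        rw [e1]
        exact hUb x hx
      b_mem := fun x hx => by
        have e1 : (Xf U x).im = x.1.im + (U x).im := by simp [Xf]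
        have h1 : |x.1.im| < ρ / 2 := hx.1
        have h2 := (Complex.abs_im_le_norm (U x)).trans (hUb x hx)
        have h3 : ‖x.2‖ < r := hx.2
        have h4 : B * ‖x.2‖ ^ 2 ≤ B * r := by
          refine mul_le_mul_of_nonneg_left ?_ h.B_nn
          have := norm_nonneg x.2
          have := h.adm.r_le
          nlinarith
        have h5 := h.B_le
        rw [e1]
        have := abs_add_le x.1.im (U x).im
        linarith
      b_t := fun x hx => by
        have hUd := h.adm.hU.differentiableAt (s0 hx)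
        have e1 : q1 (Xf U) x = 1 + q1 U x := by
          have hXd : HasFDerivAt (Xf U) (ContinuousLinearMap.fst ℂ ℂ ℂ + fderiv ℂ U x) x :=
            hasFDerivAt_fst.add hUd.hasFDerivAt
          unfold q1
          rw [hXd.fderiv]
          simp
        rw [e1, add_sub_cancel_left]
        exact h.adm.Ut_bd x (s0 hx)
      b_per := fun t w hx => h.adm.hU.isX.per t w (s0 hx)
      b_even := fun t w hx => by
        have := h.adm.Xf_par 0 (k' := 1 / 2) (by norm_num) (s0 hx)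
        rw [neg_zero, tr_zero, tr_zero] at this
        exact this
      b_conj := fun t w hx => by
        have := h.adm.Xf_re 0 (k' := 1 / 2) (by norm_num) (s0 hx)
        rw [tr_zero, tr_zero] at this
        exact this
      φ_diff := h.phl_diff.mono s1
      p_diff := h.pcl_diff.mono s1
      φ_zero := fun t ht => h.phl_zero (by linarith)
      φ_per := fun t w hx => h.phl_per (s1 hx)
      p_per := fun t w hx => h.pcl_per (s1 hx)
      φ_even := fun t w hx => h.phl_even (s1 hx)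
      p_even := fun t w hx => h.pcl_even (s1 hx)
      φ_conj := fun t w hx => h.phl_conj (s1 hx)
      p_conj := fun t w hx => h.pcl_conj (s1 hx)
      inc := fun t w hx _ => by
        unfold OnLine phl pcl
        rw [h.sm.pc_eq_snd (h.pair (s1 hx)), hXp]
        field_simp
      inc' := fun t w hx _ => by
        unfold OnLine phl pcl pc
        simp only
        rw [hXm]
        field_simp
      refl := fun t w hx _ _ => by
        have h1 := h.refl (s3 hx)
        have e1 : phl q U (t - w / 2, w) = ph q (tr (-1) (Xf U) (t, w), Xf U (t, w)) := by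
          unfold phl
          rw [hXm, hXp]
          unfold tr
          simp only
          congr 3
          · push_cast; ring_nf
          · ring_nf
        have e2 : phl q U (t + w / 2, w) = ph q (Xf U (t, w), tr 1 (Xf U) (t, w)) := by
          unfold phl
          rw [hXm, hXp]
          unfold tr
          simp only
          congr 3
          · ring_nf
          · push_cast; ring_nf
        rw [e1, e2, h1]
      δ_small := fun t w hx _ => by
        have e2 : phl q U (t + w / 2, w) = ph q (Xf U (t, w), tr 1 (Xf U) (t, w)) := by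
          unfold phl
          rw [hXm, hXp]
          unfold tr
          simp only
          congr 3
          · ring_nf
          · push_cast; ring_nf
        rw [e2]
        exact (h.sm.ph_near (h.adm.mem3 h.sml.isLag (s3 hx)).2).1
      area := fun t w hx => h.area_form (s1 hx)
      m_diff := h.m_diff
      m_near := h.m_near }

/-- **`PartC` follows from its version in line coordinates** -/
theorem partC_of_partCL (hC : PartCL) : PartC := by
  intro q η ρ₀ ε₀ ρ r B U m₀ hD hlt hl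
  obtain ⟨ρq, Cq, ε', r', hg⟩ := good_of_leaves hD hlt hl
  exact hC q η (ρ / 2) r' B (Xf U) (phl q U) (pcl q U) m₀ hg.lineFam

end Crest.Agent.R102.C0
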