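import Mathlib

/-!
Row 102, T1-B, EDGE (slow regime), helper295: the uniform Marcinkiewicz integral.

`marc` : `F` closed, `|F| > 0` ==> `K ⊆ F` compact, `|K| > 0`, and `r₁ > 0` such that
`∫_{|t|<r₁} dist (u + t, F) / t² dt ≤ ε` for all `u ∈ K`.
-/

set_option autoImplicit false

open Set Filter Topology Metric MeasureTheory
open scoped ENNReal

noncomputable section

namespace Crest.Agent.R102.Marc295

/-- the density of the Marcinkiewicz integral -/
def dn (F : Set ℝ) (x y : ℝ) : ℝ≥0∞ := ENNReal.ofReal (infDist y F / (y - x) ^ 2)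

lemma measurable_dn (F : Set ℝ) : Measurable (fun z : ℝ × ℝ => dn F z.1 z.2) := by
  unfold dn
  refine ENNReal.measurable_ofReal.comp ?_
  exact ((continuous_infDist_pt F).measurable.comp measurable_snd).div
    ((measurable_snd.sub measurable_fst).pow_const 2)

lemma tail_int {c : ℝ} (hc : 0 < c) :
    ∫⁻ s in Ioi c, ENNReal.ofReal (c / s ^ 2) = 1 := by
  have h1 : IntegrableOn (fun s : ℝ => c / s ^ 2) (Ioi c) := by
    have h : IntegrableOn (fun s : ℝ => c * s ^ (-2 : ℝ)) (Ioi c) :=
      (integrableOn_Ioi_rpow_of_lt (a := -2) (by norm_num) hc).const_mul c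
    refine (integrableOn_congr_fun ?_ measurableSet_Ioi).2 h
    intro s hs
    have hs0 : 0 < s := hc.trans hs
    simp only
    rw [Real.rpow_neg hs0.le, div_eq_mul_inv]
    norm_num
  have h2 : ∫ s in Ioi c, c / s ^ 2 = 1 := by
    have h := integral_Ioi_rpow_of_lt (a := -2) (by norm_num) hc
    have h3 : ∫ s in Ioi c, c / s ^ 2 = ∫ s in Ioi c, c * s ^ (-2 : ℝ) := by
      refine setIntegral_congr_fun measurableSet_Ioi ?_
      intro s hs
      have hs0 : 0 < s := hc.trans hs
      simp only
      rw [Real.rpow_neg hs0.le, div_eq_mul_inv]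
      norm_num
    rw [h3, integral_const_mul, h]
    have h4 : c ^ ((-2 : ℝ) + 1) = c⁻¹ := by
      rw [show ((-2 : ℝ) + 1) = -1 by norm_num, Real.rpow_neg_one]
    rw [h4]
    field_simp
    norm_num
  rw [← ofReal_integral_eq_lintegral_ofReal h1, h2, ENNReal.ofReal_one]
  refine (ae_restrict_iff' measurableSet_Ioi).2 (Eventually.of_forall ?_)
  intro s hs
  exact div_nonneg hc.le (sq_nonneg _)

lemma tail_int' {c : ℝ} (hc : 0 < c) :
    ∫⁻ s in Iio (-c), ENNReal.ofReal (c / s ^ 2) = 1 := by
  rw [← tail_int hc]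
  have h := (Measure.measurePreserving_neg (volume : Measure ℝ)).setLIntegral_comp_preimage
    (s := Ioi c) (f := fun s => ENNReal.ofReal (c / s ^ 2)) measurableSet_Ioi
    (ENNReal.measurable_ofReal.comp (measurable_const.div (measurable_id.pow_const 2)))
  rw [← h]
  have e : (fun x : ℝ => -x) ⁻¹' Ioi c = Iio (-c) := by
    ext x
    simp [lt_neg]
  rw [e]
  refine lintegral_congr fun s => ?_
  simp

/-- total mass seen from `y` -/
lemma inner_le {F : Set ℝ} (hF : IsClosed F) {A : Set ℝ} (hA : A ⊆ F) (y : ℝ) :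
    ∫⁻ x in A, dn F x y ≤ 2 := by
  rcases eq_or_lt_of_le (infDist_nonneg (x := y) (s := F)) with h0 | h0
  · have : ∀ x, dn F x y = 0 := by
      intro x
      unfold dn
      rw [← h0]
      simp
    simp [this]
  · set c := infDist y F with hc
    -- all points of `A` are at distance `≥ c`
    have hsub : A ⊆ {x | c ≤ |x - y|} := by
      intro x hx
      have := infDist_le_dist_of_mem (x := y) (hA hx)
      rw [Real.dist_eq, abs_sub_comm] at this
      exact this
    have h1 : ∫⁻ x in A, dn F x y ≤ ∫⁻ x in {x | c ≤ |x - y|}, dn F x y :=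
      lintegral_mono_set hsub
    refine h1.trans ?_
    have h2 : ∫⁻ x in {x | c ≤ |x - y|}, dn F x y =
        ∫⁻ s in {s | c ≤ |s|}, ENNReal.ofReal (c / s ^ 2) := by
      have h := (measurePreserving_sub_right (volume : Measure ℝ) y).setLIntegral_comp_preimage
        (s := {s | c ≤ |s|}) (f := fun s => ENNReal.ofReal (c / s ^ 2))
        (measurableSet_le measurable_const measurable_abs)
        (ENNReal.measurable_ofReal.comp (measurable_const.div (measurable_id.pow_const 2)))
      rw [← h]
      refine lintegral_congr fun x => ?_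
      unfold dn
      rw [← hc]
      congr 2
      ring
    rw [h2]
    have h3 : {s : ℝ | c ≤ |s|} ⊆ (Iic (-c)) ∪ (Ici c) := by
      intro s hs
      rcases le_abs'.1 (show c ≤ |s| from hs) with h | h
      · exact Or.inl h
      · exact Or.inr h
    refine (lintegral_mono_set h3).trans ((lintegral_union_le _ _ _).trans ?_)
    rw [setLIntegral_congr (Iio_ae_eq_Iic (a := -c) (μ := volume)).symm,
      setLIntegral_congr (Ioi_ae_eq_Ici (a := c) (μ := volume)).symm, tail_int h0, tail_int' h0]
    norm_num

/-- truncated Marcinkiewicz integral -/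
def MI (F : Set ℝ) (r x : ℝ) : ℝ≥0∞ :=
  ∫⁻ t in Ioo (-r) r, ENNReal.ofReal (infDist (x + t) F / t ^ 2)

lemma MI_eq (F : Set ℝ) (r x : ℝ) : MI F r x = ∫⁻ y in Ioo (x - r) (x + r), dn F x y := by
  have hm : Measurable (fun y => dn F x y) := by
    unfold dn
    exact ENNReal.measurable_ofReal.comp
      (((continuous_infDist_pt F).measurable).div ((measurable_id.sub_const x).pow_const 2))
  have h := (measurePreserving_add_left (volume : Measure ℝ) x).setLIntegral_comp_preimage
    (s := Ioo (x - r) (x + r)) (f := fun y => dn F x y) measurableSet_Ioo hm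
  rw [← h]
  have e : (fun t : ℝ => x + t) ⁻¹' Ioo (x - r) (x + r) = Ioo (-r) r := by
    ext t
    simp only [mem_preimage, mem_Ioo]
    constructor
    · rintro ⟨h1, h2⟩
      constructor <;> linarith
    · rintro ⟨h1, h2⟩
      constructor <;> linarith
  rw [e]
  unfold MI dn
  refine lintegral_congr fun t => ?_
  congr 2
  ring

lemma measurable_MI (F : Set ℝ) (r : ℝ) : Measurable (MI F r) := by
  unfold MI
  refine Measurable.lintegral_prod_right' (ν := (volume : Measure ℝ).restrict (Ioo (-r) r))
    (f := fun z : ℝ × ℝ => ENNReal.ofReal (infDist (z.1 + z.2) F / z.2 ^ 2)) ?_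
  exact ENNReal.measurable_ofReal.comp
    (((continuous_infDist_pt F).measurable.comp (measurable_fst.add measurable_snd)).div
      (measurable_snd.pow_const 2))

lemma total_le {F : Set ℝ} (hF : IsClosed F) {R : ℝ} (hR : 0 ≤ R) :
    ∫⁻ x in F ∩ Icc (-R) R, MI F 1 x ≤ 2 * ENNReal.ofReal (2 * R + 2) := by
  set A := F ∩ Icc (-R) R with hA
  have hAm : MeasurableSet A := hF.measurableSet.inter measurableSet_Icc
  have h1 : ∫⁻ x in A, MI F 1 x ≤ ∫⁻ x in A, ∫⁻ y in Icc (-R - 1) (R + 1), dn F x y := by
    refine setLIntegral_mono' hAm ?_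
    intro x hx
    rw [MI_eq]
    refine lintegral_mono_set ?_
    intro y hy
    have := hx.2
    exact ⟨by linarith [this.1, hy.1], by linarith [this.2, hy.2]⟩
  refine h1.trans ?_
  rw [lintegral_lintegral_swap]
  · refine (setLIntegral_mono' (g := fun _ => 2) measurableSet_Icc
      (fun y _ => inner_le hF inter_subset_left y)).trans ?_
    rw [setLIntegral_const, Real.volume_Icc]
    have : R + 1 - (-R - 1) = 2 * R + 2 := by ring
    rw [this]
  · exact (measurable_dn F).aemeasurable


end Crest.Agent.R102.Marc295
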