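import Crest.Agent.R102.SupDat_150
import Crest.Agent.R102.Chain_559
import Crest.Agent.R102.DEStep_722
import Crest.Agent.R102.Marc_295

-- ▼ part R102/AreaX_982
section

/-!
Row 102, T1-B, EDGE (helper982): the area form of the incoming line in the exact coordinates.
-/

set_option autoImplicit false

open Set Filter Topology Metric Complex MeasureTheory
open scoped Real

noncomputable section

namespace Crest.Agent.R102.AreaX982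

open Crest.Agent.R102.B821 (q1 q2)
open Crest.Agent.R102.Out559 (OmL OmX)
open Crest.Agent.R102.Sup115 (HDu Dp)
open Crest.Agent.R102.Sh982 (Dat SL SB φe pe be sh)
open Crest.Agent.R102.PartII150

variable {q : C(ℂ, ℂ)} {η ρ r Bc : ℝ} {b φ p : ℂ × ℂ → ℂ} {m₀ : ℂ → ℂ} {h : ℝ} {ψ H : ℂ → ℂ}

/-- partial derivatives after the exact shift -/
theorem q_ln {F : ℂ × ℂ → ℂ} {G : ℂ → ℂ} {x : ℂ × ℂ} (hF : DifferentiableAt ℂ F (ln G x))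
    (hG : DifferentiableAt ℂ G x.2) :
    q1 (fun y => F (ln G y)) x = q1 F (ln G x) ∧
      q2 (fun y => F (ln G y)) x = (deriv G x.2 - 1 / 2) * q1 F (ln G x) + q2 F (ln G x) := by
  have h2 : HasFDerivAt (fun y : ℂ × ℂ => y.2) (ContinuousLinearMap.snd ℂ ℂ ℂ) x :=
    hasFDerivAt_snd
  have h1 : HasFDerivAt (fun y : ℂ × ℂ => y.1) (ContinuousLinearMap.fst ℂ ℂ ℂ) x :=
    hasFDerivAt_fst
  have h3 : HasFDerivAt (fun y : ℂ × ℂ => G y.2)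
      (deriv G x.2 • ContinuousLinearMap.snd ℂ ℂ ℂ) x :=
    HasDerivAt.comp_hasFDerivAt (h₂ := G) x hG.hasDerivAt h2
  have h4 : HasFDerivAt (fun y : ℂ × ℂ => y.2 / 2)
      ((1 / 2 : ℂ) • ContinuousLinearMap.snd ℂ ℂ ℂ) x := by
    have h5 := h2.const_smul (1 / 2 : ℂ)
    refine h5.congr_of_eventuallyEq (Eventually.of_forall fun y => ?_)
    show y.2 / 2 = (1 / 2 : ℂ) • y.2
    rw [smul_eq_mul]; ring
  have h5 : HasFDerivAt (ln G)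
      (((ContinuousLinearMap.fst ℂ ℂ ℂ + deriv G x.2 • ContinuousLinearMap.snd ℂ ℂ ℂ) -
        (1 / 2 : ℂ) • ContinuousLinearMap.snd ℂ ℂ ℂ).prod (ContinuousLinearMap.snd ℂ ℂ ℂ)) x :=
    ((h1.add h3).sub h4).prodMk h2
  have h6 := hF.hasFDerivAt.comp x h5
  have e1 : ((1 : ℂ) + deriv G x.2 * 0 - 1 / 2 * 0, (0 : ℂ)) = ((1, 0) : ℂ × ℂ) := by
    ext1
    · simp only; ring
    · rfl
  have e2 : ((0 : ℂ) + deriv G x.2 * 1 - 1 / 2 * 1, (1 : ℂ)) =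
      (deriv G x.2 - 1 / 2) • ((1, 0) : ℂ × ℂ) + ((0, 1) : ℂ × ℂ) := by
    ext1
    · simp
    · simp
  have h7 : fderiv ℂ (fun y => F (ln G y)) x = _ := h6.fderiv
  constructor
  · unfold q1
    rw [h7]
    show fderiv ℂ F (ln G x) ((1 : ℂ) + deriv G x.2 * 0 - 1 / 2 * 0, (0 : ℂ)) = _
    rw [e1]
  · unfold q1 q2
    rw [h7]
    show fderiv ℂ F (ln G x) ((0 : ℂ) + deriv G x.2 * 1 - 1 / 2 * 1, (1 : ℂ)) = _
    rw [e2, map_add, map_smul, smul_eq_mul]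

/-- **area form in the exact coordinates** -/
theorem area_x (D : Dat q η ρ r Bc b φ p m₀ h ψ H) {G : ℂ → ℂ} {u0 R d : ℝ}
    (hdρ : d ≤ ρ / 4) (hball : ball (u0 : ℂ) R ⊆ ball 0 r)
    (hG : DifferentiableOn ℂ G (HDu u0 R)) (hG0 : ∀ w ∈ HDu u0 R, 0 ≤ (G w).im)
    {x : ℂ × ℂ} (hx : x ∈ Le u0 R d G (OmL φ p (-(ρ / 2)) (ρ / 2) r)) :
    q1 (φx φ p ρ r G) x * q2 (px φ p ρ r G) x - q2 (φx φ p ρ r G) x * q1 (px φ p ρ r G) x =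
      x.2 / 4 * m₀ x.2 := by
  have hHo : IsOpen (HDu u0 R) :=
    isOpen_ball.inter (isOpen_lt continuous_const Complex.continuous_im)
  have hGx : DifferentiableAt ℂ G x.2 := hG.differentiableAt (hHo.mem_nhds hx.1.2)
  have hS : ln G x ∈ SL φ p ρ r := ln_mem_SL D hball hG0 hdρ hx.1.1 hx.1.2 hx.2
  obtain ⟨a1, a2⟩ := q_ln (F := φe φ p ρ r) (D.φe_an _ hS).differentiableAt hGx
  obtain ⟨b1, b2⟩ := q_ln (F := pe φ p ρ r) (D.pe_an _ hS).differentiableAt hGx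
  have c1 : φx φ p ρ r G = fun y => φe φ p ρ r (ln G y) := rfl
  have c2 : px φ p ρ r G = fun y => pe φ p ρ r (ln G y) := rfl
  rw [c1, c2, a1, a2, b1, b2]
  have h1 := (D.area_ev hS).self_of_nhds
  have h2 : (ln G x).2 = x.2 := rfl
  rw [h2] at h1
  rw [← h1]
  ring

/-- the coefficient does not vanish for `w ≠ 0` -/
theorem area_coef_ne (D : Dat q η ρ r Bc b φ p m₀ h ψ H) {w : ℂ} (hw : ‖w‖ < r) (hw0 : w ≠ 0) :
    w / 4 * m₀ w ≠ 0 := by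
  have h1 : ‖m₀ w - 1‖ ≤ 1 / 8 := D.fam.m_near _ (by simpa using hw)
  have h2 : m₀ w ≠ 0 := by
    intro h0
    rw [h0] at h1
    norm_num at h1
  exact mul_ne_zero (div_ne_zero hw0 (by norm_num)) h2

/-- the coefficient is holomorphic -/
theorem area_coef_diff (D : Dat q η ρ r Bc b φ p m₀ h ψ H) :
    DifferentiableOn ℂ (fun w => w / 4 * m₀ w) (ball 0 r) :=
  (differentiableOn_id.div_const 4).mul D.m_diff

end Crest.Agent.R102.AreaX982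
end
end

-- ▼ part R102/EdgeDefs_255

/-!
Row 102, T1-B, block **EDGE**: literal interfaces (helper255, architect).
Target: `Chain559.EdgeO` (559).  Plan (619 #28986, 210 #28821, 909 #28960, 528/953, 972 #29047):

* `EdOf`   : the objects are an abstract EDGE datum `ED` (982 / 314);
* `MarcP`  : a.e. `u`: `GoodU → GoodPP` (births `ρ`-dense over all `u' ∈ U`, `U` thick at `u` in the
             sense of Marcinkiewicz); needed for the lateral windows of the slow regime;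
* `BalP`   : if not one edge, there are columns `(x,u)`, `x → s₀`, with interior labels at ALL small
             scales, non degenerate for `y` (528 / 953);
* `NormP`  : 619 (1),(2): normality at windows with interior column (first window `s` very small
             compared with the top `σ` of the column; the outer constant is `Outer`);
* `ToWorld`: blow-ups with birth precision `ρ_n → 0` are a `World` (pure sequence object);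
* `CuspP`  : 619 (a): no cusp window;  `FlatP` : 619 (b),(c): a bounded window is slow;
* `SlowP`  : slow regime = 859 #30686 (N) + (CHAIN) + (END) [kernel records over ALL real bases
             `(x',u')`, births only at windows with `dist(u', U) ≤ κ s`, Marcinkiewicz at `u` only].
* assembly : `edgeO_of`.
-/

set_option autoImplicit false

open Set Filter Topology Metric MeasureTheory Complex

noncomputable section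

namespace Crest.Agent.R102.Edge255

open Crest.Agent.R102.Sup115 (HDu Dp E2 MaxiX GoodU)
open Crest.Agent.R102.S5 (Half bl ray Cn)
open Crest.Agent.R102.B821 (q1 q2)
open Crest.Agent.R102.C0 Crest.Agent.R102.K669 Crest.Agent.R102.Out559
open Crest.Agent.R102.GlueII559 Crest.Agent.R102.PartII150

/-! ### the curve and the objects -/

/-- the curve on the strip, with its near-edge growth (314 `GrowPsi`): `θ = ψ`, `y = ψ'` -/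
structure Curve (h : ℝ) (ψ H : ℂ → ℂ) : Prop where
  h_pos : 0 < h
  ψ_diff : DifferentiableOn ℂ ψ (T5.Str h)
  H_diff : DifferentiableOn ℂ H (T5.Str h)
  rel : ∀ z ∈ T5.Str h, deriv ψ z * deriv (deriv H) z - deriv (deriv ψ) z * deriv H z
    + deriv ψ z ^ 3 * H z = -1
  ψ_per : ∀ z ∈ T5.Str h, ψ (z + 1) = ψ z + 2 * Real.pi
  H_per : ∀ z ∈ T5.Str h, H (z + 1) = H z
  y_pos : ∀ x : ℝ, 0 < (deriv ψ x).re ∧ (deriv ψ x).im = 0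
  grow_y : ∀ k : ℕ, ∃ C : ℝ, 0 < C ∧ ∀ d : ℝ, 0 < d → d < h → ∀ z : ℂ, |z.im| ≤ h - d →
    Real.log (1 + ‖deriv ψ z‖) ≤ C * d ^ (-(1 / ((k : ℝ) + 1)))
  grow : ∀ k : ℕ, ∃ C : ℝ, 0 < C ∧ ∀ d : ℝ, 0 < d → d < h → ∀ z : ℂ, |z.im| ≤ h - d →
    ‖ψ z - 2 * Real.pi * z‖ ≤ Real.exp (C * d ^ (-(1 / ((k : ℝ) + 1)))) ∧
    Real.log (1 + ‖H z‖ + ‖deriv H z‖ + ‖deriv (deriv H) z‖) ≤
      Real.exp (C * d ^ (-(1 / ((k : ℝ) + 1)))) ∧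
    Real.exp (-Real.exp (C * d ^ (-(1 / ((k : ℝ) + 1))))) ≤ ‖deriv ψ z‖ + ‖deriv (deriv ψ) z‖

/-- **abstract EDGE datum** in exact coordinates on the half disc `HDu u0 R` -/
structure ED (u0 R d h : ℝ) (ψ H A : ℂ → ℂ) (φ p B : ℂ × ℂ → ℂ) (X L : Set (ℂ × ℂ)) : Prop where
  curve : Curve h ψ H
  R_pos : 0 < R
  d_pos : 0 < d
  X_open : IsOpen X
  L_open : IsOpen L
  X_sub : ∀ q ∈ X, -d < q.1.im ∧ q.2 ∈ HDu u0 R
  L_sub : ∀ q ∈ L, q.2 ∈ HDu u0 R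
  X_star : ∀ q ∈ X, ∀ y : ℝ, 0 ≤ y → -d < q.1.im - y → (q.1 - y * I, q.2) ∈ X
  Dp_X : Dp u0 R d ⊆ X
  Dp_L : Dp u0 R d ⊆ L
  φ_diff : DifferentiableOn ℂ φ L
  p_diff : DifferentiableOn ℂ p L
  B_diff : DifferentiableOn ℂ B X
  B_im : ∀ q ∈ X, |(B q).im| < h
  B_nc : ∃ q ∈ Dp u0 R d, ∃ q' ∈ Dp u0 R d, B q ≠ B q'
  inc : ∀ q ∈ X ∩ L, F300.Inc ψ H (φ q) (p q) (B q)
  sin_ne : ∀ q ∈ X ∩ L, q.2 ≠ 0 → deriv ψ (B q) ≠ 0 → sin (φ q - ψ (B q)) ≠ 0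
  maxi : MaxiX h X B
  area : ∀ q ∈ L, q1 φ q * q2 p q - q2 φ q * q1 p q = A q.2
  A_diff : DifferentiableOn ℂ A (ball (u0 : ℂ) R)
  A_ne : ∀ w ∈ ball (u0 : ℂ) R, w ≠ 0 → A w ≠ 0

/-- the comparison function `R₀`, zero free; `R₀ = 1` only at the zeros of `y(B)` -/
def R0 (ψ : ℂ → ℂ) (φ B : ℂ × ℂ → ℂ) (q : ℂ × ℂ) : ℂ := cexp (2 * I * (ψ (B q) - φ q))

/-- **(EDGE-EDOF)** [982 + 314] -/
def EdOf : Prop :=
  ∀ (q : C(ℂ, ℂ)) (η ρ r Bc : ℝ) (b φ p : ℂ × ℂ → ℂ) (m₀ : ℂ → ℂ) (h : ℝ) (ψ H K G : ℂ → ℂ),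
    Sh982.Dat q η ρ r Bc b φ p m₀ h ψ H → Rule982.NB h ψ H → Growth.MirS q η h ψ H K G →
    Chain559.Grow h ψ G → ∀ (u0 R d : ℝ) (g : ℂ → ℂ), Chain559.Shift b φ p h ρ r u0 R d g →
    ED u0 R d h ψ H (fun w => w / 4 * m₀ w) (φx φ p ρ r g) (px φ p ρ r g) (Bx b h ρ r g)
      (Xe u0 R d g (OX b h ρ r)) (Le u0 R d g (OL φ p ρ r))

/-! ### good bases -/

/-- `U` is closed and thick at `u`: finite Marcinkiewicz integral (= 295's `GoodPI`) -/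
def Marc (U : Set ℝ) (u : ℝ) : Prop := IsClosed U ∧ Marc295.MI U 1 u < ⊤

/-- precision `ρ` at all bases `(s, u')`, `u' ∈ U`, `|s - s₀| < δ` -/
def GoodPP (X L : Set (ℂ × ℂ)) (u s₀ a g : ℝ) : Prop :=
  0 ≤ a ∧ 0 < g ∧ ∀ ρ > 0, ∃ δ > 0, ∃ U : Set ℝ, u ∈ U ∧ Marc U u ∧
    ∀ u' ∈ U, ∀ s : ℝ, |s - s₀| < δ → E2 X L a g ρ δ (s, u')

/-- **(EDGE-MARC)** -/
def MarcP : Prop :=
  ∀ X L : Set (ℂ × ℂ), IsOpen X → ∀ᵐ u : ℝ, ∀ s₀ a₀ g₀ : ℝ, GoodU X L u s₀ a₀ g₀ →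
    ∀ g : ℝ, 0 < g → g < g₀ → GoodPP X L u s₀ a₀ g

/-! ### windows and columns -/

/-- the base point of the model window -/
def z0 : ℂ × ℂ := (-I, I / 4)

/-- interior label at the window `(e, s)`, margin `κ`, non degenerate for `y` -/
def Intr (h κ : ℝ) (ψ : ℂ → ℂ) (B : ℂ × ℂ → ℂ) (e : ℝ × ℝ) (s : ℝ) : Prop :=
  |(B (ray e s)).im| ≤ h - κ ∧ ∃ q ∈ closedBall z0 (1 / 10), κ ≤ ‖deriv ψ (B (bl e s q))‖

/-- wedge of the line (level below `a + g`), wedge of the label (level below `a`) -/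
def Wg (m : ℝ) : Set (ℂ × ℂ) := {q | 0 < q.2.im ∧ q.1.im < m * q.2.im}

/-- compact window of the wedge `Wg m` with margin `c` -/
def Kc (m c : ℝ) : Set (ℂ × ℂ) :=
  {q | ‖q.1‖ ≤ 1 ∧ ‖q.2‖ ≤ 1 ∧ c ≤ q.2.im ∧ q.1.im ≤ (m - c) * q.2.im}

/-- sequences of windows `(e n, s n)` with interior column up to the scale `σ n`, `s n` very small
compared with the size of the line at the scale `σ n` -/
structure Cols (u0 R d h a g κ : ℝ) (ψ : ℂ → ℂ) (φ p B : ℂ × ℂ → ℂ) (X L : Set (ℂ × ℂ))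
    (u s₀ : ℝ) (e : ℕ → ℝ × ℝ) (s σ : ℕ → ℝ) : Prop where
  e_lim : Tendsto e atTop (𝓝 (s₀, u))
  s_pos : ∀ n, 0 < s n
  s_le : ∀ n, s n ≤ σ n
  σ_le : ∀ n, 4 * σ n ≤ d
  ball_sub : ∀ n, ball (((e n).2 : ℝ) : ℂ) (4 * σ n) ⊆ ball (u0 : ℂ) R
  line : ∀ n, Half (e n) (4 * σ n) (a + g) ⊆ L
  col : ∀ n, ∀ s' ∈ Icc (s n) (σ n), Intr h κ ψ B (e n) s'
  outer : ∀ c > 0, ∃ M : ℕ → ℝ,
    (∀ n, ∀ q ∈ Kc (a + g) c, ‖φ (bl (e n) (σ n) q) - ((φ (ray (e n) (σ n))).re : ℂ)‖ +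
      ‖p (bl (e n) (σ n) q)‖ ≤ M n) ∧
    ∀ τ > 0, Tendsto (fun n => (s n / σ n) ^ (τ : ℝ) * M n) atTop (𝓝 0)

/-- 619 (1): angle at the windows -/
def Nrm1 (m : ℝ) (ψ : ℂ → ℂ) (φ B : ℂ × ℂ → ℂ) (e : ℕ → ℝ × ℝ) (s : ℕ → ℝ) : Prop :=
  ∀ K ⊆ Wg m, IsCompact K → ∃ C : ℝ, ∀ᶠ n in atTop, ∀ q ∈ K,
    ‖φ (bl (e n) (s n) q) - ((φ (ray (e n) (s n))).re : ℂ)‖ ≤
      C * (1 + |Real.log ‖R0 ψ φ B (ray (e n) (s n))‖|)

/-- 619 (2): signed normality of a sequence of lines -/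
def Nrm2 (m : ℝ) (φ p : ℕ → ℂ × ℂ → ℂ) (sg : ℕ → ℝ) : Prop :=
  (∀ n, sg n = 1 ∨ sg n = -1) ∧ ∀ K ⊆ Wg m, IsCompact K → ∃ C : ℝ, ∀ᶠ n in atTop, ∀ q ∈ K,
    ‖p n q * cexp (sg n * I * φ n q)‖ ≤ C ∧ -C ≤ sg n * (φ n q).im

/-- 619 (1) at ALL larger scales `R s n` of the same columns, constant independent of `R`
(consequence of `NormP` by a diagonal sequence; 812 types it: `nrmAll_of`) -/
def NrmAll (m : ℝ) (ψ : ℂ → ℂ) (φ B : ℕ → ℂ × ℂ → ℂ) : Prop :=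
  ∀ K ⊆ Wg m, IsCompact K → ∃ C : ℝ, ∀ R : ℝ, 1 ≤ R → ∀ᶠ n in atTop, ∀ q ∈ K,
    |(φ n ((R : ℂ) * q.1, (R : ℂ) * q.2)).im| ≤
      C * (1 + |Real.log ‖R0 ψ (φ n) (B n) ((R : ℂ) * z0.1, (R : ℂ) * z0.2)‖|)

/-- **(EDGE-NORM)** 619 (1) + (2) -/
def NormP : Prop :=
  ∀ (u0 R d h : ℝ) (ψ H A : ℂ → ℂ) (φ p B : ℂ × ℂ → ℂ) (X L : Set (ℂ × ℂ)),
    ED u0 R d h ψ H A φ p B X L → ∀ (u s₀ a g κ : ℝ) (e : ℕ → ℝ × ℝ) (s σ : ℕ → ℝ),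
    u ∈ Ioo (u0 - R) (u0 + R) → u ≠ 0 → 0 ≤ a → 0 < g → 0 < κ →
    Cols u0 R d h a g κ ψ φ p B X L u s₀ e s σ → Tendsto (fun n => s n / σ n) atTop (𝓝 0) →
    Nrm1 (a + g) ψ φ B e s ∧ ∃ sg : ℕ → ℝ,
      Nrm2 (a + g) (fun n q => φ (bl (e n) (s n) q)) (fun n q => p (bl (e n) (s n) q)) sg

/-! ### worlds (pure sequence objects; no `u`, no scales) -/

/-- **WORLD**: blow-ups of the objects, faces `{Im q.1 = a Im q.2}` with dense births -/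
structure World (h a g : ℝ) (ψ H : ℂ → ℂ) (A0 : ℂ) (φ p B : ℕ → ℂ × ℂ → ℂ) : Prop where
  a_nonneg : 0 ≤ a
  g_pos : 0 < g
  A0_ne : A0 ≠ 0
  curve : Curve h ψ H
  /-- the line is holomorphic on compact subsets of the big wedge -/
  regL : ∀ K ⊆ Wg (a + g), IsCompact K → ∀ᶠ n in atTop, ∃ U : Set (ℂ × ℂ), IsOpen U ∧ K ⊆ U ∧
    DifferentiableOn ℂ (φ n) U ∧ DifferentiableOn ℂ (p n) U
  /-- the label is holomorphic on compact subsets of the small wedge -/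
  regX : ∀ K ⊆ Wg a, IsCompact K → ∀ᶠ n in atTop, ∃ U : Set (ℂ × ℂ), IsOpen U ∧ K ⊆ U ∧
    DifferentiableOn ℂ (B n) U ∧ ∀ q ∈ U, |(B n q).im| < h ∧
      F300.Inc ψ H (φ n q) (p n q) (B n q) ∧
      (deriv ψ (B n q) ≠ 0 → sin (φ n q - ψ (B n q)) ≠ 0)
  /-- area form; `J n = (s n)^2`, `k n w = A (u_n + s_n w)` -/
  area : ∃ (J : ℕ → ℝ) (k : ℕ → ℂ → ℂ), (∀ n, 0 < J n) ∧ Tendsto J atTop (𝓝 0) ∧
    (∀ K : Set ℂ, IsCompact K → TendstoUniformlyOn k (fun _ => A0) atTop K) ∧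
    ∀ K ⊆ Wg (a + g), IsCompact K → ∀ᶠ n in atTop, ∀ q ∈ K,
      q1 (φ n) q * q2 (p n) q - q2 (φ n) q * q1 (p n) q = J n * k n q.2
  /-- births: at a face point the label does not continue to a fixed neighbourhood -/
  births : ∀ q : ℂ × ℂ, 0 < q.2.im → q.1.im = a * q.2.im → ∀ r > 0, closedBall q r ⊆ Wg (a + g) →
    ∃ K ⊆ Wg a, IsCompact K ∧ ∀ᶠ n in atTop, ¬ ∃ (G : ℂ × ℂ → ℂ) (V : Set (ℂ × ℂ)), IsOpen V ∧
      closedBall q r ⊆ V ∧ DifferentiableOn ℂ G V ∧ (∀ x ∈ V, |(G x).im| < h) ∧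
      ∀ x ∈ K ∩ V, G x = B n x

/-- integer normalisation of the label and `2π`-normalisation of the angle -/
def nB (n : ℂ × ℂ → ℂ) : ℂ := (⌊(n z0).re⌋ : ℂ)
def nφ (f : ℂ × ℂ → ℂ) : ℂ := 2 * Real.pi * (⌊(f z0).re / (2 * Real.pi)⌋ : ℂ)

/-- **(EDGE-WORLD)** -/
def ToWorld : Prop :=
  ∀ (u0 R d h : ℝ) (ψ H A : ℂ → ℂ) (φ p B : ℂ × ℂ → ℂ) (X L : Set (ℂ × ℂ)),
    ED u0 R d h ψ H A φ p B X L → ∀ (u s₀ a g : ℝ) (e : ℕ → ℝ × ℝ) (s ρ η : ℕ → ℝ),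
    u ∈ Ioo (u0 - R) (u0 + R) → u ≠ 0 → 0 ≤ a → 0 < g → Tendsto e atTop (𝓝 (s₀, u)) →
    (∀ n, 0 < s n) → Tendsto s atTop (𝓝 0) → (∀ n, 0 < ρ n) → Tendsto ρ atTop (𝓝 0) →
    (∀ n, 0 < η n) → Tendsto (fun n => s n / η n) atTop (𝓝 0) →
    (∀ n, E2 X L a g (ρ n) (η n) (e n)) →
    World h a g ψ H (A u)
      (fun n q => φ (bl (e n) (s n) q) - nφ (fun x => φ (bl (e n) (s n) x)))
      (fun n q => p (bl (e n) (s n) q))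
      (fun n q => B (bl (e n) (s n) q) - nB (fun x => B (bl (e n) (s n) x)))

/-- interior base label (uniform) and non degeneracy for `y` -/
def IntrW (h κ : ℝ) (ψ : ℂ → ℂ) (B : ℕ → ℂ × ℂ → ℂ) : Prop :=
  ∀ n, |(B n z0).im| ≤ h - κ ∧ ∃ q ∈ closedBall z0 (1 / 10), κ ≤ ‖deriv ψ (B n q)‖

/-- **(EDGE-CUSP)** 619 (a): no cusp window -/
def CuspP : Prop :=
  ∀ (h a g κ : ℝ) (ψ H : ℂ → ℂ) (A0 : ℂ) (φ p B : ℕ → ℂ × ℂ → ℂ) (sg : ℕ → ℝ), 0 < κ →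
    World h a g ψ H A0 φ p B → IntrW h κ ψ B → Nrm2 (a + g) φ p sg →
    Tendsto (fun n => |(φ n z0).im|) atTop atTop →
    (∀ n, 0 ≤ (B n z0).re ∧ (B n z0).re ≤ 1) → False

/-- the conclusion at a window: `ε`-slow on the compacts `K` (line) and `K'` (label) -/
def SlowAt (ε : ℝ) (K K' : Set (ℂ × ℂ)) (ψ : ℂ → ℂ) (φ p B : ℂ × ℂ → ℂ) : Prop :=
  (∀ q ∈ K, ‖cexp (2 * I * (φ q - ψ (B z0))) - 1‖ ≤ ε ∧ ‖p q - p z0‖ ≤ ε) ∧
    ∀ q ∈ K', ‖B q - B z0‖ ≤ ε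

/-- **(EDGE-FLAT)** 619 (b), (c) (Lemma X): a world with bounded lines is slow; `NrmAll` is the input
of Liouville in (c) (without it the statement is false) -/
def FlatP : Prop :=
  ∀ (h a g κ : ℝ) (ψ H : ℂ → ℂ) (A0 : ℂ) (φ p B : ℕ → ℂ × ℂ → ℂ), 0 < κ →
    World h a g ψ H A0 φ p B → IntrW h κ ψ B →
    (∀ n, 0 ≤ (B n z0).re ∧ (B n z0).re ≤ 1) →
    (∀ K ⊆ Wg (a + g), IsCompact K → ∃ C : ℝ, ∀ᶠ n in atTop, ∀ q ∈ K, ‖φ n q‖ ≤ C ∧ ‖p n q‖ ≤ C) →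
    NrmAll (a + g) ψ φ B →
    ∀ ε > 0, ∀ K ⊆ Wg (a + g), IsCompact K → ∀ K' ⊆ Wg a, IsCompact K' →
      ∀ᶠ n in atTop, SlowAt ε K K' ψ (φ n) (p n) (B n)

/-! ### rigidity of interior windows -/

/-- **RIGID** at `(u, s₀)`: windows with interior column and birth precision `→ 0` are slow
(a consequence of `NormP`, `ToWorld`, `CuspP`, `FlatP`) -/
def Rigid (u0 R d h : ℝ) (ψ : ℂ → ℂ) (φ p B : ℂ × ℂ → ℂ) (X L : Set (ℂ × ℂ)) (u s₀ a g : ℝ) :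
    Prop :=
  ∀ (κ : ℝ) (e : ℕ → ℝ × ℝ) (s σ ρ η : ℕ → ℝ), 0 < κ →
    Cols u0 R d h a g κ ψ φ p B X L u s₀ e s σ → Tendsto (fun n => s n / σ n) atTop (𝓝 0) →
    Tendsto s atTop (𝓝 0) → (∀ n, 0 < ρ n) → Tendsto ρ atTop (𝓝 0) → (∀ n, σ n ≤ η n) →
    (∀ n, E2 X L a g (ρ n) (η n) (e n)) →
    ∀ ε > 0, ∀ K ⊆ Wg (a + g), IsCompact K → ∀ K' ⊆ Wg a, IsCompact K' →
      ∀ᶠ n in atTop, SlowAt ε K K' ψ (fun q => φ (bl (e n) (s n) q))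
        (fun q => p (bl (e n) (s n) q)) (fun q => B (bl (e n) (s n) q))

/-! ### balanced columns and the slow regime -/

/-- cone limits on the edges over almost every `x` near `s₀` (output of `Sup`) -/
def EdgeLims (h : ℝ) (B : ℂ × ℂ → ℂ) (u s₀ : ℝ) : Prop :=
  ∃ δ > 0, ∀ᵐ x : ℝ, |x - s₀| < δ → ∃ b : ℂ, |b.im| = h ∧
    ∀ M : ℝ, Tendsto B (𝓝[Cn (x, u) M] ((x : ℂ), (u : ℂ))) (𝓝 b)

/-- interior columns near `s₀` down to the scale `0`, uniform margin -/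
def Balanced (h : ℝ) (ψ : ℂ → ℂ) (B : ℂ × ℂ → ℂ) (u s₀ : ℝ) : Prop :=
  ∃ κ > 0, ∀ δ > 0, ∃ x : ℝ, |x - s₀| < δ ∧ ∃ σ > 0, ∀ s ∈ Ioo 0 σ, Intr h κ ψ B (x, u) s

/-- **(EDGE-BAL)** [528 / 953] on the official sheets (real slice `w = u` available there) -/
def BalP : Prop :=
  ∀ (q : C(ℂ, ℂ)) (η ρ r Bc : ℝ) (b φ p : ℂ × ℂ → ℂ) (m₀ : ℂ → ℂ) (h : ℝ) (ψ H K G : ℂ → ℂ),
    Sh982.Dat q η ρ r Bc b φ p m₀ h ψ H → Rule982.NB h ψ H → Growth.MirS q η h ψ H K G →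
    ∀ (u0 R d : ℝ) (g : ℂ → ℂ), Chain559.Shift b φ p h ρ r u0 R d g →
    ∀ u α β s₀ a₀ c : ℝ, Chain559.GoodAt b φ p h ρ r u0 R d g u α β s₀ a₀ c →
      EdgeLims h (Bx b h ρ r g) u s₀ → ¬ Chain559.OneE (Bx b h ρ r g) h u s₀ →
      Balanced h ψ (Bx b h ρ r g) u s₀

/-- **(EDGE-SLOW)** 859 #30686: (N) + (CHAIN) + (END); (N) = 909 (S4), (S5) at a kernel record -/
def SlowP : Prop :=
  ∀ (u0 R d h : ℝ) (ψ H A : ℂ → ℂ) (φ p B : ℂ × ℂ → ℂ) (X L : Set (ℂ × ℂ)),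
    ED u0 R d h ψ H A φ p B X L → ∀ u s₀ a g : ℝ, u ∈ Ioo (u0 - R) (u0 + R) → u ≠ 0 →
    GoodPP X L u s₀ a g → Rigid u0 R d h ψ φ p B X L u s₀ a g → EdgeLims h B u s₀ →
    ¬ Balanced h ψ B u s₀

end Crest.Agent.R102.Edge255
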