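import Crest.Agent.R102.SHtest_712
import Mathlib

-- ▼ part R102/HtLV_712
section

/-!
Row 102, T1-B (D2) (helper712): penalised heights of a set `Om ⊆ ℂ × ℂ` with the Levi property.
`P s lam t = t + i lam (t - s)²`, `Im P = y + lam ((x - s)² - y²)`.
`ht Om s lam w` = largest `c ≤ 1/(8 lam)` such that `{Im P < c}` (in the box
`|Re t - s| ≤ 1/(2 lam)`, `Im t ≤ 1/(4 lam)`) is in `Om` over `w`.
-/

set_option autoImplicit false
set_option linter.unusedSectionVars false
set_option linter.unusedVariables false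

open Set Filter Topology Metric Complex MeasureTheory
open scoped Real Interval

noncomputable section

namespace Crest.Agent.R102.HtLV712

open Crest.Agent.R102.SH712

/-- the penalised coordinate -/
def P (s lam : ℝ) (t : ℂ) : ℂ := t + I * lam * (t - s) ^ 2






/-- the big box (everything below is included) -/
def bx (s lam : ℝ) : Set ℂ := {t | |t.re - s| ≤ 1 / (2 * lam) ∧ t.im ≤ 1 / (4 * lam)}


/-- admissible levels -/
def adm (Om : Set (ℂ × ℂ)) (s lam : ℝ) (w : ℂ) : Set ℝ :=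
  {c | c ≤ 1 / (8 * lam) ∧ ∀ t ∈ bx s lam, (P s lam t).im < c → (t, w) ∈ Om}

/-- penalised height -/
def ht (Om : Set (ℂ × ℂ)) (s lam : ℝ) (w : ℂ) : ℝ := sSup (adm Om s lam w)

section
variable {Om : Set (ℂ × ℂ)} {W : Set ℂ} {s lam : ℝ} {w : ℂ}














/-- no strict local maximum of an imaginary part -/
theorem no_max {H : ℂ → ℂ} {w2 : ℂ} (hH : AnalyticAt ℂ H w2) {δ : ℝ} (hδ : 0 < δ)
    (h : ∀ᶠ w in 𝓝 w2, (H w).im + δ * ‖w - w2‖ ^ 2 ≤ (H w2).im) : False := by
  obtain ⟨r, hr, hball⟩ := Metric.eventually_nhds_iff_ball.1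
    (h.and hH.eventually_analyticAt)
  set ρ := r / 2 with hρ
  have hρ0 : 0 < ρ := by positivity
  have hsub : closedBall w2 ρ ⊆ ball w2 r := closedBall_subset_ball (by rw [hρ]; linarith)
  have hd : DiffContOnCl ℂ H (ball w2 ρ) := by
    refine DifferentiableOn.diffContOnCl ?_
    rw [closure_ball w2 hρ0.ne']
    exact fun z hz => (hball z (hsub hz)).2.differentiableAt.differentiableWithinAt
  have hcont : Continuous fun θ : ℝ => (H (circleMap w2 ρ θ)).im := by
    refine Complex.continuous_im.comp ?_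
    have h1 : ContinuousOn H (closedBall w2 ρ) :=
      fun z hz => (hball z (hsub hz)).2.continuousAt.continuousWithinAt
    exact h1.comp_continuous (continuous_circleMap w2 ρ)
      (fun θ => sphere_subset_closedBall (circleMap_mem_sphere w2 hρ0.le θ))
  have hmean : (2 * π)⁻¹ * ∫ θ in (0:ℝ)..(2 * π), (H (circleMap w2 ρ θ)).im = (H w2).im := by
    have h1 : Real.circleAverage H w2 ρ = H w2 := by
      have : DiffContOnCl ℂ H (ball w2 |ρ|) := by rwa [abs_of_pos hρ0]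
      exact this.circleAverage
    rw [Real.circleAverage_def] at h1
    have h2 := congrArg Complex.im h1
    rw [← h2]
    have hcontH : Continuous fun θ : ℝ => H (circleMap w2 ρ θ) := by
      have h1 : ContinuousOn H (closedBall w2 ρ) :=
        fun z hz => (hball z (hsub hz)).2.continuousAt.continuousWithinAt
      exact h1.comp_continuous (continuous_circleMap w2 ρ)
        (fun θ => sphere_subset_closedBall (circleMap_mem_sphere w2 hρ0.le θ))
    have h3 : (∫ θ in (0:ℝ)..(2 * π), H (circleMap w2 ρ θ)).im =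
        ∫ θ in (0:ℝ)..(2 * π), (H (circleMap w2 ρ θ)).im := by
      have h4 : IntervalIntegrable (fun θ => H (circleMap w2 ρ θ)) volume 0 (2 * π) :=
        hcontH.intervalIntegrable _ _
      have := ContinuousLinearMap.intervalIntegral_comp_comm Complex.imCLM h4
      simpa using this.symm
    rw [← h3]
    simp
  have hle : ∫ θ in (0:ℝ)..(2 * π), (H (circleMap w2 ρ θ)).im ≤
      ∫ θ in (0:ℝ)..(2 * π), ((H w2).im - δ * ρ ^ 2) := by
    refine intervalIntegral.integral_mono_on (by positivity) (hcont.intervalIntegrable _ _)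
      intervalIntegrable_const ?_
    intro θ _
    have h1 := (hball _ (hsub (sphere_subset_closedBall
      (circleMap_mem_sphere w2 hρ0.le θ)))).1
    have h2 : ‖circleMap w2 ρ θ - w2‖ = ρ := by
      have := circleMap_mem_sphere w2 hρ0.le θ
      simpa [dist_eq_norm] using this
    rw [h2] at h1
    linarith
  have hcalc : (2 * π)⁻¹ * ∫ θ in (0:ℝ)..(2 * π), ((H w2).im - δ * ρ ^ 2) =
      (H w2).im - δ * ρ ^ 2 := by
    rw [intervalIntegral.integral_const, smul_eq_mul, sub_zero]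
    field_simp
  have h5 : (H w2).im ≤ (H w2).im - δ * ρ ^ 2 := by
    rw [← hcalc]
    conv_lhs => rw [← hmean]
    exact mul_le_mul_of_nonneg_left hle (by positivity)
  have : 0 < δ * ρ ^ 2 := by positivity
  linarith


end

end Crest.Agent.R102.HtLV712
end
end

-- ▼ part R102/T1EJ1_712

/-!
# Row 102, T1-E, joint J1 (helper712): heights of a Levi set in window coordinates

`LS b W Om`: Levi set over `W` with base `Im t < b` (shear invariant form).  `Vh` = height of the set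
(capped), `Rh` = penalised height over a window, with the parabola `P t = t + i λ t²`.
`LS.win`: window coordinates `t = tc + (τ + g ω) / N`, `w = s ω`.
-/

set_option autoImplicit false

open Set Filter Topology Metric Complex MeasureTheory
open scoped Real

noncomputable section

namespace Crest.Agent.R102.T1EJ712

open Crest.Agent.R102.SH712 (NT sh1_re)
open Crest.Agent.R102.HtLV712 (no_max)

/-- Levi sets over `W` with base level `b` -/
structure LS (b : ℝ) (W : Set ℂ) (Om : Set (ℂ × ℂ)) : Prop where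
  isOpen : IsOpen Om
  WO : IsOpen W
  base : ∀ w ∈ W, ∀ t : ℂ, t.im < b → (t, w) ∈ Om
  levi : ∀ (t0 w0 : ℂ) (Q sg H : ℂ → ℂ) (δ : ℝ), w0 ∈ W → AnalyticAt ℂ Q (t0 - sg w0) →
      0 < (deriv Q (t0 - sg w0)).re → AnalyticAt ℂ sg w0 → AnalyticAt ℂ H w0 →
      (Q (t0 - sg w0)).im = (H w0).im → 0 < δ →
      (∀ᶠ q : ℂ × ℂ in 𝓝 (t0, w0), (Q (q.1 - sg q.2)).im < (H q.2).im + δ * ‖q.2 - w0‖ ^ 2 →
        q ∈ Om) → (t0, w0) ∈ Om

variable {Om : Set (ℂ × ℂ)} {W : Set ℂ} {b : ℝ}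

theorem LS.mono (h : LS b W Om) {W' : Set ℂ} (hW' : IsOpen W') (hsub : W' ⊆ W) {b' : ℝ}
    (hb : ∀ w ∈ W', ∀ t : ℂ, t.im < b' → (t, w) ∈ Om) : LS b' W' Om :=
  ⟨h.isOpen, hW', hb, fun t0 w0 Q sg H δ hw0 => h.levi t0 w0 Q sg H δ (hsub hw0)⟩

/-- window coordinates -/
def Win (Om : Set (ℂ × ℂ)) (W' : Set ℂ) (tc : ℂ) (N s : ℝ) (g : ℂ → ℂ) : Set (ℂ × ℂ) :=
  {q | q.2 ∈ W' ∧ (tc + (q.1 + g q.2) / N, s * q.2) ∈ Om}


/-! ## the height -/

/-- admissible levels -/
def admV (Om : Set (ℂ × ℂ)) (cp : ℝ) (w : ℂ) : Set ℝ := {c | c ≤ cp ∧ ∀ t : ℂ, t.im < c → (t, w) ∈ Om}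

/-- height, capped at `cp` -/
def Vh (Om : Set (ℂ × ℂ)) (cp : ℝ) (w : ℂ) : ℝ := sSup (admV Om cp w)

/-- horizontal period -/
def Per (Om : Set (ℂ × ℂ)) (p : ℝ) : Prop :=
  ∀ (t w : ℂ) (n : ℤ), (t, w) ∈ Om → (t + n * p, w) ∈ Om

variable {w : ℂ} {p cp : ℝ}

theorem admV_bdd : BddAbove (admV Om cp w) := ⟨cp, fun _ hc => hc.1⟩

theorem admV_ne (hb : ∀ t : ℂ, t.im < b → (t, w) ∈ Om) : (admV Om cp w).Nonempty :=
  ⟨min b cp, min_le_right _ _, fun t ht => hb t (ht.trans_le (min_le_left _ _))⟩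

theorem Vh_le (hb : ∀ t : ℂ, t.im < b → (t, w) ∈ Om) : Vh Om cp w ≤ cp :=
  csSup_le (admV_ne hb) fun _ hc => hc.1

theorem le_Vh {c : ℝ} (hc : c ≤ cp) (hb : ∀ t : ℂ, t.im < c → (t, w) ∈ Om) : c ≤ Vh Om cp w :=
  le_csSup admV_bdd ⟨hc, hb⟩

theorem mem_of_lt_Vh (hb : ∀ t : ℂ, t.im < b → (t, w) ∈ Om) {t : ℂ} (h : t.im < Vh Om cp w) :
    (t, w) ∈ Om := by
  obtain ⟨c, hc, hlt⟩ := exists_lt_of_lt_csSup (admV_ne hb) h
  exact hc.2 t hlt

theorem Vh_le_of_notMem (hb : ∀ t : ℂ, t.im < b → (t, w) ∈ Om) {t : ℂ} (h : (t, w) ∉ Om) :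
    Vh Om cp w ≤ t.im := by
  by_contra hc
  push Not at hc
  exact h (mem_of_lt_Vh hb hc)

/-- shift into a fundamental domain -/
theorem exists_shift (hp : 0 < p) (t : ℂ) : ∃ n : ℤ, 0 ≤ (t + n * p).re ∧ (t + n * p).re ≤ p ∧
    (t + n * p).im = t.im := by
  refine ⟨-⌊t.re / p⌋, ?_, ?_, ?_⟩
  · have h1 := Int.floor_le (t.re / p)
    have h2 : (⌊t.re / p⌋ : ℝ) * p ≤ t.re := (le_div_iff₀ hp).1 h1
    simp
    linarith
  · have h1 := (Int.lt_floor_add_one (t.re / p)).le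
    have h2 : t.re ≤ ((⌊t.re / p⌋ : ℝ) + 1) * p := (div_le_iff₀ hp).1 h1
    simp
    nlinarith
  · simp

theorem of_shift (hper : Per Om p) {t : ℂ} {n : ℤ} (h : (t + n * p, w) ∈ Om) : (t, w) ∈ Om := by
  have h1 := hper (t + n * p) w (-n) h
  have h2 : t + n * p + ((-n : ℤ) : ℂ) * p = t := by push_cast; ring
  rwa [h2] at h1

theorem Vh_touch (hO : IsOpen Om) (hp : 0 < p) (hper : Per Om p)
    (hb : ∀ t : ℂ, t.im < b → (t, w) ∈ Om) (h : Vh Om cp w < cp) :
    ∃ t : ℂ, t.im = Vh Om cp w ∧ (t, w) ∉ Om := by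
  by_contra hcon
  push Not at hcon
  set V := Vh Om cp w with hV
  have key : ∀ᶠ y : ℝ in 𝓝 V, ∀ x ∈ Icc (0 : ℝ) p, ((x : ℂ) + y * I, w) ∈ Om := by
    refine isCompact_Icc.eventually_forall_of_forall_eventually (fun x _ => ?_)
    have h1 : ((x : ℂ) + V * I, w) ∈ Om := hcon _ (by simp)
    have h2 : Continuous fun q : ℝ × ℝ => ((q.2 : ℂ) + q.1 * I, w) := by fun_prop
    exact h2.continuousAt.eventually (hO.mem_nhds (x := ((x : ℂ) + V * I, w)) h1)
  obtain ⟨ε, hε, hball⟩ := Metric.eventually_nhds_iff_ball.1 key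
  have h1 : min (V + ε / 2) cp ∈ admV Om cp w := by
    refine ⟨min_le_right _ _, fun t ht => ?_⟩
    have ht1 : t.im < V + ε / 2 := ht.trans_le (min_le_left _ _)
    by_cases h2 : t.im < V
    · exact mem_of_lt_Vh hb h2
    · push Not at h2
      obtain ⟨n, h3, h4, h5⟩ := exists_shift hp t
      refine of_shift hper (n := n) ?_
      have h6 := hball t.im (by rw [mem_ball, Real.dist_eq, abs_of_nonneg (by linarith)]; linarith)
        (t + n * p).re ⟨h3, h4⟩
      rw [← h5, Complex.re_add_im] at h6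
      exact h6
  have h2 := le_csSup admV_bdd h1
  have h3 : V < min (V + ε / 2) cp := lt_min (by linarith) h
  exact absurd h2 (not_le.2 h3)

theorem Vh_lsc (h : LS b W Om) (hp : 0 < p) (hper : Per Om p) :
    LowerSemicontinuousOn (Vh Om cp) W := by
  intro w hw c hc
  refine Filter.Eventually.filter_mono nhdsWithin_le_nhds ?_
  obtain ⟨c', hcc', hc'⟩ := exists_between hc
  have key : ∀ᶠ w' : ℂ in 𝓝 w, ∀ x ∈ Icc (0 : ℝ) p ×ˢ Icc b c',
      ((x.1 : ℂ) + x.2 * I, w') ∈ Om := by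
    refine (isCompact_Icc.prod isCompact_Icc).eventually_forall_of_forall_eventually
      (fun x hx => ?_)
    have h1 : ((x.1 : ℂ) + x.2 * I, w) ∈ Om :=
      mem_of_lt_Vh (h.base w hw) (by simpa using hx.2.2.trans_lt hc')
    have h2 : Continuous fun q : ℂ × (ℝ × ℝ) => ((q.2.1 : ℂ) + q.2.2 * I, q.1) := by fun_prop
    exact h2.continuousAt.eventually (h.isOpen.mem_nhds (x := ((x.1 : ℂ) + x.2 * I, w)) h1)
  filter_upwards [key, h.WO.mem_nhds hw] with w' h1 h2
  refine hcc'.trans_le (le_Vh (hc'.le.trans (Vh_le (h.base w hw))) fun t ht => ?_)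
  by_cases h3 : t.im < b
  · exact h.base w' h2 t h3
  · push Not at h3
    obtain ⟨n, h4, h5, h6⟩ := exists_shift hp t
    refine of_shift hper (n := n) ?_
    have h7 := h1 ((t + n * p).re, (t + n * p).im) ⟨⟨h4, h5⟩, by
      rw [h6]; exact ⟨h3, ht.le⟩⟩
    simp only [Complex.re_add_im] at h7
    exact h7

theorem Vh_NT (h : LS b W Om) (hp : 0 < p) (hper : Per Om p) : NT (Vh Om cp) W := by
  intro w2 hw2 H hH δ hδ
  rintro ⟨heq, hev⟩
  rcases (Vh_le (cp := cp) (h.base w2 hw2)).lt_or_eq with hlt | heq1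
  · obtain ⟨t0, him, hnot⟩ := Vh_touch h.isOpen hp hper (h.base w2 hw2) hlt
    refine hnot (h.levi t0 w2 id (fun _ => 0) H δ hw2 analyticAt_id (by simp)
      analyticAt_const hH (by simpa using him.trans heq) hδ ?_)
    have e3 : ∀ᶠ q : ℂ × ℂ in 𝓝 (t0, w2), q.2 ∈ W :=
      continuous_snd.continuousAt.eventually (h.WO.mem_nhds hw2)
    have e4 : ∀ᶠ q : ℂ × ℂ in 𝓝 (t0, w2), (H q.2).im + δ * ‖q.2 - w2‖ ^ 2 ≤ Vh Om cp q.2 :=
      (continuous_snd.tendsto (t0, w2)).eventually hev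
    filter_upwards [e3, e4] with q h3 h4 h5
    exact mem_of_lt_Vh (h.base q.2 h3) (by simpa using h5.trans_le h4)
  · refine no_max hH hδ ?_
    filter_upwards [hev, h.WO.mem_nhds hw2] with w hw hwW
    rw [← heq, heq1]
    exact hw.trans (Vh_le (h.base w hwW))

/-! ## the penalised height -/

/-- the parabola -/
def P (lam : ℝ) (t : ℂ) : ℂ := t + lam * (I * t ^ 2)

variable {lam : ℝ}




/-- parameters: half width, curvature, cap, top of the box, base -/
structure Prm (X lam cp Y C : ℝ) : Prop where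
  hC : 0 ≤ C
  hcp : 0 ≤ cp
  hlam : 0 < lam
  hY0 : 0 ≤ Y
  hY : cp ≤ Y - lam * Y ^ 2
  hlY : 2 * lam * Y < 1
  hX : cp + C + lam * C ^ 2 ≤ lam * X ^ 2



variable {X Y C : ℝ}















end Crest.Agent.R102.T1EJ712
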