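import Mathlib
import Crest.Agent.R102.SheetD_982
import Crest.Agent.R102.GoodU_150
import Crest.Agent.R102.T1EJ1_712
import Crest.Agent.R102.HartR_948
import Crest.Agent.R102.Refl_812

-- ▼ part R102/GlueII_559
section

/-!
Row 102, T1-B, glue OUT -> II (helper559): from `Nn u` (the outer joint) to `GoodU` (the output of
Part II) at a.e. real `u`.

* `pair` : the official sheets form a `PartII150.Pair`;
* `VV`   : the height of the pair sheet `OmL ∩ OmX` (712's `Vh`), lower semicontinuous, `NT`;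
* `VV_of_Nn` : at a real `u` with `Nn u`, `VV u` is the height `U(u)` and no point at height
  `VV u` is regular for the lines;
* `goodU_ae` : on every half disc `HDu u0 R` one `G` (845's slope theorem), and for a.e. `u` with
  `Nn u` the expansion `Expn G VV u α β` and `GoodU`.
-/

set_option autoImplicit false

open Set Filter Topology Metric MeasureTheory
open scoped ComplexConjugate

noncomputable section

namespace Crest.Agent.R102.GlueII559

open Crest.Agent.R102.T5 Crest.Agent.R102.C0 Crest.Agent.R102.K669 Crest.Agent.R102.Out559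
open Crest.Agent.R102.Sh982 Crest.Agent.R102.PartII150
open Crest.Agent.R102.T1EJ712 (LS Per Vh)
open Crest.Agent.R102.Slope845 (Expn HDc slope_NT)
open Crest.Agent.R102.SH712 (NT)
open Crest.Agent.R102.Sup115 (HDu GoodU)

variable {q : C(ℂ, ℂ)} {η ρ r Bc : ℝ} {b φ p : ℂ × ℂ → ℂ} {m₀ : ℂ → ℂ} {h : ℝ} {ψ H : ℂ → ℂ}

/-- the official sheet of the lines -/
abbrev OL (φ p : ℂ × ℂ → ℂ) (ρ r : ℝ) : Set (ℂ × ℂ) := OmL φ p (-(ρ / 2)) (ρ / 2) r

/-- the official sheet of the labels -/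
abbrev OX (b : ℂ × ℂ → ℂ) (h ρ r : ℝ) : Set (ℂ × ℂ) := OmX b (Str h) (-(ρ / 2)) (ρ / 2) r

section

variable (D : Sh982.Dat q η ρ r Bc b φ p m₀ h ψ H)
include D

/-- the official sheets form a pair -/
theorem pair (hNB : Rule982.NB h ψ H) : Pair (ρ / 2) (ball (0 : ℂ) r) (OL φ p ρ r) (OX b h ρ r) where
  hL := D.lvL'
  hX := D.lvX'
  r1 := by
    intro t w _ h1 h2
    refine D.ruleX hNB (x := (t, w)) ?_ ?_
    · unfold sh; rw [one_mul]; exact h2
    · unfold sh; rw [neg_one_mul, ← sub_eq_add_neg]; exact h1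
  r2 := by
    intro t w _ h1 h2
    have h3 := D.ruleL (s := -1) (Or.inr rfl) (x := (t, w)) h1
      (by unfold sh; rw [neg_neg, one_mul]; exact h2)
    unfold sh at h3
    rw [neg_one_mul, ← sub_eq_add_neg] at h3
    exact h3
  r3 := by
    intro t w _ h1 h2
    have h3 := D.ruleL (s := 1) (Or.inl rfl) (x := (t, w)) h2
      (by unfold sh; rw [neg_one_mul, ← sub_eq_add_neg]; exact h1)
    unfold sh at h3
    rw [one_mul] at h3
    exact h3

/-- the pair sheet is a Levi set -/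
theorem ls : LS (ρ / 2) (ball (0 : ℂ) r) (OL φ p ρ r ∩ OX b h ρ r) where
  isOpen := D.lvL'.isOpen.inter D.lvX'.isOpen
  WO := isOpen_ball
  base := fun w hw t ht => ⟨D.lvL'.base w hw t ht, D.lvX'.base w hw t ht⟩
  levi := by
    intro t0 w0 Q sg HH δ hw0 hQ hQ' hsg hH heq hδ hev
    exact ⟨D.lvL'.levi t0 w0 hw0 Q sg HH hQ hQ' hsg hH heq δ hδ
        (hev.mono fun q hq hlt => (hq hlt).1),
      D.lvX'.levi t0 w0 hw0 Q sg HH hQ hQ' hsg hH heq δ hδ
        (hev.mono fun q hq hlt => (hq hlt).2)⟩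

theorem per : Per (OL φ p ρ r ∩ OX b h ρ r) 1 := by
  have hρ := D.ρ_pos
  intro t w n ht
  have e : t + (n : ℂ) * ((1 : ℝ) : ℂ) = t + n := by push_cast; ring
  rw [e]
  exact ⟨(OmL_add_int D.fam (by linarith) (by linarith) le_rfl n).2 ht.1,
    (OmX_add_int D.fam (by linarith) (by linarith) le_rfl n).2 ht.2⟩

end

/-- the height of the pair sheet, capped at `h + 1` -/
def VV (b φ p : ℂ × ℂ → ℂ) (h ρ r : ℝ) (w : ℂ) : ℝ := Vh (OL φ p ρ r ∩ OX b h ρ r) (h + 1) w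

section

variable (D : Sh982.Dat q η ρ r Bc b φ p m₀ h ψ H)
include D

theorem VV_lsc : LowerSemicontinuousOn (VV b φ p h ρ r) (ball (0 : ℂ) r) :=
  T1EJ712.Vh_lsc (ls D) one_pos (per D)

theorem VV_NT : NT (VV b φ p h ρ r) (ball (0 : ℂ) r) :=
  T1EJ712.Vh_NT (ls D) one_pos (per D)

theorem h_pos : 0 < h := by
  have h1 := D.ρ_pos
  have h2 := D.fam.ρ_lt
  have h3 := D.η_le
  linarith

theorem VV_le {w : ℂ} (hw : w ∈ ball (0 : ℂ) r) : VV b φ p h ρ r w ≤ h + 1 :=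
  T1EJ712.Vh_le ((ls D).base w hw)

theorem le_VV {w : ℂ} (hw : w ∈ ball (0 : ℂ) r) : ρ / 2 ≤ VV b φ p h ρ r w := by
  refine T1EJ712.le_Vh ?_ ((ls D).base w hw)
  have h1 := D.ρ_pos
  have h2 := D.fam.ρ_lt
  have h3 := D.η_le
  linarith

theorem mem_of_lt_VV {w t : ℂ} (hw : w ∈ ball (0 : ℂ) r) (ht : t.im < VV b φ p h ρ r w) :
    (t, w) ∈ OL φ p ρ r ∧ (t, w) ∈ OX b h ρ r :=
  T1EJ712.mem_of_lt_Vh ((ls D).base w hw) ht

/-- **at a real `u` with `Nn u`** -/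
theorem VV_of_Nn {u : ℝ} (hu : |u| < r) (hN : Nn b φ p (Str h) (-(ρ / 2)) (ρ / 2) r h u) :
    0 < VV b φ p h ρ r u ∧ VV b φ p h ρ r u ≤ h ∧
      (∀ s : ℂ, s.im < VV b φ p h ρ r u → (s, (u : ℂ)) ∈ OL φ p ρ r ∧ (s, (u : ℂ)) ∈ OX b h ρ r) ∧
      (∀ x : ℝ, ((x : ℂ) + (VV b φ p h ρ r u) * Complex.I, (u : ℂ)) ∉ OL φ p ρ r) := by
  have hw : (u : ℂ) ∈ ball (0 : ℂ) r := by simpa using hu
  have hρ := D.ρ_pos
  obtain ⟨U, hU, hUh, hreg, hsing⟩ := hN
  have hb := (ls D).base (u : ℂ) hw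
  have hall : ∀ t : ℂ, t.im < U → (t, (u : ℂ)) ∈ OL φ p ρ r ∩ OX b h ρ r := by
    intro t ht
    rcases lt_or_ge t.im 0 with hn | hp
    · exact hb t (by linarith)
    · exact hreg t hp ht
  have h1 : U ≤ VV b φ p h ρ r u := T1EJ712.le_Vh (by linarith) hall
  have h2 : VV b φ p h ρ r u ≤ U := by
    have h3 := hsing ((U : ℂ) * Complex.I) (by simp)
    have h4 : ((U : ℂ) * Complex.I, (u : ℂ)) ∉ OL φ p ρ r ∩ OX b h ρ r := fun hm => h3 hm.1
    have h5 := T1EJ712.Vh_le_of_notMem (cp := h + 1) hb h4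
    have h6 : ((U : ℂ) * Complex.I).im = U := by simp
    rw [h6] at h5
    exact h5
  have hVU : VV b φ p h ρ r u = U := le_antisymm h2 h1
  rw [hVU]
  exact ⟨hU, hUh, hall, fun x => hsing _ (by simp)⟩

/-- **PART II at a.e. real `u` with `Nn u`**, one exact shift `G` per half disc -/
theorem goodU_ae (hNB : Rule982.NB h ψ H) {u0 R d : ℝ} (hR : 0 < R) (hd : 0 < d)
    (hball : ball (u0 : ℂ) R ⊆ ball (0 : ℂ) r) :
    ∃ G : ℂ → ℂ, DifferentiableOn ℂ G (HDu u0 R) ∧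
      (∀ w ∈ HDu u0 R, 0 ≤ (G w).im ∧ (G w).im ≤ VV b φ p h ρ r w) ∧
      (∀ u ∈ Ioo (u0 - R) (u0 + R), Tendsto (fun y : ℝ => (G (u + y * Complex.I)).im) (𝓝[>] 0)
        (𝓝 (VV b φ p h ρ r u))) ∧
      ∀ᵐ u : ℝ, u ∈ Ioo (u0 - R) (u0 + R) → Nn b φ p (Str h) (-(ρ / 2)) (ρ / 2) r h u →
        (∃ α β : ℝ, Expn G (VV b φ p h ρ r) u α β) ∧
        ∃ s₀ a₀ c : ℝ, GoodU (Xe u0 R d G (OX b h ρ r)) (Le u0 R d G (OL φ p ρ r)) u s₀ a₀ c := by
  have hρ := D.ρ_pos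
  obtain ⟨G, hG, hGb, -, -, hGt, hGE⟩ := slope_NT (M := h + 1) hR ((VV_lsc D).mono hball)
    (Slope845.NT_mono (VV_NT D) hball)
    (fun w hw => ⟨by have := le_VV D (hball hw); linarith, VV_le D (hball hw)⟩)
  refine ⟨G, hG, fun w hw => ⟨(hGb w hw).1, (hGb w hw).2.2.1⟩, hGt, ?_⟩
  filter_upwards [hGE] with u hE hu hN
  obtain ⟨α, β, hE'⟩ := hE hu
  have huB : (u : ℂ) ∈ ball (u0 : ℂ) R := by
    rw [mem_ball, dist_eq_norm, ← Complex.ofReal_sub, Complex.norm_real, Real.norm_eq_abs, abs_lt]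
    constructor <;> linarith [hu.1, hu.2]
  have hur : |u| < r := by simpa using hball huB
  obtain ⟨-, -, -, hNN⟩ := VV_of_Nn D hur hN
  refine ⟨⟨α, β, hE'⟩, ?_⟩
  exact partII_goodU (pair D hNB) (V := VV b φ p h ρ r)
    (fun w hw t ht => (mem_of_lt_VV D hw ht).1) (fun w hw t ht => (mem_of_lt_VV D hw ht).2)
    hd hball hu hNN hG (fun w hw => (hGb w hw).2.2.1) hE'

end

/-- from local a.e. statements to `(0, r)` -/
theorem ae_of_local {P : ℝ → Prop} {r : ℝ}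
    (hloc : ∀ u0 R : ℝ, 0 < R → ball (u0 : ℂ) R ⊆ ball (0 : ℂ) r →
      ∀ᵐ u : ℝ, u ∈ Ioo (u0 - R) (u0 + R) → P u) :
    ∀ᵐ u : ℝ, u ∈ Ioo 0 r → P u := by
  have key : volume {u : ℝ | ¬ (u ∈ Ioo 0 r → P u)} = 0 := by
    refine measure_null_of_locally_null _ fun x hx => ?_
    simp only [mem_ofPred_eq, Classical.not_imp] at hx
    obtain ⟨⟨hx0, hxr⟩, -⟩ := hx
    set R : ℝ := r - x with hR
    have hRp : 0 < R := by rw [hR]; linarith
    have hball : ball (x : ℂ) R ⊆ ball (0 : ℂ) r := by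
      intro z hz
      rw [mem_ball, dist_eq_norm] at hz
      rw [mem_ball_zero_iff]
      have h1 := norm_add_le (z - x) (x : ℂ)
      rw [sub_add_cancel, Complex.norm_real, Real.norm_eq_abs, abs_of_pos hx0] at h1
      linarith
    have h2 := hloc x R hRp hball
    rw [ae_iff] at h2
    refine ⟨{u : ℝ | ¬ (u ∈ Ioo (x - R) (x + R) → P u)} ∩ Ioo (x - R) (x + R) ∪
      {u : ℝ | ¬ (u ∈ Ioo 0 r → P u)} ∩ Ioo (x - R) (x + R), ?_, ?_⟩
    · rw [← union_inter_distrib_right]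
      refine mem_of_superset (inter_mem self_mem_nhdsWithin (mem_nhdsWithin_of_mem_nhds
        (Ioo_mem_nhds (by linarith : x - R < x) (by linarith : x < x + R)))) ?_
      rintro u ⟨h3, h4⟩
      exact ⟨Or.inr h3, h4⟩
    · refine measure_mono_null ?_ h2
      rintro u (⟨h3, -⟩ | ⟨h3, h4⟩)
      · exact h3
      · simp only [mem_ofPred_eq, Classical.not_imp] at h3 ⊢
        exact ⟨h4, h3.2⟩
  exact ae_iff.2 key

end Crest.Agent.R102.GlueII559
end
end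

-- ▼ part R102/Step6_811
section

/-!
Row 102, T1-B, step 6 of R1_523 (helper811): joint Schwarz reflection.

`D` open in `ℂ × ℂ` (coordinates `(t, w)`), `B` holomorphic on `D` with bounded imaginary part; for
`u ∈ F` the slice of `D` at `w = u` contains the rectangle below the height `U u`, and `Im B → h`
along a.e. vertical line of the slice.  Then for a.e. `u ∈ F` the function `B` extends
holomorphically to a full neighbourhood of every point `(x₀ + i U(u), u)`, `a < x₀ < b`.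
No regularity of `U` or `F` is needed.
-/

set_option autoImplicit false

open Set Filter Topology Metric MeasureTheory Complex
open scoped Real ComplexConjugate

noncomputable section

namespace Crest.Agent.R102.Step6811

/-- extension of one slice by reflection -/
theorem slice_ext {D : Set (ℂ × ℂ)} (hD : IsOpen D) {B : ℂ × ℂ → ℂ} (hB : DifferentiableOn ℂ B D)
    {m h a b d : ℝ} (hm : ∀ q ∈ D, |(B q).im| ≤ m) {V u : ℝ}
    (hsl : ∀ t : ℂ, a < t.re → t.re < b → V - d < t.im → t.im < V → (t, (u : ℂ)) ∈ D)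
    (hbd : ∀ᵐ x : ℝ, x ∈ Ioo a b →
      Tendsto (fun y : ℝ => (B ((x : ℂ) + ((V - y : ℝ) : ℂ) * I, (u : ℂ))).im) (𝓝[>] 0) (𝓝 h))
    {x0 ρ : ℝ} (h1 : a ≤ x0 - ρ) (h2 : x0 + ρ ≤ b) (h3 : ρ ≤ d) :
    ∃ F : ℂ → ℂ, DifferentiableOn ℂ F (ball (x0 : ℂ) ρ) ∧
      (∀ z ∈ ball (x0 : ℂ) ρ, z.im < 0 → F z = B (z + (V : ℂ) * I, (u : ℂ))) ∧
      (∀ x : ℝ, (x : ℂ) ∈ ball (x0 : ℂ) ρ → (F x).im = h) := by
  have hmem : ∀ z ∈ ball (x0 : ℂ) ρ, z.im < 0 → (z + (V : ℂ) * I, (u : ℂ)) ∈ D := by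
    intro z hz hi
    rw [mem_ball, dist_eq_norm] at hz
    have e1 := (abs_lt.1 ((Complex.abs_re_le_norm (z - x0)).trans_lt hz))
    have e2 := (abs_lt.1 ((Complex.abs_im_le_norm (z - x0)).trans_lt hz))
    simp only [sub_re, ofReal_re, sub_im, ofReal_im, sub_zero] at e1 e2
    apply hsl
    · simp only [add_re, mul_re, ofReal_re, I_re, ofReal_im, I_im]; linarith [e1.1]
    · simp only [add_re, mul_re, ofReal_re, I_re, ofReal_im, I_im]; linarith [e1.2]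
    · simp only [add_im, mul_im, ofReal_re, I_re, ofReal_im, I_im]; linarith [e2.1]
    · simp only [add_im, mul_im, ofReal_re, I_re, ofReal_im, I_im]; linarith [e2.1]
  obtain ⟨F, hF1, hF2, hF3, -⟩ := Refl812.refl_lower (c := x0) (r := ρ) (m := m) (h := h)
    (B := fun z => B (z + (V : ℂ) * I, (u : ℂ)))
    (fun z hz hi => by
      have := hB.differentiableAt (hD.mem_nhds (hmem z hz hi))
      exact this.comp z (by fun_prop : DifferentiableAt ℂ (fun z : ℂ => (z + (V : ℂ) * I, (u : ℂ))) z))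
    (fun z hz hi => hm _ (hmem z hz hi))
    (by
      filter_upwards [hbd] with x hx hxb
      have hxab : x ∈ Ioo a b := by
        rw [mem_ball, dist_eq_norm] at hxb
        have e1 := (abs_lt.1 ((Complex.abs_re_le_norm ((x : ℂ) - x0)).trans_lt hxb))
        simp only [sub_re, ofReal_re] at e1
        constructor <;> linarith [e1.1, e1.2]
      have hneg : Tendsto (fun y : ℝ => -y) (𝓝[<] 0) (𝓝[>] 0) := by
        have h4 : Tendsto (fun y : ℝ => -y) (𝓝[<] 0) (𝓝 0) := by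
          have : Tendsto (fun y : ℝ => -y) (𝓝 0) (𝓝 (-0)) := continuous_neg.tendsto 0
          rw [neg_zero] at this
          exact this.mono_left nhdsWithin_le_nhds
        refine tendsto_nhdsWithin_iff.2 ⟨h4, ?_⟩
        filter_upwards [self_mem_nhdsWithin] with y hy
        exact neg_pos.2 (mem_Iio.1 hy)
      refine ((hx hxab).comp hneg).congr fun y => ?_
      simp only [Function.comp_apply]
      congr 3
      push_cast
      ring)
  exact ⟨F, hF1, hF2, hF3⟩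

/-- the set of `w` such that a closed disc in the `t`-direction lies in `D` -/
def W (D : Set (ℂ × ℂ)) (t0 : ℂ) (r : ℝ) : Set ℂ := {w | ∀ t ∈ closedBall t0 r, (t, w) ∈ D}

/-- tube lemma in the form used here -/
theorem tube {D : Set (ℂ × ℂ)} (hD : IsOpen D) {K : Set ℂ} (hK : IsCompact K) {w : ℂ}
    (h : ∀ t ∈ K, (t, w) ∈ D) : ∃ δ > 0, ∀ t, t ∈ Metric.thickening δ K → ∀ v ∈ ball w δ,
      (t, v) ∈ D := by
  obtain ⟨A, V, hA, hV, hKA, hwV, hAV⟩ := generalized_tube_lemma hK (isCompact_singleton (x := w))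
    hD (by rintro ⟨t, v⟩ ⟨ht, hv⟩; rw [mem_singleton_iff] at hv; subst hv; exact h t ht)
  obtain ⟨δ1, hδ1, h1⟩ := hK.exists_thickening_subset_open hA hKA
  obtain ⟨δ2, hδ2, h2⟩ := Metric.isOpen_iff.1 hV w (hwV rfl)
  refine ⟨min δ1 δ2, lt_min hδ1 hδ2, fun t ht v hv => hAV ⟨h1 ?_, h2 ?_⟩⟩
  · exact Metric.thickening_mono (min_le_left _ _) _ ht
  · exact ball_subset_ball (min_le_right _ _) hv

theorem isOpen_W {D : Set (ℂ × ℂ)} (hD : IsOpen D) (t0 : ℂ) (r : ℝ) : IsOpen (W D t0 r) := by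
  rw [Metric.isOpen_iff]
  intro w hw
  obtain ⟨δ, hδ, h⟩ := tube hD (isCompact_closedBall t0 r) hw
  exact ⟨δ, hδ, fun v hv t ht => h t (Metric.self_subset_thickening hδ _ ht) v hv⟩

/-- identity theorem along a segment -/
theorem segment_eq {O : Set (ℂ × ℂ)} (hO : IsOpen O) {f g : ℂ × ℂ → ℂ}
    (hf : AnalyticOnNhd ℂ f O) (hg : AnalyticOnNhd ℂ g O) {t0 t w : ℂ}
    (hseg : ∀ s ∈ segment ℝ t0 t, (s, w) ∈ O) (heq : ∀ᶠ q in 𝓝 (t0, w), f q = g q) :
    ∀ᶠ q in 𝓝 (t, w), f q = g q := by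
  have hK : IsCompact (segment ℝ t0 t) := by
    rw [segment_eq_image ℝ t0 t]
    exact isCompact_Icc.image (by fun_prop)
  obtain ⟨δ, hδ, h⟩ := tube hO hK hseg
  set P : Set (ℂ × ℂ) := Metric.thickening δ (segment ℝ t0 t) ×ˢ ball w δ with hP
  have hPO : P ⊆ O := by
    rintro ⟨s, v⟩ ⟨hs, hv⟩
    exact h s hs v hv
  have hPopen : IsOpen P := Metric.isOpen_thickening.prod isOpen_ball
  have hPconv : Convex ℝ P := ((convex_segment t0 t).thickening δ).prod (convex_ball w δ)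
  have h0P : (t0, w) ∈ P :=
    ⟨Metric.self_subset_thickening hδ _ (left_mem_segment ℝ t0 t), mem_ball_self hδ⟩
  have h1P : (t, w) ∈ P :=
    ⟨Metric.self_subset_thickening hδ _ (right_mem_segment ℝ t0 t), mem_ball_self hδ⟩
  have := (hf.mono hPO).eqOn_of_preconnected_of_eventuallyEq (hg.mono hPO)
    hPconv.isPreconnected h0P heq
  filter_upwards [hPopen.mem_nhds h1P] with q hq
  exact this hq

/-- the output data of step 6 at the point `(x₀ + i V, u)` -/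
structure Ext (D : Set (ℂ × ℂ)) (B : ℂ × ℂ → ℂ) (h V u x0 r : ℝ) (Bt : ℂ × ℂ → ℂ) : Prop where
  an : AnalyticOnNhd ℂ Bt (ball ((x0 : ℂ) + (V : ℂ) * I) r ×ˢ ball (u : ℂ) r)
  low : ∀ t ∈ ball ((x0 : ℂ) + (V : ℂ) * I) r, t.im < V →
    ∀ᶠ q in 𝓝 (t, (u : ℂ)), q ∈ D ∧ Bt q = B q
  real : ∀ x : ℝ, (x : ℂ) + (V : ℂ) * I ∈ ball ((x0 : ℂ) + (V : ℂ) * I) r →
    (Bt ((x : ℂ) + (V : ℂ) * I, (u : ℂ))).im = h
  hopf : (∀ q ∈ D, (B q).im < h) →
    (deriv (fun t => Bt (t, (u : ℂ))) ((x0 : ℂ) + (V : ℂ) * I)).im = 0 ∧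
    0 < (deriv (fun t => Bt (t, (u : ℂ))) ((x0 : ℂ) + (V : ℂ) * I)).re

theorem Ext.mono {D : Set (ℂ × ℂ)} {B : ℂ × ℂ → ℂ} {h V u x0 r r' : ℝ} {Bt : ℂ × ℂ → ℂ}
    (hE : Ext D B h V u x0 r Bt) (hr : r' ≤ r) : Ext D B h V u x0 r' Bt :=
  ⟨hE.an.mono (prod_mono (ball_subset_ball hr) (ball_subset_ball hr)),
    fun t ht => hE.low t (ball_subset_ball hr ht), fun x hx => hE.real x (ball_subset_ball hr hx),
    hE.hopf⟩

/-- **STEP 6** (joint Schwarz reflection). -/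
theorem step6 {D : Set (ℂ × ℂ)} (hD : IsOpen D) {B : ℂ × ℂ → ℂ} (hB : DifferentiableOn ℂ B D)
    {m h a b d : ℝ} (hd : 0 < d) (hm : ∀ q ∈ D, |(B q).im| ≤ m) {U : ℝ → ℝ} {F : Set ℝ}
    (hsl : ∀ u ∈ F, ∀ t : ℂ, a < t.re → t.re < b → U u - d < t.im → t.im < U u →
      (t, (u : ℂ)) ∈ D)
    (hbd : ∀ u ∈ F, ∀ᵐ x : ℝ, x ∈ Ioo a b →
      Tendsto (fun y : ℝ => (B ((x : ℂ) + ((U u - y : ℝ) : ℂ) * I, (u : ℂ))).im) (𝓝[>] 0) (𝓝 h)) :
    ∀ᵐ u : ℝ, u ∈ F → ∀ x0 ∈ Ioo a b, ∃ r > 0, ∃ Bt : ℂ × ℂ → ℂ, Ext D B h (U u) u x0 r Bt := by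
  have hBan : AnalyticOnNhd ℂ B D := R266.SCV.analyticOnNhd_of_differentiableOn hD hB
  -- the countable family
  set FF : ℂ → ℝ → ℝ → Set ℝ := fun t0 s R => {u | u ∈ F ∧ (u : ℂ) ∈ W D t0 s ∧
    ∃ g : ℂ → ℂ, DifferentiableOn ℂ g (ball t0 R) ∧ ∀ᶠ t in 𝓝 t0, g t = B (t, (u : ℂ))} with hFF
  have hae : ∀ q1 q2 s R : ℚ, ∀ᵐ u : ℝ, (0 : ℝ) < s →
      u ∈ FF ((q1 : ℂ) + (q2 : ℂ) * I) s R → ∀ R' < (R : ℝ), ∀ ε > 0, ∃ r > 0, r < ε ∧
        ball (u : ℂ) r ⊆ W D ((q1 : ℂ) + (q2 : ℂ) * I) s ∧ ∃ G : ℂ × ℂ → ℂ,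
        AnalyticOnNhd ℂ G (ball (u : ℂ) r ×ˢ ball ((q1 : ℂ) + (q2 : ℂ) * I) R') ∧
        ∀ w ∈ ball (u : ℂ) r, ∀ t ∈ ball ((q1 : ℂ) + (q2 : ℂ) * I) (min (s : ℝ) R'),
          G (w, t) = B (t, w) := by
    intro q1 q2 s R
    by_cases hs : (0 : ℝ) < s
    · have h1 := M948.extend_ae (f := fun p : ℂ × ℂ => B (p.2, p.1))
        (isOpen_W hD ((q1 : ℂ) + (q2 : ℂ) * I) s) (t0 := (q1 : ℂ) + (q2 : ℂ) * I) hs
        (by
          have h2 : DifferentiableOn ℂ (fun p : ℂ × ℂ => ((p.2, p.1) : ℂ × ℂ))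
              (W D ((q1 : ℂ) + (q2 : ℂ) * I) s ×ˢ ball ((q1 : ℂ) + (q2 : ℂ) * I) s) := by fun_prop
          exact hB.comp h2 (fun p hp => hp.1 p.2 (ball_subset_closedBall hp.2)))
        (R := R) (F := FF ((q1 : ℂ) + (q2 : ℂ) * I) s R)
        (fun u hu => ⟨hu.2.1, hu.2.2⟩)
      filter_upwards [h1] with u hu _ using hu
    · exact Eventually.of_forall fun u hs' => absurd hs' hs
  have hae' := ae_all_iff.2 fun q1 => ae_all_iff.2 fun q2 => ae_all_iff.2 fun s =>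
    ae_all_iff.2 fun R => hae q1 q2 s R
  filter_upwards [hae'] with u hu huF x0 hx0
  set V := U u with hV
  set ρ : ℝ := min (min (x0 - a) (b - x0)) d with hρ
  have hρ0 : 0 < ρ := lt_min (lt_min (sub_pos.2 hx0.1) (sub_pos.2 hx0.2)) hd
  have hρa : a ≤ x0 - ρ := by
    have : ρ ≤ x0 - a := (min_le_left _ _).trans (min_le_left _ _)
    linarith
  have hρb : x0 + ρ ≤ b := by
    have : ρ ≤ b - x0 := (min_le_left _ _).trans (min_le_right _ _)
    linarith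
  have hρd : ρ ≤ d := min_le_right _ _
  obtain ⟨g, hg1, hg2, hg3⟩ := slice_ext hD hB hm (hsl u huF) (hbd u huF) hρa hρb hρd
  set c : ℂ := (x0 : ℂ) + (V : ℂ) * I with hc
  -- rational data
  obtain ⟨q1, hq1a, hq1b⟩ := exists_rat_btwn (show x0 - ρ / 32 < x0 + ρ / 32 by linarith)
  obtain ⟨q2, hq2a, hq2b⟩ := exists_rat_btwn
    (show V - ρ / 4 - ρ / 32 < V - ρ / 4 + ρ / 32 by linarith)
  obtain ⟨s, hs0, hs1⟩ := exists_rat_btwn (show (0 : ℝ) < ρ / 16 by positivity)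
  obtain ⟨R, hRa, hRb⟩ := exists_rat_btwn (show 10 * ρ / 16 < 11 * ρ / 16 by linarith)
  set t0 : ℂ := (q1 : ℂ) + (q2 : ℂ) * I with ht0
  have ht0re : t0.re = q1 := by simp [ht0]
  have ht0im : t0.im = q2 := by simp [ht0]
  have hcre : c.re = x0 := by simp [hc]
  have hcim : c.im = V := by simp [hc]
  have ht0c : ‖t0 - c‖ ≤ 5 * ρ / 16 := by
    have e1 := Complex.norm_le_abs_re_add_abs_im (t0 - c)
    have e2 : |(t0 - c).re| ≤ ρ / 32 := by
      rw [sub_re, ht0re, hcre, abs_le]; constructor <;> linarith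
    have e3 : |(t0 - c).im| ≤ ρ / 4 + ρ / 32 := by
      rw [sub_im, ht0im, hcim, abs_le]; constructor <;> linarith
    linarith
  have hball : ∀ t, ‖t - t0‖ < 11 * ρ / 16 → ‖t - c‖ < ρ := by
    intro t ht
    have := norm_sub_le_norm_sub_add_norm_sub t t0 c
    linarith
  have hslice : ∀ t : ℂ, ‖t - c‖ < ρ → t.im < V → (t, (u : ℂ)) ∈ D := by
    intro t ht hi
    have e1 := abs_lt.1 ((Complex.abs_re_le_norm (t - c)).trans_lt ht)
    have e2 := abs_lt.1 ((Complex.abs_im_le_norm (t - c)).trans_lt ht)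
    rw [sub_re, hcre] at e1
    rw [sub_im, hcim] at e2
    exact hsl u huF t (by linarith [e1.1]) (by linarith [e1.2]) (by linarith [e2.1]) hi
  have hgB : ∀ t : ℂ, ‖t - c‖ < ρ → t.im < V → g (t - (V : ℂ) * I) = B (t, (u : ℂ)) := by
    intro t ht hi
    have h1 := hg2 (t - (V : ℂ) * I) (by
      rw [mem_ball, dist_eq_norm]
      rw [show t - (V : ℂ) * I - (x0 : ℂ) = t - c by rw [hc]; ring]
      exact ht) (by
      simp only [sub_im, mul_im, ofReal_re, I_im, ofReal_im, I_re]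
      linarith)
    rw [h1]
    congr 2
    ring
  have hgd : DifferentiableOn ℂ (fun t => g (t - (V : ℂ) * I)) (ball c ρ) := by
    refine hg1.comp (by fun_prop) ?_
    intro t ht
    rw [mem_ball, dist_eq_norm] at ht ⊢
    rwa [show t - (V : ℂ) * I - (x0 : ℂ) = t - c by rw [hc]; ring]
  have hclosed : ∀ t ∈ closedBall t0 (s : ℝ), ‖t - c‖ < ρ ∧ t.im < V := by
    intro t ht
    rw [mem_closedBall, dist_eq_norm] at ht
    refine ⟨hball t (by linarith), ?_⟩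
    have e2 := (Complex.abs_im_le_norm (t - t0)).trans ht
    rw [sub_im, ht0im] at e2
    have := (abs_le.1 e2).2
    linarith
  have huFF : u ∈ FF t0 s R := by
    refine ⟨huF, fun t ht => hslice t (hclosed t ht).1 (hclosed t ht).2,
      fun t => g (t - (V : ℂ) * I), ?_, ?_⟩
    · apply hgd.mono
      intro t ht
      rw [mem_ball, dist_eq_norm] at ht ⊢
      exact hball t (by linarith)
    · filter_upwards [Metric.ball_mem_nhds t0 (ε := (s : ℝ)) (by exact_mod_cast hs0)] with t ht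
      have := hclosed t (ball_subset_closedBall ht)
      exact hgB t this.1 this.2
  have hs0' : (0 : ℝ) < s := by exact_mod_cast hs0
  obtain ⟨r1, hr1, -, hr1W, G, hG, hGB⟩ := hu q1 q2 s R hs0' huFF (9 * ρ / 16) (by linarith) 1
    one_pos
  have hmin : min (s : ℝ) (9 * ρ / 16) = s := min_eq_left (by linarith)
  rw [← ht0, hmin] at hGB
  rw [← ht0] at hG
  set r : ℝ := min r1 (ρ / 4) with hr
  have hr0 : 0 < r := lt_min hr1 (by positivity)
  have hsub : ball c r ⊆ ball t0 (9 * ρ / 16) := by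
    intro t ht
    rw [mem_ball, dist_eq_norm] at ht ⊢
    have e1 := norm_sub_le_norm_sub_add_norm_sub t c t0
    rw [← norm_neg (c - t0), neg_sub] at e1
    have : r ≤ ρ / 4 := min_le_right _ _
    linarith
  set Bt : ℂ × ℂ → ℂ := fun q => G (q.2, q.1) with hBt
  set O1 : Set (ℂ × ℂ) := ball t0 (9 * ρ / 16) ×ˢ ball (u : ℂ) r1 with hO1
  have hBtan : AnalyticOnNhd ℂ Bt O1 := by
    intro q hq
    have h1 : AnalyticAt ℂ G (q.2, q.1) := hG (q.2, q.1) ⟨hq.2, hq.1⟩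
    have h2 : AnalyticAt ℂ (fun q : ℂ × ℂ => ((q.2, q.1) : ℂ × ℂ)) q :=
      analyticAt_snd.prod analyticAt_fst
    exact AnalyticAt.fun_comp (g := G) (f := fun q : ℂ × ℂ => ((q.2, q.1) : ℂ × ℂ)) h1 h2
  have hO1o : IsOpen O1 := isOpen_ball.prod isOpen_ball
  set O : Set (ℂ × ℂ) := D ∩ O1 with hO
  have hOo : IsOpen O := hD.inter hO1o
  have heq0 : ∀ᶠ q in 𝓝 (t0, (u : ℂ)), Bt q = B q := by
    have : ball t0 (s : ℝ) ×ˢ ball (u : ℂ) r1 ∈ 𝓝 (t0, (u : ℂ)) :=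
      (isOpen_ball.prod isOpen_ball).mem_nhds ⟨mem_ball_self hs0', mem_ball_self hr1⟩
    filter_upwards [this] with q hq
    exact hGB q.2 hq.2 q.1 hq.1
  have hlow : ∀ t ∈ ball t0 (9 * ρ / 16), t.im < V →
      ∀ᶠ q in 𝓝 (t, (u : ℂ)), q ∈ D ∧ Bt q = B q := by
    intro t ht hi
    have hseg : ∀ x ∈ segment ℝ t0 t, (x, (u : ℂ)) ∈ O := by
      have hconv : Convex ℝ (ball t0 (9 * ρ / 16) ∩ {z : ℂ | z.im < V}) :=
        (convex_ball _ _).inter (convex_halfSpace_im_lt V)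
      have h0 : t0 ∈ ball t0 (9 * ρ / 16) ∩ {z : ℂ | z.im < V} :=
        ⟨mem_ball_self (by positivity), (hclosed t0 (mem_closedBall_self hs0'.le)).2⟩
      intro x hx
      have hx' := hconv.segment_subset h0 ⟨ht, hi⟩ hx
      refine ⟨hslice x (hball x ?_) hx'.2, hx'.1, mem_ball_self hr1⟩
      have := hx'.1
      rw [mem_ball, dist_eq_norm] at this
      linarith
    have h1 := segment_eq hOo (hBtan.mono inter_subset_right) (hBan.mono inter_subset_left)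
      hseg heq0
    have h2 : ∀ᶠ q in 𝓝 (t, (u : ℂ)), q ∈ D :=
      hD.mem_nhds (hseg t (right_mem_segment ℝ t0 t)).1
    exact h2.and h1
  have hident : ∀ t ∈ ball c r, Bt (t, (u : ℂ)) = g (t - (V : ℂ) * I) := by
    have ha1 : AnalyticOnNhd ℂ (fun t : ℂ => Bt (t, (u : ℂ))) (ball c r) := by
      intro t ht
      exact AnalyticAt.fun_comp (g := Bt) (f := fun t : ℂ => ((t, (u : ℂ)) : ℂ × ℂ))
        (hBtan (t, (u : ℂ)) ⟨hsub ht, mem_ball_self hr1⟩) (analyticAt_id.prod analyticAt_const)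
    have ha2 : AnalyticOnNhd ℂ (fun t : ℂ => g (t - (V : ℂ) * I)) (ball c r) := by
      apply (hgd.mono (ball_subset_ball ?_)).analyticOnNhd isOpen_ball
      have : r ≤ ρ / 4 := min_le_right _ _
      linarith
    have hpt : c - ((r / 2 : ℝ) : ℂ) * I ∈ ball c r := by
      rw [mem_ball, dist_eq_norm, sub_sub_cancel_left, norm_neg, norm_mul, Complex.norm_real,
        Complex.norm_I, mul_one, Real.norm_of_nonneg (by positivity)]
      linarith
    have hptim : (c - ((r / 2 : ℝ) : ℂ) * I).im < V := by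
      rw [sub_im, hcim]
      simp only [mul_im, ofReal_re, I_im, ofReal_im, I_re]
      linarith
    have hev : (fun t : ℂ => Bt (t, (u : ℂ))) =ᶠ[𝓝 (c - ((r / 2 : ℝ) : ℂ) * I)]
        (fun t : ℂ => g (t - (V : ℂ) * I)) := by
      have h1a : ∀ᶠ t in 𝓝 (c - ((r / 2 : ℝ) : ℂ) * I), t ∈ ball c r := isOpen_ball.mem_nhds hpt
      have h1b : ∀ᶠ t in 𝓝 (c - ((r / 2 : ℝ) : ℂ) * I), t.im < V :=
        (isOpen_lt continuous_im continuous_const).mem_nhds hptim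
      have h1 := h1a.and h1b
      filter_upwards [h1] with t ht
      have h2 := (hlow t (hsub ht.1) ht.2).self_of_nhds.2
      rw [h2, hgB t _ ht.2]
      have h3 := ht.1
      rw [mem_ball, dist_eq_norm] at h3
      have : r ≤ ρ / 4 := min_le_right _ _
      linarith
    exact ha1.eqOn_of_preconnected_of_eventuallyEq ha2 (convex_ball c r).isPreconnected hpt hev
  refine ⟨r, hr0, Bt, ?_, ?_, ?_, ?_⟩
  · apply hBtan.mono
    exact prod_mono hsub (ball_subset_ball (min_le_left _ _))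
  · intro t ht hi
    exact hlow t (hsub ht) hi
  · intro x hx
    rw [hident _ hx, add_sub_cancel_right]
    apply hg3
    rw [mem_ball, dist_eq_norm] at hx ⊢
    rw [show (x : ℂ) - x0 = (x : ℂ) + (V : ℂ) * I - c by rw [hc]; ring]
    have : r ≤ ρ / 4 := min_le_right _ _
    have h3 : ‖(x : ℂ) + (V : ℂ) * I - c‖ < r := hx
    linarith
  · intro hlt
    have hgan : AnalyticAt ℂ g (x0 : ℂ) :=
      hg1.analyticAt (isOpen_ball.mem_nhds (mem_ball_self hρ0))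
    have h1 : ∀ᶠ x : ℝ in 𝓝 x0, (g (x : ℂ)).im = h := by
      have h2 : ∀ᶠ x : ℝ in 𝓝 x0, (x : ℂ) ∈ ball (x0 : ℂ) ρ :=
        Complex.continuous_ofReal.continuousAt.eventually_mem
          (isOpen_ball.mem_nhds (mem_ball_self hρ0))
      filter_upwards [h2] with x hx
      exact hg3 x hx
    have h3 : ∀ᶠ z in 𝓝 (x0 : ℂ), z.im < 0 → (g z).im < h := by
      filter_upwards [isOpen_ball.mem_nhds (mem_ball_self hρ0)] with z hz hi
      rw [hg2 z hz hi]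
      apply hlt
      apply hslice
      · rw [mem_ball, dist_eq_norm] at hz
        rwa [show z + (V : ℂ) * I - c = z - x0 by rw [hc]; ring]
      · simp only [add_im, mul_im, ofReal_re, I_im, ofReal_im, I_re]; linarith
    have h4 := Refl812.hopf_lower hgan h1 h3
    have h5 : deriv (fun t => Bt (t, (u : ℂ))) c = deriv g x0 := by
      have h6 : (fun t => Bt (t, (u : ℂ))) =ᶠ[𝓝 c] fun t => g (t - (V : ℂ) * I) := by
        filter_upwards [isOpen_ball.mem_nhds (mem_ball_self hr0)] with t ht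
        exact hident t ht
      rw [h6.deriv_eq, deriv_comp_sub_const]
      congr 1
      rw [hc]; ring
    rw [h5]
    exact h4


end Crest.Agent.R102.Step6811
end
end

-- ▼ part R102/GlueIV_812

/-!
Row 102 (T1-B), glue II/III -> IV (helper812): steps 6 (811) + 7 (559) on the main sheets (982),
in the slab coordinates `(t, w)`.
* `step67`  : generic main sheets, upper edge;
* `step67'` : the same for both edges (`e = h0` or `e = -h0`);
* `Sit`     : the situation at a real width `u`: the label is regular on the whole slab below the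
  height `U > 0`, on some interval `(a', b')` its imaginary part tends a.e. to one edge `e = ± h`
  at the height `U`, and over every point of the interval there are births on the main sheet
  (`(t, w)` not in the sheet of the label, `(t - w/2, w)` in the sheet of the lines);
* `noSit`   : for a.e. `u` in `(0, r)` this does not happen.
-/

set_option autoImplicit false

open Set Filter Topology Metric Complex MeasureTheory
open scoped Real

noncomputable section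

namespace Crest.Agent.R102.Glue4812

open Crest.Agent.R102.B821 Crest.Agent.R102.F300 Crest.Agent.R102.Step7559
open Crest.Agent.R102.Step6811 (Ext step6)
open Crest.Agent.R102.Sh982
open Crest.Agent.R102.Out559 (OmL OmX)

/-- steps 6 + 7 for a positive measure set of widths: impossible (upper edge) -/
theorem step67 {h0 : ℝ} (h0pos : 0 < h0) {ψ H : ℂ → ℂ} {c : ℂ} (hc : c ≠ 0)
    (hψ : DifferentiableOn ℂ ψ {z : ℂ | |z.im| < h0})
    (hH : DifferentiableOn ℂ H {z : ℂ | |z.im| < h0})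
    (hrel : Rel {z : ℂ | |z.im| < h0} ψ H c)
    (hNB : ∀ s : ℂ, s.im = h0 → ¬ RegAt {z : ℂ | |z.im| < h0} ψ H s)
    {ΩX Ωl : Set (ℂ × ℂ)} (hX : IsOpen ΩX) (hl : IsOpen Ωl)
    {y1 : ℝ} (hstar : ∀ q ∈ Ωl, ∀ τ : ℝ, 0 ≤ τ → y1 < q.1.im - τ → dn q τ ∈ Ωl)
    {B φ p : ℂ × ℂ → ℂ} (hBd : DifferentiableOn ℂ B ΩX) (hB : ∀ q ∈ ΩX, |(B q).im| < h0)
    (hφ : AnalyticOnNhd ℂ φ Ωl) (hp : AnalyticOnNhd ℂ p Ωl)
    (har : ∀ q ∈ Ωl, q.2 ≠ 0 → q1 φ q * q2 p q - q2 φ q * q1 p q ≠ 0)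
    (hinc : ∀ q ∈ ΩX, (q.1 - q.2 / 2, q.2) ∈ Ωl →
      Inc ψ H (φ (q.1 - q.2 / 2, q.2)) (p (q.1 - q.2 / 2, q.2)) (B q))
    (hmax : Maxi h0 ΩX B)
    {a b d : ℝ} (hab : a < b) (hd : 0 < d) {U : ℝ → ℝ} {F : Set ℝ}
    (hF0 : ∀ u ∈ F, u ≠ 0) (hFU : ∀ u ∈ F, y1 + d ≤ U u)
    (hsl : ∀ u ∈ F, ∀ t : ℂ, a < t.re → t.re < b → y1 < t.im → t.im < U u →
      (t, (u : ℂ)) ∈ ΩX)
    (hbd : ∀ u ∈ F, ∀ᵐ x : ℝ, x ∈ Ioo a b →
      Tendsto (fun y : ℝ => (B ((x : ℂ) + ((U u - y : ℝ) : ℂ) * I, (u : ℂ))).im) (𝓝[>] 0) (𝓝 h0))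
    (hsing : ∀ u ∈ F, ∀ x0 ∈ Ioo a b, ∀ ε > 0, ∃ q ∈ ball ((x0 : ℂ) + (U u : ℂ) * I, (u : ℂ)) ε,
      q ∉ ΩX ∧ (q.1 - q.2 / 2, q.2) ∈ Ωl) : ∀ᵐ u : ℝ, u ∉ F := by
  have h6 := step6 hX hBd (m := h0) (h := h0) (a := a) (b := b) hd (fun q hq => (hB q hq).le)
    (U := U) (F := F)
    (fun u hu t h1 h2 h3 h4 => hsl u hu t h1 h2 (by linarith [hFU u hu]) h4) hbd
  filter_upwards [h6] with u hu huF
  set x0 : ℝ := (a + b) / 2 with hx0
  have hx0m : x0 ∈ Ioo a b := ⟨by rw [hx0]; linarith, by rw [hx0]; linarith⟩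
  obtain ⟨r, hr, Bt, hE⟩ := hu huF x0 hx0m
  set P : ℂ × ℂ := ((x0 : ℂ) + (U u : ℂ) * I, (u : ℂ)) with hP
  have hPr : ball P r = ball ((x0 : ℂ) + (U u : ℂ) * I) r ×ˢ ball (u : ℂ) r :=
    (ball_prod_same _ _ _).symm
  have hBt : AnalyticOnNhd ℂ Bt (ball P r) := by
    rw [hPr]
    exact hE.an
  have hBP : (Bt P).im = h0 := hE.real x0 (mem_ball_self hr)
  have hhopf := hE.hopf (fun q hq => (abs_lt.1 (hB q hq)).2)
  -- positivity of the derivative near `P`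
  have hq1 : ∀ q ∈ ball P r, q1 Bt q = deriv (fun t => Bt (t, q.2)) q.1 := by
    intro q hq
    have h1 : HasDerivAt (fun s : ℂ => ((s, q.2) : ℂ × ℂ)) ((1, 0) : ℂ × ℂ) q.1 :=
      (hasDerivAt_id q.1).prodMk (hasDerivAt_const q.1 q.2)
    exact ((hBt q hq).differentiableAt.hasFDerivAt.comp_hasDerivAt q.1 h1).deriv.symm
  have hcq1 : ContinuousAt (q1 Bt) P := by
    have h1 : ContinuousAt (fderiv ℂ Bt) P := (hBt P (mem_ball_self hr)).fderiv.continuousAt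
    exact h1.clm_apply continuousAt_const
  have hposP : 0 < (q1 Bt P).re := by
    rw [hq1 P (mem_ball_self hr)]
    exact hhopf.2
  obtain ⟨r1, hr1, hr1r, hpos⟩ : ∃ r1 > 0, r1 ≤ r ∧ ∀ q ∈ ball P r1, 0 < (q1 Bt q).re := by
    have h1 : ∀ᶠ q in 𝓝 P, 0 < (q1 Bt q).re :=
      (Complex.continuous_re.continuousAt.comp hcq1).eventually (lt_mem_nhds hposP)
    obtain ⟨r1, hr1, h2⟩ := Metric.eventually_nhds_iff_ball.1 h1
    exact ⟨min r1 r, lt_min hr1 hr, min_le_right _ _, fun q hq =>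
      h2 q (ball_subset_ball (min_le_left _ _) hq)⟩
  -- below `P`
  have hdeep : ∀ᶠ τ : ℝ in 𝓝[>] 0, dn P τ ∈ Gd ΩX B Bt := by
    filter_upwards [Ioo_mem_nhdsGT hr] with τ hτ
    have e1 : dn P τ = ((x0 : ℂ) + (U u : ℂ) * I - τ * I, (u : ℂ)) := rfl
    have h1 : (x0 : ℂ) + (U u : ℂ) * I - τ * I ∈ ball ((x0 : ℂ) + (U u : ℂ) * I) r := by
      rw [mem_ball, dist_eq_norm, show (x0 : ℂ) + (U u : ℂ) * I - τ * I -
        ((x0 : ℂ) + (U u : ℂ) * I) = -((τ : ℂ) * I) by ring, norm_neg, norm_mul,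
        Complex.norm_I, mul_one, Complex.norm_real, Real.norm_eq_abs, abs_of_pos hτ.1]
      exact hτ.2
    have h2 : ((x0 : ℂ) + (U u : ℂ) * I - τ * I).im < U u := by
      simp
      exact hτ.1
    have h3 := hE.low _ h1 h2
    rw [e1]
    refine ⟨h3.self_of_nhds.1, ?_⟩
    filter_upwards [h3] with q hq using hq.2
  have hPim : y1 < (P.1 - P.2 / 2).im := by
    have e5 : ∀ z : ℂ, (z / 2).im = z.im / 2 := fun z => by
      rw [show (2 : ℂ) = ((2 : ℝ) : ℂ) by norm_num, Complex.div_ofReal_im]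
    rw [hP]
    simp only [sub_im, e5, add_im, ofReal_im, mul_im, I_re, I_im, ofReal_re]
    linarith [hFU u huF]
  refine step7' h0pos hc hψ hH hrel hNB hX hl hstar (fun q hq => (abs_lt.1 (hB q hq)).2) hφ hp har
    hinc hmax hPim hr1 (hBt.mono (ball_subset_ball hr1r)) hBP (fun q hq => ?_) hdeep ?_
  · rw [← hq1 q (ball_subset_ball hr1r hq)]
    exact hpos q hq
  · intro ε hε
    have hu0 : 0 < ‖(u : ℂ)‖ := by
      rw [norm_pos_iff]
      exact_mod_cast hF0 u huF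
    obtain ⟨q, hq, hqX, hql⟩ := hsing u huF x0 hx0m (min ε ‖(u : ℂ)‖) (lt_min hε hu0)
    refine ⟨q, ball_subset_ball (min_le_left _ _) hq, ?_, hqX, hql⟩
    intro h0
    have h1 : dist q.2 (u : ℂ) < ‖(u : ℂ)‖ := by
      rw [mem_ball, Prod.dist_eq, max_lt_iff] at hq
      exact hq.2.trans_le (min_le_right _ _)
    rw [h0, dist_zero_left] at h1
    exact lt_irrefl _ h1

/-! ### the reflection `b ↦ -b` of the label -/

lemma deriv_neg_comp (f : ℂ → ℂ) (z : ℂ) : deriv (fun z => f (-z)) z = -deriv f (-z) := by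
  simpa using deriv_comp_neg f z

lemma strip_neg {h0 : ℝ} {z : ℂ} (hz : z ∈ {z : ℂ | |z.im| < h0}) :
    -z ∈ {z : ℂ | |z.im| < h0} := by
  simpa using hz

lemma diff_neg {h0 : ℝ} {f : ℂ → ℂ} (hf : DifferentiableOn ℂ f {z : ℂ | |z.im| < h0}) :
    DifferentiableOn ℂ (fun z => f (-z)) {z : ℂ | |z.im| < h0} :=
  hf.comp differentiableOn_id.neg (fun _ hz => strip_neg hz)

lemma deriv2_neg_comp (f : ℂ → ℂ) (z : ℂ) :
    deriv (deriv (fun z => f (-z))) z = deriv (deriv f) (-z) := by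
  have h1 : deriv (fun z => f (-z)) = fun z => -deriv f (-z) := funext (deriv_neg_comp f)
  rw [h1]
  have h2 : deriv (fun z => -deriv f (-z)) z = -deriv (fun z => deriv f (-z)) z := by
    simp
  rw [h2, deriv_neg_comp, neg_neg]

lemma rel_neg {h0 : ℝ} {ψ H : ℂ → ℂ} {c : ℂ} (h : Rel {z : ℂ | |z.im| < h0} ψ H c) :
    Rel {z : ℂ | |z.im| < h0} (fun z => ψ (-z)) (fun z => H (-z)) (-c) := by
  intro z hz
  have h1 := h (-z) (strip_neg hz)
  rw [deriv_neg_comp, deriv_neg_comp, deriv2_neg_comp, deriv2_neg_comp, ← h1]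
  ring

lemma inc_neg {ψ H : ℂ → ℂ} {φ p b : ℂ} (h : Inc ψ H φ p b) :
    Inc (fun z => ψ (-z)) (fun z => H (-z)) φ p (-b) := by
  unfold Inc at h ⊢
  rw [deriv_neg_comp, deriv_neg_comp]
  simp only [neg_neg]
  linear_combination -h

lemma reg_neg {h0 : ℝ} {ψ H : ℂ → ℂ} {s : ℂ}
    (h : RegAt {z : ℂ | |z.im| < h0} (fun z => ψ (-z)) (fun z => H (-z)) s) :
    RegAt {z : ℂ | |z.im| < h0} ψ H (-s) := by
  obtain ⟨r, hr, g1, g2, h1, h2, h3⟩ := h
  have hb : ∀ z ∈ ball (-s) r, -z ∈ ball s r := by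
    intro z hz
    rw [mem_ball, dist_eq_norm] at hz ⊢
    rw [show -z - s = -(z - -s) by ring, norm_neg]
    exact hz
  refine ⟨r, hr, fun z => g1 (-z), fun z => g2 (-z), h1.comp differentiableOn_id.neg hb,
    h2.comp differentiableOn_id.neg hb, ?_⟩
  intro z hz hzS
  have h4 := h3 (-z) (hb z hz) (strip_neg hzS)
  simpa using h4

lemma maxi_neg {h0 : ℝ} {ΩX : Set (ℂ × ℂ)} {B : ℂ × ℂ → ℂ} (h : Maxi h0 ΩX B) :
    Maxi h0 ΩX (fun q => -B q) := by
  intro q Bt hBt hq hlow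
  have h1 := h q (fun q => -Bt q) hBt.neg (by simpa using hq) (by
    filter_upwards [hlow] with τ hτ
    refine ⟨hτ.1, ?_⟩
    filter_upwards [hτ.2] with z hz
    rw [hz, neg_neg])
  refine ⟨h1.1, ?_⟩
  filter_upwards [h1.2] with z hz
  rw [← hz, neg_neg]

/-- steps 6 + 7 for a positive measure set of widths: impossible (both edges) -/
theorem step67' {h0 : ℝ} (h0pos : 0 < h0) {ψ H : ℂ → ℂ} {c : ℂ} (hc : c ≠ 0)
    (hψ : DifferentiableOn ℂ ψ {z : ℂ | |z.im| < h0})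
    (hH : DifferentiableOn ℂ H {z : ℂ | |z.im| < h0})
    (hrel : Rel {z : ℂ | |z.im| < h0} ψ H c)
    (hNB : ∀ s : ℂ, |s.im| = h0 → ¬ RegAt {z : ℂ | |z.im| < h0} ψ H s)
    {ΩX Ωl : Set (ℂ × ℂ)} (hX : IsOpen ΩX) (hl : IsOpen Ωl)
    {y1 : ℝ} (hstar : ∀ q ∈ Ωl, ∀ τ : ℝ, 0 ≤ τ → y1 < q.1.im - τ → dn q τ ∈ Ωl)
    {B φ p : ℂ × ℂ → ℂ} (hBd : DifferentiableOn ℂ B ΩX) (hB : ∀ q ∈ ΩX, |(B q).im| < h0)
    (hφ : AnalyticOnNhd ℂ φ Ωl) (hp : AnalyticOnNhd ℂ p Ωl)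
    (har : ∀ q ∈ Ωl, q.2 ≠ 0 → q1 φ q * q2 p q - q2 φ q * q1 p q ≠ 0)
    (hinc : ∀ q ∈ ΩX, (q.1 - q.2 / 2, q.2) ∈ Ωl →
      Inc ψ H (φ (q.1 - q.2 / 2, q.2)) (p (q.1 - q.2 / 2, q.2)) (B q))
    (hmax : Maxi h0 ΩX B)
    {a b d e : ℝ} (he : e = h0 ∨ e = -h0) (hab : a < b) (hd : 0 < d) {U : ℝ → ℝ} {F : Set ℝ}
    (hF0 : ∀ u ∈ F, u ≠ 0) (hFU : ∀ u ∈ F, y1 + d ≤ U u)
    (hsl : ∀ u ∈ F, ∀ t : ℂ, a < t.re → t.re < b → y1 < t.im → t.im < U u →
      (t, (u : ℂ)) ∈ ΩX)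
    (hbd : ∀ u ∈ F, ∀ᵐ x : ℝ, x ∈ Ioo a b →
      Tendsto (fun y : ℝ => (B ((x : ℂ) + ((U u - y : ℝ) : ℂ) * I, (u : ℂ))).im) (𝓝[>] 0) (𝓝 e))
    (hsing : ∀ u ∈ F, ∀ x0 ∈ Ioo a b, ∀ ε > 0, ∃ q ∈ ball ((x0 : ℂ) + (U u : ℂ) * I, (u : ℂ)) ε,
      q ∉ ΩX ∧ (q.1 - q.2 / 2, q.2) ∈ Ωl) : ∀ᵐ u : ℝ, u ∉ F := by
  rcases he with rfl | rfl
  · exact step67 h0pos hc hψ hH hrel (fun s hs => hNB s (by rw [hs, abs_of_pos h0pos])) hX hl
      hstar hBd hB hφ hp har hinc hmax hab hd hF0 hFU hsl hbd hsing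
  · refine step67 h0pos (neg_ne_zero.2 hc) (diff_neg hψ) (diff_neg hH) (rel_neg hrel)
      (fun s hs hcon => hNB (-s) (by rw [neg_im, hs, abs_neg, abs_of_pos h0pos]) (reg_neg hcon))
      hX hl hstar (B := fun q => -B q) hBd.fun_neg (fun q hq => by simpa using hB q hq) hφ hp har
      (fun q hq1 hq2 => inc_neg (hinc q hq1 hq2)) (maxi_neg hmax) hab hd hF0 hFU hsl ?_ hsing
    intro u hu
    filter_upwards [hbd u hu] with x hx hx'
    have := (hx hx').neg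
    simpa using this

/-! ### the main sheets -/

variable {q : C(ℂ, ℂ)} {η ρ r Bc : ℝ} {b φ p : ℂ × ℂ → ℂ} {m₀ : ℂ → ℂ} {h : ℝ} {ψ H : ℂ → ℂ}

/-- the situation at the real width `u` and height `U`, on the interval `(a, b')`, for the edge
`Im = e` -/
structure SitE (b φ p : ℂ × ℂ → ℂ) (h ρ r : ℝ) (u U e a' b' : ℝ) : Prop where
  pos : 0 < U
  ax : ∀ t : ℂ, -(ρ / 2) < t.im → t.im < U → (t, (u : ℂ)) ∈ SB b h ρ r
  edge : ∀ᵐ x : ℝ, x ∈ Ioo a' b' →
    Tendsto (fun y : ℝ => (be b h ρ r ((x : ℂ) + ((U - y : ℝ) : ℂ) * I, (u : ℂ))).im)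
      (𝓝[>] 0) (𝓝 e)
  births : ∀ x0 ∈ Ioo a' b', ∀ ε > 0, ∃ t w : ℂ, ‖t - ((x0 : ℂ) + (U : ℂ) * I)‖ < ε ∧
    ‖w - u‖ < ε ∧ (t, w) ∉ OmX b (T5.Str h) (-(ρ / 2)) (ρ / 2) r ∧
    (t - w / 2, w) ∈ OmL φ p (-(ρ / 2)) (ρ / 2) r

/-- the situation at the real width `u` -/
def Sit (b φ p : ℂ × ℂ → ℂ) (h ρ r : ℝ) (u : ℝ) : Prop :=
  ∃ U e a' b' : ℝ, (e = h ∨ e = -h) ∧ a' < b' ∧ SitE b φ p h ρ r u U e a' b'

lemma SitE.mono {u U e a' b' a'' b'' : ℝ} (hs : SitE b φ p h ρ r u U e a' b') (h1 : a' ≤ a'')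
    (h2 : b'' ≤ b') : SitE b φ p h ρ r u U e a'' b'' :=
  ⟨hs.pos, hs.ax, by
    filter_upwards [hs.edge] with x hx hx'
    exact hx ⟨h1.trans_lt hx'.1, hx'.2.trans_le h2⟩,
    fun x0 hx0 => hs.births x0 ⟨h1.trans_lt hx0.1, hx0.2.trans_le h2⟩⟩

/-- **T1-B, part IV on the main sheets**: for a.e. width `u` the situation does not occur. -/
theorem noSit (D : Dat q η ρ r Bc b φ p m₀ h ψ H) (hNB : Rule982.NB h ψ H) :
    ∀ᵐ u : ℝ, u ∈ Ioo 0 r → ¬ Sit b φ p h ρ r u := by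
  have hρ := D.ρ_pos
  have h0pos : 0 < h := D.h_pos
  -- one interval with rational ends, one edge
  have hone : ∀ (a' b' e : ℝ), a' < b' → (e = h ∨ e = -h) →
      ∀ᵐ u : ℝ, u ∈ Ioo 0 r → ¬ ∃ U, SitE b φ p h ρ r u U e a' b' := by
    intro a' b' e hab he
    set F : Set ℝ := {u | u ∈ Ioo 0 r ∧ ∃ U, SitE b φ p h ρ r u U e a' b'} with hF
    classical
    set U : ℝ → ℝ := fun u => if hu : ∃ U, SitE b φ p h ρ r u U e a' b' then hu.choose else 0
      with hU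
    have hUs : ∀ u ∈ F, SitE b φ p h ρ r u (U u) e a' b' := by
      intro u hu
      have h1 : U u = hu.2.choose := by
        rw [hU]
        exact dif_pos hu.2
      rw [h1]
      exact hu.2.choose_spec
    have hmain : ∀ᵐ u : ℝ, u ∉ F := by
      refine step67' h0pos (c := -1) (by norm_num) D.ψ_diff D.H_diff D.rel ?_
        (isOpen_SB (b := b) (h := h) (ρ := ρ) (r := r)) (isOpen_SL (φ := φ) (p := p) (ρ := ρ)
        (r := r)) (y1 := -(ρ / 2)) ?_ (B := be b h ρ r) (φ := φe φ p ρ r) (p := pe φ p ρ r)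
        D.be_an.differentiableOn (fun q hq => D.be_mem hq) D.φe_an D.pe_an
        (fun q hq hq2 => D.area_ne hq hq2) ?_ ?_ (e := e) (d := ρ / 2) he hab (by linarith) (U := U)
        (F := F) (fun u hu => ne_of_gt hu.1.1) ?_ ?_ ?_ ?_
      · intro s hs hcon
        obtain ⟨r', hr', g1, g2, h1, h2, h3⟩ := hcon
        exact hNB s hs ⟨r', hr', g1, g2, h1, h2, fun z hz => (h3 z hz.1 hz.2).1,
          fun z hz => (h3 z hz.1 hz.2).2⟩
      · intro x hx τ hτ hlt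
        refine Sht_low isOpen_ball D.Fl_diff Fl_maps hx ?_ rfl ?_ (Or.inl ?_)
        · unfold dn
          simp
        · unfold dn
          simpa using hlt
        · unfold dn
          simp
          exact hτ
      · intro x hx hx'
        have e1 : sh (-1) x = (x.1 - x.2 / 2, x.2) := by
          unfold sh
          ext
          · simp only
            ring
          · rfl
        have h1 := D.inc_all (s := -1) (Or.inr rfl) hx (by rw [e1]; exact hx')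
        rwa [e1] at h1
      · have h1 := Maxi_Sh (F := b) (h0 := h) (y1 := -(ρ / 2)) (y0 := ρ / 2) (W := ball (0 : ℂ) r)
          D.h10 isOpen_ball D.b_diff D.b_maps
        have e1 : SB b h ρ r = Sh b {z : ℂ | |z.im| < h} (-(ρ / 2)) (ρ / 2) (ball 0 r) := by
          ext x
          exact ⟨fun hx => ⟨hx.2.2, hx.2.1⟩, fun hx => ⟨mem_W hx.1, hx.2, hx.1⟩⟩
        rw [e1]
        exact h1
      · intro u hu
        have := (hUs u hu).pos
        linarith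
      · intro u hu t _ _ h3 h4
        exact (hUs u hu).ax t h3 h4
      · intro u hu
        exact (hUs u hu).edge
      · intro u hu x0 hx0 ε hε
        have hUp := (hUs u hu).pos
        obtain ⟨t, w, h1, h2, h3, h4⟩ := (hUs u hu).births x0 hx0 (min ε (ρ / 4))
          (lt_min hε (by linarith))
        refine ⟨(t, w), ?_, fun hcon => h3 (SB_iff.1 hcon).1, SL_iff.2 ⟨h4, ?_⟩⟩
        · rw [mem_ball, Prod.dist_eq, max_lt_iff, dist_eq_norm, dist_eq_norm]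
          exact ⟨h1.trans_le (min_le_left _ _), h2.trans_le (min_le_left _ _)⟩
        · have e5 : ∀ z : ℂ, (z / 2).im = z.im / 2 := fun z => by
            rw [show (2 : ℂ) = ((2 : ℝ) : ℂ) by norm_num, Complex.div_ofReal_im]
          have e3 := (abs_lt.1 ((abs_im_le_norm _).trans_lt h1)).1
          have e4 := (abs_lt.1 ((abs_im_le_norm _).trans_lt h2)).2
          have m1 := min_le_right ε (ρ / 4)
          simp only [sub_im, add_im, mul_im, ofReal_im, ofReal_re, I_re, I_im, e5] at e3 e4 ⊢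
          linarith
    filter_upwards [hmain] with u hu hu0 hcon
    exact hu ⟨hu0, hcon⟩
  have hall : ∀ᵐ u : ℝ, ∀ a' b' : ℚ, (a' : ℝ) < b' → u ∈ Ioo 0 r →
      (¬ ∃ U, SitE b φ p h ρ r u U h a' b') ∧ ¬ ∃ U, SitE b φ p h ρ r u U (-h) a' b' := by
    rw [ae_all_iff]
    intro a'
    rw [ae_all_iff]
    intro b'
    by_cases hab : (a' : ℝ) < b'
    · filter_upwards [hone a' b' h hab (Or.inl rfl), hone a' b' (-h) hab (Or.inr rfl)] with u h1 h2 _
        hu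
      exact ⟨h1 hu, h2 hu⟩
    · exact Eventually.of_forall fun u h1 => absurd h1 hab
  filter_upwards [hall] with u hu hu0 hsit
  obtain ⟨U, e, a', b', he, hab, hs⟩ := hsit
  obtain ⟨a'', h1, h2⟩ := exists_rat_btwn hab
  obtain ⟨b'', h3, h4⟩ := exists_rat_btwn h2
  have hs' := hs.mono h1.le h4.le
  rcases he with rfl | rfl
  · exact (hu a'' b'' h3 hu0).1 ⟨U, hs'⟩
  · exact (hu a'' b'' h3 hu0).2 ⟨U, hs'⟩

end Crest.Agent.R102.Glue4812
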