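import Crest.Agent.R102.HBirth_150
import Crest.Agent.R102.GlueIV_812_Mg
import Crest.Agent.R102.SupDat_150

-- ▼ part R102/ExitB_150
section

/-!
Row 102, T1-B (helper150): exit from the saw coordinates: the limit of the label along the product
cones `Cn (s, u) M` in exact coordinates is the vertical limit at the REAL parameter `w = u`.
-/

set_option autoImplicit false

open Set Filter Topology Metric Complex MeasureTheory
open scoped Real

noncomputable section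

namespace Crest.Agent.R102.PartII150

open Crest.Agent.R102.S5 (Cn)
open Crest.Agent.R102.Slope845 (Expn)

/-- Lipschitz estimate for a holomorphic function with bounded imaginary part on a disc -/
theorem lip_of_im_le {f : ℂ → ℂ} {ρ h : ℝ} (hρ : 0 < ρ) (hh : 0 < h)
    (hf : DifferentiableOn ℂ f (ball 0 ρ)) (him : ∀ z ∈ ball (0 : ℂ) ρ, |(f z).im| ≤ h) {z : ℂ}
    (hz : ‖z‖ < ρ / 2) : ‖f z - f 0‖ ≤ 32 * (h / ρ) * ‖z‖ := by
  set F : ℂ → ℂ := fun z => cexp (I * (1 / h : ℝ) * f z) with hF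
  have hFd : DifferentiableOn ℂ F (ball 0 ρ) := (hf.const_mul _).cexp
  have hnorm : ∀ w ∈ ball (0 : ℂ) ρ, ‖F w‖ ≤ Real.exp 1 ∧ Real.exp (-1) ≤ ‖F w‖ := by
    intro w hw
    have h1 : ‖F w‖ = Real.exp (-((f w).im / h)) := by
      rw [hF]
      simp only
      rw [Complex.norm_exp]
      congr 1
      simp [Complex.mul_re, Complex.mul_im]
      field_simp
    have h2 := abs_le.1 (him w hw)
    have h3 : -1 ≤ (f w).im / h ∧ (f w).im / h ≤ 1 := by
      constructor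
      · rw [le_div_iff₀ hh]; linarith
      · rw [div_le_iff₀ hh]; linarith
    rw [h1]
    exact ⟨Real.exp_le_exp.2 (by linarith), Real.exp_le_exp.2 (by linarith)⟩
  have hder : ∀ w ∈ ball (0 : ℂ) (ρ / 2), ‖deriv f w‖ ≤ 32 * (h / ρ) := by
    intro w hw
    rw [mem_ball_zero_iff] at hw
    have hwρ : w ∈ ball (0 : ℂ) ρ := by rw [mem_ball_zero_iff]; linarith
    have hsub : closedBall w (ρ / 2) ⊆ closedBall 0 ρ := by
      intro x hx
      rw [mem_closedBall, dist_eq_norm] at hx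
      rw [mem_closedBall_zero_iff]
      have h5 : x = (x - w) + w := by ring
      rw [h5]
      exact (norm_add_le _ _).trans (by linarith)
    have hcb : ∀ ρ' < ρ / 2, closedBall w ρ' ⊆ ball 0 ρ := by
      intro ρ' hρ' x hx
      rw [mem_closedBall, dist_eq_norm] at hx
      rw [mem_ball_zero_iff]
      have h5 : x = (x - w) + w := by ring
      rw [h5]
      exact (norm_add_le _ _).trans_lt (by linarith)
    have hd : HasDerivAt f (deriv f w) w :=
      (hf.differentiableAt (isOpen_ball.mem_nhds hwρ)).hasDerivAt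
    have hd2 : HasDerivAt F (cexp (I * (1 / h : ℝ) * f w) * (I * (1 / h : ℝ) * deriv f w)) w :=
      (hd.const_mul _).cexp
    -- Cauchy estimate on every smaller circle
    have hC : ‖deriv F w‖ ≤ Real.exp 1 / (ρ / 4) := by
      refine Complex.norm_deriv_le_of_forall_mem_sphere_norm_le (by positivity) ?_ ?_
      · refine DifferentiableOn.diffContOnCl ?_
        rw [closure_ball _ (by positivity)]
        exact hFd.mono (hcb (ρ / 4) (by linarith))
      · intro x hx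
        exact (hnorm x (hcb (ρ / 4) (by linarith) (sphere_subset_closedBall hx))).1
    rw [hd2.deriv, norm_mul, norm_mul, norm_mul, Complex.norm_I, one_mul, Complex.norm_real,
      Real.norm_eq_abs, abs_of_pos (by positivity)] at hC
    have h6 : Real.exp (-1) * (1 / h * ‖deriv f w‖) ≤ Real.exp 1 / (ρ / 4) := by
      refine le_trans ?_ hC
      exact mul_le_mul_of_nonneg_right (hnorm w hwρ).2 (by positivity)
    have he : Real.exp 1 * Real.exp 1 ≤ 8 := by
      have := Real.exp_one_lt_d9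
      nlinarith [Real.exp_pos 1]
    have h7 : ‖deriv f w‖ ≤ (Real.exp 1 * Real.exp 1) * (4 * (h / ρ)) := by
      have h8 := mul_le_mul_of_nonneg_left h6 (show 0 ≤ Real.exp 1 * h by positivity)
      have h9 : Real.exp 1 * h * (Real.exp (-1) * (1 / h * ‖deriv f w‖)) = ‖deriv f w‖ := by
        have : Real.exp 1 * Real.exp (-1) = 1 := by rw [← Real.exp_add]; simp
        field_simp
        linear_combination (‖deriv f w‖) * this
      rw [h9] at h8
      refine h8.trans (le_of_eq ?_)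
      field_simp
    refine h7.trans ?_
    have h10 : 0 ≤ h / ρ := by positivity
    nlinarith
  have hconv : Convex ℝ (ball (0 : ℂ) (ρ / 2)) := convex_ball _ _
  have h0 : (0 : ℂ) ∈ ball (0 : ℂ) (ρ / 2) := mem_ball_self (by positivity)
  have := hconv.norm_image_sub_le_of_norm_deriv_le (𝕜 := ℂ) (f := f) (C := 32 * (h / ρ))
    (fun w hw => hf.differentiableAt (isOpen_ball.mem_nhds (by
      rw [mem_ball_zero_iff] at hw ⊢; linarith))) hder h0 (by rw [mem_ball_zero_iff]; exact hz)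
  simpa using this

set_option maxHeartbeats 1600000 in
/-- **exit lemma** -/
theorem exit_lim {B : ℂ × ℂ → ℂ} {V : ℂ → ℝ} {G : ℂ → ℂ} {h y1 R₁ u α β s : ℝ} {g0 b0 : ℂ}
    (hh : 0 < h) (hR₁ : 0 < R₁)
    (hB : ∀ w t : ℂ, ‖w - u‖ < R₁ → y1 < t.im → t.im < V w →
      DifferentiableAt ℂ B (t, w) ∧ |(B (t, w)).im| ≤ h) (hy1 : y1 < V u)
    (hE : Expn G V u α β) (hg : NTL G u α β g0) (hg0 : g0.im = V u)
    (hlim : ∀ M : ℝ, Tendsto (fun q => B (ex G q)) (𝓝[Cn (s, u) M] ((s : ℂ), (u : ℂ))) (𝓝 b0)) :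
    Tendsto (fun y : ℝ => B ((s : ℂ) + g0 - y * I, u)) (𝓝[>] 0) (𝓝 b0) := by
  obtain ⟨-, -, -, hE3⟩ := hE
  -- lower bound of `V`
  obtain ⟨δ1, hδ1, hV1⟩ := hE3 1 one_pos
  set C : ℝ := |α| + |β| + 1 with hC
  have hC1 : 1 ≤ C := by
    rw [hC]; have := abs_nonneg α; have := abs_nonneg β; linarith
  have hVlow : ∀ z : ℂ, ‖z‖ < δ1 → V u - C * ‖z‖ ≤ V (u + z) := by
    intro z hz
    have h1 := hV1 z hz
    have h2 : |α * z.re| ≤ |α| * ‖z‖ := by
      rw [abs_mul]; exact mul_le_mul_of_nonneg_left (Complex.abs_re_le_norm z) (abs_nonneg _)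
    have h3 := neg_abs_le (α * z.re)
    have h4 : -(|β| * ‖z‖) ≤ β * |z.im| := by
      have h5 := mul_le_mul_of_nonneg_right (neg_abs_le β) (abs_nonneg z.im)
      have h6 := mul_le_mul_of_nonneg_left (Complex.abs_im_le_norm z) (abs_nonneg β)
      linarith
    have h5 : C * ‖z‖ = (|α| + |β|) * ‖z‖ + 1 * ‖z‖ := by rw [hC]; ring
    linarith
  set K : ℝ := ‖((β : ℂ) + I * α)‖ + 1 with hK
  have hK1 : 1 ≤ K := by rw [hK]; linarith [norm_nonneg ((β : ℂ) + I * α)]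
  rw [Metric.tendsto_nhds]
  intro ε hε
  -- the small slope
  set κ : ℝ := min (min (1 / (8 * C)) (1 / (2 * K))) (ε / (2 * (64 * h * C + 1))) with hκ
  have hκ0 : 0 < κ := lt_min (lt_min (by positivity) (by positivity)) (by positivity)
  have hκC : κ * C ≤ 1 / 8 := by
    have h1 : κ ≤ 1 / (8 * C) := (min_le_left _ _).trans (min_le_left _ _)
    calc κ * C ≤ 1 / (8 * C) * C := mul_le_mul_of_nonneg_right h1 (by linarith)
      _ = 1 / 8 := by field_simp
  have hκK : κ * K ≤ 1 / 2 := by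
    have h1 : κ ≤ 1 / (2 * K) := (min_le_left _ _).trans (min_le_right _ _)
    calc κ * K ≤ 1 / (2 * K) * K := mul_le_mul_of_nonneg_right h1 (by linarith)
      _ = 1 / 2 := by field_simp
  have hκε : 64 * h * C * κ < ε / 2 := by
    have h1 : κ ≤ ε / (2 * (64 * h * C + 1)) := min_le_right _ _
    have h2 : 0 < 64 * h * C + 1 := by positivity
    have h3 : (64 * h * C + 1) * κ ≤ ε / 2 := by
      calc (64 * h * C + 1) * κ ≤ (64 * h * C + 1) * (ε / (2 * (64 * h * C + 1))) :=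
            mul_le_mul_of_nonneg_left h1 h2.le
        _ = ε / 2 := by field_simp
    linarith
  have hκ1 : κ ≤ 1 / 4 := by nlinarith
  obtain ⟨δ2, hδ2, hg2⟩ := hg 1 one_pos 1 one_pos
  have hM := hlim (2 / κ)
  rw [Metric.tendsto_nhdsWithin_nhds] at hM
  obtain ⟨δ3, hδ3, hM3⟩ := hM (ε / 2) (by positivity)
  have hev : ∀ᶠ y : ℝ in 𝓝[>] 0, y ∈ Ioo (0 : ℝ)
      (min (min (min δ1 R₁) (min δ2 (δ3 / 2))) (V u - y1)) :=
    Ioo_mem_nhdsGT (lt_min (lt_min (lt_min hδ1 hR₁) (lt_min hδ2 (by positivity))) (by linarith))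
  filter_upwards [hev] with y hy
  obtain ⟨hy0, hy'⟩ := hy
  have hyδ1 : y < δ1 := hy'.trans_le ((min_le_left _ _).trans ((min_le_left _ _).trans
    (min_le_left _ _)))
  have hyR : y < R₁ := hy'.trans_le ((min_le_left _ _).trans ((min_le_left _ _).trans
    (min_le_right _ _)))
  have hyδ2 : y < δ2 := hy'.trans_le ((min_le_left _ _).trans ((min_le_right _ _).trans
    (min_le_left _ _)))
  have hyδ3 : y < δ3 / 2 := hy'.trans_le ((min_le_left _ _).trans ((min_le_right _ _).trans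
    (min_le_right _ _)))
  have hyV : y < V u - y1 := hy'.trans_le (min_le_right _ _)
  set t₀ : ℂ := (s : ℂ) + g0 - y * I with ht₀
  have ht₀i : t₀.im = V u - y := by rw [ht₀]; simp [hg0]
  -- the slice
  set ρ : ℝ := y / (2 * C) with hρ
  have hρ0 : 0 < ρ := by positivity
  have hρC : C * ρ = y / 2 := by rw [hρ]; field_simp
  have hρy : ρ ≤ y / 2 := by nlinarith
  have hslice : ∀ z : ℂ, ‖z‖ < ρ → DifferentiableAt ℂ B (t₀, (u : ℂ) + z) ∧
      |(B (t₀, (u : ℂ) + z)).im| ≤ h := by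
    intro z hz
    refine hB _ _ ?_ ?_ ?_
    · rw [add_sub_cancel_left]; linarith
    · rw [ht₀i]; linarith
    · rw [ht₀i]
      have h1 := hVlow z (by linarith)
      have h2 : C * ‖z‖ < C * ρ := mul_lt_mul_of_pos_left hz (by linarith)
      linarith
  have hn : ‖((κ * y : ℝ) : ℂ) * I‖ = κ * y := by
    rw [norm_mul, Complex.norm_I, mul_one, Complex.norm_real, Real.norm_eq_abs,
      abs_of_pos (by positivity)]
  set z : ℂ := ((κ * y : ℝ) : ℂ) * I with hz
  have hzim : z.im = κ * y := by rw [hz]; simp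
  have hκy : κ * y < ρ / 2 := by
    rw [hρ, div_div, lt_div_iff₀ (by positivity)]
    nlinarith
  -- the Lipschitz step
  have hlip : ‖B (t₀, (u : ℂ) + z) - B (t₀, (u : ℂ) + 0)‖ ≤ 32 * (h / ρ) * ‖z‖ := by
    refine lip_of_im_le (f := fun z => B (t₀, (u : ℂ) + z)) hρ0 hh ?_ ?_ (by rw [hn]; exact hκy)
    · intro x hx
      rw [mem_ball_zero_iff] at hx
      have h1 : DifferentiableAt ℂ (fun z : ℂ => ((t₀, (u : ℂ) + z) : ℂ × ℂ)) x := by fun_prop
      exact (DifferentiableAt.comp (g := B) (f := fun z : ℂ => ((t₀, (u : ℂ) + z) : ℂ × ℂ)) x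
        (hslice x hx).1 h1).differentiableWithinAt
    · intro x hx
      rw [mem_ball_zero_iff] at hx
      exact (hslice x hx).2
  have hlip' : ‖B (t₀, (u : ℂ) + z) - B (t₀, (u : ℂ))‖ < ε / 2 := by
    rw [add_zero, hn] at hlip
    have h1 : 32 * (h / ρ) * (κ * y) = 64 * h * C * κ := by
      rw [hρ]; field_simp; ring
    rw [h1] at hlip
    exact hlip.trans_lt hκε
  -- the point in the product cone
  set q : ℂ × ℂ := (t₀ - G ((u : ℂ) + z), (u : ℂ) + z) with hq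
  have hexq : ex G q = (t₀, (u : ℂ) + z) := by
    unfold ex; rw [hq]; simp
  have hG1 : ‖G ((u : ℂ) + z) - g0‖ ≤ K * (κ * y) := by
    have h1 := hg2 z (by rw [hzim]; positivity) (by
      rw [hn]
      have h4 : κ * y ≤ 1 / 4 * y := mul_le_mul_of_nonneg_right hκ1 hy0.le
      linarith) (by rw [hn, hzim, one_mul])
    have h2 : G ((u : ℂ) + z) - g0 = (G (u + z) - g0 - ((β : ℂ) + I * α) * z) +
        ((β : ℂ) + I * α) * z := by ring
    rw [h2]
    refine (norm_add_le _ _).trans ?_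
    rw [norm_mul ((β : ℂ) + I * α), hn]
    rw [hn] at h1
    have h3 : K * (κ * y) = ‖((β : ℂ) + I * α)‖ * (κ * y) + 1 * (κ * y) := by rw [hK]; ring
    linarith
  have hKκ : K * (κ * y) ≤ y / 2 := by
    have h4 : (κ * K) * y ≤ 1 / 2 * y := mul_le_mul_of_nonneg_right hκK hy0.le
    linarith
  have hq1 : ‖q.1 - ((s : ℂ) - y * I)‖ ≤ y / 2 := by
    have h1 : q.1 - ((s : ℂ) - y * I) = -(G ((u : ℂ) + z) - g0) := by rw [hq, ht₀]; ring
    rw [h1, norm_neg]
    linarith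
  have hre : |q.1.re - s| ≤ y / 2 := by
    have h1 := (Complex.abs_re_le_norm _).trans hq1
    have h2 : (q.1 - ((s : ℂ) - y * I)).re = q.1.re - s := by simp
    rwa [h2] at h1
  have him : |q.1.im + y| ≤ y / 2 := by
    have h1 := (Complex.abs_im_le_norm _).trans hq1
    have h2 : (q.1 - ((s : ℂ) - y * I)).im = q.1.im + y := by simp
    rwa [h2] at h1
  have him' := abs_le.1 him
  have hq2 : ‖q.2 - (u : ℂ)‖ = κ * y := by
    have h1 : q.2 - (u : ℂ) = z := by rw [hq]; ring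
    rw [h1, hn]
  have hq2i : q.2.im = κ * y := by rw [hq]; simp [hzim]
  have h2κ : 2 / κ * (κ * y) = 2 * y := by field_simp
  have h8κ : (8 : ℝ) ≤ 2 / κ := by
    rw [le_div_iff₀ hκ0]; linarith
  have hCn : q ∈ Cn (s, u) (2 / κ) := by
    refine ⟨by linarith, ?_, ?_⟩
    · rw [hq2i, h2κ]; linarith
    · show |q.1.re - s| + ‖q.2 - (u : ℂ)‖ ≤ 2 / κ * (-q.1.im)
      rw [hq2]
      have h1 : 8 * (y / 2) ≤ 2 / κ * (-q.1.im) :=
        mul_le_mul h8κ (by linarith) (by positivity) (by positivity)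
      have h4 : κ * y ≤ 1 / 4 * y := mul_le_mul_of_nonneg_right hκ1 hy0.le
      linarith
  have hdist : dist q ((s : ℂ), (u : ℂ)) < δ3 := by
    rw [Prod.dist_eq, max_lt_iff, dist_eq_norm, dist_eq_norm]
    constructor
    · have h1 : q.1 - (s : ℂ) = (q.1 - ((s : ℂ) - y * I)) + (-(y : ℂ) * I) := by ring
      rw [h1]
      refine (norm_add_le _ _).trans_lt ?_
      have h2 : ‖-(y : ℂ) * I‖ = y := by
        rw [norm_mul, norm_neg, Complex.norm_I, mul_one, Complex.norm_real, Real.norm_eq_abs,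
          abs_of_pos hy0]
      rw [h2]; linarith
    · rw [hq2]
      have h4 : κ * y ≤ 1 / 4 * y := mul_le_mul_of_nonneg_right hκ1 hy0.le
      linarith
  have hfin := hM3 hCn hdist
  rw [hexq, dist_eq_norm] at hfin
  rw [dist_eq_norm]
  calc ‖B (t₀, (u : ℂ)) - b0‖ = ‖-(B (t₀, (u : ℂ) + z) - B (t₀, (u : ℂ))) +
        (B (t₀, (u : ℂ) + z) - b0)‖ := by ring_nf
    _ ≤ ‖-(B (t₀, (u : ℂ) + z) - B (t₀, (u : ℂ)))‖ + ‖B (t₀, (u : ℂ) + z) - b0‖ := norm_add_le _ _
    _ < ε := by rw [norm_neg]; linarith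

end Crest.Agent.R102.PartII150
end
end

-- ▼ part R102/ExitC_150

/-!
Row 102, T1-B (helper150): exit from the saw coordinates on the official sheets.

* `edge_pt` : the limit along the product cones is the vertical limit at real width;
* `sitE_of` : GoodU + NTL + a.e. edge limits on a subarc give `Glue4812.SitE`;
* `arc_ae`  : **Parts II + III on the official sheets**: for a.e. `u` with `Nn u` there is an arc on
  which a.e. vertical limit of the label exists and lies on `|Im| = h`, with births everywhere.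
-/

set_option autoImplicit false

open Set Filter Topology Metric Complex MeasureTheory
open scoped Real

noncomputable section

namespace Crest.Agent.R102.PartII150

open Crest.Agent.R102.S5 (Cn)
open Crest.Agent.R102.Slope845 (Expn)
open Crest.Agent.R102.Out559 (OmL OmX Nn)
open Crest.Agent.R102.Sup115 (HDu Dp GoodU Sup)
open Crest.Agent.R102.Sh982 (Dat SL SB φe pe be sh)
open Crest.Agent.R102.GlueII559 (OL OX VV)
open Crest.Agent.R102.Glue4812 (SitE Sit)

variable {q : C(ℂ, ℂ)} {η ρ r Bc : ℝ} {b φ p : ℂ × ℂ → ℂ} {m₀ : ℂ → ℂ} {h : ℝ} {ψ H : ℂ → ℂ}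

section

variable (D : Dat q η ρ r Bc b φ p m₀ h ψ H)
include D

/-- the joint domain below `VV` -/
theorem below_VV {w t : ℂ} (hw : w ∈ ball (0 : ℂ) r) (h1 : -(ρ / 2) < t.im)
    (ht : t.im < VV b φ p h ρ r w) : (t, w) ∈ SB b h ρ r :=
  Sh982.SB_iff.2 ⟨(GlueII559.mem_of_lt_VV D hw ht).2, h1⟩

theorem edge_pt {G : ℂ → ℂ} {u u0 R α β s : ℝ} {g0 b0 : ℂ}
    (hball : ball (u0 : ℂ) R ⊆ ball 0 r) (hu : u ∈ Ioo (u0 - R) (u0 + R))
    (hE : Expn G (VV b φ p h ρ r) u α β) (hg : NTL G u α β g0) (hg0 : g0.im = VV b φ p h ρ r u)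
    (hlim : ∀ M : ℝ, Tendsto (Bx b h ρ r G) (𝓝[Cn (s, u) M] ((s : ℂ), (u : ℂ))) (𝓝 b0)) :
    Tendsto (fun y : ℝ => be b h ρ r (((s + g0.re : ℝ) : ℂ) +
      ((VV b φ p h ρ r u - y : ℝ) : ℂ) * I, (u : ℂ))) (𝓝[>] 0) (𝓝 b0) := by
  have hρ := D.ρ_pos
  have hu1 : |u - u0| < R := by rw [abs_lt]; constructor <;> linarith [hu.1, hu.2]
  have hsub : ∀ w : ℂ, ‖w - u‖ < R - |u - u0| → w ∈ ball (0 : ℂ) r := by
    intro w hw
    apply hball
    rw [mem_ball, dist_eq_norm]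
    have h2 : w - u0 = (w - u) + ((u - u0 : ℝ) : ℂ) := by push_cast; ring
    rw [h2]
    refine (norm_add_le _ _).trans_lt ?_
    rw [Complex.norm_real, Real.norm_eq_abs]
    linarith
  have hur : (u : ℂ) ∈ ball (0 : ℂ) r := hsub u (by simpa using hu1)
  have h1 := exit_lim (B := be b h ρ r) (V := VV b φ p h ρ r) (h := h) (y1 := -(ρ / 2))
    (R₁ := R - |u - u0|) (s := s) (b0 := b0) D.h_pos (by linarith)
    (fun w t hw h1 h2 => by
      have h3 := below_VV D (hsub w hw) h1 h2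
      exact ⟨(D.be_an _ h3).differentiableAt, le_of_lt (D.be_mem h3)⟩)
    (by
      have := GlueII559.le_VV D hur
      linarith) hE hg hg0 hlim
  refine h1.congr (fun y => ?_)
  have h2 : (s : ℂ) + g0 - y * I = ((s + g0.re : ℝ) : ℂ) + ((VV b φ p h ρ r u - y : ℝ) : ℂ) * I := by
    apply Complex.ext
    · simp
    · simp [hg0]
  rw [h2]

/-- **GoodU + edge limits on a subarc give the situation of part IV** -/
theorem sitE_of {G : ℂ → ℂ} {u u0 R d α β s₀ a₀ c : ℝ} {g0 : ℂ} (hd : 0 < d)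
    (hball : ball (u0 : ℂ) R ⊆ ball 0 r) (hu : u ∈ Ioo (u0 - R) (u0 + R))
    (hGV : ∀ w ∈ HDu u0 R, (G w).im ≤ VV b φ p h ρ r w) (hg : NTL G u α β g0)
    (hg0 : g0.im = VV b φ p h ρ r u)
    (hGU : GoodU (Xe u0 R d G (OX b h ρ r)) (Le u0 R d G (OL φ p ρ r)) u s₀ a₀ c) :
    ∃ δ > 0, ∀ e a' b' : ℝ, (∀ x ∈ Ioo a' b', |x - (s₀ + g0.re)| < δ) →
      (∀ᵐ x : ℝ, x ∈ Ioo a' b' →
        Tendsto (fun y : ℝ => (be b h ρ r ((x : ℂ) + ((VV b φ p h ρ r u - y : ℝ) : ℂ) * I,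
          (u : ℂ))).im) (𝓝[>] 0) (𝓝 e)) →
      SitE b φ p h ρ r u (VV b φ p h ρ r u) e a' b' := by
  have hρ := D.ρ_pos
  have hu1 : |u - u0| < R := by rw [abs_lt]; constructor <;> linarith [hu.1, hu.2]
  have hur : (u : ℂ) ∈ ball (0 : ℂ) r := by
    apply hball
    rw [mem_ball, dist_eq_norm, ← Complex.ofReal_sub, Complex.norm_real, Real.norm_eq_abs]
    exact hu1
  obtain ⟨δ, hδ, Hb⟩ := hbirth hd hu hg (X := OX b h ρ r) (L := OL φ p ρ r)
    (fun w hw t ht => (GlueII559.mem_of_lt_VV D (hball hw.1) (ht.trans_le (hGV w hw))).2) hGU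
  refine ⟨δ, hδ, fun e a' b' harc hedge => ⟨?_, ?_, hedge, ?_⟩⟩
  · have := GlueII559.le_VV D hur
    linarith
  · intro t h1 h2
    exact below_VV D hur h1 h2
  · intro x0 hx0 ε hε
    have h1 : |(x0 - g0.re) - s₀| < δ := by
      have := harc x0 hx0
      have h2 : x0 - g0.re - s₀ = x0 - (s₀ + g0.re) := by ring
      rwa [h2]
    obtain ⟨t, w, h2, h3, h4, h5⟩ := Hb (x0 - g0.re) h1 ε hε
    refine ⟨t, w, ?_, h3, h4, h5⟩
    have h6 : ((x0 - g0.re : ℝ) : ℂ) + g0 = (x0 : ℂ) + (VV b φ p h ρ r u : ℂ) * I := by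
      apply Complex.ext
      · simp
      · simp [hg0]
    rwa [h6] at h2

/-- everything Parts II and III give at a good real `u` (on the half disc `HDu u0 R`, with the exact
shift `G`, exact coordinates `ex G`, `ln G`) -/
structure UData (b φ p : ℂ × ℂ → ℂ) (h ρ r : ℝ) (u : ℝ) (u0 R : ℝ) (G : ℂ → ℂ)
    (α β s₀ a₀ c δ : ℝ) (g0 : ℂ) : Prop where
  R_pos : 0 < R
  ball_sub : ball (u0 : ℂ) R ⊆ ball 0 r
  mem : u ∈ Ioo (u0 - R) (u0 + R)
  G_diff : DifferentiableOn ℂ G (HDu u0 R)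
  G_nonneg : ∀ w ∈ HDu u0 R, 0 ≤ (G w).im
  G_le : ∀ w ∈ HDu u0 R, (G w).im ≤ VV b φ p h ρ r w
  expn : Expn G (VV b φ p h ρ r) u α β
  g0_im : g0.im = VV b φ p h ρ r u
  ntl : NTL G u α β g0
  nn : Nn b φ p (T5.Str h) (-(ρ / 2)) (ρ / 2) r h u
  goodU : GoodU (Xe u0 R (ρ / 4) G (OX b h ρ r)) (Le u0 R (ρ / 4) G (OL φ p ρ r)) u s₀ a₀ c
  δ_pos : 0 < δ
  cone : ∀ᵐ s : ℝ, |s - s₀| < δ → ∃ b0 : ℂ, |b0.im| = h ∧
    ∀ M : ℝ, Tendsto (Bx b h ρ r G) (𝓝[Cn (s, u) M] ((s : ℂ), (u : ℂ))) (𝓝 b0)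
  edge : ∀ᵐ s : ℝ, |s - s₀| < δ → ∃ b0 : ℂ, |b0.im| = h ∧
    Tendsto (fun y : ℝ => be b h ρ r (((s + g0.re : ℝ) : ℂ) +
      ((VV b φ p h ρ r u - y : ℝ) : ℂ) * I, (u : ℂ))) (𝓝[>] 0) (𝓝 b0)
  sitE : ∀ e a' b' : ℝ, (∀ x ∈ Ioo a' b', |x - (s₀ + g0.re)| < δ) →
    (∀ᵐ x : ℝ, x ∈ Ioo a' b' →
      Tendsto (fun y : ℝ => (be b h ρ r ((x : ℂ) + ((VV b φ p h ρ r u - y : ℝ) : ℂ) * I,
        (u : ℂ))).im) (𝓝[>] 0) (𝓝 e)) →
    SitE b φ p h ρ r u (VV b φ p h ρ r u) e a' b'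





end

end Crest.Agent.R102.PartII150
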