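import Mathlib
import Crest.Agent.R102.SheetD_982
import Crest.Agent.R102.APJ_628
import Crest.Agent.R102.AP3B_599
import Crest.Agent.R102.LinkB_350
import Crest.Agent.R102.Mir_151

-- ▼ part R102/SheetE_628
section

/-!
Row 102, part (C), T1-E: **the main sheets in Case E** (helper628, after helper982).

The sheet of lines `SL` is helper982's; the sheet of labels is `SBE` (labels with values in `ℂ`).
A label regular along a vertical segment is bounded there, so `SBE` is the union of helper982's `SB`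
over all heights, and all his relations transfer.
-/

set_option autoImplicit false

open Set Filter Topology Metric
open scoped ComplexConjugate

noncomputable section

namespace Crest.Agent.R102.ShE628

open Crest.Agent.R102.T5 Crest.Agent.R102.G576 Crest.Agent.R102.A929 Crest.Agent.R102.B821
open Crest.Agent.R102.C0 Crest.Agent.R102.C1 Crest.Agent.R102.F300 Crest.Agent.R102.Rule982
open Crest.Agent.R102.VH982 (pt pt_eta pt_snd pt_re pt_im tube_mem eq_along continuous_pt_y)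
open Crest.Agent.R102.K669 (Slab Tube IsReg isReg_of_slab isOpen_isReg ext_eq LV lv_isReg
  ext_differentiableAt ext_mem ext_slab isReg_of_local isOpen_slab mem_tube_self isReg_of_tube
  tube_subset)
open Crest.Agent.R102.Sh982 Crest.Agent.R102.APJ628 Crest.Agent.R102.StepT628

variable {q : C(ℂ, ℂ)} {η ρ r Bc : ℝ} {b φ p : ℂ × ℂ → ℂ} {m₀ : ℂ → ℂ} {h : ℝ} {θ H : ℂ → ℂ}

/-- main sheet of the labels in Case E -/
def SBE (b : ℂ × ℂ → ℂ) (ρ r : ℝ) : Set (ℂ × ℂ) :=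
  Sht b univ (-(ρ / 2)) (ρ / 2) (ball 0 r)

/-- the extended label -/
def beE (b : ℂ × ℂ → ℂ) (ρ r : ℝ) : ℂ × ℂ → ℂ :=
  K669.ext b univ (-(ρ / 2)) (ρ / 2) (ball 0 r)

/-- Case E: helper982's data at every height -/
lemma datE (hD : Spine.DataE q η ρ r Bc b φ p m₀ θ H) (hh : η ≤ h) :
    Dat q η ρ r Bc b φ p m₀ h θ H :=
  ⟨hD.fam, hh, hD.ext.θ_diff.mono (subset_univ _), hD.ext.H_diff.mono (subset_univ _),
    hD.ext.θ_eq, hD.ext.H_eq⟩

lemma isOpen_SBE : IsOpen (SBE b ρ r) := isOpen_Sht isOpen_ball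

lemma SB_sub : SB b h ρ r ⊆ SBE b ρ r := by
  rintro x ⟨h1, h2, ε, hε, hW, G, hG, -, hGF⟩
  exact ⟨h1, h2, ε, hε, hW, G, hG, fun _ _ => mem_univ _, hGF⟩

section Sheet

variable (hD : Spine.DataE q η ρ r Bc b φ p m₀ θ H)
include hD

lemma ρp : 0 < ρ := hD.fam.ρ_pos

lemma h10E : -(ρ / 2) < ρ / 2 := by
  have := ρp hD
  linarith

lemma be_eq {x : ℂ × ℂ} (hx : x ∈ SB b h ρ r) : be b h ρ r x = beE b ρ r x := by
  obtain ⟨h1, h2, ε, hε, hW, G, hG, hGC, hGF⟩ := hx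
  unfold be beE
  rw [ext_eq (h10E hD) hW hG hGC hGF (mem_tube_self h2 hε),
    ext_eq (h10E hD) hW hG (fun _ _ => mem_univ _) hGF (mem_tube_self h2 hε)]


lemma bE_diff : DifferentiableOn ℂ b (Slab (-(ρ / 2)) (ρ / 2) (ball 0 r)) :=
  (datE hD le_rfl).b_diff

omit hD in
lemma b_mapsE : ∀ x ∈ Slab (-(ρ / 2)) (ρ / 2) (ball (0 : ℂ) r), b x ∈ (univ : Set ℂ) :=
  fun _ _ => mem_univ _

/-- **a regular label is bounded**: `SBE` is the union of the `SB` -/
theorem SBE_fin {x : ℂ × ℂ} (hx : x ∈ SBE b ρ r) :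
    ∃ h0 : ℝ, η ≤ h0 ∧ ∀ h ≥ h0, x ∈ SB b h ρ r := by
  have hρ := ρp hD
  obtain ⟨h1, h2, ε, hε, hW, G, hG, -, hGF⟩ := hx
  set K : Set (ℂ × ℂ) := {z | |z.1.re - x.1.re| ≤ ε / 2 ∧ 0 ≤ z.1.im ∧
    z.1.im ≤ x.1.im + ε / 2 ∧ ‖z.2 - x.2‖ ≤ ε / 2} with hK
  have c1 : Continuous fun z : ℂ × ℂ => |z.1.re - x.1.re| := by fun_prop
  have c2 : Continuous fun z : ℂ × ℂ => z.1.im := by fun_prop
  have c3 : Continuous fun z : ℂ × ℂ => ‖z.2 - x.2‖ := by fun_prop
  have hKc : IsClosed K := (isClosed_le c1 continuous_const).inter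
    ((isClosed_le continuous_const c2).inter
      ((isClosed_le c2 continuous_const).inter (isClosed_le c3 continuous_const)))
  have hKb : Bornology.IsBounded K := by
    refine (Metric.isBounded_closedBall (x := (0 : ℂ × ℂ))
      (r := |x.1.re| + |x.1.im| + ‖x.2‖ + ε)).subset ?_
    rintro z ⟨a1, a2, a3, a4⟩
    rw [mem_closedBall_zero_iff, Prod.norm_def, max_le_iff]
    constructor
    · have b1 : |z.1.re| ≤ |x.1.re| + ε / 2 := by
        have := abs_sub_abs_le_abs_sub z.1.re x.1.re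
        linarith
      have b2 : |z.1.im| ≤ |x.1.im| + ε / 2 := by
        rw [abs_of_nonneg a2]
        have := le_abs_self x.1.im
        linarith
      have b3 := Complex.norm_le_abs_re_add_abs_im z.1
      have := norm_nonneg x.2
      linarith
    · have b1 := norm_sub_norm_le z.2 x.2
      have b2 := abs_nonneg x.1.re
      have b3 := abs_nonneg x.1.im
      linarith
  have hKcomp : IsCompact K := Metric.isCompact_of_isClosed_isBounded hKc hKb
  have hKT : K ⊆ Tube (-(ρ / 2)) x ε := by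
    rintro z ⟨a1, a2, a3, a4⟩
    exact ⟨by linarith, by linarith, by linarith, by linarith⟩
  obtain ⟨M, hM⟩ := hKcomp.exists_bound_of_continuousOn (hG.continuousOn.mono hKT)
  refine ⟨max (M + 1) η, le_max_right _ _, fun h hh => ?_⟩
  have hM1 : M + 1 ≤ h := (le_max_left _ _).trans hh
  have hηh : η ≤ h := (le_max_right _ _).trans hh
  have D := datE hD hηh
  have hsub : Tube (-(ρ / 2)) x (ε / 2) ⊆ Tube (-(ρ / 2)) x ε := by
    rintro z ⟨a1, a2, a3, a4⟩
    exact ⟨by linarith, a2, by linarith, by linarith⟩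
  refine ⟨h1, h2, ε / 2, by positivity, (ball_subset_ball (by linarith)).trans hW, G,
    hG.mono hsub, ?_, fun z hz => hGF z (hsub hz)⟩
  intro z hz
  rcases lt_or_ge z.1.im 0 with h3 | h3
  · rw [hGF z (hsub hz) (by linarith)]
    refine D.b_maps z ⟨hz.2.1, by linarith, hW ?_⟩
    rw [mem_ball, dist_eq_norm]
    linarith [hz.2.2.2]
  · have h4 := hM z ⟨hz.1.le, h3, hz.2.2.1.le, hz.2.2.2.le⟩
    change |(G z).im| < h
    linarith [Complex.abs_im_le_norm (G z)]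

lemma beE_an : AnalyticOnNhd ℂ (beE b ρ r) (SBE b ρ r) := ext_an (h10E hD) isOpen_ball

lemma φe_anE : AnalyticOnNhd ℂ (φe φ p ρ r) (SL φ p ρ r) := (datE hD le_rfl).φe_an

lemma pe_anE : AnalyticOnNhd ℂ (pe φ p ρ r) (SL φ p ρ r) := (datE hD le_rfl).pe_an

lemma slab_SBE : Slab (-(ρ / 2)) (ρ / 2) (ball 0 r) ⊆ SBE b ρ r :=
  slab_sub isOpen_ball (bE_diff hD) b_mapsE

lemma beE_slab {x : ℂ × ℂ} (hx : x ∈ Slab (-(ρ / 2)) (ρ / 2) (ball (0 : ℂ) r)) :
    beE b ρ r x = b x := ext_slab' (h10E hD) isOpen_ball (bE_diff hD) b_mapsE hx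

/-- vertical segments in the sheet of labels -/
lemma seg_SBE {x : ℂ × ℂ} (hx : x ∈ SBE b ρ r) :
    ∀ y ∈ uIcc 0 x.1.im, pt x.1.re y x.2 ∈ SBE b ρ r := by
  obtain ⟨h0, -, h2⟩ := SBE_fin hD hx
  intro y hy
  exact SB_sub ((datE hD (le_max_right h0 η)).seg_SB (h2 _ (le_max_left _ _)) y hy)


/-- **incidence** -/
theorem inc_allE {s : ℂ} (hs : s = 1 ∨ s = -1) {x : ℂ × ℂ} (hx : x ∈ SBE b ρ r)
    (hx' : sh s x ∈ SL φ p ρ r) :
    Inc θ H (φe φ p ρ r (sh s x)) (pe φ p ρ r (sh s x)) (beE b ρ r x) := by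
  obtain ⟨h0, h1, h2⟩ := SBE_fin hD hx
  rw [← be_eq hD (h2 h0 le_rfl)]
  exact (datE hD h1).inc_all hs (h2 h0 le_rfl) hx'

/-- **reflection** -/
theorem refl_allE {s : ℂ} (hs : s = 1 ∨ s = -1) {x : ℂ × ℂ} (hx : x ∈ SBE b ρ r)
    (hx' : sh s x ∈ SL φ p ρ r) (hx'' : sh (-s) x ∈ SL φ p ρ r) :
    φe φ p ρ r (sh (-s) x) + φe φ p ρ r (sh s x) = 2 * θ (beE b ρ r x) := by
  obtain ⟨h0, h1, h2⟩ := SBE_fin hD hx
  rw [← be_eq hD (h2 h0 le_rfl)]
  exact (datE hD h1).refl_all hs (h2 h0 le_rfl) hx' hx''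

theorem sum_allE {s : ℂ} (hs : s = 1 ∨ s = -1) {x : ℂ × ℂ} (hx : x ∈ SBE b ρ r)
    (hx' : sh s x ∈ SL φ p ρ r) (hx'' : sh (-s) x ∈ SL φ p ρ r) :
    pe φ p ρ r (sh (-s) x) + pe φ p ρ r (sh s x) = 2 * H (beE b ρ r x) *
      Complex.cos (φe φ p ρ r (sh (-s) x) - θ (beE b ρ r x)) := by
  obtain ⟨h0, h1, h2⟩ := SBE_fin hD hx
  rw [← be_eq hD (h2 h0 le_rfl)]
  exact (datE hD h1).sum_all hs (h2 h0 le_rfl) hx' hx''

/-- the area form does not vanish for `w ≠ 0` -/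
theorem area_neE {x : ℂ × ℂ} (hx : x ∈ SL φ p ρ r) (hw : x.2 ≠ 0) :
    q1 (φe φ p ρ r) x * q2 (pe φ p ρ r) x - q2 (φe φ p ρ r) x * q1 (pe φ p ρ r) x ≠ 0 :=
  (datE hD le_rfl).area_ne hx hw

/-- the label is not constant on any slice -/
theorem beE_nc {x : ℂ × ℂ} (hx : x ∈ SBE b ρ r) :
    ∃ᶠ t in 𝓝 x.1, deriv (fun t => beE b ρ r (t, x.2)) t ≠ 0 := by
  obtain ⟨h0, h1, h2⟩ := SBE_fin hD hx
  have hx0 := h2 h0 le_rfl
  have h3 := (datE hD h1).be_nc hx0
  have hc : Continuous fun t : ℂ => ((t, x.2) : ℂ × ℂ) := by fun_prop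
  have h4 : ∀ᶠ t in 𝓝 x.1, ((t, x.2) : ℂ × ℂ) ∈ SB b h0 ρ r :=
    (hc.tendsto x.1).eventually (isOpen_SB.mem_nhds hx0)
  refine (h3.and_eventually h4.eventually_nhds).mono ?_
  rintro t ⟨ht1, ht2⟩
  have h5 : (fun t => be b h0 ρ r (t, x.2)) =ᶠ[𝓝 t] fun t => beE b ρ r (t, x.2) := by
    filter_upwards [ht2] with z hz
    exact be_eq hD hz
  rwa [h5.deriv_eq] at ht1


/-- periodicity and parity of the labels -/
theorem per_SBE {σ : ℝ} (hσ : σ = 1 ∨ σ = -1) {κ : ℂ} (hκ : κ = 1 ∨ κ = -1) {x : ℂ × ℂ}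
    (hx : x ∈ SBE b ρ r) : ((x.1 + σ, κ * x.2) : ℂ × ℂ) ∈ SBE b ρ r ∧
      beE b ρ r (x.1 + σ, κ * x.2) = beE b ρ r x + σ := by
  obtain ⟨h0, h3, h2⟩ := SBE_fin hD hx
  obtain ⟨h4, h5⟩ := (datE hD h3).per_SB hσ hκ (h2 h0 le_rfl)
  rw [← be_eq hD (h2 h0 le_rfl), ← be_eq hD h4]
  exact ⟨SB_sub h4, h5⟩

/-- parity of the labels -/
theorem evenE {t w : ℂ} (hx : (t, w) ∈ SBE b ρ r) : (t, -w) ∈ SBE b ρ r ∧
    beE b ρ r (t, -w) = beE b ρ r (t, w) := by
  obtain ⟨h1, h2⟩ := per_SBE hD (σ := 1) (Or.inl rfl) (κ := -1) (Or.inr rfl) hx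
  obtain ⟨h3, h4⟩ := per_SBE hD (σ := -1) (Or.inr rfl) (κ := 1) (Or.inl rfl) h1
  have e1 : ((t + (1 : ℝ) + (-1 : ℝ), 1 * (-1 * w)) : ℂ × ℂ) = (t, -w) := by
    refine Prod.ext ?_ ?_
    · push_cast; ring
    · simp
  simp only at h3 h4 h2
  rw [e1] at h3 h4
  refine ⟨h3, ?_⟩
  rw [h4, h2]
  push_cast
  ring

/-- the label at `w = 0` -/
theorem beE_zero {t : ℂ} (hx : (t, (0 : ℂ)) ∈ SBE b ρ r) : beE b ρ r (t, 0) = t := by
  have hρ := ρp hD
  have hr : 0 < r := hD.fam.r_pos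
  have D := datE hD le_rfl
  have hc : Continuous fun z : ℂ × ℂ => ((z.1, 0) : ℂ × ℂ) := by fun_prop
  have h1 := D.perm (x := (t, (0 : ℂ))) (by simpa using hr)
    (Ω := (fun z : ℂ × ℂ => ((z.1, 0) : ℂ × ℂ)) ⁻¹' SBE b ρ r) (isOpen_SBE.preimage hc)
    (f := fun z => beE b ρ r (z.1, 0)) (g := fun z => z.1) ?_ (fun z _ => analyticAt_fst) ?_ ?_
  · exact h1.self_of_nhds
  · intro z hz
    have h2 : AnalyticAt ℂ (fun z : ℂ × ℂ => ((z.1, 0) : ℂ × ℂ)) z :=
      analyticAt_fst.prod analyticAt_const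
    exact AnalyticAt.comp (g := beE b ρ r) (f := fun z : ℂ × ℂ => ((z.1, 0) : ℂ × ℂ))
      (beE_an hD _ hz) h2
  · intro y hy
    have := seg_SBE hD hx y hy
    have e1 : ((fun z : ℂ × ℂ => ((z.1, 0) : ℂ × ℂ)) (pt (t, (0 : ℂ)).1.re y (t, (0 : ℂ)).2)) =
        pt (t, (0 : ℂ)).1.re y (t, (0 : ℂ)).2 := rfl
    change (fun z : ℂ × ℂ => ((z.1, 0) : ℂ × ℂ)) (pt (t, (0 : ℂ)).1.re y (t, (0 : ℂ)).2) ∈ SBE b ρ r
    rw [e1]
    exact this
  · intro z _ hz2
    have hs : ((z.1, 0) : ℂ × ℂ) ∈ Slab (-(ρ / 2)) (ρ / 2) (ball (0 : ℂ) r) := by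
      obtain ⟨h3, h4⟩ := abs_lt.1 hz2
      exact ⟨by simp only; linarith, by simp only; linarith, by simpa using hr⟩
    rw [beE_slab hD hs]
    have h5 := hD.fam.b_near _ (slab_PD hρ hs)
    simp only [norm_zero, ne_eq, OfNat.ofNat_ne_zero, not_false_eq_true, zero_pow,
      mul_zero] at h5
    exact sub_eq_zero.1 (norm_le_zero_iff.1 h5)

end Sheet

end Crest.Agent.R102.ShE628
end
end

-- ▼ part R102/BoxM_628

/-!
Row 102, part (C), T1-E, **(AP) for the main sheet** (helper628).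

* `law` : the law of the step near the real axis, from the family of lines;
* `ap3` : the third coefficient of the step, on the strip `|Im t| < ρ`;
* `boxM` : a box of the sheet of lines is a `Box` (labels `beE`);
* `AP` : the a priori bounds.
-/

set_option autoImplicit false

open Set Filter Topology Metric
open scoped ComplexConjugate

noncomputable section

namespace Crest.Agent.R102.ShE628

open Crest.Agent.R102.T5 Crest.Agent.R102.G576 Crest.Agent.R102.A929 Crest.Agent.R102.B821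
open Crest.Agent.R102.C0 Crest.Agent.R102.C1 Crest.Agent.R102.Rule982
open Crest.Agent.R102.VH982 (pt pt_eta pt_snd pt_re pt_im tube_mem eq_along continuous_pt_y)
open Crest.Agent.R102.K669 (Slab Tube IsReg)
open Crest.Agent.R102.Sh982 Crest.Agent.R102.APJ628 Crest.Agent.R102.StepT628
open Crest.Agent.R102.StepE599 (Ent Good st ph line_unique st_of_refl)
open Crest.Agent.R102.Mir151 (MirE)
open Crest.Agent.R102.Pick628 (K0)

variable {q : C(ℂ, ℂ)} {η ρ r Bc : ℝ} {b φ p : ℂ × ℂ → ℂ} {m₀ : ℂ → ℂ} {θ H K G : ℂ → ℂ}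

/-- 599's entire datum -/
lemma ent_of (hM : MirE q η θ H K G) : Ent θ H K :=
  ⟨hM.mir.θd, hM.mir.Hd, hM.mir.Kd, hM.mir.rel, hM.mir.hK⟩

/-- the labels are 1-Lipschitz near in `w` -/
lemma b_tend (hD : Spine.DataE q η ρ r Bc b φ p m₀ θ H) {t : ℂ} (ht : |t.im| < ρ) (c : ℂ) :
    Tendsto (fun w : ℂ => b (t + c * w, w)) (𝓝 0) (𝓝 t) := by
  have hO : IsOpen (PD ρ r) := StepE599.isOpen_PDm ρ r
  have hr := hD.fam.r_pos
  have hm : ((t, 0) : ℂ × ℂ) ∈ PD ρ r := ⟨ht, by simpa using hr⟩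
  have h1 : ContinuousAt b (t, 0) :=
    (hD.fam.b_diff.differentiableAt (hO.mem_nhds hm)).continuousAt
  have h2 : b (t, 0) = t := by
    have h5 := hD.fam.b_near _ hm
    simp only [norm_zero, ne_eq, OfNat.ofNat_ne_zero, not_false_eq_true, zero_pow,
      mul_zero] at h5
    exact sub_eq_zero.1 (norm_le_zero_iff.1 h5)
  have h3 : Tendsto (fun w : ℂ => ((t + c * w, w) : ℂ × ℂ)) (𝓝 0) (𝓝 (t, 0)) := by
    have : Continuous fun w : ℂ => ((t + c * w, w) : ℂ × ℂ) := by fun_prop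
    simpa using this.tendsto 0
  have h4 := h1.tendsto.comp h3
  rw [h2] at h4
  exact h4

/-- **the law of the step near the real axis** -/
theorem law (hD : Spine.DataE q η ρ r Bc b φ p m₀ θ H) (hE : Ent θ H K) {t : ℂ}
    (ht : |t.im| < ρ) : ∀ᶠ w in 𝓝[≠] (0 : ℂ),
      b (t + w, w) = b (t, w) + st θ H (b (t, w)) (b (t, w) - b (t - w, w)) := by
  have D := datE hD (h := η) le_rfl
  have hr := hD.fam.r_pos
  obtain ⟨κ, g⟩ := hE.exists_good t
  have hκ := g.pos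
  have c0 := b_tend hD ht (-1)
  have c1 := b_tend hD ht 0
  have c2 := b_tend hD ht 1
  have e0 : ∀ᶠ w in 𝓝 (0 : ℂ), ‖b (t + -1 * w, w) - t‖ < κ / 8 := by
    have := c0.eventually (ball_mem_nhds t (show 0 < κ / 8 by positivity))
    filter_upwards [this] with w hw
    rwa [dist_eq_norm] at hw
  have e1 : ∀ᶠ w in 𝓝 (0 : ℂ), ‖b (t + 0 * w, w) - t‖ < κ / 8 := by
    have := c1.eventually (ball_mem_nhds t (show 0 < κ / 8 by positivity))
    filter_upwards [this] with w hw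
    rwa [dist_eq_norm] at hw
  have e2 : ∀ᶠ w in 𝓝 (0 : ℂ), ‖b (t + 1 * w, w) - t‖ < κ / 8 := by
    have := c2.eventually (ball_mem_nhds t (show 0 < κ / 8 by positivity))
    filter_upwards [this] with w hw
    rwa [dist_eq_norm] at hw
  have e3 : ∀ᶠ w in 𝓝 (0 : ℂ), ‖w‖ < min r (ρ - |t.im|) := by
    have h3 : Tendsto (fun w : ℂ => ‖w‖) (𝓝 0) (𝓝 ‖(0 : ℂ)‖) := continuous_norm.tendsto 0
    rw [norm_zero] at h3
    exact h3.eventually (Iio_mem_nhds (lt_min hr (by linarith)))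
  have e4 : ∀ᶠ w in 𝓝 (0 : ℂ), 4 * |Bc| * ‖w‖ < 1 := by
    have h3 : Tendsto (fun w : ℂ => 4 * |Bc| * ‖w‖) (𝓝 0) (𝓝 (4 * |Bc| * ‖(0 : ℂ)‖)) :=
      (continuous_const.mul continuous_norm).tendsto 0
    rw [norm_zero, mul_zero] at h3
    exact h3.eventually (Iio_mem_nhds one_pos)
  filter_upwards [e0.filter_mono nhdsWithin_le_nhds, e1.filter_mono nhdsWithin_le_nhds,
    e2.filter_mono nhdsWithin_le_nhds, e3.filter_mono nhdsWithin_le_nhds,
    e4.filter_mono nhdsWithin_le_nhds, self_mem_nhdsWithin] with w f0 f1 f2 f3 f4 hw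
  have hw0 : w ≠ 0 := hw
  have hwn : 0 < ‖w‖ := norm_pos_iff.2 hw0
  have s0 : t + -1 * w = t - w := by ring
  have s1 : t + 0 * w = t := by ring
  have s2 : t + 1 * w = t + w := by ring
  rw [s0] at f0
  rw [s1] at f1
  rw [s2] at f2
  have hwr : ‖w‖ < r := f3.trans_le (min_le_left _ _)
  have hwρ : ‖w‖ < ρ - |t.im| := f3.trans_le (min_le_right _ _)
  have hPD : ∀ c : ℂ, ‖c‖ ≤ 1 → (t + c * w, w) ∈ PD ρ r := by
    intro c hc
    refine ⟨?_, hwr⟩
    have h1 : |(c * w).im| ≤ ‖w‖ := by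
      refine (Complex.abs_im_le_norm _).trans ?_
      rw [norm_mul]
      nlinarith [norm_nonneg w]
    simp only [Complex.add_im]
    have := abs_add_le t.im (c * w).im
    linarith
  have m0 : (t - w, w) ∈ PD ρ r := by
    have := hPD (-1) (by simp)
    rwa [s0] at this
  have m1 : (t, w) ∈ PD ρ r := by
    have := hPD 0 (by simp)
    rwa [s1] at this
  have m2 : (t + w, w) ∈ PD ρ r := by
    have := hPD 1 (by simp)
    rwa [s2] at this
  have n1 : (t + w / 2, w) ∈ PD ρ r := by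
    have := hPD (1 / 2) (by rw [norm_div]; norm_num)
    have e : t + 1 / 2 * w = t + w / 2 := by ring
    rwa [e] at this
  have n2 : (t - w / 2, w) ∈ PD ρ r := by
    have := hPD (-(1 / 2)) (by rw [norm_neg, norm_div]; norm_num)
    have e : t + -(1 / 2) * w = t - w / 2 := by ring
    rwa [e] at this
  -- incidences
  have i1 : StepE599.Inc θ H (b (t, w)) (φ (t + w / 2, w)) (p (t + w / 2, w)) := by
    have := D.base_inc (s := 1) (Or.inl rfl) m1 (by rw [one_mul]; exact n1)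
    rw [one_mul] at this
    exact this
  have i1' : StepE599.Inc θ H (b (t, w)) (φ (t - w / 2, w)) (p (t - w / 2, w)) := by
    have e : t + -1 * (w / 2) = t - w / 2 := by ring
    have := D.base_inc (s := -1) (Or.inr rfl) m1 (by rw [e]; exact n2)
    rw [e] at this
    exact this
  have i2 : StepE599.Inc θ H (b (t + w, w)) (φ (t + w / 2, w)) (p (t + w / 2, w)) := by
    have e : t + w + -1 * (w / 2) = t + w / 2 := by ring
    have := D.base_inc (s := -1) (Or.inr rfl) m2 (by rw [e]; exact n1)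
    rw [e] at this
    exact this
  have i0 : StepE599.Inc θ H (b (t - w, w)) (φ (t - w / 2, w)) (p (t - w / 2, w)) := by
    have e : t - w + 1 * (w / 2) = t - w / 2 := by ring
    have := D.base_inc (s := 1) (Or.inl rfl) m0 (by rw [e]; exact n2)
    rw [e] at this
    exact this
  have hrf := hD.fam.refl t w m1 n2 n1
  have hθ1 : θ (b (t, w)) = Tc q (b (t, w)) := D.ψ_eq _ (D.b_mem_Str m1)
  rw [← hθ1] at hrf
  have hδ := hD.fam.δ_small t w m1 n1
  rw [← hθ1] at hδ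
  have hδ' : ‖φ (t - w / 2, w) - θ (b (t, w))‖ ≤ 1 := by
    have e : φ (t - w / 2, w) - θ (b (t, w)) = -(φ (t + w / 2, w) - θ (b (t, w))) := by
      linear_combination hrf
    rw [e, norm_neg]
    linarith
  have hy : deriv θ (b (t, w)) ≠ 0 := D.deriv_ψ_ne (D.b_mem_Str m1)
  -- steps
  have k0 := hD.fam.b_near _ m0
  have k1 := hD.fam.b_near _ m1
  have k2 := hD.fam.b_near _ m2
  simp only at k0 k1 k2
  have hB : Bc * ‖w‖ ^ 2 < ‖w‖ / 4 := by
    have h1 : Bc * ‖w‖ ^ 2 ≤ |Bc| * ‖w‖ ^ 2 :=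
      mul_le_mul_of_nonneg_right (le_abs_self _) (by positivity)
    have h2 : |Bc| * ‖w‖ ^ 2 = (4 * |Bc| * ‖w‖) * (‖w‖ / 4) := by ring
    nlinarith
  have hne2 : b (t + w, w) - b (t, w) ≠ 0 := by
    intro h0
    have e : w = (b (t + w, w) - b (t, w)) - (b (t + w, w) - (t + w)) + (b (t, w) - t) := by ring
    have h1 : ‖w‖ ≤ 0 + Bc * ‖w‖ ^ 2 + Bc * ‖w‖ ^ 2 := by
      calc ‖w‖ = ‖(b (t + w, w) - b (t, w)) - (b (t + w, w) - (t + w)) + (b (t, w) - t)‖ := by
            rw [← e]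
        _ ≤ ‖(b (t + w, w) - b (t, w)) - (b (t + w, w) - (t + w))‖ + ‖b (t, w) - t‖ :=
            norm_add_le _ _
        _ ≤ (‖b (t + w, w) - b (t, w)‖ + ‖b (t + w, w) - (t + w)‖) + ‖b (t, w) - t‖ := by
            gcongr; exact norm_sub_le _ _
        _ ≤ 0 + Bc * ‖w‖ ^ 2 + Bc * ‖w‖ ^ 2 := by
            rw [h0, norm_zero]
            linarith
    linarith
  have hne0 : b (t - w, w) - b (t, w) ≠ 0 := by
    intro h0
    have e : w = (b (t - w, w) - (t - w)) - (b (t - w, w) - b (t, w)) - (b (t, w) - t) := by ring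
    have h1 : ‖w‖ ≤ Bc * ‖w‖ ^ 2 + 0 + Bc * ‖w‖ ^ 2 := by
      calc ‖w‖ = ‖(b (t - w, w) - (t - w)) - (b (t - w, w) - b (t, w)) - (b (t, w) - t)‖ := by
            rw [← e]
        _ ≤ ‖(b (t - w, w) - (t - w)) - (b (t - w, w) - b (t, w))‖ + ‖b (t, w) - t‖ :=
            norm_sub_le _ _
        _ ≤ (‖b (t - w, w) - (t - w)‖ + ‖b (t - w, w) - b (t, w)‖) + ‖b (t, w) - t‖ := by
            gcongr; exact norm_sub_le _ _
        _ ≤ Bc * ‖w‖ ^ 2 + 0 + Bc * ‖w‖ ^ 2 := by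
            rw [h0, norm_zero]
            linarith
    linarith
  have g1 : Good θ K (b (t, w)) (κ / 2) := g.mono (by positivity) (by linarith)
  have d2 : ‖b (t + w, w) - b (t, w)‖ ≤ κ / 4 := by
    have e : b (t + w, w) - b (t, w) = (b (t + w, w) - t) - (b (t, w) - t) := by ring
    rw [e]
    have := norm_sub_le (b (t + w, w) - t) (b (t, w) - t)
    linarith
  have d0 : ‖b (t - w, w) - b (t, w)‖ ≤ κ / 4 := by
    have e : b (t - w, w) - b (t, w) = (b (t - w, w) - t) - (b (t, w) - t) := by ring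
    rw [e]
    have := norm_sub_le (b (t - w, w) - t) (b (t, w) - t)
    linarith
  have l2 := (line_unique hE g1 hne2 (by linarith) hy (by linarith) i1
    (by rw [add_sub_cancel]; exact i2)).1
  have l0 := (line_unique hE g1 hne0 (by linarith) hy hδ' i1'
    (by rw [add_sub_cancel]; exact i0)).1
  have e5 : -(b (t, w) - b (t - w, w)) = b (t - w, w) - b (t, w) := by ring
  have h9 := st_of_refl hE g1 (e := b (t, w) - b (t - w, w)) (x := b (t + w, w) - b (t, w))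
    (by rw [← norm_neg, e5]; linarith) (by linarith) hy (by
      rw [e5, ← l0, ← l2]
      exact hrf)
  linear_combination h9

/-- **(AP3) on the strip** -/
theorem ap3 (hD : Spine.DataE q η ρ r Bc b φ p m₀ θ H) (hM : MirE q η θ H K G) :
    ∃ c₀ : ℂ, ∀ t : ℂ, |t.im| < ρ →
      iteratedDeriv 3 (fun w => b (t + w / 2, w) - b (t - w / 2, w)) 0 =
        2 / 5 * (G t + deriv θ t ^ 2 / 8) + c₀ := by
  have hE := ent_of hM
  have L : StepE599.LB ρ r b := by
    refine ⟨hD.fam.r_pos, hD.fam.b_diff, fun t ht => ?_, fun t w ht hw => hD.fam.b_even t w ⟨ht, hw⟩⟩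
    have h5 := hD.fam.b_near (t, 0) ⟨ht, by simpa using hD.fam.r_pos⟩
    simp only [norm_zero, ne_eq, OfNat.ofNat_ne_zero, not_false_eq_true, zero_pow,
      mul_zero] at h5
    exact sub_eq_zero.1 (norm_le_zero_iff.1 h5)
  obtain ⟨c, hc⟩ := StepE599.coeff_strip hE L (fun t ht => law hD hE ht)
  refine ⟨c, fun t ht => ?_⟩
  rw [hc t ht, hM.G_eq t]

/-- near the real axis the step of `beE` is the step of `b` -/
lemma stp_real (hD : Spine.DataE q η ρ r Bc b φ p m₀ θ H) (x : ℝ) :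
    (fun w => stp (beE b ρ r) ((x : ℂ), w)) =ᶠ[𝓝 0]
      fun w => b ((x : ℂ) + w / 2, w) - b ((x : ℂ) - w / 2, w) := by
  have hρ := hD.fam.ρ_pos
  filter_upwards [ball_mem_nhds (0 : ℂ) (lt_min hD.fam.r_pos hρ)] with w hw
  rw [mem_ball_zero_iff] at hw
  have hwr := hw.trans_le (min_le_left _ _)
  have hwρ := hw.trans_le (min_le_right _ _)
  have h1 : |(w / 2).im| < ρ / 2 := by
    refine (Complex.abs_im_le_norm _).trans_lt ?_
    rw [norm_div]; simp only [Complex.norm_ofNat]; linarith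
  obtain ⟨h2, h3⟩ := abs_lt.1 h1
  unfold stp
  simp only
  rw [beE_slab hD, beE_slab hD]
  · refine ⟨?_, ?_, by simpa using hwr⟩
    · simp only [Complex.sub_im, Complex.ofReal_im]; linarith
    · simp only [Complex.sub_im, Complex.ofReal_im]; linarith
  · refine ⟨?_, ?_, by simpa using hwr⟩
    · simp only [Complex.add_im, Complex.ofReal_im]; linarith
    · simp only [Complex.add_im, Complex.ofReal_im]; linarith

/-- the vertex rule of Case E: both lines regular, then the label is regular -/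
def RuleV (b φ p : ℂ × ℂ → ℂ) (ρ r : ℝ) : Prop :=
  ∀ x : ℂ × ℂ, sh 1 x ∈ SL φ p ρ r → sh (-1) x ∈ SL φ p ρ r → -(3 * ρ / 8) < x.1.im →
    x ∈ SBE b ρ r

/-- labels of a box of the sheet of lines -/
lemma box_SBE (hV : RuleV b φ p ρ r) {h r' : ℝ}
    (hr' : 0 < r') (hsub : Sab (-(3 * ρ / 8)) h ×ˢ ball (0 : ℂ) r' ⊆ SL φ p ρ r) {t w : ℂ}
    (ht : t ∈ Sab (-(3 * ρ / 8) + r' / 2) (h - r' / 2)) (hw : ‖w‖ < r') : (t, w) ∈ SBE b ρ r := by
  have h1 : |(w / 2).im| < r' / 2 := by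
    refine (Complex.abs_im_le_norm _).trans_lt ?_
    rw [norm_div]; simp only [Complex.norm_ofNat]; linarith
  obtain ⟨h2, h3⟩ := abs_lt.1 h1
  obtain ⟨h4, h5⟩ := ht
  refine hV (t, w) (hsub ⟨⟨?_, ?_⟩, by simpa using hw⟩) (hsub ⟨⟨?_, ?_⟩, by simpa using hw⟩) ?_
  · rw [sh_fst, one_mul, Complex.add_im]; simp only; linarith
  · rw [sh_fst, one_mul, Complex.add_im]; simp only; linarith
  · rw [sh_fst, neg_one_mul, Complex.add_im, Complex.neg_im]; simp only; linarith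
  · rw [sh_fst, neg_one_mul, Complex.add_im, Complex.neg_im]; simp only; linarith
  · simp only; linarith

lemma incS_of {φ' p' β : ℂ} (h : F300.Inc θ H φ' p' β) : IncS θ H φ' p' β := by
  unfold F300.Inc at h
  unfold C1.IncS
  linear_combination h

/-- **the main sheet gives boxes** -/
theorem boxM (hD : Spine.DataE q η ρ r Bc b φ p m₀ θ H) (hV : RuleV b φ p ρ r) {h r' : ℝ}
    (hr' : 0 < r') (hr1 : r' ≤ 1) (hrr : r' ≤ r) (hh : r' < h)
    (hsub : Sab (-(3 * ρ / 8)) h ×ˢ ball (0 : ℂ) r' ⊆ SL φ p ρ r) :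
    Box θ H (-(3 * ρ / 8)) h r' (φe φ p ρ r) (pe φ p ρ r) (beE b ρ r) := by
  have hρ := hD.fam.ρ_pos
  have hrρ := hD.fam.r_le
  have hin : ∀ s : ℂ, (s = 1 ∨ s = -1) → ∀ t w : ℂ, t ∈ Sab (-(3 * ρ / 8) + r') (h - r') →
      ‖w‖ < r' → IncS θ H (φe φ p ρ r (t, w)) (pe φ p ρ r (t, w))
        (beE b ρ r (sh (-s) (t, w))) := by
    intro s hs t w ht hw
    have h1 : |(w / 2).im| < r' / 2 := by
      refine (Complex.abs_im_le_norm _).trans_lt ?_
      rw [norm_div]; simp only [Complex.norm_ofNat]; linarith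
    obtain ⟨h2, h3⟩ := abs_lt.1 h1
    obtain ⟨h4, h5⟩ := ht
    have hB : sh (-s) (t, w) ∈ SBE b ρ r := by
      refine box_SBE hV hr' hsub (t := (sh (-s) (t, w)).1) (w := w) ?_ hw
      rcases hs with rfl | rfl
      · constructor
        · rw [sh_fst, neg_one_mul, Complex.add_im, Complex.neg_im]; simp only; linarith
        · rw [sh_fst, neg_one_mul, Complex.add_im, Complex.neg_im]; simp only; linarith
      · constructor
        · rw [sh_fst, neg_neg, one_mul, Complex.add_im]; simp only; linarith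
        · rw [sh_fst, neg_neg, one_mul, Complex.add_im]; simp only; linarith
    have e1 : sh s (sh (-s) (t, w)) = (t, w) := by
      rw [sh_sh, add_neg_cancel, sh_zero]
    have hL : sh s (sh (-s) (t, w)) ∈ SL φ p ρ r := by
      rw [e1]
      exact hsub ⟨⟨by linarith, by linarith⟩, by simpa using hw⟩
    have := inc_allE hD hs hB hL
    rw [e1] at this
    exact incS_of this
  refine ⟨hr', hr1, by linarith, hh, ?_, ?_, ?_, ?_, ?_, ?_, ?_, ?_⟩
  · exact (φe_anE hD).differentiableOn.mono hsub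
  · exact (pe_anE hD).differentiableOn.mono hsub
  · refine (beE_an hD).differentiableOn.mono ?_
    rintro x ⟨h1, h2⟩
    exact box_SBE hV hr' hsub (t := x.1) (w := x.2) h1 (by simpa using h2)
  · intro t w ht hw
    have := hin (-1) (Or.inr rfl) t w ht hw
    unfold sh at this
    rw [neg_neg, one_mul] at this
    exact this
  · intro t w ht hw
    have := hin 1 (Or.inl rfl) t w ht hw
    unfold sh at this
    rw [neg_one_mul, ← sub_eq_add_neg] at this
    exact this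
  · intro t w ht hw hw0
    obtain ⟨h4, h5⟩ := ht
    exact area_neE hD (hsub ⟨⟨by linarith, by linarith⟩, by simpa using hw⟩) hw0
  · intro t ht
    exact beE_zero hD (box_SBE hV hr' hsub ht (by simpa using hr'))
  · intro t w ht hw
    exact (evenE hD (box_SBE hV hr' hsub ht hw)).2

/-- `(θ, H)` is a labelled curve in the sense of `StepT_628` -/
lemma lab_of (hM : MirE q η θ H K G) : Lab θ H univ :=
  ⟨isOpen_univ, fun _ => ⟨fun _ => mem_univ _, fun _ => mem_univ _⟩,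
    hM.mir.θd.differentiableOn, hM.mir.Hd.differentiableOn, fun z _ => hM.θper z,
    fun z _ => hM.Hper z, fun z _ => hM.mir.rel z⟩

/-- **(AP)**: a priori bounds from a box of the sheet of lines.
`L = log (8 K₀ / r')`; `C` depends only on the data. -/
theorem AP (hD : Spine.DataE q η ρ r Bc b φ p m₀ θ H) (hM : MirE q η θ H K G)
    (hV : RuleV b φ p ρ r) : ∃ C : ℝ, 1 ≤ C ∧ ∀ h r' : ℝ, 0 < r' → r' ≤ 1 → r' ≤ r → r' < h →
      Sab (-(3 * ρ / 8)) h ×ˢ ball (0 : ℂ) r' ⊆ SL φ p ρ r →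
      (∀ z : ℂ, |z.im| ≤ h - 2 * r' →
        ‖deriv θ z‖ ≤ C * (Real.sqrt (Real.log (8 * K0 / r')) / r') ∧
        ‖G z‖ ≤ C ^ 2 * (Real.log (8 * K0 / r') / r' ^ 2)) ∧
      (∀ t w : ℂ, t ∈ Sab (-(3 * ρ / 8) + r' / 2) (h - r' / 2) → ‖w‖ < r' →
        (t, w) ∈ SBE b ρ r) ∧
      (∀ t w : ℂ, t ∈ Sab (-(3 * ρ / 8) + r') (h - r') → ‖w‖ < r' → w ≠ 0 →
        ∀ k : ℤ, beE b ρ r (t + w / 2, w) - beE b ρ r (t - w / 2, w) ≠ k) ∧
      (∀ t w : ℂ, t ∈ Sab (-(3 * ρ / 8) + r') (h - r') → ‖w‖ < r' / 8 →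
        128 * Real.log (8 * K0 / r') * (‖w‖ / r') ^ 2 ≤ 1 →
        ‖beE b ρ r (t + w / 2, w) - beE b ρ r (t - w / 2, w) - w‖ ≤
          256 * Real.log (8 * K0 / r') * (‖w‖ / r') ^ 2 * ‖w‖) := by
  obtain ⟨c₀, hc₀⟩ := ap3 hD hM
  have hLab := lab_of hM
  have hρ := hD.fam.ρ_pos
  set A : ℝ := 1920 + 2 * ‖c₀‖ with hA
  have hA1 : 1 ≤ A := by
    have := norm_nonneg c₀
    rw [hA]; linarith
  have hsA : 1 ≤ Real.sqrt A := by
    rw [Real.one_le_sqrt]; exact hA1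
  refine ⟨18 * Real.sqrt A, by linarith, fun h r' hr' hr1 hrr hh hsub => ?_⟩
  have X := boxM hD hV hr' hr1 hrr hh hsub
  have hAP3 : ∀ x : ℝ, iteratedDeriv 3 (fun w => stp (beE b ρ r) (x, w)) 0 =
      2 / 5 * (G x + deriv θ x ^ 2 / 8) + c₀ := by
    intro x
    rw [(stp_real hD x).iteratedDeriv_eq 3]
    exact hc₀ x (by simpa using hρ)
  refine ⟨?_, fun t w ht hw => box_SBE hV hr' hsub ht hw, ?_, ?_⟩
  · intro z hz
    obtain ⟨h1, h2⟩ := X.curve hLab hM.Gd hM.hG hM.yper hM.yconj hM.Gconj hAP3 z hz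
    rw [← hA] at h1 h2
    refine ⟨h1.trans (le_of_eq ?_), h2.trans ?_⟩
    · rw [Real.sqrt_mul (by linarith)]
      ring
    · have hL : 0 ≤ Real.log (8 * K0 / r') / r' ^ 2 := by
        refine div_nonneg (Real.log_nonneg ?_) (by positivity)
        rw [le_div_iff₀ hr']
        have := Pick628.K0_ge
        linarith
      have e1 : (18 * Real.sqrt A) ^ 2 = 324 * A := by
        rw [mul_pow, Real.sq_sqrt (by linarith)]
        norm_num
      rw [e1]
      have e2 : 43 * (A * Real.log (8 * K0 / r') / r' ^ 2) =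
          43 * A * (Real.log (8 * K0 / r') / r' ^ 2) := by ring
      rw [e2]
      nlinarith
  · intro t w ht hw hw0 k
    exact X.stp_not_int hLab ht hw hw0 k
  · intro t w ht hw h1
    exact (X.step hLab ht).1 w (by simpa using hw) h1

end Crest.Agent.R102.ShE628
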