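import Mathlib
import Crest.Agent.R102.StepE_599

/-!
Row 102, T1-E: the lines of the label chain (`StepE_599`).

`ph z e`, `pp z e` = direction and support number of the line through the vertices with labels
`z` and `z + e` (`e ≠ 0` small), regular across zeros of `y`.
-/

set_option autoImplicit false
open Complex Metric Set Filter Topology

noncomputable section
namespace Crest.Agent.R102.StepE599

/-! ## small arctangents -/

lemma arctan_le {t : ℂ} (ht : ‖t‖ ≤ 1 / 8) : ‖arctan t‖ ≤ 2 * ‖t‖ := by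
  have h1 : (1 - t * I) ≠ 0 := by
    intro h
    have : ‖t * I‖ = 1 := by
      have : t * I = 1 := by linear_combination -h
      rw [this]; simp
    rw [norm_mul, norm_I, mul_one] at this
    linarith
  have h2 : 7 / 8 ≤ ‖1 - t * I‖ := by
    have := norm_sub_norm_le (1 : ℂ) (t * I)
    rw [norm_mul, norm_I, mul_one, norm_one] at this
    linarith
  have e : (1 + t * I) / (1 - t * I) = 1 + 2 * t * I / (1 - t * I) := by
    field_simp; ring
  unfold Complex.arctan
  rw [e, norm_mul]
  have h3 : ‖2 * t * I / (1 - t * I)‖ ≤ 16 / 7 * ‖t‖ := by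
    rw [norm_div, norm_mul, norm_mul, norm_I, mul_one, div_le_iff₀ (by linarith)]
    simp only [Complex.norm_ofNat]
    nlinarith [norm_nonneg t]
  have h4 := norm_log_one_add_half_le_self (z := 2 * t * I / (1 - t * I)) (by linarith)
  have h5 : ‖-I / 2‖ = 1 / 2 := by rw [norm_div, norm_neg, norm_I]; simp
  rw [h5]
  nlinarith [norm_nonneg t]

lemma tan_arctan_small {t : ℂ} (ht : ‖t‖ ≤ 1 / 8) : tan (arctan t) = t := by
  refine tan_arctan ?_ ?_
  · rintro rfl; norm_num at ht
  · rintro rfl; norm_num at ht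

lemma cos_arctan_ne {t : ℂ} (ht : ‖t‖ ≤ 1 / 8) : cos (arctan t) ≠ 0 := by
  intro h
  have h1 := arctan_le ht
  have h2 := norm_cos_sub_one_le (w := arctan t) (by linarith)
  rw [h, zero_sub, norm_neg, norm_one] at h2
  have : ‖arctan t‖ ≤ 1 / 4 := by linarith
  have := pow_le_pow_left₀ (norm_nonneg _) this 2
  linarith

lemma sin_arctan {t : ℂ} (ht : ‖t‖ ≤ 1 / 8) : sin (arctan t) = t * cos (arctan t) := by
  have h1 := tan_arctan_small ht
  have h2 := cos_arctan_ne ht
  rw [tan_eq_sin_div_cos, div_eq_iff h2] at h1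
  exact h1

/-- small angles with the same `exp (2 i ·)` are equal -/
lemma eq_of_exp {a b : ℂ} (hab : ‖a - b‖ < 3) (h : exp (2 * (I * a)) = exp (2 * (I * b))) :
    a = b := by
  have h1 : exp (2 * (I * (a - b))) = 1 := by
    have : 2 * (I * (a - b)) = 2 * (I * a) - 2 * (I * b) := by ring
    rw [this, exp_sub, h, div_self (exp_ne_zero _)]
  obtain ⟨n, hn⟩ := exp_eq_one_iff.mp h1
  have h2 : a - b = n * Real.pi := by
    have h3 : (2 * I) * (a - b - n * Real.pi) = 0 := by linear_combination hn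
    rcases mul_eq_zero.mp h3 with h4 | h4
    · exfalso
      rcases mul_eq_zero.mp h4 with h5 | h5
      · norm_num at h5
      · exact I_ne_zero h5
    · exact sub_eq_zero.mp h4
  have h3 : n = 0 := by
    by_contra hne
    have h4 : (1 : ℝ) ≤ |(n : ℝ)| := by exact_mod_cast Int.one_le_abs hne
    rw [h2, norm_mul] at hab
    have h5 : ‖(n : ℂ)‖ = |(n : ℝ)| := by simp
    have h6 : ‖(Real.pi : ℂ)‖ = Real.pi := by
      rw [Complex.norm_real]; exact abs_of_pos Real.pi_pos
    rw [h5, h6] at hab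
    have := Real.pi_gt_three
    nlinarith
  rw [h3] at h2
  simp at h2
  exact sub_eq_zero.mp h2

lemma exp_two_arctan {t : ℂ} (ht : ‖t‖ ≤ 1 / 8) :
    exp (2 * (I * arctan t)) = (1 + I * t) / (1 - I * t) := by
  have h2 := cos_arctan_ne ht
  have h3 := sin_arctan ht
  have e1 : exp (I * arctan t) = cos (arctan t) * (1 + I * t) := by
    rw [mul_comm I, exp_mul_I, h3]; ring
  have e2 : exp (-(I * arctan t)) = cos (arctan t) * (1 - I * t) := by
    have : -(I * arctan t) = (-arctan t) * I := by ring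
    rw [this, exp_mul_I, cos_neg, sin_neg, h3]; ring
  have e3 : (2 : ℂ) * (I * arctan t) = I * arctan t - -(I * arctan t) := by ring
  have h4 : (1 - I * t) ≠ 0 := by
    intro h; rw [h, mul_zero] at e2; exact exp_ne_zero _ e2
  rw [e3, exp_sub, e1, e2]
  field_simp


lemma arctan_differentiableAt {t : ℂ} (ht : ‖t‖ ≤ 1 / 8) : DifferentiableAt ℂ arctan t := by
  have h1 : (1 - t * I) ≠ 0 := by
    intro h
    have : ‖t * I‖ = 1 := by
      have : t * I = 1 := by linear_combination -h
      rw [this]; simp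
    rw [norm_mul, norm_I, mul_one] at this
    linarith
  have h2 : 7 / 8 ≤ ‖1 - t * I‖ := by
    have := norm_sub_norm_le (1 : ℂ) (t * I)
    rw [norm_mul, norm_I, mul_one, norm_one] at this
    linarith
  have e : (1 + t * I) / (1 - t * I) = 1 + 2 * t * I / (1 - t * I) := by
    field_simp; ring
  have h3 : ‖2 * t * I / (1 - t * I)‖ ≤ 16 / 7 * ‖t‖ := by
    rw [norm_div, norm_mul, norm_mul, norm_I, mul_one, div_le_iff₀ (by linarith)]
    simp only [Complex.norm_ofNat]
    nlinarith [norm_nonneg t]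
  have hs : (1 + t * I) / (1 - t * I) ∈ slitPlane := by
    rw [e]
    exact mem_slitPlane_of_norm_lt_one (by linarith)
  have d1 : DifferentiableAt ℂ (fun z : ℂ => (1 + z * I) / (1 - z * I)) t :=
    ((differentiableAt_const _).add (differentiableAt_id.mul_const _)).div
      ((differentiableAt_const _).sub (differentiableAt_id.mul_const _)) h1
  have d2 : DifferentiableAt ℂ (fun z : ℂ => -I / 2 * log ((1 + z * I) / (1 - z * I))) t :=
    (d1.clog hs).const_mul _
  exact d2

/-! ## the lines -/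

/-- `tan` of the angle between the tangent at `z` and the chord `z → z + e` -/
def tau (θ H : ℂ → ℂ) (z e : ℂ) : ℂ := deriv θ z * R θ H z e

/-- direction of the line through the vertices `z` and `z + e` -/
def ph (θ H : ℂ → ℂ) (z e : ℂ) : ℂ := θ z + arctan (tau θ H z e)

/-- support number of this line -/
def pp (θ H : ℂ → ℂ) (z e : ℂ) : ℂ :=
  cos (arctan (tau θ H z e)) * (H z + deriv H z * R θ H z e)

/-- homogeneous incidence: the point with label `z` lies on the line `(φ, p)`
(`= y z` times the incidence of `C0Defs_821`, meaningful also where `y z = 0`) -/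
def Inc (θ H : ℂ → ℂ) (z φ p : ℂ) : Prop :=
  deriv θ z * p = deriv θ z * H z * cos (φ - θ z) + deriv H z * sin (φ - θ z)

section
variable {θ H K : ℂ → ℂ} {z : ℂ} {ρ : ℝ}

lemma tau_le (h : Ent θ H K) (g : Good θ K z ρ) {e : ℂ} (he : ‖e‖ ≤ ρ) :
    ‖tau θ H z e‖ ≤ 1 / 300 := by
  have hp := g.pos
  have h1 := g.y' (s := z) (by simpa using hp.le)
  have h2 := R_near h g he
  have h3 := cube_le hp he
  have h4 : ‖R θ H z e‖ ≤ 523 / 1000 * ‖e‖ := by
    have := norm_add_le (R θ H z e - e / 2) (e / 2)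
    rw [sub_add_cancel, norm_div_two] at this
    linarith
  unfold tau
  rw [norm_mul]
  have h5 : ‖deriv θ z‖ * ‖R θ H z e‖ ≤ 1 / 200 / ρ * (523 / 1000 * ρ) :=
    mul_le_mul h1 (by linarith) (norm_nonneg _) (by positivity)
  refine h5.trans ?_
  have : 1 / 200 / ρ * (523 / 1000 * ρ) = 523 / 200000 := by field_simp; norm_num
  rw [this]; norm_num

lemma tau_le8 (h : Ent θ H K) (g : Good θ K z ρ) {e : ℂ} (he : ‖e‖ ≤ ρ) :
    ‖tau θ H z e‖ ≤ 1 / 8 := (tau_le h g he).trans (by norm_num)

lemma alp_le (h : Ent θ H K) (g : Good θ K z ρ) {e : ℂ} (he : ‖e‖ ≤ ρ) :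
    ‖arctan (tau θ H z e)‖ ≤ 1 / 100 := by
  have h1 := tau_le h g he
  have h2 := arctan_le (h1.trans (by norm_num))
  linarith

lemma exp_eq_E (w : ℂ) : exp (I * w) = cos w + I * sin w := by
  rw [mul_comm, exp_mul_I]; ring

lemma exp_eq_E' (w : ℂ) : exp (-(I * w)) = cos w - I * sin w := by
  have : -(I * w) = (-w) * I := by ring
  rw [this, exp_mul_I, cos_neg, sin_neg]; ring

lemma chi_rev (z e : ℂ) : chi θ (z + e) (-e) = -chi θ z e := by
  simp [chi]

/-- the two ends see the same line: `u + i y v` -/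
lemma uv_plus (z e : ℂ) : u θ H z e + I * deriv θ z * v θ H z e
    = -(exp (I * chi θ z e) * (u θ H (z + e) (-e) + I * deriv θ (z + e) * v θ H (z + e) (-e))) := by
  rw [exp_eq_E]
  unfold u v
  rw [chi_rev]
  simp only [add_neg_cancel_right, cos_neg, sin_neg]
  have h1 := sin_sq_add_cos_sq (chi θ z e)
  have h2 : I ^ 2 = -1 := I_sq
  linear_combination (exp := 1)
    ((deriv θ (z+e)) * (I * deriv θ z * H z - deriv H z)) * h1
    + (-(deriv θ (z + e)) * (sin (chi θ z e))^2 * (I * deriv θ z * H z - deriv H z)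
       - deriv θ z * deriv θ (z+e) * H (z+e) * sin (chi θ z e)
       + deriv θ z * deriv θ (z+e) * H z * sin (chi θ z e) * cos (chi θ z e)
       + deriv θ z * deriv θ (z+e) * H z * sin (chi θ z e) ^ 2 * I
      ) * h2

/-- the two ends see the same line: `u - i y v` -/
lemma uv_minus (z e : ℂ) : u θ H z e - I * deriv θ z * v θ H z e
    = -(exp (-(I * chi θ z e)) * (u θ H (z + e) (-e) - I * deriv θ (z + e) * v θ H (z + e) (-e))) := by
  rw [exp_eq_E']
  unfold u v
  rw [chi_rev]
  simp only [add_neg_cancel_right, cos_neg, sin_neg]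
  have h1 := sin_sq_add_cos_sq (chi θ z e)
  have h2 : I ^ 2 = -1 := I_sq
  linear_combination (exp := 1)
    ((deriv θ (z+e)) * (-I * deriv θ z * H z - deriv H z)) * h1
    + (-(deriv θ (z + e)) * (sin (chi θ z e))^2 * (-I * deriv θ z * H z - deriv H z)
       - deriv θ z * deriv θ (z+e) * H (z+e) * sin (chi θ z e)
       + deriv θ z * deriv θ (z+e) * H z * sin (chi θ z e) * cos (chi θ z e)
       - deriv θ z * deriv θ (z+e) * H z * sin (chi θ z e) ^ 2 * I
      ) * h2

lemma uv_H (z e : ℂ) : u θ H z e * H z + v θ H z e * deriv H z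
    = -(u θ H (z + e) (-e) * H (z + e) + v θ H (z + e) (-e) * deriv H (z + e)) := by
  unfold u v
  rw [chi_rev]
  simp only [add_neg_cancel_right, cos_neg, sin_neg]
  ring

lemma u_mul_tau (h : Ent θ H K) (g : Good θ K z ρ) {e : ℂ} (he0 : e ≠ 0) (he : ‖e‖ ≤ ρ) :
    u θ H z e * tau θ H z e = deriv θ z * v θ H z e := by
  have := u_ne h g he he0
  unfold tau R
  field_simp

/-- `exp (2 i α) (u - i y v) = u + i y v` -/
lemma exp_two_alp (h : Ent θ H K) (g : Good θ K z ρ) {e : ℂ} (he0 : e ≠ 0) (he : ‖e‖ ≤ ρ) :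
    u θ H z e - I * deriv θ z * v θ H z e ≠ 0 ∧
    exp (2 * (I * arctan (tau θ H z e))) * (u θ H z e - I * deriv θ z * v θ H z e)
      = u θ H z e + I * deriv θ z * v θ H z e := by
  have hu := u_ne h g he he0
  have ht := tau_le8 h g he
  have h1 := u_mul_tau h g he0 he
  have h2 := exp_two_arctan ht
  have h3 : (1 - I * tau θ H z e) ≠ 0 := by
    intro h4
    have : ‖I * tau θ H z e‖ = 1 := by
      have : I * tau θ H z e = 1 := by linear_combination -h4
      rw [this]; simp
    rw [norm_mul, norm_I, one_mul] at this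
    linarith
  have e1 : u θ H z e - I * deriv θ z * v θ H z e = u θ H z e * (1 - I * tau θ H z e) := by
    linear_combination I * h1
  have e2 : u θ H z e + I * deriv θ z * v θ H z e = u θ H z e * (1 + I * tau θ H z e) := by
    linear_combination -I * h1
  rw [e1, e2]
  refine ⟨mul_ne_zero hu h3, ?_⟩
  rw [h2]
  field_simp

/-- the line seen from its two ends: direction -/
lemma alp_symm (h : Ent θ H K) (g : Good θ K z ρ) {e : ℂ} (g' : Good θ K (z + e) ρ)
    (he0 : e ≠ 0) (he : ‖e‖ ≤ ρ) :
    arctan (tau θ H z e) = chi θ z e + arctan (tau θ H (z + e) (-e)) := by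
  have he' : ‖-e‖ ≤ ρ := by simpa using he
  obtain ⟨n1, x1⟩ := exp_two_alp h g he0 he
  obtain ⟨n2, x2⟩ := exp_two_alp h g' (neg_ne_zero.mpr he0) he'
  have p1 := uv_plus (θ := θ) (H := H) z e
  have p2 := uv_minus (θ := θ) (H := H) z e
  refine eq_of_exp ?_ ?_
  · have a1 := alp_le h g he
    have a2 := alp_le h g' he'
    have a3 := chi_le_one h g he
    have := norm_sub_le (arctan (tau θ H z e)) (chi θ z e + arctan (tau θ H (z + e) (-e)))
    have := norm_add_le (chi θ z e) (arctan (tau θ H (z + e) (-e)))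
    linarith
  · have e1 : 2 * (I * (chi θ z e + arctan (tau θ H (z + e) (-e))))
        = I * chi θ z e + I * chi θ z e + 2 * (I * arctan (tau θ H (z + e) (-e))) := by ring
    rw [e1, exp_add, exp_add]
    have e2 : exp (I * chi θ z e) * exp (-(I * chi θ z e)) = 1 := by
      rw [← exp_add, add_neg_cancel, exp_zero]
    apply mul_right_cancel₀ n1
    rw [x1, p1, p2, ← x2]
    linear_combination (-(exp (I * chi θ z e)) * exp (2 * (I * arctan (tau θ H (z + e) (-e))))
      * (u θ H (z + e) (-e) - I * deriv θ (z + e) * v θ H (z + e) (-e))) * (-e2)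

theorem ph_symm (h : Ent θ H K) (g : Good θ K z ρ) {e : ℂ} (g' : Good θ K (z + e) ρ)
    (he0 : e ≠ 0) (he : ‖e‖ ≤ ρ) : ph θ H z e = ph θ H (z + e) (-e) := by
  unfold ph
  rw [alp_symm h g g' he0 he]
  simp only [chi]
  ring

lemma exp_alp {e : ℂ} (ht : ‖tau θ H z e‖ ≤ 1 / 8) :
    exp (I * arctan (tau θ H z e)) = cos (arctan (tau θ H z e)) * (1 + I * tau θ H z e) := by
  rw [exp_eq_E, sin_arctan ht]; ring

theorem pp_symm (h : Ent θ H K) (g : Good θ K z ρ) {e : ℂ} (g' : Good θ K (z + e) ρ)
    (he0 : e ≠ 0) (he : ‖e‖ ≤ ρ) : pp θ H z e = pp θ H (z + e) (-e) := by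
  have he' : ‖-e‖ ≤ ρ := by simpa using he
  have hu := u_ne h g he he0
  have hu' := u_ne h g' he' (neg_ne_zero.mpr he0)
  have t1 := tau_le8 h g he
  have t2 := tau_le8 h g' he'
  have a := alp_symm h g g' he0 he
  have p1 := uv_plus (θ := θ) (H := H) z e
  have pH := uv_H (θ := θ) (H := H) z e
  have m1 := u_mul_tau h g he0 he
  have m2 := u_mul_tau h g' (neg_ne_zero.mpr he0) he'
  have x1 := exp_alp t1
  have x2 := exp_alp t2
  have epp : pp θ H z e = cos (arctan (tau θ H z e)) * (H z + deriv H z * R θ H z e) := rfl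
  have epp' : pp θ H (z + e) (-e) = cos (arctan (tau θ H (z + e) (-e)))
    * (H (z + e) + deriv H (z + e) * R θ H (z + e) (-e)) := rfl
  generalize arctan (tau θ H z e) = α at *
  generalize arctan (tau θ H (z + e) (-e)) = α' at *
  have x3 : exp (I * α) = exp (I * chi θ z e) * exp (I * α') := by
    rw [a, mul_add, exp_add]
  -- `cos α' u = - cos α u'`
  have key : cos α' * u θ H z e = -(cos α * u θ H (z + e) (-e)) := by
    apply mul_right_cancel₀ (exp_ne_zero (I * α))
    have y1 : u θ H z e * exp (I * α) = cos α * (u θ H z e + I * deriv θ z * v θ H z e) := by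
      rw [x1]; linear_combination cos α * I * m1
    have y2 : u θ H (z + e) (-e) * exp (I * α')
        = cos α' * (u θ H (z + e) (-e) + I * deriv θ (z + e) * v θ H (z + e) (-e)) := by
      rw [x2]; linear_combination cos α' * I * m2
    have y3 : u θ H (z + e) (-e) * exp (I * α)
        = exp (I * chi θ z e) * (cos α' * (u θ H (z + e) (-e)
          + I * deriv θ (z + e) * v θ H (z + e) (-e))) := by
      rw [x3, ← y2]; ring
    calc cos α' * u θ H z e * exp (I * α) = cos α' * (u θ H z e * exp (I * α)) := by ring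
      _ = cos α' * (cos α * (u θ H z e + I * deriv θ z * v θ H z e)) := by rw [y1]
      _ = -(cos α * (u θ H (z + e) (-e) * exp (I * α))) := by rw [y3, p1]; ring
      _ = -(cos α * u θ H (z + e) (-e)) * exp (I * α) := by ring
  have e1 : pp θ H z e = cos α * (u θ H z e * H z + v θ H z e * deriv H z) / u θ H z e := by
    rw [epp]
    unfold R
    field_simp
  have e2 : pp θ H (z + e) (-e) = cos α' * (u θ H (z + e) (-e) * H (z + e)
      + v θ H (z + e) (-e) * deriv H (z + e)) / u θ H (z + e) (-e) := by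
    rw [epp']
    unfold R
    field_simp
  rw [e1, e2, pH, div_eq_div_iff hu hu']
  linear_combination (-(u θ H (z + e) (-e) * H (z + e)
      + v θ H (z + e) (-e) * deriv H (z + e))) * key


/-- incidence at the first end -/
theorem inc_left (h : Ent θ H K) (g : Good θ K z ρ) {e : ℂ} (he : ‖e‖ ≤ ρ) :
    Inc θ H z (ph θ H z e) (pp θ H z e) := by
  have t1 := tau_le8 h g he
  unfold Inc
  have e1 : ph θ H z e - θ z = arctan (tau θ H z e) := by unfold ph; ring
  rw [e1, sin_arctan t1]
  unfold pp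
  have e2 : tau θ H z e = deriv θ z * R θ H z e := rfl
  rw [← sub_eq_zero]
  have : deriv H z * (tau θ H z e * cos (arctan (tau θ H z e)))
      = deriv H z * ((deriv θ z * R θ H z e) * cos (arctan (tau θ H z e))) := by rw [e2]
  rw [this]; ring


/-- a line near the tangent at `z` through the vertices `z`, `z + e` is `(ph z e, pp z e)` -/
theorem line_unique (h : Ent θ H K) (g : Good θ K z ρ) {e : ℂ} (he0 : e ≠ 0) (he : ‖e‖ ≤ ρ)
    (hy : deriv θ z ≠ 0) {φ p : ℂ} (hφ : ‖φ - θ z‖ ≤ 1) (i1 : Inc θ H z φ p)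
    (i2 : Inc θ H (z + e) φ p) : φ = ph θ H z e ∧ p = pp θ H z e := by
  have hu := u_ne h g he he0
  have t1 := tau_le8 h g he
  obtain ⟨α, hα⟩ : ∃ α, α = φ - θ z := ⟨_, rfl⟩
  have hαχ : φ - θ (z + e) = α - chi θ z e := by simp only [hα, chi]; ring
  have i1' : deriv θ z * p = deriv θ z * H z * cos α + deriv H z * sin α := by
    rw [hα]; exact i1
  rw [← hα] at hφ
  have i2' : deriv θ (z + e) * p = deriv θ (z + e) * H (z + e) * cos (α - chi θ z e)
      + deriv H (z + e) * sin (α - chi θ z e) := by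
    have := i2
    unfold Inc at this
    rwa [hαχ] at this
  rw [cos_sub α, sin_sub α] at i2'
  -- `u sin α = y v cos α`
  have key : u θ H z e * sin α = deriv θ z * v θ H z e * cos α := by
    unfold u v
    linear_combination deriv θ z * i2' - deriv θ (z + e) * i1'
  have m1 := u_mul_tau h g he0 he
  have key2 : sin α = tau θ H z e * cos α := by
    apply mul_left_cancel₀ hu
    rw [key]
    linear_combination -cos α * m1
  have hαe : α = arctan (tau θ H z e) := by
    refine eq_of_exp ?_ ?_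
    · have := alp_le h g he
      have := norm_sub_le α (arctan (tau θ H z e))
      linarith
    · have hc : cos α ≠ 0 := by
        intro hc
        rw [hc, mul_zero] at key2
        have := sin_sq_add_cos_sq α
        rw [hc, key2] at this
        norm_num at this
      have e3 : exp (I * α) = cos α * (1 + I * tau θ H z e) := by
        rw [exp_eq_E, key2]; ring
      have e4 : exp (-(I * α)) = cos α * (1 - I * tau θ H z e) := by
        rw [exp_eq_E', key2]; ring
      have e5 : (2 : ℂ) * (I * α) = I * α - -(I * α) := by ring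
      have h4 : (1 - I * tau θ H z e) ≠ 0 := by
        intro h; rw [h, mul_zero] at e4; exact exp_ne_zero _ e4
      rw [exp_two_arctan t1, e5, exp_sub, e3, e4]
      field_simp
  have hφe : φ = ph θ H z e := by
    unfold ph
    rw [← hαe, hα]; ring
  refine ⟨hφe, ?_⟩
  apply mul_left_cancel₀ hy
  have j := inc_left h g he
  unfold Inc at j
  rw [← hφe, ← hα] at j
  rw [i1', j]

/-- three consecutive labels of a billiard chain: the last step is `st` -/
theorem st_of_refl (h : Ent θ H K) (g : Good θ K z ρ) {e x : ℂ} (he : ‖e‖ ≤ ρ / 2)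
    (hx : ‖x‖ ≤ ρ) (hy : deriv θ z ≠ 0) (hr : ph θ H z (-e) + ph θ H z x = 2 * θ z) :
    x = st θ H z e := by
  have hp := g.pos
  refine st_unique h g he hx ?_
  have t1 := tau_le8 h g (e := -e) (by rw [norm_neg]; linarith)
  have t2 := tau_le8 h g hx
  have h1 : arctan (tau θ H z x) = -arctan (tau θ H z (-e)) := by
    unfold ph at hr
    linear_combination hr
  have h2 : tau θ H z x = -tau θ H z (-e) := by
    have h3 := tan_arctan_small t2
    rw [h1, tan_neg, tan_arctan_small t1] at h3
    exact h3.symm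
  unfold tau at h2
  apply mul_left_cancel₀ hy
  linear_combination h2

/-! ## holomorphy of the lines -/

lemma tau_differentiableAt (h : Ent θ H K) (g : Good θ K z ρ) {e : ℂ} (he0 : e ≠ 0)
    (he : ‖e‖ ≤ ρ) : DifferentiableAt ℂ (fun q : ℂ × ℂ => tau θ H q.1 q.2) (z, e) := by
  have h1 : DifferentiableAt ℂ (fun q : ℂ × ℂ => R θ H q.1 q.2) (z, e) :=
    (R_contDiffAt h (p := (z, e)) (u_ne h g he he0)).differentiableAt (by norm_num)
  have h2 : DifferentiableAt ℂ (fun q : ℂ × ℂ => deriv θ q.1) (z, e) :=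
    DifferentiableAt.comp (g := deriv θ) (f := fun q : ℂ × ℂ => q.1) (z, e) (h.dθ1 z)
      differentiableAt_fst
  exact h2.mul h1

theorem ph_differentiableAt (h : Ent θ H K) (g : Good θ K z ρ) {e : ℂ} (he0 : e ≠ 0)
    (he : ‖e‖ ≤ ρ) : DifferentiableAt ℂ (fun q : ℂ × ℂ => ph θ H q.1 q.2) (z, e) := by
  have h1 := tau_differentiableAt h g he0 he
  have h2 : DifferentiableAt ℂ (fun q : ℂ × ℂ => arctan (tau θ H q.1 q.2)) (z, e) :=
    DifferentiableAt.comp (f := fun q : ℂ × ℂ => tau θ H q.1 q.2) (z, e)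
      (arctan_differentiableAt (tau_le8 h g he)) h1
  have h3 : DifferentiableAt ℂ (fun q : ℂ × ℂ => θ q.1) (z, e) :=
    (h.dθ z).comp (z, e) differentiableAt_fst
  exact h3.add h2

theorem pp_differentiableAt (h : Ent θ H K) (g : Good θ K z ρ) {e : ℂ} (he0 : e ≠ 0)
    (he : ‖e‖ ≤ ρ) : DifferentiableAt ℂ (fun q : ℂ × ℂ => pp θ H q.1 q.2) (z, e) := by
  have h1 := tau_differentiableAt h g he0 he
  have h2 : DifferentiableAt ℂ (fun q : ℂ × ℂ => arctan (tau θ H q.1 q.2)) (z, e) :=
    DifferentiableAt.comp (f := fun q : ℂ × ℂ => tau θ H q.1 q.2) (z, e)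
      (arctan_differentiableAt (tau_le8 h g he)) h1
  have h3 : DifferentiableAt ℂ (fun q : ℂ × ℂ => H q.1) (z, e) :=
    (h.dH z).comp (z, e) differentiableAt_fst
  have h4 : DifferentiableAt ℂ (fun q : ℂ × ℂ => deriv H q.1) (z, e) :=
    DifferentiableAt.comp (g := deriv H) (f := fun q : ℂ × ℂ => q.1) (z, e) (h.dH1 z)
      differentiableAt_fst
  have h5 : DifferentiableAt ℂ (fun q : ℂ × ℂ => R θ H q.1 q.2) (z, e) :=
    (R_contDiffAt h (p := (z, e)) (u_ne h g he he0)).differentiableAt (by norm_num)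
  exact h2.ccos.mul (h3.add (h4.mul h5))

end

end Crest.Agent.R102.StepE599
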