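import Crest.Agent.R102.StepE_599
import Crest.Agent.R102.GrowthDefs_314
import Crest.Agent.R102.StepL_599

-- ▼ part R102/StepEV_599
section

/-!
Row 102, T1-B, block GROWTH: the local billiard step in label coordinates on an open set `V`
(`StepE_599` with `Ent -> EntOn .. V`, `Good -> GoodOn .. V ..`; same names, namespace `StepV599`;
the functions `chi u v u1 v1 R st` are those of `StepE599`).
-/

set_option autoImplicit false
open Complex Metric Set Filter Topology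

noncomputable section
namespace Crest.Agent.R102.StepV599

open Crest.Agent.R102.StepE599 Crest.Agent.R102.Growth

section deriv
variable {θ H K : ℂ → ℂ} {V : Set ℂ}


lemma _root_.Crest.Agent.R102.Growth.EntOn.mono (h : EntOn θ H K V) {U : Set ℂ} (hU : IsOpen U)
    (hUV : U ⊆ V) : EntOn θ H K U :=
  ⟨hU, h.dθ.mono hUV, h.dH.mono hUV, h.dK.mono hUV, fun z hz => h.relH z (hUV hz),
    fun z hz => h.relK z (hUV hz)⟩

variable (h : EntOn θ H K V)
include h

lemma _root_.Crest.Agent.R102.Growth.EntOn.aθ {z : ℂ} (hz : z ∈ V) : AnalyticAt ℂ θ z :=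
  (h.dθ.analyticOnNhd h.Vo) z hz
lemma _root_.Crest.Agent.R102.Growth.EntOn.aH {z : ℂ} (hz : z ∈ V) : AnalyticAt ℂ H z :=
  (h.dH.analyticOnNhd h.Vo) z hz
lemma _root_.Crest.Agent.R102.Growth.EntOn.aK {z : ℂ} (hz : z ∈ V) : AnalyticAt ℂ K z :=
  (h.dK.analyticOnNhd h.Vo) z hz
lemma _root_.Crest.Agent.R102.Growth.EntOn.dθ0 {z : ℂ} (hz : z ∈ V) : DifferentiableAt ℂ θ z :=
  (h.aθ hz).differentiableAt
lemma _root_.Crest.Agent.R102.Growth.EntOn.dH0 {z : ℂ} (hz : z ∈ V) : DifferentiableAt ℂ H z :=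
  (h.aH hz).differentiableAt
lemma _root_.Crest.Agent.R102.Growth.EntOn.dK0 {z : ℂ} (hz : z ∈ V) : DifferentiableAt ℂ K z :=
  (h.aK hz).differentiableAt
lemma _root_.Crest.Agent.R102.Growth.EntOn.dθ1 {z : ℂ} (hz : z ∈ V) :
    DifferentiableAt ℂ (deriv θ) z := (h.aθ hz).deriv.differentiableAt
lemma _root_.Crest.Agent.R102.Growth.EntOn.dθ2 {z : ℂ} (hz : z ∈ V) :
    DifferentiableAt ℂ (deriv (deriv θ)) z := (h.aθ hz).deriv.deriv.differentiableAt
lemma _root_.Crest.Agent.R102.Growth.EntOn.dH1 {z : ℂ} (hz : z ∈ V) :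
    DifferentiableAt ℂ (deriv H) z := (h.aH hz).deriv.differentiableAt
lemma _root_.Crest.Agent.R102.Growth.EntOn.dH2 {z : ℂ} (hz : z ∈ V) :
    DifferentiableAt ℂ (deriv (deriv H)) z := (h.aH hz).deriv.deriv.differentiableAt

/-- third derivative of H -/
lemma _root_.Crest.Agent.R102.Growth.EntOn.H3 {z : ℂ} (hz : z ∈ V) :
    deriv (deriv (deriv H)) z
    = (K z - 3 * (deriv θ z) ^ 2) * deriv H z - 3 * deriv θ z * deriv (deriv θ) z * H z := by
  obtain ⟨r, hr, hrV⟩ := Metric.isOpen_iff.mp h.Vo z hz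
  have hprod : ∀ s ∈ ball z r, deriv θ s * (deriv (deriv (deriv H)) s
      - ((K s - 3 * (deriv θ s) ^ 2) * deriv H s - 3 * deriv θ s * deriv (deriv θ) s * H s)) = 0 := by
    intro s hs
    have hsV := hrV hs
    have h1 : HasDerivAt (fun s => deriv θ s * deriv (deriv H) s - deriv (deriv θ) s * deriv H s
        + (deriv θ s) ^ 3 * H s)
        (deriv (deriv θ) s * deriv (deriv H) s + deriv θ s * deriv (deriv (deriv H)) s
          - (deriv (deriv (deriv θ)) s * deriv H s + deriv (deriv θ) s * deriv (deriv H) s)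
          + (((3 : ℕ) : ℂ) * (deriv θ s) ^ (3 - 1) * deriv (deriv θ) s * H s
            + (deriv θ s) ^ 3 * deriv H s)) s := by
      refine HasDerivAt.add (HasDerivAt.sub ?_ ?_) ?_
      · exact (h.dθ1 hsV).hasDerivAt.mul (h.dH2 hsV).hasDerivAt
      · exact (h.dθ2 hsV).hasDerivAt.mul (h.dH1 hsV).hasDerivAt
      · exact ((h.dθ1 hsV).hasDerivAt.pow 3).mul (h.dH0 hsV).hasDerivAt
    have h2 : HasDerivAt (fun s => deriv θ s * deriv (deriv H) s - deriv (deriv θ) s * deriv H s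
        + (deriv θ s) ^ 3 * H s) 0 s := by
      refine (hasDerivAt_const s (-1 : ℂ)).congr_of_eventuallyEq ?_
      filter_upwards [h.Vo.mem_nhds hsV] with x hx using h.relH x hx
    have h3 := h1.unique h2
    rw [h.relK s hsV] at h3
    push_cast at h3
    linear_combination h3
  -- `y ≢ 0`
  have hA : AnalyticOnNhd ℂ (deriv θ) (ball z r) := fun s hs => (h.aθ (hrV hs)).deriv
  have hB : AnalyticOnNhd ℂ (fun s => deriv (deriv (deriv H)) s
      - ((K s - 3 * (deriv θ s) ^ 2) * deriv H s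
        - 3 * deriv θ s * deriv (deriv θ) s * H s)) (ball z r) := by
    intro s hs
    have hsV := hrV hs
    have a0 := h.aH hsV
    have a1 := (h.aH hsV).deriv
    have a3 := (h.aH hsV).deriv.deriv.deriv
    have b1 := (h.aθ hsV).deriv
    have b2 := (h.aθ hsV).deriv.deriv
    have k := h.aK hsV
    exact a3.sub (((k.sub (analyticAt_const.mul (b1.pow 2))).mul a1).sub
      (((analyticAt_const.mul b1).mul b2).mul a0))
  rcases AnalyticOnNhd.eq_zero_or_eq_zero_of_mul_eq_zero hA hB hprod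
      (convex_ball z r).isPreconnected with h0 | h0
  · exfalso
    have h5 := h.relH z hz
    have e0 : deriv θ =ᶠ[𝓝 z] fun _ => (0 : ℂ) := by
      filter_upwards [ball_mem_nhds z hr] with s hs using h0 s hs
    have e1 := e0.eq_of_nhds
    have e2 := e0.deriv_eq
    rw [e1, e2] at h5
    simp at h5
  · exact sub_eq_zero.mp (h0 z (mem_ball_self hr))

lemma _root_.Crest.Agent.R102.Growth.EntOn.chi_deriv {z e : ℂ} (hz : z + e ∈ V) :
    HasDerivAt (chi θ z) (deriv θ (z + e)) e := by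
  unfold chi
  exact ((h.dθ0 hz).hasDerivAt.comp_const_add z e).sub_const _

lemma _root_.Crest.Agent.R102.Growth.EntOn.u_deriv {z e : ℂ} (hz : z + e ∈ V) :
    HasDerivAt (u θ H z) (u1 θ H z e) e := by
  have hc := h.chi_deriv hz
  have ht1 := ((h.dθ1 hz).hasDerivAt.comp_const_add z e)
  have hH := ((h.dH0 hz).hasDerivAt.comp_const_add z e)
  have hH1 := ((h.dH1 hz).hasDerivAt.comp_const_add z e)
  have := (ht1.const_mul (deriv H z)).sub
    ((((ht1.mul hH).mul hc.csin).add (hH1.mul hc.ccos)).const_mul (deriv θ z))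
  refine this.congr_deriv ?_
  unfold u1
  simp only [Pi.mul_apply]
  ring

lemma _root_.Crest.Agent.R102.Growth.EntOn.v_deriv {z e : ℂ} (hz : z + e ∈ V) :
    HasDerivAt (v θ H z) (v1 θ H z e) e := by
  have hc := h.chi_deriv hz
  have ht1 := ((h.dθ1 hz).hasDerivAt.comp_const_add z e)
  have hH := ((h.dH0 hz).hasDerivAt.comp_const_add z e)
  have hH1 := ((h.dH1 hz).hasDerivAt.comp_const_add z e)
  have := (ht1.mul ((hH.mul hc.ccos).sub_const (H z))).sub (hH1.mul hc.csin)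
  refine this.congr_deriv ?_
  unfold v1
  simp only [Pi.mul_apply]
  ring

lemma _root_.Crest.Agent.R102.Growth.EntOn.u1_deriv {z e : ℂ} (hz : z + e ∈ V) :
    HasDerivAt (u1 θ H z)
    ((K (z + e) - 2 * (deriv θ (z + e)) ^ 2) * u θ H z e - deriv θ z * sin (chi θ z e)) e := by
  have hc := h.chi_deriv hz
  have ht1 := ((h.dθ1 hz).hasDerivAt.comp_const_add z e)
  have ht2 := ((h.dθ2 hz).hasDerivAt.comp_const_add z e)
  have hH := ((h.dH0 hz).hasDerivAt.comp_const_add z e)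
  have hH1 := ((h.dH1 hz).hasDerivAt.comp_const_add z e)
  have hH2 := ((h.dH2 hz).hasDerivAt.comp_const_add z e)
  have := (ht2.const_mul (deriv H z)).sub
    ((((ht2.mul hH).mul hc.csin).add ((((ht1.pow 2).mul hH).add hH2).mul hc.ccos)).const_mul
      (deriv θ z))
  refine this.congr_deriv ?_
  have r1 := h.relH (z + e) hz
  have r2 := h.relK (z + e) hz
  have r3 := h.H3 hz
  unfold u
  simp only [Pi.mul_apply, Pi.add_apply, Pi.pow_apply]
  rw [r2, r3]
  push_cast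
  linear_combination (deriv θ z * sin (chi θ z e)) * r1

lemma _root_.Crest.Agent.R102.Growth.EntOn.v1_deriv {z e : ℂ} (hz : z + e ∈ V) :
    HasDerivAt (v1 θ H z)
    ((K (z + e) - 2 * (deriv θ (z + e)) ^ 2) * v θ H z e + cos (chi θ z e)) e := by
  have hc := h.chi_deriv hz
  have ht1 := ((h.dθ1 hz).hasDerivAt.comp_const_add z e)
  have ht2 := ((h.dθ2 hz).hasDerivAt.comp_const_add z e)
  have hH := ((h.dH0 hz).hasDerivAt.comp_const_add z e)
  have hH1 := ((h.dH1 hz).hasDerivAt.comp_const_add z e)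
  have hH2 := ((h.dH2 hz).hasDerivAt.comp_const_add z e)
  have := (ht2.mul ((hH.mul hc.ccos).sub_const (H z))).sub ((((ht1.pow 2).mul hH).add hH2).mul hc.csin)
  refine this.congr_deriv ?_
  have r1 := h.relH (z + e) hz
  have r2 := h.relK (z + e) hz
  have r3 := h.H3 hz
  unfold v
  simp only [Pi.mul_apply, Pi.add_apply, Pi.pow_apply]
  rw [r2, r3]
  push_cast
  linear_combination (-cos (chi θ z e)) * r1

lemma _root_.Crest.Agent.R102.Growth.EntOn.u1_zero {z : ℂ} (hz : z ∈ V) : u1 θ H z 0 = 1 := by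
  have := h.relH z hz
  simp only [u1, chi, add_zero, sub_self, sin_zero, cos_zero, mul_zero, mul_one, zero_add]
  linear_combination -this

end deriv

section goodmem
variable {θ K : ℂ → ℂ} {V : Set ℂ} {z : ℂ} {ρ : ℝ}

lemma _root_.Crest.Agent.R102.Growth.GoodOn.memz (g : GoodOn θ K V z ρ) : z ∈ V :=
  g.sub (by simpa using g.pos.le)

lemma _root_.Crest.Agent.R102.Growth.GoodOn.mem (g : GoodOn θ K V z ρ) {s : ℂ} (hs : ‖s‖ ≤ ρ) :
    z + s ∈ V := g.sub (by simpa [dist_eq_norm] using hs)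


lemma _root_.Crest.Agent.R102.Growth.GoodOn.memneg (g : GoodOn θ K V z ρ) {s : ℂ} (hs : ‖s‖ ≤ ρ) :
    z + -s ∈ V := g.mem (by simpa using hs)


end goodmem

section local_
variable {θ H K : ℂ → ℂ} {V : Set ℂ} {z : ℂ} {ρ : ℝ}

lemma _root_.Crest.Agent.R102.Growth.GoodOn.y' (g : GoodOn θ K V z ρ) {s : ℂ} (hs : ‖s - z‖ ≤ ρ) : ‖deriv θ s‖ ≤ 1 / 200 / ρ := by
  rw [le_div_iff₀ g.pos]; exact g.y_le s hs

lemma _root_.Crest.Agent.R102.Growth.GoodOn.k' (g : GoodOn θ K V z ρ) {s : ℂ} (hs : ‖s - z‖ ≤ ρ) :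
    ‖K s - 2 * (deriv θ s) ^ 2‖ ≤ 1 / 100 / ρ ^ 2 := by
  have hp := g.pos
  rw [le_div_iff₀ (by positivity)]
  have h1 := g.y_le s hs
  have h2 := g.K_le s hs
  have h3 : ‖K s - 2 * (deriv θ s) ^ 2‖ ≤ ‖K s‖ + 2 * ‖deriv θ s‖ ^ 2 := by
    refine (norm_sub_le _ _).trans (le_of_eq ?_)
    rw [norm_mul, norm_pow]; simp
  have h4 : (‖deriv θ s‖ * ρ) ^ 2 ≤ (1 / 200) ^ 2 := pow_le_pow_left₀ (by positivity) h1 2
  calc ‖K s - 2 * (deriv θ s) ^ 2‖ * ρ ^ 2 ≤ (‖K s‖ + 2 * ‖deriv θ s‖ ^ 2) * ρ ^ 2 :=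
        mul_le_mul_of_nonneg_right h3 (by positivity)
    _ = ‖K s‖ * ρ ^ 2 + 2 * (‖deriv θ s‖ * ρ) ^ 2 := by ring
    _ ≤ 1 / 100 := by linarith

lemma chi_le (h : EntOn θ H K V) (g : GoodOn θ K V z ρ) {s : ℂ} (hs : ‖s‖ ≤ ρ) :
    ‖chi θ z s‖ ≤ 1 / 200 / ρ * ‖s‖ := by
  have := (convex_closedBall z ρ).norm_image_sub_le_of_norm_hasDerivWithin_le
      (f := θ) (f' := deriv θ) (C := 1 / 200 / ρ)
      (fun x hx => (h.dθ0 (g.sub hx)).hasDerivAt.hasDerivWithinAt)
      (fun x hx => g.y' (by simpa [dist_eq_norm] using hx)) (x := z) (y := z + s)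
      (by simpa using g.pos.le) (by simpa [dist_eq_norm] using hs)
  simpa [chi] using this

lemma chi_le_one (h : EntOn θ H K V) (g : GoodOn θ K V z ρ) {s : ℂ} (hs : ‖s‖ ≤ ρ) :
    ‖chi θ z s‖ ≤ 1 / 200 := by
  have hp := g.pos
  refine (chi_le h g hs).trans ?_
  rw [div_mul_eq_mul_div, div_le_iff₀ hp]
  nlinarith

/-- `u = e + ..` -/
lemma u_near (h : EntOn θ H K V) (g : GoodOn θ K V z ρ) {s : ℂ} (hs : ‖s‖ ≤ ρ) :
    ‖u θ H z s - s‖ ≤ 22 / 1000 * (‖s‖ ^ 3 / ρ ^ 2) ∧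
    ‖u1 θ H z s - 1‖ ≤ 22 / 1000 * (‖s‖ ^ 2 / ρ ^ 2) := by
  have hp := g.pos
  set r := ‖s‖ with hr
  have hr0 : 0 ≤ r := norm_nonneg _
  have key := small_sol (f := fun s => u θ H z s - s) (f1 := fun s => u1 θ H z s - 1)
    (f2 := fun s => (K (z + s) - 2 * (deriv θ (z + s)) ^ 2) * u θ H z s
      - deriv θ z * sin (chi θ z s)) (ρ := r) (c := 1 / 100 / ρ ^ 2) (B := 11 / 1000 * (r / ρ ^ 2))
    hr0 (by positivity) (by positivity)
    (by
      rw [div_mul_eq_mul_div, div_le_iff₀ (by positivity)]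
      have : r ^ 2 ≤ ρ ^ 2 := pow_le_pow_left₀ hr0 hs 2
      nlinarith)
    (fun x hx => (h.u_deriv (g.mem (hx.trans hs))).sub (hasDerivAt_id x))
    (fun x hx => (h.u1_deriv (g.mem (hx.trans hs))).sub_const 1)
    (by simp [u_zero]) (by simp [h.u1_zero g.memz])
    (by
      intro x hx
      have hxρ : ‖x‖ ≤ ρ := hx.trans hs
      have hzx : ‖z + x - z‖ ≤ ρ := by simpa using hxρ
      have hk := g.k' hzx
      have hy := g.y' (s := z) (by simpa using hp.le)
      have hχ := chi_le h g hxρ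
      have hχ1 : ‖chi θ z x‖ ≤ 1 := (chi_le_one h g hxρ).trans (by norm_num)
      have hsin := norm_sin_le3 hχ1
      have e1 : (K (z + x) - 2 * (deriv θ (z + x)) ^ 2) * u θ H z x
          - deriv θ z * sin (chi θ z x)
          = (K (z + x) - 2 * (deriv θ (z + x)) ^ 2) * (u θ H z x - x)
            + (K (z + x) - 2 * (deriv θ (z + x)) ^ 2) * x - deriv θ z * sin (chi θ z x) := by ring
      rw [e1]
      have t1 : ‖(K (z + x) - 2 * (deriv θ (z + x)) ^ 2) * (u θ H z x - x)‖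
          ≤ 1 / 100 / ρ ^ 2 * ‖u θ H z x - x‖ := by
        rw [norm_mul]; exact mul_le_mul_of_nonneg_right hk (norm_nonneg _)
      have t2 : ‖(K (z + x) - 2 * (deriv θ (z + x)) ^ 2) * x‖ ≤ 1 / 100 / ρ ^ 2 * r := by
        rw [norm_mul]; exact mul_le_mul hk hx (norm_nonneg _) (by positivity)
      have t3 : ‖deriv θ z * sin (chi θ z x)‖ ≤ 1 / 200 / ρ * (3 * (1 / 200 / ρ * r)) := by
        rw [norm_mul]
        refine mul_le_mul hy (hsin.trans ?_) (norm_nonneg _) (by positivity)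
        have : 1 / 200 / ρ * ‖x‖ ≤ 1 / 200 / ρ * r := mul_le_mul_of_nonneg_left hx (by positivity)
        linarith
      have t4 : 1 / 100 / ρ ^ 2 * r + 1 / 200 / ρ * (3 * (1 / 200 / ρ * r))
          ≤ 11 / 1000 * (r / ρ ^ 2) := by
        have : 1 / 100 / ρ ^ 2 * r + 1 / 200 / ρ * (3 * (1 / 200 / ρ * r))
          = (1 / 100 + 3 / 40000) * (r / ρ ^ 2) := by field_simp; ring
        rw [this]
        exact mul_le_mul_of_nonneg_right (by norm_num) (by positivity)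
      refine (norm_sub_le _ _).trans ?_
      refine (add_le_add (norm_add_le _ _) le_rfl).trans ?_
      linarith)
  refine ⟨?_, ?_⟩
  · have := key.1 s le_rfl
    refine this.trans (le_of_eq ?_)
    field_simp; ring
  · have := key.2 s le_rfl
    refine this.trans (le_of_eq ?_)
    field_simp; ring

/-- `v = e²/2 + ..` -/
lemma v_near (h : EntOn θ H K V) (g : GoodOn θ K V z ρ) {s : ℂ} (hs : ‖s‖ ≤ ρ) :
    ‖v θ H z s - s ^ 2 / 2‖ ≤ 11 / 1000 * (‖s‖ ^ 4 / ρ ^ 2) ∧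
    ‖v1 θ H z s - s‖ ≤ 11 / 1000 * (‖s‖ ^ 3 / ρ ^ 2) := by
  have hp := g.pos
  set r := ‖s‖ with hr
  have hr0 : 0 ≤ r := norm_nonneg _
  have key := small_sol (f := fun s => v θ H z s - s ^ 2 / 2) (f1 := fun s => v1 θ H z s - s)
    (f2 := fun s => (K (z + s) - 2 * (deriv θ (z + s)) ^ 2) * v θ H z s
      + cos (chi θ z s) - 1) (ρ := r) (c := 1 / 100 / ρ ^ 2) (B := 11 / 2000 * (r ^ 2 / ρ ^ 2))
    hr0 (by positivity) (by positivity)
    (by
      rw [div_mul_eq_mul_div, div_le_iff₀ (by positivity)]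
      have : r ^ 2 ≤ ρ ^ 2 := pow_le_pow_left₀ hr0 hs 2
      nlinarith)
    (fun x hx => by
      refine ((h.v_deriv (g.mem (hx.trans hs))).sub
        ((hasDerivAt_id x).pow 2 |>.div_const 2)).congr_deriv ?_
      simp)
    (fun x hx => (h.v1_deriv (g.mem (hx.trans hs))).sub (hasDerivAt_id x))
    (by simp [v_zero]) (by simp [v1_zero])
    (by
      intro x hx
      have hxρ : ‖x‖ ≤ ρ := hx.trans hs
      have hzx : ‖z + x - z‖ ≤ ρ := by simpa using hxρ
      have hk := g.k' hzx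
      have hχ := chi_le h g hxρ
      have hχ1 : ‖chi θ z x‖ ≤ 1 := (chi_le_one h g hxρ).trans (by norm_num)
      have hcos := norm_cos_sub_one_le hχ1
      have e1 : (K (z + x) - 2 * (deriv θ (z + x)) ^ 2) * v θ H z x
          + cos (chi θ z x) - 1
          = (K (z + x) - 2 * (deriv θ (z + x)) ^ 2) * (v θ H z x - x ^ 2 / 2)
            + (K (z + x) - 2 * (deriv θ (z + x)) ^ 2) * (x ^ 2 / 2) + (cos (chi θ z x) - 1) := by
        ring
      rw [e1]
      have t1 : ‖(K (z + x) - 2 * (deriv θ (z + x)) ^ 2) * (v θ H z x - x ^ 2 / 2)‖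
          ≤ 1 / 100 / ρ ^ 2 * ‖v θ H z x - x ^ 2 / 2‖ := by
        rw [norm_mul]; exact mul_le_mul_of_nonneg_right hk (norm_nonneg _)
      have t2 : ‖(K (z + x) - 2 * (deriv θ (z + x)) ^ 2) * (x ^ 2 / 2)‖
          ≤ 1 / 100 / ρ ^ 2 * (r ^ 2 / 2) := by
        rw [norm_mul]
        refine mul_le_mul hk ?_ (norm_nonneg _) (by positivity)
        rw [norm_div, norm_pow]
        have := pow_le_pow_left₀ (norm_nonneg _) hx 2
        simp only [Complex.norm_ofNat]
        linarith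
      have t3 : ‖cos (chi θ z x) - 1‖ ≤ 3 * (1 / 200 / ρ * r) ^ 2 := by
        refine hcos.trans ?_
        have : ‖chi θ z x‖ ≤ 1 / 200 / ρ * r :=
          hχ.trans (mul_le_mul_of_nonneg_left hx (by positivity))
        have := pow_le_pow_left₀ (norm_nonneg _) this 2
        linarith
      have t4 : 1 / 100 / ρ ^ 2 * (r ^ 2 / 2) + 3 * (1 / 200 / ρ * r) ^ 2
          ≤ 11 / 2000 * (r ^ 2 / ρ ^ 2) := by
        have : 1 / 100 / ρ ^ 2 * (r ^ 2 / 2) + 3 * (1 / 200 / ρ * r) ^ 2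
          = (1 / 200 + 3 / 40000) * (r ^ 2 / ρ ^ 2) := by field_simp; ring
        rw [this]
        exact mul_le_mul_of_nonneg_right (by norm_num) (by positivity)
      refine (norm_add_le _ _).trans ?_
      refine (add_le_add (norm_add_le _ _) le_rfl).trans ?_
      linarith)
  refine ⟨?_, ?_⟩
  · have := key.1 s le_rfl
    refine this.trans (le_of_eq ?_)
    field_simp; ring
  · have := key.2 s le_rfl
    refine this.trans (le_of_eq ?_)
    field_simp; ring

lemma chi_le_b (h : EntOn θ H K V) {r b0 b1 a1 : ℝ} (hV : closedBall z r ⊆ V)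
    (b : Bd θ K z r b0 b1 a1) {s : ℂ}
    (hs : ‖s‖ ≤ r) : ‖chi θ z s‖ ≤ b0 * ‖s‖ := by
  have := (convex_closedBall z r).norm_image_sub_le_of_norm_hasDerivWithin_le
      (f := θ) (f' := deriv θ) (C := b0)
      (fun x hx => (h.dθ0 (hV hx)).hasDerivAt.hasDerivWithinAt)
      (fun x hx => b.y_le _ (by simpa [dist_eq_norm] using hx)) (x := z) (y := z + s)
      (by simpa using (norm_nonneg s).trans hs) (by simpa [dist_eq_norm] using hs)
  simpa [chi] using this

/-- `χ(e) + χ(-e)` is of second order -/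
lemma chi_even_le (h : EntOn θ H K V) {r b0 b1 a1 : ℝ} (hV : closedBall z r ⊆ V)
    (b : Bd θ K z r b0 b1 a1) {s : ℂ}
    (hs : ‖s‖ ≤ r) : ‖chi θ z s + chi θ z (-s)‖ ≤ 2 * b1 * ‖s‖ ^ 2 := by
  have hb := b.nonneg ((norm_nonneg s).trans hs)
  -- derivative `y (z+s) - y (z-s)`
  have hy : ∀ x : ℂ, ‖x‖ ≤ r → ‖deriv θ (z + x) - deriv θ (z + -x)‖ ≤ 2 * b1 * ‖x‖ := by
    intro x hx
    have := (convex_closedBall z r).norm_image_sub_le_of_norm_hasDerivWithin_le
      (f := deriv θ) (f' := deriv (deriv θ)) (C := b1)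
      (fun x hx => (h.dθ1 (hV hx)).hasDerivAt.hasDerivWithinAt)
      (fun x hx => b.y1_le _ (by simpa [dist_eq_norm] using hx)) (x := z + -x) (y := z + x)
      (by simpa [dist_eq_norm] using hx) (by simpa [dist_eq_norm] using hx)
    refine this.trans (le_of_eq ?_)
    have : z + x - (z + -x) = 2 * x := by ring
    rw [this, norm_mul]; simp; ring
  have := (convex_closedBall (0 : ℂ) ‖s‖).norm_image_sub_le_of_norm_hasDerivWithin_le
      (f := fun x => chi θ z x + chi θ z (-x)) (f' := fun x => deriv θ (z + x) - deriv θ (z + -x))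
      (C := 2 * b1 * ‖s‖)
      (fun x hx => by
        have hx1 : ‖x‖ ≤ r := (show ‖x‖ ≤ ‖s‖ by simpa using hx).trans hs
        have h1 := h.chi_deriv (z := z) (e := x) (hV (by simpa [dist_eq_norm] using hx1))
        have h2 := (h.chi_deriv (z := z) (e := -x)
          (hV (by simpa [dist_eq_norm] using hx1))).scomp x (hasDerivAt_neg x)
        have := h1.add h2
        refine (this.congr_deriv ?_).hasDerivWithinAt
        simp [sub_eq_add_neg])
      (fun x hx => by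
        have hx' : ‖x‖ ≤ ‖s‖ := by simpa using hx
        exact (hy x (hx'.trans hs)).trans (mul_le_mul_of_nonneg_left hx' (by linarith [hb.2.1])))
      (x := 0) (y := s) (by simp) (by simp)
  simp only [neg_zero, chi_zero, add_zero, sub_zero] at this
  refine this.trans (le_of_eq (by ring))

lemma k_diff_le (h : EntOn θ H K V) {r b0 b1 a1 : ℝ} (hV : closedBall z r ⊆ V)
    (b : Bd θ K z r b0 b1 a1) {s : ℂ}
    (hs : ‖s‖ ≤ r) : ‖(K (z + s) - 2 * (deriv θ (z + s)) ^ 2)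
      - (K (z + -s) - 2 * (deriv θ (z + -s)) ^ 2)‖ ≤ (a1 + 4 * b0 * b1) * (2 * ‖s‖) := by
  have hb := b.nonneg ((norm_nonneg s).trans hs)
  have := (convex_closedBall z r).norm_image_sub_le_of_norm_hasDerivWithin_le
      (f := fun x => K x - 2 * (deriv θ x) ^ 2)
      (f' := fun x => deriv K x - 4 * deriv θ x * deriv (deriv θ) x) (C := a1 + 4 * b0 * b1)
      (fun x hx => by
        have h1 := (h.dK0 (hV hx)).hasDerivAt.sub (((h.dθ1 (hV hx)).hasDerivAt.pow 2).const_mul 2)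
        refine (h1.congr_deriv ?_).hasDerivWithinAt
        push_cast; ring)
      (fun x hx => by
        have hx' : ‖x - z‖ ≤ r := by simpa [dist_eq_norm] using hx
        refine (norm_sub_le _ _).trans ?_
        rw [norm_mul, norm_mul]
        have e1 := b.y_le x hx'
        have e2 := b.y1_le x hx'
        have e3 := b.K1_le x hx'
        simp only [Complex.norm_ofNat]
        have : 4 * ‖deriv θ x‖ * ‖deriv (deriv θ) x‖ ≤ 4 * b0 * b1 :=
          mul_le_mul (by linarith) e2 (norm_nonneg _) (by linarith [hb.1])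
        linarith)
      (x := z + -s) (y := z + s)
      (by simpa [dist_eq_norm] using hs) (by simpa [dist_eq_norm] using hs)
  refine this.trans (le_of_eq ?_)
  have : z + s - (z + -s) = 2 * s := by ring
  rw [this, norm_mul]; simp

/-- the even part of `u` is of fourth order -/
lemma u_even_le (h : EntOn θ H K V) (g : GoodOn θ K V z ρ) {b0 b1 a1 : ℝ} {s : ℂ} (hs : ‖s‖ ≤ ρ)
    (b : Bd θ K z ‖s‖ b0 b1 a1) :
    ‖u θ H z s + u θ H z (-s)‖ ≤ 68 * (a1 + b0 * b1) * ‖s‖ ^ 4 := by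
  have hp := g.pos
  have hb := b.nonneg (norm_nonneg s)
  obtain ⟨hb0, hb1, ha1⟩ := hb
  have hVr : closedBall z ‖s‖ ⊆ V := (closedBall_subset_closedBall hs).trans g.sub
  set r := ‖s‖ with hr
  have hr0 : 0 ≤ r := norm_nonneg _
  have key := small_sol (f := fun s => u θ H z s + u θ H z (-s))
    (f1 := fun s => u1 θ H z s - u1 θ H z (-s))
    (f2 := fun s => ((K (z + s) - 2 * (deriv θ (z + s)) ^ 2) * u θ H z s
      - deriv θ z * sin (chi θ z s)) + ((K (z + -s) - 2 * (deriv θ (z + -s)) ^ 2) * u θ H z (-s)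
      - deriv θ z * sin (chi θ z (-s)))) (ρ := r) (c := 1 / 100 / ρ ^ 2)
    (B := 34 * (a1 + b0 * b1) * r ^ 2)
    hr0 (by positivity) (by positivity)
    (by
      rw [div_mul_eq_mul_div, div_le_iff₀ (by positivity)]
      have : r ^ 2 ≤ ρ ^ 2 := pow_le_pow_left₀ hr0 hs 2
      nlinarith)
    (fun x hx => by
      have h2 := (h.u_deriv (g.memneg (hx.trans hs))).scomp x (hasDerivAt_neg x)
      refine ((h.u_deriv (g.mem (hx.trans hs))).add h2).congr_deriv ?_
      simp [sub_eq_add_neg])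
    (fun x hx => by
      have h2 := (h.u1_deriv (g.memneg (hx.trans hs))).scomp x (hasDerivAt_neg x)
      refine ((h.u1_deriv (g.mem (hx.trans hs))).sub h2).congr_deriv ?_
      simp; ring)
    (by simp [u_zero]) (by simp [h.u1_zero g.memz])
    (by
      intro x hx
      have hxρ : ‖x‖ ≤ ρ := hx.trans hs
      have hzx : ‖z + x - z‖ ≤ ρ := by simpa using hxρ
      have hk := g.k' hzx
      have hy := b.y_le z (by simpa using hr0)
      have hkd := k_diff_le h hVr b hx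
      have hce := chi_even_le h hVr b hx
      have c1 : ‖chi θ z x‖ ≤ 1 := (chi_le_one h g hxρ).trans (by norm_num)
      have c2 : ‖chi θ z (-x)‖ ≤ 1 :=
        (chi_le_one h g (s := -x) (by simpa using hxρ)).trans (by norm_num)
      have hss := sin_add_sin_le c1 c2
      have hu : ‖u θ H z (-x)‖ ≤ 2 * r := by
        have := (u_near h g (s := -x) (by simpa using hxρ)).1
        rw [norm_neg] at this
        have e2 : ‖u θ H z (-x)‖ ≤ ‖u θ H z (-x) - -x‖ + ‖x‖ := by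
          have := norm_add_le (u θ H z (-x) - -x) (-x)
          simpa using this
        have e3 : ‖x‖ ^ 3 / ρ ^ 2 ≤ r := by
          rw [div_le_iff₀ (by positivity)]
          have : ‖x‖ ^ 2 ≤ ρ ^ 2 := pow_le_pow_left₀ (norm_nonneg _) hxρ 2
          calc ‖x‖ ^ 3 = ‖x‖ * ‖x‖ ^ 2 := by ring
            _ ≤ r * ρ ^ 2 := mul_le_mul hx this (by positivity) hr0
        linarith
      have e1 : ((K (z + x) - 2 * (deriv θ (z + x)) ^ 2) * u θ H z x
          - deriv θ z * sin (chi θ z x)) + ((K (z + -x) - 2 * (deriv θ (z + -x)) ^ 2)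
            * u θ H z (-x) - deriv θ z * sin (chi θ z (-x)))
          = (K (z + x) - 2 * (deriv θ (z + x)) ^ 2) * (u θ H z x + u θ H z (-x))
            - ((K (z + x) - 2 * (deriv θ (z + x)) ^ 2)
              - (K (z + -x) - 2 * (deriv θ (z + -x)) ^ 2)) * u θ H z (-x)
            - deriv θ z * (sin (chi θ z x) + sin (chi θ z (-x))) := by ring
      rw [e1]
      have t1 : ‖(K (z + x) - 2 * (deriv θ (z + x)) ^ 2) * (u θ H z x + u θ H z (-x))‖
          ≤ 1 / 100 / ρ ^ 2 * ‖u θ H z x + u θ H z (-x)‖ := by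
        rw [norm_mul]; exact mul_le_mul_of_nonneg_right hk (norm_nonneg _)
      have t2 : ‖((K (z + x) - 2 * (deriv θ (z + x)) ^ 2)
              - (K (z + -x) - 2 * (deriv θ (z + -x)) ^ 2)) * u θ H z (-x)‖
          ≤ ((a1 + 4 * b0 * b1) * (2 * r)) * (2 * r) := by
        rw [norm_mul]
        refine mul_le_mul (hkd.trans ?_) hu (norm_nonneg _) (by positivity)
        exact mul_le_mul_of_nonneg_left (by linarith) (by positivity)
      have t3 : ‖deriv θ z * (sin (chi θ z x) + sin (chi θ z (-x)))‖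
          ≤ b0 * (9 * (2 * b1 * r ^ 2)) := by
        rw [norm_mul]
        refine mul_le_mul hy (hss.trans ?_) (norm_nonneg _) hb0
        have : ‖x‖ ^ 2 ≤ r ^ 2 := pow_le_pow_left₀ (norm_nonneg _) hx 2
        have : 2 * b1 * ‖x‖ ^ 2 ≤ 2 * b1 * r ^ 2 := mul_le_mul_of_nonneg_left this (by positivity)
        linarith
      have t4 : ((a1 + 4 * b0 * b1) * (2 * r)) * (2 * r) + b0 * (9 * (2 * b1 * r ^ 2))
          ≤ 34 * (a1 + b0 * b1) * r ^ 2 := by
        have : 0 ≤ a1 * r ^ 2 := by positivity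
        nlinarith
      refine (norm_sub_le _ _).trans ?_
      refine (add_le_add (norm_sub_le _ _) le_rfl).trans ?_
      linarith)
  have := key.1 s le_rfl
  refine this.trans (le_of_eq ?_)
  ring

/-- the odd part of `v` is of fifth order -/
lemma v_odd_le (h : EntOn θ H K V) (g : GoodOn θ K V z ρ) {b0 b1 a1 : ℝ} {s : ℂ} (hs : ‖s‖ ≤ ρ)
    (b : Bd θ K z ‖s‖ b0 b1 a1) :
    ‖v θ H z s - v θ H z (-s)‖ ≤ 52 * (a1 + b0 * b1) * ‖s‖ ^ 5 := by
  have hp := g.pos
  have hb := b.nonneg (norm_nonneg s)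
  obtain ⟨hb0, hb1, ha1⟩ := hb
  have hVr : closedBall z ‖s‖ ⊆ V := (closedBall_subset_closedBall hs).trans g.sub
  set r := ‖s‖ with hr
  have hr0 : 0 ≤ r := norm_nonneg _
  have key := small_sol (f := fun s => v θ H z s - v θ H z (-s))
    (f1 := fun s => v1 θ H z s + v1 θ H z (-s))
    (f2 := fun s => ((K (z + s) - 2 * (deriv θ (z + s)) ^ 2) * v θ H z s
      + cos (chi θ z s)) - ((K (z + -s) - 2 * (deriv θ (z + -s)) ^ 2) * v θ H z (-s)
      + cos (chi θ z (-s)))) (ρ := r) (c := 1 / 100 / ρ ^ 2)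
    (B := 26 * (a1 + b0 * b1) * r ^ 3)
    hr0 (by positivity) (by positivity)
    (by
      rw [div_mul_eq_mul_div, div_le_iff₀ (by positivity)]
      have : r ^ 2 ≤ ρ ^ 2 := pow_le_pow_left₀ hr0 hs 2
      nlinarith)
    (fun x hx => by
      have h2 := (h.v_deriv (g.memneg (hx.trans hs))).scomp x (hasDerivAt_neg x)
      refine ((h.v_deriv (g.mem (hx.trans hs))).sub h2).congr_deriv ?_
      simp)
    (fun x hx => by
      have h2 := (h.v1_deriv (g.memneg (hx.trans hs))).scomp x (hasDerivAt_neg x)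
      refine ((h.v1_deriv (g.mem (hx.trans hs))).add h2).congr_deriv ?_
      simp; ring)
    (by simp [v_zero]) (by simp [v1_zero])
    (by
      intro x hx
      have hxρ : ‖x‖ ≤ ρ := hx.trans hs
      have hzx : ‖z + x - z‖ ≤ ρ := by simpa using hxρ
      have hk := g.k' hzx
      have hkd := k_diff_le h hVr b hx
      have hce := chi_even_le h hVr b hx
      have c1 : ‖chi θ z x‖ ≤ 1 := (chi_le_one h g hxρ).trans (by norm_num)
      have c2 : ‖chi θ z (-x)‖ ≤ 1 :=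
        (chi_le_one h g (s := -x) (by simpa using hxρ)).trans (by norm_num)
      have d1 := chi_le_b h hVr b hx
      have d2 := chi_le_b h hVr b (s := -x) (by simpa using hx)
      rw [norm_neg] at d2
      have hcc := cos_sub_cos_le c1 c2
      have hv : ‖v θ H z (-x)‖ ≤ r ^ 2 := by
        have := (v_near h g (s := -x) (by simpa using hxρ)).1
        rw [norm_neg] at this
        have e2 : ‖v θ H z (-x)‖ ≤ ‖v θ H z (-x) - (-x) ^ 2 / 2‖ + ‖x‖ ^ 2 / 2 := by
          have := norm_add_le (v θ H z (-x) - (-x) ^ 2 / 2) ((-x) ^ 2 / 2)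
          have e4 : ‖(-x) ^ 2 / 2‖ = ‖x‖ ^ 2 / 2 := by
            rw [norm_div, norm_pow, norm_neg]; simp
          rw [e4] at this
          simpa using this
        have e3 : ‖x‖ ^ 4 / ρ ^ 2 ≤ r ^ 2 := by
          rw [div_le_iff₀ (by positivity)]
          have h5 : ‖x‖ ^ 2 ≤ ρ ^ 2 := pow_le_pow_left₀ (norm_nonneg _) hxρ 2
          have h6 : ‖x‖ ^ 2 ≤ r ^ 2 := pow_le_pow_left₀ (norm_nonneg _) hx 2
          calc ‖x‖ ^ 4 = ‖x‖ ^ 2 * ‖x‖ ^ 2 := by ring
            _ ≤ r ^ 2 * ρ ^ 2 := mul_le_mul h6 h5 (by positivity) (by positivity)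
        have h6 : ‖x‖ ^ 2 ≤ r ^ 2 := pow_le_pow_left₀ (norm_nonneg _) hx 2
        have h7 : 0 ≤ r ^ 2 := by positivity
        linarith
      have e1 : ((K (z + x) - 2 * (deriv θ (z + x)) ^ 2) * v θ H z x
          + cos (chi θ z x)) - ((K (z + -x) - 2 * (deriv θ (z + -x)) ^ 2)
            * v θ H z (-x) + cos (chi θ z (-x)))
          = (K (z + x) - 2 * (deriv θ (z + x)) ^ 2) * (v θ H z x - v θ H z (-x))
            + ((K (z + x) - 2 * (deriv θ (z + x)) ^ 2)
              - (K (z + -x) - 2 * (deriv θ (z + -x)) ^ 2)) * v θ H z (-x)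
            + (cos (chi θ z x) - cos (chi θ z (-x))) := by ring
      rw [e1]
      have t1 : ‖(K (z + x) - 2 * (deriv θ (z + x)) ^ 2) * (v θ H z x - v θ H z (-x))‖
          ≤ 1 / 100 / ρ ^ 2 * ‖v θ H z x - v θ H z (-x)‖ := by
        rw [norm_mul]; exact mul_le_mul_of_nonneg_right hk (norm_nonneg _)
      have t2 : ‖((K (z + x) - 2 * (deriv θ (z + x)) ^ 2)
              - (K (z + -x) - 2 * (deriv θ (z + -x)) ^ 2)) * v θ H z (-x)‖
          ≤ ((a1 + 4 * b0 * b1) * (2 * r)) * r ^ 2 := by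
        rw [norm_mul]
        refine mul_le_mul (hkd.trans ?_) hv (norm_nonneg _) (by positivity)
        exact mul_le_mul_of_nonneg_left (by linarith) (by positivity)
      have t3 : ‖cos (chi θ z x) - cos (chi θ z (-x))‖
          ≤ 9 / 2 * ((2 * b1 * r ^ 2) * (2 * b0 * r)) := by
        refine hcc.trans ?_
        have h7 : ‖x‖ ^ 2 ≤ r ^ 2 := pow_le_pow_left₀ (norm_nonneg _) hx 2
        have h8 : 2 * b1 * ‖x‖ ^ 2 ≤ 2 * b1 * r ^ 2 := mul_le_mul_of_nonneg_left h7 (by positivity)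
        have h9 : ‖chi θ z x - chi θ z (-x)‖ ≤ 2 * b0 * r := by
          refine (norm_sub_le _ _).trans ?_
          have : b0 * ‖x‖ ≤ b0 * r := mul_le_mul_of_nonneg_left hx hb0
          linarith
        have : ‖chi θ z x + chi θ z (-x)‖ * ‖chi θ z x - chi θ z (-x)‖
            ≤ (2 * b1 * r ^ 2) * (2 * b0 * r) :=
          mul_le_mul (hce.trans h8) h9 (norm_nonneg _) (by positivity)
        linarith
      have t4 : ((a1 + 4 * b0 * b1) * (2 * r)) * r ^ 2 + 9 / 2 * ((2 * b1 * r ^ 2) * (2 * b0 * r))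
          ≤ 26 * (a1 + b0 * b1) * r ^ 3 := by
        have : 0 ≤ a1 * r ^ 3 := by positivity
        nlinarith
      refine (norm_add_le _ _).trans ?_
      refine (add_le_add (norm_add_le _ _) le_rfl).trans ?_
      linarith)
  have := key.1 s le_rfl
  refine this.trans (le_of_eq ?_)
  ring

lemma u_ge (h : EntOn θ H K V) (g : GoodOn θ K V z ρ) {s : ℂ} (hs : ‖s‖ ≤ ρ) :
    978 / 1000 * ‖s‖ ≤ ‖u θ H z s‖ := by
  have h1 := (u_near h g hs).1
  have h2 := cube_le g.pos hs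
  have h3 : ‖s‖ ≤ ‖u θ H z s‖ + ‖u θ H z s - s‖ := by
    have := norm_sub_le (u θ H z s) (u θ H z s - s)
    simpa using this
  linarith

lemma u_ne (h : EntOn θ H K V) (g : GoodOn θ K V z ρ) {s : ℂ} (hs : ‖s‖ ≤ ρ) (h0 : s ≠ 0) :
    u θ H z s ≠ 0 := by
  have h1 := u_ge h g hs
  have h2 : 0 < ‖s‖ := norm_pos_iff.mpr h0
  intro h3
  rw [h3, norm_zero] at h1
  linarith

lemma u_le (h : EntOn θ H K V) (g : GoodOn θ K V z ρ) {s : ℂ} (hs : ‖s‖ ≤ ρ) :
    ‖u θ H z s‖ ≤ 1022 / 1000 * ‖s‖ := by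
  have h1 := (u_near h g hs).1
  have h2 := cube_le g.pos hs
  have h3 : ‖u θ H z s‖ ≤ ‖s‖ + ‖u θ H z s - s‖ := by
    have := norm_add_le s (u θ H z s - s)
    simpa using this
  linarith

lemma v_le (h : EntOn θ H K V) (g : GoodOn θ K V z ρ) {s : ℂ} (hs : ‖s‖ ≤ ρ) :
    ‖v θ H z s‖ ≤ 511 / 1000 * ‖s‖ ^ 2 := by
  have h1 := (v_near h g hs).1
  have h2 := fourth_le g.pos hs
  have h3 : ‖v θ H z s‖ ≤ ‖s‖ ^ 2 / 2 + ‖v θ H z s - s ^ 2 / 2‖ := by
    have := norm_add_le (s ^ 2 / 2) (v θ H z s - s ^ 2 / 2)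
    have e : ‖s ^ 2 / 2‖ = ‖s‖ ^ 2 / 2 := by rw [norm_div, norm_pow]; simp
    rw [e] at this
    simpa using this
  linarith

lemma R_near (h : EntOn θ H K V) (g : GoodOn θ K V z ρ) {s : ℂ} (hs : ‖s‖ ≤ ρ) :
    ‖R θ H z s - s / 2‖ ≤ 23 / 1000 * (‖s‖ ^ 3 / ρ ^ 2) := by
  by_cases h0 : s = 0
  · subst h0; simp [R_zero]
  have hp := g.pos
  have hu := u_ne h g hs h0
  have hs0 : 0 < ‖s‖ := norm_pos_iff.mpr h0
  have e : R θ H z s - s / 2 = ((v θ H z s - s ^ 2 / 2) - s / 2 * (u θ H z s - s)) / u θ H z s := by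
    unfold R
    field_simp
    ring
  rw [e, norm_div, div_le_iff₀ (norm_pos_iff.mpr hu)]
  have h1 := (u_near h g hs).1
  have h2 := (v_near h g hs).1
  have h3 := u_ge h g hs
  have h4 : ‖(v θ H z s - s ^ 2 / 2) - s / 2 * (u θ H z s - s)‖
      ≤ 22 / 1000 * (‖s‖ ^ 4 / ρ ^ 2) := by
    refine (norm_sub_le _ _).trans ?_
    rw [norm_mul, norm_div_two]
    have : ‖s‖ / 2 * ‖u θ H z s - s‖ ≤ ‖s‖ / 2 * (22 / 1000 * (‖s‖ ^ 3 / ρ ^ 2)) :=
      mul_le_mul_of_nonneg_left h1 (by positivity)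
    have e2 : ‖s‖ / 2 * (22 / 1000 * (‖s‖ ^ 3 / ρ ^ 2)) = 11 / 1000 * (‖s‖ ^ 4 / ρ ^ 2) := by
      ring
    linarith
  refine h4.trans ?_
  have e3 : ‖s‖ ^ 4 / ρ ^ 2 = ‖s‖ ^ 3 / ρ ^ 2 * ‖s‖ := by ring
  rw [e3]
  have h5 : 0 ≤ ‖s‖ ^ 3 / ρ ^ 2 := by positivity
  nlinarith

lemma R_deriv (h : EntOn θ H K V) (g : GoodOn θ K V z ρ) {s : ℂ} (hs : ‖s‖ ≤ ρ) :
    ∃ d : ℂ, HasDerivAt (R θ H z) d s ∧ ‖d - 1 / 2‖ ≤ 1 / 10 := by
  have hp := g.pos
  by_cases h0 : s = 0
  · subst h0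
    refine ⟨1 / 2, ?_, by simp⟩
    rw [hasDerivAt_iff_isLittleO_nhds_zero]
    have hO : (fun x : ℂ => R θ H z (0 + x) - R θ H z 0 - x • (1 / 2 : ℂ))
        =O[𝓝 0] (fun x : ℂ => x ^ 3) := by
      refine Asymptotics.IsBigO.of_bound (23 / 1000 / ρ ^ 2) ?_
      have : closedBall (0 : ℂ) ρ ∈ 𝓝 (0 : ℂ) := closedBall_mem_nhds 0 hp
      filter_upwards [this] with x hx
      have := R_near h g (s := x) (by simpa using hx)
      rw [zero_add, R_zero, sub_zero, norm_pow]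
      have e : R θ H z x - x • (1 / 2 : ℂ) = R θ H z x - x / 2 := by
        rw [smul_eq_mul]; ring
      rw [e]
      refine this.trans (le_of_eq (by ring))
    exact hO.trans_isLittleO (Asymptotics.isLittleO_pow_id (by norm_num))
  · have hu := u_ne h g hs h0
    have hs0 : 0 < ‖s‖ := norm_pos_iff.mpr h0
    refine ⟨_, (h.v_deriv (g.mem hs)).div (h.u_deriv (g.mem hs)) hu, ?_⟩
    have hun : 0 < ‖u θ H z s‖ := norm_pos_iff.mpr hu
    have e : (v1 θ H z s * u θ H z s - v θ H z s * u1 θ H z s) / u θ H z s ^ 2 - 1 / 2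
        = ((v1 θ H z s - s) * s + (v1 θ H z s - s) * (u θ H z s - s)
          - s ^ 2 / 2 * (u1 θ H z s - 1) - (v θ H z s - s ^ 2 / 2)
          - (v θ H z s - s ^ 2 / 2) * (u1 θ H z s - 1) - (u θ H z s - s) ^ 2 / 2)
          / u θ H z s ^ 2 := by
      field_simp
      ring
    rw [e, norm_div, norm_pow, div_le_iff₀ (by positivity)]
    obtain ⟨a, a1⟩ := u_near h g hs
    obtain ⟨b, b1⟩ := v_near h g hs
    have c1 := cube_le hp hs
    have c2 := sq_le_one hp hs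
    have c3 := fourth_le hp hs
    have hu2 := u_ge h g hs
    set A := u θ H z s - s
    set A1 := u1 θ H z s - 1
    set B := v θ H z s - s ^ 2 / 2
    set B1 := v1 θ H z s - s
    have nA : ‖A‖ ≤ 22 / 1000 * ‖s‖ := by linarith
    have nA1 : ‖A1‖ ≤ 22 / 1000 := by linarith
    have nB : ‖B‖ ≤ 11 / 1000 * ‖s‖ ^ 2 := by linarith
    have nB1 : ‖B1‖ ≤ 11 / 1000 * ‖s‖ := by linarith
    have n1 : ‖B1 * s‖ ≤ 11 / 1000 * ‖s‖ ^ 2 := by
      rw [norm_mul]; nlinarith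
    have n2 : ‖B1 * A‖ ≤ 1 / 1000 * ‖s‖ ^ 2 := by
      rw [norm_mul]
      have := mul_le_mul nB1 nA (norm_nonneg _) (by positivity)
      nlinarith
    have n3 : ‖s ^ 2 / 2 * A1‖ ≤ 11 / 1000 * ‖s‖ ^ 2 := by
      rw [norm_mul, norm_div_two, norm_pow]
      have := mul_le_mul_of_nonneg_left nA1 (show (0 : ℝ) ≤ ‖s‖ ^ 2 / 2 by positivity)
      nlinarith
    have n4 : ‖B * A1‖ ≤ 1 / 1000 * ‖s‖ ^ 2 := by
      rw [norm_mul]
      have := mul_le_mul nB nA1 (norm_nonneg _) (by positivity)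
      nlinarith [sq_nonneg ‖s‖]
    have n5 : ‖A ^ 2 / 2‖ ≤ 1 / 1000 * ‖s‖ ^ 2 := by
      rw [norm_div_two, norm_pow]
      have := pow_le_pow_left₀ (norm_nonneg _) nA 2
      nlinarith [sq_nonneg ‖s‖]
    have n6 : ‖B1 * s + B1 * A - s ^ 2 / 2 * A1 - B - B * A1 - A ^ 2 / 2‖
        ≤ ‖B1 * s‖ + ‖B1 * A‖ + ‖s ^ 2 / 2 * A1‖ + ‖B‖ + ‖B * A1‖ + ‖A ^ 2 / 2‖ := by
      refine (norm_sub_le _ _).trans (add_le_add ?_ le_rfl)
      refine (norm_sub_le _ _).trans (add_le_add ?_ le_rfl)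
      refine (norm_sub_le _ _).trans (add_le_add ?_ le_rfl)
      refine (norm_sub_le _ _).trans (add_le_add ?_ le_rfl)
      exact norm_add_le _ _
    have n7 : (978 / 1000 * ‖s‖) ^ 2 ≤ ‖u θ H z s‖ ^ 2 := pow_le_pow_left₀ (by positivity) hu2 2
    have n8 : 0 ≤ ‖s‖ ^ 2 := by positivity
    nlinarith

lemma R_lip (h : EntOn θ H K V) (g : GoodOn θ K V z ρ) {s t : ℂ} (hs : ‖s‖ ≤ ρ) (ht : ‖t‖ ≤ ρ) :
    ‖(R θ H z s - R θ H z t) - (s - t) / 2‖ ≤ ‖s - t‖ / 10 := by
  choose! d hd hd' using fun x (hx : ‖x‖ ≤ ρ) => R_deriv h g (s := x) hx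
  have := (convex_closedBall (0 : ℂ) ρ).norm_image_sub_le_of_norm_hasDerivWithin_le
      (f := fun x => R θ H z x - x / 2) (f' := fun x => d x - 1 / 2) (C := 1 / 10)
      (fun x hx => ((hd x (by simpa using hx)).sub ((hasDerivAt_id x).div_const 2)).hasDerivWithinAt)
      (fun x hx => hd' x (by simpa using hx))
      (x := t) (y := s) (by simpa using ht) (by simpa using hs)
  have e : (R θ H z s - R θ H z t) - (s - t) / 2
      = (R θ H z s - s / 2) - (R θ H z t - t / 2) := by ring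
  rw [e]
  exact this.trans (by linarith)

lemma R_expand (h : EntOn θ H K V) (g : GoodOn θ K V z ρ) {s t : ℂ} (hs : ‖s‖ ≤ ρ) (ht : ‖t‖ ≤ ρ) :
    2 / 5 * ‖s - t‖ ≤ ‖R θ H z s - R θ H z t‖ := by
  have h1 := R_lip h g hs ht
  have h2 : ‖(s - t) / 2‖ ≤ ‖R θ H z s - R θ H z t‖
      + ‖(R θ H z s - R θ H z t) - (s - t) / 2‖ := by
    have := norm_sub_le (R θ H z s - R θ H z t) ((R θ H z s - R θ H z t) - (s - t) / 2)
    simpa using this
  rw [norm_div_two] at h2
  linarith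

lemma R_inj (h : EntOn θ H K V) (g : GoodOn θ K V z ρ) {s t : ℂ} (hs : ‖s‖ ≤ ρ) (ht : ‖t‖ ≤ ρ)
    (e : R θ H z s = R θ H z t) : s = t := by
  have := R_expand h g hs ht
  rw [e, sub_self, norm_zero] at this
  have h2 : ‖s - t‖ = 0 := le_antisymm (by linarith) (norm_nonneg _)
  exact sub_eq_zero.mp (norm_eq_zero.mp h2)

/-- `R` covers -/
lemma R_surj (h : EntOn θ H K V) (g : GoodOn θ K V z ρ) {e ζ : ℂ} (he : ‖e‖ ≤ ρ / 2)
    (hζ : ‖ζ - R θ H z e‖ ≤ ‖e‖ / 5) : ∃ x, ‖x - e‖ ≤ ‖e‖ / 2 ∧ R θ H z x = ζ := by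
  set S := closedBall e (‖e‖ / 2) with hS
  have hSρ : ∀ x ∈ S, ‖x‖ ≤ ρ := by
    intro x hx
    have hx' : ‖x - e‖ ≤ ‖e‖ / 2 := by simpa [hS, dist_eq_norm] using hx
    have : ‖x‖ ≤ ‖x - e‖ + ‖e‖ := by simpa using norm_add_le (x - e) e
    linarith [g.pos]
  set T : ℂ → ℂ := fun x => x - 2 * (R θ H z x - ζ) with hT
  have hTlip : ∀ x ∈ S, ∀ y ∈ S, ‖T x - T y‖ ≤ 1 / 5 * ‖x - y‖ := by
    intro x hx y hy
    have h1 := R_lip h g (hSρ x hx) (hSρ y hy)
    have e1 : T x - T y = -(2 * ((R θ H z x - R θ H z y) - (x - y) / 2)) := by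
      simp only [hT]; ring
    rw [e1, norm_neg, norm_mul]
    simp only [Complex.norm_ofNat]
    linarith
  have heS : e ∈ S := by simp [hS]; positivity
  have hTe : ‖T e - e‖ ≤ 2 / 5 * ‖e‖ := by
    have e1 : T e - e = 2 * (ζ - R θ H z e) := by simp only [hT]; ring
    rw [e1, norm_mul]
    simp only [Complex.norm_ofNat]
    linarith
  have hmaps : MapsTo T S S := by
    intro x hx
    have h1 := hTlip x hx e heS
    have hx' : ‖x - e‖ ≤ ‖e‖ / 2 := by simpa [hS, dist_eq_norm] using hx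
    have h2 : ‖T x - e‖ ≤ ‖T x - T e‖ + ‖T e - e‖ := by
      simpa using norm_add_le (T x - T e) (T e - e)
    have : ‖T x - e‖ ≤ ‖e‖ / 2 := by linarith
    simpa [hS, dist_eq_norm] using this
  have hcontr : ContractingWith (1 / 5 : NNReal) (hmaps.restrict T S S) := by
    refine ⟨by rw [← NNReal.coe_lt_coe]; norm_num, LipschitzWith.of_dist_le_mul ?_⟩
    rintro ⟨x, hx⟩ ⟨y, hy⟩
    rw [Subtype.dist_eq, Subtype.dist_eq, dist_eq_norm, dist_eq_norm]
    simpa using hTlip x hx y hy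
  obtain ⟨x, hxS, hfix, -⟩ := ContractingWith.exists_fixedPoint' (s := S)
    isClosed_closedBall.isComplete hmaps hcontr heS (edist_ne_top _ _)
  refine ⟨x, by simpa [hS, dist_eq_norm] using hxS, ?_⟩
  have h3 : T x = x := hfix
  simp only [hT] at h3
  have h4 : (2 : ℂ) * (R θ H z x - ζ) = 0 := by linear_combination -h3
  have h5 : R θ H z x - ζ = 0 := by
    rcases mul_eq_zero.mp h4 with h6 | h6
    · norm_num at h6
    · exact h6
  exact sub_eq_zero.mp h5

/-- oddness defect of `R` (sharp form) -/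
lemma R_even_le (h : EntOn θ H K V) (g : GoodOn θ K V z ρ) {b0 b1 a1 : ℝ} {s : ℂ} (hs : ‖s‖ ≤ ρ)
    (b : Bd θ K z ‖s‖ b0 b1 a1) :
    ‖R θ H z s + R θ H z (-s)‖ ≤ 100 * (a1 + b0 * b1) * ‖s‖ ^ 4 := by
  by_cases h0 : s = 0
  · subst h0; simp [R_zero]
  obtain ⟨hb0, hb1, ha1⟩ := b.nonneg (norm_nonneg s)
  have hs' : ‖-s‖ ≤ ρ := by simpa using hs
  have hu := u_ne h g hs h0
  have hu' := u_ne h g hs' (neg_ne_zero.mpr h0)
  have hs0 : 0 < ‖s‖ := norm_pos_iff.mpr h0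
  have e : R θ H z s + R θ H z (-s)
      = (v θ H z s * (u θ H z s + u θ H z (-s)) - (v θ H z s - v θ H z (-s)) * u θ H z s)
        / (u θ H z s * u θ H z (-s)) := by
    unfold R
    field_simp
    ring
  rw [e, norm_div, div_le_iff₀ (norm_pos_iff.mpr (mul_ne_zero hu hu'))]
  have p1 := u_even_le h g hs b
  have p2 := v_odd_le h g hs b
  have p3 := u_le h g hs
  have p4 := v_le h g hs
  have p5 := u_ge h g hs
  have p6 := u_ge h g hs'
  rw [norm_neg] at p6
  have hA : 0 ≤ a1 + b0 * b1 := by positivity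
  have q1 : ‖v θ H z s * (u θ H z s + u θ H z (-s))‖
      ≤ 511 / 1000 * ‖s‖ ^ 2 * (68 * (a1 + b0 * b1) * ‖s‖ ^ 4) := by
    rw [norm_mul]
    exact mul_le_mul p4 p1 (norm_nonneg _) (by positivity)
  have q2 : ‖(v θ H z s - v θ H z (-s)) * u θ H z s‖
      ≤ (52 * (a1 + b0 * b1) * ‖s‖ ^ 5) * (1022 / 1000 * ‖s‖) := by
    rw [norm_mul]
    exact mul_le_mul p2 p3 (norm_nonneg _) (by positivity)
  have q3 : 978 / 1000 * ‖s‖ * (978 / 1000 * ‖s‖) ≤ ‖u θ H z s * u θ H z (-s)‖ := by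
    rw [norm_mul]
    exact mul_le_mul p5 p6 (by positivity) (norm_nonneg _)
  have q4 : 100 * (a1 + b0 * b1) * ‖s‖ ^ 4 * (978 / 1000 * ‖s‖ * (978 / 1000 * ‖s‖))
      ≤ 100 * (a1 + b0 * b1) * ‖s‖ ^ 4 * ‖u θ H z s * u θ H z (-s)‖ :=
    mul_le_mul_of_nonneg_left q3 (by positivity)
  refine le_trans ?_ q4
  refine (norm_sub_le _ _).trans ?_
  have q5 : 0 ≤ (a1 + b0 * b1) * ‖s‖ ^ 6 := by positivity
  have q6 : 100 * (a1 + b0 * b1) * ‖s‖ ^ 4 * (978 / 1000 * ‖s‖ * (978 / 1000 * ‖s‖))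
      = 95.6484 * ((a1 + b0 * b1) * ‖s‖ ^ 6) := by ring
  have q7 : 511 / 1000 * ‖s‖ ^ 2 * (68 * (a1 + b0 * b1) * ‖s‖ ^ 4)
      = 34.748 * ((a1 + b0 * b1) * ‖s‖ ^ 6) := by ring
  have q8 : (52 * (a1 + b0 * b1) * ‖s‖ ^ 5) * (1022 / 1000 * ‖s‖)
      = 53.144 * ((a1 + b0 * b1) * ‖s‖ ^ 6) := by ring
  rw [q7] at q1
  rw [q8] at q2
  rw [q6]
  linarith

/-! ## the step -/

lemma R_even_crude (h : EntOn θ H K V) (g : GoodOn θ K V z ρ) {e : ℂ} (he : ‖e‖ ≤ ρ) :
    ‖-R θ H z (-e) - R θ H z e‖ ≤ 46 / 1000 * (‖e‖ ^ 3 / ρ ^ 2) := by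
  have h1 := R_near h g he
  have h2 := R_near h g (s := -e) (by simpa using he)
  rw [norm_neg] at h2
  have e1 : -R θ H z (-e) - R θ H z e
      = -((R θ H z e - e / 2) + (R θ H z (-e) - -e / 2)) := by ring
  rw [e1, norm_neg]
  refine (norm_add_le _ _).trans ?_
  linarith

lemma st_spec (h : EntOn θ H K V) (g : GoodOn θ K V z ρ) {e : ℂ} (he : ‖e‖ ≤ ρ / 2) :
    ‖st θ H z e - e‖ ≤ ‖e‖ / 2 ∧ R θ H z (st θ H z e) = -R θ H z (-e) := by
  have hp := g.pos
  have heρ : ‖e‖ ≤ ρ := by linarith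
  have h1 := R_even_crude h g heρ
  have h2 := cube_le hp heρ
  have := R_surj h g (ζ := -R θ H z (-e)) he (by
    have := norm_nonneg e
    linarith)
  exact Classical.epsilon_spec this

lemma st_le (h : EntOn θ H K V) (g : GoodOn θ K V z ρ) {e : ℂ} (he : ‖e‖ ≤ ρ / 2) :
    ‖st θ H z e‖ ≤ 3 / 2 * ‖e‖ := by
  have h1 := (st_spec h g he).1
  have : ‖st θ H z e‖ ≤ ‖st θ H z e - e‖ + ‖e‖ := by simpa using norm_add_le (st θ H z e - e) e
  linarith

lemma st_ge (h : EntOn θ H K V) (g : GoodOn θ K V z ρ) {e : ℂ} (he : ‖e‖ ≤ ρ / 2) :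
    1 / 2 * ‖e‖ ≤ ‖st θ H z e‖ := by
  have h1 := (st_spec h g he).1
  have : ‖e‖ ≤ ‖st θ H z e‖ + ‖st θ H z e - e‖ := by
    simpa using norm_sub_le (st θ H z e) (st θ H z e - e)
  linarith

/-- uniqueness of the next vertex -/
lemma st_unique (h : EntOn θ H K V) (g : GoodOn θ K V z ρ) {e x : ℂ} (he : ‖e‖ ≤ ρ / 2)
    (hx : ‖x‖ ≤ ρ) (hR : R θ H z x = -R θ H z (-e)) : x = st θ H z e := by
  have h1 := st_spec h g he
  have h2 := st_le h g he
  have hp := g.pos
  exact R_inj h g hx (by linarith [norm_nonneg e]) (hR.trans h1.2.symm)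


/-- **the sharp step estimate** `e' - e = O (|e|⁴ (|K'| + |y y'|))` -/
lemma st_near (h : EntOn θ H K V) (g : GoodOn θ K V z ρ) {b0 b1 a1 : ℝ} {e : ℂ} (he : ‖e‖ ≤ ρ / 2)
    (b : Bd θ K z ‖e‖ b0 b1 a1) :
    ‖st θ H z e - e‖ ≤ 250 * (a1 + b0 * b1) * ‖e‖ ^ 4 := by
  have hp := g.pos
  have heρ : ‖e‖ ≤ ρ := by linarith
  have h1 := st_spec h g he
  have h2 := st_le h g he
  have h3 := R_expand h g (s := st θ H z e) (t := e) (by linarith) heρ
  rw [h1.2] at h3
  have h4 := R_even_le h g heρ b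
  have e1 : -R θ H z (-e) - R θ H z e = -(R θ H z e + R θ H z (-e)) := by ring
  rw [e1, norm_neg] at h3
  linarith

/-! ## holomorphy in both variables -/

lemma u_contDiffAt (h : EntOn θ H K V) {p : ℂ × ℂ} (h1 : p.1 ∈ V) (h2 : p.1 + p.2 ∈ V) :
    ContDiffAt ℂ 1 (fun p : ℂ × ℂ => u θ H p.1 p.2) p := by
  have s1 : ContDiffAt ℂ 1 (fun p : ℂ × ℂ => p.1 + p.2) p := contDiffAt_fst.add contDiffAt_snd
  have a1 : ContDiffAt ℂ 1 (fun p : ℂ × ℂ => θ (p.1 + p.2)) p :=
    ContDiffAt.comp (f := fun p : ℂ × ℂ => p.1 + p.2) p (h.aθ h2).contDiffAt s1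
  have a1' : ContDiffAt ℂ 1 (fun p : ℂ × ℂ => θ p.1) p :=
    ContDiffAt.comp (f := fun p : ℂ × ℂ => p.1) p (h.aθ h1).contDiffAt contDiffAt_fst
  have a2 : ContDiffAt ℂ 1 (fun p : ℂ × ℂ => deriv θ (p.1 + p.2)) p :=
    ContDiffAt.comp (f := fun p : ℂ × ℂ => p.1 + p.2) p (h.aθ h2).deriv.contDiffAt s1
  have a2' : ContDiffAt ℂ 1 (fun p : ℂ × ℂ => deriv θ p.1) p :=
    ContDiffAt.comp (f := fun p : ℂ × ℂ => p.1) p (h.aθ h1).deriv.contDiffAt contDiffAt_fst
  have a3 : ContDiffAt ℂ 1 (fun p : ℂ × ℂ => H (p.1 + p.2)) p :=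
    ContDiffAt.comp (f := fun p : ℂ × ℂ => p.1 + p.2) p (h.aH h2).contDiffAt s1
  have a4 : ContDiffAt ℂ 1 (fun p : ℂ × ℂ => deriv H (p.1 + p.2)) p :=
    ContDiffAt.comp (f := fun p : ℂ × ℂ => p.1 + p.2) p (h.aH h2).deriv.contDiffAt s1
  have a4' : ContDiffAt ℂ 1 (fun p : ℂ × ℂ => deriv H p.1) p :=
    ContDiffAt.comp (f := fun p : ℂ × ℂ => p.1) p (h.aH h1).deriv.contDiffAt contDiffAt_fst
  have hχ : ContDiffAt ℂ 1 (fun p : ℂ × ℂ => chi θ p.1 p.2) p := a1.sub a1'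
  have c1 : ContDiffAt ℂ 1 (fun p : ℂ × ℂ => sin (chi θ p.1 p.2)) p :=
    ContDiffAt.comp (f := fun p : ℂ × ℂ => chi θ p.1 p.2) p contDiff_sin.contDiffAt hχ
  have c2 : ContDiffAt ℂ 1 (fun p : ℂ × ℂ => cos (chi θ p.1 p.2)) p :=
    ContDiffAt.comp (f := fun p : ℂ × ℂ => chi θ p.1 p.2) p contDiff_cos.contDiffAt hχ
  exact (a4'.mul a2).sub (a2'.mul (((a2.mul a3).mul c1).add (a4.mul c2)))

lemma v_contDiffAt (h : EntOn θ H K V) {p : ℂ × ℂ} (h1 : p.1 ∈ V) (h2 : p.1 + p.2 ∈ V) :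
    ContDiffAt ℂ 1 (fun p : ℂ × ℂ => v θ H p.1 p.2) p := by
  have s1 : ContDiffAt ℂ 1 (fun p : ℂ × ℂ => p.1 + p.2) p := contDiffAt_fst.add contDiffAt_snd
  have a1 : ContDiffAt ℂ 1 (fun p : ℂ × ℂ => θ (p.1 + p.2)) p :=
    ContDiffAt.comp (f := fun p : ℂ × ℂ => p.1 + p.2) p (h.aθ h2).contDiffAt s1
  have a1' : ContDiffAt ℂ 1 (fun p : ℂ × ℂ => θ p.1) p :=
    ContDiffAt.comp (f := fun p : ℂ × ℂ => p.1) p (h.aθ h1).contDiffAt contDiffAt_fst
  have a2 : ContDiffAt ℂ 1 (fun p : ℂ × ℂ => deriv θ (p.1 + p.2)) p :=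
    ContDiffAt.comp (f := fun p : ℂ × ℂ => p.1 + p.2) p (h.aθ h2).deriv.contDiffAt s1
  have a3 : ContDiffAt ℂ 1 (fun p : ℂ × ℂ => H (p.1 + p.2)) p :=
    ContDiffAt.comp (f := fun p : ℂ × ℂ => p.1 + p.2) p (h.aH h2).contDiffAt s1
  have a3' : ContDiffAt ℂ 1 (fun p : ℂ × ℂ => H p.1) p :=
    ContDiffAt.comp (f := fun p : ℂ × ℂ => p.1) p (h.aH h1).contDiffAt contDiffAt_fst
  have a4 : ContDiffAt ℂ 1 (fun p : ℂ × ℂ => deriv H (p.1 + p.2)) p :=
    ContDiffAt.comp (f := fun p : ℂ × ℂ => p.1 + p.2) p (h.aH h2).deriv.contDiffAt s1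
  have hχ : ContDiffAt ℂ 1 (fun p : ℂ × ℂ => chi θ p.1 p.2) p := a1.sub a1'
  have c1 : ContDiffAt ℂ 1 (fun p : ℂ × ℂ => sin (chi θ p.1 p.2)) p :=
    ContDiffAt.comp (f := fun p : ℂ × ℂ => chi θ p.1 p.2) p contDiff_sin.contDiffAt hχ
  have c2 : ContDiffAt ℂ 1 (fun p : ℂ × ℂ => cos (chi θ p.1 p.2)) p :=
    ContDiffAt.comp (f := fun p : ℂ × ℂ => chi θ p.1 p.2) p contDiff_cos.contDiffAt hχ
  exact (a2.mul ((a3.mul c2).sub a3')).sub (a4.mul c1)

lemma R_contDiffAt (h : EntOn θ H K V) {p : ℂ × ℂ} (h1 : p.1 ∈ V) (h2 : p.1 + p.2 ∈ V)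
    (hu : u θ H p.1 p.2 ≠ 0) : ContDiffAt ℂ 1 (fun p : ℂ × ℂ => R θ H p.1 p.2) p :=
  (v_contDiffAt h h1 h2).div (u_contDiffAt h h1 h2) hu

/-- `Good` is an open condition -/
lemma _root_.Crest.Agent.R102.Growth.GoodOn.mono (g : GoodOn θ K V z ρ) {z' : ℂ} {ρ' : ℝ} (hρ' : 0 < ρ') (hz : ‖z' - z‖ + ρ' ≤ ρ) :
    GoodOn θ K V z' ρ' := by
  have hle : ρ' ≤ ρ := by linarith [norm_nonneg (z' - z)]
  refine ⟨hρ', ?_, ?_, ?_⟩
  · refine Subset.trans (closedBall_subset_closedBall' ?_) g.sub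
    rw [dist_eq_norm]; linarith
  · intro s hs
    have h1 : ‖s - z‖ ≤ ρ := by
      have : ‖s - z‖ ≤ ‖s - z'‖ + ‖z' - z‖ := by simpa using norm_add_le (s - z') (z' - z)
      linarith
    exact (mul_le_mul_of_nonneg_left hle (norm_nonneg _)).trans (g.y_le s h1)
  · intro s hs
    have h1 : ‖s - z‖ ≤ ρ := by
      have : ‖s - z‖ ≤ ‖s - z'‖ + ‖z' - z‖ := by simpa using norm_add_le (s - z') (z' - z)
      linarith
    refine (mul_le_mul_of_nonneg_left ?_ (norm_nonneg _)).trans (g.K_le s h1)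
    exact pow_le_pow_left₀ hρ'.le hle 2

lemma st_continuousAt (h : EntOn θ H K V) (g : GoodOn θ K V z ρ) {e : ℂ} (he0 : e ≠ 0)
    (he : ‖e‖ < ρ / 2) : ContinuousAt (fun p : ℂ × ℂ => st θ H p.1 p.2) (z, e) := by
  have hp := g.pos
  set x0 := st θ H z e with hx0
  have hsp := st_spec h g he.le
  have hx0ne : x0 ≠ 0 := by
    have := st_ge h g he.le
    have h2 : 0 < ‖e‖ := norm_pos_iff.mpr he0
    intro h3
    rw [← hx0, h3, norm_zero] at this
    linarith
  have hx0le := st_le h g he.le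
  rw [← hx0] at hx0le
  -- radius for nearby points
  obtain ⟨ρ', h1, h2⟩ : ∃ ρ', 2 * ‖e‖ < ρ' ∧ ρ' < ρ := ⟨(2 * ‖e‖ + ρ) / 2, by linarith, by linarith⟩
  have hρ' : 0 < ρ' := by linarith [norm_nonneg e]
  have ev1 : ∀ᶠ p : ℂ × ℂ in 𝓝 (z, e), GoodOn θ K V p.1 ρ' ∧ ‖p.2‖ < ρ' / 2 := by
    have c1 : ContinuousAt (fun p : ℂ × ℂ => ‖p.1 - z‖ + ρ') (z, e) := by fun_prop
    have c2 : ContinuousAt (fun p : ℂ × ℂ => ‖p.2‖) (z, e) := by fun_prop
    have d1 := c1.eventually_lt (continuousAt_const (y := ρ)) (by simpa using h2)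
    have d2 := c2.eventually_lt (continuousAt_const (y := ρ' / 2))
      (by show ‖e‖ < ρ' / 2; linarith)
    filter_upwards [d1, d2] with p q1 q2
    exact ⟨g.mono hρ' q1.le, q2⟩
  -- the two defects tend to zero
  have c3 : ContinuousAt (fun p : ℂ × ℂ => R θ H p.1 (-p.2)) (z, e) := by
    have : ContinuousAt (fun p : ℂ × ℂ => R θ H p.1 p.2) (z, -e) :=
      (R_contDiffAt h (p := (z, -e)) g.memz (g.memneg (by linarith))
        (u_ne h g (by simpa using (by linarith : ‖e‖ ≤ ρ)) (neg_ne_zero.mpr he0))).continuousAt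
    exact ContinuousAt.comp (f := fun p : ℂ × ℂ => (p.1, -p.2)) (x := (z, e)) this (by fun_prop)
  have c4 : ContinuousAt (fun p : ℂ × ℂ => R θ H p.1 x0) (z, e) := by
    have : ContinuousAt (fun p : ℂ × ℂ => R θ H p.1 p.2) (z, x0) :=
      (R_contDiffAt h (p := (z, x0)) g.memz (g.mem (by linarith))
        (u_ne h g (by linarith) hx0ne)).continuousAt
    exact ContinuousAt.comp (f := fun p : ℂ × ℂ => (p.1, x0)) (x := (z, e)) this (by fun_prop)
  have c5 : Tendsto (fun p : ℂ × ℂ => 5 / 2 * (‖R θ H p.1 (-p.2) - R θ H z (-e)‖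
      + ‖R θ H p.1 x0 - R θ H z x0‖)) (𝓝 (z, e)) (𝓝 0) := by
    have e1 : Tendsto (fun p : ℂ × ℂ => R θ H p.1 (-p.2) - R θ H z (-e)) (𝓝 (z, e)) (𝓝 0) := by
      have := c3.tendsto.sub_const (R θ H z (-e))
      simpa using this
    have e2 : Tendsto (fun p : ℂ × ℂ => R θ H p.1 x0 - R θ H z x0) (𝓝 (z, e)) (𝓝 0) := by
      have := c4.tendsto.sub_const (R θ H z x0)
      simpa using this
    have := (e1.norm.add e2.norm).const_mul (5 / 2 : ℝ)
    simpa using this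
  rw [ContinuousAt, tendsto_iff_norm_sub_tendsto_zero]
  refine squeeze_zero' (Eventually.of_forall fun p => norm_nonneg _) ?_ c5
  filter_upwards [ev1] with p hp1
  obtain ⟨g', hp2⟩ := hp1
  have s1 := st_spec h g' hp2.le
  have s2 := st_le h g' hp2.le
  have s3 := R_expand h g' (s := st θ H p.1 p.2) (t := x0) (by linarith) (by linarith)
  have s4 : R θ H p.1 (st θ H p.1 p.2) - R θ H p.1 x0
      = -(R θ H p.1 (-p.2) - R θ H z (-e)) - (R θ H p.1 x0 - R θ H z x0) := by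
    rw [s1.2, hx0, hsp.2]; ring
  rw [s4] at s3
  have s5 := norm_sub_le (-(R θ H p.1 (-p.2) - R θ H z (-e))) (R θ H p.1 x0 - R θ H z x0)
  rw [norm_neg] at s5
  show ‖st θ H p.1 p.2 - st θ H z e‖ ≤ _
  rw [← hx0]
  linarith

lemma st_differentiableAt (h : EntOn θ H K V) (g : GoodOn θ K V z ρ) {e : ℂ} (he0 : e ≠ 0)
    (he : ‖e‖ < ρ / 2) : DifferentiableAt ℂ (fun p : ℂ × ℂ => st θ H p.1 p.2) (z, e) := by
  have hp := g.pos
  set x0 := st θ H z e with hx0
  have hsp := st_spec h g he.le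
  have hx0ne : x0 ≠ 0 := by
    have := st_ge h g he.le
    have h2 : 0 < ‖e‖ := norm_pos_iff.mpr he0
    intro h3
    rw [← hx0, h3, norm_zero] at this
    linarith
  have hx0le := st_le h g he.le
  rw [← hx0] at hx0le
  have hx0ρ : ‖x0‖ ≤ ρ := by linarith
  obtain ⟨L, hL⟩ : ∃ L : ℂ × ℂ →L[ℂ] ℂ, HasStrictFDerivAt (fun p : ℂ × ℂ => R θ H p.1 p.2) L (z, x0) :=
    ⟨_, (R_contDiffAt h (p := (z, x0)) g.memz (g.mem hx0ρ)
      (u_ne h g hx0ρ hx0ne)).hasStrictFDerivAt (by norm_num)⟩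
  obtain ⟨b, hb, hb'⟩ := R_deriv h g hx0ρ
  have hLb : L (0, 1) = b := by
    have h1 : HasDerivAt (fun x : ℂ => ((z, x) : ℂ × ℂ)) (0, 1) x0 :=
      (hasDerivAt_const x0 z).prodMk (hasDerivAt_id x0)
    have h2 := (hL.hasFDerivAt).comp_hasDerivAt x0 h1
    exact h2.unique hb
  have hb0 : b ≠ 0 := by
    intro h3
    rw [h3] at hb'
    norm_num at hb'
  set a := L (1, 0) with ha
  have hLf : ∀ p : ℂ × ℂ, L p = a * p.1 + b * p.2 := by
    intro p
    have : p = p.1 • ((1, 0) : ℂ × ℂ) + p.2 • ((0, 1) : ℂ × ℂ) := by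
      ext <;> simp
    conv_lhs => rw [this]
    rw [map_add, map_smul, map_smul, hLb, ← ha]
    simp only [smul_eq_mul]; ring
  -- the invertible derivative of `(z, x) ↦ (z, R z x)`
  let f1 : ℂ × ℂ →L[ℂ] ℂ × ℂ := (ContinuousLinearMap.fst ℂ ℂ ℂ).prod L
  let f2 : ℂ × ℂ →L[ℂ] ℂ × ℂ := (ContinuousLinearMap.fst ℂ ℂ ℂ).prod
    (b⁻¹ • (ContinuousLinearMap.snd ℂ ℂ ℂ - a • ContinuousLinearMap.fst ℂ ℂ ℂ))
  let Fe : (ℂ × ℂ) ≃L[ℂ] (ℂ × ℂ) := ContinuousLinearEquiv.equivOfInverse f1 f2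
    (by
      intro p
      ext
      · simp [f1, f2]
      · simp only [f1, f2, ContinuousLinearMap.prod_apply, ContinuousLinearMap.coe_fst',
          _root_.smul_apply, _root_.sub_apply,
          ContinuousLinearMap.coe_snd', smul_eq_mul, hLf]
        field_simp
        ring)
    (by
      intro p
      ext
      · simp [f1, f2]
      · simp only [f1, f2, ContinuousLinearMap.prod_apply, ContinuousLinearMap.coe_fst',
          _root_.smul_apply, _root_.sub_apply,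
          ContinuousLinearMap.coe_snd', smul_eq_mul, hLf]
        field_simp
        ring)
  have hF : HasStrictFDerivAt (fun p : ℂ × ℂ => (p.1, R θ H p.1 p.2))
      (Fe : ℂ × ℂ →L[ℂ] ℂ × ℂ) (z, x0) := by
    have : HasStrictFDerivAt (fun p : ℂ × ℂ => (p.1, R θ H p.1 p.2)) f1 (z, x0) :=
      hasStrictFDerivAt_fst.prodMk hL
    exact this
  -- local inverse
  set F : ℂ × ℂ → ℂ × ℂ := fun p => (p.1, R θ H p.1 p.2) with hFdef
  have hinv := hF.eventually_left_inverse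
  have hdinv := hF.to_localInverse.hasFDerivAt.differentiableAt
  have hcont := st_continuousAt h g he0 he
  have hG : DifferentiableAt ℂ (fun p : ℂ × ℂ => (p.1, -R θ H p.1 (-p.2))) (z, e) := by
    have h1 : DifferentiableAt ℂ (fun p : ℂ × ℂ => R θ H p.1 p.2) (z, -e) :=
      (R_contDiffAt h (p := (z, -e)) g.memz (g.memneg (by linarith))
        (u_ne h g (by simpa using (by linarith : ‖e‖ ≤ ρ))
        (neg_ne_zero.mpr he0))).differentiableAt (by norm_num)
    have h2 : DifferentiableAt ℂ (fun p : ℂ × ℂ => R θ H p.1 (-p.2)) (z, e) :=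
      DifferentiableAt.comp (f := fun p : ℂ × ℂ => (p.1, -p.2)) (z, e) h1
        (differentiableAt_fst.prodMk differentiableAt_snd.neg)
    exact differentiableAt_fst.prodMk h2.neg
  have hc2 : Tendsto (fun p : ℂ × ℂ => (p.1, st θ H p.1 p.2)) (𝓝 (z, e)) (𝓝 (z, x0)) := by
    exact (continuousAt_fst.prodMk hcont)
  -- nearby points
  obtain ⟨ρ', h1, h2⟩ : ∃ ρ', 2 * ‖e‖ < ρ' ∧ ρ' < ρ := ⟨(2 * ‖e‖ + ρ) / 2, by linarith, by linarith⟩
  have hρ' : 0 < ρ' := by linarith [norm_nonneg e]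
  have ev1 : ∀ᶠ p : ℂ × ℂ in 𝓝 (z, e), GoodOn θ K V p.1 ρ' ∧ ‖p.2‖ < ρ' / 2 := by
    have c1 : ContinuousAt (fun p : ℂ × ℂ => ‖p.1 - z‖ + ρ') (z, e) := by fun_prop
    have c2 : ContinuousAt (fun p : ℂ × ℂ => ‖p.2‖) (z, e) := by fun_prop
    have d1 := c1.eventually_lt (continuousAt_const (y := ρ)) (by simpa using h2)
    have d2 := c2.eventually_lt (continuousAt_const (y := ρ' / 2))
      (by show ‖e‖ < ρ' / 2; linarith)
    filter_upwards [d1, d2] with p q1 q2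
    exact ⟨g.mono hρ' q1.le, q2⟩
  have hFz : F (z, x0) = (z, -R θ H z (-e)) := by
    simp only [hFdef]; rw [hx0, hsp.2]
  have hcomp : DifferentiableAt ℂ (fun p : ℂ × ℂ =>
      (hF.localInverse F Fe (z, x0)) (p.1, -R θ H p.1 (-p.2))) (z, e) := by
    refine DifferentiableAt.comp (f := fun p : ℂ × ℂ => (p.1, -R θ H p.1 (-p.2))) (z, e) ?_ hG
    have := hdinv
    rw [hFz] at this
    exact this
  have heq : (fun p : ℂ × ℂ => st θ H p.1 p.2) =ᶠ[𝓝 (z, e)] fun p : ℂ × ℂ =>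
      ((hF.localInverse F Fe (z, x0)) (p.1, -R θ H p.1 (-p.2))).2 := by
    filter_upwards [ev1, hc2.eventually hinv] with p q1 q2
    have s1 := st_spec h q1.1 q1.2.le
    have s2 : F (p.1, st θ H p.1 p.2) = (p.1, -R θ H p.1 (-p.2)) := by
      simp only [hFdef]; rw [s1.2]
    rw [s2] at q2
    rw [q2]
  exact (differentiableAt_snd.comp (z, e) hcomp).congr_of_eventuallyEq heq

end local_

end Crest.Agent.R102.StepV599
end
namespace Crest.Agent.R102.StepE599.Ent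
end Crest.Agent.R102.StepE599.Ent
end

-- ▼ part R102/StepLV_599

/-!
Row 102, T1-B, block GROWTH: the lines of the label chain on an open set `V`
(`StepL_599` with `Ent -> EntOn .. V`, `Good -> GoodOn .. V ..`; same names, namespace `StepV599`;
the functions `tau ph pp Inc` are those of `StepE599`).
-/

set_option autoImplicit false
open Complex Metric Set Filter Topology

noncomputable section
namespace Crest.Agent.R102.StepV599

open Crest.Agent.R102.StepE599 Crest.Agent.R102.Growth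

section
variable {θ H K : ℂ → ℂ} {V : Set ℂ} {z : ℂ} {ρ : ℝ}

lemma tau_le (h : EntOn θ H K V) (g : GoodOn θ K V z ρ) {e : ℂ} (he : ‖e‖ ≤ ρ) :
    ‖tau θ H z e‖ ≤ 1 / 300 := by
  have hp := g.pos
  have h1 := g.y' (s := z) (by simpa using hp.le)
  have h2 := R_near h g he
  have h3 := cube_le hp he
  have h4 : ‖R θ H z e‖ ≤ 523 / 1000 * ‖e‖ := by
    have := norm_add_le (R θ H z e - e / 2) (e / 2)
    rw [sub_add_cancel, norm_div_two] at this
    linarith
  unfold tau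
  rw [norm_mul]
  have h5 : ‖deriv θ z‖ * ‖R θ H z e‖ ≤ 1 / 200 / ρ * (523 / 1000 * ρ) :=
    mul_le_mul h1 (by linarith) (norm_nonneg _) (by positivity)
  refine h5.trans ?_
  have : 1 / 200 / ρ * (523 / 1000 * ρ) = 523 / 200000 := by field_simp; norm_num
  rw [this]; norm_num

lemma tau_le8 (h : EntOn θ H K V) (g : GoodOn θ K V z ρ) {e : ℂ} (he : ‖e‖ ≤ ρ) :
    ‖tau θ H z e‖ ≤ 1 / 8 := (tau_le h g he).trans (by norm_num)

lemma alp_le (h : EntOn θ H K V) (g : GoodOn θ K V z ρ) {e : ℂ} (he : ‖e‖ ≤ ρ) :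
    ‖arctan (tau θ H z e)‖ ≤ 1 / 100 := by
  have h1 := tau_le h g he
  have h2 := arctan_le (h1.trans (by norm_num))
  linarith

lemma u_mul_tau (h : EntOn θ H K V) (g : GoodOn θ K V z ρ) {e : ℂ} (he0 : e ≠ 0) (he : ‖e‖ ≤ ρ) :
    u θ H z e * tau θ H z e = deriv θ z * v θ H z e := by
  have := u_ne h g he he0
  unfold tau R
  field_simp

/-- `exp (2 i α) (u - i y v) = u + i y v` -/
lemma exp_two_alp (h : EntOn θ H K V) (g : GoodOn θ K V z ρ) {e : ℂ} (he0 : e ≠ 0) (he : ‖e‖ ≤ ρ) :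
    u θ H z e - I * deriv θ z * v θ H z e ≠ 0 ∧
    exp (2 * (I * arctan (tau θ H z e))) * (u θ H z e - I * deriv θ z * v θ H z e)
      = u θ H z e + I * deriv θ z * v θ H z e := by
  have hu := u_ne h g he he0
  have ht := tau_le8 h g he
  have h1 := u_mul_tau h g he0 he
  have h2 := exp_two_arctan ht
  have h3 : (1 - I * tau θ H z e) ≠ 0 := by
    intro h4
    have : ‖I * tau θ H z e‖ = 1 := by
      have : I * tau θ H z e = 1 := by linear_combination -h4
      rw [this]; simp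
    rw [norm_mul, norm_I, one_mul] at this
    linarith
  have e1 : u θ H z e - I * deriv θ z * v θ H z e = u θ H z e * (1 - I * tau θ H z e) := by
    linear_combination I * h1
  have e2 : u θ H z e + I * deriv θ z * v θ H z e = u θ H z e * (1 + I * tau θ H z e) := by
    linear_combination -I * h1
  rw [e1, e2]
  refine ⟨mul_ne_zero hu h3, ?_⟩
  rw [h2]
  field_simp

/-- the line seen from its two ends: direction -/
lemma alp_symm (h : EntOn θ H K V) (g : GoodOn θ K V z ρ) {e : ℂ} (g' : GoodOn θ K V (z + e) ρ)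
    (he0 : e ≠ 0) (he : ‖e‖ ≤ ρ) :
    arctan (tau θ H z e) = chi θ z e + arctan (tau θ H (z + e) (-e)) := by
  have he' : ‖-e‖ ≤ ρ := by simpa using he
  obtain ⟨n1, x1⟩ := exp_two_alp h g he0 he
  obtain ⟨n2, x2⟩ := exp_two_alp h g' (neg_ne_zero.mpr he0) he'
  have p1 := uv_plus (θ := θ) (H := H) z e
  have p2 := uv_minus (θ := θ) (H := H) z e
  refine eq_of_exp ?_ ?_
  · have a1 := alp_le h g he
    have a2 := alp_le h g' he'
    have a3 := chi_le_one h g he
    have := norm_sub_le (arctan (tau θ H z e)) (chi θ z e + arctan (tau θ H (z + e) (-e)))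
    have := norm_add_le (chi θ z e) (arctan (tau θ H (z + e) (-e)))
    linarith
  · have e1 : 2 * (I * (chi θ z e + arctan (tau θ H (z + e) (-e))))
        = I * chi θ z e + I * chi θ z e + 2 * (I * arctan (tau θ H (z + e) (-e))) := by ring
    rw [e1, exp_add, exp_add]
    have e2 : exp (I * chi θ z e) * exp (-(I * chi θ z e)) = 1 := by
      rw [← exp_add, add_neg_cancel, exp_zero]
    apply mul_right_cancel₀ n1
    rw [x1, p1, p2, ← x2]
    linear_combination (-(exp (I * chi θ z e)) * exp (2 * (I * arctan (tau θ H (z + e) (-e))))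
      * (u θ H (z + e) (-e) - I * deriv θ (z + e) * v θ H (z + e) (-e))) * (-e2)

theorem ph_symm (h : EntOn θ H K V) (g : GoodOn θ K V z ρ) {e : ℂ} (g' : GoodOn θ K V (z + e) ρ)
    (he0 : e ≠ 0) (he : ‖e‖ ≤ ρ) : ph θ H z e = ph θ H (z + e) (-e) := by
  unfold ph
  rw [alp_symm h g g' he0 he]
  simp only [chi]
  ring

lemma exp_alp {e : ℂ} (ht : ‖tau θ H z e‖ ≤ 1 / 8) :
    exp (I * arctan (tau θ H z e)) = cos (arctan (tau θ H z e)) * (1 + I * tau θ H z e) := by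
  rw [exp_eq_E, sin_arctan ht]; ring

theorem pp_symm (h : EntOn θ H K V) (g : GoodOn θ K V z ρ) {e : ℂ} (g' : GoodOn θ K V (z + e) ρ)
    (he0 : e ≠ 0) (he : ‖e‖ ≤ ρ) : pp θ H z e = pp θ H (z + e) (-e) := by
  have he' : ‖-e‖ ≤ ρ := by simpa using he
  have hu := u_ne h g he he0
  have hu' := u_ne h g' he' (neg_ne_zero.mpr he0)
  have t1 := tau_le8 h g he
  have t2 := tau_le8 h g' he'
  have a := alp_symm h g g' he0 he
  have p1 := uv_plus (θ := θ) (H := H) z e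
  have pH := uv_H (θ := θ) (H := H) z e
  have m1 := u_mul_tau h g he0 he
  have m2 := u_mul_tau h g' (neg_ne_zero.mpr he0) he'
  have x1 := exp_alp t1
  have x2 := exp_alp t2
  have epp : pp θ H z e = cos (arctan (tau θ H z e)) * (H z + deriv H z * R θ H z e) := rfl
  have epp' : pp θ H (z + e) (-e) = cos (arctan (tau θ H (z + e) (-e)))
    * (H (z + e) + deriv H (z + e) * R θ H (z + e) (-e)) := rfl
  generalize arctan (tau θ H z e) = α at *
  generalize arctan (tau θ H (z + e) (-e)) = α' at *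
  have x3 : exp (I * α) = exp (I * chi θ z e) * exp (I * α') := by
    rw [a, mul_add, exp_add]
  -- `cos α' u = - cos α u'`
  have key : cos α' * u θ H z e = -(cos α * u θ H (z + e) (-e)) := by
    apply mul_right_cancel₀ (exp_ne_zero (I * α))
    have y1 : u θ H z e * exp (I * α) = cos α * (u θ H z e + I * deriv θ z * v θ H z e) := by
      rw [x1]; linear_combination cos α * I * m1
    have y2 : u θ H (z + e) (-e) * exp (I * α')
        = cos α' * (u θ H (z + e) (-e) + I * deriv θ (z + e) * v θ H (z + e) (-e)) := by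
      rw [x2]; linear_combination cos α' * I * m2
    have y3 : u θ H (z + e) (-e) * exp (I * α)
        = exp (I * chi θ z e) * (cos α' * (u θ H (z + e) (-e)
          + I * deriv θ (z + e) * v θ H (z + e) (-e))) := by
      rw [x3, ← y2]; ring
    calc cos α' * u θ H z e * exp (I * α) = cos α' * (u θ H z e * exp (I * α)) := by ring
      _ = cos α' * (cos α * (u θ H z e + I * deriv θ z * v θ H z e)) := by rw [y1]
      _ = -(cos α * (u θ H (z + e) (-e) * exp (I * α))) := by rw [y3, p1]; ring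
      _ = -(cos α * u θ H (z + e) (-e)) * exp (I * α) := by ring
  have e1 : pp θ H z e = cos α * (u θ H z e * H z + v θ H z e * deriv H z) / u θ H z e := by
    rw [epp]
    unfold R
    field_simp
  have e2 : pp θ H (z + e) (-e) = cos α' * (u θ H (z + e) (-e) * H (z + e)
      + v θ H (z + e) (-e) * deriv H (z + e)) / u θ H (z + e) (-e) := by
    rw [epp']
    unfold R
    field_simp
  rw [e1, e2, pH, div_eq_div_iff hu hu']
  linear_combination (-(u θ H (z + e) (-e) * H (z + e)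
      + v θ H (z + e) (-e) * deriv H (z + e))) * key


/-- incidence at the first end -/
theorem inc_left (h : EntOn θ H K V) (g : GoodOn θ K V z ρ) {e : ℂ} (he : ‖e‖ ≤ ρ) :
    Inc θ H z (ph θ H z e) (pp θ H z e) := by
  have t1 := tau_le8 h g he
  unfold Inc
  have e1 : ph θ H z e - θ z = arctan (tau θ H z e) := by unfold ph; ring
  rw [e1, sin_arctan t1]
  unfold pp
  have e2 : tau θ H z e = deriv θ z * R θ H z e := rfl
  rw [← sub_eq_zero]
  have : deriv H z * (tau θ H z e * cos (arctan (tau θ H z e)))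
      = deriv H z * ((deriv θ z * R θ H z e) * cos (arctan (tau θ H z e))) := by rw [e2]
  rw [this]; ring


/-- a line near the tangent at `z` through the vertices `z`, `z + e` is `(ph z e, pp z e)` -/
theorem line_unique (h : EntOn θ H K V) (g : GoodOn θ K V z ρ) {e : ℂ} (he0 : e ≠ 0) (he : ‖e‖ ≤ ρ)
    (hy : deriv θ z ≠ 0) {φ p : ℂ} (hφ : ‖φ - θ z‖ ≤ 1) (i1 : Inc θ H z φ p)
    (i2 : Inc θ H (z + e) φ p) : φ = ph θ H z e ∧ p = pp θ H z e := by
  have hu := u_ne h g he he0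
  have t1 := tau_le8 h g he
  obtain ⟨α, hα⟩ : ∃ α, α = φ - θ z := ⟨_, rfl⟩
  have hαχ : φ - θ (z + e) = α - chi θ z e := by simp only [hα, chi]; ring
  have i1' : deriv θ z * p = deriv θ z * H z * cos α + deriv H z * sin α := by
    rw [hα]; exact i1
  rw [← hα] at hφ
  have i2' : deriv θ (z + e) * p = deriv θ (z + e) * H (z + e) * cos (α - chi θ z e)
      + deriv H (z + e) * sin (α - chi θ z e) := by
    have := i2
    unfold Inc at this
    rwa [hαχ] at this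
  rw [cos_sub α, sin_sub α] at i2'
  -- `u sin α = y v cos α`
  have key : u θ H z e * sin α = deriv θ z * v θ H z e * cos α := by
    unfold u v
    linear_combination deriv θ z * i2' - deriv θ (z + e) * i1'
  have m1 := u_mul_tau h g he0 he
  have key2 : sin α = tau θ H z e * cos α := by
    apply mul_left_cancel₀ hu
    rw [key]
    linear_combination -cos α * m1
  have hαe : α = arctan (tau θ H z e) := by
    refine eq_of_exp ?_ ?_
    · have := alp_le h g he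
      have := norm_sub_le α (arctan (tau θ H z e))
      linarith
    · have hc : cos α ≠ 0 := by
        intro hc
        rw [hc, mul_zero] at key2
        have := sin_sq_add_cos_sq α
        rw [hc, key2] at this
        norm_num at this
      have e3 : exp (I * α) = cos α * (1 + I * tau θ H z e) := by
        rw [exp_eq_E, key2]; ring
      have e4 : exp (-(I * α)) = cos α * (1 - I * tau θ H z e) := by
        rw [exp_eq_E', key2]; ring
      have e5 : (2 : ℂ) * (I * α) = I * α - -(I * α) := by ring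
      have h4 : (1 - I * tau θ H z e) ≠ 0 := by
        intro h; rw [h, mul_zero] at e4; exact exp_ne_zero _ e4
      rw [exp_two_arctan t1, e5, exp_sub, e3, e4]
      field_simp
  have hφe : φ = ph θ H z e := by
    unfold ph
    rw [← hαe, hα]; ring
  refine ⟨hφe, ?_⟩
  apply mul_left_cancel₀ hy
  have j := inc_left h g he
  unfold Inc at j
  rw [← hφe, ← hα] at j
  rw [i1', j]

/-- three consecutive labels of a billiard chain: the last step is `st` -/
theorem st_of_refl (h : EntOn θ H K V) (g : GoodOn θ K V z ρ) {e x : ℂ} (he : ‖e‖ ≤ ρ / 2)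
    (hx : ‖x‖ ≤ ρ) (hy : deriv θ z ≠ 0) (hr : ph θ H z (-e) + ph θ H z x = 2 * θ z) :
    x = st θ H z e := by
  have hp := g.pos
  refine st_unique h g he hx ?_
  have t1 := tau_le8 h g (e := -e) (by rw [norm_neg]; linarith)
  have t2 := tau_le8 h g hx
  have h1 : arctan (tau θ H z x) = -arctan (tau θ H z (-e)) := by
    unfold ph at hr
    linear_combination hr
  have h2 : tau θ H z x = -tau θ H z (-e) := by
    have h3 := tan_arctan_small t2
    rw [h1, tan_neg, tan_arctan_small t1] at h3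
    exact h3.symm
  unfold tau at h2
  apply mul_left_cancel₀ hy
  linear_combination h2

/-! ## holomorphy of the lines -/

lemma tau_differentiableAt (h : EntOn θ H K V) (g : GoodOn θ K V z ρ) {e : ℂ} (he0 : e ≠ 0)
    (he : ‖e‖ ≤ ρ) : DifferentiableAt ℂ (fun q : ℂ × ℂ => tau θ H q.1 q.2) (z, e) := by
  have h1 : DifferentiableAt ℂ (fun q : ℂ × ℂ => R θ H q.1 q.2) (z, e) :=
    (R_contDiffAt h (p := (z, e)) g.memz (g.mem he) (u_ne h g he he0)).differentiableAt (by norm_num)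
  have h2 : DifferentiableAt ℂ (fun q : ℂ × ℂ => deriv θ q.1) (z, e) :=
    DifferentiableAt.comp (g := deriv θ) (f := fun q : ℂ × ℂ => q.1) (z, e) (h.dθ1 g.memz)
      differentiableAt_fst
  exact h2.mul h1

theorem ph_differentiableAt (h : EntOn θ H K V) (g : GoodOn θ K V z ρ) {e : ℂ} (he0 : e ≠ 0)
    (he : ‖e‖ ≤ ρ) : DifferentiableAt ℂ (fun q : ℂ × ℂ => ph θ H q.1 q.2) (z, e) := by
  have h1 := tau_differentiableAt h g he0 he
  have h2 : DifferentiableAt ℂ (fun q : ℂ × ℂ => arctan (tau θ H q.1 q.2)) (z, e) :=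
    DifferentiableAt.comp (f := fun q : ℂ × ℂ => tau θ H q.1 q.2) (z, e)
      (arctan_differentiableAt (tau_le8 h g he)) h1
  have h3 : DifferentiableAt ℂ (fun q : ℂ × ℂ => θ q.1) (z, e) :=
    (h.dθ0 g.memz).comp (z, e) differentiableAt_fst
  exact h3.add h2

theorem pp_differentiableAt (h : EntOn θ H K V) (g : GoodOn θ K V z ρ) {e : ℂ} (he0 : e ≠ 0)
    (he : ‖e‖ ≤ ρ) : DifferentiableAt ℂ (fun q : ℂ × ℂ => pp θ H q.1 q.2) (z, e) := by
  have h1 := tau_differentiableAt h g he0 he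
  have h2 : DifferentiableAt ℂ (fun q : ℂ × ℂ => arctan (tau θ H q.1 q.2)) (z, e) :=
    DifferentiableAt.comp (f := fun q : ℂ × ℂ => tau θ H q.1 q.2) (z, e)
      (arctan_differentiableAt (tau_le8 h g he)) h1
  have h3 : DifferentiableAt ℂ (fun q : ℂ × ℂ => H q.1) (z, e) :=
    (h.dH0 g.memz).comp (z, e) differentiableAt_fst
  have h4 : DifferentiableAt ℂ (fun q : ℂ × ℂ => deriv H q.1) (z, e) :=
    DifferentiableAt.comp (g := deriv H) (f := fun q : ℂ × ℂ => q.1) (z, e) (h.dH1 g.memz)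
      differentiableAt_fst
  have h5 : DifferentiableAt ℂ (fun q : ℂ × ℂ => R θ H q.1 q.2) (z, e) :=
    (R_contDiffAt h (p := (z, e)) g.memz (g.mem he) (u_ne h g he he0)).differentiableAt (by norm_num)
  exact h2.ccos.mul (h3.add (h4.mul h5))

end

end Crest.Agent.R102.StepV599
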