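import Mathlib
import Crest.Agent.R102.ColE_350
import Crest.Agent.R102.StepLV_599
import Crest.Agent.R102.GrowthDefs_314
import Crest.Agent.R102.LinkB_350
import Crest.Agent.R102.CCa_350

-- ▼ part R102/ColS_350
section

/-!
Row 102, T1-B, block GROWTH, **(CC) the column climb**, version of `ColE_350` on an open set `V`
(`EntOn`, `GoodOn`).
-/

set_option autoImplicit false
set_option linter.unusedVariables false

open Set Filter Topology Metric

noncomputable section

namespace Crest.Agent.R102.ColS350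

open Crest.Agent.R102.StepE599 Crest.Agent.R102.Growth
open Crest.Agent.R102.ColE350 hiding SmallD.good SmallD.bd SmallD.st_near column_climb cauchy_le

/-- the datum is small on the big ball, which lies in `V` -/
structure SmallV (θ K : ℂ → ℂ) (V : Set ℂ) (c : ℂ) (R s κ : ℝ) : Prop where
  toD : SmallD θ K c R s κ
  sub : closedBall c R ⊆ V

variable {θ H K : ℂ → ℂ} {V : Set ℂ} {c : ℂ} {R s κ b : ℝ}

lemma SmallV.good (D : SmallV θ K V c R s κ) {z : ℂ} (hz : ‖z - c‖ ≤ 2 / 3 * R) :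
    GoodOn θ K V z (10 * s) := by
  have g := ColE350.SmallD.good D.toD hz
  have hs := D.toD.s_pos
  have hsR := D.toD.sR
  have hR := D.toD.R_pos
  refine ⟨g.pos, ?_, g.y_le, g.K_le⟩
  intro x hx
  rw [mem_closedBall_iff_norm] at hx
  refine D.sub ?_
  rw [mem_closedBall_iff_norm]
  have : ‖x - c‖ ≤ ‖x - z‖ + ‖z - c‖ := by simpa using norm_add_le (x - z) (z - c)
  norm_num at hsR
  linarith

lemma dθ1 (h : EntOn θ H K V) : DifferentiableOn ℂ (deriv θ) V := h.dθ.deriv h.Vo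

lemma cauchy_le {f : ℂ → ℂ} {M r : ℝ} {z : ℂ} (hf : DifferentiableOn ℂ f (closedBall z r))
    (hr : 0 < r) (hM : ∀ x : ℂ, ‖x - z‖ ≤ r → ‖f x‖ ≤ M) : ‖deriv f z‖ ≤ M / r := by
  refine Complex.norm_deriv_le_of_forall_mem_sphere_norm_le hr ?_
    (fun x hx => hM x (by rw [mem_sphere_iff_norm] at hx; exact hx.le))
  refine DifferentiableOn.diffContOnCl ?_
  rwa [closure_ball z hr.ne']

lemma SmallV.bd (D : SmallV θ K V c R s κ) (h : EntOn θ H K V) {z : ℂ} (hz : ‖z - c‖ ≤ 2 / 3 * R)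
    {e : ℂ} (he : ‖e‖ ≤ 5 * s) :
    Bd θ K z ‖e‖ (κ / s) (8 * κ / (s * R)) (24 * κ ^ 2 / (s ^ 2 * R)) := by
  have hs := D.toD.s_pos
  have hR := D.toD.R_pos
  have hsR := D.toD.sR
  have hin : ∀ x : ℂ, ‖x - z‖ ≤ ‖e‖ → ∀ x' : ℂ, ‖x' - x‖ ≤ R / 8 → ‖x' - c‖ ≤ R := by
    intro x hx x' hx'
    have h1 : ‖x - c‖ ≤ ‖x - z‖ + ‖z - c‖ := by simpa using norm_add_le (x - z) (z - c)
    have h2 : ‖x' - c‖ ≤ ‖x' - x‖ + ‖x - c‖ := by simpa using norm_add_le (x' - x) (x - c)
    linarith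
  have hinV : ∀ x : ℂ, ‖x - z‖ ≤ ‖e‖ → closedBall x (R / 8) ⊆ V := by
    intro x hx x' hx'
    rw [mem_closedBall_iff_norm] at hx'
    exact D.sub (by rw [mem_closedBall_iff_norm]; exact hin x hx x' hx')
  refine ⟨?_, ?_, ?_⟩
  · intro x hx
    exact D.toD.y_le x (hin x hx x (by simpa using by positivity))
  · intro x hx
    have := cauchy_le (f := deriv θ) (M := κ / s) (r := R / 8) (z := x)
      ((dθ1 h).mono (hinV x hx)) (by positivity)
      (fun x' hx' => D.toD.y_le x' (hin x hx x' hx'))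
    refine this.trans (le_of_eq ?_)
    field_simp
  · intro x hx
    have := cauchy_le (f := K) (M := 3 * κ ^ 2 / s ^ 2) (r := R / 8) (z := x)
      (h.dK.mono (hinV x hx)) (by positivity)
      (fun x' hx' => D.toD.K_le x' (hin x hx x' hx'))
    refine this.trans (le_of_eq ?_)
    field_simp
    ring

/-- the step estimate in the ball -/
lemma SmallV.st_near (D : SmallV θ K V c R s κ) (h : EntOn θ H K V) {z : ℂ}
    (hz : ‖z - c‖ ≤ 2 / 3 * R) {e : ℂ} (he : ‖e‖ ≤ 5 * s) :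
    ‖st θ H z e - e‖ ≤ 8000 * κ ^ 2 / (s ^ 2 * R) * ‖e‖ ^ 4 := by
  have hs := D.toD.s_pos
  have hR := D.toD.R_pos
  have := StepV599.st_near h (D.good hz) (by linarith) (D.bd h hz he)
  refine this.trans (le_of_eq ?_)
  field_simp
  ring

/-- **the column climb** -/
theorem column_climb (D : SmallV θ K V c R s κ) (h : EntOn θ H K V) (hb : |b - c.im| ≤ R / 400)
    {X₀ : ℂ × ℂ → ℂ}
    (h0d : DifferentiableOn ℂ X₀ {x | x ∈ Col c R s b ∧ x.1.im < b})
    (h0n : ∀ t w : ℂ, (t, w) ∈ Col c R s b → t.im < b → ‖X₀ (t, w) - t‖ ≤ R / 100)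
    (h0s : ∀ t w : ℂ, (t, w) ∈ Col c R s b → t.im < b → (t - w, w) ∈ Col c R s b →
      ‖X₀ (t, w) - X₀ (t - w, w) - w‖ ≤ ‖w‖ / 1000)
    (h0l : ∀ t w : ℂ, (t, w) ∈ Col c R s b → t.im < b → (t - w, w) ∈ Col c R s b →
      (t - 2 * w, w) ∈ Col c R s b →
      X₀ (t, w) = X₀ (t - w, w) + st θ H (X₀ (t - w, w)) (X₀ (t - w, w) - X₀ (t - 2 * w, w))) :
    ∃ X : ℂ × ℂ → ℂ, DifferentiableOn ℂ X (Col c R s b) ∧
      (∀ t w : ℂ, (t, w) ∈ Col c R s b → t.im < b → X (t, w) = X₀ (t, w)) ∧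
      (∀ t w : ℂ, (t, w) ∈ Col c R s b → ‖X (t, w) - t‖ ≤ R / 80) ∧
      (∀ t w : ℂ, (t, w) ∈ Col c R s b → (t - w, w) ∈ Col c R s b →
        ‖X (t, w) - X (t - w, w) - w‖ ≤ ‖w‖ / 500) ∧
      (∀ t w : ℂ, (t, w) ∈ Col c R s b → (t - w, w) ∈ Col c R s b →
        (t - 2 * w, w) ∈ Col c R s b →
        X (t, w) = X (t - w, w) + st θ H (X (t - w, w)) (X (t - w, w) - X (t - 2 * w, w))) := by
  have hs := D.toD.s_pos
  have hR := D.toD.R_pos
  have hsR := D.toD.sR
  set dom : Set (ℂ × ℂ) := {x | ‖x.1 - c‖ < 2 / 3 * R ∧ x.2 ≠ 0 ∧ ‖x.2‖ < 5 * s} with hdom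
  have hdo : IsOpen dom := by
    have h1 : IsOpen {x : ℂ × ℂ | ‖x.1 - c‖ < 2 / 3 * R} :=
      isOpen_lt (continuous_fst.sub continuous_const).norm continuous_const
    have h2 : IsOpen {x : ℂ × ℂ | x.2 ≠ 0} :=
      (isOpen_ne (x := (0 : ℂ))).preimage continuous_snd
    have h3 : IsOpen {x : ℂ × ℂ | ‖x.2‖ < 5 * s} :=
      isOpen_lt continuous_snd.norm continuous_const
    exact h1.inter (h2.inter h3)
  have hDat : ClimbG350.Data (Col c R s b) b (fun x : ℂ × ℂ => st θ H x.1 x.2) dom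
      (al R s κ b) (be R s b) := by
    refine ⟨isOpen_Col, fun t w ht => Wd.im_pos ht.1, ?_, hdo, ?_, ?_, ?_⟩
    · intro t w ht hbt
      have hw : w ∈ Wd s := ht.1
      have hv := Wd.im_pos hw
      have hw1 : ‖w‖ < 2 * s := hw.1
      have hw2 : ‖w‖ < 32 * w.im := hw.2
      have hi := Complex.abs_im_le_norm w
      have hr := Complex.abs_re_le_norm w
      rw [abs_of_pos hv] at hi
      have h2 : |t.re - c.re| + 32 * (t.im - b) < R / 2 := ht.2.2
      have e1 : (t - w).im = t.im - w.im := by simp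
      have e2 : (t - 2 * w).im = t.im - 2 * w.im := by simp
      have e3 : (t - w).re = t.re - w.re := by simp
      have e4 : (t - 2 * w).re = t.re - 2 * w.re := by simp
      refine ⟨⟨hw, ?_, ?_⟩, ⟨hw, ?_, ?_⟩⟩
      · show b - 4 * s < (t - w).im
        rw [e1]; linarith
      · show |(t - w).re - c.re| + 32 * ((t - w).im - b) < R / 2
        rw [e1, e3]
        have : |t.re - w.re - c.re| ≤ |t.re - c.re| + |w.re| := by
          have := abs_sub (t.re - c.re) w.re
          rwa [show t.re - c.re - w.re = t.re - w.re - c.re by ring] at this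
        linarith
      · show b - 4 * s < (t - 2 * w).im
        rw [e2]; linarith
      · show |(t - 2 * w).re - c.re| + 32 * ((t - 2 * w).im - b) < R / 2
        rw [e2, e4]
        have : |t.re - 2 * w.re - c.re| ≤ |t.re - c.re| + |2 * w.re| := by
          have := abs_sub (t.re - c.re) (2 * w.re)
          rwa [show t.re - c.re - 2 * w.re = t.re - 2 * w.re - c.re by ring] at this
        rw [abs_mul, abs_two] at this
        linarith
    · rintro ⟨z, e⟩ ⟨h1, h2, h3⟩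
      exact (StepV599.st_differentiableAt h (D.good h1.le) h2 (by simp only at h3; linarith)).differentiableWithinAt
    · intro t w ht hbt z e hz he
      have hw : w ∈ Wd s := ht.1
      have hv := Wd.im_pos hw
      have hw1 : ‖w‖ < 2 * s := hw.1
      have hwp : 0 < ‖w‖ := by
        refine norm_pos_iff.2 (fun h => ?_)
        rw [h] at hv
        simp at hv
      have hi := Complex.abs_im_le_norm w
      rw [abs_of_pos hv] at hi
      obtain ⟨g1, g2⟩ := Col.hgt D.toD ht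
      have e1 : (t - w).im = t.im - w.im := by simp
      have k0 : 0 ≤ (t - w).im - b + 4 * s := by rw [e1]; linarith
      have k1 : (t - w).im - b + 4 * s ≤ R / 50 := by rw [e1]; linarith
      have a1 := al_le D.toD hw k0 k1
      have b1 := be_le D.toD hw k0 k1
      have htc := Col.dist D.toD hb ht
      have hzc : ‖z - c‖ < 2 / 3 * R := by
        have : z - c = (z - (t - w)) + ((t - c) - w) := by ring
        rw [this]
        refine (norm_add_le _ _).trans_lt ?_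
        have := norm_sub_le (t - c) w
        norm_num at hsR
        linarith
      have hew : ‖e‖ ≤ 11 / 10 * ‖w‖ := by
        have : e = (e - w) + w := by ring
        rw [this]
        refine (norm_add_le _ _).trans ?_
        linarith
      have he0 : e ≠ 0 := by
        intro h0
        rw [h0, zero_sub, norm_neg] at he
        linarith
      have he5 : ‖e‖ < 5 * s := by linarith
      refine ⟨⟨hzc, he0, he5⟩, ?_⟩
      have st1 := D.st_near h hzc.le he5.le
      have st2 : 8000 * κ ^ 2 / (s ^ 2 * R) * ‖e‖ ^ 4 ≤ 64000 * κ ^ 2 / R * ‖w‖ ^ 2 := by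
        have p1 : ‖e‖ ^ 4 ≤ (11 / 10 * ‖w‖) ^ 4 := pow_le_pow_left₀ (norm_nonneg _) hew 4
        have p2 : (11 / 10 * ‖w‖) ^ 4 ≤ 2 * (‖w‖ ^ 2 * ‖w‖ ^ 2) := by
          have : (11 / 10 * ‖w‖) ^ 4 = (11 / 10) ^ 4 * (‖w‖ ^ 2 * ‖w‖ ^ 2) := by ring
          rw [this]
          have : (0 : ℝ) ≤ ‖w‖ ^ 2 * ‖w‖ ^ 2 := by positivity
          norm_num
          linarith
        have p3 : ‖w‖ ^ 2 ≤ (2 * s) ^ 2 := pow_le_pow_left₀ (norm_nonneg _) hw1.le 2
        have p4 : ‖e‖ ^ 4 ≤ 2 * (‖w‖ ^ 2 * (2 * s) ^ 2) := by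
          have : ‖w‖ ^ 2 * ‖w‖ ^ 2 ≤ ‖w‖ ^ 2 * (2 * s) ^ 2 :=
            mul_le_mul_of_nonneg_left p3 (by positivity)
          linarith
        calc 8000 * κ ^ 2 / (s ^ 2 * R) * ‖e‖ ^ 4
            ≤ 8000 * κ ^ 2 / (s ^ 2 * R) * (2 * (‖w‖ ^ 2 * (2 * s) ^ 2)) :=
              mul_le_mul_of_nonneg_left p4 (by positivity)
          _ = 64000 * κ ^ 2 / R * ‖w‖ ^ 2 := by field_simp; ring
      have hal : al R s κ b t w = al R s κ b (t - w) w + 64000 * κ ^ 2 / R * ‖w‖ ^ 2 := by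
        unfold al
        rw [e1]
        have hv' : w.im ≠ 0 := hv.ne'
        field_simp
        ring
      show ‖st θ H z e - e‖ + al R s κ b (t - w) w ≤ al R s κ b t w
      rw [hal]
      linarith
    · intro t w ht hbt
      have hw : w ∈ Wd s := ht.1
      have hv := Wd.im_pos hw
      obtain ⟨g1, g2⟩ := Col.hgt D.toD ht
      have a1 := al_le D.toD hw g1.le g2
      have e1 : (t - w).im = t.im - w.im := by simp
      have hbe : be R s b t w = be R s b (t - w) w + ‖w‖ / 500 := by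
        unfold be
        rw [e1]
        have hv' : w.im ≠ 0 := hv.ne'
        field_simp
        ring
      rw [hbe]
      linarith
  have hset : ClimbG350.SN (Col c R s b) b 0 = {x | x ∈ Col c R s b ∧ x.1.im < b} := by
    ext x
    simp [ClimbG350.SN]
  have hL0 : ClimbG350.Leaf (fun x : ℂ × ℂ => st θ H x.1 x.2) (al R s κ b) (be R s b)
      (ClimbG350.SN (Col c R s b) b 0) X₀ := by
    rw [hset]
    refine ⟨h0d, ?_, ?_, ?_⟩
    · intro t w ht
      obtain ⟨g1, g2⟩ := Col.hgt D.toD ht.1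
      have hv := Wd.im_pos ht.1.1
      refine (h0n t w ht.1 ht.2).trans ?_
      unfold be
      have : 0 ≤ ‖w‖ / 500 * ((t.im - b + 4 * s) / w.im) := by positivity
      linarith
    · intro t w ht ht'
      obtain ⟨g1, g2⟩ := Col.hgt D.toD ht.1
      have hv := Wd.im_pos ht.1.1
      refine (h0s t w ht.1 ht.2 ht'.1).trans ?_
      unfold al
      have : 0 ≤ 64000 * κ ^ 2 / R * ‖w‖ ^ 2 * ((t.im - b + 4 * s) / w.im) := by positivity
      linarith
    · intro t w ht ht' ht''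
      exact h0l t w ht.1 ht.2 ht'.1 ht''.1
  obtain ⟨hL, hE⟩ := hDat.climb hL0
  refine ⟨_, hL.diff, hE, ?_, ?_, ?_⟩
  · intro t w ht
    obtain ⟨g1, g2⟩ := Col.hgt D.toD ht
    exact (hL.near t w ht).trans (be_le D.toD ht.1 g1.le g2)
  · intro t w ht ht'
    obtain ⟨g1, g2⟩ := Col.hgt D.toD ht
    exact (hL.step t w ht ht').trans (al_le D.toD ht.1 g1.le g2)
  · intro t w ht ht' ht''
    exact hL.law t w ht ht' ht''


end Crest.Agent.R102.ColS350
end
end

-- ▼ part R102/LinkBS_350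
section

/-!
Row 102, T1-B, block GROWTH, (LINK, downwards), version of `LinkB_350` on an open set `V`
(`EntOn`, `GoodOn`).
-/

set_option autoImplicit false
set_option linter.unusedVariables false

open Complex Metric Set Filter Topology

noncomputable section

namespace Crest.Agent.R102.LinkBS350

open Crest.Agent.R102.Growth
open Crest.Agent.R102.StepE599 (u v chi st ph pp tau Inc)
open Crest.Agent.R102.LinkB350 (inc_of_incS incS_of_inc zero_of_exp)
open Crest.Agent.R102.StepV599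

section pointwise
variable {θ H K : ℂ → ℂ} {V : Set ℂ} {z e φ p : ℂ} {ρ : ℝ}

/-- `y` does not vanish at both ends of a short chord -/
lemma y_ne_or (h : EntOn θ H K V) (g : GoodOn θ K V z ρ) (he0 : e ≠ 0) (he : ‖e‖ ≤ ρ) :
    deriv θ z ≠ 0 ∨ deriv θ (z + e) ≠ 0 := by
  by_contra hc
  push Not at hc
  refine u_ne h g he he0 ?_
  unfold u
  rw [hc.1, hc.2]
  ring

/-- a line through two near labels: its direction mod `π` -/
lemma key_angle (h : EntOn θ H K V) (g : GoodOn θ K V z ρ) (he0 : e ≠ 0) (he : ‖e‖ ≤ ρ)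
    (i1 : Inc θ H z φ p) (i2 : Inc θ H (z + e) φ p) :
    exp (2 * (I * (φ - ph θ H z e))) = 1 := by
  have hu := u_ne h g he he0
  have t1 := tau_le8 h g he
  obtain ⟨α, hα⟩ : ∃ α, α = φ - θ z := ⟨_, rfl⟩
  have hαχ : φ - θ (z + e) = α - chi θ z e := by simp only [hα, chi]; ring
  have i1' : deriv θ z * p = deriv θ z * H z * cos α + deriv H z * sin α := by
    rw [hα]; exact i1
  have i2' : deriv θ (z + e) * p = deriv θ (z + e) * H (z + e) * cos (α - chi θ z e)
      + deriv H (z + e) * sin (α - chi θ z e) := by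
    have := i2
    unfold Inc at this
    rwa [hαχ] at this
  rw [cos_sub α, sin_sub α] at i2'
  have key : u θ H z e * sin α = deriv θ z * v θ H z e * cos α := by
    unfold u v
    linear_combination deriv θ z * i2' - deriv θ (z + e) * i1'
  have m1 := u_mul_tau h g he0 he
  have key2 : sin α = tau θ H z e * cos α := by
    apply mul_left_cancel₀ hu
    rw [key]
    linear_combination -cos α * m1
  have hc : cos α ≠ 0 := by
    intro hc
    rw [hc, mul_zero] at key2
    have := sin_sq_add_cos_sq α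
    rw [hc, key2] at this
    norm_num at this
  have e3 : exp (I * α) = cos α * (1 + I * tau θ H z e) := by
    rw [StepE599.exp_eq_E, key2]; ring
  have e4 : exp (-(I * α)) = cos α * (1 - I * tau θ H z e) := by
    rw [StepE599.exp_eq_E', key2]; ring
  have e5 : (2 : ℂ) * (I * α) = I * α - -(I * α) := by ring
  have h4 : (1 - I * tau θ H z e) ≠ 0 := by
    intro h; rw [h, mul_zero] at e4; exact exp_ne_zero _ e4
  have h5 : (1 + I * tau θ H z e) ≠ 0 := by
    intro h; rw [h, mul_zero] at e3; exact exp_ne_zero _ e3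
  have e6 : exp (2 * (I * α)) = exp (2 * (I * arctan (tau θ H z e))) := by
    rw [StepE599.exp_two_arctan t1, e5, exp_sub, e3, e4]
    field_simp
  have e7 : 2 * (I * (φ - ph θ H z e)) = 2 * (I * α) - 2 * (I * arctan (tau θ H z e)) := by
    unfold ph
    rw [hα]
    ring
  rw [e7, exp_sub, e6, div_self (exp_ne_zero _)]

/-- if the direction is `ph` then the support number is `pp` (also at zeros of `y`) -/
lemma pp_of_ph (h : EntOn θ H K V) (g : GoodOn θ K V z ρ) (g' : GoodOn θ K V (z + e) ρ) (he0 : e ≠ 0)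
    (he : ‖e‖ ≤ ρ) (i1 : Inc θ H z φ p) (i2 : Inc θ H (z + e) φ p) (hφ : φ = ph θ H z e) :
    p = pp θ H z e := by
  rcases y_ne_or h g he0 he with hy | hy
  · refine (line_unique h g he0 he hy ?_ i1 i2).2
    rw [hφ]
    have := alp_le h g he
    have e1 : ph θ H z e - θ z = arctan (tau θ H z e) := by unfold ph; ring
    rw [e1]
    linarith
  · have he0' : -e ≠ 0 := neg_ne_zero.2 he0
    have he' : ‖-e‖ ≤ ρ := by rwa [norm_neg]
    rw [pp_symm h g g' he0 he]
    have i1' : Inc θ H (z + e + -e) φ p := by rwa [add_neg_cancel_right]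
    refine (line_unique h g' he0' he' hy ?_ i2 i1').2
    rw [hφ, ph_symm h g g' he0 he]
    have := alp_le h g' he'
    have e1 : ph θ H (z + e) (-e) - θ (z + e) = arctan (tau θ H (z + e) (-e)) := by
      unfold ph; ring
    rw [e1]
    linarith

end pointwise

section global
variable {A : Type*} [TopologicalSpace A] {O : Set A} {θ H K : ℂ → ℂ} {V : Set ℂ}

/-- continuity of the line through the labels -/
lemma ph_cont (h : EntOn θ H K V) {X Y : A → ℂ} {ρ : A → ℝ} (hX : ContinuousOn X O)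
    (hY : ContinuousOn Y O) (gX : ∀ x ∈ O, GoodOn θ K V (X x) (ρ x)) (hne : ∀ x ∈ O, Y x ≠ X x)
    (hle : ∀ x ∈ O, ‖Y x - X x‖ ≤ ρ x) :
    ContinuousOn (fun x => ph θ H (X x) (Y x - X x)) O := by
  intro x hx
  have h1 := (ph_differentiableAt h (gX x hx) (sub_ne_zero.2 (hne x hx)) (hle x hx)).continuousAt
  exact ContinuousAt.comp_continuousWithinAt (g := fun q : ℂ × ℂ => ph θ H q.1 q.2)
    (f := fun x => (X x, Y x - X x)) h1 ((hX x hx).prodMk ((hY x hx).sub (hX x hx)))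

/-- **(LINK, downwards), lines** -/
theorem link_line (h : EntOn θ H K V) (hO : IsPreconnected O) {X Y Ph P : A → ℂ} {ρ : A → ℝ}
    (hX : ContinuousOn X O) (hY : ContinuousOn Y O) (hPh : ContinuousOn Ph O)
    (gX : ∀ x ∈ O, GoodOn θ K V (X x) (ρ x)) (gY : ∀ x ∈ O, GoodOn θ K V (Y x) (ρ x))
    (hne : ∀ x ∈ O, Y x ≠ X x) (hle : ∀ x ∈ O, ‖Y x - X x‖ ≤ ρ x)
    (i1 : ∀ x ∈ O, C1.IncS θ H (Ph x) (P x) (X x)) (i2 : ∀ x ∈ O, C1.IncS θ H (Ph x) (P x) (Y x))
    {x0 : A} (hx0 : x0 ∈ O) (h0 : ‖Ph x0 - θ (X x0)‖ ≤ 1) :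
    ∀ x ∈ O, Ph x = ph θ H (X x) (Y x - X x) ∧ P x = pp θ H (X x) (Y x - X x) := by
  have hD : ∀ x ∈ O, Ph x - ph θ H (X x) (Y x - X x) = 0 := by
    refine zero_of_exp (D := fun x => Ph x - ph θ H (X x) (Y x - X x)) hO
      (hPh.sub (ph_cont h hX hY gX hne hle)) ?_ hx0 ?_
    · intro x hx
      refine key_angle h (gX x hx) (sub_ne_zero.2 (hne x hx)) (hle x hx)
        (inc_of_incS (i1 x hx)) ?_
      rw [add_sub_cancel]
      exact inc_of_incS (i2 x hx)
    · show ‖Ph x0 - ph θ H (X x0) (Y x0 - X x0)‖ < 3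
      have h1 := alp_le h (gX x0 hx0) (hle x0 hx0)
      have e1 : Ph x0 - ph θ H (X x0) (Y x0 - X x0) =
          (Ph x0 - θ (X x0)) - arctan (tau θ H (X x0) (Y x0 - X x0)) := by
        unfold ph; ring
      rw [e1]
      have := norm_sub_le (Ph x0 - θ (X x0)) (arctan (tau θ H (X x0) (Y x0 - X x0)))
      linarith
  intro x hx
  have h1 := sub_eq_zero.1 (hD x hx)
  refine ⟨h1, pp_of_ph h (gX x hx) ?_ (sub_ne_zero.2 (hne x hx)) (hle x hx)
    (inc_of_incS (i1 x hx)) ?_ h1⟩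
  · rw [add_sub_cancel]; exact gY x hx
  · rw [add_sub_cancel]; exact inc_of_incS (i2 x hx)

/-- **(LINK, downwards), law**: three labels, two lines, reflection -/
theorem link_law (h : EntOn θ H K V) {X0 X1 X2 : A → ℂ} {ρ : A → ℝ} {x : A} (hO : O ∈ 𝓝 x)
    (c0 : ContinuousOn X0 O) (c1 : ContinuousOn X1 O) (c2 : ContinuousOn X2 O)
    (g0 : ∀ x ∈ O, GoodOn θ K V (X0 x) (ρ x)) (g1 : ∀ x ∈ O, GoodOn θ K V (X1 x) (ρ x))
    (hne : ∀ x ∈ O, X1 x ≠ X0 x) (hle : ∀ x ∈ O, ‖X1 x - X0 x‖ < ρ x / 2)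
    (hle2 : ∀ x ∈ O, ‖X2 x - X1 x‖ ≤ ρ x)
    (hr : ∀ x ∈ O, ph θ H (X0 x) (X1 x - X0 x) + ph θ H (X1 x) (X2 x - X1 x) = 2 * θ (X1 x))
    (hf : ∃ᶠ x' in 𝓝 x, deriv θ (X1 x') ≠ 0) :
    X2 x = X1 x + st θ H (X1 x) (X1 x - X0 x) := by
  have hxO : x ∈ O := mem_of_mem_nhds hO
  -- at points with `y ≠ 0`
  have hpt : ∀ x' ∈ O, deriv θ (X1 x') ≠ 0 →
      X2 x' - X1 x' = st θ H (X1 x') (X1 x' - X0 x') := by
    intro x' hx' hy
    have k0 := g0 x' hx'
    have k1 := g1 x' hx'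
    have hp := k0.pos
    refine st_of_refl h k1 (hle x' hx').le (hle2 x' hx') hy ?_
    have hs := ph_symm h k0 (e := X1 x' - X0 x') (by rw [add_sub_cancel]; exact k1)
      (sub_ne_zero.2 (hne x' hx')) (by
        have := hle x' hx'
        linarith)
    rw [add_sub_cancel] at hs
    rw [← hs]
    exact hr x' hx'
  have hcst : ContinuousAt (fun x' => st θ H (X1 x') (X1 x' - X0 x')) x := by
    have h1 := (st_differentiableAt h (g1 x hxO) (sub_ne_zero.2 (hne x hxO)) (hle x hxO)).continuousAt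
    exact ContinuousAt.comp (g := fun q : ℂ × ℂ => st θ H q.1 q.2)
      (f := fun x => (X1 x, X1 x - X0 x)) h1
      ((c1.continuousAt hO).prodMk ((c1.continuousAt hO).sub (c0.continuousAt hO)))
  have hc : ContinuousAt (fun x' => X2 x' - X1 x' - st θ H (X1 x') (X1 x' - X0 x')) x :=
    ((c2.continuousAt hO).sub (c1.continuousAt hO)).sub hcst
  by_contra hcon
  have hne0 : X2 x - X1 x - st θ H (X1 x) (X1 x - X0 x) ≠ 0 := by
    intro h0
    apply hcon
    linear_combination h0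
  have hev := hc.eventually_ne hne0
  obtain ⟨x', h1, h2, h3⟩ := (hf.and_eventually (hev.and hO)).exists
  exact h2 (by rw [hpt x' h3 h1, sub_self])

end global

/-- labels of a slice avoid the zeros of `y` most of the time -/
lemma freq_ne {V : Set ℂ} (hV : IsOpen V) (hVc : IsPreconnected V) {y X : ℂ → ℂ}
    (hy : DifferentiableOn ℂ y V) (hy0 : ∃ z ∈ V, y z ≠ 0) {U : Set ℂ}
    (hU : IsOpen U) (hUc : IsPreconnected U) (hX : DifferentiableOn ℂ X U)
    (hnc : ∃ t1 ∈ U, ∃ t2 ∈ U, X t1 ≠ X t2) {t : ℂ} (ht : t ∈ U) (htV : X t ∈ V) :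
    ∃ᶠ t' in 𝓝 t, y (X t') ≠ 0 := by
  intro hc
  have hc' : ∀ᶠ t' in 𝓝 t, y (X t') = 0 := by
    filter_upwards [hc] with t' h
    by_contra h'
    exact h h'
  have hXa : AnalyticOnNhd ℂ X U := hX.analyticOnNhd hU
  have hall : AnalyticOnNhd ℂ y V := hy.analyticOnNhd hV
  have hya : AnalyticAt ℂ y (X t) := hall _ htV
  rcases hya.eventually_eq_zero_or_eventually_ne_zero with h1 | h1
  · obtain ⟨z, hzV, hz⟩ := hy0
    have := hall.eqOn_zero_of_preconnected_of_eventuallyEq_zero hVc htV h1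
    exact hz (this hzV)
  · have hcX : ContinuousAt X t := (hX.differentiableAt (hU.mem_nhds ht)).continuousAt
    have h2 : ∀ᶠ t' in 𝓝 t, X t' = X t := by
      have h3 : ∀ᶠ x in 𝓝 (X t), x ≠ X t → y x ≠ 0 := by
        rw [eventually_nhdsWithin_iff] at h1
        filter_upwards [h1] with x hx hx'
        exact hx hx'
      filter_upwards [hcX.eventually h3, hc'] with t' k1 k2
      by_contra k3
      exact k1 k3 k2
    have h4 : EqOn X (fun _ => X t) U :=
      hXa.eqOn_of_preconnected_of_eventuallyEq analyticOnNhd_const hUc ht h2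
    obtain ⟨t1, ht1, t2, ht2, h5⟩ := hnc
    exact h5 ((h4 ht1).trans (h4 ht2).symm)

end Crest.Agent.R102.LinkBS350
end
end

-- ▼ part R102/CCaS_350

/-!
Row 102, T1-B, block GROWTH, **(CC), part a**: version of `CCa_350` on an open connected set `V`
(`EntOn`, `GoodOn`).
-/

set_option autoImplicit false
set_option linter.unusedVariables false

open Set Filter Topology Metric

noncomputable section

namespace Crest.Agent.R102.CCS350

open Crest.Agent.R102.Growth
open Crest.Agent.R102.StepE599 (Good Bd u v chi st ph pp tau Inc)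
open Crest.Agent.R102.ColE350 (Wd Col SmallD Wd.im_pos isOpen_Col Col.mem)
open Crest.Agent.R102.CC350 (DL BaseL convex_Wd O1 O1_eq preconn_O1 isOpen_Wd isOpen_DL DL_mid)
open Crest.Agent.R102.ColS350 Crest.Agent.R102.LinkBS350

/-- `BaseL` with labels whose good balls are in `V` -/
structure BaseV (θ H K : ℂ → ℂ) (V : Set ℂ) (Φ P B : ℂ × ℂ → ℂ) (s b1 R : ℝ) : Prop where
  toL : BaseL θ H K Φ P B s b1 R
  sub : ∀ t w : ℂ, (t, w) ∈ DL s b1 → closedBall (B (t, w)) (10 * s) ⊆ V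

/-- constructor from `GoodOn` -/
theorem BaseV.mk' {θ H K : ℂ → ℂ} {V : Set ℂ} {Φ P B : ℂ × ℂ → ℂ} {s b1 R : ℝ}
    (s_pos : 0 < s) (R_pos : 0 < R) (B_diff : DifferentiableOn ℂ B (DL s b1))
    (Φ_cont : ContinuousOn Φ (DL s b1))
    (near : ∀ t w : ℂ, (t, w) ∈ DL s b1 → ‖B (t, w) - t‖ ≤ R / 100)
    (step : ∀ t w : ℂ, (t, w) ∈ DL s b1 → (t - w, w) ∈ DL s b1 →
      ‖B (t, w) - B (t - w, w) - w‖ ≤ ‖w‖ / 1000)
    (inc : ∀ t w : ℂ, (t, w) ∈ DL s b1 → (t + w / 2, w) ∈ DL s b1 →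
      C1.IncS θ H (Φ (t, w)) (P (t, w)) (B (t + w / 2, w)))
    (inc' : ∀ t w : ℂ, (t, w) ∈ DL s b1 → (t - w / 2, w) ∈ DL s b1 →
      C1.IncS θ H (Φ (t, w)) (P (t, w)) (B (t - w / 2, w)))
    (refl : ∀ t w : ℂ, (t, w) ∈ DL s b1 → (t - w / 2, w) ∈ DL s b1 → (t + w / 2, w) ∈ DL s b1 →
      Φ (t - w / 2, w) + Φ (t + w / 2, w) = 2 * θ (B (t, w)))
    (good : ∀ t w : ℂ, (t, w) ∈ DL s b1 → GoodOn θ K V (B (t, w)) (10 * s))
    (start : ∃ t w : ℂ, (t, w) ∈ DL s b1 ∧ (t - w / 2, w) ∈ DL s b1 ∧ (t + w / 2, w) ∈ DL s b1 ∧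
      ‖Φ (t, w) - θ (B (t - w / 2, w))‖ ≤ 1) : BaseV θ H K V Φ P B s b1 R :=
  ⟨⟨s_pos, R_pos, B_diff, Φ_cont, near, step, inc, inc', refl,
    fun t w h => ⟨(good t w h).pos, (good t w h).y_le, (good t w h).K_le⟩, start⟩,
    fun t w h => (good t w h).sub⟩

variable {θ H K : ℂ → ℂ} {V : Set ℂ} {Φ P B : ℂ × ℂ → ℂ} {s b1 R b κ : ℝ} {c : ℂ}

lemma BaseV.good (D : BaseV θ H K V Φ P B s b1 R) (t w : ℂ) (h : (t, w) ∈ DL s b1) :
    GoodOn θ K V (B (t, w)) (10 * s) :=
  ⟨(D.toL.good t w h).pos, D.sub t w h, (D.toL.good t w h).y_le, (D.toL.good t w h).K_le⟩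

/-- **the lines are `ph`, `pp` of the labels** -/
theorem BaseV.line (D : BaseV θ H K V Φ P B s b1 R) (h : EntOn θ H K V) {t w : ℂ}
    (h1 : (t, w) ∈ DL s b1) (h2 : (t + w, w) ∈ DL s b1) :
    Φ (t + w / 2, w) = ph θ H (B (t, w)) (B (t + w, w) - B (t, w)) ∧
      P (t + w / 2, w) = pp θ H (B (t, w)) (B (t + w, w) - B (t, w)) := by
  have hs := D.toL.s_pos
  have cX : ContinuousOn (fun x : ℂ × ℂ => B (x.1, x.2)) (O1 s b1) :=
    D.toL.B_diff.continuousOn.comp (by fun_prop : ContinuousOn (fun x : ℂ × ℂ => (x.1, x.2)) _)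
      (fun x hx => hx.1)
  have cY : ContinuousOn (fun x : ℂ × ℂ => B (x.1 + x.2, x.2)) (O1 s b1) :=
    D.toL.B_diff.continuousOn.comp
      (by fun_prop : ContinuousOn (fun x : ℂ × ℂ => (x.1 + x.2, x.2)) _) (fun x hx => hx.2)
  have cP : ContinuousOn (fun x : ℂ × ℂ => Φ (x.1 + x.2 / 2, x.2)) (O1 s b1) :=
    D.toL.Φ_cont.comp (by fun_prop : ContinuousOn (fun x : ℂ × ℂ => (x.1 + x.2 / 2, x.2)) _)
      (fun x hx => DL_mid hx.1 hx.2)
  obtain ⟨t0, w0, m1, m2, m3, m4⟩ := D.toL.start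
  have e0 : t0 - w0 / 2 + w0 = t0 + w0 / 2 := by ring
  have e0' : t0 - w0 / 2 + w0 / 2 = t0 := by ring
  have hx0 : (t0 - w0 / 2, w0) ∈ O1 s b1 := ⟨m2, by show (t0 - w0 / 2 + w0, w0) ∈ _; rw [e0]; exact m3⟩
  have := link_line (A := ℂ × ℂ) (O := O1 s b1) (X := fun x => B (x.1, x.2))
    (Y := fun x => B (x.1 + x.2, x.2)) (Ph := fun x => Φ (x.1 + x.2 / 2, x.2))
    (P := fun x => P (x.1 + x.2 / 2, x.2)) (ρ := fun _ => 10 * s) h preconn_O1 cX cY cP
    (fun x hx => D.good x.1 x.2 hx.1) (fun x hx => D.good _ _ hx.2)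
    (fun x hx => (D.toL.step_le hx.1 hx.2).1)
    (fun x hx => by
      have := (D.toL.step_le hx.1 hx.2).2
      linarith)
    (fun x hx => by
      have := D.toL.inc' (x.1 + x.2 / 2) x.2 (DL_mid hx.1 hx.2)
        (by rw [add_sub_cancel_right]; exact hx.1)
      rwa [add_sub_cancel_right] at this)
    (fun x hx => by
      have e : x.1 + x.2 / 2 + x.2 / 2 = x.1 + x.2 := by ring
      have := D.toL.inc (x.1 + x.2 / 2) x.2 (DL_mid hx.1 hx.2) (by rw [e]; exact hx.2)
      rwa [e] at this)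
    hx0 (by
      show ‖Φ (t0 - w0 / 2 + w0 / 2, w0) - θ (B (t0 - w0 / 2, w0))‖ ≤ 1
      rw [e0']
      exact m4)
  exact this (t, w) ⟨h1, h2⟩

/-- `y` is not identically zero -/
lemma BaseV.y_ne (D : BaseV θ H K V Φ P B s b1 R) (h : EntOn θ H K V) :
    ∃ z ∈ V, deriv θ z ≠ 0 := by
  obtain ⟨t0, w0, m1, m2, m3, m4⟩ := D.toL.start
  have e0 : t0 - w0 / 2 + w0 = t0 + w0 / 2 := by ring
  have hs := D.toL.s_pos
  have k := D.toL.step_le m2 (by rw [e0]; exact m3)
  have g := D.good _ _ m2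
  rcases y_ne_or h g (sub_ne_zero.2 k.1) (by linarith [k.2]) with h1 | h1
  · exact ⟨_, g.sub (mem_closedBall_self g.pos.le), h1⟩
  · refine ⟨_, g.sub ?_, h1⟩
    rw [mem_closedBall_iff_norm, add_sub_cancel_left]
    linarith [k.2]

/-- **the law of `st`** -/
theorem BaseV.law (D : BaseV θ H K V Φ P B s b1 R) (h : EntOn θ H K V) (hVc : IsPreconnected V) {t w : ℂ}
    (h0 : (t - 2 * w, w) ∈ DL s b1) (h1 : (t - w, w) ∈ DL s b1) (h2 : (t, w) ∈ DL s b1) :
    B (t, w) = B (t - w, w) + st θ H (B (t - w, w)) (B (t - w, w) - B (t - 2 * w, w)) := by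
  have hs := D.toL.s_pos
  have hR := D.toL.R_pos
  -- the slice
  set U : Set ℂ := {t' : ℂ | (t' - 2 * w, w) ∈ DL s b1 ∧ (t' - w, w) ∈ DL s b1 ∧
    (t', w) ∈ DL s b1} with hU
  have hUo : IsOpen U := by
    have k0 : IsOpen {t' : ℂ | (t' - 2 * w, w) ∈ DL s b1} :=
      isOpen_DL.preimage (by fun_prop : Continuous fun t' : ℂ => (t' - 2 * w, w))
    have k1 : IsOpen {t' : ℂ | (t' - w, w) ∈ DL s b1} :=
      isOpen_DL.preimage (by fun_prop : Continuous fun t' : ℂ => (t' - w, w))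
    have k2 : IsOpen {t' : ℂ | (t', w) ∈ DL s b1} :=
      isOpen_DL.preimage (by fun_prop : Continuous fun t' : ℂ => (t', w))
    exact k0.inter (k1.inter k2)
  have htU : t ∈ U := ⟨h0, h1, h2⟩
  have hB : ∀ a : ℂ, (∀ t' ∈ U, (t' - a, w) ∈ DL s b1) →
      ContinuousOn (fun t' : ℂ => B (t' - a, w)) U := by
    intro a ha
    exact D.toL.B_diff.continuousOn.comp
      (by fun_prop : ContinuousOn (fun t' : ℂ => (t' - a, w)) _) (fun x hx => ha x hx)
  have c0 := hB (2 * w) (fun t' ht' => ht'.1)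
  have c1 := hB w (fun t' ht' => ht'.2.1)
  have c2 : ContinuousOn (fun t' : ℂ => B (t', w)) U :=
    D.toL.B_diff.continuousOn.comp
      (by fun_prop : ContinuousOn (fun t' : ℂ => (t', w)) _) (fun x hx => hx.2.2)
  have ea : ∀ t' : ℂ, t' - 2 * w + w = t' - w := fun t' => by ring
  have eb : ∀ t' : ℂ, t' - w + w = t' := fun t' => by ring
  have ec : ∀ t' : ℂ, t' - 2 * w + w / 2 = t' - w - w / 2 := fun t' => by ring
  have ed : ∀ t' : ℂ, t' - w + w / 2 = t' - w / 2 := fun t' => by ring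
  have s01 : ∀ t' ∈ U, B (t' - w, w) ≠ B (t' - 2 * w, w) ∧
      ‖B (t' - w, w) - B (t' - 2 * w, w)‖ < 5 * s := by
    intro t' ht'
    have := D.toL.step_le ht'.1 (by rw [ea]; exact ht'.2.1)
    rwa [ea] at this
  have s12 : ∀ t' ∈ U, B (t', w) ≠ B (t' - w, w) ∧ ‖B (t', w) - B (t' - w, w)‖ < 5 * s := by
    intro t' ht'
    have := D.toL.step_le ht'.2.1 (by rw [eb]; exact ht'.2.2)
    rwa [eb] at this
  -- frequently `y ≠ 0` at the middle label
  have hfr : ∃ᶠ t' in 𝓝 t, deriv θ (B (t' - w, w)) ≠ 0 := by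
    set V1 : Set ℂ := {t' : ℂ | (t' - w, w) ∈ DL s b1} with hV1
    have hVo1 : IsOpen V1 :=
      isOpen_DL.preimage (by fun_prop : Continuous fun t' : ℂ => (t' - w, w))
    have hVe : V1 = {t' : ℂ | w ∈ Wd s ∧ -(4 * s) < (t' - w).im ∧ (t' - w).im < b1} := rfl
    have hVc1 : IsPreconnected V1 := by
      refine Convex.isPreconnected ?_
      have e1 : V1 = Complex.im ⁻¹' Ioo (-(4 * s) + w.im) (b1 + w.im) := by
        ext t'
        rw [hVe]
        simp only [Set.mem_ofPred_eq, mem_preimage, mem_Ioo, Complex.sub_im]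
        constructor
        · rintro ⟨_, a1, a2⟩
          constructor <;> linarith
        · rintro ⟨a1, a2⟩
          exact ⟨h1.1, by linarith, by linarith⟩
      rw [e1]
      exact (convex_Ioo _ _).linear_preimage Complex.imLm
    have hVd : DifferentiableOn ℂ (fun t' : ℂ => B (t' - w, w)) V1 :=
      D.toL.B_diff.comp (by fun_prop : DifferentiableOn ℂ (fun t' : ℂ => (t' - w, w)) _)
        (fun x hx => hx)
    refine freq_ne h.Vo hVc (dθ1 h) (D.y_ne h) hVo1 hVc1 hVd ?_ h1 ((D.good _ _ h1).sub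
      (mem_closedBall_self (D.good _ _ h1).pos.le))
    have hr : (t + (R : ℝ) - w, w) ∈ DL s b1 := by
      refine ⟨h1.1, ?_, ?_⟩
      · have := h1.2.1
        show -(4 * s) < (t + (R : ℝ) - w).im
        simpa using this
      · have := h1.2.2
        show (t + (R : ℝ) - w).im < b1
        simpa using this
    refine ⟨t, h1, t + (R : ℝ), hr, ?_⟩
    intro heq
    have n1 := D.toL.near _ _ h1
    have n2 := D.toL.near _ _ hr
    rw [← heq] at n2
    have e3 : (R : ℂ) = (B (t - w, w) - (t - w)) - (B (t - w, w) - (t + (R : ℝ) - w)) := by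
      ring
    have e4 : ‖(R : ℂ)‖ = R := by rw [Complex.norm_real]; exact abs_of_pos hR
    have e5 := norm_sub_le (B (t - w, w) - (t - w)) (B (t - w, w) - (t + (R : ℝ) - w))
    rw [← e3, e4] at e5
    linarith
  have hmain := link_law (A := ℂ) (O := U) (X0 := fun t' => B (t' - 2 * w, w))
    (X1 := fun t' => B (t' - w, w)) (X2 := fun t' => B (t', w)) (ρ := fun _ => 10 * s) (x := t)
    h (hUo.mem_nhds htU) c0 c1 c2 (fun t' ht' => D.good _ _ ht'.1)
    (fun t' ht' => D.good _ _ ht'.2.1) (fun t' ht' => (s01 t' ht').1)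
    (fun t' ht' => by
      have := (s01 t' ht').2
      linarith)
    (fun t' ht' => by
      have := (s12 t' ht').2
      linarith)
    (fun t' ht' => by
      have l1 := (D.line h ht'.1 (by rw [ea]; exact ht'.2.1)).1
      have l2 := (D.line h ht'.2.1 (by rw [eb]; exact ht'.2.2)).1
      rw [ea, ec] at l1
      rw [eb, ed] at l2
      have l3 := D.toL.refl (t' - w) w ht'.2.1
        (by
          rw [← ec]
          exact DL_mid ht'.1 (by rw [ea]; exact ht'.2.1))
        (DL_mid ht'.2.1 (by rw [eb]; exact ht'.2.2))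
      rw [ed] at l3
      rw [← l1, ← l2]
      exact l3)
    hfr
  exact hmain

/-- **(CC), part a** -/
theorem BaseV.column (D : BaseV θ H K V Φ P B s b1 R) (h : EntOn θ H K V) (hVc : IsPreconnected V) (S : SmallV θ K V c R s κ)
    (hb : |b - c.im| ≤ R / 400) (hb0 : 0 ≤ b) (hb1 : b ≤ b1) :
    ∃ X : ℂ × ℂ → ℂ, DifferentiableOn ℂ X (Col c R s b) ∧
      (∀ t w : ℂ, (t, w) ∈ Col c R s b → t.im < b → X (t, w) = B (t, w)) ∧
      (∀ t w : ℂ, (t, w) ∈ Col c R s b → ‖X (t, w) - t‖ ≤ R / 80) ∧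
      (∀ t w : ℂ, (t, w) ∈ Col c R s b → GoodOn θ K V (X (t, w)) (10 * s)) ∧
      (∀ t w : ℂ, (t, w) ∈ Col c R s b → (t + w, w) ∈ Col c R s b →
        X (t + w, w) ≠ X (t, w) ∧ ‖X (t + w, w) - X (t, w)‖ < 5 * s) ∧
      (∀ t w : ℂ, (t, w) ∈ Col c R s b → (t + w, w) ∈ Col c R s b → (t + w).im < b →
        Φ (t + w / 2, w) = ph θ H (X (t, w)) (X (t + w, w) - X (t, w)) ∧
        P (t + w / 2, w) = pp θ H (X (t, w)) (X (t + w, w) - X (t, w))) := by
  have hs := D.toL.s_pos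
  have hR := D.toL.R_pos
  have hsub : ∀ t w : ℂ, (t, w) ∈ Col c R s b → t.im < b → (t, w) ∈ DL s b1 := by
    intro t w ht h2
    have h1 : b - 4 * s < t.im := ht.2.1
    refine ⟨ht.1, ?_, ?_⟩
    · show -(4 * s) < t.im; linarith
    · show t.im < b1; linarith
  have him : ∀ t w : ℂ, (t, w) ∈ Col c R s b → 0 < w.im := fun t w ht => Wd.im_pos ht.1
  obtain ⟨X, x1, x2, x3, x4, x5⟩ := column_climb S h hb (X₀ := B)
    (D.toL.B_diff.mono (fun x hx => hsub x.1 x.2 hx.1 hx.2))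
    (fun t w ht h2 => D.toL.near t w (hsub t w ht h2))
    (fun t w ht h2 ht' => D.toL.step t w (hsub t w ht h2)
      (hsub _ _ ht' (by
        have := him t w ht
        rw [Complex.sub_im]; linarith)))
    (fun t w ht h2 ht' ht'' => D.law h hVc
      (hsub _ _ ht'' (by
        have := him t w ht
        have e2 : (t - 2 * w).im = t.im - 2 * w.im := by simp
        rw [e2]; linarith))
      (hsub _ _ ht' (by
        have := him t w ht
        rw [Complex.sub_im]; linarith))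
      (hsub t w ht h2))
  refine ⟨X, x1, x2, x3, ?_, ?_, ?_⟩
  · intro t w ht
    exact S.good (Col.mem S.toD hb ht (x3 t w ht))
  · intro t w ht ht'
    have k := x4 (t + w) w ht' (by rwa [add_sub_cancel_right])
    rw [add_sub_cancel_right] at k
    have hv := him t w ht
    have hwp : 0 < ‖w‖ := by
      refine norm_pos_iff.2 (fun h0 => ?_)
      rw [h0] at hv
      simp at hv
    have hw : ‖w‖ < 2 * s := ht.1.1
    constructor
    · intro h0
      rw [h0, sub_self, zero_sub, norm_neg] at k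
      linarith
    · have e : X (t + w, w) - X (t, w) = (X (t + w, w) - X (t, w) - w) + w := by ring
      rw [e]
      refine (norm_add_le _ _).trans_lt ?_
      linarith
  · intro t w ht ht' h3
    have hv := him t w ht
    have h4 : t.im < b := by
      rw [Complex.add_im] at h3
      linarith
    rw [x2 t w ht h4, x2 (t + w) w ht' h3]
    exact D.line h (hsub t w ht h4) (hsub _ _ ht' h3)

end Crest.Agent.R102.CCS350
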