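import Mathlib
import Crest.Agent.R102.CC_350
import Crest.Agent.R102.CCaS_350
import Crest.Agent.R102.WinW_486
import Crest.Agent.R102.GrowthDefs_314

-- ▼ part R102/CCS_350
section

/-!
Row 102, T1-B, block GROWTH, **(CC), final form** on an open connected set `V`: the main sheet
`SL φ p ρ r` of the lines contains the column.
-/

set_option autoImplicit false
set_option linter.unusedVariables false

open Set Filter Topology Metric

noncomputable section

namespace Crest.Agent.R102.CCS350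

open Crest.Agent.R102.Growth
open Crest.Agent.R102.StepE599 (Good Bd u v chi st ph pp tau Inc)
open Crest.Agent.R102.ColE350 (Wd Col SmallD Wd.im_pos isOpen_Col Col.mem)
open Crest.Agent.R102.CC350 (DL BaseL convex_Wd O1 O1_eq preconn_O1 isOpen_Wd isOpen_DL DL_mid
  sht_glue NN isOpen_NN mem_NN)
open Crest.Agent.R102.ColS350 Crest.Agent.R102.LinkBS350
open Crest.Agent.R102.StepV599 (ph_differentiableAt pp_differentiableAt)
open Crest.Agent.R102.Sh982
open Crest.Agent.R102.VH982 (pt pt_eta pt_snd pt_re pt_im)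
open Crest.Agent.R102.K669 (Slab IsReg isReg_of_local isOpen_isReg)

variable {q : C(ℂ, ℂ)} {η ρ r Bc : ℝ} {bb φ p : ℂ × ℂ → ℂ} {m₀ : ℂ → ℂ}
variable {θ H K : ℂ → ℂ} {V : Set ℂ} {B : ℂ × ℂ → ℂ} {s b1 R κ : ℝ} {c : ℂ}

/-- **(CC)** upper cone -/
theorem cc_up (fam : C0.LineFam q η ρ r Bc bb φ p m₀) (h : EntOn θ H K V)
    (hVc : IsPreconnected V) (S : SmallV θ K V c R s κ)
    (D : BaseV θ H K V (φe φ p ρ r) (pe φ p ρ r) B s b1 R)
    (hb : |b1 - c.im| ≤ R / 400) (hb0 : 0 ≤ b1) (hr : 2 * s ≤ r)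
    (hSL : ∀ t w : ℂ, w ∈ Wd s → -(ρ / 2) < t.im → t.im < b1 → (t, w) ∈ SL φ p ρ r)
    {t w : ℂ} (ht1 : |t.re - c.re| < R / 12) (ht2 : -(ρ / 2) < t.im)
    (ht3 : t.im < c.im + R / 120) (hw : w ∈ Wd s) : (t, w) ∈ SL φ p ρ r := by
  have hs := D.toL.s_pos
  have hR := D.toL.R_pos
  have hsR := S.toD.sR
  rcases lt_or_ge t.im b1 with hlt | hge
  · exact hSL t w hw ht2 hlt
  obtain ⟨X, x1, x2, x3, x4, x5, x6⟩ := D.column h hVc S hb hb0 le_rfl
  have hρ : 0 < ρ := fam.ρ_pos
  have hrρ : 4 * r ≤ ρ := fam.r_le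
  have h10 : -(ρ / 2) < ρ / 2 := by linarith
  have hv := Wd.im_pos hw
  have hw1 : ‖w‖ < 2 * s := hw.1
  have hwim : w.im < 2 * s := by
    have := Complex.abs_im_le_norm w
    rw [abs_of_pos hv] at this
    linarith
  have hslab : Slab (-(ρ / 2)) (ρ / 2) (ball 0 r) ⊆ C0.PD ρ r := slab_PD hρ
  have hF : DifferentiableOn ℂ (Fl φ p) (Slab (-(ρ / 2)) (ρ / 2) (ball 0 r)) :=
    (fam.φ_diff.mono hslab).prodMk (fam.p_diff.mono hslab)
  set e : ℂ × ℂ → ℂ := fun x => X (x.1 + x.2 / 2, x.2) - X (x.1 - x.2 / 2, x.2) with he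
  set G : ℂ × ℂ → ℂ × ℂ := fun x =>
    (ph θ H (X (x.1 - x.2 / 2, x.2)) (e x), pp θ H (X (x.1 - x.2 / 2, x.2)) (e x)) with hG
  -- facts on `NN`
  have hstep : ∀ x ∈ NN c R s b1, e x ≠ 0 ∧ ‖e x‖ < 5 * s := by
    intro x hx
    have e0 : x.1 - x.2 / 2 + x.2 = x.1 + x.2 / 2 := by ring
    have := x5 (x.1 - x.2 / 2) x.2 hx.1 (by rw [e0]; exact hx.2)
    rw [e0] at this
    exact ⟨sub_ne_zero.2 this.1, this.2⟩
  have hXm : DifferentiableOn ℂ (fun x : ℂ × ℂ => X (x.1 - x.2 / 2, x.2)) (NN c R s b1) :=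
    x1.comp (by fun_prop : DifferentiableOn ℂ (fun x : ℂ × ℂ => (x.1 - x.2 / 2, x.2)) _)
      (fun x hx => hx.1)
  have hXp : DifferentiableOn ℂ (fun x : ℂ × ℂ => X (x.1 + x.2 / 2, x.2)) (NN c R s b1) :=
    x1.comp (by fun_prop : DifferentiableOn ℂ (fun x : ℂ × ℂ => (x.1 + x.2 / 2, x.2)) _)
      (fun x hx => hx.2)
  have hed : DifferentiableOn ℂ e (NN c R s b1) := hXp.sub hXm
  have hGd : DifferentiableOn ℂ G (NN c R s b1) := by
    intro x hx
    have g := x4 _ _ hx.1
    obtain ⟨k1, k2⟩ := hstep x hx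
    have d1 := ph_differentiableAt h g k1 (by linarith)
    have d2 := pp_differentiableAt h g k1 (by linarith)
    have d0 : DifferentiableWithinAt ℂ (fun x : ℂ × ℂ => (X (x.1 - x.2 / 2, x.2), e x))
        (NN c R s b1) x := (hXm x hx).prodMk (hed x hx)
    exact (DifferentiableAt.comp_differentiableWithinAt (g := fun u : ℂ × ℂ => ph θ H u.1 u.2)
      (f := fun x : ℂ × ℂ => (X (x.1 - x.2 / 2, x.2), e x)) x d1 d0).prodMk
      (DifferentiableAt.comp_differentiableWithinAt (g := fun u : ℂ × ℂ => pp θ H u.1 u.2)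
      (f := fun x : ℂ × ℂ => (X (x.1 - x.2 / 2, x.2), e x)) x d2 d0)
  -- the start
  have hb1s : b1 - 2 * s > -(ρ / 2) := by
    have : s ≤ r / 2 := by linarith
    linarith
  have hcb := abs_le.1 hb
  norm_num at hsR
  have hmemN : ∀ y : ℝ, b1 - 2 * s ≤ y → y ≤ t.im → pt t.re y w ∈ NN c R s b1 := by
    intro y hy1 hy2
    rw [pt_mk]
    refine mem_NN hs S.toD.sR hw ?_ ?_
    · show b1 - 3 * s < y
      linarith
    · show |t.re - c.re| + 32 * (y - b1) < R / 2 - 34 * s
      linarith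
  have hstart : pt t.re (b1 - 2 * s) w ∈ SL φ p ρ r := by
    rw [pt_mk]
    exact hSL _ w hw (by show -(ρ / 2) < b1 - 2 * s; linarith)
      (by show b1 - 2 * s < b1; linarith)
  have hGe : G =ᶠ[𝓝 (pt t.re (b1 - 2 * s) w)] LE φ p ρ r := by
    have o1 : NN c R s b1 ∈ 𝓝 (pt t.re (b1 - 2 * s) w) :=
      isOpen_NN.mem_nhds (hmemN _ le_rfl (by linarith))
    have o2 : {x : ℂ × ℂ | (x.1 + x.2 / 2).im < b1} ∈ 𝓝 (pt t.re (b1 - 2 * s) w) := by
      refine (isOpen_lt (Complex.continuous_im.comp (by fun_prop)) continuous_const).mem_nhds ?_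
      show ((pt t.re (b1 - 2 * s) w).1 + (pt t.re (b1 - 2 * s) w).2 / 2).im < b1
      rw [Complex.add_im, pt_im, pt_snd]
      have : (w / 2).im = w.im / 2 := by simp
      rw [this]
      linarith
    filter_upwards [o1, o2] with x hx1 hx2
    have e0 : x.1 - x.2 / 2 + x.2 = x.1 + x.2 / 2 := by ring
    have e1 : x.1 - x.2 / 2 + x.2 / 2 = x.1 := by ring
    have k := x6 (x.1 - x.2 / 2) x.2 hx1.1 (by rw [e0]; exact hx1.2) (by rw [e0]; exact hx2)
    rw [e0, e1] at k
    have k1 : φe φ p ρ r x = (G x).1 := k.1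
    have k2 : pe φ p ρ r x = (G x).2 := k.2
    exact Prod.ext k1.symm k2.symm
  have := sht_glue (x := t.re) (y2 := b1 - 2 * s) (y3 := t.im) (w := w) h10 isOpen_ball hF
    (fun _ _ => mem_univ _) hstart isOpen_NN hmemN hGd (fun _ _ => mem_univ _) hGe (by linarith)
  rwa [show (t, w) = pt t.re t.im w from (pt_eta (t, w)).symm]

/-- **(CC)** -/
theorem ccS (fam : C0.LineFam q η ρ r Bc bb φ p m₀) (h : EntOn θ H K V)
    (hVc : IsPreconnected V) (S : SmallV θ K V c R s κ)
    (D : BaseV θ H K V (φe φ p ρ r) (pe φ p ρ r) B s b1 R)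
    (hb : |b1 - c.im| ≤ R / 400) (hb0 : 0 ≤ b1) (hr : 2 * s ≤ r)
    (hSL : ∀ t w : ℂ, w ∈ Wd s → -(ρ / 2) < t.im → t.im < b1 → (t, w) ∈ SL φ p ρ r)
    (hev : ∀ t w : ℂ, (t, w) ∈ SL φ p ρ r → (t, -w) ∈ SL φ p ρ r) :
    ∀ t w : ℂ, |t.re - c.re| < R / 12 → -(ρ / 2) < t.im → t.im < c.im + R / 120 →
      ‖w‖ < 2 * s → ‖w‖ < 32 * |w.im| → (t, w) ∈ SL φ p ρ r := by
  intro t w h1 h2 h3 h4 h5
  rcases le_or_gt 0 w.im with hw | hw
  · rw [abs_of_nonneg hw] at h5
    exact cc_up fam h hVc S D hb hb0 hr hSL h1 h2 h3 ⟨h4, h5⟩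
  · rw [abs_of_neg hw] at h5
    have hmem : -w ∈ Wd s := by
      refine ⟨by rwa [norm_neg], ?_⟩
      show ‖-w‖ < 32 * (-w).im
      rw [norm_neg, Complex.neg_im]
      exact h5
    have := hev _ _ (cc_up fam h hVc S D hb hb0 hr hSL h1 h2 h3 hmem)
    rwa [neg_neg] at this

end Crest.Agent.R102.CCS350
end
end

-- ▼ part R102/WinK_486
section

/-!
GROWTH block: (W_k) and (D_k) of GrowthDefs_314.
-/

set_option autoImplicit false

namespace Crest.Agent.R102.WinK486

open Set Filter Topology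
open Crest.Agent.R102.WinW486

theorem recordK {k : ℕ} {M : ℝ → ℝ} {a : ℝ} (hM : ConcaveOn ℝ (Ici a) M)
    {b : ℝ} (hab : a + 1 < b) (hun : ∀ V : ℝ, ∃ τ ≥ b, V ≤ τ ^ k * S1 M τ) (T V : ℝ) :
    ∃ R, T ≤ R ∧ b ≤ R ∧ V < R ^ k * S1 M R ∧
      ∀ x, b ≤ x → x ≤ R → x ^ k * S1 M x ≤ R ^ k * S1 M R := by
  have hcM : ContinuousOn M (Ioi a) := by
    have : ConcaveOn ℝ (Ioi a) M := hM.subset Ioi_subset_Ici_self (convex_Ioi a)
    exact this.continuousOn isOpen_Ioi
  have hcg : ContinuousOn (fun x => x ^ k * S1 M x) (Ioi (a + 1)) := by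
    apply ContinuousOn.mul (by fun_prop)
    unfold S1
    apply ContinuousOn.sub
    · exact hcM.mono (Ioi_subset_Ioi (by linarith))
    · apply hcM.comp (by fun_prop)
      intro x hx
      simp only [mem_Ioi] at hx ⊢
      linarith
  have hc : ∀ T', ContinuousOn (fun x => x ^ k * S1 M x) (Icc b T') := fun T' =>
    hcg.mono (fun x hx => by
      simp only [mem_Ioi]
      exact lt_of_lt_of_le hab hx.1)
  obtain ⟨x0, hx0, hmax0⟩ := isCompact_Icc.exists_isMaxOn (nonempty_Icc.2 (le_max_right T b))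
    (hc (max T b))
  set V1 := max (max V 0) (x0 ^ k * S1 M x0) with hV1
  obtain ⟨t, htb, ht⟩ := hun (V1 + 1)
  have ht' : V1 < t ^ k * S1 M t := by linarith
  obtain ⟨R, hR, hmaxR⟩ := isCompact_Icc.exists_isMaxOn (nonempty_Icc.2 htb) (hc t)
  have hRt : t ^ k * S1 M t ≤ R ^ k * S1 M R := hmaxR (right_mem_Icc.2 htb)
  have hVR : V1 < R ^ k * S1 M R := lt_of_lt_of_le ht' hRt
  refine ⟨R, ?_, hR.1, ?_, fun x h1 h2 => hmaxR ⟨h1, h2.trans hR.2⟩⟩
  · by_contra hlt
    push Not at hlt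
    have : R ^ k * S1 M R ≤ x0 ^ k * S1 M x0 := hmax0 ⟨hR.1, hlt.le.trans (le_max_left _ _)⟩
    have h2 : x0 ^ k * S1 M x0 ≤ V1 := le_max_right _ _
    linarith
  · exact lt_of_le_of_lt ((le_max_left _ _).trans (le_max_left _ _)) hVR

/-- Bernoulli: `(R/u)^k ≤ 1 + 2 k (R-u)/R` -/
theorem ratio_pow {k : ℕ} {R u : ℝ} (hR : 0 < R) (hu : u ≤ R) (h2 : 2 * k * (R - u) ≤ R)
    (hk : 1 ≤ k) : (R / u) ^ k ≤ 1 + 2 * k * (R - u) / R := by
  have hk1 : (1 : ℝ) ≤ k := by exact_mod_cast hk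
  have hu0 : 0 < u := by nlinarith
  set x : ℝ := (R - u) / R with hx
  have hx0 : 0 ≤ x := div_nonneg (by linarith) hR.le
  have hkx : k * x ≤ 1 / 2 := by
    rw [hx, ← mul_div_assoc, div_le_iff₀ hR]; linarith
  have hB : 1 + (k : ℝ) * (-x) ≤ (1 + -x) ^ k := by
    apply one_add_mul_le_pow
    nlinarith
  have e1 : 1 + -x = u / R := by rw [hx]; field_simp; ring
  rw [e1] at hB
  have hpos : 0 < (u / R) ^ k := by positivity
  have e2 : (R / u) ^ k = 1 / (u / R) ^ k := by
    rw [div_pow, div_pow]; field_simp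
  rw [e2, div_le_iff₀ hpos]
  have e3 : 2 * k * (R - u) / R = 2 * (k * x) := by rw [hx]; ring
  rw [e3]
  have hy0 : 0 ≤ (k : ℝ) * x := by positivity
  calc (1 : ℝ) ≤ (1 + 2 * (k * x)) * (1 + k * (-x)) := by nlinarith
    _ ≤ (1 + 2 * (k * x)) * (u / R) ^ k := mul_le_mul_of_nonneg_left hB (by linarith)

set_option maxHeartbeats 1000000 in
/-- **(W_k)** -/
theorem wink : Growth.WINK := by
  intro k M a b C' δ hk hM hC hδ hb hab hun T0
  have hk1 : (1 : ℝ) ≤ k := by exact_mod_cast (by omega : 1 ≤ k)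
  have hk0 : (0 : ℝ) < k := by linarith
  obtain ⟨T1, hT1⟩ := eventually_atTop.1 ((eventually_polylog C' (δ / k) (by positivity)).and
    ((eventually_polylog C' (1 / k) (by positivity)).and ((eventually_ge_atTop (16 : ℝ)).and
      ((eventually_ge_atTop (2 * T0)).and ((eventually_ge_atTop (2 * b)).and
        (eventually_ge_atTop (2 * a + 1)))))))
  obtain ⟨R, hTR, hbR, hVR, hrec⟩ := recordK (k := k) hM hab hun T1 (2 ^ k)
  obtain ⟨h1, h2, h16, hT0, h2b, h2a⟩ := hT1 R hTR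
  set A := (C' * Real.log R) ^ 3 with hA
  have hR0 : 0 < R := by linarith
  have hlogR : 0 ≤ Real.log R := Real.log_nonneg (by linarith)
  have hA0 : 0 ≤ A := by positivity
  have hsq : (2 * A + 1) ≤ (2 * A + 1) ^ 2 := by nlinarith
  have h1' : 4 * k * (2 * A + 1) ^ 2 ≤ δ * R := by
    have := mul_le_mul_of_nonneg_left h1 hk0.le
    have e : (k : ℝ) * (δ / k * R) = δ * R := by field_simp
    rw [e] at this; linarith
  have h2' : 4 * k * (2 * A + 1) ^ 2 ≤ R := by
    have := mul_le_mul_of_nonneg_left h2 hk0.le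
    have e : (k : ℝ) * (1 / k * R) = R := by field_simp
    rw [e] at this; linarith
  have hkA : 4 * k * (2 * A + 1) ≤ R := by
    have := mul_le_mul_of_nonneg_left hsq (by positivity : (0:ℝ) ≤ 4 * k)
    linarith
  have hw4 : 2 * A + 1 ≤ R / 4 := by
    have : 4 * (1 : ℝ) * (2 * A + 1) ≤ 4 * k * (2 * A + 1) :=
      mul_le_mul_of_nonneg_right (by linarith) (by linarith)
    linarith
  set τ := R - A - 1 with hτ
  set S := S1 M R with hS
  have hτR : τ ≤ R := by rw [hτ]; linarith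
  have hτ2 : R / 2 ≤ τ := by rw [hτ]; linarith
  have hτ0 : 0 < τ := by linarith
  have hbτ : b ≤ τ := by linarith
  have hτ1 : 1 ≤ τ := by linarith
  have hlogτ : 0 ≤ Real.log τ := Real.log_nonneg hτ1
  have hAτ : (C' * Real.log τ) ^ 3 ≤ A := by
    rw [hA]
    apply pow_le_pow_left₀ (by positivity)
    exact mul_le_mul_of_nonneg_left (Real.log_le_log hτ0 hτR) hC
  have hS4 : 2 ^ k / R ^ k < S := by
    rw [div_lt_iff₀ (by positivity)]
    linarith [mul_comm (R ^ k) (S1 M R)]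
  have hS0 : 0 < S := lt_trans (by positivity) hS4
  have hslope : ∀ u, b ≤ u → u ≤ R → S1 M u ≤ S * (R / u) ^ k := by
    intro u hu1 hu2
    have hu0 : 0 < u := by linarith
    have := hrec u hu1 hu2
    have e : S * (R / u) ^ k = (R ^ k * S) / u ^ k := by rw [div_pow]; ring
    rw [e, le_div_iff₀ (by positivity)]
    linarith [mul_comm (S1 M u) (u ^ k)]
  have hclose : ∀ u, R - (2 * A + 1) ≤ u → u ≤ R → A * ((R / u) ^ k - 1) ≤ δ := by
    intro u hu1 hu2
    have h3 : (R / u) ^ k ≤ 1 + 2 * k * (R - u) / R := by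
      apply ratio_pow hR0 hu2 _ (by omega)
      have : 2 * (k : ℝ) * (R - u) ≤ 2 * k * (2 * A + 1) :=
        mul_le_mul_of_nonneg_left (by linarith) (by positivity)
      have h5 : 0 ≤ 2 * (k : ℝ) * (2 * A + 1) := by positivity
      linarith
    have h4 : (R / u) ^ k - 1 ≤ 2 * k * (2 * A + 1) / R := by
      have : 2 * k * (R - u) / R ≤ 2 * k * (2 * A + 1) / R := by
        apply div_le_div_of_nonneg_right _ hR0.le
        exact mul_le_mul_of_nonneg_left (by linarith) (by positivity)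
      linarith
    calc A * ((R / u) ^ k - 1) ≤ A * (2 * k * (2 * A + 1) / R) := mul_le_mul_of_nonneg_left h4 hA0
      _ = (2 * k * (2 * A + 1) * A) / R := by ring
      _ ≤ δ := by
          rw [div_le_iff₀ hR0]
          have h6 : 2 * k * (2 * A + 1) * A ≤ 2 * k * (2 * A + 1) * (2 * A + 1) :=
            mul_le_mul_of_nonneg_left (by linarith) (by positivity)
          have h7 : 0 ≤ 2 * k * (2 * A + 1) * (2 * A + 1) := by positivity
          nlinarith
  have hRu1 : ∀ u, 0 < u → u ≤ R → 0 ≤ (R / u) ^ k - 1 := by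
    intro u hu0 huR
    have : 1 ≤ R / u := by rw [le_div_iff₀ hu0]; linarith
    have := one_le_pow₀ (n := k) this
    linarith
  refine ⟨τ, S, by linarith, ?_, ⟨hbτ, ?_, ?_, ?_⟩⟩
  · have : R / 2 ≤ τ - A := by rw [hτ]; linarith
    linarith
  · have h3 : (τ ^ k)⁻¹ ≤ 2 ^ k / R ^ k := by
      rw [inv_eq_one_div, div_le_div_iff₀ (by positivity) (by positivity), one_mul, ← mul_pow]
      apply pow_le_pow_left₀ hR0.le
      linarith
    linarith
  · intro β hβ
    have hβA : |β| ≤ A := hβ.trans hAτ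
    rcases le_total 0 β with h0 | h0
    · rw [abs_of_nonneg h0] at hβA
      have hu : τ ≤ τ + β := by linarith
      have h3 : M (τ + β) - M τ ≤ (τ + β - τ) * S1 M τ := sec hM (by linarith) hu
      have h4 : (τ + β - τ) * S1 M (τ + β + 1) ≤ M (τ + β) - M τ := sec2 hM (by linarith) hu
      have h5 : S ≤ S1 M (τ + β + 1) := S1_anti hM (by linarith) (by rw [hτ]; linarith)
      have e : τ + β - τ = β := by ring
      rw [e] at h3 h4
      have h6 := hslope τ hbτ hτR
      have h7 := hclose τ (by rw [hτ]; linarith) hτR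
      have h8 : β * S1 M τ ≤ β * (S * (R / τ) ^ k) := mul_le_mul_of_nonneg_left h6 h0
      have h9 : β * S ≤ β * S1 M (τ + β + 1) := mul_le_mul_of_nonneg_left h5 h0
      have hge := hRu1 τ hτ0 hτR
      have h10 : β * ((R / τ) ^ k - 1) ≤ δ :=
        (mul_le_mul_of_nonneg_right hβA hge).trans h7
      have h11 : S * (β * ((R / τ) ^ k - 1)) ≤ S * δ := mul_le_mul_of_nonneg_left h10 hS0.le
      have e12 : S * (β * ((R / τ) ^ k - 1)) = β * (S * (R / τ) ^ k) - β * S := by ring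
      rw [e12] at h11
      have hpos : 0 < δ * S := by positivity
      have hc1 : β * S = S * β := mul_comm _ _
      have hc2 : S * δ = δ * S := mul_comm _ _
      rw [abs_le]
      constructor
      · linarith
      · linarith
    · have hβ' : |β| = -β := abs_of_nonpos h0
      rw [hβ'] at hβA
      have hu : τ + β ≤ τ := by linarith
      have hub : R - (2 * A + 1) ≤ τ + β := by rw [hτ]; linarith
      have hbu : b ≤ τ + β := by linarith
      have h3 : M τ - M (τ + β) ≤ (τ - (τ + β)) * S1 M (τ + β) := sec hM (by linarith) hu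
      have h4 : (τ - (τ + β)) * S1 M (τ + 1) ≤ M τ - M (τ + β) := sec2 hM (by linarith) hu
      have h5 : S ≤ S1 M (τ + 1) := S1_anti hM (by linarith) (by rw [hτ]; linarith)
      have e : τ - (τ + β) = -β := by ring
      rw [e] at h3 h4
      have h6 := hslope (τ + β) hbu (by linarith)
      have h7 := hclose (τ + β) hub (by linarith)
      have hu0 : 0 < τ + β := by linarith
      have h8 : -β * S1 M (τ + β) ≤ -β * (S * (R / (τ + β)) ^ k) :=
        mul_le_mul_of_nonneg_left h6 (by linarith)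
      have h9 : -β * S ≤ -β * S1 M (τ + 1) := mul_le_mul_of_nonneg_left h5 (by linarith)
      have hge := hRu1 (τ + β) hu0 (by linarith)
      have h10 : -β * ((R / (τ + β)) ^ k - 1) ≤ δ :=
        (mul_le_mul_of_nonneg_right hβA hge).trans h7
      have h11 : S * (-β * ((R / (τ + β)) ^ k - 1)) ≤ S * δ :=
        mul_le_mul_of_nonneg_left h10 hS0.le
      have e12 : S * (-β * ((R / (τ + β)) ^ k - 1)) = -β * (S * (R / (τ + β)) ^ k) - -β * S := by
        ring
      rw [e12] at h11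
      have hpos : 0 < δ * S := by positivity
      have hc1 : -β * S = -(S * β) := by ring
      have hc2 : S * δ = δ * S := mul_comm _ _
      rw [abs_le]
      constructor
      · linarith
      · linarith
  · intro t'' t' ht'' htt ht'
    have h3 : M t' - M t'' ≤ (t' - t'') * S1 M t'' := sec hM (by linarith) htt
    have h6 := hslope t'' ht'' (by linarith)
    have ht0 : 0 < t'' := by linarith
    have hRτ : (R / τ) ^ k ≤ 2 := by
      have h8 : (R / τ) ^ k ≤ 1 + 2 * k * (R - τ) / R := by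
        apply ratio_pow hR0 hτR _ (by omega)
        have : 2 * (k : ℝ) * (R - τ) ≤ 2 * k * (2 * A + 1) :=
          mul_le_mul_of_nonneg_left (by rw [hτ]; linarith) (by positivity)
        have h5 : 0 ≤ 2 * (k : ℝ) * (2 * A + 1) := by positivity
        linarith
      have h9 : 2 * k * (R - τ) / R ≤ 1 := by
        rw [div_le_one hR0]
        have : 2 * (k : ℝ) * (R - τ) ≤ 2 * k * (2 * A + 1) :=
          mul_le_mul_of_nonneg_left (by rw [hτ]; linarith) (by positivity)
        have h5 : 0 ≤ 2 * (k : ℝ) * (2 * A + 1) := by positivity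
        linarith
      linarith
    have h7 : S * (R / t'') ^ k ≤ 2 * S * (τ / t'') ^ k := by
      have e1 : (R / t'') ^ k = (R / τ) ^ k * (τ / t'') ^ k := by
        rw [← mul_pow]; congr 1; field_simp
      rw [e1]
      have h8 : (R / τ) ^ k * (τ / t'') ^ k ≤ 2 * (τ / t'') ^ k :=
        mul_le_mul_of_nonneg_right hRτ (by positivity)
      have := mul_le_mul_of_nonneg_left h8 hS0.le
      linarith
    calc M t' - M t'' ≤ (t' - t'') * S1 M t'' := h3
      _ ≤ (t' - t'') * (2 * S * (τ / t'') ^ k) :=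
          mul_le_mul_of_nonneg_left (h6.trans h7) (by linarith)
      _ = 2 * S * (τ / t'') ^ k * (t' - t'') := by ring

/-- **(D_k)** -/
theorem deck : Growth.DECK := by
  intro k M b l V hk hb hl hV
  set W := max V 0 with hW
  have hW0 : 0 ≤ W := le_max_right _ _
  refine ⟨W + 1, by linarith, ?_⟩
  intro τ hτ
  have hτ0 : 0 < τ := by linarith
  have hk2 : τ ^ (k - 1) = τ ^ (k - 2) * τ := by
    rw [← pow_succ]; congr 1; omega
  have key : ∀ n : ℕ, M (τ + n) ≤ M τ + W * (τ ^ (k - 2))⁻¹ * (1 / τ - 1 / (τ + n)) := by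
    intro n
    induction n with
    | zero => simp
    | succ n ih =>
      have hbn : 0 < τ + (n : ℝ) := by positivity
      have hbn1 : 0 < τ + (n : ℝ) + 1 := by positivity
      have hn0 : (0 : ℝ) ≤ n := Nat.cast_nonneg n
      have h1 := hV (τ + n + 1) (by linarith)
      have e0 : τ + (n : ℝ) + 1 - 1 = τ + n := by ring
      rw [e0] at h1
      have e1 : τ + ((n + 1 : ℕ) : ℝ) = τ + n + 1 := by push_cast; ring
      rw [e1]
      have h2 : M (τ + n + 1) - M (τ + n) ≤ W / (τ + n + 1) ^ k := by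
        rw [le_div_iff₀ (by positivity)]
        have : V ≤ W := le_max_left _ _
        linarith [mul_comm ((τ + (n : ℝ) + 1) ^ k) (M (τ + n + 1) - M (τ + n))]
      have h3 : W / (τ + n + 1) ^ k ≤
          W * (τ ^ (k - 2))⁻¹ * (1 / (τ + n) - 1 / (τ + n + 1)) := by
        rw [div_eq_mul_inv, mul_assoc]
        apply mul_le_mul_of_nonneg_left _ hW0
        have e4 : 1 / (τ + (n : ℝ)) - 1 / (τ + n + 1) = ((τ + n) * (τ + n + 1))⁻¹ := by
          field_simp; ring
        rw [e4, ← mul_inv]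
        apply inv_anti₀ (by positivity)
        have e5 : (τ + (n : ℝ) + 1) ^ k = (τ + n + 1) ^ (k - 2) * (τ + n + 1) ^ 2 := by
          rw [← pow_add]; congr 1; omega
        rw [e5]
        apply mul_le_mul
        · exact pow_le_pow_left₀ hτ0.le (by linarith) _
        · nlinarith
        · positivity
        · positivity
      have e6 : W * (τ ^ (k - 2))⁻¹ * (1 / τ - 1 / (τ + n + 1)) =
          W * (τ ^ (k - 2))⁻¹ * (1 / τ - 1 / (τ + n))
          + W * (τ ^ (k - 2))⁻¹ * (1 / (τ + n) - 1 / (τ + n + 1)) := by ring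
      rw [e6]
      linarith
  have hbd : ∀ n : ℕ, M (τ + n) ≤ M τ + W * (τ ^ (k - 1))⁻¹ := by
    intro n
    have hbn : 0 < τ + (n : ℝ) := by positivity
    have h1 : W * (τ ^ (k - 2))⁻¹ * (1 / τ - 1 / (τ + n)) ≤ W * (τ ^ (k - 2))⁻¹ * (1 / τ) := by
      apply mul_le_mul_of_nonneg_left _ (by positivity)
      have : 0 < 1 / (τ + (n : ℝ)) := by positivity
      linarith
    have e : W * (τ ^ (k - 2))⁻¹ * (1 / τ) = W * (τ ^ (k - 1))⁻¹ := by
      rw [hk2, mul_inv]; ring
    rw [e] at h1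
    linarith [key n]
  have ht : Tendsto (fun n : ℕ => M (τ + n)) atTop (𝓝 l) :=
    hl.comp (tendsto_atTop_add_const_left _ _ tendsto_natCast_atTop_atTop)
  have hle : l ≤ M τ + W * (τ ^ (k - 1))⁻¹ := le_of_tendsto' ht hbd
  have hp : 0 ≤ (τ ^ (k - 1))⁻¹ := by positivity
  nlinarith

end Crest.Agent.R102.WinK486
end

-- ▼ part R102/EndK_203

/-!
# Row 102, T1-B, GROWTH, (END_k): `endK : WINK → ENDK` (helper203)

Copy of `T1EJ712.endE` (helper712) with windows of order `k`.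
-/

set_option autoImplicit false

open Set Filter Topology Metric Complex MeasureTheory
open scoped Real ComplexConjugate

noncomputable section

namespace Crest.Agent.R102.EndK203

open Crest.Agent.R102.T1EJ712 Crest.Agent.R102.Growth

theorem WdwK.mono {M : ℝ → ℝ} {k : ℕ} {C' C'' δ δ' b τ S : ℝ} (h : WdwK M k C'' δ' b τ S)
    (hC : C' ≤ C'') (hC0 : 0 ≤ C') (hδ : δ' ≤ δ) (hτ : 1 ≤ τ) : WdwK M k C' δ b τ S where
  hb := h.hb
  hS := h.hS
  lin := by
    intro β hβ
    have hS0 : 0 ≤ S := le_trans (by positivity) h.hS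
    have hl := Real.log_nonneg hτ
    refine (h.lin β (hβ.trans ?_)).trans (mul_le_mul_of_nonneg_right hδ hS0)
    exact pow_le_pow_left₀ (mul_nonneg hC0 hl) (mul_le_mul_of_nonneg_right hC hl) 3
  rcd := h.rcd

theorem endK_vol (hWK : WINK) {k : ℕ} (hk : 2 ≤ k) {b r0 : ℝ} {Om : Set (ℂ × ℂ)}
    (h : K669.LV b (ball 0 r0) Om) (hr0 : 0 < r0)
    (hper : Per Om 1) (heven : ∀ t w : ℂ, (t, w) ∈ Om → (t, -w) ∈ Om)
    (hF : ∀ r, 0 < r → Fin' Om r) (hCC : CColK k Om)
    (hinf : ∀ B V : ℝ, ∃ τ ≥ B, V ≤ τ ^ k * (MM Om τ - MM Om (τ - 1)))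
    {δ₀ : ℝ} (hδ₀ : 0 < δ₀) :
    volume {u : ℝ | 0 < u ∧ u < δ₀ ∧ Gd Om u} ≠ 0 := by
  intro hnull
  have hLS := LS.of_LV h
  -- the concave function
  set τ0 : ℝ := -Real.log r0 + 1 with hτ0
  have hexp0 : Real.exp (-τ0) < r0 := by
    rw [← Real.lt_log_iff_exp_lt hr0, hτ0]; linarith
  have hconc := MM_concave hLS one_pos hper hF hexp0
  obtain ⟨B0, hCC⟩ := hCC
  set bb : ℝ := max B0 (max 1 (τ0 + 2)) with hbb
  have hbb1 : 1 ≤ bb := (le_max_left _ _).trans (le_max_right _ _)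
  have hbb2 : τ0 + 2 ≤ bb := (le_max_right _ _).trans (le_max_right _ _)
  obtain ⟨C', δ, T0, hC', hδ, hcol⟩ := hCC 4000 bb (le_max_left _ _)
  set C2 : ℝ := max C' 1 with hC2
  set T1 : ℝ := max T0 (max 8 (max (τ0 + 1) (-Real.log (δ₀ / 2)))) with hT1
  obtain ⟨τ, S, hτT, hτA, hW⟩ := hWK k (MM Om) τ0 bb C2 (min δ 1) hk hconc
    (le_trans zero_le_one (le_max_right _ _)) (lt_min hδ one_pos) hbb1 (by linarith)
    (fun V => hinf bb V) T1
  obtain ⟨hbτ, hSlow, hlin, hrec⟩ := id hW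
  have hT0 : T0 ≤ τ := (le_max_left _ _).trans hτT
  have hT8 : 8 ≤ τ := (le_max_left _ _).trans ((le_max_right _ _).trans hτT)
  have hTτ0 : τ0 + 1 ≤ τ :=
    (le_max_left _ _).trans ((le_max_right _ _).trans ((le_max_right _ _).trans hτT))
  have hTδ : -Real.log (δ₀ / 2) ≤ τ :=
    (le_max_right _ _).trans ((le_max_right _ _).trans ((le_max_right _ _).trans hτT))
  have hS0 : 0 < S := lt_of_lt_of_le (by positivity) hSlow
  obtain ⟨x0, hx0⟩ := hcol τ S hT0
    (WdwK.mono hW (le_max_left _ _) hC' (min_le_left _ _) (by linarith))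
  -- notation
  set s : ℝ := Real.exp (-τ) with hs
  have hs0 : 0 < s := Real.exp_pos _
  have hsr : 2 * s < r0 := by
    have h1 : Real.exp (-τ) ≤ Real.exp (-τ0) * Real.exp (-1) := by
      rw [← Real.exp_add]; exact Real.exp_le_exp.2 (by linarith)
    have h2 : Real.exp (-1) < 1 / 2 := by
      have := Real.exp_neg_one_lt_half
      linarith
    have h3 : Real.exp (-τ0) * Real.exp (-1) ≤ Real.exp (-τ0) * (1 / 2) :=
      mul_le_mul_of_nonneg_left h2.le (Real.exp_pos _).le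
    rw [hs]; linarith
  have hsδ : 4 / 3 * s < δ₀ := by
    have h1 : s ≤ δ₀ / 2 := by
      rw [hs, ← Real.le_log_iff_exp_le (by positivity)]; linarith
    linarith
  have e2s : MM Om (τ - Real.log 2) = mm Om (2 * s) := by
    unfold MM
    congr 1
    rw [neg_sub, sub_eq_add_neg, Real.exp_add, Real.exp_log (by norm_num)]
  have e49 : MM Om (τ + Real.log (9 / 4)) = mm Om (4 / 3 * s / 3) := by
    unfold MM
    congr 1
    rw [neg_add, Real.exp_add, Real.exp_neg (Real.log (9 / 4)), Real.exp_log (by norm_num), ← hs]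
    ring
  have hlog2 : Real.log 2 ≤ 1 := by
    have := Real.log_le_sub_one_of_pos (show (0:ℝ) < 2 by norm_num)
    linarith
  have hlog2' : 0 ≤ Real.log 2 := Real.log_nonneg (by norm_num)
  have hlog94 : Real.log (9 / 4) ≤ 5 / 4 := by
    have := Real.log_le_sub_one_of_pos (show (0:ℝ) < 9 / 4 by norm_num)
    linarith
  have hlog94' : 0 ≤ Real.log (9 / 4) := Real.log_nonneg (by norm_num)
  have hwin : 8 ≤ (C2 * Real.log τ) ^ 3 := by
    have h1 : (2 : ℝ) ≤ Real.log τ := by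
      rw [Real.le_log_iff_exp_le (by linarith)]
      have h2 : Real.exp 2 = Real.exp 1 * Real.exp 1 := by rw [← Real.exp_add]; norm_num
      have h3 := Real.exp_one_lt_d9
      have h4 := Real.exp_pos 1
      rw [h2]
      nlinarith
    have h2 : (1 : ℝ) ≤ C2 := le_max_right _ _
    have h3 : 2 ≤ C2 * Real.log τ := by nlinarith
    calc (8 : ℝ) = 2 ^ 3 := by norm_num
      _ ≤ _ := pow_le_pow_left₀ (by norm_num) h3 3
  have hMup : MM Om (τ + Real.log (9 / 4)) - MM Om (τ - Real.log 2) ≤ 5 * S := by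
    have h1 := hlin (Real.log (9 / 4)) (by rw [abs_of_nonneg hlog94']; linarith)
    have h2 := hlin (-Real.log 2) (by rw [abs_neg, abs_of_nonneg hlog2']; linarith)
    have h3 := (abs_le.1 h1).2
    have h4 := (abs_le.1 h2).1
    rw [← sub_eq_add_neg] at h4
    have h5 : min δ 1 * S ≤ 1 * S := mul_le_mul_of_nonneg_right (min_le_right _ _) hS0.le
    have h6 : S * Real.log (9 / 4) ≤ S * (5 / 4) := mul_le_mul_of_nonneg_left hlog94 hS0.le
    have h7 : S * Real.log 2 ≤ S * 1 := mul_le_mul_of_nonneg_left hlog2 hS0.le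
    have h8 : S * -Real.log 2 = -(S * Real.log 2) := by ring
    rw [h8] at h4
    linarith
  set m0 : ℝ := mm Om (2 * s) with hm0
  have hm0M : m0 ≤ MM Om τ := by
    rw [← e2s]
    refine MM_mono hLS hF ?_ (by linarith)
    have : Real.exp (-(τ - Real.log 2)) = 2 * s := by
      rw [neg_sub, sub_eq_add_neg, Real.exp_add, Real.exp_log (by norm_num)]
    rw [this]; exact hsr
  -- the Hartogs figure
  have hcl2 : closedBall (0 : ℂ) (2 * s) ⊆ ball 0 r0 := closedBall_subset_ball hsr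
  have hHF : ∀ u : ℝ, 0 < u → u < 4 / 3 * s → ∀ t : ℂ, |t.re - x0| + 7 * (500 * S) < 4000 * S →
      t.im < m0 + 9 / 10 * (500 * S) → (t, (u : ℂ)) ∈ Om := by
    intro u hu hus
    have hball : ∀ w ∈ closedBall (u : ℂ) (|u| / 2), ‖w‖ < 2 * s := by
      intro w hw
      rw [mem_closedBall, dist_eq_norm, abs_of_pos hu] at hw
      have h2 : ‖w‖ ≤ ‖w - u‖ + ‖(u : ℂ)‖ := by
        have := norm_add_le (w - u) (u : ℂ)
        simpa using this
      rw [Complex.norm_real, Real.norm_eq_abs, abs_of_pos hu] at h2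
      linarith
    exact HF77.hf h (u := u) (m := m0) (x := x0) (l := 4000 * S) (g := 500 * S) hu.ne'
      (fun w hw => hcl2 (by simpa using (hball w hw).le)) (by positivity)
      (fun w hw t ht => mem_of_lt_mm hLS hsr (hball w hw).le ht)
      (fun w hw hwi t h1 h2 => hx0 t w h1 (by linarith) (hball w hw) hwi)
  set a : ℝ := m0 + 9 / 10 * (500 * S) with ha
  have ham : m0 ≤ a := by rw [ha]; linarith
  -- the exceptional null set
  set N : Set ℝ := {u : ℝ | 0 < u ∧ u < δ₀ ∧ Gd Om u} with hN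
  have hNnull : volume (N ∪ (Neg.neg ⁻¹' N) ∪ {0}) = 0 := by
    have h1 : volume (Neg.neg ⁻¹' N) = 0 := by
      have := (Measure.measurePreserving_neg (volume : Measure ℝ)).quasiMeasurePreserving.preimage_null hnull
      exact this
    refine measure_union_null (measure_union_null hnull h1) ?_
    simp
  have hpos : ∀ u : ℝ, 0 < u → u < 4 / 3 * s → u ∉ N → ∀ t : ℂ, t.im < a → (t, (u : ℂ)) ∈ Om := by
    intro u hu0 hu huN t ht
    by_contra hnot
    apply huN
    have hub : (u : ℂ) ∈ ball (0 : ℂ) r0 := by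
      rw [mem_ball_zero_iff, Complex.norm_real, Real.norm_eq_abs, abs_of_pos hu0]; linarith
    have hV : Vh Om a (u : ℂ) < a :=
      (Vh_le_of_notMem (hLS.base _ hub) hnot).trans_lt ht
    refine ⟨hu0, hu.trans hsδ, Vh Om a (u : ℂ), fun t ht => mem_of_lt_Vh (hLS.base _ hub) ht,
      Vh_touch hLS.isOpen one_pos hper (hLS.base _ hub) hV, (x0 : ℂ) + Vh Om a (u : ℂ) * I,
      by simp, ?_⟩
    refine hHF u hu0 hu _ ?_ ?_
    · simp
      linarith
    · simpa using hV
  have hall : ∀ u : ℝ, |u| < 4 / 3 * s → u ∉ N ∪ (Neg.neg ⁻¹' N) ∪ {0} →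
      ∀ t : ℂ, t.im < a → (t, (u : ℂ)) ∈ Om := by
    intro u hu huN t ht
    simp only [mem_union, mem_preimage, mem_singleton_iff, not_or] at huN
    rcases lt_trichotomy u 0 with h1 | h1 | h1
    · have h2 := hpos (-u) (by linarith) (by rw [abs_of_neg h1] at hu; exact hu) huN.1.2 t ht
      have h3 := heven _ _ h2
      simpa using h3
    · exact absurd h1 huN.2
    · exact hpos u h1 (by rw [abs_of_pos h1] at hu; exact hu) huN.1.1 t ht
  have key := mm_gap hLS one_pos hper hF (ρ := 4 / 3 * s) (m₀ := m0) (a := a) (by positivity)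
    (by linarith) ham (fun w hw t ht => mem_of_lt_mm hLS hsr (hw.trans (by linarith)) ht) hNnull hall
  rw [← e49] at key
  rw [ha] at key
  linarith

/-- **(END_k)** -/
theorem endK (hWK : WINK) : ENDK := by
  intro k b r0 Om hk h hr0 hper heven hF hCC hinf δ₀ hδ₀ hcount
  refine endK_vol hWK hk h hr0 hper heven hF hCC hinf hδ₀ ?_
  have h1 : {u : ℝ | 0 < u ∧ u < δ₀ ∧ Gd Om u} ⊆
      {u : ℝ | Irrational u ∧ 0 < u ∧ u < δ₀ ∧ Gd Om u} ∪ range ((↑) : ℚ → ℝ) := by
    intro u hu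
    by_cases hi : Irrational u
    · exact Or.inl ⟨hi, hu⟩
    · right
      unfold Irrational at hi
      push Not at hi
      exact hi
  exact measure_mono_null h1
    ((hcount.union (countable_range _)).measure_zero volume)

/-- **(END_k)**, with 486's `wink` plugged in -/
theorem endK' : ENDK := endK Crest.Agent.R102.WinK486.wink

end Crest.Agent.R102.EndK203
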