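import Crest.Agent.R102.GrowColJ_314_Mg
import Crest.Agent.R102.EndK_203_Mg
import Crest.Agent.R102.BaseST_942

/-!
Row 102, **GROWTH: the assembly** (helper314): from the leaves to `Growth.GrowthP`.
-/

set_option autoImplicit false

open Set Filter Topology Metric
open scoped ComplexConjugate

noncomputable section

namespace Crest.Agent.R102.GrowAsm314

open Crest.Agent.R102.T5 Crest.Agent.R102.C0 Crest.Agent.R102.C1 Crest.Agent.R102.A929
open Crest.Agent.R102.Sh982 Crest.Agent.R102.ColE350 Crest.Agent.R102.ColS350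
open Crest.Agent.R102.CC350 Crest.Agent.R102.CCS350 Crest.Agent.R102.Growth
open Crest.Agent.R102.T1EJ712 Crest.Agent.R102.GrowTop314 Crest.Agent.R102.BaseST942
open Crest.Agent.R102.T1ETop314 (Om mem_SL)

variable {q : C(ℂ, ℂ)} {η ρ r Bc h0 : ℝ} {b φ p : ℂ × ℂ → ℂ} {m₀ θ H K G : ℂ → ℂ}

/-- heights: points below `MM` are regular -/
lemma mem_MMS (hD : Spine.DataS q η ρ r Bc b φ p m₀ θ H h0) {τ : ℝ} (hτ : Real.exp (-τ) < r)
    {t w : ℂ} (hw : ‖w‖ ≤ Real.exp (-τ)) (ht : t.im < MM (Om φ p ρ r) τ) :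
    (t, w) ∈ Om φ p ρ r :=
  mem_of_lt_mm (LS.of_LV (lvS hD)) hτ hw ht

/-- the a priori bound in logarithmic scale -/
def APP (φ p : ℂ × ℂ → ℂ) (ρ r h0 : ℝ) (θ G : ℂ → ℂ) : Prop :=
  ∃ C1 T1 : ℝ, 0 < C1 ∧ 1 ≤ T1 ∧ ∀ τ : ℝ, T1 ≤ τ → ∀ h : ℝ, Real.exp (-τ) < h → h ≤ h0 →
    (∀ t w : ℂ, t.im < h → ‖w‖ < Real.exp (-τ) → (t, w) ∈ Om φ p ρ r) →
    ∀ z : ℂ, |z.im| ≤ h - 2 * Real.exp (-τ) →
      ‖deriv θ z‖ ≤ C1 * √τ * Real.exp τ ∧ ‖G z‖ ≤ C1 ^ 2 * τ * Real.exp (2 * τ)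

/-- the base region of a window -/
def BSP (k : ℕ) (b φ p : ℂ × ℂ → ℂ) (ρ r h0 : ℝ) (θ K : ℂ → ℂ) : Prop :=
  ∃ B1 : ℝ, ∀ T₀ : ℝ, B1 ≤ T₀ → ∃ Kc : ℝ, 1 ≤ Kc ∧ ∃ T : ℝ, ∀ τ : ℝ, T ≤ τ → ∀ S : ℝ,
    (τ ^ k)⁻¹ ≤ S → MM (Om φ p ρ r) τ + S ≤ h0 →
    (∀ t'' t', T₀ ≤ t'' → t'' ≤ t' → t' ≤ τ →
      MM (Om φ p ρ r) t' - MM (Om φ p ρ r) t'' ≤ 2 * S * (τ / t'') ^ k * (t' - t'')) →
    (∀ t w : ℂ, (t, w) ∈ DL (Real.exp (-τ)) (b1 (MM (Om φ p ρ r)) Kc τ S) →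
      ‖be b h0 ρ r (t, w) - t‖ ≤ S) ∧
    (∀ t w : ℂ, (t, w) ∈ DL (Real.exp (-τ)) (b1 (MM (Om φ p ρ r)) Kc τ S) →
      (t - w, w) ∈ DL (Real.exp (-τ)) (b1 (MM (Om φ p ρ r)) Kc τ S) →
      ‖be b h0 ρ r (t, w) - be b h0 ρ r (t - w, w) - w‖ ≤ ‖w‖ / 1000) ∧
    (∀ t w : ℂ, (t, w) ∈ DL (Real.exp (-τ)) (b1 (MM (Om φ p ρ r)) Kc τ S) →
      GoodOn θ K (Str h0) (be b h0 ρ r (t, w)) (10 * Real.exp (-τ)))

/-- the window of the base height -/
def BWP (k : ℕ) : Prop :=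
  ∀ Kc : ℝ, 1 ≤ Kc → ∃ T : ℝ, ∀ τ : ℝ, T ≤ τ → ∀ (S : ℝ) (M : ℝ → ℝ), (τ ^ k)⁻¹ ≤ S →
      (∀ β : ℝ, |β| ≤ (1000 * Real.log τ) ^ 3 → |M (τ + β) - M τ - S * β| ≤ 1 / 10 * S) →
      |b1 M Kc τ S - M τ| ≤ 1000 * Real.log τ * S / 400 ∧
        10 ^ 4 * Real.exp (-τ) ≤ 1000 * Real.log τ * S ∧
        S ≤ 1000 * Real.log τ * S / 100

/-- the base data of a window -/
def BVP (b φ p : ℂ × ℂ → ℂ) (ρ r h0 : ℝ) (θ H K : ℂ → ℂ) : Prop :=
  ∀ s b1 R : ℝ, 0 < s → 8 * s ≤ ρ → 0 < R → 0 < b1 →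
    (∀ t w : ℂ, w ∈ Wd s → -(ρ / 2) < t.im → t.im < b1 → (t, w) ∈ SL φ p ρ r) →
    (∀ t w : ℂ, w ∈ Wd s → -(ρ / 2) < t.im → t.im < b1 → (t, w) ∈ SB b h0 ρ r) →
    (∀ t w : ℂ, (t, w) ∈ DL s b1 → ‖be b h0 ρ r (t, w) - t‖ ≤ R / 100) →
    (∀ t w : ℂ, (t, w) ∈ DL s b1 → (t - w, w) ∈ DL s b1 →
      ‖be b h0 ρ r (t, w) - be b h0 ρ r (t - w, w) - w‖ ≤ ‖w‖ / 1000) →
    (∀ t w : ℂ, (t, w) ∈ DL s b1 → GoodOn θ K (Str h0) (be b h0 ρ r (t, w)) (10 * s)) →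
    BaseV θ H K (Str h0) (φe φ p ρ r) (pe φ p ρ r) (be b h0 ρ r) s b1 R

lemma isPreconn_Str (h : ℝ) : IsPreconnected (Str h) := by
  have e : Str h = {z : ℂ | -h < z.im} ∩ {z : ℂ | z.im < h} := by
    ext z
    show |z.im| < h ↔ (-h < z.im ∧ z.im < h)
    exact abs_lt
  rw [e]
  exact (((convex_Ioi (-h)).linear_preimage Complex.imLm).inter
    ((convex_Iio h).linear_preimage Complex.imLm)).isPreconnected

set_option maxHeartbeats 4000000 in
/-- **(CC_k) for the official line set** -/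
theorem ccolS (hCOL : COLK) {k : ℕ} (hk : 2 ≤ k)
    (hD : Spine.DataS q η ρ r Bc b φ p m₀ θ H h0) (hM : MirS q η h0 θ H K G)
    (hnb : ∀ s : ℂ, s.im = h0 → ¬ Spine.RegB h0 θ H s)
    (hAPP : APP φ p ρ r h0 θ G) (hBS : BSP k b φ p ρ r h0 θ K) (hBW : BWP k)
    (hBV : BVP b φ p ρ r h0 θ H K) : CColK k (Om φ p ρ r) := by
  have hr := hD.fam.r_pos
  have hρ := hD.fam.ρ_pos
  have hh0 : 0 < h0 := (dat_of hD).h_pos
  have hNB := NB_of hD hnb
  have hLS : LS (ρ / 2) (ball 0 r) (Om φ p ρ r) := LS.of_LV (lvS hD)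
  have hper := perS hD
  have hF : ∀ r', 0 < r' → Fin' (Om φ p ρ r) r' := fun r' h => finS hD hnb h
  have htend : Tendsto (MM (Om φ p ρ r)) atTop (𝓝 h0) := MM_tendstoS hD hnb
  have hev1 : ∀ᶠ τ : ℝ in atTop, Real.exp (-τ) < min (r / 2) (min (ρ / 16) (h0 / 8)) :=
    (Real.tendsto_exp_neg_atTop_nhds_zero).eventually
      (gt_mem_nhds (lt_min (by positivity) (lt_min (by positivity) (by positivity))))
  obtain ⟨C1, T1, hC1, hT1, hAP⟩ := hAPP
  obtain ⟨B1, hB1⟩ := hBS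
  obtain ⟨B0, hB0⟩ := eventually_atTop.1 (hev1.and
    ((htend.eventually (lt_mem_nhds (show h0 / 2 < h0 by linarith))).and
    (eventually_ge_atTop (max T1 (max B1 1)))))
  refine ⟨B0, fun Kc' bb hbb => ?_⟩
  set T₀ : ℝ := bb with hT₀
  have q1 : ∀ τ, T₀ ≤ τ → Real.exp (-τ) < r / 2 ∧ Real.exp (-τ) < ρ / 16 ∧
      Real.exp (-τ) < h0 / 8 ∧ h0 / 2 < MM (Om φ p ρ r) τ ∧ T1 ≤ τ ∧ 1 ≤ τ ∧
      MM (Om φ p ρ r) τ ≤ h0 := by
    intro τ hτ
    obtain ⟨a1, a2, a3⟩ := hB0 τ (hbb.trans hτ)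
    have a1' : Real.exp (-τ) < r / 2 := a1.trans_le (min_le_left _ _)
    exact ⟨a1', a1.trans_le ((min_le_right _ _).trans (min_le_left _ _)),
      a1.trans_le ((min_le_right _ _).trans (min_le_right _ _)), a2,
      (le_max_left _ _).trans a3, (le_max_right _ _).trans ((le_max_right _ _).trans a3),
      MM_le hD hnb (by linarith)⟩
  obtain ⟨q2, q3, q3', q4, q5, q6, q7⟩ := q1 T₀ le_rfl
  have hB1T : B1 ≤ T₀ := by
    have := (hB0 T₀ hbb).2.2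
    exact (le_max_left _ _).trans ((le_max_right _ _).trans this)
  have hmono : MonotoneOn (MM (Om φ p ρ r)) (Ici T₀) := by
    intro x hx y hy hxy
    exact MM_mono hLS hF (by have := (q1 x hx).1; linarith) hxy
  obtain ⟨Kc, hKc1, T2, hT2⟩ := hB1 T₀ hB1T
  obtain ⟨T3, hT3⟩ := hBW Kc hKc1
  have hMy : DifferentiableOn ℂ (deriv θ) (Str h0) := hM.ent.dθ.deriv hM.ent.Vo
  -- the good column
  obtain ⟨T4, hT4⟩ := GrowColJ314.col_jointK hCOL hk hh0 (M := MM (Om φ p ρ r)) (y := deriv θ)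
    (G := G) hMy hM.Gd hM.hG hM.yper (fun x => ⟨(hM.y_pos x).2, (hM.y_pos x).1⟩)
    (C1 := C1) (T1 := T₀) (τ0 := T₀) hC1
    (MM_concave hLS one_pos hper hF (by linarith)) (by linarith) (by linarith)
    (fun τ' hτ' => (q1 τ' hτ').2.2.2.2.2.2)
    (fun τ' hτ' z hz => by
      obtain ⟨a1, a2, a3, a4, a5, a6, a7⟩ := q1 τ' hτ'
      exact (hAP τ' a5 (MM (Om φ p ρ r) τ') (by linarith) a7
        (fun t w h1 h2 => mem_MMS hD (by linarith) h2.le h1) z hz).1)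
    (C' := 1000) (κ := 1 / 10 ^ 4) (by norm_num) (by norm_num)
  -- numerics at infinity
  have hev2 : ∀ᶠ τ : ℝ in atTop, 120 * |Kc'| ≤ 1000 * Real.log τ ∧ 1 ≤ Real.log τ :=
    (Real.tendsto_log_atTop.eventually (eventually_ge_atTop (120 * |Kc'| / 1000))).and
      (Real.tendsto_log_atTop.eventually_ge_atTop 1) |>.mono fun τ h => ⟨by linarith [h.1], h.2⟩
  have hev3 : ∀ᶠ τ : ℝ in atTop, Real.log τ ≤ τ / 10 := by
    have h := Real.isLittleO_log_id_atTop.bound (show (0 : ℝ) < 1 / 10 by norm_num)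
    filter_upwards [h, eventually_ge_atTop (0 : ℝ)] with τ h1 h2
    simp only [id_eq, Real.norm_eq_abs, abs_of_nonneg h2] at h1
    exact (le_abs_self _).trans (by linarith)
  obtain ⟨T5, hT5⟩ := eventually_atTop.1 (hev2.and (hev3.and
    (eventually_ge_atTop (max (max (max T2 T3) (max T4 (2 * (T₀ + Real.log Kc)))) (max (3 * T₀) 4)))))
  refine ⟨1001, 1 / 10, T5, by norm_num, by norm_num, fun τ S hτ hW => ?_⟩
  obtain ⟨⟨n1, n2⟩, n3, n4⟩ := hT5 τ hτ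
  have k1 : T2 ≤ τ := by
    refine le_trans ?_ n4
    exact (le_max_left _ _).trans ((le_max_left _ _).trans (le_max_left _ _))
  have k2 : T3 ≤ τ := by
    refine le_trans ?_ n4
    exact (le_max_right _ _).trans ((le_max_left _ _).trans (le_max_left _ _))
  have k3 : T4 ≤ τ := by
    refine le_trans ?_ n4
    exact (le_max_left _ _).trans ((le_max_right _ _).trans (le_max_left _ _))
  have k4 : 2 * (T₀ + Real.log Kc) ≤ τ := by
    refine le_trans ?_ n4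
    exact (le_max_right _ _).trans ((le_max_right _ _).trans (le_max_left _ _))
  have k5 : 3 * T₀ ≤ τ := by
    refine le_trans ?_ n4
    exact (le_max_left _ _).trans (le_max_right _ _)
  have k6 : 4 ≤ τ := by
    refine le_trans ?_ n4
    exact (le_max_right _ _).trans (le_max_right _ _)
  have hτ0 : (0 : ℝ) < τ := by linarith
  have hS0 : 0 < S := lt_of_lt_of_le (by positivity) hW.hS
  have hlin1001 : ∀ β : ℝ, |β| ≤ ((1000 + 1 : ℝ) * Real.log τ) ^ 3 →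
      |MM (Om φ p ρ r) (τ + β) - MM (Om φ p ρ r) τ - S * β| ≤ 1 / 10 * S := by
    intro β hβ
    refine hW.lin β ?_
    have e : ((1000 : ℝ) + 1) = 1001 := by norm_num
    rwa [e] at hβ
  have hlin1000 : ∀ β : ℝ, |β| ≤ ((1000 : ℝ) * Real.log τ) ^ 3 →
      |MM (Om φ p ρ r) (τ + β) - MM (Om φ p ρ r) τ - S * β| ≤ 1 / 10 * S := by
    intro β hβ
    refine hW.lin β (hβ.trans ?_)
    gcongr
    norm_num
  set s : ℝ := Real.exp (-τ) with hs
  have hs0 : 0 < s := Real.exp_pos _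
  have hsinv : Real.exp τ = 1 / s := by rw [hs, Real.exp_neg]; simp
  set R : ℝ := 1000 * Real.log τ * S with hR
  have hR0 : 0 < R := by positivity
  obtain ⟨s1, s2, s2', s3, s4, s5, s6⟩ := q1 τ (by linarith)
  -- the column
  obtain ⟨hRtop, x, hx⟩ := hT4 τ k3 S (by rw [one_div]; exact hW.hS) hlin1001
  rw [← hR] at hRtop
  set c : ℂ := (x : ℂ) + MM (Om φ p ρ r) τ * Complex.I with hc
  have hcre : c.re = x := by simp [hc]
  have hcim : c.im = MM (Om φ p ρ r) τ := by simp [hc]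
  obtain ⟨w1, w2, w3⟩ := hT3 τ k2 S (MM (Om φ p ρ r)) hW.hS hlin1000
  have hSR : S ≤ R := by
    rw [hR]
    nlinarith
  obtain ⟨near, step, good⟩ := hT2 τ k1 S hW.hS (by linarith) hW.rcd
  have e2τ : Real.exp (2 * τ) = 1 / s ^ 2 := by
    rw [two_mul, Real.exp_add, hsinv]
    ring
  have hlow : S * τ / 2 ≤ MM (Om φ p ρ r) τ :=
    T1EColJ314.low_of_win (MM_concave hLS one_pos hper hF (τ0 := T₀) (by linarith)) (by linarith)
      (by linarith) k5 hS0 (hlin1000 1 (by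
        rw [abs_one]
        refine one_le_pow₀ ?_
        nlinarith))
  have hball : closedBall c R ⊆ Str h0 := by
    intro z hz
    rw [mem_closedBall, dist_eq_norm] at hz
    have h1 := abs_le.1 ((Complex.abs_im_le_norm (z - c)).trans hz)
    rw [Complex.sub_im, hcim] at h1
    show |z.im| < h0
    rw [abs_lt]
    constructor
    · -- `R < h0`
      have h2 : 0 < MM (Om φ p ρ r) τ := by linarith
      linarith [h1.1]
    · linarith [h1.2]
  have hSm : SmallV θ K (Str h0) c R s (1 / 10 ^ 4) := by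
    refine ⟨⟨hs0, w2, by norm_num, le_rfl, fun z hz => ?_, fun z hz => ?_⟩, hball⟩
    · have := (hx z (by rw [mem_closedBall, dist_eq_norm]; exact hz)).1
      rw [hsinv] at this
      rw [div_eq_mul_one_div]
      exact this
    · obtain ⟨h1, h2⟩ := hx z (by rw [mem_closedBall, dist_eq_norm]; exact hz)
      have h3 := hM.G_eq z
      have h4 : K z = G z + 2 * deriv θ z ^ 2 := by rw [h3]; ring
      rw [e2τ] at h2
      rw [hsinv] at h1
      rw [h4]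
      have h5 : ‖deriv θ z‖ ^ 2 ≤ (1 / 10 ^ 4 * (1 / s)) ^ 2 := by gcongr
      calc ‖G z + 2 * deriv θ z ^ 2‖ ≤ ‖G z‖ + 2 * ‖deriv θ z‖ ^ 2 := by
            refine (norm_add_le _ _).trans (le_of_eq ?_)
            rw [norm_mul, norm_pow]
            norm_num
        _ ≤ (1 / 10 ^ 4) ^ 2 * (1 / s ^ 2) + 2 * (1 / 10 ^ 4 * (1 / s)) ^ 2 := by linarith
        _ = 3 * (1 / 10 ^ 4) ^ 2 / s ^ 2 := by ring
  -- the base height
  set bτ : ℝ := b1 (MM (Om φ p ρ r)) Kc τ S with hbτ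
  have hb1 : 0 < bτ := by
    have h1 := (abs_le.1 w1).1
    have h2 : 1000 * Real.log τ * S / 400 ≤ S * τ / 4 := by nlinarith
    nlinarith
  -- the radius of the base height
  set τb : ℝ := τ - Real.log Kc - Real.log τ / 2 with hτb
  have hτbT : T₀ ≤ τb := by
    rw [hτb]
    linarith
  obtain ⟨t1, t2, t2', t3, t4, t5, t6⟩ := q1 τb hτbT
  have hsb : 2 * s ≤ Real.exp (-τb) := by
    have e1 : Real.exp (-τb) = s * (Kc * √τ) := by
      rw [hτb, hs, show -(τ - Real.log Kc - Real.log τ / 2) =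
        -τ + (Real.log Kc + Real.log τ / 2) by ring, Real.exp_add, Real.exp_add,
        Real.exp_log (by linarith)]
      congr 2
      rw [Real.sqrt_eq_rpow, Real.rpow_def_of_pos hτ0]
      ring_nf
    have e2 : 2 ≤ √τ := by
      rw [show (2 : ℝ) = √4 by
        rw [show (4 : ℝ) = 2 ^ 2 by norm_num, Real.sqrt_sq (by norm_num)]]
      exact Real.sqrt_le_sqrt k6
    rw [e1]
    have : 2 ≤ Kc * √τ := by nlinarith
    nlinarith
  have hbτle : bτ + s ≤ MM (Om φ p ρ r) τb := by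
    have : bτ = MM (Om φ p ρ r) τb - 2 * Real.exp (-τb) - S := rfl
    linarith
  have hOmb : ∀ t w : ℂ, ‖w‖ < 2 * s → t.im < bτ + s → (t, w) ∈ Om φ p ρ r := fun t w h1 h2 =>
    mem_MMS hD (by linarith) (by linarith) (by linarith)
  have hSL : ∀ t w : ℂ, w ∈ Wd s → -(ρ / 2) < t.im → t.im < bτ → (t, w) ∈ SL φ p ρ r :=
    fun t w h1 h2 h3 => (mem_SL h2).2 (hOmb t w h1.1 (by linarith))
  have hSB : ∀ t w : ℂ, w ∈ Wd s → -(ρ / 2) < t.im → t.im < bτ → (t, w) ∈ SB b h0 ρ r := by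
    intro t w h1 h2 h3
    have h5 : |(w / 2).im| < s := by
      refine (Complex.abs_im_le_norm _).trans_lt ?_
      rw [norm_div]
      have := h1.1
      norm_num
      linarith
    obtain ⟨h6, h7⟩ := abs_lt.1 h5
    have e1 : sh 1 ((t, w) : ℂ × ℂ) = (t + w / 2, w) := by
      unfold sh
      refine Prod.ext ?_ rfl
      simp only
      ring
    have e2 : sh (-1) ((t, w) : ℂ × ℂ) = (t - w / 2, w) := by
      unfold sh
      refine Prod.ext ?_ rfl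
      simp only
      ring
    have m1 : (t + w / 2, w) ∈ Om φ p ρ r := hOmb _ _ h1.1 (by rw [Complex.add_im]; linarith)
    have m2 : (t - w / 2, w) ∈ Om φ p ρ r := hOmb _ _ h1.1 (by rw [Complex.sub_im]; linarith)
    refine Sh982.SB_iff.2 ⟨(dat_of hD).ruleX hNB ?_ ?_, h2⟩
    · rw [e1]; exact m1
    · rw [e2]; exact m2
  have hBL : BaseV θ H K (Str h0) (φe φ p ρ r) (pe φ p ρ r) (be b h0 ρ r) s bτ R :=
    hBV s bτ R hs0 (by linarith) hR0 hb1 hSL hSB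
      (fun t w h => (near t w h).trans w3) step good
  have hcc := CCS350.ccS hD.fam hM.ent (isPreconn_Str h0) hSm hBL (by rw [hcim]; exact w1) hb1.le
    (by linarith) hSL (fun t w h => (mem_SL h.2.1).2 (evenS hD ((mem_SL h.2.1).1 h)))
  have hKS : Kc' * S ≤ R / 120 := by
    have h1 : Kc' ≤ |Kc'| := le_abs_self _
    have h2 : 120 * (Kc' * S) ≤ R := by
      rw [hR]
      nlinarith
    linarith
  have hmm : mm (Om φ p ρ r) (2 * Real.exp (-τ)) ≤ MM (Om φ p ρ r) τ :=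
    mm_anti hLS (by linarith) (by linarith) (hF _ (Real.exp_pos _))
  refine ⟨x, fun t w h1 h2 h3 h4 => ?_⟩
  rcases lt_or_ge t.im (ρ / 2) with h5 | h5
  · exact lowS hD h5 (by linarith)
  by_cases hw : w = 0
  · subst hw
    have h6 : t.im < (t.im + h0) / 2 ∧ (t.im + h0) / 2 < h0 := by
      have : t.im < h0 := by linarith
      constructor <;> linarith
    obtain ⟨δ, hδ, hh⟩ := hextS hD h6.2
    exact hh 0 (by simpa using hδ) t h6.1
  have hwi : w.im ≠ 0 := by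
    intro h
    rw [h, abs_zero, mul_zero] at h4
    exact hw (norm_le_zero_iff.1 h4)
  have hwi' : 0 < |w.im| := abs_pos.2 hwi
  refine (mem_SL (by linarith)).1 (hcc t w ?_ (by linarith) ?_ h3 (by linarith))
  · rw [hcre]
    linarith
  · rw [hcim]
    linarith

/-- **GROWTH** from the leaves, one order -/
theorem growth_one (hCOL : COLK) (k : ℕ)
    (hD : Spine.DataS q η ρ r Bc b φ p m₀ θ H h0) (hM : MirS q η h0 θ H K G)
    (hnb : ∀ s : ℂ, s.im = h0 → ¬ Spine.RegB h0 θ H s)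
    (hcount : {w0 : ℝ | Spine.GoodW ρ r b φ p (Str h0) w0}.Countable)
    (hAPP : APP φ p ρ r h0 θ G) (hBS : BSP (k + 2) b φ p ρ r h0 θ K) (hBW : BWP (k + 2))
    (hBV : BVP b φ p ρ r h0 θ H K) :
    ∃ C : ℝ, 0 < C ∧ ∀ d : ℝ, 0 < d → d < h0 → ∀ z : ℂ, |z.im| ≤ h0 - d →
      Real.log (1 + ‖deriv θ z‖ + ‖G z‖) ≤ C * d ^ (-(1 / ((k : ℝ) + 1))) := by
  have hr := hD.fam.r_pos
  have hh0 : 0 < h0 := (dat_of hD).h_pos
  have hNB := NB_of hD hnb
  have hF : ∀ r', 0 < r' → Fin' (Om φ p ρ r) r' := fun r' h => finS hD hnb h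
  by_cases hinf : ∀ B V : ℝ, ∃ τ ≥ B, V ≤ τ ^ (k + 2) *
      (MM (Om φ p ρ r) τ - MM (Om φ p ρ r) (τ - 1))
  · exfalso
    refine EndK203.endK' (k + 2) (ρ / 2) r (Om φ p ρ r) (by omega) (lvS hD) hr (perS hD)
      (fun t w h => evenS hD h) hF (ccolS hCOL (by omega) hD hM hnb hAPP hBS hBW hBV) hinf r hr
      (hcount.mono ?_)
    rintro u ⟨hirr, hu0, hur, U, h1, h2, h3⟩
    refine goodWS hD hu0 hur hirr (fun t _ h4 h5 => ?_) h1 h2 h3
    have e1 : sh 1 ((t, (u : ℂ)) : ℂ × ℂ) = (t + u / 2, (u : ℂ)) := by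
      unfold sh
      refine Prod.ext ?_ rfl
      simp only
      ring
    have e2 : sh (-1) ((t, (u : ℂ)) : ℂ × ℂ) = (t - u / 2, (u : ℂ)) := by
      unfold sh
      refine Prod.ext ?_ rfl
      simp only
      ring
    refine (dat_of hD).ruleX hNB ?_ ?_
    · rw [e1]; exact h5
    · rw [e2]; exact h4
  · push Not at hinf
    obtain ⟨B0, V, hV⟩ := hinf
    have htend : Tendsto (MM (Om φ p ρ r)) atTop (𝓝 h0) := MM_tendstoS hD hnb
    obtain ⟨C2, hC2, hdec⟩ := WinK486.deck (k + 2) (MM (Om φ p ρ r)) (max B0 1) h0 V (by omega)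
      (le_max_right _ _) htend (fun τ hτ => (hV τ ((le_max_left _ _).trans hτ)).le)
    obtain ⟨C1, T1, hC1, hT1, hAP⟩ := hAPP
    have hev1 : ∀ᶠ τ : ℝ in atTop, Real.exp (-τ) < min r (h0 / 2) :=
      (Real.tendsto_exp_neg_atTop_nhds_zero).eventually
        (gt_mem_nhds (lt_min (by positivity) (by positivity)))
    obtain ⟨T2, hT2⟩ := eventually_atTop.1 (hev1.and
      (htend.eventually (lt_mem_nhds (show h0 / 2 < h0 by linarith))))
    have hT : ∀ τ, max (max T1 T2) (max B0 1) ≤ τ → T1 ≤ τ ∧ T2 ≤ τ ∧ max B0 1 ≤ τ := by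
      intro τ hτ
      exact ⟨(le_max_left _ _).trans ((le_max_left _ _).trans hτ),
        (le_max_right _ _).trans ((le_max_left _ _).trans hτ), (le_max_right _ _).trans hτ⟩
    refine GrowColJ314.growth_of (M := MM (Om φ p ρ r)) (C1 := C1) (C2 := C2)
      (T1 := max (max T1 T2) (max B0 1)) hh0 hC1 hC2
      (hT1.trans ((le_max_left _ _).trans (le_max_left _ _))) (fun τ hτ => ?_) (fun τ hτ z hz => ?_)
    · have := hdec τ (hT τ hτ).2.2
      have e : k + 2 - 1 = k + 1 := by omega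
      rwa [e] at this
    · obtain ⟨a1, a2, a3⟩ := hT τ hτ
      obtain ⟨a4, a5⟩ := hT2 τ a2
      have a6 : Real.exp (-τ) < r := a4.trans_le (min_le_left _ _)
      have a7 : Real.exp (-τ) < h0 / 2 := a4.trans_le (min_le_right _ _)
      exact hAP τ a1 (MM (Om φ p ρ r) τ) (by linarith) (MM_le hD hnb a6)
        (fun t w h1 h2 => mem_MMS hD a6 h2.le h1) z hz

end Crest.Agent.R102.GrowAsm314
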