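import Mathlib
import Crest.Agent.R102.SpineDefs_478
import Crest.Agent.R102.AlgS_151
import Crest.Agent.R102.AP3B_599
import Crest.Agent.R102.StepLV_599
import Crest.Agent.R102.BoxM_628
import Crest.Agent.R102.APJS_628
import Crest.Agent.R102.SheetD_982
import Crest.Agent.R102.CCaS_350
import Crest.Agent.R102.LemZ_329
import Crest.Agent.R102.GrowthDefs_314
import Crest.Agent.R102.GrowAsm_314
import Crest.Agent.R102.MirS_151
import Crest.Agent.R102.BaseK_350

-- ▼ part R102/EAlg_151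
section

/-!
# Row 102: block `EAlg` of the spine (helper151)
-/

set_option autoImplicit false

noncomputable section

open Filter Topology Set

namespace Crest.Agent.R102.EAlg151

open Crest.Agent.R102.T5 Crest.Agent.R102.G576 Crest.Agent.R102.A929 Crest.Agent.R102.B821
open Crest.Agent.R102.C0 Crest.Agent.R102.C1 Crest.Agent.R102.Spine

/-- swap of the two coordinates -/
lemma swap_rel {X : Type*} {l : Filter X} {f g : X → ℂ} {P : MvPolynomial (Fin 2) ℂ} (hP : P ≠ 0)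
    (h : ∀ᶠ x in l, MvPolynomial.eval ![f x, g x] P = 0) :
    ∃ P' : MvPolynomial (Fin 2) ℂ, P' ≠ 0 ∧ ∀ᶠ x in l, MvPolynomial.eval ![g x, f x] P' = 0 := by
  refine ⟨MvPolynomial.rename (Equiv.swap (0 : Fin 2) 1) P, ?_, ?_⟩
  · intro h0
    exact hP ((map_eq_zero_iff _ (MvPolynomial.rename_injective _
      (Equiv.injective (Equiv.swap (0 : Fin 2) 1)))).1 h0)
  · filter_upwards [h] with x hx
    rw [MvPolynomial.eval_rename]
    have : (![g x, f x] : Fin 2 → ℂ) ∘ (Equiv.swap (0 : Fin 2) 1) = ![f x, g x] := by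
      funext i
      fin_cases i <;> simp
    rw [this]
    exact hx

/-- **block `EAlg`** -/
theorem eAlg : EAlg := by
  intro q η ρ r B b φ p m₀ θ H hD ha
  obtain ⟨P, hP, hrel⟩ := ha
  obtain ⟨P', hP', hrel'⟩ := swap_rel hP hrel
  have hdat := hD.fam.dat
  have h1 : Differentiable ℂ θ := differentiableOn_univ.1 hD.ext.θ_diff
  refine T7C151.t7inf hdat h1 ?_ hP' hrel'
  filter_upwards [(T7C151.isOpen_Str η).mem_nhds (T7C151.zero_mem_Str hdat.η_pos)] with z hz
  exact hD.ext.θ_eq z hz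

end Crest.Agent.R102.EAlg151
end
end

-- ▼ part R102/AP3V_599
section

/-!
Row 102, T1-B, block GROWTH: (AP3) on an open set `V`
(`AP3_599`, `AP3B_599` with `Ent -> EntOn .. V`, `Good -> GoodOn .. V ..`; same names, namespace
`StepV599`; the functions `gK u2 u3 u4 v2 .. v5 nl LB c3 SS` are those of `StepE599`).
-/

set_option autoImplicit false
open Complex Metric Set Filter Topology Asymptotics

noncomputable section
namespace Crest.Agent.R102.StepV599

open Crest.Agent.R102.StepE599 Crest.Agent.R102.Growth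

lemma cont_add {f : ℂ → ℂ} {t : ℂ} (hf : ContinuousAt f t) :
    ContinuousAt (fun p : ℂ × ℂ => f (p.1 + p.2)) (t, 0) := by
  have h2 : ContinuousAt f ((fun p : ℂ × ℂ => p.1 + p.2) (t, 0)) := by simpa using hf
  exact ContinuousAt.comp (f := fun p : ℂ × ℂ => p.1 + p.2) h2 (by fun_prop)

lemma cont_fst {f : ℂ → ℂ} {t : ℂ} (hf : ContinuousAt f t) :
    ContinuousAt (fun p : ℂ × ℂ => f p.1) (t, 0) :=
  ContinuousAt.comp (f := fun p : ℂ × ℂ => p.1) (x := ((t, 0) : ℂ × ℂ)) hf (by fun_prop)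

section
variable {θ H K : ℂ → ℂ} {V : Set ℂ}
variable (h : EntOn θ H K V)
include h

lemma _root_.Crest.Agent.R102.Growth.EntOn.ag {z : ℂ} (hz : z ∈ V) : AnalyticAt ℂ (gK θ K) z :=
  (h.aK hz).sub (analyticAt_const.mul ((h.aθ hz).deriv.pow 2))
lemma _root_.Crest.Agent.R102.Growth.EntOn.dg {z : ℂ} (hz : z ∈ V) :
    DifferentiableAt ℂ (gK θ K) z := (h.ag hz).differentiableAt
lemma _root_.Crest.Agent.R102.Growth.EntOn.dg1 {z : ℂ} (hz : z ∈ V) :
    DifferentiableAt ℂ (deriv (gK θ K)) z := (h.ag hz).deriv.differentiableAt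
lemma _root_.Crest.Agent.R102.Growth.EntOn.dg2 {z : ℂ} (hz : z ∈ V) :
    DifferentiableAt ℂ (deriv (deriv (gK θ K))) z := (h.ag hz).deriv.deriv.differentiableAt

lemma _root_.Crest.Agent.R102.Growth.EntOn.deriv_g {z : ℂ} (hz : z ∈ V) :
    deriv (gK θ K) z = deriv K z - 4 * deriv θ z * deriv (deriv θ) z := by
  have h1 : HasDerivAt (gK θ K) (deriv K z - 2 * ((2 : ℕ) * (deriv θ z) ^ (2 - 1)
      * deriv (deriv θ) z)) z := by
    exact (h.dK0 hz).hasDerivAt.sub ((((h.dθ1 hz).hasDerivAt).pow 2).const_mul 2)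
  rw [h1.deriv]
  push_cast
  ring

lemma _root_.Crest.Agent.R102.Growth.EntOn.u_d1 {z e : ℂ} (hz : z + e ∈ V) :
    HasDerivAt (u1 θ H z) (u2 θ H K z e) e := h.u1_deriv hz
lemma _root_.Crest.Agent.R102.Growth.EntOn.v_d1 {z e : ℂ} (hz : z + e ∈ V) :
    HasDerivAt (v1 θ H z) (v2 θ H K z e) e := h.v1_deriv hz

lemma _root_.Crest.Agent.R102.Growth.EntOn.u_d2 {z e : ℂ} (hz : z + e ∈ V) :
    HasDerivAt (u2 θ H K z) (u3 θ H K z e) e := by
  have hc := h.chi_deriv hz
  have hg := (h.dg hz).hasDerivAt.comp_const_add z e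
  have := (hg.mul (h.u_deriv hz)).sub (hc.csin.const_mul (deriv θ z))
  refine this.congr_deriv ?_
  unfold u3
  ring

lemma _root_.Crest.Agent.R102.Growth.EntOn.u_d3 {z e : ℂ} (hz : z + e ∈ V) :
    HasDerivAt (u3 θ H K z) (u4 θ H K z e) e := by
  have hc := h.chi_deriv hz
  have hg := (h.dg hz).hasDerivAt.comp_const_add z e
  have hg1 := (h.dg1 hz).hasDerivAt.comp_const_add z e
  have ht1 := ((h.dθ1 hz).hasDerivAt.comp_const_add z e)
  have := ((hg1.mul (h.u_deriv hz)).add (hg.mul (h.u_d1 hz))).sub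
    ((hc.ccos.mul ht1).const_mul (deriv θ z))
  refine this.congr_deriv ?_
  unfold u4
  ring

lemma _root_.Crest.Agent.R102.Growth.EntOn.v_d2 {z e : ℂ} (hz : z + e ∈ V) :
    HasDerivAt (v2 θ H K z) (v3 θ H K z e) e := by
  have hc := h.chi_deriv hz
  have hg := (h.dg hz).hasDerivAt.comp_const_add z e
  have := (hg.mul (h.v_deriv hz)).add hc.ccos
  refine this.congr_deriv ?_
  unfold v3
  ring

lemma _root_.Crest.Agent.R102.Growth.EntOn.v_d3 {z e : ℂ} (hz : z + e ∈ V) :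
    HasDerivAt (v3 θ H K z) (v4 θ H K z e) e := by
  have hc := h.chi_deriv hz
  have hg := (h.dg hz).hasDerivAt.comp_const_add z e
  have hg1 := (h.dg1 hz).hasDerivAt.comp_const_add z e
  have ht1 := ((h.dθ1 hz).hasDerivAt.comp_const_add z e)
  have := ((hg1.mul (h.v_deriv hz)).add (hg.mul (h.v_d1 hz))).sub (hc.csin.mul ht1)
  refine this.congr_deriv ?_
  unfold v4
  ring

lemma _root_.Crest.Agent.R102.Growth.EntOn.v_d4 {z e : ℂ} (hz : z + e ∈ V) :
    HasDerivAt (v4 θ H K z) (v5 θ H K z e) e := by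
  have hc := h.chi_deriv hz
  have hg := (h.dg hz).hasDerivAt.comp_const_add z e
  have hg1 := (h.dg1 hz).hasDerivAt.comp_const_add z e
  have hg2 := (h.dg2 hz).hasDerivAt.comp_const_add z e
  have ht1 := ((h.dθ1 hz).hasDerivAt.comp_const_add z e)
  have ht2 := ((h.dθ2 hz).hasDerivAt.comp_const_add z e)
  have := ((((hg2.mul (h.v_deriv hz)).add ((hg1.const_mul 2).mul (h.v_d1 hz))).add
    (hg.mul (h.v_d2 hz))).sub (hc.ccos.mul (ht1.pow 2))).sub (hc.csin.mul ht2)
  refine this.congr_deriv ?_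
  unfold v5
  simp only [Pi.pow_apply]
  push_cast
  ring

lemma _root_.Crest.Agent.R102.Growth.EntOn.u3_zero {z : ℂ} (hz : z ∈ V) :
    u3 θ H K z 0 = gK θ K z - (deriv θ z) ^ 2 := by
  simp only [u3, u_zero, chi_zero, h.u1_zero hz, cos_zero, add_zero]
  ring

lemma _root_.Crest.Agent.R102.Growth.EntOn.u4_zero {z : ℂ} (hz : z ∈ V) :
    u4 θ H K z 0 = 2 * deriv (gK θ K) z - deriv θ z * deriv (deriv θ) z := by
  simp only [u4, u_zero, u2_zero, chi_zero, h.u1_zero hz, cos_zero, sin_zero, add_zero]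
  ring

/-- near `(t, 0)` both labels are in `V` -/
lemma _root_.Crest.Agent.R102.Growth.EntOn.ev {t : ℂ} (ht : t ∈ V) :
    ∀ᶠ p : ℂ × ℂ in 𝓝 (t, 0), p.1 ∈ V ∧ p.1 + p.2 ∈ V := by
  have c1 : ContinuousAt (fun p : ℂ × ℂ => p.1) (t, 0) := by fun_prop
  have c2 : Tendsto (fun p : ℂ × ℂ => p.1 + p.2) (𝓝 (t, 0)) (𝓝 t) := by
    have : ContinuousAt (fun p : ℂ × ℂ => p.1 + p.2) (t, 0) := by fun_prop
    simpa using this.tendsto
  filter_upwards [c1.eventually (h.Vo.mem_nhds ht), c2.eventually (h.Vo.mem_nhds ht)] with p a b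
  exact ⟨a, b⟩

lemma _root_.Crest.Agent.R102.Growth.EntOn.u_cont {t : ℂ} (ht : t ∈ V) :
    ContinuousAt (fun p : ℂ × ℂ => u θ H p.1 p.2) (t, 0) :=
  (u_contDiffAt h (p := (t, 0)) ht (by simpa using ht)).continuousAt
lemma _root_.Crest.Agent.R102.Growth.EntOn.v_cont {t : ℂ} (ht : t ∈ V) :
    ContinuousAt (fun p : ℂ × ℂ => v θ H p.1 p.2) (t, 0) :=
  (v_contDiffAt h (p := (t, 0)) ht (by simpa using ht)).continuousAt
lemma _root_.Crest.Agent.R102.Growth.EntOn.chi_cont {t : ℂ} (ht : t ∈ V) :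
    ContinuousAt (fun p : ℂ × ℂ => chi θ p.1 p.2) (t, 0) :=
  (cont_add (h.aθ ht).continuousAt).sub (cont_fst (h.aθ ht).continuousAt)
lemma _root_.Crest.Agent.R102.Growth.EntOn.sin_cont {t : ℂ} (ht : t ∈ V) :
    ContinuousAt (fun p : ℂ × ℂ => sin (chi θ p.1 p.2)) (t, 0) :=
  ContinuousAt.comp (f := fun p : ℂ × ℂ => chi θ p.1 p.2) (x := ((t, 0) : ℂ × ℂ))
    continuous_sin.continuousAt (h.chi_cont ht)
lemma _root_.Crest.Agent.R102.Growth.EntOn.cos_cont {t : ℂ} (ht : t ∈ V) :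
    ContinuousAt (fun p : ℂ × ℂ => cos (chi θ p.1 p.2)) (t, 0) :=
  ContinuousAt.comp (f := fun p : ℂ × ℂ => chi θ p.1 p.2) (x := ((t, 0) : ℂ × ℂ))
    continuous_cos.continuousAt (h.chi_cont ht)

lemma _root_.Crest.Agent.R102.Growth.EntOn.u1_cont {t : ℂ} (ht : t ∈ V) :
    ContinuousAt (fun p : ℂ × ℂ => u1 θ H p.1 p.2) (t, 0) := by
  have a1 := cont_add (h.aθ ht).deriv.continuousAt
  have a2 := cont_add (h.aθ ht).deriv.deriv.continuousAt
  have b0 := cont_add (h.aH ht).continuousAt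
  have b2 := cont_add (h.aH ht).deriv.deriv.continuousAt
  have f1 := cont_fst (h.aθ ht).deriv.continuousAt
  have k1 := cont_fst (h.aH ht).deriv.continuousAt
  have s := h.sin_cont ht
  have c := h.cos_cont ht
  exact (k1.mul a2).sub (f1.mul (((a2.mul b0).mul s).add ((((a1.pow 2).mul b0).add b2).mul c)))

lemma _root_.Crest.Agent.R102.Growth.EntOn.v1_cont {t : ℂ} (ht : t ∈ V) :
    ContinuousAt (fun p : ℂ × ℂ => v1 θ H p.1 p.2) (t, 0) := by
  have a1 := cont_add (h.aθ ht).deriv.continuousAt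
  have a2 := cont_add (h.aθ ht).deriv.deriv.continuousAt
  have b0 := cont_add (h.aH ht).continuousAt
  have b2 := cont_add (h.aH ht).deriv.deriv.continuousAt
  have f0 := cont_fst (h.aH ht).continuousAt
  have s := h.sin_cont ht
  have c := h.cos_cont ht
  exact (a2.mul ((b0.mul c).sub f0)).sub ((((a1.pow 2).mul b0).add b2).mul s)

lemma _root_.Crest.Agent.R102.Growth.EntOn.u2_cont {t : ℂ} (ht : t ∈ V) :
    ContinuousAt (fun p : ℂ × ℂ => u2 θ H K p.1 p.2) (t, 0) :=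
  ((cont_add (h.ag ht).continuousAt).mul (h.u_cont ht)).sub
    ((cont_fst (h.aθ ht).deriv.continuousAt).mul (h.sin_cont ht))

lemma _root_.Crest.Agent.R102.Growth.EntOn.v2_cont {t : ℂ} (ht : t ∈ V) :
    ContinuousAt (fun p : ℂ × ℂ => v2 θ H K p.1 p.2) (t, 0) :=
  ((cont_add (h.ag ht).continuousAt).mul (h.v_cont ht)).add (h.cos_cont ht)

lemma _root_.Crest.Agent.R102.Growth.EntOn.v3_cont {t : ℂ} (ht : t ∈ V) :
    ContinuousAt (fun p : ℂ × ℂ => v3 θ H K p.1 p.2) (t, 0) :=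
  (((cont_add (h.ag ht).deriv.continuousAt).mul (h.v_cont ht)).add
    ((cont_add (h.ag ht).continuousAt).mul (h.v1_cont ht))).sub
    ((h.sin_cont ht).mul (cont_add (h.aθ ht).deriv.continuousAt))

lemma _root_.Crest.Agent.R102.Growth.EntOn.u4_cont {t : ℂ} (ht : t ∈ V) :
    ContinuousAt (fun p : ℂ × ℂ => u4 θ H K p.1 p.2) (t, 0) := by
  have a1 := cont_add (h.aθ ht).deriv.continuousAt
  have a2 := cont_add (h.aθ ht).deriv.deriv.continuousAt
  have g0 := cont_add (h.ag ht).continuousAt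
  have g1 := cont_add (h.ag ht).deriv.continuousAt
  have g2 := cont_add (h.ag ht).deriv.deriv.continuousAt
  have f1 := cont_fst (h.aθ ht).deriv.continuousAt
  have s := h.sin_cont ht
  have c := h.cos_cont ht
  have u0 := h.u_cont ht
  have u1 := h.u1_cont ht
  have u2 := h.u2_cont ht
  exact (((g2.mul u0).add ((continuousAt_const.mul g1).mul u1)).add (g0.mul u2)).sub
    (f1.mul ((s.neg.mul (a1.pow 2)).add (c.mul a2)))

lemma _root_.Crest.Agent.R102.Growth.EntOn.v5_cont {t : ℂ} (ht : t ∈ V) :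
    ContinuousAt (fun p : ℂ × ℂ => v5 θ H K p.1 p.2) (t, 0) := by
  have a1 := cont_add (h.aθ ht).deriv.continuousAt
  have a2 := cont_add (h.aθ ht).deriv.deriv.continuousAt
  have a3 := cont_add (h.aθ ht).deriv.deriv.deriv.continuousAt
  have g0 := cont_add (h.ag ht).continuousAt
  have g1 := cont_add (h.ag ht).deriv.continuousAt
  have g2 := cont_add (h.ag ht).deriv.deriv.continuousAt
  have g3 := cont_add (h.ag ht).deriv.deriv.deriv.continuousAt
  have s := h.sin_cont ht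
  have c := h.cos_cont ht
  have v0 := h.v_cont ht
  have v1 := h.v1_cont ht
  have v2 := h.v2_cont ht
  have v3 := h.v3_cont ht
  exact ((((((g3.mul v0).add ((continuousAt_const.mul g2).mul v1)).add
    ((continuousAt_const.mul g1).mul v2)).add (g0.mul v3)).add (s.mul (a1.pow 3))).sub
    (((continuousAt_const.mul c).mul a1).mul a2)).sub (s.mul a3)

end

/-! ### limits -/

section
variable {θ H K : ℂ → ℂ} {V : Set ℂ} (h : EntOn θ H K V) {t : ℂ} (ht : t ∈ V)
include h ht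

lemma u_even_o : (fun p : ℂ × ℂ => (u θ H p.1 p.2 + u θ H p.1 (-p.2))
    - (2 * deriv (gK θ K) t - deriv θ t * deriv (deriv θ) t) / 12 * p.2 ^ 4)
    =o[𝓝 ((t, 0) : ℂ × ℂ)] fun p : ℂ × ℂ => p.2 ^ 4 := by
  have h1 := taylor_loc 4 (fun k => match k with
    | 0 => fun p => u θ H p.1 p.2
    | 1 => fun p => u1 θ H p.1 p.2
    | 2 => fun p => u2 θ H K p.1 p.2
    | 3 => fun p => u3 θ H K p.1 p.2
    | _ => fun p => u4 θ H K p.1 p.2) t
    (by
      intro k hk
      filter_upwards [h.ev ht] with p hp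
      interval_cases k
      · exact h.u_deriv hp.2
      · exact h.u_d1 hp.2
      · exact h.u_d2 hp.2
      · exact h.u_d3 hp.2)
    (h.u4_cont ht)
  have h2 := h1.comp_tendsto (neg_tendsto t)
  have h3 : ((fun p : ℂ × ℂ => p.2 ^ 4) ∘ fun p : ℂ × ℂ => ((p.1, -p.2) : ℂ × ℂ))
      = fun p : ℂ × ℂ => p.2 ^ 4 := by
    ext p
    simp only [Function.comp_apply]
    ring
  rw [h3] at h2
  refine (h1.add h2).congr' ?_ (EventuallyEq.refl _ _)
  filter_upwards [h.ev ht] with p hp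
  simp only [Function.comp_apply, Finset.sum_range_succ, Finset.range_zero, Finset.sum_empty,
    Nat.factorial, u_zero, h.u1_zero hp.1, u2_zero, h.u3_zero hp.1, h.u4_zero ht]
  push_cast
  ring

lemma v_odd_o : (fun p : ℂ × ℂ => (v θ H p.1 p.2 - v θ H p.1 (-p.2))
    - (deriv (gK θ K) t - deriv θ t * deriv (deriv θ) t) / 20 * p.2 ^ 5)
    =o[𝓝 ((t, 0) : ℂ × ℂ)] fun p : ℂ × ℂ => p.2 ^ 5 := by
  have h1 := taylor_loc 5 (fun k => match k with
    | 0 => fun p => v θ H p.1 p.2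
    | 1 => fun p => v1 θ H p.1 p.2
    | 2 => fun p => v2 θ H K p.1 p.2
    | 3 => fun p => v3 θ H K p.1 p.2
    | 4 => fun p => v4 θ H K p.1 p.2
    | _ => fun p => v5 θ H K p.1 p.2) t
    (by
      intro k hk
      filter_upwards [h.ev ht] with p hp
      interval_cases k
      · exact h.v_deriv hp.2
      · exact h.v_d1 hp.2
      · exact h.v_d2 hp.2
      · exact h.v_d3 hp.2
      · exact h.v_d4 hp.2)
    (h.v5_cont ht)
  have h2 := h1.comp_tendsto (neg_tendsto t)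
  have h3 : ((fun p : ℂ × ℂ => p.2 ^ 5) ∘ fun p : ℂ × ℂ => ((p.1, -p.2) : ℂ × ℂ))
      = fun p : ℂ × ℂ => -(p.2 ^ 5) := by
    ext p
    simp only [Function.comp_apply]
    ring
  rw [h3, isLittleO_neg_right] at h2
  refine (h1.sub h2).congr_left ?_
  intro p
  simp only [Function.comp_apply, Finset.sum_range_succ, Finset.range_zero, Finset.sum_empty,
    Nat.factorial, v_zero, v1_zero, v2_zero, v3_zero, v4_zero, v5_zero]
  push_cast
  ring

lemma u_o : Tendsto (fun p : ℂ × ℂ => u θ H p.1 p.2 / p.2) (nl t) (𝓝 1) := by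
  have h1 := taylor_loc 1 (fun k => match k with
    | 0 => fun p => u θ H p.1 p.2
    | _ => fun p => u1 θ H p.1 p.2) t
    (by
      intro k hk
      filter_upwards [h.ev ht] with p hp
      interval_cases k
      exact h.u_deriv hp.2)
    (h.u1_cont ht)
  have h2 : Tendsto (fun p : ℂ × ℂ => u θ H p.1 p.2 / p.2 ^ 1) (nl t) (𝓝 1) := by
    refine tendsto_of_o (h1.congr' ?_ (EventuallyEq.refl _ _))
    filter_upwards [h.ev ht] with p hp
    simp [u_zero, h.u1_zero ht]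
  simpa using h2

lemma v_o : Tendsto (fun p : ℂ × ℂ => v θ H p.1 p.2 / p.2 ^ 2) (nl t) (𝓝 (1 / 2)) := by
  have h1 := taylor_loc 2 (fun k => match k with
    | 0 => fun p => v θ H p.1 p.2
    | 1 => fun p => v1 θ H p.1 p.2
    | _ => fun p => v2 θ H K p.1 p.2) t
    (by
      intro k hk
      filter_upwards [h.ev ht] with p hp
      interval_cases k
      · exact h.v_deriv hp.2
      · exact h.v_d1 hp.2)
    (h.v2_cont ht)
  refine tendsto_of_o (h1.congr_left ?_)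
  intro p
  simp [v_zero, v1_zero, v2_zero, Finset.sum_range_succ]

/-- oddness defect of `R` -/
theorem R_even_lim : Tendsto (fun p : ℂ × ℂ => (R θ H p.1 p.2 + R θ H p.1 (-p.2)) / p.2 ^ 4) (nl t)
    (𝓝 (deriv θ t * deriv (deriv θ) t / 8 - deriv K t / 30)) := by
  have a1 := tendsto_of_o (u_even_o h ht)
  have a2 := tendsto_of_o (v_odd_o h ht)
  have a3 := u_o h ht
  have a4 := v_o h ht
  have a5 := a3.comp (neg_tendsto' t)
  have e1 := a3.eventually_ne one_ne_zero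
  have e2 := a5.eventually_ne one_ne_zero
  have a6 := ((a4.mul a1).sub (a2.mul a3)).div (a3.mul a5.neg) (by norm_num)
  have e3 : ((1 / 2 : ℂ) * ((2 * deriv (gK θ K) t - deriv θ t * deriv (deriv θ) t) / 12)
      - (deriv (gK θ K) t - deriv θ t * deriv (deriv θ) t) / 20 * 1) / (1 * -1)
      = deriv θ t * deriv (deriv θ) t / 8 - deriv K t / 30 := by
    rw [h.deriv_g ht]
    ring
  rw [e3] at a6
  refine a6.congr' ?_
  filter_upwards [e1, e2, nl_ne t] with p h1 h2 h3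
  have hu : u θ H p.1 p.2 ≠ 0 := fun h0 => h1 (by rw [h0, zero_div])
  have hu' : u θ H p.1 (-p.2) ≠ 0 := fun h0 => h2 (by simp only [Function.comp_apply]; rw [h0, zero_div])
  simp only [Function.comp_apply, Pi.div_apply]
  unfold R
  field_simp
  ring

end

/-! ### the step -/

section
variable {θ H K : ℂ → ℂ} {V : Set ℂ}

lemma _root_.Crest.Agent.R102.Growth.EntOn.exists_good (h : EntOn θ H K V) {t : ℂ} (ht : t ∈ V) :
    ∃ ρ, GoodOn θ K V t ρ := by
  obtain ⟨δ, hδ, hδV⟩ := Metric.isOpen_iff.mp h.Vo t ht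
  have hsub : closedBall t (δ / 2) ⊆ V := (closedBall_subset_ball (by linarith)).trans hδV
  obtain ⟨M1, hM1⟩ := (isCompact_closedBall t (δ / 2)).exists_bound_of_continuousOn (f := deriv θ)
    (fun s hs => (h.dθ1 (hsub hs)).continuousAt.continuousWithinAt)
  obtain ⟨M2, hM2⟩ := (isCompact_closedBall t (δ / 2)).exists_bound_of_continuousOn (f := K)
    (fun s hs => (h.dK0 (hsub hs)).continuousAt.continuousWithinAt)
  have htm : t ∈ closedBall t (δ / 2) := mem_closedBall_self (by positivity)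
  have m1 : 0 ≤ M1 := (norm_nonneg _).trans (hM1 t htm)
  have m2 : 0 ≤ M2 := (norm_nonneg _).trans (hM2 t htm)
  set M := M1 + M2 + 1 with hM
  have hM0 : 1 ≤ M := by linarith
  set σ := min (δ / 2) (1 / (200 * M)) with hσ
  have hσ0 : 0 < σ := lt_min (by positivity) (by positivity)
  have hσ1 : σ ≤ δ / 2 := min_le_left _ _
  have hσ2 : σ ≤ 1 / (200 * M) := min_le_right _ _
  have hσ3 : σ * (200 * M) ≤ 1 := by
    rwa [le_div_iff₀ (by positivity)] at hσ2
  have hσ4 : σ ≤ 1 := by nlinarith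
  refine ⟨σ, hσ0, (closedBall_subset_closedBall hσ1).trans hsub, ?_, ?_⟩
  · intro s hs
    have h1 := hM1 s (by rw [mem_closedBall, dist_eq_norm]; linarith)
    have h2 : ‖deriv θ s‖ * σ ≤ M * σ := mul_le_mul_of_nonneg_right (by linarith) hσ0.le
    linarith
  · intro s hs
    have h1 := hM2 s (by rw [mem_closedBall, dist_eq_norm]; linarith)
    have h2 : ‖K s‖ * σ ^ 2 ≤ M * σ ^ 2 := mul_le_mul_of_nonneg_right (by linarith) (by positivity)
    have h3 : σ ^ 2 ≤ σ := by nlinarith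
    have h4 : M * σ ^ 2 ≤ M * σ := mul_le_mul_of_nonneg_left h3 (by linarith)
    linarith

variable {z : ℂ} {ρ : ℝ}

lemma R_lip2 (h : EntOn θ H K V) (g : GoodOn θ K V z ρ) {r : ℝ} (hr : 0 < r) (hr2 : 2 * r ≤ ρ) {s t : ℂ}
    (hs : ‖s‖ ≤ r) (ht : ‖t‖ ≤ r) :
    ‖(R θ H z s - R θ H z t) - (s - t) / 2‖ ≤ r ^ 2 / ρ ^ 2 * ‖s - t‖ := by
  have hp := g.pos
  have key : ∀ x ∈ closedBall (0 : ℂ) r, HasDerivWithinAt (fun x => R θ H z x - x / 2)
      (deriv (fun x => R θ H z x - x / 2) x) (closedBall (0 : ℂ) r) x ∧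
      ‖deriv (fun x => R θ H z x - x / 2) x‖ ≤ r ^ 2 / ρ ^ 2 := by
    intro x hx
    have hx' : ‖x‖ ≤ r := by simpa using hx
    have hd : ∀ y, ‖y‖ ≤ ρ → DifferentiableAt ℂ (fun x => R θ H z x - x / 2) y := by
      intro y hy
      obtain ⟨d, hd, -⟩ := R_deriv h g hy
      exact hd.differentiableAt.sub (by fun_prop)
    refine ⟨(hd x (by linarith)).hasDerivAt.hasDerivWithinAt, ?_⟩
    have hcl : ∀ y ∈ closedBall x r, ‖y‖ ≤ 2 * r := by
      intro y hy
      rw [mem_closedBall, dist_eq_norm] at hy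
      have := norm_add_le (y - x) x
      rw [sub_add_cancel] at this
      linarith
    have := Complex.norm_deriv_le_of_forall_mem_sphere_norm_le (c := x) (R := r) (C := r ^ 3 / ρ ^ 2)
      (f := fun x => R θ H z x - x / 2) hr
      (by
        refine DifferentiableOn.diffContOnCl ?_
        rw [closure_ball x hr.ne']
        intro y hy
        exact (hd y ((hcl y hy).trans hr2)).differentiableWithinAt)
      (by
        intro y hy
        have h1 := hcl y (sphere_subset_closedBall hy)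
        have h2 := R_near h g (s := y) (by linarith)
        refine h2.trans ?_
        have h3 : ‖y‖ ^ 3 ≤ (2 * r) ^ 3 := pow_le_pow_left₀ (norm_nonneg _) h1 3
        rw [mul_div_assoc', div_le_div_iff_of_pos_right (by positivity)]
        nlinarith [pow_pos hr 3])
    refine this.trans (le_of_eq ?_)
    field_simp
  have := (convex_closedBall (0 : ℂ) r).norm_image_sub_le_of_norm_hasDerivWithin_le
      (f := fun x => R θ H z x - x / 2) (C := r ^ 2 / ρ ^ 2)
      (fun x hx => (key x hx).1) (fun x hx => (key x hx).2)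
      (x := t) (y := s) (by simpa using ht) (by simpa using hs)
  have e : (R θ H z s - R θ H z t) - (s - t) / 2
      = (R θ H z s - s / 2) - (R θ H z t - t / 2) := by ring
  rw [e]
  exact this

/-- **the fourth order coefficient of the step** -/
theorem st_lim (h : EntOn θ H K V) {t : ℂ} (ht : t ∈ V) :
    Tendsto (fun p : ℂ × ℂ => (st θ H p.1 p.2 - p.2) / p.2 ^ 4) (nl t)
      (𝓝 (deriv K t / 15 - deriv θ t * deriv (deriv θ) t / 4)) := by
  obtain ⟨ρ, g⟩ := h.exists_good ht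
  have hp := g.pos
  have hQ := R_even_lim h ht
  -- error term
  have ev : ∀ᶠ p in nl t, ‖(st θ H p.1 p.2 - p.2) / p.2 ^ 4
      - (-2) * ((R θ H p.1 p.2 + R θ H p.1 (-p.2)) / p.2 ^ 4)‖
      ≤ 45 / ρ ^ 2 * ‖p.2‖ ^ 2 * ‖(R θ H p.1 p.2 + R θ H p.1 (-p.2)) / p.2 ^ 4‖ := by
    have c1 : ∀ᶠ p : ℂ × ℂ in nl t, ‖p.1 - t‖ < ρ / 2 := by
      have : ContinuousAt (fun p : ℂ × ℂ => ‖p.1 - t‖) (t, 0) := by fun_prop
      exact (this.eventually_lt continuousAt_const (by simpa using hp)).filter_mono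
        nhdsWithin_le_nhds
    have c2 : ∀ᶠ p : ℂ × ℂ in nl t, ‖p.2‖ < ρ / 8 := by
      have : ContinuousAt (fun p : ℂ × ℂ => ‖p.2‖) (t, 0) := by fun_prop
      exact (this.eventually_lt continuousAt_const (by simpa using hp)).filter_mono
        nhdsWithin_le_nhds
    filter_upwards [c1, c2, nl_ne t] with p h1 h2 h3
    have g' : GoodOn θ K V p.1 (ρ / 2) := g.mono (by linarith) (by linarith)
    set z := p.1
    set e := p.2
    have he0 : 0 < ‖e‖ := norm_pos_iff.mpr h3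
    have s1 := st_spec h g' (e := e) (by linarith)
    have s2 := st_le h g' (e := e) (by linarith)
    set s := st θ H z e
    set Q := R θ H z e + R θ H z (-e) with hQd
    have s3 : R θ H z s - R θ H z e = -Q := by rw [s1.2, hQd]; ring
    have s4 := R_expand h g' (s := s) (t := e) (by linarith) (by linarith)
    rw [s3, norm_neg] at s4
    have s5 := R_lip2 h g' (r := 3 / 2 * ‖e‖) (by positivity) (by linarith) (s := s) (t := e)
      s2 (by linarith)
    rw [s3] at s5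
    have s6 : ‖(s - e) - (-2) * Q‖ ≤ 45 / ρ ^ 2 * ‖e‖ ^ 2 * ‖Q‖ := by
      have e1 : (s - e) - (-2) * Q = (-2) * (-Q - (s - e) / 2) := by ring
      rw [e1, norm_mul, norm_neg, Complex.norm_ofNat]
      have e2 : (3 / 2 * ‖e‖) ^ 2 / (ρ / 2) ^ 2 = 9 / ρ ^ 2 * ‖e‖ ^ 2 := by
        field_simp
        ring
      rw [e2] at s5
      have e3 : 9 / ρ ^ 2 * ‖e‖ ^ 2 * ‖s - e‖ ≤ 9 / ρ ^ 2 * ‖e‖ ^ 2 * (5 / 2 * ‖Q‖) :=
        mul_le_mul_of_nonneg_left (by linarith) (by positivity)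
      calc 2 * ‖-Q - (s - e) / 2‖ ≤ 2 * (9 / ρ ^ 2 * ‖e‖ ^ 2 * (5 / 2 * ‖Q‖)) := by linarith
        _ = 45 / ρ ^ 2 * ‖e‖ ^ 2 * ‖Q‖ := by ring
    have e4 : (s - e) / e ^ 4 - (-2) * (Q / e ^ 4) = ((s - e) - (-2) * Q) / e ^ 4 := by ring
    rw [e4, norm_div, norm_div]
    have h4 : 0 < ‖e ^ 4‖ := norm_pos_iff.mpr (pow_ne_zero 4 h3)
    rw [div_le_iff₀ h4]
    refine s6.trans (le_of_eq ?_)
    field_simp
  have z1 : Tendsto (fun p : ℂ × ℂ => 45 / ρ ^ 2 * ‖p.2‖ ^ 2
      * ‖(R θ H p.1 p.2 + R θ H p.1 (-p.2)) / p.2 ^ 4‖) (nl t) (𝓝 0) := by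
    have z2 : Tendsto (fun p : ℂ × ℂ => 45 / ρ ^ 2 * ‖p.2‖ ^ 2) (nl t) (𝓝 0) := by
      have : ContinuousAt (fun p : ℂ × ℂ => 45 / ρ ^ 2 * ‖p.2‖ ^ 2) (t, 0) := by fun_prop
      have h2 : Tendsto (fun p : ℂ × ℂ => 45 / ρ ^ 2 * ‖p.2‖ ^ 2) (𝓝 (t, 0)) (𝓝 0) := by
        simpa using this.tendsto
      exact h2.mono_left nhdsWithin_le_nhds
    have := z2.mul hQ.norm
    rwa [zero_mul] at this
  have z3 : Tendsto (fun p : ℂ × ℂ => (st θ H p.1 p.2 - p.2) / p.2 ^ 4
      - (-2) * ((R θ H p.1 p.2 + R θ H p.1 (-p.2)) / p.2 ^ 4)) (nl t) (𝓝 0) :=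
    squeeze_zero_norm' ev z1
  have z4 := z3.add (hQ.const_mul (-2))
  have e5 : (0 : ℂ) + -2 * (deriv θ t * deriv (deriv θ) t / 8 - deriv K t / 30)
      = deriv K t / 15 - deriv θ t * deriv (deriv θ) t / 4 := by ring
  rw [e5] at z4
  refine z4.congr ?_
  intro p
  ring

end

/-- local form with little-o hypotheses -/
theorem coeff_local2 {θ H K : ℂ → ℂ} {V : Set ℂ} (h : EntOn θ H K V) {X : ℂ × ℂ → ℂ}
    {c : ℂ → ℂ} {t c' : ℂ} (ht : t ∈ V)
    (hX : Tendsto (fun w : ℂ => X (t, w)) (𝓝[≠] 0) (𝓝 t))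
    (h1 : (fun w : ℂ => X (t, w) - X (t - w, w) - (w + w ^ 3 * c (t - w / 2)))
      =o[𝓝[≠] 0] fun w => w ^ 4)
    (h2 : (fun w : ℂ => X (t + w, w) - X (t, w) - (w + w ^ 3 * c (t + w / 2)))
      =o[𝓝[≠] 0] fun w => w ^ 4)
    (hlaw : ∀ᶠ w in 𝓝[≠] (0 : ℂ),
      X (t + w, w) = X (t, w) + st θ H (X (t, w)) (X (t, w) - X (t - w, w)))
    (hc : HasStrictDerivAt c c' t) :
    c' = deriv K t / 15 - deriv θ t * deriv (deriv θ) t / 4 := by
  have hne : ∀ᶠ w in 𝓝[≠] (0 : ℂ), w ≠ 0 := self_mem_nhdsWithin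
  have hw0 : Tendsto (fun w : ℂ => w) (𝓝[≠] 0) (𝓝 0) := tendsto_id.mono_left nhdsWithin_le_nhds
  have k1 : Tendsto (fun w : ℂ => t - w / 2) (𝓝[≠] 0) (𝓝 t) := by
    have : ContinuousAt (fun w : ℂ => t - w / 2) 0 := by fun_prop
    have h3 : Tendsto (fun w : ℂ => t - w / 2) (𝓝 0) (𝓝 t) := by simpa using this.tendsto
    exact h3.mono_left nhdsWithin_le_nhds
  have k2 : Tendsto (fun w : ℂ => t + w / 2) (𝓝[≠] 0) (𝓝 t) := by
    have : ContinuousAt (fun w : ℂ => t + w / 2) 0 := by fun_prop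
    have h3 : Tendsto (fun w : ℂ => t + w / 2) (𝓝 0) (𝓝 t) := by simpa using this.tendsto
    exact h3.mono_left nhdsWithin_le_nhds
  have a1 := h1.tendsto_div_nhds_zero
  have a2 := h2.tendsto_div_nhds_zero
  -- `e / w → 1`
  have e1 : Tendsto (fun w : ℂ => (X (t, w) - X (t - w, w)) / w) (𝓝[≠] 0) (𝓝 1) := by
    have b1 := (a1.mul (hw0.pow 3)).add
      (((hw0.pow 2).mul (hc.hasDerivAt.continuousAt.tendsto.comp k1)).const_add 1)
    have e : (0 : ℂ) * 0 ^ 3 + (1 + 0 ^ 2 * c t) = 1 := by ring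
    rw [e] at b1
    refine b1.congr' ?_
    filter_upwards [hne] with w hw
    simp only [Function.comp_apply]
    field_simp
    ring
  have e2 : Tendsto (fun w : ℂ => X (t, w) - X (t - w, w)) (𝓝[≠] 0) (𝓝 0) := by
    have := hw0.mul e1
    rw [zero_mul] at this
    refine this.congr' ?_
    filter_upwards [hne] with w hw
    field_simp
  have e3 : ∀ᶠ w in 𝓝[≠] (0 : ℂ), X (t, w) - X (t - w, w) ≠ 0 := by
    filter_upwards [e1.eventually_ne one_ne_zero] with w b h0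
    rw [h0, zero_div] at b
    exact b rfl
  have e4 : Tendsto (fun w : ℂ => ((X (t, w), X (t, w) - X (t - w, w)) : ℂ × ℂ)) (𝓝[≠] 0) (nl t) := by
    refine tendsto_nhdsWithin_iff.mpr ⟨?_, e3⟩
    exact hX.prodMk_nhds e2
  have e5 := (st_lim h ht).comp e4
  have e6 := e5.mul (e1.pow 4)
  rw [one_pow, mul_one] at e6
  -- the other side
  have f1 : Tendsto (fun w : ℂ => (c (t + w / 2) - c (t - w / 2)) / w) (𝓝[≠] 0) (𝓝 c') := by
    have f3 := hc.isLittleO.comp_tendsto (k2.prodMk_nhds k1)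
    have f4 : ((fun p : ℂ × ℂ => p.1 - p.2) ∘ fun w : ℂ => ((t + w / 2, t - w / 2) : ℂ × ℂ))
        =O[𝓝[≠] (0 : ℂ)] fun w : ℂ => w := by
      refine IsBigO.of_bound 1 (Eventually.of_forall fun w => le_of_eq ?_)
      simp only [Function.comp_apply, one_mul]
      congr 1
      ring
    have f5 := (f3.trans_isBigO f4).tendsto_div_nhds_zero.add_const c'
    rw [zero_add] at f5
    refine f5.congr' ?_
    filter_upwards [hne] with w hw
    simp only [Function.comp_apply, ContinuousLinearMap.toSpanSingleton_apply, smul_eq_mul]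
    field_simp
    ring
  have f2 := (f1.add a2).sub a1
  have e : c' + 0 - 0 = c' := by ring
  rw [e] at f2
  refine tendsto_nhds_unique (f2.congr' ?_) e6
  filter_upwards [hlaw, e3, hne] with w cc d f
  simp only [Function.comp_apply]
  have c' : st θ H (X (t, w)) (X (t, w) - X (t - w, w)) = X (t + w, w) - X (t, w) := by
    linear_combination -cc
  rw [c', div_pow, div_mul_div_comm, mul_comm ((X (t, w) - X (t - w, w)) ^ 4),
    mul_div_mul_right _ _ (pow_ne_zero 4 d)]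
  field_simp
  ring

section

variable {θ H K : ℂ → ℂ} {V : Set ℂ} {ρ r : ℝ} {b : ℂ × ℂ → ℂ}


/-- derivative of the coefficient -/
theorem c3_deriv (h : EntOn θ H K V) (L : LB ρ r b) {t : ℂ} (ht : |t.im| < ρ) (htV : t ∈ V)
    (hlaw : ∀ᶠ w in 𝓝[≠] (0 : ℂ),
      b (t + w, w) = b (t, w) + st θ H (b (t, w)) (b (t, w) - b (t - w, w))) :
    HasDerivAt (c3 b) (6 * (deriv K t / 15 - deriv θ t * deriv (deriv θ) t / 4)) t := by
  have hc3a := L.c3_an ht
  have hT2 := L.expand ht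
  have k1 : Tendsto (fun w : ℂ => ((t - w / 2, w) : ℂ × ℂ)) (𝓝[≠] 0) (𝓝 (t, 0)) := by
    have : ContinuousAt (fun w : ℂ => ((t - w / 2, w) : ℂ × ℂ)) 0 := by fun_prop
    have h3 : Tendsto (fun w : ℂ => ((t - w / 2, w) : ℂ × ℂ)) (𝓝 0) (𝓝 (t, 0)) := by
      simpa using this.tendsto
    exact h3.mono_left nhdsWithin_le_nhds
  have k2 : Tendsto (fun w : ℂ => ((t + w / 2, w) : ℂ × ℂ)) (𝓝[≠] 0) (𝓝 (t, 0)) := by
    have : ContinuousAt (fun w : ℂ => ((t + w / 2, w) : ℂ × ℂ)) 0 := by fun_prop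
    have h3 : Tendsto (fun w : ℂ => ((t + w / 2, w) : ℂ × ℂ)) (𝓝 0) (𝓝 (t, 0)) := by
      simpa using this.tendsto
    exact h3.mono_left nhdsWithin_le_nhds
  have o1 := hT2.comp_tendsto k1
  have o2 := hT2.comp_tendsto k2
  have p1 : (fun w : ℂ => b (t, w) - b (t - w, w) - (w + w ^ 3 * (c3 b (t - w / 2) / 6)))
      =o[𝓝[≠] 0] fun w => w ^ 4 := by
    refine o1.congr (fun w => ?_) (fun w => rfl)
    simp only [Function.comp_apply, SS]
    have e1 : t - w / 2 + w / 2 = t := by ring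
    have e2 : t - w / 2 - w / 2 = t - w := by ring
    rw [e1, e2]
  have p2 : (fun w : ℂ => b (t + w, w) - b (t, w) - (w + w ^ 3 * (c3 b (t + w / 2) / 6)))
      =o[𝓝[≠] 0] fun w => w ^ 4 := by
    refine o2.congr (fun w => ?_) (fun w => rfl)
    simp only [Function.comp_apply, SS]
    have e1 : t + w / 2 + w / 2 = t + w := by ring
    have e2 : t + w / 2 - w / 2 = t := by ring
    rw [e1, e2]
  have hfin := coeff_local2 h (X := b) (c := fun z => c3 b z / 6) (c' := deriv (c3 b) t / 6) htV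
    (L.tendsto ht) p1 p2 hlaw (hc3a.hasStrictDerivAt.div_const 6)
  have e6 : deriv (c3 b) t = 6 * (deriv K t / 15 - deriv θ t * deriv (deriv θ) t / 4) := by
    linear_combination 6 * hfin
  rw [← e6]
  exact hc3a.differentiableAt.hasDerivAt

/-- **(AP3)** near the real axis -/
theorem coeff_strip (h : EntOn θ H K V) (L : LB ρ r b) (hV : ∀ t : ℂ, |t.im| < ρ → t ∈ V)
    (hlaw : ∀ t : ℂ, |t.im| < ρ → ∀ᶠ w in 𝓝[≠] (0 : ℂ),
      b (t + w, w) = b (t, w) + st θ H (b (t, w)) (b (t, w) - b (t - w, w))) :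
    ∃ c : ℂ, ∀ t : ℂ, |t.im| < ρ →
      iteratedDeriv 3 (fun w => b (t + w / 2, w) - b (t - w / 2, w)) 0 =
        2 / 5 * ((K t - 2 * (deriv θ t) ^ 2) + (deriv θ t) ^ 2 / 8) + c := by
  set T : Set ℂ := {t : ℂ | |t.im| < ρ} with hT
  have hTo : IsOpen T := isOpen_lt (by fun_prop) continuous_const
  have hTc : IsPreconnected T := by
    have : T = Complex.imLm ⁻¹' (Ioo (-ρ) ρ) := by
      ext w
      simp [hT, abs_lt]
    rw [this]
    exact ((convex_Ioo _ _).linear_preimage _).isPreconnected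
  set Φ : ℂ → ℂ := fun t => c3 b t
    - 2 / 5 * ((K t - 2 * (deriv θ t) ^ 2) + (deriv θ t) ^ 2 / 8) with hΦ
  have hΦd : ∀ t ∈ T, HasDerivAt Φ 0 t := by
    intro t ht
    have h1 := c3_deriv h L ht (hV t ht) (hlaw t ht)
    have h2 := ((h.dθ1 (hV t ht)).hasDerivAt.pow 2)
    have h3 := (((h.dK0 (hV t ht)).hasDerivAt.sub (h2.const_mul 2)).add (h2.div_const 8)).const_mul (2 / 5 : ℂ)
    refine (h1.sub h3).congr_deriv ?_
    push_cast
    ring
  obtain ⟨c, hc⟩ := hTo.exists_is_const_of_deriv_eq_zero hTc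
    (fun t ht => (hΦd t ht).differentiableAt.differentiableWithinAt) (fun t ht => (hΦd t ht).deriv)
  refine ⟨c, fun t ht => ?_⟩
  have := hc t ht
  simp only [hΦ, c3] at this
  linear_combination this

end

end Crest.Agent.R102.StepV599
end
end

-- ▼ part R102/BoxMS_628
section

/-!
Row 102, block GROWTH, **(AP) for the main sheet, labels in `Str h0`** (helper628): the Case B
version of `BoxM_628`.
-/

set_option autoImplicit false

open Set Filter Topology Metric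
open scoped ComplexConjugate

noncomputable section

namespace Crest.Agent.R102.ShS628

open Crest.Agent.R102.T5 Crest.Agent.R102.G576 Crest.Agent.R102.A929 Crest.Agent.R102.B821
open Crest.Agent.R102.C0 Crest.Agent.R102.C1 Crest.Agent.R102.Rule982
open Crest.Agent.R102.VH982 (pt pt_eta pt_snd pt_re pt_im tube_mem eq_along continuous_pt_y)
open Crest.Agent.R102.K669 (Slab Tube IsReg)
open Crest.Agent.R102.Sh982 Crest.Agent.R102.APJ628 Crest.Agent.R102.StepT628
open Crest.Agent.R102.StepE599 (st ph)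
open Crest.Agent.R102.StepV599 (line_unique st_of_refl)
open Crest.Agent.R102.Growth (EntOn GoodOn MirS)
open Crest.Agent.R102.Pick628 (K0)
open Crest.Agent.R102.ShE628 (incS_of)

variable {q : C(ℂ, ℂ)} {η ρ r Bc h0 : ℝ} {b φ p : ℂ × ℂ → ℂ} {m₀ : ℂ → ℂ} {θ H K G : ℂ → ℂ}

/-- `(θ, H)` is a labelled curve in the sense of `StepT_628` -/
lemma lab_ofS (hD : Spine.DataS q η ρ r Bc b φ p m₀ θ H h0) (hM : MirS q η h0 θ H K G) :
    Lab θ H (Str h0) := by
  refine ⟨isOpen_Str h0, fun z => ?_, hD.ext.θ_diff, hD.ext.H_diff, hM.θper, hM.Hper,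
    hM.ent.relH⟩
  show |(z + 1).im| < h0 ↔ |z.im| < h0
  simp

/-- the labels are 1-Lipschitz near in `w` -/
lemma b_tendS (F : LineFam q η ρ r Bc b φ p m₀) {t : ℂ} (ht : |t.im| < ρ) (c : ℂ) :
    Tendsto (fun w : ℂ => b (t + c * w, w)) (𝓝 0) (𝓝 t) := by
  have hO : IsOpen (PD ρ r) := StepE599.isOpen_PDm ρ r
  have hr := F.r_pos
  have hm : ((t, 0) : ℂ × ℂ) ∈ PD ρ r := ⟨ht, by simpa using hr⟩
  have h1 : ContinuousAt b (t, 0) :=
    (F.b_diff.differentiableAt (hO.mem_nhds hm)).continuousAt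
  have h2 : b (t, 0) = t := by
    have h5 := F.b_near _ hm
    simp only [norm_zero, ne_eq, OfNat.ofNat_ne_zero, not_false_eq_true, zero_pow,
      mul_zero] at h5
    exact sub_eq_zero.1 (norm_le_zero_iff.1 h5)
  have h3 : Tendsto (fun w : ℂ => ((t + c * w, w) : ℂ × ℂ)) (𝓝 0) (𝓝 (t, 0)) := by
    have : Continuous fun w : ℂ => ((t + c * w, w) : ℂ × ℂ) := by fun_prop
    simpa using this.tendsto 0
  have h4 := h1.tendsto.comp h3
  rw [h2] at h4
  exact h4

/-- **the law of the step near the real axis** -/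
theorem lawS (hD : Spine.DataS q η ρ r Bc b φ p m₀ θ H h0) (hE : EntOn θ H K (Str h0)) {t : ℂ}
    (ht : |t.im| < ρ) : ∀ᶠ w in 𝓝[≠] (0 : ℂ),
      b (t + w, w) = b (t, w) + st θ H (b (t, w)) (b (t, w) - b (t - w, w)) := by
  have D := dat_of hD
  have hr := hD.fam.r_pos
  have htS : t ∈ Str h0 := by
    show |t.im| < h0
    have := hD.fam.ρ_pos
    have := hD.fam.ρ_lt
    have := hD.le
    linarith
  obtain ⟨κ, g⟩ := hE.exists_good htS
  have hκ := g.pos
  have c0 := b_tendS hD.fam ht (-1)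
  have c1 := b_tendS hD.fam ht 0
  have c2 := b_tendS hD.fam ht 1
  have e0 : ∀ᶠ w in 𝓝 (0 : ℂ), ‖b (t + -1 * w, w) - t‖ < κ / 8 := by
    have := c0.eventually (ball_mem_nhds t (show 0 < κ / 8 by positivity))
    filter_upwards [this] with w hw
    rwa [dist_eq_norm] at hw
  have e1 : ∀ᶠ w in 𝓝 (0 : ℂ), ‖b (t + 0 * w, w) - t‖ < κ / 8 := by
    have := c1.eventually (ball_mem_nhds t (show 0 < κ / 8 by positivity))
    filter_upwards [this] with w hw
    rwa [dist_eq_norm] at hw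
  have e2 : ∀ᶠ w in 𝓝 (0 : ℂ), ‖b (t + 1 * w, w) - t‖ < κ / 8 := by
    have := c2.eventually (ball_mem_nhds t (show 0 < κ / 8 by positivity))
    filter_upwards [this] with w hw
    rwa [dist_eq_norm] at hw
  have e3 : ∀ᶠ w in 𝓝 (0 : ℂ), ‖w‖ < min r (ρ - |t.im|) := by
    have h3 : Tendsto (fun w : ℂ => ‖w‖) (𝓝 0) (𝓝 ‖(0 : ℂ)‖) := continuous_norm.tendsto 0
    rw [norm_zero] at h3
    exact h3.eventually (Iio_mem_nhds (lt_min hr (by linarith)))
  have e4 : ∀ᶠ w in 𝓝 (0 : ℂ), 4 * |Bc| * ‖w‖ < 1 := by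
    have h3 : Tendsto (fun w : ℂ => 4 * |Bc| * ‖w‖) (𝓝 0) (𝓝 (4 * |Bc| * ‖(0 : ℂ)‖)) :=
      (continuous_const.mul continuous_norm).tendsto 0
    rw [norm_zero, mul_zero] at h3
    exact h3.eventually (Iio_mem_nhds one_pos)
  filter_upwards [e0.filter_mono nhdsWithin_le_nhds, e1.filter_mono nhdsWithin_le_nhds,
    e2.filter_mono nhdsWithin_le_nhds, e3.filter_mono nhdsWithin_le_nhds,
    e4.filter_mono nhdsWithin_le_nhds, self_mem_nhdsWithin] with w f0 f1 f2 f3 f4 hw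
  have hw0 : w ≠ 0 := hw
  have hwn : 0 < ‖w‖ := norm_pos_iff.2 hw0
  have s0 : t + -1 * w = t - w := by ring
  have s1 : t + 0 * w = t := by ring
  have s2 : t + 1 * w = t + w := by ring
  rw [s0] at f0
  rw [s1] at f1
  rw [s2] at f2
  have hwr : ‖w‖ < r := f3.trans_le (min_le_left _ _)
  have hwρ : ‖w‖ < ρ - |t.im| := f3.trans_le (min_le_right _ _)
  have hPD : ∀ c : ℂ, ‖c‖ ≤ 1 → (t + c * w, w) ∈ PD ρ r := by
    intro c hc
    refine ⟨?_, hwr⟩
    have h1 : |(c * w).im| ≤ ‖w‖ := by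
      refine (Complex.abs_im_le_norm _).trans ?_
      rw [norm_mul]
      nlinarith [norm_nonneg w]
    simp only [Complex.add_im]
    have := abs_add_le t.im (c * w).im
    linarith
  have m0 : (t - w, w) ∈ PD ρ r := by
    have := hPD (-1) (by simp)
    rwa [s0] at this
  have m1 : (t, w) ∈ PD ρ r := by
    have := hPD 0 (by simp)
    rwa [s1] at this
  have m2 : (t + w, w) ∈ PD ρ r := by
    have := hPD 1 (by simp)
    rwa [s2] at this
  have n1 : (t + w / 2, w) ∈ PD ρ r := by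
    have := hPD (1 / 2) (by rw [norm_div]; norm_num)
    have e : t + 1 / 2 * w = t + w / 2 := by ring
    rwa [e] at this
  have n2 : (t - w / 2, w) ∈ PD ρ r := by
    have := hPD (-(1 / 2)) (by rw [norm_neg, norm_div]; norm_num)
    have e : t + -(1 / 2) * w = t - w / 2 := by ring
    rwa [e] at this
  -- incidences
  have i1 : StepE599.Inc θ H (b (t, w)) (φ (t + w / 2, w)) (p (t + w / 2, w)) := by
    have := D.base_inc (s := 1) (Or.inl rfl) m1 (by rw [one_mul]; exact n1)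
    rw [one_mul] at this
    exact this
  have i1' : StepE599.Inc θ H (b (t, w)) (φ (t - w / 2, w)) (p (t - w / 2, w)) := by
    have e : t + -1 * (w / 2) = t - w / 2 := by ring
    have := D.base_inc (s := -1) (Or.inr rfl) m1 (by rw [e]; exact n2)
    rw [e] at this
    exact this
  have i2 : StepE599.Inc θ H (b (t + w, w)) (φ (t + w / 2, w)) (p (t + w / 2, w)) := by
    have e : t + w + -1 * (w / 2) = t + w / 2 := by ring
    have := D.base_inc (s := -1) (Or.inr rfl) m2 (by rw [e]; exact n1)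
    rw [e] at this
    exact this
  have i0 : StepE599.Inc θ H (b (t - w, w)) (φ (t - w / 2, w)) (p (t - w / 2, w)) := by
    have e : t - w + 1 * (w / 2) = t - w / 2 := by ring
    have := D.base_inc (s := 1) (Or.inl rfl) m0 (by rw [e]; exact n2)
    rw [e] at this
    exact this
  have hrf := hD.fam.refl t w m1 n2 n1
  have hθ1 : θ (b (t, w)) = Tc q (b (t, w)) := D.ψ_eq _ (D.b_mem_Str m1)
  rw [← hθ1] at hrf
  have hδ := hD.fam.δ_small t w m1 n1
  rw [← hθ1] at hδ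
  have hδ' : ‖φ (t - w / 2, w) - θ (b (t, w))‖ ≤ 1 := by
    have e : φ (t - w / 2, w) - θ (b (t, w)) = -(φ (t + w / 2, w) - θ (b (t, w))) := by
      linear_combination hrf
    rw [e, norm_neg]
    linarith
  have hy : deriv θ (b (t, w)) ≠ 0 := D.deriv_ψ_ne (D.b_mem_Str m1)
  -- steps
  have k0 := hD.fam.b_near _ m0
  have k1 := hD.fam.b_near _ m1
  have k2 := hD.fam.b_near _ m2
  simp only at k0 k1 k2
  have hB : Bc * ‖w‖ ^ 2 < ‖w‖ / 4 := by
    have h1 : Bc * ‖w‖ ^ 2 ≤ |Bc| * ‖w‖ ^ 2 :=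
      mul_le_mul_of_nonneg_right (le_abs_self _) (by positivity)
    have h2 : |Bc| * ‖w‖ ^ 2 = (4 * |Bc| * ‖w‖) * (‖w‖ / 4) := by ring
    nlinarith
  have hne2 : b (t + w, w) - b (t, w) ≠ 0 := by
    intro h0
    have e : w = (b (t + w, w) - b (t, w)) - (b (t + w, w) - (t + w)) + (b (t, w) - t) := by ring
    have h1 : ‖w‖ ≤ 0 + Bc * ‖w‖ ^ 2 + Bc * ‖w‖ ^ 2 := by
      calc ‖w‖ = ‖(b (t + w, w) - b (t, w)) - (b (t + w, w) - (t + w)) + (b (t, w) - t)‖ := by
            rw [← e]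
        _ ≤ ‖(b (t + w, w) - b (t, w)) - (b (t + w, w) - (t + w))‖ + ‖b (t, w) - t‖ :=
            norm_add_le _ _
        _ ≤ (‖b (t + w, w) - b (t, w)‖ + ‖b (t + w, w) - (t + w)‖) + ‖b (t, w) - t‖ := by
            gcongr; exact norm_sub_le _ _
        _ ≤ 0 + Bc * ‖w‖ ^ 2 + Bc * ‖w‖ ^ 2 := by
            rw [h0, norm_zero]
            linarith
    linarith
  have hne0 : b (t - w, w) - b (t, w) ≠ 0 := by
    intro h0
    have e : w = (b (t - w, w) - (t - w)) - (b (t - w, w) - b (t, w)) - (b (t, w) - t) := by ring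
    have h1 : ‖w‖ ≤ Bc * ‖w‖ ^ 2 + 0 + Bc * ‖w‖ ^ 2 := by
      calc ‖w‖ = ‖(b (t - w, w) - (t - w)) - (b (t - w, w) - b (t, w)) - (b (t, w) - t)‖ := by
            rw [← e]
        _ ≤ ‖(b (t - w, w) - (t - w)) - (b (t - w, w) - b (t, w))‖ + ‖b (t, w) - t‖ :=
            norm_sub_le _ _
        _ ≤ (‖b (t - w, w) - (t - w)‖ + ‖b (t - w, w) - b (t, w)‖) + ‖b (t, w) - t‖ := by
            gcongr; exact norm_sub_le _ _
        _ ≤ Bc * ‖w‖ ^ 2 + 0 + Bc * ‖w‖ ^ 2 := by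
            rw [h0, norm_zero]
            linarith
    linarith
  have g1 : GoodOn θ K (Str h0) (b (t, w)) (κ / 2) := g.mono (by positivity) (by linarith)
  have d2 : ‖b (t + w, w) - b (t, w)‖ ≤ κ / 4 := by
    have e : b (t + w, w) - b (t, w) = (b (t + w, w) - t) - (b (t, w) - t) := by ring
    rw [e]
    have := norm_sub_le (b (t + w, w) - t) (b (t, w) - t)
    linarith
  have d0 : ‖b (t - w, w) - b (t, w)‖ ≤ κ / 4 := by
    have e : b (t - w, w) - b (t, w) = (b (t - w, w) - t) - (b (t, w) - t) := by ring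
    rw [e]
    have := norm_sub_le (b (t - w, w) - t) (b (t, w) - t)
    linarith
  have l2 := (line_unique hE g1 hne2 (by linarith) hy (by linarith) i1
    (by rw [add_sub_cancel]; exact i2)).1
  have l0 := (line_unique hE g1 hne0 (by linarith) hy hδ' i1'
    (by rw [add_sub_cancel]; exact i0)).1
  have e5 : -(b (t, w) - b (t - w, w)) = b (t - w, w) - b (t, w) := by ring
  have h9 := st_of_refl hE g1 (e := b (t, w) - b (t - w, w)) (x := b (t + w, w) - b (t, w))
    (by rw [← norm_neg, e5]; linarith) (by linarith) hy (by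
      rw [e5, ← l0, ← l2]
      exact hrf)
  linear_combination h9

/-- **(AP3) on the strip** -/
theorem ap3S (hD : Spine.DataS q η ρ r Bc b φ p m₀ θ H h0) (hM : MirS q η h0 θ H K G) :
    ∃ c₀ : ℂ, ∀ t : ℂ, |t.im| < ρ →
      iteratedDeriv 3 (fun w => b (t + w / 2, w) - b (t - w / 2, w)) 0 =
        2 / 5 * (G t + deriv θ t ^ 2 / 8) + c₀ := by
  have hE := hM.ent
  have L : StepE599.LB ρ r b := by
    refine ⟨hD.fam.r_pos, hD.fam.b_diff, fun t ht => ?_, fun t w ht hw => hD.fam.b_even t w ⟨ht, hw⟩⟩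
    have h5 := hD.fam.b_near (t, 0) ⟨ht, by simpa using hD.fam.r_pos⟩
    simp only [norm_zero, ne_eq, OfNat.ofNat_ne_zero, not_false_eq_true, zero_pow,
      mul_zero] at h5
    exact sub_eq_zero.1 (norm_le_zero_iff.1 h5)
  obtain ⟨c, hc⟩ := StepV599.coeff_strip hE L (fun t ht => by
      show |t.im| < h0
      have := hD.fam.ρ_pos
      have := hD.fam.ρ_lt
      have := hD.le
      linarith) (fun t ht => lawS hD hE ht)
  refine ⟨c, fun t ht => ?_⟩
  rw [hc t ht, hM.G_eq t]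

/-- parity of the labels -/
theorem evenS (D : Dat q η ρ r Bc b φ p m₀ h0 θ H) {t w : ℂ} (hx : (t, w) ∈ SB b h0 ρ r) :
    (t, -w) ∈ SB b h0 ρ r ∧ be b h0 ρ r (t, -w) = be b h0 ρ r (t, w) := by
  obtain ⟨h1, h2⟩ := D.per_SB (σ := 1) (Or.inl rfl) (κ := -1) (Or.inr rfl) hx
  obtain ⟨h3, h4⟩ := D.per_SB (σ := -1) (Or.inr rfl) (κ := 1) (Or.inl rfl) h1
  have e1 : ((t + (1 : ℝ) + (-1 : ℝ), 1 * (-1 * w)) : ℂ × ℂ) = (t, -w) := by
    refine Prod.ext ?_ ?_
    · push_cast; ring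
    · simp
  simp only at h3 h4 h2
  rw [e1] at h3 h4
  refine ⟨h3, ?_⟩
  rw [h4, h2]
  push_cast
  ring

/-- the label at `w = 0` -/
theorem be_zeroS (D : Dat q η ρ r Bc b φ p m₀ h0 θ H) {t : ℂ} (hx : (t, (0 : ℂ)) ∈ SB b h0 ρ r) :
    be b h0 ρ r (t, 0) = t := by
  have hρ := D.ρ_pos
  have hr : 0 < r := D.fam.r_pos
  have hc : Continuous fun z : ℂ × ℂ => ((z.1, 0) : ℂ × ℂ) := by fun_prop
  have h1 := D.perm (x := (t, (0 : ℂ))) (by simpa using hr)
    (Ω := (fun z : ℂ × ℂ => ((z.1, 0) : ℂ × ℂ)) ⁻¹' SB b h0 ρ r) (isOpen_SB.preimage hc)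
    (f := fun z => be b h0 ρ r (z.1, 0)) (g := fun z => z.1) ?_ (fun z _ => analyticAt_fst) ?_ ?_
  · exact h1.self_of_nhds
  · intro z hz
    have h2 : AnalyticAt ℂ (fun z : ℂ × ℂ => ((z.1, 0) : ℂ × ℂ)) z :=
      analyticAt_fst.prod analyticAt_const
    exact AnalyticAt.comp (g := be b h0 ρ r) (f := fun z : ℂ × ℂ => ((z.1, 0) : ℂ × ℂ))
      (D.be_an _ hz) h2
  · intro y hy
    have := D.seg_SB hx y hy
    change (fun z : ℂ × ℂ => ((z.1, 0) : ℂ × ℂ)) (pt (t, (0 : ℂ)).1.re y (t, (0 : ℂ)).2) ∈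
      SB b h0 ρ r
    exact this
  · intro z _ hz2
    have hs : ((z.1, 0) : ℂ × ℂ) ∈ Slab (-(ρ / 2)) (ρ / 2) (ball (0 : ℂ) r) := by
      obtain ⟨h3, h4⟩ := abs_lt.1 hz2
      exact ⟨by simp only; linarith, by simp only; linarith, by simpa using hr⟩
    rw [D.be_slab hs]
    have h5 := D.fam.b_near _ (slab_PD hρ hs)
    simp only [norm_zero, ne_eq, OfNat.ofNat_ne_zero, not_false_eq_true, zero_pow,
      mul_zero] at h5
    exact sub_eq_zero.1 (norm_le_zero_iff.1 h5)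

/-- near the real axis the step of `be` is the step of `b` -/
lemma stp_realS (D : Dat q η ρ r Bc b φ p m₀ h0 θ H) (x : ℝ) :
    (fun w => stp (be b h0 ρ r) ((x : ℂ), w)) =ᶠ[𝓝 0]
      fun w => b ((x : ℂ) + w / 2, w) - b ((x : ℂ) - w / 2, w) := by
  have hρ := D.ρ_pos
  filter_upwards [ball_mem_nhds (0 : ℂ) (lt_min D.fam.r_pos hρ)] with w hw
  rw [mem_ball_zero_iff] at hw
  have hwr := hw.trans_le (min_le_left _ _)
  have hwρ := hw.trans_le (min_le_right _ _)
  have h1 : |(w / 2).im| < ρ / 2 := by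
    refine (Complex.abs_im_le_norm _).trans_lt ?_
    rw [norm_div]; simp only [Complex.norm_ofNat]; linarith
  obtain ⟨h2, h3⟩ := abs_lt.1 h1
  unfold stp
  simp only
  rw [D.be_slab, D.be_slab]
  · refine ⟨?_, ?_, by simpa using hwr⟩
    · simp only [Complex.sub_im, Complex.ofReal_im]; linarith
    · simp only [Complex.sub_im, Complex.ofReal_im]; linarith
  · refine ⟨?_, ?_, by simpa using hwr⟩
    · simp only [Complex.add_im, Complex.ofReal_im]; linarith
    · simp only [Complex.add_im, Complex.ofReal_im]; linarith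

/-- the vertex rule of Case B: both lines regular, then the label is regular -/
def RuleVS (b φ p : ℂ × ℂ → ℂ) (ρ r h0 : ℝ) : Prop :=
  ∀ x : ℂ × ℂ, sh 1 x ∈ SL φ p ρ r → sh (-1) x ∈ SL φ p ρ r → -(3 * ρ / 8) < x.1.im →
    x ∈ SB b h0 ρ r

/-- **the vertex rule of Case B** (982) -/
theorem rule_vertexS (hD : Spine.DataS q η ρ r Bc b φ p m₀ θ H h0)
    (hnb : ∀ s : ℂ, s.im = h0 → ¬ Spine.RegB h0 θ H s) : RuleVS b φ p ρ r h0 :=
  fun _ h1 h2 h3 => (dat_of hD).rule_vertex (NB_of hD hnb) h1 h2 h3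

/-- labels of a box of the sheet of lines -/
lemma box_SBS (hV : RuleVS b φ p ρ r h0) {h r' : ℝ}
    (hr' : 0 < r') (hsub : Sab (-(3 * ρ / 8)) h ×ˢ ball (0 : ℂ) r' ⊆ SL φ p ρ r) {t w : ℂ}
    (ht : t ∈ Sab (-(3 * ρ / 8) + r' / 2) (h - r' / 2)) (hw : ‖w‖ < r') :
    (t, w) ∈ SB b h0 ρ r := by
  have h1 : |(w / 2).im| < r' / 2 := by
    refine (Complex.abs_im_le_norm _).trans_lt ?_
    rw [norm_div]; simp only [Complex.norm_ofNat]; linarith
  obtain ⟨h2, h3⟩ := abs_lt.1 h1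
  obtain ⟨h4, h5⟩ := ht
  refine hV (t, w) (hsub ⟨⟨?_, ?_⟩, by simpa using hw⟩) (hsub ⟨⟨?_, ?_⟩, by simpa using hw⟩) ?_
  · rw [sh_fst, one_mul, Complex.add_im]; simp only; linarith
  · rw [sh_fst, one_mul, Complex.add_im]; simp only; linarith
  · rw [sh_fst, neg_one_mul, Complex.add_im, Complex.neg_im]; simp only; linarith
  · rw [sh_fst, neg_one_mul, Complex.add_im, Complex.neg_im]; simp only; linarith
  · simp only; linarith

/-- **the main sheet gives boxes** -/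
theorem boxMS (hD : Spine.DataS q η ρ r Bc b φ p m₀ θ H h0) (hV : RuleVS b φ p ρ r h0) {h r' : ℝ}
    (hr' : 0 < r') (hr1 : r' ≤ 1) (hrr : r' ≤ r) (hh : r' < h)
    (hsub : Sab (-(3 * ρ / 8)) h ×ˢ ball (0 : ℂ) r' ⊆ SL φ p ρ r) :
    Box θ H (-(3 * ρ / 8)) h r' (φe φ p ρ r) (pe φ p ρ r) (be b h0 ρ r) ∧
      BoxV (Str h0) (-(3 * ρ / 8)) h r' (be b h0 ρ r) := by
  have D := dat_of hD
  have hρ := hD.fam.ρ_pos
  have hrρ := hD.fam.r_le
  have hin : ∀ s : ℂ, (s = 1 ∨ s = -1) → ∀ t w : ℂ, t ∈ Sab (-(3 * ρ / 8) + r') (h - r') →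
      ‖w‖ < r' → IncS θ H (φe φ p ρ r (t, w)) (pe φ p ρ r (t, w))
        (be b h0 ρ r (sh (-s) (t, w))) := by
    intro s hs t w ht hw
    have h1 : |(w / 2).im| < r' / 2 := by
      refine (Complex.abs_im_le_norm _).trans_lt ?_
      rw [norm_div]; simp only [Complex.norm_ofNat]; linarith
    obtain ⟨h2, h3⟩ := abs_lt.1 h1
    obtain ⟨h4, h5⟩ := ht
    have hB : sh (-s) (t, w) ∈ SB b h0 ρ r := by
      refine box_SBS hV hr' hsub (t := (sh (-s) (t, w)).1) (w := w) ?_ hw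
      rcases hs with rfl | rfl
      · constructor
        · rw [sh_fst, neg_one_mul, Complex.add_im, Complex.neg_im]; simp only; linarith
        · rw [sh_fst, neg_one_mul, Complex.add_im, Complex.neg_im]; simp only; linarith
      · constructor
        · rw [sh_fst, neg_neg, one_mul, Complex.add_im]; simp only; linarith
        · rw [sh_fst, neg_neg, one_mul, Complex.add_im]; simp only; linarith
    have e1 : sh s (sh (-s) (t, w)) = (t, w) := by
      rw [sh_sh, add_neg_cancel, sh_zero]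
    have hL : sh s (sh (-s) (t, w)) ∈ SL φ p ρ r := by
      rw [e1]
      exact hsub ⟨⟨by linarith, by linarith⟩, by simpa using hw⟩
    have := D.inc_all hs hB hL
    rw [e1] at this
    exact incS_of this
  refine ⟨⟨hr', hr1, by linarith, hh, ?_, ?_, ?_, ?_, ?_, ?_, ?_, ?_⟩, ?_⟩
  · exact D.φe_an.differentiableOn.mono hsub
  · exact D.pe_an.differentiableOn.mono hsub
  · refine D.be_an.differentiableOn.mono ?_
    rintro x ⟨h1, h2⟩
    exact box_SBS hV hr' hsub (t := x.1) (w := x.2) h1 (by simpa using h2)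
  · intro t w ht hw
    have := hin (-1) (Or.inr rfl) t w ht hw
    unfold sh at this
    rw [neg_neg, one_mul] at this
    exact this
  · intro t w ht hw
    have := hin 1 (Or.inl rfl) t w ht hw
    unfold sh at this
    rw [neg_one_mul, ← sub_eq_add_neg] at this
    exact this
  · intro t w ht hw hw0
    obtain ⟨h4, h5⟩ := ht
    exact D.area_ne (hsub ⟨⟨by linarith, by linarith⟩, by simpa using hw⟩) hw0
  · intro t ht
    exact be_zeroS D (box_SBS hV hr' hsub ht (by simpa using hr'))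
  · intro t w ht hw
    exact (evenS D (box_SBS hV hr' hsub ht hw)).2
  · rintro x ⟨h1, h2⟩
    exact D.be_mem (box_SBS hV hr' hsub (t := x.1) (w := x.2) h1 (by simpa using h2))

/-- **(AP)**: a priori bounds from a box of the sheet of lines, `h ≤ h0`. -/
theorem APS (hD : Spine.DataS q η ρ r Bc b φ p m₀ θ H h0) (hM : MirS q η h0 θ H K G)
    (hV : RuleVS b φ p ρ r h0) : ∃ C : ℝ, 1 ≤ C ∧ ∀ h r' : ℝ, 0 < r' → r' ≤ 1 → r' ≤ r →
      r' < h → h ≤ h0 → Sab (-(3 * ρ / 8)) h ×ˢ ball (0 : ℂ) r' ⊆ SL φ p ρ r →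
      (∀ z : ℂ, |z.im| ≤ h - 2 * r' →
        ‖deriv θ z‖ ≤ C * (Real.sqrt (Real.log (8 * K0 / r')) / r') ∧
        ‖G z‖ ≤ C ^ 2 * (Real.log (8 * K0 / r') / r' ^ 2)) ∧
      (∀ t w : ℂ, t ∈ Sab (-(3 * ρ / 8) + r' / 2) (h - r' / 2) → ‖w‖ < r' →
        (t, w) ∈ SB b h0 ρ r) ∧
      (∀ t w : ℂ, t ∈ Sab (-(3 * ρ / 8) + r') (h - r') → ‖w‖ < r' → w ≠ 0 →
        ∀ k : ℤ, be b h0 ρ r (t + w / 2, w) - be b h0 ρ r (t - w / 2, w) ≠ k) ∧
      (∀ t w : ℂ, t ∈ Sab (-(3 * ρ / 8) + r') (h - r') → ‖w‖ < r' / 8 →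
        128 * Real.log (8 * K0 / r') * (‖w‖ / r') ^ 2 ≤ 1 →
        ‖be b h0 ρ r (t + w / 2, w) - be b h0 ρ r (t - w / 2, w) - w‖ ≤
          256 * Real.log (8 * K0 / r') * (‖w‖ / r') ^ 2 * ‖w‖) := by
  obtain ⟨c₀, hc₀⟩ := ap3S hD hM
  have D := dat_of hD
  have hLab := lab_ofS hD hM
  have hρ := hD.fam.ρ_pos
  set A : ℝ := 1920 + 2 * ‖c₀‖ with hA
  have hA1 : 1 ≤ A := by
    have := norm_nonneg c₀
    rw [hA]; linarith
  have hsA : 1 ≤ Real.sqrt A := by
    rw [Real.one_le_sqrt]; exact hA1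
  refine ⟨18 * Real.sqrt A, by linarith, fun h r' hr' hr1 hrr hh hhh hsub => ?_⟩
  obtain ⟨X, XV⟩ := boxMS hD hV hr' hr1 hrr hh hsub
  have hAP3 : ∀ x : ℝ, iteratedDeriv 3 (fun w => stp (be b h0 ρ r) (x, w)) 0 =
      2 / 5 * (G x + deriv θ x ^ 2 / 8) + c₀ := by
    intro x
    rw [(stp_realS D x).iteratedDeriv_eq 3]
    exact hc₀ x (by simpa using hρ)
  refine ⟨?_, fun t w ht hw => box_SBS hV hr' hsub ht hw, ?_, ?_⟩
  · intro z hz
    have hρh : -h0 ≤ -(3 * ρ / 8) := by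
      have := hD.fam.ρ_lt
      have := hD.le
      linarith
    obtain ⟨h1, h2⟩ := X.curveV hLab XV hhh hρh hM.Gd hM.hG hM.yper hM.yconj hM.Gconj hAP3 z hz
    rw [← hA] at h1 h2
    refine ⟨h1.trans (le_of_eq ?_), h2.trans ?_⟩
    · rw [Real.sqrt_mul (by linarith)]
      ring
    · have hL : 0 ≤ Real.log (8 * K0 / r') / r' ^ 2 := by
        refine div_nonneg (Real.log_nonneg ?_) (by positivity)
        rw [le_div_iff₀ hr']
        have := Pick628.K0_ge
        linarith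
      have e1 : (18 * Real.sqrt A) ^ 2 = 324 * A := by
        rw [mul_pow, Real.sq_sqrt (by linarith)]
        norm_num
      rw [e1]
      have e2 : 43 * (A * Real.log (8 * K0 / r') / r' ^ 2) =
          43 * A * (Real.log (8 * K0 / r') / r' ^ 2) := by ring
      rw [e2]
      nlinarith
  · intro t w ht hw hw0 k
    exact X.stp_not_intV hLab XV ht hw hw0 k
  · intro t w ht hw h1
    exact (X.stepV hLab XV ht).1 w (by simpa using hw) h1

end Crest.Agent.R102.ShS628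
end
end

-- ▼ part R102/APLS_628
section

/-!
Row 102, block GROWTH, **(AP), final form, Case B** (helper628): `r' = e^{-τ'}`,
`Om = Out559.OmL φ p (-(ρ/2)) (ρ/2) r`, `h ≤ h0`.
-/

set_option autoImplicit false

open Set Filter Topology Metric
open scoped ComplexConjugate

noncomputable section

namespace Crest.Agent.R102.ShS628

open Crest.Agent.R102.K669 (Slab)
open Crest.Agent.R102.Sh982 Crest.Agent.R102.APJ628 Crest.Agent.R102.StepT628
open Crest.Agent.R102.Out559 (OmL OmX)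
open Crest.Agent.R102.Growth (EntOn GoodOn MirS)
open Crest.Agent.R102.Pick628 (K0)

variable {q : C(ℂ, ℂ)} {η ρ r Bc h0 : ℝ} {b φ p : ℂ × ℂ → ℂ} {m₀ : ℂ → ℂ} {θ H K G : ℂ → ℂ}

/-- **(AP)**, Case B -/
theorem APLS (hD : Spine.DataS q η ρ r Bc b φ p m₀ θ H h0) (hM : MirS q η h0 θ H K G)
    (hnb : ∀ s : ℂ, s.im = h0 → ¬ Spine.RegB h0 θ H s) :
    ∃ C1 T1 : ℝ, 1 ≤ C1 ∧ 1 ≤ T1 ∧ Real.exp (-T1) ≤ r ∧ ∀ τ ≥ T1, ∀ h : ℝ, h ≤ h0 →
      (∀ t w : ℂ, t.im < h → ‖w‖ < Real.exp (-τ) → (t, w) ∈ OmL φ p (-(ρ / 2)) (ρ / 2) r) →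
      (∀ z : ℂ, |z.im| ≤ h - 2 * Real.exp (-τ) →
        ‖deriv θ z‖ ≤ C1 * √τ * Real.exp τ ∧
        ‖G z‖ ≤ C1 ^ 2 * τ * Real.exp (2 * τ)) ∧
      (∀ t w : ℂ, -(3 * ρ / 8) + Real.exp (-τ) / 2 < t.im → t.im < h - Real.exp (-τ) / 2 →
        ‖w‖ < Real.exp (-τ) → (t, w) ∈ SB b h0 ρ r) ∧
      (∀ t w : ℂ, -(3 * ρ / 8) + Real.exp (-τ) < t.im → t.im < h - Real.exp (-τ) →
        ‖w‖ < Real.exp (-τ) / 8 → 256 * τ * (‖w‖ * Real.exp τ) ^ 2 ≤ 1 →
        ‖be b h0 ρ r (t + w / 2, w) - be b h0 ρ r (t - w / 2, w) - w‖ ≤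
          512 * τ * Real.exp (2 * τ) * ‖w‖ ^ 3) := by
  have hV := rule_vertexS hD hnb
  obtain ⟨C, hC1, hC⟩ := APS hD hM hV
  have D := dat_of hD
  have hρ := hD.fam.ρ_pos
  have hr := hD.fam.r_pos
  have hrρ := hD.fam.r_le
  have hρη := hD.fam.ρ_lt
  have hle := hD.le
  have hK0 := Pick628.K0_ge
  refine ⟨2 * C ^ 2, max 1 (max (Real.log (8 * K0)) (-Real.log r)), by nlinarith,
    le_max_left _ _, ?_, fun τ hτ h hh0 hOm => ?_⟩
  · have h1 : -Real.log r ≤ max 1 (max (Real.log (8 * K0)) (-Real.log r)) :=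
      (le_max_right _ _).trans (le_max_right _ _)
    calc Real.exp (-max 1 (max (Real.log (8 * K0)) (-Real.log r))) ≤ Real.exp (Real.log r) :=
          Real.exp_le_exp.2 (by linarith)
      _ = r := Real.exp_log hr
  have hτ1 : 1 ≤ τ := (le_max_left _ _).trans hτ
  have hτ2 : Real.log (8 * K0) ≤ τ :=
    ((le_max_left _ _).trans (le_max_right _ _)).trans hτ
  have hτ3 : -Real.log r ≤ τ := ((le_max_right _ _).trans (le_max_right _ _)).trans hτ
  set r' : ℝ := Real.exp (-τ) with hr'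
  have hr'0 : 0 < r' := Real.exp_pos _
  have hr'1 : r' ≤ 1 := by
    rw [hr', Real.exp_le_one_iff]; linarith
  have hr'r : r' ≤ r := by
    calc r' ≤ Real.exp (Real.log r) := Real.exp_le_exp.2 (by linarith)
      _ = r := Real.exp_log hr
  set h' : ℝ := max h (ρ / 2) with hh'
  have hhr : r' < h' := lt_of_lt_of_le (by linarith) (le_max_right _ _)
  have hhh : h ≤ h' := le_max_left _ _
  have hh'0 : h' ≤ h0 := max_le hh0 (by linarith)
  have hsub : Sab (-(3 * ρ / 8)) h' ×ˢ ball (0 : ℂ) r' ⊆ SL φ p ρ r := by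
    rintro x ⟨⟨h1, h2⟩, h3⟩
    rw [mem_ball_zero_iff] at h3
    rcases lt_max_iff.1 h2 with h4 | h4
    · exact SL_iff.2 ⟨hOm x.1 x.2 h4 h3, by linarith⟩
    · exact D.slab_SL ⟨by linarith, h4, by
        rw [mem_ball_zero_iff]; linarith⟩
  obtain ⟨a1, a2, -, a4⟩ := hC h' r' hr'0 hr'1 hr'r hhr hh'0 hsub
  have hLe : Real.log (8 * K0 / r') = Real.log (8 * K0) + τ := by
    rw [Real.log_div (by linarith) hr'0.ne', hr', Real.log_exp]
    ring
  have hL2 : Real.log (8 * K0 / r') ≤ 2 * τ := by rw [hLe]; linarith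
  have hL0 : 0 ≤ Real.log (8 * K0 / r') := by
    rw [hLe]
    have := Real.log_nonneg (show (1 : ℝ) ≤ 8 * K0 by linarith)
    linarith
  have e1 : 1 / r' = Real.exp τ := by
    rw [hr', Real.exp_neg, one_div, inv_inv]
  have e2 : Real.exp (2 * τ) = Real.exp τ ^ 2 := by
    rw [← Real.exp_nat_mul]; norm_num
  refine ⟨?_, ?_, ?_⟩
  · intro z hz
    obtain ⟨b1, b2⟩ := a1 z (by linarith)
    constructor
    · refine b1.trans ?_
      have h5 : Real.sqrt (Real.log (8 * K0 / r')) ≤ 2 * Real.sqrt τ := by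
        rw [Real.sqrt_le_left (by positivity), mul_pow, Real.sq_sqrt (by linarith)]
        linarith
      have h6 : Real.sqrt (Real.log (8 * K0 / r')) / r' =
          Real.sqrt (Real.log (8 * K0 / r')) * Real.exp τ := by
        rw [← e1]; ring
      rw [h6]
      have h7 : Real.sqrt (Real.log (8 * K0 / r')) * Real.exp τ ≤
          2 * Real.sqrt τ * Real.exp τ := mul_le_mul_of_nonneg_right h5 (Real.exp_pos _).le
      have h8 : 0 ≤ Real.sqrt τ * Real.exp τ := by positivity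
      calc C * (Real.sqrt (Real.log (8 * K0 / r')) * Real.exp τ) ≤
          C * (2 * Real.sqrt τ * Real.exp τ) := mul_le_mul_of_nonneg_left h7 (by linarith)
        _ = 2 * C * (Real.sqrt τ * Real.exp τ) := by ring
        _ ≤ 2 * C ^ 2 * (Real.sqrt τ * Real.exp τ) := by
          refine mul_le_mul_of_nonneg_right ?_ h8
          nlinarith
        _ = 2 * C ^ 2 * √τ * Real.exp τ := by ring
    · refine b2.trans ?_
      have h6 : Real.log (8 * K0 / r') / r' ^ 2 = Real.log (8 * K0 / r') * Real.exp (2 * τ) := by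
        rw [e2, ← e1]; ring
      rw [h6]
      have h9 : 0 ≤ τ * Real.exp (2 * τ) := by positivity
      calc C ^ 2 * (Real.log (8 * K0 / r') * Real.exp (2 * τ)) ≤
          C ^ 2 * (2 * τ * Real.exp (2 * τ)) := by
            refine mul_le_mul_of_nonneg_left ?_ (by positivity)
            exact mul_le_mul_of_nonneg_right hL2 (Real.exp_pos _).le
        _ = 2 * C ^ 2 * (τ * Real.exp (2 * τ)) := by ring
        _ ≤ (2 * C ^ 2) ^ 2 * (τ * Real.exp (2 * τ)) := by
          refine mul_le_mul_of_nonneg_right (le_self_pow₀ ?_ two_ne_zero) h9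
          nlinarith
        _ = (2 * C ^ 2) ^ 2 * τ * Real.exp (2 * τ) := by ring
  · intro t w h1 h2 h3
    exact a2 t w ⟨h1, by linarith⟩ h3
  · intro t w h1 h2 h3 h4
    have e3 : ‖w‖ / r' = ‖w‖ * Real.exp τ := by rw [← e1]; ring
    have h5 : 128 * Real.log (8 * K0 / r') * (‖w‖ / r') ^ 2 ≤ 1 := by
      rw [e3]
      refine le_trans ?_ h4
      refine mul_le_mul_of_nonneg_right ?_ (by positivity)
      linarith
    refine (a4 t w ⟨h1, by linarith⟩ h3 h5).trans ?_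
    rw [e3]
    have e4 : 512 * τ * Real.exp (2 * τ) * ‖w‖ ^ 3 =
        256 * (2 * τ) * (‖w‖ * Real.exp τ) ^ 2 * ‖w‖ := by
      rw [e2]; ring
    rw [e4]
    refine mul_le_mul_of_nonneg_right ?_ (norm_nonneg _)
    refine mul_le_mul_of_nonneg_right ?_ (by positivity)
    linarith

end Crest.Agent.R102.ShS628
end
end

-- ▼ part R102/GrowBase_203
section

/-!
Row 102, T1-B, block GROWTH (helper203): 350's `BaseV` from 982's main sheets of Case B
(copy of `T1EBase314.baseL_of`).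
-/

set_option autoImplicit false

open Set Filter Topology Metric
open scoped ComplexConjugate

noncomputable section

namespace Crest.Agent.R102.GrowBase203

open Crest.Agent.R102.T5 Crest.Agent.R102.C0 Crest.Agent.R102.C1 Crest.Agent.R102.A929
open Crest.Agent.R102.Growth
open Crest.Agent.R102.ColE350 (Wd)
open Crest.Agent.R102.CC350 (DL)
open Crest.Agent.R102.CCS350 (BaseV)
open Crest.Agent.R102.K669 (Slab)
open Crest.Agent.R102.Sh982

variable {q : C(ℂ, ℂ)} {η ρ r Bc : ℝ} {b φ p : ℂ × ℂ → ℂ} {m₀ θ H K : ℂ → ℂ} {h0 s b1 R : ℝ}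

lemma incS_of {φ' p' β : ℂ} (h : F300.Inc θ H φ' p' β) : IncS θ H φ' p' β := by
  unfold F300.Inc at h
  unfold C1.IncS
  linear_combination h

/-- **`BaseV` from the sheets**, on 982's data -/
theorem baseV_dat (D : Dat q η ρ r Bc b φ p m₀ h0 θ H) (hs : 0 < s) (hsρ : 8 * s ≤ ρ)
    (hR : 0 < R) (hb1 : 0 < b1)
    (hSL : ∀ t w : ℂ, w ∈ Wd s → -(ρ / 2) < t.im → t.im < b1 → (t, w) ∈ SL φ p ρ r)
    (hSB : ∀ t w : ℂ, w ∈ Wd s → -(ρ / 2) < t.im → t.im < b1 → (t, w) ∈ SB b h0 ρ r)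
    (near : ∀ t w : ℂ, (t, w) ∈ DL s b1 → ‖be b h0 ρ r (t, w) - t‖ ≤ R / 100)
    (step : ∀ t w : ℂ, (t, w) ∈ DL s b1 → (t - w, w) ∈ DL s b1 →
      ‖be b h0 ρ r (t, w) - be b h0 ρ r (t - w, w) - w‖ ≤ ‖w‖ / 1000)
    (good : ∀ t w : ℂ, (t, w) ∈ DL s b1 → GoodOn θ K (Str h0) (be b h0 ρ r (t, w)) (10 * s)) :
    BaseV θ H K (Str h0) (φe φ p ρ r) (pe φ p ρ r) (be b h0 ρ r) s b1 R := by
  have hρ := D.ρ_pos
  have hL : ∀ t w : ℂ, (t, w) ∈ DL s b1 → (t, w) ∈ SL φ p ρ r := fun t w h =>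
    hSL t w h.1 (by have : -(4 * s) < t.im := h.2.1; linarith) h.2.2
  have hB : ∀ t w : ℂ, (t, w) ∈ DL s b1 → (t, w) ∈ SB b h0 ρ r := fun t w h =>
    hSB t w h.1 (by have : -(4 * s) < t.im := h.2.1; linarith) h.2.2
  refine BaseV.mk' hs hR ?_ ?_ near step ?_ ?_ ?_ good ?_
  · exact D.be_an.differentiableOn.mono fun x hx => hB x.1 x.2 hx
  · exact D.φe_an.continuousOn.mono fun x hx => hL x.1 x.2 hx
  · intro t w h1 h2
    have e : sh (-1) ((t + w / 2, w) : ℂ × ℂ) = (t, w) := by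
      unfold sh
      refine Prod.ext ?_ rfl
      simp only
      ring
    have h3 := D.inc_all (s := -1) (Or.inr rfl) (hB _ _ h2) (by rw [e]; exact hL _ _ h1)
    rw [e] at h3
    exact incS_of h3
  · intro t w h1 h2
    have e : sh 1 ((t - w / 2, w) : ℂ × ℂ) = (t, w) := by
      unfold sh
      refine Prod.ext ?_ rfl
      simp only
      ring
    have h3 := D.inc_all (s := 1) (Or.inl rfl) (hB _ _ h2) (by rw [e]; exact hL _ _ h1)
    rw [e] at h3
    exact incS_of h3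
  · intro t w h1 h2 h3
    have e1 : sh 1 ((t, w) : ℂ × ℂ) = (t + w / 2, w) := by
      unfold sh
      refine Prod.ext ?_ rfl
      simp only
      ring
    have e2 : sh (-1) ((t, w) : ℂ × ℂ) = (t - w / 2, w) := by
      unfold sh
      refine Prod.ext ?_ rfl
      simp only
      ring
    have h4 := D.refl_all (s := 1) (Or.inl rfl) (hB _ _ h1) (by rw [e1]; exact hL _ _ h3)
      (by rw [e2]; exact hL _ _ h2)
    rw [e1, e2] at h4
    exact h4
  · have hr := D.fam.r_pos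
    set ε : ℝ := min (min s b1) (min r ρ) / 2 with hε
    have k1 : min (min s b1) (min r ρ) ≤ s := (min_le_left _ _).trans (min_le_left _ _)
    have k2 : min (min s b1) (min r ρ) ≤ b1 := (min_le_left _ _).trans (min_le_right _ _)
    have k3 : min (min s b1) (min r ρ) ≤ r := (min_le_right _ _).trans (min_le_left _ _)
    have k4 : min (min s b1) (min r ρ) ≤ ρ := (min_le_right _ _).trans (min_le_right _ _)
    have k0 : 0 < min (min s b1) (min r ρ) := lt_min (lt_min hs hb1) (lt_min hr hρ)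
    have hε0 : 0 < ε := by positivity
    set w : ℂ := ε * Complex.I with hw
    have hwn : ‖w‖ = ε := by
      rw [hw, norm_mul, Complex.norm_I, mul_one, Complex.norm_real, Real.norm_of_nonneg hε0.le]
    have hwi : w.im = ε := by simp [hw]
    have hw2 : (w / 2).im = ε / 2 := by
      rw [hw]
      simp
    have hWd : w ∈ Wd s := by
      refine ⟨?_, ?_⟩
      · rw [hwn]; linarith
      · rw [hwn, hwi]; linarith
    have m0 : ((0 : ℂ), w) ∈ DL s b1 := ⟨hWd, by simp [hs], by simp [hb1]⟩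
    have m1 : (w / 2, w) ∈ DL s b1 := by
      refine ⟨hWd, ?_, ?_⟩
      · show -(4 * s) < (w / 2).im
        rw [hw2]; linarith
      · show (w / 2).im < b1
        rw [hw2]; linarith
    have m2 : (w / 2 + w / 2, w) ∈ DL s b1 := by
      refine ⟨hWd, ?_, ?_⟩
      · show -(4 * s) < (w / 2 + w / 2).im
        rw [Complex.add_im, hw2]; linarith
      · show (w / 2 + w / 2).im < b1
        rw [Complex.add_im, hw2]; linarith
    have e0 : w / 2 - w / 2 = 0 := sub_self _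
    refine ⟨w / 2, w, m1, by rw [e0]; exact m0, m2, ?_⟩
    rw [e0]
    have p0 : ((0 : ℂ), w) ∈ PD ρ r := ⟨by simpa using hρ, by simp only [hwn]; linarith⟩
    have p1 : ((0 : ℂ) + w / 2, w) ∈ PD ρ r := by
      refine ⟨?_, by simp only [hwn]; linarith⟩
      simp only [zero_add]
      rw [hw2, abs_of_pos (by positivity)]
      linarith
    have h1 := D.fam.δ_small 0 w p0 p1
    rw [zero_add] at h1
    have s0 : ((0 : ℂ), w) ∈ Slab (-(ρ / 2)) (ρ / 2) (ball (0 : ℂ) r) :=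
      ⟨by simp only [Complex.zero_im]; linarith, by simp only [Complex.zero_im]; linarith,
        by rw [mem_ball_zero_iff]; simp only [hwn]; linarith⟩
    have s1 : (w / 2, w) ∈ Slab (-(ρ / 2)) (ρ / 2) (ball (0 : ℂ) r) :=
      ⟨by simp only [hw2]; linarith, by simp only [hw2]; linarith,
        by rw [mem_ball_zero_iff]; simp only [hwn]; linarith⟩
    rw [D.be_slab s0, D.φe_slab s1]
    have hb : b (0, w) ∈ Str η := D.b_mem_Str p0
    rw [D.ψ_eq _ hb]
    linarith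

/-- **`BaseV` from the sheets**, Case B -/
theorem baseV_of (hD : Spine.DataS q η ρ r Bc b φ p m₀ θ H h0) (hs : 0 < s) (hsρ : 8 * s ≤ ρ)
    (hR : 0 < R) (hb1 : 0 < b1)
    (hSL : ∀ t w : ℂ, w ∈ Wd s → -(ρ / 2) < t.im → t.im < b1 → (t, w) ∈ SL φ p ρ r)
    (hSB : ∀ t w : ℂ, w ∈ Wd s → -(ρ / 2) < t.im → t.im < b1 → (t, w) ∈ SB b h0 ρ r)
    (near : ∀ t w : ℂ, (t, w) ∈ DL s b1 → ‖be b h0 ρ r (t, w) - t‖ ≤ R / 100)
    (step : ∀ t w : ℂ, (t, w) ∈ DL s b1 → (t - w, w) ∈ DL s b1 →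
      ‖be b h0 ρ r (t, w) - be b h0 ρ r (t - w, w) - w‖ ≤ ‖w‖ / 1000)
    (good : ∀ t w : ℂ, (t, w) ∈ DL s b1 → GoodOn θ K (Str h0) (be b h0 ρ r (t, w)) (10 * s)) :
    BaseV θ H K (Str h0) (φe φ p ρ r) (pe φ p ρ r) (be b h0 ρ r) s b1 R :=
  baseV_dat (dat_of hD) hs hsρ hR hb1 hSL hSB near step good

end Crest.Agent.R102.GrowBase203
end
end

-- ▼ part R102/ColKA_516
section

/-!
Row 102, T1-B, block GROWTH: **the good column on a strip** (helper516), part A:
* `PerS y G h`: `y'' = G y` on `|Im z| < h`, `y` holomorphic, 1-periodic, positive on the real line;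
* `mean`    : `Re G (x + i m) < 0` for all real `x` is impossible;
* `GA`, `GC`: bounds for `G` and `G + 1/S²` from Lemma Z.
-/

set_option autoImplicit false

open Set Filter Metric Complex Topology MeasureTheory
open scoped ComplexConjugate

noncomputable section

namespace Crest.Agent.R102.ColK516

/-- the strip -/
abbrev St (h : ℝ) : Set ℂ := {z | |z.im| < h}

theorem isOpen_St (h : ℝ) : IsOpen (St h) :=
  isOpen_lt (continuous_abs.comp continuous_im) continuous_const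

theorem isPreconnected_St (h : ℝ) : IsPreconnected (St h) := by
  have : St h = Complex.imLm ⁻¹' Ioo (-h) h := by
    ext z
    simp [St, abs_lt]
  rw [this]
  exact ((convex_Ioo (-h) h).linear_preimage Complex.imLm).isPreconnected

/-- Lemma Z (329), with constant `C` -/
def LemZ (C : ℝ) : Prop :=
  ∀ (q : ℂ → ℂ) (p : ℂ) (R a : ℝ), 0 < R → 1 ≤ a → AnalyticOnNhd ℂ q (closedBall p R) →
    q p ≠ 0 → (∀ z ∈ closedBall p R, ‖q z‖ ≤ Real.exp a * ‖q p‖) →
    ∃ ρ ∈ Icc (R / 4) (R / 2), ∀ z ∈ sphere p ρ, q z ≠ 0 ∧ ‖deriv q z / q z‖ ≤ C * a ^ 2 / R ∧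
      ‖deriv (deriv q) z / q z‖ ≤ C * a ^ 4 / R ^ 2

/-- the data -/
structure PerS (y G : ℂ → ℂ) (h : ℝ) : Prop where
  h0 : 0 < h
  hy : DifferentiableOn ℂ y (St h)
  hG : DifferentiableOn ℂ G (St h)
  ode : ∀ z ∈ St h, deriv (deriv y) z = G z * y z
  per : ∀ z ∈ St h, y (z + 1) = y z
  pos : ∀ x : ℝ, (y x).im = 0 ∧ 0 < (y x).re

variable {y G : ℂ → ℂ} {h : ℝ}

theorem PerS.real (P : PerS y G h) (x : ℝ) : (x : ℂ) ∈ St h := by
  simp [St, P.h0]

theorem PerS.dy (P : PerS y G h) {z : ℂ} (hz : z ∈ St h) : DifferentiableAt ℂ y z :=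
  P.hy.differentiableAt ((isOpen_St h).mem_nhds hz)

theorem PerS.dG (P : PerS y G h) {z : ℂ} (hz : z ∈ St h) : DifferentiableAt ℂ G z :=
  P.hG.differentiableAt ((isOpen_St h).mem_nhds hz)

theorem PerS.hy1 (P : PerS y G h) : DifferentiableOn ℂ (deriv y) (St h) :=
  P.hy.deriv (isOpen_St h)

theorem PerS.dy1 (P : PerS y G h) {z : ℂ} (hz : z ∈ St h) : DifferentiableAt ℂ (deriv y) z :=
  P.hy1.differentiableAt ((isOpen_St h).mem_nhds hz)

theorem PerS.y0 (P : PerS y G h) (x : ℝ) : y x ≠ 0 := by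
  intro h
  have := (P.pos x).2
  rw [h] at this
  simp at this

theorem St_add {z : ℂ} (hz : z ∈ St h) : z + 1 ∈ St h := by
  simpa [St] using hz

theorem PerS.per1 (P : PerS y G h) {z : ℂ} (hz : z ∈ St h) : deriv y (z + 1) = deriv y z := by
  have h1 : (fun w => y (w + 1)) =ᶠ[𝓝 z] y := by
    filter_upwards [(isOpen_St h).mem_nhds hz] with w hw
    exact P.per w hw
  rw [← h1.deriv_eq, deriv_comp_add_const]

theorem PerS.per2 (P : PerS y G h) {z : ℂ} (hz : z ∈ St h) :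
    deriv (deriv y) (z + 1) = deriv (deriv y) z := by
  have h1 : (fun w => deriv y (w + 1)) =ᶠ[𝓝 z] deriv y := by
    filter_upwards [(isOpen_St h).mem_nhds hz] with w hw
    exact P.per1 hw
  rw [← h1.deriv_eq, deriv_comp_add_const]

theorem PerS.perG (P : PerS y G h) {z : ℂ} (hz : z ∈ St h) : G (z + 1) = G z := by
  have hd : DifferentiableOn ℂ (fun z => G (z + 1)) (St h) := fun w hw =>
    ((P.dG (St_add hw)).comp w (differentiableAt_id.add_const 1)).differentiableWithinAt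
  have h1 : AnalyticOnNhd ℂ (fun z => G (z + 1)) (St h) := hd.analyticOnNhd (isOpen_St h)
  have h2 : AnalyticOnNhd ℂ G (St h) := P.hG.analyticOnNhd (isOpen_St h)
  have h0 : (0 : ℂ) ∈ St h := by simpa using P.real 0
  have hne : ∀ᶠ z in 𝓝 (0 : ℂ), y z ≠ 0 :=
    (P.dy h0).continuousAt.eventually_ne (by simpa using P.y0 0)
  have h3 : (fun z => G (z + 1)) =ᶠ[𝓝 (0 : ℂ)] G := by
    filter_upwards [hne, (isOpen_St h).mem_nhds h0] with z hz hz'
    have e1 := P.ode (z + 1) (St_add hz')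
    rw [P.per2 hz', P.ode z hz', P.per z hz'] at e1
    exact (mul_right_cancel₀ hz e1).symm
  exact h1.eqOn_of_preconnected_of_eventuallyEq h2 (isPreconnected_St h) h0 h3 hz

/-- the derivative is real on the real line -/
theorem PerS.real1 (P : PerS y G h) (x : ℝ) : (deriv y x).im = 0 := by
  have h1 : HasDerivAt (fun t : ℝ => y t) (deriv y x) x := (P.dy (P.real x)).hasDerivAt.comp_ofReal
  have h2 : HasDerivAt (fun t : ℝ => (y t).im) ((deriv y x).im) x := by
    exact (Complex.imCLM.hasFDerivAt.comp_hasDerivAt x h1)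
  have h3 : (fun t : ℝ => (y t).im) = fun _ => 0 := funext fun t => (P.pos t).1
  rw [h3] at h2
  exact (h2.unique (hasDerivAt_const x (0 : ℝ)))

/-- the mean of `G` over a period of the real line is `≥ 0` -/
theorem PerS.mean0 (P : PerS y G h) : 0 ≤ (∫ x in (0 : ℝ)..1, G x).re := by
  set u : ℝ → ℂ := fun x => deriv y x / y x with hu
  have hud : ∀ x : ℝ, HasDerivAt u (G x - (u x) ^ 2) x := by
    intro x
    have h1 : HasDerivAt (fun t : ℝ => deriv y t) (deriv (deriv y) x) x :=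
      (P.dy1 (P.real x)).hasDerivAt.comp_ofReal
    have h2 : HasDerivAt (fun t : ℝ => y t) (deriv y x) x :=
      (P.dy (P.real x)).hasDerivAt.comp_ofReal
    have h3 := h1.div h2 (P.y0 x)
    refine h3.congr_deriv ?_
    rw [P.ode x (P.real x), hu]
    have := P.y0 x
    field_simp
  have hGc : Continuous fun x : ℝ => G x := by
    refine continuous_iff_continuousAt.2 fun x => ?_
    have h1 : ContinuousAt G (x : ℂ) := (P.dG (P.real x)).continuousAt
    exact ContinuousAt.comp (f := fun x : ℝ => (x : ℂ)) h1 continuous_ofReal.continuousAt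
  have huc : Continuous u := continuous_iff_continuousAt.2 fun x => (hud x).continuousAt
  have hu2 : Continuous fun x : ℝ => u x ^ 2 := huc.pow 2
  have h4 : ∫ x in (0 : ℝ)..1, (G x - (u x) ^ 2) = u 1 - u 0 :=
    intervalIntegral.integral_eq_sub_of_hasDerivAt (fun x _ => hud x)
      ((hGc.sub hu2).intervalIntegrable 0 1)
  have h5 : u 1 = u 0 := by
    simp only [hu]
    have e1 := P.per (0 : ℝ) (P.real 0)
    have e2 := P.per1 (P.real 0)
    simp only [ofReal_zero, zero_add] at e1 e2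
    norm_num [e1, e2]
  rw [h5, sub_self, intervalIntegral.integral_sub (hGc.intervalIntegrable 0 1)
    (hu2.intervalIntegrable 0 1), sub_eq_zero] at h4
  rw [h4]
  have h6 : (∫ x in (0 : ℝ)..1, (u x) ^ 2).re = ∫ x in (0 : ℝ)..1, ((u x) ^ 2).re := by
    have := Complex.reCLM.intervalIntegral_comp_comm (μ := volume) (hu2.intervalIntegrable 0 1)
    simpa using this.symm
  rw [h6]
  refine intervalIntegral.integral_nonneg zero_le_one fun x _ => ?_
  have h7 : (u x).im = 0 := by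
    simp only [hu, Complex.div_im, P.real1 x, (P.pos x).1]
    simp
  have h8 : ((u x) ^ 2).re = (u x).re ^ 2 := by
    rw [sq, Complex.mul_re, h7]
    ring
  rw [h8]
  positivity

theorem St_line {m x : ℝ} (hm : 0 ≤ m) (hmh : m < h) : (x : ℂ) + m * I ∈ St h := by
  simp [St, abs_of_nonneg hm, hmh]

/-- the mean of `G` does not depend on the height -/
theorem PerS.mean_shift (P : PerS y G h) {m : ℝ} (hm : 0 ≤ m) (hmh : m < h) :
    ∫ x in (0 : ℝ)..1, G (x + m * I) = ∫ x in (0 : ℝ)..1, G x := by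
  have hsub : uIcc (0 : ℂ).re (1 + m * I).re ×ℂ uIcc (0 : ℂ).im (1 + m * I).im ⊆ St h := by
    intro z hz
    rw [Complex.mem_reProdIm] at hz
    have h2 := hz.2
    simp only [zero_im, add_im, one_im, mul_im, ofReal_re, I_im, mul_one, ofReal_im, I_re,
      mul_zero, add_zero, zero_add] at h2
    rw [uIcc_of_le hm] at h2
    simp only [St, mem_ofPred_eq]
    rw [abs_of_nonneg h2.1]
    exact h2.2.trans_lt hmh
  have hh := Complex.integral_boundary_rect_eq_zero_of_differentiableOn G 0 (1 + m * I)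
    (P.hG.mono hsub)
  simp only [zero_re, zero_im, add_re, one_re, mul_re, ofReal_re, I_re, mul_zero, ofReal_im, I_im,
    mul_one, sub_self, add_zero, add_im, one_im, mul_im, zero_add, ofReal_zero, zero_mul,
    ofReal_one] at hh
  have e : ∫ t in (0 : ℝ)..m, G (1 + t * I) = ∫ t in (0 : ℝ)..m, G (t * I) := by
    refine intervalIntegral.integral_congr fun t ht => ?_
    rw [uIcc_of_le hm] at ht
    have h1 : (t : ℂ) * I ∈ St h := by
      have := St_line (x := 0) ht.1 (ht.2.trans_lt hmh)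
      simpa using this
    show G (1 + t * I) = G (t * I)
    rw [add_comm, P.perG h1]
  rw [e] at hh
  have := sub_eq_zero.1 (by simpa using hh : (∫ x in (0 : ℝ)..1, G x) -
    ∫ x in (0 : ℝ)..1, G (x + m * I) = 0)
  exact this.symm

/-- **(D)** `Re G < 0` on a whole horizontal line is impossible -/
theorem PerS.mean (P : PerS y G h) {m : ℝ} (hm : 0 ≤ m) (hmh : m < h)
    (h : ∀ x : ℝ, (G (x + m * I)).re < 0) : False := by
  have h1 := P.mean0
  rw [← P.mean_shift hm hmh] at h1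
  have hc : Continuous fun x : ℝ => G (x + m * I) := by
    refine continuous_iff_continuousAt.2 fun x => ?_
    have h1 : ContinuousAt G ((x : ℂ) + m * I) := (P.dG (St_line hm hmh)).continuousAt
    have h2 : ContinuousAt (fun x : ℝ => (x : ℂ) + m * I) x := by fun_prop
    exact ContinuousAt.comp (f := fun x : ℝ => (x : ℂ) + m * I) h1 h2
  have h6 : (∫ x in (0 : ℝ)..1, G (x + m * I)).re = ∫ x in (0 : ℝ)..1, (G (x + m * I)).re := by
    have := Complex.reCLM.intervalIntegral_comp_comm (μ := volume) (hc.intervalIntegrable 0 1)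
    simpa using this.symm
  rw [h6] at h1
  have h2 : 0 < ∫ x in (0 : ℝ)..1, -(G (x + m * I)).re := by
    refine intervalIntegral.intervalIntegral_pos_of_pos ?_ (fun x => by linarith [h x]) one_pos
    exact ((Complex.continuous_re.comp hc).neg).intervalIntegrable 0 1
  rw [intervalIntegral.integral_neg] at h2
  linarith

theorem max_ball {f : ℂ → ℂ} {U : Set ℂ} (hf : DifferentiableOn ℂ f U) {p : ℂ} {ρ M : ℝ}
    (hρ : 0 < ρ) (hU : closedBall p ρ ⊆ U)
    (h : ∀ z ∈ sphere p ρ, ‖f z‖ ≤ M) : ∀ z ∈ closedBall p ρ, ‖f z‖ ≤ M := by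
  intro z hz
  refine Complex.norm_le_of_forall_mem_frontier_norm_le (U := ball p ρ) isBounded_ball
    (hf.diffContOnCl_ball hU) (fun w hw => ?_) ?_
  · rw [frontier_ball p hρ.ne'] at hw
    exact h w hw
  · rwa [closure_ball p hρ.ne']

/-- **(A)** polynomial bound for `G` where `log |y|` is not too small -/
theorem PerS.GA (P : PerS y G h) {C : ℝ} (hZ : LemZ C) {p : ℂ} {R a : ℝ} (hR : 0 < R)
    (ha : 1 ≤ a) (hp : y p ≠ 0) (hsub : closedBall p R ⊆ St h)
    (hb : ∀ z ∈ closedBall p R, ‖y z‖ ≤ Real.exp a * ‖y p‖) :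
    ∀ z ∈ closedBall p (R / 4), ‖G z‖ ≤ C * a ^ 4 / R ^ 2 := by
  have han : AnalyticOnNhd ℂ y (closedBall p R) := fun w hw =>
    P.hy.analyticAt ((isOpen_St h).mem_nhds (hsub hw))
  obtain ⟨ρ, hρ, h⟩ := hZ y p R a hR ha han hp hb
  have hρ0 : 0 < ρ := by
    have := hρ.1
    linarith
  have hρR : closedBall p ρ ⊆ St _ :=
    (closedBall_subset_closedBall (by linarith [hρ.2])).trans hsub
  intro z hz
  refine max_ball P.hG hρ0 hρR (fun w hw => ?_) z (closedBall_subset_closedBall hρ.1 hz)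
  obtain ⟨h1, -, h3⟩ := h w hw
  rwa [P.ode w (hρR (sphere_subset_closedBall hw)), mul_div_assoc, div_self h1, mul_one] at h3

/-- **(C)** `G + 1/S²` is small if `y e^{i (z - c) / S}` has small logarithmic derivative -/
theorem PerS.GC (P : PerS y G h) {C : ℝ} (hZ : LemZ C) {p c : ℂ} {R a S : ℝ} (hR : 0 < R)
    (ha : 1 ≤ a) (hS : 0 < S) (hp : y p ≠ 0) (hsub : closedBall p R ⊆ St h)
    (hb : ∀ z ∈ closedBall p R, ‖y z * Complex.exp (I * (z - c) / S)‖ ≤
      Real.exp a * ‖y p * Complex.exp (I * (p - c) / S)‖) :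
    ∀ z ∈ closedBall p (R / 4), ‖G z + 1 / (S : ℂ) ^ 2‖ ≤
      C * a ^ 4 / R ^ 2 + 2 / S * (C * a ^ 2 / R) := by
  set E : ℂ → ℂ := fun z => Complex.exp (I * (z - c) / S) with hE
  have hEd : ∀ z, HasDerivAt E (E z * (I / S)) z := by
    intro z
    have h1 : HasDerivAt (fun z : ℂ => I * (z - c) / S) (I * 1 / S) z :=
      (((hasDerivAt_id z).sub_const c).const_mul I).div_const _
    simpa [hE, mul_one] using h1.cexp
  have hE0 : ∀ z, E z ≠ 0 := fun z => Complex.exp_ne_zero _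
  set q : ℂ → ℂ := fun z => y z * E z with hq
  have hq1 : ∀ z ∈ St h, HasDerivAt q ((deriv y z + I / S * y z) * E z) z := by
    intro z hz
    refine ((P.dy hz).hasDerivAt.mul (hEd z)).congr_deriv ?_
    ring
  have hq1' : ∀ z ∈ St h, deriv q z = (deriv y z + I / S * y z) * E z := fun z hz =>
    (hq1 z hz).deriv
  have hq2 : ∀ z ∈ St h, deriv (deriv q) z =
      (G z * y z + 2 * (I / S) * deriv y z - 1 / (S : ℂ) ^ 2 * y z) * E z := by
    intro z hz
    have he : deriv q =ᶠ[𝓝 z] fun z => (deriv y z + I / (S : ℂ) * y z) * E z := by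
      filter_upwards [(isOpen_St h).mem_nhds hz] with w hw
      exact hq1' w hw
    rw [he.deriv_eq]
    have h1 : HasDerivAt (fun z => (deriv y z + I / (S : ℂ) * y z) * E z)
        ((deriv (deriv y) z + I / (S : ℂ) * deriv y z) * E z +
          (deriv y z + I / (S : ℂ) * y z) * (E z * (I / S))) z :=
      (((P.dy1 hz).hasDerivAt.add ((P.dy hz).hasDerivAt.const_mul (I / (S : ℂ)))).mul (hEd z))
    rw [h1.deriv, P.ode z hz]
    have hI : (I / (S : ℂ)) * (I / S) = - (1 / (S : ℂ) ^ 2) := by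
      rw [div_mul_div_comm, I_mul_I, ← sq]
      ring
    have e : (G z * y z + I / ↑S * deriv y z) * E z + (deriv y z + I / ↑S * y z) * (E z * (I / ↑S)) =
        (G z * y z + 2 * (I / S) * deriv y z + ((I / (S : ℂ)) * (I / S)) * y z) * E z := by ring
    rw [e, hI]
    ring
  have hqd : DifferentiableOn ℂ q (St h) := fun z hz =>
    (hq1 z hz).differentiableAt.differentiableWithinAt
  have han : AnalyticOnNhd ℂ q (closedBall p R) := fun w hw =>
    hqd.analyticAt ((isOpen_St h).mem_nhds (hsub hw))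
  obtain ⟨ρ, hρ, h'⟩ := hZ q p R a hR ha han (mul_ne_zero hp (hE0 p)) hb
  have hρ0 : 0 < ρ := by
    have := hρ.1
    linarith
  have hρR : closedBall p ρ ⊆ St h :=
    (closedBall_subset_closedBall (by linarith [hρ.2])).trans hsub
  intro z hz
  refine max_ball (f := fun z => G z + 1 / (S : ℂ) ^ 2) (P.hG.add_const _) hρ0 hρR
    (fun w hw => ?_) z (closedBall_subset_closedBall hρ.1 hz)
  obtain ⟨h1, h2, h3⟩ := h' w hw
  have hwS := hρR (sphere_subset_closedBall hw)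
  have hy0 : y w ≠ 0 := left_ne_zero_of_mul h1
  have hSc : (S : ℂ) ≠ 0 := by exact_mod_cast hS.ne'
  have e1 : G w + 1 / (S : ℂ) ^ 2 =
      deriv (deriv q) w / q w - 2 * (I / S) * (deriv q w / q w) := by
    rw [hq2 w hwS, hq1' w hwS, hq]
    have hEw := hE0 w
    have hI : (I : ℂ) ^ 2 = -1 := I_sq
    field_simp
    ring_nf
    rw [hI]
    ring
  rw [e1]
  refine (norm_sub_le _ _).trans (add_le_add h3 ?_)
  rw [norm_mul]
  have : ‖(2 : ℂ) * (I / S)‖ = 2 / S := by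
    rw [norm_mul, norm_div, Complex.norm_I, Complex.norm_of_nonneg hS.le]
    norm_num
    ring
  rw [this]
  gcongr

theorem PerS.conj (P : PerS y G h) {z : ℂ} (hz : z ∈ St h) : y (conj z) = conj (y z) := by
  have hc : ∀ w ∈ St h, conj w ∈ St h := fun w hw => by simpa [St] using hw
  have hd : DifferentiableOn ℂ (fun z => conj (y (conj z))) (St h) := by
    intro w hw
    have := (P.dy (hc w hw)).conj_conj
    simpa [Function.comp_def] using this.differentiableWithinAt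
  have h1 : AnalyticOnNhd ℂ (fun z => conj (y (conj z))) (St h) := hd.analyticOnNhd (isOpen_St h)
  have h2 : AnalyticOnNhd ℂ y (St h) := P.hy.analyticOnNhd (isOpen_St h)
  have h3 : ∃ᶠ w in 𝓝[≠] (0 : ℂ), conj (y (conj w)) = y w := by
    have hT : Tendsto (fun n : ℕ => (((1 : ℝ) / ((n : ℝ) + 1) : ℝ) : ℂ)) atTop (𝓝[≠] (0 : ℂ)) := by
      rw [tendsto_nhdsWithin_iff]
      constructor
      · have := (Complex.continuous_ofReal.tendsto 0).comp
          (tendsto_one_div_add_atTop_nhds_zero_nat (𝕜 := ℝ))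
        simpa [Function.comp_def] using this
      · filter_upwards with n
        have : (0 : ℝ) < 1 / ((n : ℝ) + 1) := by positivity
        simpa using (by exact_mod_cast this.ne' : (((1 : ℝ) / ((n : ℝ) + 1) : ℝ) : ℂ) ≠ 0)
    refine hT.frequently (Frequently.of_forall fun n => ?_)
    rw [conj_ofReal]
    exact conj_eq_iff_im.2 (P.pos _).1
  have h4 := h1.eqOn_of_preconnected_of_frequently_eq h2 (isPreconnected_St h)
    (by simpa using P.real 0) h3
  have h5 : conj (y (conj (conj z))) = y (conj z) := h4 (hc z hz)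
  rw [conj_conj] at h5
  exact h5.symm

/-- `y` cannot be small on a whole horizontal line -/
theorem PerS.strip (P : PerS y G h) {m M B : ℝ} (hm : 0 < m) (hmh : m < h)
    (hB : ∀ z : ℂ, |z.im| ≤ m → ‖y z‖ ≤ B)
    (hM : ∀ x : ℝ, ‖y (x + m * I)‖ ≤ M) : ‖y 0‖ ≤ M := by
  have hcl : closure (im ⁻¹' Ioo (-m) m) ⊆ St h := by
    refine (closure_minimal (t := im ⁻¹' Icc (-m) m) (preimage_mono Ioo_subset_Icc_self)
      (isClosed_Icc.preimage continuous_im)).trans ?_
    intro z hz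
    exact (abs_le.2 hz).trans_lt hmh
  refine PhragmenLindelof.horizontal_strip (a := -m) (b := m) (P.hy.mono hcl).diffContOnCl
    ?_ ?_ ?_ (z := 0) (by simp [hm.le]) (by simp [hm.le])
  · have h2 : 0 < m - -m := by linarith
    refine ⟨0, by positivity, 0, ?_⟩
    refine Asymptotics.IsBigO.of_bound B ?_
    rw [eventually_inf_principal]
    filter_upwards with w hw
    have : |w.im| ≤ m := by
      rw [mem_preimage, mem_Ioo] at hw
      exact abs_le.2 ⟨hw.1.le, hw.2.le⟩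
    simpa using hB w this
  · intro w hw
    have e : conj w = (w.re : ℂ) + m * Complex.I := by
      apply Complex.ext
      · simp
      · simp; linarith
    have hwS : w ∈ St h := by
      simp only [St, mem_ofPred_eq, hw, abs_neg, abs_of_pos hm]
      exact hmh
    have e2 := hM w.re
    rw [← e, P.conj hwS, RCLike.norm_conj] at e2
    exact e2
  · intro w hw
    have : w = (w.re : ℂ) + m * Complex.I := by
      rw [← hw]; exact (Complex.re_add_im w).symm
    rw [this]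
    exact hM w.re

end Crest.Agent.R102.ColK516
end
end

-- ▼ part R102/ColKB_516
section

/-!
Row 102, T1-B, block GROWTH: **the good column on a strip** (helper516), part B:
`PerS.column` (with numeric hypotheses) and `good_column` (for `L ≥ L0`).
-/

set_option autoImplicit false

open Set Filter Metric Complex Topology MeasureTheory
open scoped ComplexConjugate

noncomputable section

namespace Crest.Agent.R102.ColK516

variable {y G : ℂ → ℂ} {h : ℝ}

theorem norm_expI (z c : ℂ) (S : ℝ) :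
    ‖Complex.exp (I * (z - c) / S)‖ = Real.exp (-((z.im - c.im) / S)) := by
  rw [Complex.norm_exp]
  congr 1
  rw [Complex.div_ofReal_re]
  simp
  ring

section col

variable {C C1 κ A L m S : ℝ} {k : ℕ}

/-- the window bound in the form `|y z| ≤ C₁ √L exp (L + (Im z - m) / S)` -/
theorem F1 (n9 : A ^ 3 ≤ L / 2) (hS0 : 0 < S) (hm : S * L / 2 ≤ m)
    (hb : ∀ β : ℝ, |β| ≤ A ^ 3 → ∀ z : ℂ, |z.im| ≤ m + S * β →
      ‖y z‖ ≤ C1 * √L * Real.exp (L + β)) {z : ℂ} (hz : |z.im - m| ≤ A ^ 3 * S) :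
    ‖y z‖ ≤ C1 * √L * Real.exp (L + (z.im - m) / S) := by
  refine hb ((z.im - m) / S) ?_ z ?_
  · rw [abs_div, abs_of_pos hS0, div_le_iff₀ hS0]
    exact hz
  · have h1 : S * ((z.im - m) / S) = z.im - m := by field_simp
    rw [h1]
    have h2 := (abs_le.1 hz).1
    have h3 : A ^ 3 * S ≤ L / 2 * S := by gcongr
    have h4 : 0 ≤ z.im := by nlinarith
    rw [abs_of_nonneg h4]
    linarith

theorem im_sub_le {z c : ℂ} {r : ℝ} (h : z ∈ closedBall c r) : |z.im - c.im| ≤ r := by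
  rw [← Complex.sub_im]
  exact (Complex.abs_im_le_norm _).trans (by simpa [mem_closedBall, dist_eq_norm] using h)

/-- points near height `m` are in the strip -/
theorem mem_St (n9 : A ^ 3 ≤ L / 2) (hS0 : 0 < S) (hm : S * L / 2 ≤ m)
    (hh : m + S * A ^ 3 < h) {z : ℂ} (hz : |z.im - m| ≤ A ^ 3 * S) : z ∈ St h := by
  have h2 := abs_le.1 hz
  have h3 : A ^ 3 * S ≤ L / 2 * S := by gcongr
  have h4 : 0 ≤ z.im := by nlinarith
  simp only [St, mem_ofPred_eq]
  rw [abs_of_nonneg h4]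
  linarith

/-- **(A')** -/
theorem PerS.colA (P : PerS y G h) (hZ : LemZ C) (hC : 0 ≤ C) (hC1 : 0 < C1)
    (hA : 4 ≤ A) (hL : 1 ≤ L)
    (n3 : C1 * √L * Real.exp (L + 9 * A) ≤ Real.exp (2 * L))
    (n4 : 4 * C * L ^ (4 + 2 * k) ≤ κ ^ 2 * Real.exp (2 * L)) (n9 : A ^ 3 ≤ L / 2)
    (hS : 1 / L ^ k ≤ S) (hm : S * L / 2 ≤ m) (hh : m + S * A ^ 3 < h)
    (hb : ∀ β : ℝ, |β| ≤ A ^ 3 → ∀ z : ℂ, |z.im| ≤ m + S * β →
      ‖y z‖ ≤ C1 * √L * Real.exp (L + β)) {x : ℝ} {p : ℂ}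
    (hp : p ∈ closedBall ((x : ℂ) + m * I) (A * S)) (hyp : Real.exp (-(2 * L)) ≤ ‖y p‖) :
    ∀ z ∈ closedBall ((x : ℂ) + m * I) (A * S), ‖G z‖ ≤ κ ^ 2 * Real.exp (2 * L) := by
  have hS0 : 0 < S := lt_of_lt_of_le (by positivity) hS
  have hA3 : 9 * A ≤ A ^ 3 := by nlinarith [mul_nonneg (by linarith : (0:ℝ) ≤ A - 4) (by linarith : (0:ℝ) ≤ A + 4)]
  have hp1 : |p.im - m| ≤ A * S := by simpa using im_sub_le hp
  have h0 : ∀ z ∈ closedBall p (8 * (A * S)), |z.im - m| ≤ 9 * (A * S) := by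
    intro z hz
    have hz1 := im_sub_le hz
    have := abs_add_le (z.im - p.im) (p.im - m)
    rw [sub_add_sub_cancel] at this
    linarith
  have hsub : closedBall p (8 * (A * S)) ⊆ St h := fun z hz =>
    mem_St n9 hS0 hm hh ((h0 z hz).trans (by nlinarith))
  have h1 : ∀ z ∈ closedBall p (8 * (A * S)), ‖y z‖ ≤ Real.exp (4 * L) * ‖y p‖ := by
    intro z hz
    have hz2 := h0 z hz
    have hz3 : |z.im - m| ≤ A ^ 3 * S := hz2.trans (by nlinarith)
    have hz4 : (z.im - m) / S ≤ 9 * A := by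
      rw [div_le_iff₀ hS0]
      have := (abs_le.1 hz2).2
      linarith
    calc ‖y z‖ ≤ C1 * √L * Real.exp (L + (z.im - m) / S) := F1 n9 hS0 hm hb hz3
      _ ≤ C1 * √L * Real.exp (L + 9 * A) := by gcongr
      _ ≤ Real.exp (2 * L) := n3
      _ = Real.exp (4 * L) * Real.exp (-(2 * L)) := by rw [← Real.exp_add]; ring_nf
      _ ≤ Real.exp (4 * L) * ‖y p‖ := by gcongr
  have hyp0 : y p ≠ 0 := by
    intro h
    rw [h, norm_zero] at hyp
    exact absurd hyp (not_le.2 (Real.exp_pos _))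
  have h2 := P.GA hZ (R := 8 * (A * S)) (a := 4 * L) (by positivity) (by linarith) hyp0 hsub h1
  intro z hz
  have hz1 : z ∈ closedBall p (8 * (A * S) / 4) := by
    rw [mem_closedBall] at hz hp ⊢
    have := dist_triangle_right z p ((x : ℂ) + m * I)
    linarith
  refine (h2 z hz1).trans (le_trans ?_ n4)
  have hLS : 1 ≤ L ^ k * S := by
    rw [div_le_iff₀ (by positivity)] at hS
    linarith
  have hA2 : 1 ≤ A ^ 2 := by nlinarith
  rw [div_le_iff₀ (by positivity)]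
  have e : 4 * C * L ^ (4 + 2 * k) * (8 * (A * S)) ^ 2 =
      C * (4 * L) ^ 4 * (A ^ 2 * (L ^ k * S) ^ 2) := by
    rw [pow_add, pow_mul']
    ring
  rw [e]
  refine le_mul_of_one_le_right (by positivity) ?_
  exact one_le_mul_of_one_le_of_one_le hA2 (one_le_pow₀ hLS)

/-- **(C')** -/
theorem PerS.colC (P : PerS y G h) (hZ : LemZ C) (hC1 : 0 < C1) (hκ : 0 < κ)
    (hA : 4 ≤ A) (n7 : C1 * √L ≤ κ * Real.exp A)
    (n8 : 64 * C / A ^ 2 + 16 * C / A ≤ 1 / 2) (n9 : A ^ 3 ≤ L / 2)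
    (hS0 : 0 < S) (hm : S * L / 2 ≤ m) (hh : m + S * A ^ 3 < h)
    (hb : ∀ β : ℝ, |β| ≤ A ^ 3 → ∀ z : ℂ, |z.im| ≤ m + S * β →
      ‖y z‖ ≤ C1 * √L * Real.exp (L + β)) {x : ℝ} {p : ℂ}
    (hp : p ∈ closedBall ((x : ℂ) + m * I) (A * S)) (hyp : κ * Real.exp L < ‖y p‖) :
    (G ((x : ℂ) + m * I)).re < 0 := by
  set c : ℂ := (x : ℂ) + m * I with hc
  have hcim : c.im = m := by simp [hc]
  have hp1 : |p.im - m| ≤ A * S := by simpa [hcim] using im_sub_le hp
  have hA3 : A + A ^ 3 / 2 ≤ A ^ 3 := by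
    nlinarith [mul_nonneg (by linarith : (0:ℝ) ≤ A - 4) (by linarith : (0:ℝ) ≤ A + 4)]
  have h0 : ∀ z ∈ closedBall p (A ^ 3 * S / 2), |z.im - m| ≤ A ^ 3 * S := by
    intro z hz
    have hz1 := im_sub_le hz
    have hz2 : |z.im - m| ≤ A * S + A ^ 3 * S / 2 := by
      have := abs_add_le (z.im - p.im) (p.im - m)
      rw [sub_add_sub_cancel] at this
      linarith
    exact hz2.trans (by nlinarith)
  have hsub : closedBall p (A ^ 3 * S / 2) ⊆ St h := fun z hz => mem_St n9 hS0 hm hh (h0 z hz)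
  have h1 : ∀ z ∈ closedBall p (A ^ 3 * S / 2), ‖y z * Complex.exp (I * (z - c) / S)‖ ≤
      Real.exp (2 * A) * ‖y p * Complex.exp (I * (p - c) / S)‖ := by
    intro z hz
    have hz3 := h0 z hz
    have hp2 : (p.im - m) / S ≤ A := by
      rw [div_le_iff₀ hS0]
      exact (abs_le.1 hp1).2
    rw [norm_mul, norm_mul, norm_expI, norm_expI, hcim]
    calc ‖y z‖ * Real.exp (-((z.im - m) / S))
        ≤ C1 * √L * Real.exp (L + (z.im - m) / S) * Real.exp (-((z.im - m) / S)) := by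
          gcongr
          exact F1 n9 hS0 hm hb hz3
      _ = C1 * √L * Real.exp L := by
          rw [mul_assoc, ← Real.exp_add]
          ring_nf
      _ ≤ κ * Real.exp A * Real.exp L := by gcongr
      _ = Real.exp (2 * A) * (κ * Real.exp L * Real.exp (-A)) := by
          have : Real.exp A = Real.exp (2 * A) * Real.exp (-A) := by
            rw [← Real.exp_add]; ring_nf
          rw [this]
          ring
      _ ≤ Real.exp (2 * A) * (‖y p‖ * Real.exp (-((p.im - m) / S))) := by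
          gcongr
  have hyp0 : y p ≠ 0 := by
    intro h
    rw [h, norm_zero] at hyp
    exact absurd hyp (not_lt.2 (by positivity))
  have h2 := P.GC hZ (R := A ^ 3 * S / 2) (a := 2 * A) (c := c) (by positivity) (by linarith)
    hS0 hyp0 hsub h1
  have hcp : c ∈ closedBall p (A ^ 3 * S / 2 / 4) := by
    rw [mem_closedBall, dist_comm]
    rw [mem_closedBall] at hp
    refine hp.trans ?_
    have : A * 8 ≤ A ^ 3 := by
      nlinarith [mul_nonneg (by linarith : (0:ℝ) ≤ A - 4) (by linarith : (0:ℝ) ≤ A + 4)]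
    nlinarith
  have h3 := h2 c hcp
  have e : C * (2 * A) ^ 4 / (A ^ 3 * S / 2) ^ 2 + 2 / S * (C * (2 * A) ^ 2 / (A ^ 3 * S / 2)) =
      (64 * C / A ^ 2 + 16 * C / A) / S ^ 2 := by
    have : A ≠ 0 := by positivity
    field_simp
    ring
  rw [e] at h3
  have h4 : (64 * C / A ^ 2 + 16 * C / A) / S ^ 2 ≤ 1 / 2 / S ^ 2 := by gcongr
  have h5 : |(G c + 1 / (S : ℂ) ^ 2).re| ≤ 1 / 2 / S ^ 2 :=
    (Complex.abs_re_le_norm _).trans (h3.trans h4)
  have h6 : (G c + 1 / (S : ℂ) ^ 2).re = (G c).re + 1 / S ^ 2 := by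
    rw [add_re]
    congr 1
    have : (1 / (S : ℂ) ^ 2) = ((1 / S ^ 2 : ℝ) : ℂ) := by push_cast; rfl
    rw [this, ofReal_re]
  rw [h6] at h5
  have h7 := (abs_le.1 h5).2
  have h8 : 1 / 2 / S ^ 2 < 1 / S ^ 2 := by
    gcongr
    norm_num
  linarith

/-- **the good column**, with numeric hypotheses -/
theorem PerS.column (P : PerS y G h) (hZ : LemZ C) (hC : 0 ≤ C) (hC1 : 0 < C1) (hκ : 0 < κ)
    (hA : 4 ≤ A) (hL : 1 ≤ L)
    (n3 : C1 * √L * Real.exp (L + 9 * A) ≤ Real.exp (2 * L))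
    (n4 : 4 * C * L ^ (4 + 2 * k) ≤ κ ^ 2 * Real.exp (2 * L))
    (n5 : Real.exp (-(2 * L)) < κ * Real.exp L) (n6 : Real.exp (-(2 * L)) < ‖y 0‖)
    (n7 : C1 * √L ≤ κ * Real.exp A)
    (n8 : 64 * C / A ^ 2 + 16 * C / A ≤ 1 / 2) (n9 : A ^ 3 ≤ L / 2)
    (hS : 1 / L ^ k ≤ S) (hm : S * L / 2 ≤ m) (hh : m + S * A ^ 3 < h)
    (hb : ∀ β : ℝ, |β| ≤ A ^ 3 → ∀ z : ℂ, |z.im| ≤ m + S * β →
      ‖y z‖ ≤ C1 * √L * Real.exp (L + β)) :
    ∃ x : ℝ, ∀ z ∈ closedBall ((x : ℂ) + m * I) (A * S),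
      ‖y z‖ ≤ κ * Real.exp L ∧ ‖G z‖ ≤ κ ^ 2 * Real.exp (2 * L) := by
  have hS0 : 0 < S := lt_of_lt_of_le (by positivity) hS
  have hm0 : 0 < m := lt_of_lt_of_le (by positivity) hm
  have hA0 : 0 < A := by linarith
  have hmh : m < h := lt_of_le_of_lt (le_add_of_nonneg_right (by positivity)) hh
  have hAA : A ≤ A ^ 3 := by
    nlinarith [mul_nonneg (by linarith : (0:ℝ) ≤ A - 4) (by linarith : (0:ℝ) ≤ A + 4)]
  by_contra hcon
  push Not at hcon
  -- points over the discs are in the strip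
  have hin : ∀ (x : ℝ) (ζ : ℂ), ζ ∈ closedBall (0 : ℂ) (A * S) → (x : ℂ) + m * I + ζ ∈ St h := by
    intro x ζ hζ
    refine mem_St n9 hS0 hm hh ?_
    have h1 := im_sub_le hζ
    simp only [zero_im, sub_zero] at h1
    have : ((x : ℂ) + m * I + ζ).im - m = ζ.im := by simp
    rw [this]
    exact h1.trans (by gcongr)
  have hyc : ∀ (x : ℝ) (ζ : ℂ), ζ ∈ closedBall (0 : ℂ) (A * S) →
      ContinuousAt (fun q : ℝ × ℂ => ‖y ((q.1 : ℂ) + m * I + q.2)‖) (x, ζ) := by
    intro x ζ hζ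
    have h1 : ContinuousAt y ((fun q : ℝ × ℂ => (q.1 : ℂ) + m * I + q.2) (x, ζ)) :=
      (P.dy (hin x ζ hζ)).continuousAt
    exact (ContinuousAt.comp (f := fun q : ℝ × ℂ => (q.1 : ℂ) + m * I + q.2) h1
      (by fun_prop)).norm
  set V1 : Set ℝ := {x | ∃ ζ ∈ closedBall (0 : ℂ) (A * S), κ * Real.exp L < ‖y ((x : ℂ) + m * I + ζ)‖}
    with hV1
  set V2 : Set ℝ := {x | ∀ ζ ∈ closedBall (0 : ℂ) (A * S), ‖y ((x : ℂ) + m * I + ζ)‖ < Real.exp (-(2 * L))}
    with hV2
  have hball : ∀ (x : ℝ) (z : ℂ), z ∈ closedBall ((x : ℂ) + m * I) (A * S) →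
      z - ((x : ℂ) + m * I) ∈ closedBall (0 : ℂ) (A * S) := by
    intro x z hz
    simpa [mem_closedBall, dist_eq_norm] using hz
  have hball' : ∀ (x : ℝ) (ζ : ℂ), ζ ∈ closedBall (0 : ℂ) (A * S) →
      (x : ℂ) + m * I + ζ ∈ closedBall ((x : ℂ) + m * I) (A * S) := by
    intro x ζ hζ
    simpa [mem_closedBall, dist_eq_norm] using hζ
  have hcov : ∀ x, x ∈ V1 ∨ x ∈ V2 := by
    intro x
    obtain ⟨z, hz, hz2⟩ := hcon x
    by_cases h1 : ‖y z‖ ≤ κ * Real.exp L
    · right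
      have h2 := hz2 h1
      intro ζ hζ
      by_contra h3
      have := P.colA hZ hC hC1 hA hL n3 n4 n9 hS hm hh hb (hball' x ζ hζ) (not_lt.1 h3) z hz
      linarith
    · left
      refine ⟨z - ((x : ℂ) + m * I), hball x z hz, ?_⟩
      rw [add_sub_cancel]
      exact not_le.1 h1
  have hdisj : ∀ x, x ∈ V1 → x ∈ V2 → False := by
    rintro x ⟨ζ, hζ, h1⟩ h2
    have := h2 ζ hζ
    linarith
  have ho1 : IsOpen V1 := by
    rw [isOpen_iff_mem_nhds]
    rintro x ⟨ζ, hζ, h1⟩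
    have hcont : ContinuousAt (fun x : ℝ => ‖y ((x : ℂ) + m * I + ζ)‖) x :=
      ContinuousAt.comp (f := fun x : ℝ => (x, ζ))
        (g := fun q : ℝ × ℂ => ‖y ((q.1 : ℂ) + m * I + q.2)‖) (hyc x ζ hζ) (by fun_prop)
    filter_upwards [hcont.eventually (lt_mem_nhds h1)] with x' hx'
    exact ⟨ζ, hζ, hx'⟩
  have ho2 : IsOpen V2 := by
    rw [isOpen_iff_mem_nhds]
    intro x hx
    refine (isCompact_closedBall (0 : ℂ) (A * S)).eventually_forall_of_forall_eventually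
      (fun ζ hζ => ?_)
    exact (hyc x ζ hζ).eventually_lt continuousAt_const (hx ζ hζ)
  have hcl1 : IsClosed V1 := by
    have : V1 = V2ᶜ := by
      ext x
      constructor
      · intro h1 h2
        exact hdisj x h1 h2
      · intro h2
        exact (hcov x).resolve_right h2
    rw [this]
    exact ho2.isClosed_compl
  rcases V1.eq_empty_or_nonempty with h | h
  · have h1 : ∀ x : ℝ, ‖y (x + m * I)‖ ≤ Real.exp (-(2 * L)) := by
      intro x
      have h2 : x ∈ V2 := (hcov x).resolve_left (by rw [h]; exact notMem_empty x)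
      have := h2 0 (by simpa using (by positivity : (0:ℝ) ≤ A * S))
      rw [add_zero] at this
      exact this.le
    have := P.strip hm0 hmh (B := C1 * √L * Real.exp (L + 0)) (fun z hz => by
      refine hb 0 (by rw [abs_zero]; positivity) z ?_
      simpa using hz) h1
    linarith
  · have h1 : V1 = univ := IsClopen.eq_univ ⟨hcl1, ho1⟩ h
    refine P.mean hm0.le hmh fun x => ?_
    have hx : x ∈ V1 := by rw [h1]; trivial
    obtain ⟨ζ, hζ, h2⟩ := hx
    exact P.colC hZ hC1 hκ hA n7 n8 n9 hS0 hm hh hb (hball' x ζ hζ) h2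

end col

theorem LemZ.nonneg {C : ℝ} (hZ : LemZ C) : 0 ≤ C := by
  obtain ⟨ρ, hρ, h⟩ := hZ (fun _ => 1) 0 1 1 one_pos le_rfl
    (fun z _ => analyticAt_const) one_ne_zero (fun z _ => by simp)
  have hρ0 : 0 ≤ ρ := by linarith [hρ.1]
  have h1 := (h (ρ : ℂ) (by simp [abs_of_nonneg hρ0])).2.1
  have h2 := (norm_nonneg _).trans h1
  simpa using h2

/-- **THE GOOD COLUMN** on a strip -/
theorem good_column (P : PerS y G h) {C : ℝ} (hZ : LemZ C) (k : ℕ) {C' C1 κ : ℝ} (hC' : 1 ≤ C')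
    (hC1 : 0 < C1) (hκ : 0 < κ) :
    ∃ L0 : ℝ, ∀ L ≥ L0, ∀ m S : ℝ, 1 / L ^ k ≤ S → S * L / 2 ≤ m →
      m + S * (C' * Real.log L) ^ 3 < h →
      (∀ β : ℝ, |β| ≤ (C' * Real.log L) ^ 3 → ∀ z : ℂ, |z.im| ≤ m + S * β →
        ‖y z‖ ≤ C1 * √L * Real.exp (L + β)) →
      ∃ x : ℝ, ∀ z ∈ closedBall ((x : ℂ) + m * I) (C' * Real.log L * S),
        ‖y z‖ ≤ κ * Real.exp L ∧ ‖G z‖ ≤ κ ^ 2 * Real.exp (2 * L) := by
  have hC := hZ.nonneg
  have hC'0 : 0 < C' := by linarith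
  have hlog : Tendsto (fun L : ℝ => C' * Real.log L) atTop atTop :=
    Real.tendsto_log_atTop.const_mul_atTop hC'0
  have e1 : ∀ᶠ L : ℝ in atTop, 4 ≤ C' * Real.log L := hlog.eventually_ge_atTop 4
  have e2 : ∀ᶠ L : ℝ in atTop, 1 ≤ L := eventually_ge_atTop 1
  have e3a : ∀ᶠ L : ℝ in atTop, 9 * (C' * Real.log L) ≤ L / 2 := by
    have := Real.isLittleO_log_id_atTop.bound (c := 1 / (18 * C')) (by positivity)
    filter_upwards [this, e2] with L h1 h2
    rw [Real.norm_of_nonneg (Real.log_nonneg h2), id, Real.norm_of_nonneg (by linarith)] at h1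
    have h3 : 9 * C' * Real.log L ≤ 9 * C' * (1 / (18 * C') * L) := by gcongr
    have h4 : 9 * C' * (1 / (18 * C') * L) = L / 2 := by
      field_simp
      ring
    linarith
  have e3b : ∀ᶠ L : ℝ in atTop, C1 * √L ≤ Real.exp (L / 2) := by
    have h0 : Tendsto (fun L : ℝ => L ^ 1 * Real.exp (-L)) atTop (𝓝 0) :=
      Real.tendsto_pow_mul_exp_neg_atTop_nhds_zero 1
    have h00 : Tendsto (fun L : ℝ => (L / 2) ^ 1 * Real.exp (-(L / 2))) atTop (𝓝 0) :=
      h0.comp (tendsto_id.atTop_div_const (by norm_num))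
    have h1 := h00.eventually_lt_const (u := 1 / (2 * C1)) (by positivity)
    filter_upwards [h1, e2] with L h1 h2
    have h3 : √L ≤ L := Real.sqrt_le_iff.2 ⟨by linarith, by nlinarith⟩
    rw [pow_one, Real.exp_neg, ← div_eq_mul_inv, div_lt_div_iff₀ (Real.exp_pos _) (by positivity)]
      at h1
    have h4 : C1 * √L ≤ C1 * L := by gcongr
    nlinarith
  have e4 : ∀ᶠ L : ℝ in atTop, 4 * C * L ^ (4 + 2 * k) ≤ κ ^ 2 * Real.exp (2 * L) := by
    have h0 := (Real.tendsto_pow_mul_exp_neg_atTop_nhds_zero (4 + 2 * k)).const_mul (4 * C)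
    rw [mul_zero] at h0
    have h1 := h0.eventually_lt_const (u := κ ^ 2) (by positivity)
    filter_upwards [h1, e2] with L h1 h2
    rw [← mul_assoc, Real.exp_neg, ← div_eq_mul_inv, div_lt_iff₀ (Real.exp_pos _)] at h1
    refine h1.le.trans ?_
    gcongr
    linarith
  have h5 : Tendsto (fun L : ℝ => Real.exp (-(2 * L))) atTop (𝓝 0) :=
    Real.tendsto_exp_neg_atTop_nhds_zero.comp (tendsto_id.const_mul_atTop (by norm_num))
  have e5 : ∀ᶠ L : ℝ in atTop, Real.exp (-(2 * L)) < κ * Real.exp L := by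
    filter_upwards [h5.eventually_lt_const hκ, e2] with L h1 h2
    exact h1.trans_le (le_mul_of_one_le_right hκ.le (Real.one_le_exp (by linarith)))
  have e6 : ∀ᶠ L : ℝ in atTop, Real.exp (-(2 * L)) < ‖y 0‖ :=
    h5.eventually_lt_const (norm_pos_iff.2 (by simpa using P.y0 0))
  have e7 : ∀ᶠ L : ℝ in atTop, C1 * √L ≤ κ * Real.exp (C' * Real.log L) := by
    have h1 := (Real.tendsto_sqrt_atTop.const_mul_atTop hκ).eventually_ge_atTop C1
    filter_upwards [h1, e2] with L h1 h2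
    have h3 : 0 ≤ Real.log L := Real.log_nonneg h2
    have h4 : Real.exp (Real.log L) ≤ Real.exp (C' * Real.log L) :=
      Real.exp_le_exp.2 (le_mul_of_one_le_left h3 hC')
    rw [Real.exp_log (by linarith)] at h4
    calc C1 * √L ≤ κ * √L * √L := by gcongr
      _ = κ * L := by rw [mul_assoc, Real.mul_self_sqrt (by linarith)]
      _ ≤ _ := by gcongr
  have e8 : ∀ᶠ L : ℝ in atTop,
      64 * C / (C' * Real.log L) ^ 2 + 16 * C / (C' * Real.log L) ≤ 1 / 2 := by
    have h1 : Tendsto (fun A : ℝ => 64 * C / A ^ 2 + 16 * C / A) atTop (𝓝 0) := by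
      have h2 : Tendsto (fun A : ℝ => 64 * C / A ^ 2) atTop (𝓝 0) :=
        (tendsto_pow_atTop two_ne_zero).const_div_atTop _
      have h3 : Tendsto (fun A : ℝ => 16 * C / A) atTop (𝓝 0) :=
        tendsto_id.const_div_atTop _
      simpa using h2.add h3
    exact (hlog.eventually (h1.eventually_lt_const (u := 1 / 2) (by norm_num))).mono
      fun L h => h.le
  have e9 : ∀ᶠ L : ℝ in atTop, (C' * Real.log L) ^ 3 ≤ L / 2 := by
    have := (Real.isLittleO_pow_log_id_atTop (n := 3)).bound (c := 1 / (2 * C' ^ 3)) (by positivity)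
    filter_upwards [this, e2] with L h1 h2
    rw [Real.norm_of_nonneg (pow_nonneg (Real.log_nonneg h2) 3), id,
      Real.norm_of_nonneg (by linarith)] at h1
    have h3 : C' ^ 3 * Real.log L ^ 3 ≤ C' ^ 3 * (1 / (2 * C' ^ 3) * L) := by gcongr
    have h4 : C' ^ 3 * (1 / (2 * C' ^ 3) * L) = L / 2 := by
      field_simp
    rw [mul_pow]
    linarith
  have hev := e1.and (e2.and (e3a.and (e3b.and (e4.and (e5.and (e6.and (e7.and (e8.and e9))))))))
  obtain ⟨L0, hL0⟩ := eventually_atTop.1 hev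
  refine ⟨L0, fun L hL m S hS hm hh hb => ?_⟩
  obtain ⟨f1, f2, f3a, f3b, f4, f5, f6, f7, f8, f9⟩ := hL0 L hL
  refine P.column hZ hC hC1 hκ f1 f2 ?_ f4 f5 f6 f7 f8 f9 hS hm hh hb
  calc C1 * √L * Real.exp (L + 9 * (C' * Real.log L))
      ≤ Real.exp (L / 2) * Real.exp (L + L / 2) := by gcongr
    _ = Real.exp (2 * L) := by rw [← Real.exp_add]; ring_nf

end Crest.Agent.R102.ColK516
end
end

-- ▼ part R102/ColK_516
section

/-!
Row 102, T1-B, block GROWTH: **(COL_k)**, literal Prop of `GrowthDefs_314` (helper516).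
-/

set_option autoImplicit false

open Set Filter Metric Complex Topology

noncomputable section

namespace Crest.Agent.R102.ColK516

theorem lemZ_ex : ∃ C : ℝ, LemZ C := by
  obtain ⟨C, -, h⟩ := LemZ329.lemZ
  refine ⟨C, fun q p R a hR ha hq hp hb => ?_⟩
  obtain ⟨ρ, hρ, h2⟩ := h q p R a hR ha hq hp hb
  exact ⟨ρ, hρ, fun z hz => ⟨(h2 z hz).1, (h2 z hz).2.1, (h2 z hz).2.2.1⟩⟩

/-- **(COL_k)** -/
theorem colK : Growth.COLK := by
  intro k h0 y G _ hh0 hy hG ode per pos C' C1 κ hC' hC1 hκ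
  obtain ⟨C, hZ⟩ := lemZ_ex
  exact good_column (h := h0) ⟨hh0, hy, hG, ode, per, pos⟩ hZ k hC' hC1 hκ

end Crest.Agent.R102.ColK516
end
end

-- ▼ part R102/Growth_314

/-!
Row 102, **GROWTH** (helper314): the theorem `Growth.GrowthP`.
-/

set_option autoImplicit false

open Set Filter Topology Metric
open scoped ComplexConjugate

noncomputable section

namespace Crest.Agent.R102.GrowthT314

open Crest.Agent.R102.T5 Crest.Agent.R102.C0 Crest.Agent.R102.C1 Crest.Agent.R102.A929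
open Crest.Agent.R102.Sh982 Crest.Agent.R102.ColE350 Crest.Agent.R102.ColS350
open Crest.Agent.R102.CC350 Crest.Agent.R102.CCS350 Crest.Agent.R102.Growth
open Crest.Agent.R102.T1EJ712 Crest.Agent.R102.GrowTop314 Crest.Agent.R102.BaseST942
open Crest.Agent.R102.GrowAsm314
open Crest.Agent.R102.T1ETop314 (Om mem_SL)

variable {q : C(ℂ, ℂ)} {η ρ r Bc h0 : ℝ} {b φ p : ℂ × ℂ → ℂ} {m₀ θ H K G : ℂ → ℂ}

lemma app (hD : Spine.DataS q η ρ r Bc b φ p m₀ θ H h0) (hM : MirS q η h0 θ H K G)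
    (hnb : ∀ s : ℂ, s.im = h0 → ¬ Spine.RegB h0 θ H s) : APP φ p ρ r h0 θ G := by
  obtain ⟨C1, T1, h1, h2, -, h3⟩ := ShS628.APLS hD hM hnb
  exact ⟨C1, T1, by linarith, h2, fun τ hτ h _ hh0 hsub => (h3 τ hτ h hh0 hsub).1⟩

lemma bvp (hD : Spine.DataS q η ρ r Bc b φ p m₀ θ H h0) : BVP b φ p ρ r h0 θ H K :=
  fun _ _ _ h1 h2 h3 h4 h5 h6 h7 h8 h9 => GrowBase203.baseV_of hD h1 h2 h3 h4 h5 h6 h7 h8 h9

/-- the boxes of the heights -/
lemma boxes (hD : Spine.DataS q η ρ r Bc b φ p m₀ θ H h0)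
    (hnb : ∀ s : ℂ, s.im = h0 → ¬ Spine.RegB h0 θ H s) {τ : ℝ} (h1 : Real.exp (-τ) < r)
    (hτ : 0 ≤ τ) (h2 : Real.exp (-τ) < MM (Om φ p ρ r) τ) :
    APJ628.Box θ H (-(3 * ρ / 8)) (MM (Om φ p ρ r) τ) (Real.exp (-τ)) (φe φ p ρ r) (pe φ p ρ r)
      (be b h0 ρ r) ∧
    APJ628.BoxV (Str h0) (-(3 * ρ / 8)) (MM (Om φ p ρ r) τ) (Real.exp (-τ)) (be b h0 ρ r) := by
  have hρ := hD.fam.ρ_pos
  have he1 : Real.exp (-τ) ≤ 1 := by
    rw [Real.exp_le_one_iff]
    linarith
  refine ShS628.boxMS hD (ShS628.rule_vertexS hD hnb) (Real.exp_pos _) he1 h1.le h2 ?_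
  rintro ⟨t, w⟩ ⟨⟨b1, b2⟩, b3⟩
  rw [mem_ball_zero_iff] at b3
  exact (mem_SL (by linarith)).2 (mem_MMS hD h1 b3.le b2)

/-- the third order law on the real axis -/
lemma ap3_real (hD : Spine.DataS q η ρ r Bc b φ p m₀ θ H h0) (hM : MirS q η h0 θ H K G) :
    ∃ c₀ : ℂ, ∀ x : ℝ, iteratedDeriv 3 (fun w => APJ628.stp (be b h0 ρ r) (x, w)) 0 =
      2 / 5 * ((K x - 2 * deriv θ x ^ 2) + deriv θ x ^ 2 / 8) + c₀ := by
  have hρ := hD.fam.ρ_pos
  obtain ⟨c₀, hc₀⟩ := ShS628.ap3S hD hM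
  refine ⟨c₀, fun x => ?_⟩
  rw [(ShS628.stp_realS (dat_of hD) x).iteratedDeriv_eq 3, ← hM.G_eq]
  exact hc₀ x (by simpa using hρ)

/-- the base bound -/
lemma base_near (hD : Spine.DataS q η ρ r Bc b φ p m₀ θ H h0) :
    ∀ t w : ℂ, |t.im| ≤ min (ρ / 4) r → ‖w‖ < min (ρ / 4) r →
      ‖be b h0 ρ r (t, w) - t‖ ≤ |Bc| * ‖w‖ ^ 2 := by
  have hρ := hD.fam.ρ_pos
  intro t w h1 h2
  have h3 : |t.im| ≤ ρ / 4 := h1.trans (min_le_left _ _)
  have h4 : ‖w‖ < r := h2.trans_le (min_le_right _ _)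
  have h5 := abs_le.1 h3
  have h6 : (t, w) ∈ K669.Slab (-(ρ / 2)) (ρ / 2) (ball (0 : ℂ) r) :=
    ⟨by simp only; linarith, by simp only; linarith, by simpa using h4⟩
  rw [(dat_of hD).be_slab h6]
  refine (hD.fam.b_near (t, w) ⟨by simp only; linarith, h4⟩).trans ?_
  gcongr
  exact le_abs_self _

/-- **GROWTH** modulo the base region -/
theorem growthP_of (hBW : ∀ k : ℕ, 2 ≤ k → BWP k)
    (hBS : ∀ (q : C(ℂ, ℂ)) (η ρ r Bc : ℝ) (b φ p : ℂ × ℂ → ℂ) (m₀ θ H K G : ℂ → ℂ) (h0 : ℝ),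
      Spine.DataS q η ρ r Bc b φ p m₀ θ H h0 → MirS q η h0 θ H K G →
      (∀ s : ℂ, s.im = h0 → ¬ Spine.RegB h0 θ H s) → ∀ k : ℕ, 2 ≤ k →
      BSP k b φ p ρ r h0 θ K) : GrowthP := by
  intro q η ρ r Bc b φ p m₀ θ H K G h0 hD hM hnb hcount k
  exact growth_one ColK516.colK k hD hM hnb hcount (app hD hM hnb)
    (hBS q η ρ r Bc b φ p m₀ θ H K G h0 hD hM hnb (k + 2) (by omega)) (hBW (k + 2) (by omega))
    (bvp hD)

/-- the window of the base height -/
lemma bwp (k : ℕ) : BWP k := fun _ hKc =>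
  BaseK350.b1_windowK k (C' := 1000) (δ := 1 / 10) (by norm_num) (by norm_num) hKc

/-- the base region of the official sheet -/
theorem bsp (hD : Spine.DataS q η ρ r Bc b φ p m₀ θ H h0) (hM : MirS q η h0 θ H K G)
    (hnb : ∀ s : ℂ, s.im = h0 → ¬ Spine.RegB h0 θ H s) (k : ℕ) : BSP k b φ p ρ r h0 θ K := by
  have hr := hD.fam.r_pos
  have hρ := hD.fam.ρ_pos
  have hρη := hD.fam.ρ_lt
  have hle := hD.le
  have hh0 : 0 < h0 := (dat_of hD).h_pos
  have hLS : LS (ρ / 2) (ball 0 r) (Om φ p ρ r) := LS.of_LV (lvS hD)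
  have hF : ∀ r', 0 < r' → Fin' (Om φ p ρ r) r' := fun r' h => finS hD hnb h
  have htend : Tendsto (MM (Om φ p ρ r)) atTop (𝓝 h0) := MM_tendstoS hD hnb
  have hev1 : ∀ᶠ τ : ℝ in atTop, Real.exp (-τ) < min r (h0 / 2) :=
    (Real.tendsto_exp_neg_atTop_nhds_zero).eventually
      (gt_mem_nhds (lt_min (by positivity) (by positivity)))
  obtain ⟨B1, hB1⟩ := eventually_atTop.1 (hev1.and
    ((htend.eventually (lt_mem_nhds (show h0 / 2 < h0 by linarith))).and (eventually_ge_atTop 1)))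
  have q1 : ∀ τ, B1 ≤ τ → Real.exp (-τ) < r ∧ Real.exp (-τ) < h0 / 2 ∧
      h0 / 2 < MM (Om φ p ρ r) τ ∧ 1 ≤ τ := by
    intro τ hτ
    obtain ⟨a1, a2, a3⟩ := hB1 τ hτ
    exact ⟨a1.trans_le (min_le_left _ _), a1.trans_le (min_le_right _ _), a2, a3⟩
  obtain ⟨c₀, hc₀⟩ := ap3_real hD hM
  refine ⟨B1, fun T₀ hT₀ => ?_⟩
  have hbx : ∀ τ, T₀ ≤ τ → APJ628.Box θ H (-(3 * ρ / 8)) (MM (Om φ p ρ r) τ) (Real.exp (-τ))
      (φe φ p ρ r) (pe φ p ρ r) (be b h0 ρ r) ∧
      APJ628.BoxV (Str h0) (-(3 * ρ / 8)) (MM (Om φ p ρ r) τ) (Real.exp (-τ))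
      (be b h0 ρ r) := by
    intro τ hτ
    obtain ⟨a1, a2, a3, a4⟩ := q1 τ (hT₀.trans hτ)
    exact boxes hD hnb a1 (by linarith) (by linarith)
  obtain ⟨b1', b2', b3', b4'⟩ := q1 T₀ hT₀
  obtain ⟨Kc, hKc1, hKc⟩ := BaseK350.base_stK k (ShS628.lab_ofS hD hM) hM.ent hM.yper hM.yconj
    hM.Kconj hc₀ b4' (M := MM (Om φ p ρ r)) (fun x hx y _ hxy =>
      MM_mono hLS hF (by have := (q1 x (hT₀.trans hx)).1; linarith) hxy) (by linarith)
    (fun τ hτ => MM_le hD hnb (q1 τ (hT₀.trans hτ)).1) (by linarith)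
    (fun τ hτ => (hbx τ hτ).1) (fun τ hτ => (hbx τ hτ).2)
    (lt_min (by positivity) hr) (abs_nonneg _) (base_near hD)
  obtain ⟨T, hT⟩ := hKc Kc le_rfl
  exact ⟨Kc, hKc1, T, fun τ hτ S hS _ hrec => hT τ hτ S hS hrec⟩

/-- **GROWTH** (T1-B, Case B): if only countably many widths are good, the curve of the mirror grows
slower than `exp (C d^{-1/(k+1)})` for every `k`. -/
theorem growthP : GrowthP :=
  growthP_of (fun k _ => bwp k) fun _ _ _ _ _ _ _ _ _ _ _ _ _ _ hD hM hnb k _ => bsp hD hM hnb k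


end Crest.Agent.R102.GrowthT314
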