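import Mathlib
import Crest.Agent.R102.BEndB_802
import Crest.Agent.R102.HartR_948

-- ▼ part R102/EndE_348
section

/-!
Row 102, Case E (`h₀ = ∞`): the end of a label (helper348), analytic core.

* `ball_lemma`, `cov` : the image of a half plane under `B̂`, `B̂' = e^{αz} G(e^z)`, `α ≤ 0`,
  `G(0) ≠ 0`, contains balls of arbitrary radius;
* `const_of_balls` : entire, 1-periodic, symmetric, bounded (same bound) on balls of every radius
  `⟹` constant;
* `lim_pos` : `α = m/6 > 0` `⟹` `B̂` has a limit at the end.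
-/

set_option autoImplicit false

noncomputable section

open Filter Topology Set Metric
open scoped ComplexConjugate

namespace Crest.Agent.R102.EndE348

open Crest.Agent.R102.Rule982 Crest.Agent.R102.BEnd802

/-- quantitative inverse function theorem (surjectivity) -/
lemma ball_lemma {f f' : ℂ → ℂ} {ζ A : ℂ} {r : ℝ} (hr : 0 < r) (hA : A ≠ 0)
    (h : ∀ z ∈ closedBall ζ r, HasDerivAt f (f' z) z)
    (hb : ∀ z ∈ closedBall ζ r, ‖f' z - A‖ ≤ ‖A‖ / 2) :
    ball (f ζ) (‖A‖ * r / 4) ⊆ f '' closedBall ζ r := by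
  have hA' : 0 < ‖A‖ := norm_pos_iff.2 hA
  have hζ : ζ ∈ closedBall ζ r := mem_closedBall_self hr.le
  have h1 : ∀ z ∈ closedBall ζ r, ‖(f z - A * z) - (f ζ - A * ζ)‖ ≤ ‖A‖ / 2 * ‖z - ζ‖ := by
    intro z hz
    refine (convex_closedBall ζ r).norm_image_sub_le_of_norm_hasDerivWithin_le
      (f := fun z => f z - A * z) (f' := fun z => f' z - A) ?_ hb hζ hz
    intro x hx
    have h2 := (h x hx).sub ((hasDerivAt_id x).const_mul A)
    rw [mul_one] at h2
    exact h2.hasDerivWithinAt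
  have h2 : ∀ z ∈ sphere ζ r, ‖A‖ * r / 2 ≤ ‖f z - f ζ‖ := by
    intro z hz
    have h3 := h1 z (sphere_subset_closedBall hz)
    have hzr : ‖z - ζ‖ = r := by rw [← dist_eq_norm]; exact mem_sphere.1 hz
    rw [hzr] at h3
    have h4 : ‖A * (z - ζ)‖ = ‖A‖ * r := by rw [norm_mul, hzr]
    have h5 : A * (z - ζ) = (f z - f ζ) - ((f z - A * z) - (f ζ - A * ζ)) := by ring
    have h6 : ‖A * (z - ζ)‖ ≤ ‖f z - f ζ‖ + ‖(f z - A * z) - (f ζ - A * ζ)‖ := by
      rw [h5]; exact norm_sub_le _ _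
    rw [h4] at h6
    linarith
  have hdc : DiffContOnCl ℂ f (ball ζ r) := by
    refine ⟨fun z hz => (h z (ball_subset_closedBall hz)).differentiableAt.differentiableWithinAt, ?_⟩
    rw [closure_ball ζ hr.ne']
    exact fun z hz => (h z hz).continuousAt.continuousWithinAt
  have hne : f' ζ ≠ 0 := by
    intro h0
    have := hb ζ hζ
    rw [h0, zero_sub, norm_neg] at this
    linarith
  have h7 : ∃ᶠ z in 𝓝 ζ, f z ≠ f ζ := by
    have h8 : ∀ᶠ z in 𝓝[≠] ζ, f z ≠ f ζ := (h ζ hζ).eventually_ne hne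
    exact (h8.frequently).filter_mono nhdsWithin_le_nhds
  have h8 := hdc.ball_subset_image_closedBall hr h2 h7
  have h9 : ‖A‖ * r / 2 / 2 = ‖A‖ * r / 4 := by ring
  rwa [h9] at h8

lemma mem_HPl {a : ℝ} {z : ℂ} : z ∈ HPl a ↔ z.re < a := Iff.rfl

/-- the exponential estimate -/
lemma norm_exp_sub_one {w : ℂ} (hw : ‖w‖ ≤ 1) : ‖Complex.exp w - 1‖ ≤ 2 * ‖w‖ :=
  Complex.norm_exp_sub_one_le hw

/-- the image contains arbitrarily large balls -/
lemma cov {b α : ℝ} (hα : α ≤ 0) {G Bh : ℂ → ℂ} (hG : ContinuousAt G 0) (hG0 : G 0 ≠ 0)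
    (hB : ∀ z ∈ HPl b, HasDerivAt Bh (Complex.exp (α * z) * G (Complex.exp z)) z) (R : ℝ) :
    ∃ (ζ : ℂ) (r : ℝ), closedBall ζ r ⊆ HPl b ∧ ball (Bh ζ) R ⊆ Bh '' closedBall ζ r := by
  have hc : 0 < ‖G 0‖ := norm_pos_iff.2 hG0
  obtain ⟨δ, hδ, hδ'⟩ := Metric.continuousAt_iff.1 hG (‖G 0‖ / 8) (by positivity)
  set b1 : ℝ := min b (Real.log δ) with hb1
  have hGb : ∀ z : ℂ, z.re < b1 → ‖G (Complex.exp z) - G 0‖ ≤ ‖G 0‖ / 8 := by
    intro z hz
    have h1 : dist (Complex.exp z) 0 < δ := by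
      rw [dist_zero_right, Complex.norm_exp]
      exact (Real.lt_log_iff_exp_lt hδ).1 (lt_of_lt_of_le hz (min_le_right _ _))
    have h2 := hδ' h1
    rw [dist_eq_norm] at h2
    exact h2.le
  have hre : ∀ (ζ z : ℂ) (r : ℝ), z ∈ closedBall ζ r → z.re ≤ ζ.re + r := by
    intro ζ z r hz
    rw [mem_closedBall, dist_eq_norm] at hz
    have h1 := (le_abs_self _).trans ((Complex.abs_re_le_norm (z - ζ)).trans hz)
    rw [Complex.sub_re] at h1
    linarith
  rcases hα.lt_or_eq with hlt | h0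
  · -- `α < 0`
    set r : ℝ := 1 / (16 * (1 - α)) with hr
    have hr0 : 0 < r := by rw [hr]; apply one_div_pos.2; linarith
    have hr1 : r ≤ 1 := by
      rw [hr, div_le_one (by linarith)]; linarith
    have hαr : -α * r ≤ 1 / 16 := by
      rw [hr, mul_one_div, div_le_iff₀ (by linarith)]; linarith
    set R' : ℝ := max R 1 with hR'
    have hR'0 : 0 < R' := lt_of_lt_of_le one_pos (le_max_right _ _)
    set x : ℝ := min (b1 - 2) (Real.log (4 * R' / (‖G 0‖ * r)) / α) with hx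
    have hx1 : x ≤ b1 - 2 := min_le_left _ _
    have hx2 : Real.log (4 * R' / (‖G 0‖ * r)) ≤ α * x := by
      have h1 : x ≤ Real.log (4 * R' / (‖G 0‖ * r)) / α := min_le_right _ _
      rw [le_div_iff_of_neg hlt] at h1
      linarith
    have hq : 0 < 4 * R' / (‖G 0‖ * r) := by positivity
    have hx3 : 4 * R' / (‖G 0‖ * r) ≤ Real.exp (α * x) := by
      rw [← Real.exp_log hq]; exact Real.exp_le_exp.2 hx2
    have hreb : ∀ z ∈ closedBall (x : ℂ) r, z.re < b1 := by
      intro z hz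
      have := hre _ _ _ hz
      rw [Complex.ofReal_re] at this
      linarith
    have hsub : closedBall (x : ℂ) r ⊆ HPl b := fun z hz =>
      lt_of_lt_of_le (hreb z hz) (min_le_left _ _)
    set A : ℂ := Complex.exp (α * x) * G 0 with hA
    have hA0 : A ≠ 0 := mul_ne_zero (Complex.exp_ne_zero _) hG0
    have hAn : ‖A‖ = Real.exp (α * x) * ‖G 0‖ := by
      rw [hA, norm_mul, Complex.norm_exp]
      congr 2
      simp
    have hbound : ∀ z ∈ closedBall (x : ℂ) r,
        ‖Complex.exp (α * z) * G (Complex.exp z) - A‖ ≤ ‖A‖ / 2 := by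
      intro z hz
      have h1 := hGb z (hreb z hz)
      have h2 : ‖(α : ℂ) * (z - x)‖ ≤ 1 / 16 := by
        rw [norm_mul, Complex.norm_real, Real.norm_eq_abs, abs_of_neg hlt]
        rw [mem_closedBall, dist_eq_norm] at hz
        calc -α * ‖z - x‖ ≤ -α * r := by
              apply mul_le_mul_of_nonneg_left hz; linarith
          _ ≤ 1 / 16 := hαr
      have h3 : ‖Complex.exp ((α : ℂ) * (z - x)) - 1‖ ≤ 1 / 8 := by
        refine (norm_exp_sub_one (h2.trans (by norm_num))).trans ?_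
        linarith
      have h4 : Complex.exp (α * z) * G (Complex.exp z) - A = Complex.exp (α * x) *
          ((Complex.exp ((α : ℂ) * (z - x)) - 1) * G (Complex.exp z) +
            (G (Complex.exp z) - G 0)) := by
        have h5 : Complex.exp (α * z) = Complex.exp (α * x) * Complex.exp ((α : ℂ) * (z - x)) := by
          rw [← Complex.exp_add]; congr 1; ring
        rw [h5, hA]; ring
      have h6 : ‖G (Complex.exp z)‖ ≤ ‖G 0‖ * (9 / 8) := by
        calc ‖G (Complex.exp z)‖ = ‖G 0 + (G (Complex.exp z) - G 0)‖ := by ring_nf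
          _ ≤ ‖G 0‖ + ‖G (Complex.exp z) - G 0‖ := norm_add_le _ _
          _ ≤ _ := by linarith
      rw [h4, norm_mul, hAn]
      have h7 : ‖Complex.exp ((α : ℂ) * x)‖ = Real.exp (α * x) := by
        rw [Complex.norm_exp]; congr 1; simp
      rw [h7, mul_div_assoc]
      refine mul_le_mul_of_nonneg_left ?_ (Real.exp_pos _).le
      calc _ ≤ ‖(Complex.exp ((α : ℂ) * (z - x)) - 1) * G (Complex.exp z)‖ +
            ‖G (Complex.exp z) - G 0‖ := norm_add_le _ _
        _ ≤ 1 / 8 * (‖G 0‖ * (9 / 8)) + ‖G 0‖ / 8 := by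
            rw [norm_mul]
            gcongr
        _ ≤ ‖G 0‖ / 2 := by linarith
    refine ⟨x, r, hsub, ?_⟩
    refine Subset.trans (ball_subset_ball ?_) (ball_lemma hr0 hA0 (fun z hz => hB z (hsub hz)) hbound)
    rw [hAn]
    have h8 : 4 * R' ≤ Real.exp (α * x) * (‖G 0‖ * r) := by
      rwa [div_le_iff₀ (by positivity)] at hx3
    have h9 : R ≤ R' := le_max_left _ _
    linarith
  · -- `α = 0`
    subst h0
    set R' : ℝ := max R 1 with hR'
    have hR'0 : 0 < R' := lt_of_lt_of_le one_pos (le_max_right _ _)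
    set r : ℝ := 4 * R' / ‖G 0‖ with hr
    have hr0 : 0 < r := by positivity
    set x : ℝ := b1 - r - 1 with hx
    have hreb : ∀ z ∈ closedBall (x : ℂ) r, z.re < b1 := by
      intro z hz
      have := hre _ _ _ hz
      rw [Complex.ofReal_re, hx] at this
      linarith
    have hsub : closedBall (x : ℂ) r ⊆ HPl b := fun z hz =>
      lt_of_lt_of_le (hreb z hz) (min_le_left _ _)
    refine ⟨x, r, hsub, ?_⟩
    refine Subset.trans (ball_subset_ball ?_) (ball_lemma hr0 hG0 (fun z hz => hB z (hsub hz)) ?_)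
    · rw [hr]
      have h9 : R ≤ R' := le_max_left _ _
      have h10 : ‖G 0‖ * (4 * R' / ‖G 0‖) / 4 = R' := by field_simp
      rw [h10]; exact h9
    · intro z hz
      have h1 := hGb z (hreb z hz)
      have h2 : Complex.exp (((0 : ℝ) : ℂ) * z) * G (Complex.exp z) - G 0 =
          G (Complex.exp z) - G 0 := by simp
      rw [h2]
      linarith

/-- Liouville for periodic functions bounded on large balls -/
lemma const_of_balls {f : ℂ → ℂ} (hf : Differentiable ℂ f) (hper : ∀ z, f (z + 1) = f z)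
    (hconj : ∀ z, ‖f (conj z)‖ = ‖f z‖) {C : ℝ}
    (h : ∀ R : ℝ, ∃ z₀, ∀ z ∈ ball z₀ R, ‖f z‖ ≤ C) : ∀ z w, f z = f w := by
  have hpern : ∀ (n : ℕ) (z : ℂ), f (z + n) = f z := by
    intro n
    induction n with
    | zero => intro z; simp
    | succ n ih =>
      intro z
      rw [show z + ((n + 1 : ℕ) : ℂ) = (z + n) + 1 by push_cast; ring, hper, ih]
  have hperz : ∀ (n : ℤ) (z : ℂ), f (z + n) = f z := by
    intro n z
    rcases Int.eq_nat_or_neg n with ⟨k, rfl | rfl⟩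
    · exact_mod_cast hpern k z
    · have := hpern k (z + ((-(k : ℤ) : ℤ) : ℂ))
      rw [← this]
      congr 1
      push_cast
      ring
  have hall : ∀ z, ‖f z‖ ≤ C := by
    intro z
    obtain ⟨z₀, hz₀⟩ := h (2 * (|z.im| + 3))
    -- the height
    obtain ⟨y, hy1, hy2⟩ : ∃ y : ℝ, |z.im| + 1 ≤ |y| ∧ |y - z₀.im| ≤ |z.im| + 1 := by
      have h0 := abs_nonneg z.im
      rcases le_total 0 z₀.im with h1 | h1
      · refine ⟨z₀.im + (|z.im| + 1), ?_, ?_⟩
        · rw [abs_of_nonneg (show 0 ≤ z₀.im + (|z.im| + 1) by linarith)]; linarith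
        · rw [add_sub_cancel_left, abs_of_nonneg (show (0 : ℝ) ≤ |z.im| + 1 by linarith)]
      · refine ⟨z₀.im - (|z.im| + 1), ?_, ?_⟩
        · rw [abs_of_nonpos (show z₀.im - (|z.im| + 1) ≤ 0 by linarith)]; linarith
        · rw [show z₀.im - (|z.im| + 1) - z₀.im = -(|z.im| + 1) by ring, abs_neg,
            abs_of_nonneg (show (0 : ℝ) ≤ |z.im| + 1 by linarith)]
    have hline : ∀ x : ℂ, x.im = y → ‖f x‖ ≤ C := by
      intro x hx
      set n : ℤ := ⌊x.re - z₀.re⌋ with hn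
      have h1 := hperz (-n) x
      rw [← h1]
      refine hz₀ _ ?_
      rw [mem_ball, dist_eq_norm]
      have h2 : (x + ((-n : ℤ) : ℂ) - z₀).re = Int.fract (x.re - z₀.re) := by
        have h2' : (x + ((-n : ℤ) : ℂ) - z₀).re = (x.re - z₀.re) - n := by simp; ring
        rw [h2', hn]; rfl
      have h3 : (x + ((-n : ℤ) : ℂ) - z₀).im = y - z₀.im := by
        simp [hx]
      refine lt_of_le_of_lt (Complex.norm_le_abs_re_add_abs_im _) ?_
      rw [h2, h3, abs_of_nonneg (Int.fract_nonneg _)]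
      have h4 := Int.fract_lt_one (x.re - z₀.re)
      have h0 := abs_nonneg z.im
      linarith
    have hline' : ∀ x : ℂ, x.im = -y → ‖f x‖ ≤ C := by
      intro x hx
      rw [← hconj]
      exact hline _ (by simp [hx])
    have hpos : 0 < |y| := by have h0 := abs_nonneg z.im; linarith
    have hla : ∀ x : ℂ, x.im = -|y| → ‖f x‖ ≤ C := by
      intro x hx
      rcases abs_choice y with h1 | h1 <;> rw [h1] at hx
      · exact hline' x hx
      · exact hline x (by rw [hx, neg_neg])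
    have hlb : ∀ x : ℂ, x.im = |y| → ‖f x‖ ≤ C := by
      intro x hx
      rcases abs_choice y with h1 | h1 <;> rw [h1] at hx
      · exact hline x hx
      · exact hline' x hx
    have hK : IsCompact (Icc (0 : ℝ) 1 ×ℂ Icc (-|y|) |y|) := isCompact_Icc.reProdIm isCompact_Icc
    obtain ⟨K, hK'⟩ := hK.exists_bound_of_continuousOn hf.continuous.continuousOn
    have hbd : ∀ x : ℂ, x.im ∈ Ioo (-|y|) |y| → ‖f x‖ ≤ K := by
      intro x hx
      have h1 := hperz (-⌊x.re⌋) x
      rw [← h1]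
      refine hK' _ ?_
      rw [Complex.mem_reProdIm]
      have e1 : (x + ((-⌊x.re⌋ : ℤ) : ℂ)).re = Int.fract x.re := by
        simp [Int.fract, sub_eq_add_neg]
      have e2 : (x + ((-⌊x.re⌋ : ℤ) : ℂ)).im = x.im := by simp
      rw [e1, e2]
      exact ⟨⟨Int.fract_nonneg _, (Int.fract_lt_one _).le⟩, hx.1.le, hx.2.le⟩
    refine PhragmenLindelof.horizontal_strip (a := -|y|) (b := |y|) hf.diffContOnCl ?_ hla hlb ?_ ?_
    · refine ⟨0, by apply div_pos Real.pi_pos; linarith, 0, ?_⟩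
      refine Asymptotics.IsBigO.of_bound K ?_
      refine Filter.Eventually.filter_mono inf_le_right ?_
      rw [Filter.eventually_principal]
      intro x hx
      refine (hbd x hx).trans ?_
      simp
    · have := neg_abs_le z.im; linarith
    · have := le_abs_self z.im; linarith
  refine hf.apply_eq_apply_of_bounded ?_
  rw [Metric.isBounded_iff_subset_closedBall 0]
  refine ⟨C, ?_⟩
  rintro _ ⟨z, rfl⟩
  rw [mem_closedBall_zero_iff]
  exact hall z

/-- positive exponent: the label has a limit -/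
lemma lim_pos {b : ℝ} {m : ℕ} (hm : 0 < m) {G Bh : ℂ → ℂ} (hG : AnalyticAt ℂ G 0)
    (hB : ∀ z ∈ HPl b, HasDerivAt Bh (Complex.exp ((m : ℂ) / 6 * z) * G (Complex.exp z)) z) :
    ∃ d, Tendsto Bh LI (𝓝 d) := by
  obtain ⟨δ₀, hδ₀, hGa⟩ := Metric.eventually_nhds_iff_ball.1 hG.eventually_analyticAt
  set δ : ℝ := min δ₀ 1 with hδ
  have hδ0 : 0 < δ := lt_min hδ₀ one_pos
  have h6 : ∀ s ∈ ball (0 : ℂ) δ, s ^ 6 ∈ ball (0 : ℂ) δ₀ := by
    intro s hs
    rw [mem_ball_zero_iff] at hs ⊢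
    rw [norm_pow]
    have h1 : ‖s‖ < 1 := lt_of_lt_of_le hs (min_le_right _ _)
    calc ‖s‖ ^ 6 ≤ ‖s‖ ^ 1 := pow_le_pow_of_le_one (norm_nonneg _) h1.le (by norm_num)
      _ = ‖s‖ := pow_one _
      _ < δ₀ := lt_of_lt_of_le hs (min_le_left _ _)
  have hd : DifferentiableOn ℂ (fun s : ℂ => 6 * s ^ (m - 1) * G (s ^ 6)) (ball 0 δ) := by
    intro s hs
    have h1 : DifferentiableAt ℂ (fun s : ℂ => G (s ^ 6)) s :=
      DifferentiableAt.comp (g := G) (f := fun s : ℂ => s ^ 6) s (hGa _ (h6 s hs)).differentiableAt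
        (by fun_prop)
    have h2 : DifferentiableAt ℂ (fun s : ℂ => 6 * s ^ (m - 1)) s := by fun_prop
    exact (h2.mul h1).differentiableWithinAt
  obtain ⟨A, -, hA⟩ := (hd.isExactOn_ball).with_val_at 0 0
  set b1 : ℝ := min b (6 * Real.log δ) with hb1
  have hs : ∀ z ∈ HPl b1, Complex.exp (z / 6) ∈ ball (0 : ℂ) δ := by
    intro z hz
    rw [mem_ball_zero_iff, Complex.norm_exp]
    refine (Real.lt_log_iff_exp_lt hδ0).1 ?_
    have h1 : z.re < 6 * Real.log δ := lt_of_lt_of_le hz (min_le_right _ _)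
    have h2 : (z / 6).re = z.re / 6 := by simp
    rw [h2]; linarith
  have h7 : ∀ z ∈ HPl b1, HasDerivAt (fun z => Bh z - A (Complex.exp (z / 6))) 0 z := by
    intro z hz
    have h8 := hB z (show z.re < b from lt_of_lt_of_le hz (min_le_left _ _))
    have h9 : HasDerivAt (fun z : ℂ => Complex.exp (z / 6)) (Complex.exp (z / 6) * (1 / 6)) z :=
      ((hasDerivAt_id z).div_const 6).cexp
    have h10 := h8.sub ((hA _ (hs z hz)).comp z h9)
    refine h10.congr_deriv ?_
    have e1 : Complex.exp (z / 6) ^ 6 = Complex.exp z := by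
      rw [← Complex.exp_nat_mul]; congr 1; push_cast; ring
    have e2 : Complex.exp ((m : ℂ) / 6 * z) = Complex.exp (z / 6) ^ (m - 1) * Complex.exp (z / 6) := by
      rw [← pow_succ, Nat.sub_add_cancel hm, ← Complex.exp_nat_mul]; congr 1; ring
    rw [e1, e2]; ring
  have hz0 : ((b1 - 1 : ℝ) : ℂ) ∈ HPl b1 := by
    rw [mem_HPl, Complex.ofReal_re]; linarith
  refine ⟨A 0 + (Bh ((b1 - 1 : ℝ) : ℂ) - A (Complex.exp (((b1 - 1 : ℝ) : ℂ) / 6))), ?_⟩
  have h11 : Tendsto (fun z : ℂ => Complex.exp (z / 6)) LI (𝓝 0) := by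
    rw [tendsto_zero_iff_norm_tendsto_zero]
    have h12 : (fun z : ℂ => ‖Complex.exp (z / 6)‖) = (fun x : ℝ => Real.exp (x / 6)) ∘ Complex.re := by
      funext z
      simp [Complex.norm_exp]
    rw [h12]
    have h13 : Tendsto (fun x : ℝ => Real.exp (x / 6)) atBot (𝓝 0) :=
      Real.tendsto_exp_atBot.comp (tendsto_id.atBot_div_const (by norm_num))
    exact h13.comp tendsto_comap
  have hA0 : ContinuousAt A 0 := (hA 0 (mem_ball_self hδ0)).continuousAt
  have h12 : Tendsto (fun z => A (Complex.exp (z / 6)) + (Bh ((b1 - 1 : ℝ) : ℂ) -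
      A (Complex.exp (((b1 - 1 : ℝ) : ℂ) / 6)))) LI
      (𝓝 (A 0 + (Bh ((b1 - 1 : ℝ) : ℂ) - A (Complex.exp (((b1 - 1 : ℝ) : ℂ) / 6))))) :=
    (hA0.tendsto.comp h11).add_const _
  refine h12.congr' ?_
  have h13 : ∀ᶠ z in LI, z.re < b1 := eventually_LI.2 ⟨b1, fun z hz => hz⟩
  filter_upwards [h13] with z hz
  have h14 : Bh z - A (Complex.exp (z / 6)) = Bh ((b1 - 1 : ℝ) : ℂ) -
      A (Complex.exp (((b1 - 1 : ℝ) : ℂ) / 6)) :=
    const_of_deriv_zero h7 hz hz0
  rw [← h14]; ring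

end Crest.Agent.R102.EndE348
end
end

-- ▼ part R102/EndF_348
section

set_option autoImplicit false

noncomputable section

open Filter Topology Set Metric
open scoped ComplexConjugate

namespace Crest.Agent.R102.EndE348

open Crest.Agent.R102.Rule982 Crest.Agent.R102.BEnd802

/-- sixth root near a point -/
lemma root6 {F0 : ℂ → ℂ} {t₁ : ℂ} (hF : AnalyticAt ℂ F0 t₁) (h0 : F0 t₁ ≠ 0) :
    ∃ G0 : ℂ → ℂ, AnalyticAt ℂ G0 0 ∧ G0 0 ≠ 0 ∧ ∀ᶠ s in 𝓝 (0 : ℂ), G0 s ^ 6 = F0 (t₁ + s) := by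
  have h1 : AnalyticAt ℂ (fun s => F0 (t₁ + s) / F0 t₁) 0 := by
    have h2 : AnalyticAt ℂ (fun s : ℂ => t₁ + s) 0 := by fun_prop
    have h3 : AnalyticAt ℂ F0 ((fun s : ℂ => t₁ + s) 0) := by simpa using hF
    exact (AnalyticAt.comp (g := F0) (f := fun s : ℂ => t₁ + s) h3 h2).div analyticAt_const h0
  have h2 : F0 (t₁ + 0) / F0 t₁ ∈ Complex.slitPlane := by
    rw [add_zero, div_self h0]; exact Complex.one_mem_slitPlane
  have h3 : AnalyticAt ℂ (fun s => Complex.log (F0 (t₁ + s) / F0 t₁)) 0 := h1.clog h2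
  refine ⟨fun s => Complex.exp ((Complex.log (F0 (t₁ + s) / F0 t₁) + Complex.log (F0 t₁)) / 6),
    ?_, Complex.exp_ne_zero _, ?_⟩
  · exact ((h3.add analyticAt_const).div_const).cexp
  · have h4 : ∀ᶠ s in 𝓝 (0 : ℂ), F0 (t₁ + s) / F0 t₁ ≠ 0 :=
      h1.continuousAt.eventually_ne (Complex.slitPlane_ne_zero h2)
    filter_upwards [h4] with s hs
    rw [← Complex.exp_nat_mul]
    have h5 : ((6 : ℕ) : ℂ) * ((Complex.log (F0 (t₁ + s) / F0 t₁) + Complex.log (F0 t₁)) / 6) =
        Complex.log (F0 (t₁ + s) / F0 t₁) + Complex.log (F0 t₁) := by push_cast; ring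
    rw [h5, Complex.exp_add, Complex.exp_log hs, Complex.exp_log h0, div_mul_cancel₀ _ h0]

/-- two nonvanishing functions with the same sixth power -/
lemma const_ratio {b : ℝ} {g k : ℂ → ℂ} (hg : DifferentiableOn ℂ g (HPl b))
    (hk : DifferentiableOn ℂ k (HPl b)) (hg0 : ∀ z ∈ HPl b, g z ≠ 0) (hk0 : ∀ z ∈ HPl b, k z ≠ 0)
    (h6 : ∀ z ∈ HPl b, g z ^ 6 = k z ^ 6) : ∃ ω : ℂ, ω ≠ 0 ∧ ∀ z ∈ HPl b, g z = ω * k z := by
  have ho := isOpen_HPl b
  have hd : ∀ z ∈ HPl b, HasDerivAt (fun z => g z / k z) 0 z := by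
    intro z hz
    have h1 : HasDerivAt (fun z => g z / k z) (deriv (fun z => g z / k z) z) z :=
      ((hg.differentiableAt (ho.mem_nhds hz)).div (hk.differentiableAt (ho.mem_nhds hz))
        (hk0 z hz)).hasDerivAt
    have h2 := h1.pow 6
    have h4 : (fun z => g z / k z) ^ 6 =ᶠ[𝓝 z] fun _ => 1 := by
      filter_upwards [ho.mem_nhds hz] with w hw
      change (g w / k w) ^ 6 = 1
      rw [div_pow, h6 w hw, div_self (pow_ne_zero 6 (hk0 w hw))]
    have h5 := h2.unique ((hasDerivAt_const z (1 : ℂ)).congr_of_eventuallyEq h4)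
    have h7 : deriv (fun z => g z / k z) z = 0 := by
      rcases mul_eq_zero.1 h5 with h8 | h8
      · exfalso
        have h9 : (6 : ℂ) ≠ 0 := by norm_num
        have h10 : g z / k z ≠ 0 := div_ne_zero (hg0 z hz) (hk0 z hz)
        exact (mul_ne_zero (by exact_mod_cast h9) (pow_ne_zero _ h10)) h8
      · exact h8
    rwa [h7] at h1
  have hz₀ : ((b - 1 : ℝ) : ℂ) ∈ HPl b := by
    rw [mem_HPl, Complex.ofReal_re]; linarith
  refine ⟨g ((b - 1 : ℝ) : ℂ) / k ((b - 1 : ℝ) : ℂ), div_ne_zero (hg0 _ hz₀) (hk0 _ hz₀), ?_⟩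
  intro z hz
  have h1 : g z / k z = g ((b - 1 : ℝ) : ℂ) / k ((b - 1 : ℝ) : ℂ) := const_of_deriv_zero hd hz hz₀
  rw [← h1, div_mul_cancel₀ _ (hk0 z hz)]

/-- `exp z` is near `0` for `re z` very negative -/
lemma exp_near {p : ℂ → Prop} (h : ∀ᶠ s in 𝓝 (0 : ℂ), p s) :
    ∃ b : ℝ, ∀ z : ℂ, z.re < b → p (Complex.exp z) := by
  obtain ⟨δ, hδ, hδ'⟩ := Metric.eventually_nhds_iff_ball.1 h
  refine ⟨Real.log δ, fun z hz => hδ' _ ?_⟩
  rw [mem_ball_zero_iff, Complex.norm_exp]
  exact (Real.lt_log_iff_exp_lt hδ).1 hz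

/-- the form of the sixth root in the logarithmic coordinate -/
lemma root_form {a : ℝ} {F g : ℂ → ℂ} {t₁ : ℂ} (hF : MeromorphicAt F t₁)
    (hne : ∃ᶠ t in 𝓝[≠] t₁, F t ≠ 0) (hg : DifferentiableOn ℂ g (HPl a))
    (hg0 : ∀ z ∈ HPl a, g z ≠ 0)
    (hg6 : ∀ z ∈ HPl a, g z ^ 6 = F (t₁ + Complex.exp z) * Complex.exp (6 * z)) :
    ∃ (n : ℤ) (b : ℝ) (G : ℂ → ℂ), b ≤ a ∧ AnalyticAt ℂ G 0 ∧ G 0 ≠ 0 ∧
      ∀ z ∈ HPl b, g z = Complex.exp ((n : ℂ) / 6 * z) * G (Complex.exp z) := by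
  have hord : meromorphicOrderAt F t₁ ≠ ⊤ := by
    intro h2
    rw [meromorphicOrderAt_eq_top_iff] at h2
    exact hne (h2.mono fun x hx h => h hx)
  obtain ⟨F0, hF0, hF00, hFF⟩ := (meromorphicOrderAt_ne_top_iff hF).1 hord
  set k : ℤ := (meromorphicOrderAt F t₁).untop₀ with hk
  obtain ⟨G0, hG0, hG00, hG6⟩ := root6 hF0 hF00
  have e1 : ∀ᶠ s in 𝓝 (0 : ℂ), s ≠ 0 → F (t₁ + s) = s ^ k * F0 (t₁ + s) := by
    have h1 := eventually_nhdsWithin_iff.1 hFF
    have h2 : Tendsto (fun s : ℂ => t₁ + s) (𝓝 0) (𝓝 t₁) := by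
      have : ContinuousAt (fun s : ℂ => t₁ + s) 0 := by fun_prop
      simpa [ContinuousAt] using this
    filter_upwards [h2.eventually h1] with s hs hs0
    have h3 := hs (by simpa using hs0)
    rw [h3, add_sub_cancel_left, smul_eq_mul]
  obtain ⟨b, hb⟩ := exp_near (e1.and (hG6.and ((hG0.continuousAt.eventually_ne hG00).and
    hG0.eventually_analyticAt)))
  have hb' : ∀ z ∈ HPl (min a b), z.re < b := fun z hz => lt_of_lt_of_le hz (min_le_right _ _)
  have hba : ∀ z ∈ HPl (min a b), z ∈ HPl a := fun z hz =>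
    lt_of_lt_of_le (show z.re < min a b from hz) (min_le_left _ _)
  obtain ⟨ω, hω, hωg⟩ := const_ratio (b := min a b) (g := g)
    (k := fun z => Complex.exp (((k + 6 : ℤ) : ℂ) / 6 * z) * G0 (Complex.exp z))
    (hg.mono hba)
    (by
      intro z hz
      refine DifferentiableAt.differentiableWithinAt ?_
      have h1 : DifferentiableAt ℂ G0 (Complex.exp z) := (hb z (hb' z hz)).2.2.2.differentiableAt
      have h2 : DifferentiableAt ℂ (fun z => G0 (Complex.exp z)) z :=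
        DifferentiableAt.comp (g := G0) (f := Complex.exp) z h1 Complex.differentiableAt_exp
      exact DifferentiableAt.mul (by fun_prop) h2)
    (fun z hz => hg0 z (hba z hz))
    (fun z hz => mul_ne_zero (Complex.exp_ne_zero _) (hb z (hb' z hz)).2.2.1)
    (by
      intro z hz
      obtain ⟨h1, h2, h3, h4⟩ := hb z (hb' z hz)
      rw [hg6 z (hba z hz), mul_pow, h2, h1 (Complex.exp_ne_zero _)]
      have h5 : Complex.exp (((k + 6 : ℤ) : ℂ) / 6 * z) ^ 6 =
          Complex.exp z ^ k * Complex.exp (6 * z) := by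
        rw [← Complex.exp_nat_mul, ← Complex.exp_int_mul, ← Complex.exp_add]
        congr 1
        push_cast
        ring
      rw [h5]; ring)
  refine ⟨k + 6, min a b, fun s => ω * G0 s, min_le_left _ _, analyticAt_const.mul hG0,
    mul_ne_zero hω hG00, fun z hz => ?_⟩
  rw [hωg z hz]; ring

/-- the logarithmic derivative has at most a simple pole -/
lemma bdd_logder {M : ℂ → ℂ} {t₁ : ℂ} (hM : MeromorphicAt M t₁)
    (hne : ∃ᶠ t in 𝓝[≠] t₁, M t ≠ 0) :
    ∃ C : ℝ, ∀ᶠ t in 𝓝[≠] t₁, ‖(t - t₁) * (deriv M t / M t)‖ ≤ C := by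
  have hord : meromorphicOrderAt M t₁ ≠ ⊤ := by
    intro h2
    rw [meromorphicOrderAt_eq_top_iff] at h2
    exact hne (h2.mono fun x hx h => h hx)
  obtain ⟨F0, hF0, hF00, hFF⟩ := (meromorphicOrderAt_ne_top_iff hM).1 hord
  set k : ℤ := (meromorphicOrderAt M t₁).untop₀ with hk
  have h1 : ContinuousAt (fun t => k + (t - t₁) * (deriv F0 t / F0 t)) t₁ := by
    have h2 : ContinuousAt (deriv F0) t₁ := hF0.deriv.continuousAt
    have h3 : ContinuousAt F0 t₁ := hF0.continuousAt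
    exact continuousAt_const.add ((by fun_prop : ContinuousAt (fun t => t - t₁) t₁).mul
      (h2.div h3 hF00))
  have h2 : ∀ᶠ t in 𝓝 t₁, ‖k + (t - t₁) * (deriv F0 t / F0 t)‖ < ‖(k : ℂ)‖ + 1 := by
    have h3 := h1.norm
    refine h3.eventually (gt_mem_nhds ?_)
    simp
  refine ⟨‖(k : ℂ)‖ + 1, ?_⟩
  have h4 : ∀ᶠ t in 𝓝[≠] t₁, ∀ᶠ s in 𝓝 t, M s = (s - t₁) ^ k * F0 s := by
    have h5 := eventually_nhdsWithin_iff.1 hFF
    rw [eventually_nhdsWithin_iff]
    filter_upwards [h5.eventually_nhds] with t ht htn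
    filter_upwards [ht, isOpen_ne.mem_nhds htn] with s hs hsn
    rw [hs hsn, smul_eq_mul]
  filter_upwards [h4, h2.filter_mono nhdsWithin_le_nhds, self_mem_nhdsWithin,
    hF0.eventually_analyticAt.filter_mono nhdsWithin_le_nhds,
    (hF0.continuousAt.eventually_ne hF00).filter_mono nhdsWithin_le_nhds] with t h5 h6 h7 h8 h9
  have htn : t - t₁ ≠ 0 := sub_ne_zero.2 h7
  have hd : HasDerivAt M (k * (t - t₁) ^ (k - 1) * F0 t + (t - t₁) ^ k * deriv F0 t) t := by
    have h10 : HasDerivAt (fun s => (s - t₁) ^ k) (k * (t - t₁) ^ (k - 1)) t := by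
      have := (hasDerivAt_zpow k (t - t₁) (Or.inl htn)).comp_sub_const t t₁
      exact this
    have h11 := h10.mul h8.differentiableAt.hasDerivAt
    exact h11.congr_of_eventuallyEq h5
  have h12 : (t - t₁) * (deriv M t / M t) = k + (t - t₁) * (deriv F0 t / F0 t) := by
    rw [hd.deriv, h5.self_of_nhds]
    have h13 : (t - t₁) ^ k ≠ 0 := zpow_ne_zero k htn
    have h14 : (t - t₁) ^ k = (t - t₁) ^ (k - 1) * (t - t₁) := by
      rw [← zpow_add_one₀ htn]; congr 1; ring
    rw [← mul_div_assoc, div_eq_iff (mul_ne_zero h13 h9)]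
    field_simp
    rw [h14]
    ring
  rw [h12]
  exact h6.le

end Crest.Agent.R102.EndE348
end
end

-- ▼ part R102/EndG_348
section

/-!
Row 102, Case E (helper348): **the label extends across an isolated point** (entire data).
-/

set_option autoImplicit false

noncomputable section

open Filter Topology Set Metric
open scoped ComplexConjugate

namespace Crest.Agent.R102.EndE348

open Crest.Agent.R102.Rule982 Crest.Agent.R102.BEnd802

lemma mem_SgBig (z : ℂ) : z ∈ Sg (|z.im| + 1) := by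
  change |z.im| < |z.im| + 1
  exact lt_add_one _

lemma diff_derivE {f : ℂ → ℂ} (hf : Differentiable ℂ f) : Differentiable ℂ (deriv f) := by
  have h1 : DifferentiableOn ℂ (deriv f) univ := hf.differentiableOn.deriv isOpen_univ
  exact differentiableOn_univ.1 h1

lemma diff_ZnE {ψ H : ℂ → ℂ} (hψ : Differentiable ℂ ψ) (hH : Differentiable ℂ H) (s : ℂ) :
    Differentiable ℂ (Zn ψ H s) := by
  have h1 := diff_derivE hψ
  have h2 := diff_derivE hH
  unfold Zn
  exact (((hψ.const_mul (s * Complex.I)).cexp).const_mul (s * Complex.I)).mul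
    ((hH.mul h1).add (h2.const_mul (s * Complex.I)))

/-- **the label extends across an isolated point** (entire data) -/
theorem ext_ballE {ψ H : ℂ → ℂ} (hψ : Differentiable ℂ ψ) (hH : Differentiable ℂ H) {c : ℂ}
    (hc : c ≠ 0) (rel : ∀ h, Rel h ψ H c) (hperψ : ∀ z, deriv ψ (z + 1) = deriv ψ z)
    (hconj : ∀ z, ‖deriv ψ (conj z)‖ = ‖deriv ψ z‖) (hnc : ¬ ∀ z w, deriv ψ z = deriv ψ w)
    {t₁ : ℂ} {ε : ℝ} (hε : 0 < ε) {P Q : ℂ → ℂ} (hPm : MeromorphicAt P t₁)
    (hQm : MeromorphicAt Q t₁)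
    (hP : ∀ t ∈ ball t₁ ε, t ≠ t₁ → AnalyticAt ℂ P t)
    (hQ : ∀ t ∈ ball t₁ ε, t ≠ t₁ → AnalyticAt ℂ Q t)
    (hP' : ∀ t ∈ ball t₁ ε, t ≠ t₁ → deriv P t ≠ 0)
    (hQ' : ∀ t ∈ ball t₁ ε, t ≠ t₁ → deriv Q t ≠ 0)
    (hM' : ∀ t ∈ ball t₁ ε, t ≠ t₁ → deriv (fun t => deriv P t / deriv Q t) t ≠ 0)
    {t₀ : ℂ} (ht₀ : t₀ ∈ ball t₁ ε) (ht₀' : t₀ ≠ t₁) {B : ℂ → ℂ} (hB : AnalyticAt ℂ B t₀)
    (hrel : ∀ᶠ t in 𝓝 t₀, P t * deriv ψ (B t) = Zn ψ H 1 (B t) ∧
      Q t * deriv ψ (B t) = Zn ψ H (-1) (B t)) :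
    ∃ β : ℂ → ℂ, DifferentiableOn ℂ β (ball t₁ ε) ∧
      (∀ t ∈ ball t₁ ε, t ≠ t₁ → P t * deriv ψ (β t) = Zn ψ H 1 (β t) ∧
        Q t * deriv ψ (β t) = Zn ψ H (-1) (β t)) ∧ ∀ᶠ t in 𝓝 t₀, β t = B t := by
  have hψo : ∀ h, DifferentiableOn ℂ ψ (Sg h) := fun h => hψ.differentiableOn
  have hHo : ∀ h, DifferentiableOn ℂ H (Sg h) := fun h => hH.differentiableOn
  set Wp : Set ℂ := ball t₁ ε \ {t₁} with hWp
  have hWpo : IsOpen Wp := isOpen_ball.sdiff isClosed_singleton
  have hPW : AnalyticOnNhd ℂ P Wp := fun t ht => hP t ht.1 ht.2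
  have hQW : AnalyticOnNhd ℂ Q Wp := fun t ht => hQ t ht.1 ht.2
  have hPd : AnalyticOnNhd ℂ (deriv P) Wp := hPW.deriv
  have hQd : AnalyticOnNhd ℂ (deriv Q) Wp := hQW.deriv
  have hMa : AnalyticOnNhd ℂ (fun t => deriv P t / deriv Q t) Wp :=
    hPd.div hQd fun t ht => hQ' t ht.1 ht.2
  have hM0 : ∀ t ∈ Wp, deriv P t / deriv Q t ≠ 0 := fun t ht =>
    div_ne_zero (hP' t ht.1 ht.2) (hQ' t ht.1 ht.2)
  have hMd : AnalyticOnNhd ℂ (deriv fun t => deriv P t / deriv Q t) Wp := hMa.deriv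
  have hFa : AnalyticOnNhd ℂ (Ff c P Q) Wp := by
    unfold Ff
    exact ((hPd.mul hQd).mul ((hMd.div hMa hM0).pow 4)).div analyticOnNhd_const
      fun t _ => mul_ne_zero (by norm_num) (pow_ne_zero 2 hc)
  have hF0 : ∀ t ∈ Wp, Ff c P Q t ≠ 0 := by
    intro t ht
    unfold Ff
    exact div_ne_zero (mul_ne_zero (mul_ne_zero (hP' t ht.1 ht.2) (hQ' t ht.1 ht.2))
      (pow_ne_zero 4 (div_ne_zero (hM' t ht.1 ht.2) (hM0 t ht))))
      (mul_ne_zero (by norm_num) (pow_ne_zero 2 hc))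
  -- logarithmic coordinate
  set a : ℝ := Real.log ε with ha
  set E : ℂ → ℂ := fun z => t₁ + Complex.exp z with hE
  have hEd : ∀ z, HasDerivAt E (Complex.exp z) z := fun z =>
    (Complex.hasDerivAt_exp z).const_add t₁
  have hEW : MapsTo E (HPl a) Wp := by
    intro z hz
    refine ⟨?_, ?_⟩
    · rw [mem_ball, dist_eq_norm, hE]
      simp only [add_sub_cancel_left]
      rw [Complex.norm_exp]
      have : z.re < Real.log ε := hz
      exact (Real.lt_log_iff_exp_lt hε).1 this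
    · rw [mem_singleton_iff, hE]
      simp only [add_eq_left]
      exact Complex.exp_ne_zero z
  have ho := isOpen_HPl a
  have hEdo : DifferentiableOn ℂ E (HPl a) := fun z _ => (hEd z).differentiableAt.differentiableWithinAt
  have hmemE : ∀ t ∈ ball t₁ ε, t ≠ t₁ → ∃ z ∈ HPl a, E z = t := by
    intro t ht htn
    refine ⟨Complex.log (t - t₁), ?_, ?_⟩
    · change (Complex.log (t - t₁)).re < a
      rw [Complex.log_re, ha]
      rw [mem_ball, dist_eq_norm] at ht
      exact Real.log_lt_log (norm_pos_iff.2 (sub_ne_zero.2 htn)) ht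
    · simp only [hE]
      rw [Complex.exp_log (sub_ne_zero.2 htn)]
      ring
  obtain ⟨z₀, hz₀, hEz₀⟩ := hmemE t₀ ht₀ ht₀'
  have ht₀W : t₀ ∈ Wp := ⟨ht₀, ht₀'⟩
  -- the local identities at the start
  have hne : ∀ᶠ t in 𝓝 t₀, deriv P t ≠ 0 := by
    filter_upwards [hWpo.mem_nhds ht₀W] with t ht
    exact hP' t ht.1 ht.2
  have hBS : B t₀ ∈ Sg (|(B t₀).im| + 1) := mem_SgBig _
  have hid := (local_id (hψo _) (hHo _) hc (rel _) hB hBS hrel).and
    (local_id2 (hψo _) (hHo _) hc (rel _) hB hBS hrel hne)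
  have hEt : Tendsto E (𝓝 z₀) (𝓝 t₀) := by
    have := (hEd z₀).continuousAt.tendsto
    rwa [hEz₀] at this
  have hidz := hEt.eventually hid
  obtain ⟨⟨i1, i2, i3, i4, i5, i6, i7⟩, i8, i9, i10, i11⟩ := hidz.self_of_nhds
  rw [hEz₀] at i1 i2 i3 i4 i5 i6 i7 i8 i9 i10 i11
  -- the root
  set f : ℂ → ℂ := fun z => Ff c P Q (E z) * Complex.exp (6 * z) with hf
  have hfd : DifferentiableOn ℂ f (HPl a) := by
    refine (hFa.differentiableOn.comp hEdo hEW).mul ?_
    exact (Complex.differentiable_exp.comp (differentiable_id.const_mul 6)).differentiableOn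
  have hf0 : ∀ z ∈ HPl a, f z ≠ 0 := fun z hz =>
    mul_ne_zero (hF0 _ (hEW hz)) (Complex.exp_ne_zero _)
  have hexp6 : ∀ z, Complex.exp (6 * z) = Complex.exp z ^ 6 := fun z => by
    rw [← Complex.exp_nat_mul]; norm_num
  have hv0 : deriv B t₀ * Complex.exp z₀ ≠ 0 := mul_ne_zero i8 (Complex.exp_ne_zero _)
  obtain ⟨L, hLd, hL0, hL⟩ := exists_log hfd hf0 (v := 6 * Complex.log (deriv B t₀ * Complex.exp z₀))
    hz₀ (by
      rw [hexp6, Complex.exp_log hv0]
      simp only [hf]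
      rw [hEz₀, i10, hexp6]
      ring)
  set g : ℂ → ℂ := fun z => Complex.exp (L z / 6) with hg
  have hgd : DifferentiableOn ℂ g (HPl a) := (hLd.div_const 6).cexp
  have hg0 : ∀ z ∈ HPl a, g z ≠ 0 := fun z _ => Complex.exp_ne_zero _
  have hg6 : ∀ z ∈ HPl a, g z ^ 6 = f z := by
    intro z hz
    simp only [hg]
    rw [← Complex.exp_nat_mul, ← hL z hz]
    congr 1
    push_cast
    ring
  have hgz₀ : g z₀ = deriv B t₀ * Complex.exp z₀ := by
    simp only [hg]
    rw [hL0, mul_div_cancel_left₀ _ (by norm_num : (6 : ℂ) ≠ 0), Complex.exp_log hv0]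
  have hPE : DifferentiableOn ℂ (fun z => P (E z)) (HPl a) :=
    hPW.differentiableOn.comp hEdo hEW
  have hQE : DifferentiableOn ℂ (fun z => Q (E z)) (HPl a) :=
    hQW.differentiableOn.comp hEdo hEW
  -- the primitive
  obtain ⟨Bh, hBh0, hBh⟩ := exists_prim hgd hz₀ (B t₀)
  have hBhd : DifferentiableOn ℂ Bh (HPl a) := fun z hz =>
    (hBh z hz).differentiableAt.differentiableWithinAt
  have hBEc : ContinuousAt (fun z => B (E z)) z₀ := by
    have h1 : ContinuousAt B (E z₀) := by rw [hEz₀]; exact hB.continuousAt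
    exact ContinuousAt.comp h1 (hEd z₀).continuousAt
  -- `g = (B ∘ E)'` near `z₀`
  have hgE : ∀ᶠ z in 𝓝 z₀, g z = deriv B (E z) * Complex.exp z := by
    refine eventually_eq_of_pow (hgd.differentiableAt (ho.mem_nhds hz₀)).continuousAt ?_ ?_ ?_ ?_
    · have h1 : ContinuousAt (deriv B) (E z₀) := by rw [hEz₀]; exact hB.deriv.continuousAt
      exact (ContinuousAt.comp h1 (hEd z₀).continuousAt).mul Complex.continuous_exp.continuousAt
    · rw [hgz₀, hEz₀]
    · rw [hEz₀]; exact hv0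
    · filter_upwards [ho.mem_nhds hz₀, hidz] with z hz hz'
      rw [hg6 z hz]
      simp only [hf]
      rw [hz'.2.2.2.1, hexp6, mul_pow]
  have hBhE : ∀ᶠ z in 𝓝 z₀, Bh z = B (E z) := by
    obtain ⟨r, hr, hrr⟩ := Metric.eventually_nhds_iff_ball.1
      ((hgE.and hidz).and (ho.mem_nhds hz₀))
    filter_upwards [ball_mem_nhds z₀ hr] with z hz
    have h3 : ∀ z ∈ ball z₀ r, HasDerivAt (fun z => Bh z - B (E z)) 0 z := by
      intro z hz
      obtain ⟨⟨h4, h5⟩, h6⟩ := hrr z hz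
      have h7 := (hBh z h6).sub ((h5.1.2.1.differentiableAt.hasDerivAt).comp z (hEd z))
      rw [h4, sub_self] at h7
      exact h7
    have h5 : Bh z - B (E z) = Bh z₀ - B (E z₀) :=
      const_of_deriv_zero' isOpen_ball (convex_ball z₀ r) h3 hz (mem_ball_self hr)
    rw [hBh0, hEz₀, sub_self] at h5
    exact sub_eq_zero.1 h5
  -- the relations
  have hNd : ∀ s, DifferentiableOn ℂ (fun z => Zn ψ H s (Bh z)) (HPl a) := fun s =>
    (diff_ZnE hψ hH s).comp_differentiableOn hBhd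
  have hψB : DifferentiableOn ℂ (fun z => deriv ψ (Bh z)) (HPl a) :=
    (diff_derivE hψ).comp_differentiableOn hBhd
  have hR1 : ∀ z ∈ HPl a, P (E z) * deriv ψ (Bh z) = Zn ψ H 1 (Bh z) := by
    have h1 := AnalyticOnNhd.eqOn_of_preconnected_of_eventuallyEq (𝕜 := ℂ)
      (f := fun z => P (E z) * deriv ψ (Bh z)) (g := fun z => Zn ψ H 1 (Bh z)) (U := HPl a)
      ((hPE.mul hψB).analyticOnNhd ho) ((hNd 1).analyticOnNhd ho) (convex_HPl a).isPreconnected hz₀
      (by
        filter_upwards [hBhE, hEt.eventually hrel] with z h1 h2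
        rw [h1]
        exact h2.1)
    exact h1
  have hR2 : ∀ z ∈ HPl a, Q (E z) * deriv ψ (Bh z) = Zn ψ H (-1) (Bh z) := by
    have h1 := AnalyticOnNhd.eqOn_of_preconnected_of_eventuallyEq (𝕜 := ℂ)
      (f := fun z => Q (E z) * deriv ψ (Bh z)) (g := fun z => Zn ψ H (-1) (Bh z)) (U := HPl a)
      ((hQE.mul hψB).analyticOnNhd ho) ((hNd (-1)).analyticOnNhd ho)
      (convex_HPl a).isPreconnected hz₀
      (by
        filter_upwards [hBhE, hEt.eventually hrel] with z h1 h2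
        rw [h1]
        exact h2.2)
    exact h1
  -- periodicity
  have hEper : ∀ z, E (z + (2 * Real.pi : ℝ) * Complex.I) = E z := by
    intro z
    simp only [hE]
    congr 1
    have := Complex.exp_periodic z
    push_cast
    exact this
  -- the slope
  have hMB : ∀ z ∈ HPl a, deriv P (E z) / deriv Q (E z) =
      Complex.exp (2 * Complex.I * ψ (Bh z)) := by
    have h1 := AnalyticOnNhd.eqOn_of_preconnected_of_eventuallyEq (𝕜 := ℂ)
      (f := fun z => deriv P (E z) / deriv Q (E z))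
      (g := fun z => Complex.exp (2 * Complex.I * ψ (Bh z))) (U := HPl a)
      ((hMa.differentiableOn.comp hEdo hEW).analyticOnNhd ho)
      ((((hψ.comp_differentiableOn hBhd).const_mul _).cexp).analyticOnNhd ho)
      (convex_HPl a).isPreconnected hz₀
      (by
        filter_upwards [hBhE, hidz] with z h1 h2
        rw [h1]
        exact h2.2.2.1)
    exact h1
  have hslope : ∀ z ∈ HPl a, 2 * Complex.I * (deriv ψ (Bh z) * g z) =
      deriv (fun t => deriv P t / deriv Q t) (E z) / (deriv P (E z) / deriv Q (E z)) *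
        Complex.exp z := by
    intro z hz
    have h1 : HasDerivAt (fun z => deriv P (E z) / deriv Q (E z))
        (deriv (fun t => deriv P t / deriv Q t) (E z) * Complex.exp z) z :=
      ((hMa (E z) (hEW hz)).differentiableAt.hasDerivAt).comp z (hEd z)
    have h2 : HasDerivAt (fun z => Complex.exp (2 * Complex.I * ψ (Bh z)))
        (Complex.exp (2 * Complex.I * ψ (Bh z)) * (2 * Complex.I * (deriv ψ (Bh z) * g z))) z :=
      ((((hψ (Bh z)).hasDerivAt).comp z (hBh z hz)).const_mul (2 * Complex.I)).cexp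
    have h3 : (fun z => deriv P (E z) / deriv Q (E z)) =ᶠ[𝓝 z]
        fun z => Complex.exp (2 * Complex.I * ψ (Bh z)) := by
      filter_upwards [ho.mem_nhds hz] with w hw
      exact hMB w hw
    have h4 := h1.unique (h2.congr_of_eventuallyEq h3)
    rw [← hMB z hz] at h4
    rw [div_mul_eq_mul_div, eq_div_iff (hM0 _ (hEW hz)), h4]
    ring
  -- the exponent
  have hFm : MeromorphicAt (Ff c P Q) t₁ := by
    have m1 := hPm.deriv
    have m2 := hQm.deriv
    have m3 : MeromorphicAt (fun t => deriv P t / deriv Q t) t₁ := m1.div m2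
    have m4 := m3.deriv
    have m5 : MeromorphicAt (fun t => deriv P t * deriv Q t *
        (deriv (fun t => deriv P t / deriv Q t) t / (deriv P t / deriv Q t)) ^ 4 / (16 * c ^ 2))
        t₁ := ((m1.mul m2).mul ((m4.div m3).pow 4)).div (MeromorphicAt.const _ _)
    exact m5
  have hWev : ∀ᶠ t in 𝓝[≠] t₁, t ∈ Wp := by
    rw [eventually_nhdsWithin_iff]
    filter_upwards [ball_mem_nhds t₁ hε] with t ht htn
    exact ⟨ht, htn⟩
  obtain ⟨n, b₀, G, hb₀, hG, hG0, hgG⟩ := root_form hFm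
    (hWev.mono fun t ht => hF0 t ht).frequently hgd hg0 hg6
  have hba₀ : ∀ z ∈ HPl b₀, z ∈ HPl a := fun z hz => lt_of_lt_of_le (show z.re < b₀ from hz) hb₀
  have hn : 0 < n := by
    by_contra hn
    push Not at hn
    obtain ⟨C, hC⟩ := bdd_logder (M := fun t => deriv P t / deriv Q t) (hPm.deriv.div hQm.deriv)
      (hWev.mono fun t ht => hM0 t ht).frequently
    have hC' : ∀ᶠ s in 𝓝 (0 : ℂ), s ≠ 0 → ‖s * (deriv (fun t => deriv P t / deriv Q t) (t₁ + s) /
        (deriv P (t₁ + s) / deriv Q (t₁ + s)))‖ ≤ C := by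
      have h1 := eventually_nhdsWithin_iff.1 hC
      have h2 : Tendsto (fun s : ℂ => t₁ + s) (𝓝 0) (𝓝 t₁) := by
        have : ContinuousAt (fun s : ℂ => t₁ + s) 0 := by fun_prop
        simpa [ContinuousAt] using this
      filter_upwards [h2.eventually h1] with s hs hs0
      have h3 := hs (by simpa using hs0)
      rwa [add_sub_cancel_left] at h3
    have hGn : 0 < ‖G 0‖ := norm_pos_iff.2 hG0
    have hGb : ∀ᶠ s in 𝓝 (0 : ℂ), ‖G 0‖ / 2 < ‖G s‖ :=
      hG.continuousAt.norm.eventually (lt_mem_nhds (by linarith))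
    obtain ⟨b₁, hb₁⟩ := exp_near (hC'.and hGb)
    set b₂ : ℝ := min b₀ (min b₁ 0) with hb₂
    have hC0 : 0 ≤ C := by
      have h1 : ((b₁ - 1 : ℝ) : ℂ).re < b₁ := by rw [Complex.ofReal_re]; linarith
      exact (norm_nonneg _).trans ((hb₁ _ h1).1 (Complex.exp_ne_zero _))
    have hbound : ∀ z ∈ HPl b₂, ‖deriv ψ (Bh z)‖ ≤ C / ‖G 0‖ := by
      intro z hz
      have hzr : z.re < b₂ := hz
      have h1 : z.re < b₀ := lt_of_lt_of_le hzr (min_le_left _ _)
      have h2 : z.re < b₁ := lt_of_lt_of_le hzr ((min_le_right _ _).trans (min_le_left _ _))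
      have h3 : z.re < 0 := lt_of_lt_of_le hzr ((min_le_right _ _).trans (min_le_right _ _))
      have h4 := hslope z (hba₀ z h1)
      obtain ⟨h5, h6⟩ := hb₁ z h2
      have h5 := h5 (Complex.exp_ne_zero _)
      have h7 : ‖(2 : ℂ) * Complex.I * (deriv ψ (Bh z) * g z)‖ ≤ C := by
        rw [h4, mul_comm]; exact h5
      have h8 : ‖G 0‖ / 2 ≤ ‖g z‖ := by
        rw [hgG z h1, norm_mul]
        have h9 : 1 ≤ ‖Complex.exp ((n : ℂ) / 6 * z)‖ := by
          rw [Complex.norm_exp]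
          have h10 : ((n : ℂ) / 6 * z).re = (n : ℝ) / 6 * z.re := by
            have : (n : ℂ) / 6 = (((n : ℝ) / 6 : ℝ) : ℂ) := by push_cast; ring
            rw [this, Complex.re_ofReal_mul]
          rw [h10]
          have h11 : (n : ℝ) ≤ 0 := by exact_mod_cast hn
          have h12 : 0 ≤ (n : ℝ) / 6 * z.re :=
            mul_nonneg_of_nonpos_of_nonpos (by linarith) h3.le
          exact Real.one_le_exp h12
        nlinarith [norm_nonneg (G (Complex.exp z))]
      rw [norm_mul, norm_mul, norm_mul, Complex.norm_I, Complex.norm_ofNat, mul_one] at h7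
      rw [le_div_iff₀ hGn]
      nlinarith [norm_nonneg (deriv ψ (Bh z))]
    apply hnc
    refine const_of_balls (C := C / ‖G 0‖) (diff_derivE hψ) hperψ hconj ?_
    intro R
    have hb₂₀ : ∀ z ∈ HPl b₂, z ∈ HPl b₀ := fun z hz =>
      lt_of_lt_of_le (show z.re < b₂ from hz) (min_le_left _ _)
    obtain ⟨ζ, r, hr1, hr2⟩ := cov (b := b₂) (α := (n : ℝ) / 6) (G := G) (Bh := Bh)
      (by have h11 : (n : ℝ) ≤ 0 := by exact_mod_cast hn
          linarith) hG.continuousAt hG0 (by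
        intro z hz
        have h1 := hBh z (hba₀ z (hb₂₀ z hz))
        rw [hgG z (hb₂₀ z hz)] at h1
        have : ((((n : ℝ) / 6 : ℝ)) : ℂ) = (n : ℂ) / 6 := by push_cast; ring
        rw [this]
        exact h1) R
    refine ⟨Bh ζ, fun z hz => ?_⟩
    obtain ⟨w, hw, rfl⟩ := hr2 hz
    exact hbound w (hr1 hw)
  obtain ⟨m, rfl⟩ := Int.eq_ofNat_of_zero_le hn.le
  have hm : 0 < m := by exact_mod_cast hn
  obtain ⟨d, hdL⟩ := lim_pos (b := b₀) hm hG (Bh := Bh) (by
    intro z hz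
    have h1 := hBh z (hba₀ z hz)
    rw [hgG z hz, Int.cast_natCast] at h1
    exact h1)
  -- `2πi` is a period
  obtain ⟨κ, hκ⟩ := inj_near (hψo _) (hHo _) hc (rel _) (s := 1) (by norm_num) (mem_SgBig d)
  obtain ⟨b, hb⟩ := eventually_LI.1 (hdL.eventually hκ)
  have hper : ∀ z ∈ HPl a, Bh (z + (2 * Real.pi : ℝ) * Complex.I) = Bh z := by
    have h1 : ∀ z : ℂ, z.re < min a b → Bh (z + (2 * Real.pi : ℝ) * Complex.I) = Bh z := by
      intro z hz
      have hza : z ∈ HPl a := lt_of_lt_of_le hz (min_le_left _ _)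
      have hza' := add_mem_HPl hza (2 * Real.pi)
      have hzb : z.re < b := lt_of_lt_of_le hz (min_le_right _ _)
      have hzb' : (z + (2 * Real.pi : ℝ) * Complex.I).re < b := by
        simpa using hzb
      have h2 := hb z hzb _ (hR1 z hza)
      have h3 := hb _ hzb' _ (hR1 _ hza')
      rw [hEper z, h2] at h3
      exact h3.symm
    have hx : ((min a b - 1 : ℝ) : ℂ) ∈ HPl a := by
      change ((min a b - 1 : ℝ) : ℂ).re < a
      rw [Complex.ofReal_re]
      linarith [min_le_left a b]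
    have h2 := AnalyticOnNhd.eqOn_of_preconnected_of_eventuallyEq (𝕜 := ℂ)
      (f := fun z => Bh (z + (2 * Real.pi : ℝ) * Complex.I)) (g := Bh) (U := HPl a)
      (DifferentiableOn.analyticOnNhd (fun z hz =>
        (((hBh _ (add_mem_HPl hz _)).comp_add_const z _).differentiableAt).differentiableWithinAt) ho)
      (hBhd.analyticOnNhd ho)
      (convex_HPl a).isPreconnected hx
      (by
        filter_upwards [(isOpen_HPl (min a b)).mem_nhds (show ((min a b - 1 : ℝ) : ℂ) ∈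
          HPl (min a b) by
            change ((min a b - 1 : ℝ) : ℂ).re < min a b
            rw [Complex.ofReal_re]
            linarith)] with z hz
        exact h1 z hz)
    exact h2
  -- descend to the disc
  classical
  set fx : ℂ → ℂ := fun x => if Complex.I * x ∈ HPl a then Bh (Complex.I * x) else 0 with hfx
  have hmem : ∀ z : ℂ, Complex.I * z ∈ HPl a ↔ -a < z.im := by
    intro z
    change (Complex.I * z).re < a ↔ _
    rw [Complex.mul_re, Complex.I_re, Complex.I_im]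
    constructor <;> intro h <;> linarith
  have hfper : Function.Periodic fx ((2 * Real.pi : ℝ) : ℂ) := by
    intro z
    simp only [hfx]
    have h1 : Complex.I * (z + ((2 * Real.pi : ℝ) : ℂ)) ∈ HPl a ↔ Complex.I * z ∈ HPl a := by
      rw [hmem, hmem]
      simp
    have h3 : Complex.I * (z + ((2 * Real.pi : ℝ) : ℂ)) =
        Complex.I * z + (2 * Real.pi : ℝ) * Complex.I := by ring
    by_cases h2 : Complex.I * z ∈ HPl a
    · rw [if_pos h2, if_pos (h1.2 h2), h3, hper _ h2]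
    · rw [if_neg h2, if_neg (fun h => h2 (h1.1 h))]
  have hop : IsOpen {z : ℂ | -a < z.im} := isOpen_lt continuous_const Complex.continuous_im
  have hfxd : ∀ z : ℂ, -a < z.im → DifferentiableAt ℂ fx z := by
    intro z hz
    have h1 : DifferentiableAt ℂ (fun z => Bh (Complex.I * z)) z := by
      have h2 : DifferentiableAt ℂ Bh (Complex.I * z) :=
        hBhd.differentiableAt (ho.mem_nhds ((hmem z).2 hz))
      exact h2.comp z (by fun_prop)
    refine h1.congr_of_eventuallyEq ?_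
    filter_upwards [hop.mem_nhds hz] with w hw
    simp only [hfx]
    rw [if_pos ((hmem w).2 hw)]
  have hev : ∀ᶠ z in comap Complex.im atTop, -a < z.im := by
    rw [Filter.eventually_comap]
    exact (Filter.eventually_gt_atTop (-a)).mono fun x hx z hz => hz ▸ hx
  have hpi2 : (0 : ℝ) < 2 * Real.pi := by positivity
  have hfxt : Tendsto fx (comap Complex.im atTop) (𝓝 d) := by
    have h1 : Tendsto (fun x : ℂ => Complex.I * x) (comap Complex.im atTop) LI := by
      unfold LI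
      rw [Filter.tendsto_comap_iff]
      have h1 : (Complex.re ∘ fun z : ℂ => Complex.I * z) = fun z : ℂ => -z.im := by
        funext z
        simp [Complex.mul_re]
      rw [h1]
      exact tendsto_neg_atTop_atBot.comp tendsto_comap
    refine (hdL.comp h1).congr' ?_
    filter_upwards [hev] with x hx
    simp only [hfx, Function.comp_apply]
    rw [if_pos ((hmem x).2 hx)]
  have hbd : BoundedAtFilter (comap Complex.im atTop) fx := hfxt.isBigO_one ℝ
  have hhol : ∀ᶠ z in comap Complex.im atTop, DifferentiableAt ℂ fx z := hev.mono hfxd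
  set cf := Function.Periodic.cuspFunction (2 * Real.pi) fx with hcf
  have hq : ∀ z : ℂ, Function.Periodic.qParam (2 * Real.pi) (-Complex.I * z) = Complex.exp z := by
    intro z
    unfold Function.Periodic.qParam
    congr 1
    have : (Real.pi : ℂ) ≠ 0 := by exact_mod_cast Real.pi_ne_zero
    push_cast
    field_simp
    rw [Complex.I_sq]
    ring
  have hcfE : ∀ z ∈ HPl a, cf (Complex.exp z) = Bh z ∧ DifferentiableAt ℂ cf (Complex.exp z) := by
    intro z hz
    have h1 : Complex.I * (-Complex.I * z) = z := by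
      rw [← mul_assoc, mul_neg, Complex.I_mul_I]
      ring
    refine ⟨?_, ?_⟩
    · rw [← hq z, hcf, Function.Periodic.eq_cuspFunction hpi2.ne' hfper]
      simp only [hfx]
      rw [h1, if_pos hz]
    · rw [← hq z, hcf]
      refine Function.Periodic.differentiableAt_cuspFunction hpi2.ne' hfper (hfxd _ ?_)
      rw [← hmem, h1]
      exact hz
  have hβE : ∀ z ∈ HPl a, cf (E z - t₁) = Bh z := by
    intro z hz
    simp only [hE, add_sub_cancel_left]
    exact (hcfE z hz).1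
  refine ⟨fun t => cf (t - t₁), ?_, ?_, ?_⟩
  · intro t ht
    refine DifferentiableAt.differentiableWithinAt ?_
    have h1 : DifferentiableAt ℂ cf (t - t₁) := by
      by_cases htn : t = t₁
      · rw [htn, sub_self]
        exact Function.Periodic.differentiableAt_cuspFunction_zero hpi2 hfper hhol hbd
      · obtain ⟨z, hz, rfl⟩ := hmemE t ht htn
        simp only [hE, add_sub_cancel_left]
        exact (hcfE z hz).2
    exact h1.comp t (by fun_prop)
  · intro t ht htn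
    obtain ⟨z, hz, rfl⟩ := hmemE t ht htn
    change P (E z) * deriv ψ (cf (E z - t₁)) = Zn ψ H 1 (cf (E z - t₁)) ∧
      Q (E z) * deriv ψ (cf (E z - t₁)) = Zn ψ H (-1) (cf (E z - t₁))
    rw [hβE z hz]
    exact ⟨hR1 z hz, hR2 z hz⟩
  · have h1 : map E (𝓝 z₀) = 𝓝 t₀ := by
      have h2 : HasStrictDerivAt E (Complex.exp z₀) z₀ := by
        have h3 : AnalyticAt ℂ E z₀ := by
          simp only [hE]
          fun_prop
        have := h3.hasStrictDerivAt
        rwa [(hEd z₀).deriv] at this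
      rw [h2.map_nhds_eq (Complex.exp_ne_zero _), hEz₀]
    rw [← h1, Filter.eventually_map]
    filter_upwards [hBhE, ho.mem_nhds hz₀] with z hz hza
    rw [hβE z hza, hz]

end Crest.Agent.R102.EndE348
end
end

-- ▼ part R102/EndH_348
section

/-!
Row 102, Case E (helper348): **the label extends to every disc on which the vertex is
meromorphic** (one variable, entire data); twin of `BEndB_802`.
-/

set_option autoImplicit false

noncomputable section

open Filter Topology Set Metric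
open scoped ComplexConjugate

namespace Crest.Agent.R102.EndE348

open Crest.Agent.R102.Rule982 Crest.Agent.R102.BEnd802 Crest.Agent.R102.DiscExt802

/-- entire data -/
structure EData (ψ H : ℂ → ℂ) (c₀ : ℂ) : Prop where
  ψd : Differentiable ℂ ψ
  Hd : Differentiable ℂ H
  hc : c₀ ≠ 0
  rel : ∀ h, Rel h ψ H c₀
  per : ∀ z, deriv ψ (z + 1) = deriv ψ z
  cj : ∀ z, ‖deriv ψ (conj z)‖ = ‖deriv ψ z‖
  nc : ¬ ∀ z w, deriv ψ z = deriv ψ w

lemma EData.ψo {ψ H : ℂ → ℂ} {c₀ : ℂ} (D : EData ψ H c₀) (h : ℝ) : DifferentiableOn ℂ ψ (Sg h) :=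
  D.ψd.differentiableOn

lemma EData.Ho {ψ H : ℂ → ℂ} {c₀ : ℂ} (D : EData ψ H c₀) (h : ℝ) : DifferentiableOn ℂ H (Sg h) :=
  D.Hd.differentiableOn

/-- `B` is an admissible label at `t`: holomorphic, and `γ(B) = (P, Q)` near `t` -/
def AdmE (ψ H P Q B : ℂ → ℂ) (t : ℂ) : Prop :=
  AnalyticAt ℂ B t ∧ ∀ᶠ s in 𝓝[≠] t, P s * deriv ψ (B s) = Zn ψ H 1 (B s) ∧
    Q s * deriv ψ (B s) = Zn ψ H (-1) (B s)

lemma AdmE.adm {ψ H P Q B : ℂ → ℂ} {t : ℂ} (hA : AdmE ψ H P Q B t) :
    Adm (|(B t).im| + 1) ψ H P Q B t := ⟨hA.1, mem_SgBig _, hA.2⟩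

lemma AdmE.eventually {ψ H P Q B : ℂ → ℂ} {t : ℂ} (hA : AdmE ψ H P Q B t) :
    ∀ᶠ s in 𝓝 t, AdmE ψ H P Q B s := by
  filter_upwards [hA.adm.eventually] with s hs
  exact ⟨hs.1, hs.2.2⟩

lemma AdmE.full {ψ H P Q B : ℂ → ℂ} {c₀ : ℂ} (D : EData ψ H c₀) {t : ℂ} (hA : AdmE ψ H P Q B t)
    (hP : AnalyticAt ℂ P t) (hQ : AnalyticAt ℂ Q t) :
    ∀ᶠ s in 𝓝 t, P s * deriv ψ (B s) = Zn ψ H 1 (B s) ∧
      Q s * deriv ψ (B s) = Zn ψ H (-1) (B s) :=
  hA.adm.full (D.ψo _) (D.Ho _) hP hQ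

/-- local step -/
lemma stepE {ψ H P Q f : ℂ → ℂ} {c₀ : ℂ} (D : EData ψ H c₀) {x : ℂ} {ε : ℝ} (hε : 0 < ε)
    (hPm : MeromorphicAt P x) (hQm : MeromorphicAt Q x) (hg : Good P Q x ε) {t₀ : ℂ}
    (ht₀ : t₀ ∈ ball x ε) (hne : t₀ ≠ x) (hA : AdmE ψ H P Q f t₀) :
    ∃ β : ℂ → ℂ, DifferentiableOn ℂ β (ball x ε) ∧ (∀ t ∈ ball x ε, AdmE ψ H P Q β t) ∧
      ∀ᶠ t in 𝓝 t₀, β t = f t := by
  have h0 := hg t₀ ht₀ hne
  obtain ⟨β, b1, b3, b4⟩ := ext_ballE D.ψd D.Hd D.hc D.rel D.per D.cj D.nc hε hPm hQm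
    (fun t ht htn => (hg t ht htn).1)
    (fun t ht htn => (hg t ht htn).2.1) (fun t ht htn => (hg t ht htn).2.2.1)
    (fun t ht htn => (hg t ht htn).2.2.2.1) (fun t ht htn => (hg t ht htn).2.2.2.2) ht₀ hne hA.1
    (hA.full D h0.1 h0.2.1)
  refine ⟨β, b1, fun t ht => ⟨b1.analyticAt (isOpen_ball.mem_nhds ht), ?_⟩, b4⟩
  by_cases htx : t = x
  · rw [htx, eventually_nhdsWithin_iff]
    filter_upwards [ball_mem_nhds x hε] with s hs hsx
    exact b3 s hs hsx
  · refine Filter.Eventually.filter_mono nhdsWithin_le_nhds ?_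
    filter_upwards [isOpen_ball.mem_nhds ht, isOpen_ne.mem_nhds htx] with s hs hsx
    exact b3 s hs hsx

/-- extensions are admissible -/
lemma adm_of_extE {ψ H P Q B : ℂ → ℂ} {c₀ : ℂ} (D : EData ψ H c₀) {c : ℂ} {R : ℝ}
    (hPm : MeromorphicOn P (ball c R)) (hQm : MeromorphicOn Q (ball c R))
    (hgood : ∀ x ∈ ball c R, ∃ ε > 0, ball x ε ⊆ ball c R ∧ Good P Q x ε)
    (hA : AdmE ψ H P Q B c) {r : ℝ} (hr : 0 < r) (hrR : r ≤ R) {f : ℂ → ℂ}
    (hf : DifferentiableOn ℂ f (ball c r)) (hfB : ∀ᶠ t in 𝓝 c, f t = B t) :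
    ∀ t ∈ ball c r, AdmE ψ H P Q f t := by
  set Λ : Set ℂ := {t | ∀ᶠ s in 𝓝 t, AdmE ψ H P Q f s} with hΛ
  have hΛo : IsOpen Λ := isOpen_setOfPred_eventually_nhds
  have hΛm : ∀ t, AdmE ψ H P Q f t → t ∈ Λ := fun t ht => ht.eventually
  have hcr : c ∈ ball c r := mem_ball_self hr
  have start : c ∈ Λ := by
    refine hΛm c ⟨hf.analyticAt (ball_mem_nhds c hr), ?_⟩
    · filter_upwards [hA.2, hfB.filter_mono nhdsWithin_le_nhds] with s h1 h2
      rw [h2]; exact h1
  have key : closure Λ ∩ ball c r ⊆ Λ := by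
    rintro x ⟨hxc, hxr⟩
    have hxR : x ∈ ball c R := ball_subset_ball hrR hxr
    obtain ⟨ε, hε, -, hg⟩ := hgood x hxR
    have hnb : ball x ε ∩ ball c r ∈ 𝓝 x := (isOpen_ball.inter isOpen_ball).mem_nhds
      ⟨mem_ball_self hε, hxr⟩
    obtain ⟨t₀, ht₀, ht₀b⟩ : ∃ t ∈ Λ, t ∈ ball x ε ∩ ball c r :=
      ((mem_closure_iff_frequently.1 hxc).and_eventually hnb).exists
    by_cases htx : t₀ = x
    · rw [← htx]; exact ht₀
    · obtain ⟨β, b1, b2, b3⟩ := stepE D hε (hPm x hxR) (hQm x hxR) hg ht₀b.1 htx ht₀.self_of_nhds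
      have hKo : IsOpen (ball x ε ∩ ball c r) := isOpen_ball.inter isOpen_ball
      have heq := AnalyticOnNhd.eqOn_of_preconnected_of_eventuallyEq (𝕜 := ℂ)
        (f := f) (g := β) (U := ball x ε ∩ ball c r)
        ((hf.mono inter_subset_right).analyticOnNhd hKo)
        ((b1.mono inter_subset_left).analyticOnNhd hKo)
        ((convex_ball _ _).inter (convex_ball _ _)).isPreconnected ht₀b
        (b3.mono fun t ht => ht.symm)
      have hev : ∀ᶠ t in 𝓝 x, f t = β t := by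
        filter_upwards [hnb] with t ht
        exact heq ht
      have hβ := b2 x (mem_ball_self hε)
      refine hΛm x ⟨hf.analyticAt (isOpen_ball.mem_nhds hxr), ?_⟩
      · filter_upwards [hβ.2, hev.filter_mono nhdsWithin_le_nhds] with s h1 h2
        rw [h2]; exact h1
  have hsub : ball c r ⊆ Λ :=
    (convex_ball c r).isPreconnected.subset_of_closure_inter_subset hΛo ⟨c, hcr, start⟩ key
  exact fun t ht => (hsub ht).self_of_nhds

/-- **(DISC)** the label extends to every disc on which the vertex is meromorphic, with values in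
the open strip -/
theorem discE {ψ H P Q B : ℂ → ℂ} {c₀ : ℂ} (D : EData ψ H c₀) {c : ℂ} {R : ℝ} (hR : 0 < R) (hP : MeromorphicOn P (ball c R))
    (hQ : MeromorphicOn Q (ball c R)) (hA : AdmE ψ H P Q B c)
    (hnc : ∃ᶠ t in 𝓝 c, deriv B t ≠ 0) :
    ∃ F : ℂ → ℂ, DifferentiableOn ℂ F (ball c R) ∧ (∀ t ∈ ball c R, AdmE ψ H P Q F t) ∧
      ∀ᶠ t in 𝓝 c, F t = B t := by
  have hgood := good (D.ψo _) (D.Ho _) D.hc (D.rel _) hR hP hQ hA.adm hnc
  obtain ⟨F, hF1, hF2⟩ := disc_ext hR hA.1 (by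
    intro r hr hrR f hf hfB x hx
    have hAf := adm_of_extE D hP hQ hgood hA hr hrR.le hf hfB
    have hxR : x ∈ ball c R := by
      rw [mem_ball, mem_sphere.1 hx]; exact hrR
    obtain ⟨ε, hε, -, hg⟩ := hgood x hxR
    have hxcl : x ∈ closure (ball c r) := by
      rw [closure_ball c hr.ne']
      exact sphere_subset_closedBall hx
    obtain ⟨t₀, ht₀, ht₀b⟩ : ∃ t ∈ ball c r, t ∈ ball x ε :=
      ((mem_closure_iff_frequently.1 hxcl).and_eventually (ball_mem_nhds x hε)).exists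
    have htx : t₀ ≠ x := by
      rintro rfl
      rw [mem_ball, mem_sphere.1 hx] at ht₀
      exact lt_irrefl _ ht₀
    obtain ⟨β, b1, b2, b3⟩ := stepE D hε (hP x hxR) (hQ x hxR) hg ht₀b htx (hAf t₀ ht₀)
    refine ⟨ε, hε, β, b1, ?_⟩
    have hKo : IsOpen (ball x ε ∩ ball c r) := isOpen_ball.inter isOpen_ball
    exact AnalyticOnNhd.eqOn_of_preconnected_of_eventuallyEq (𝕜 := ℂ)
      (f := β) (g := f) (U := ball x ε ∩ ball c r)
      ((b1.mono inter_subset_left).analyticOnNhd hKo)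
      ((hf.mono inter_subset_right).analyticOnNhd hKo)
      ((convex_ball _ _).inter (convex_ball _ _)).isPreconnected ⟨ht₀b, ht₀⟩ b3)
  exact ⟨F, hF1, adm_of_extE D hP hQ hgood hA hR le_rfl hF1 hF2, hF2⟩

end Crest.Agent.R102.EndE348
end
end

-- ▼ part R102/T1A_88
section

/-!
Row 102, part (C), leaf T1-A (helper88).

If the first singular line of the curve (`w = 0`) has a regular point, then there are arbitrarily
small irrational `u > 0` such that the first singular line of the leaf `u` has a regular point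
(or the leaf is entire).

* `hartogs_at` : Hartogs' lemma at the point `0` from almost every real `u > 0` (one scale only);
* `slice_extend` : extension of the slice `w = 0` to a disc;
* `extS_of_discs`, `extS_sup` : gluing in strips;
* `t1a` : the result.
-/

set_option autoImplicit false
set_option linter.unusedSectionVars false
set_option linter.unusedVariables false

open Set Filter Topology Metric MeasureTheory
open scoped Real ENNReal

noncomputable section

namespace Crest.Agent.R102.T1A88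

open Crest.Agent.R102.M948



/-! ### strips -/

/-- the open strip `|Im t| < h` -/
def Str (h : ℝ) : Set ℂ := {t | |t.im| < h}




theorem Str_mono {h h' : ℝ} (hh : h ≤ h') : Str h ⊆ Str h' := fun t ht => lt_of_lt_of_le ht hh




variable {ι : Type*}

/-- the family `g i` extends holomorphically from the real line to the strip `|Im t| < h` -/
def ExtS (g : ι → ℂ → ℂ) (h : ℝ) : Prop :=
  ∃ G : ι → ℂ → ℂ, (∀ i, DifferentiableOn ℂ (G i) (Str h)) ∧ ∀ i, ∀ x : ℝ, G i x = g i x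

theorem ExtS.mono {g : ι → ℂ → ℂ} {h h' : ℝ} (hh : h ≤ h') (H : ExtS g h') : ExtS g h := by
  obtain ⟨G, h1, h2⟩ := H
  exact ⟨G, fun i => (h1 i).mono (Str_mono hh), h2⟩



/-! ### regular points of the top line -/

/-- the holomorphic family `G` on `Str U` is regular at the boundary point `s` -/
def RegAt (G : ι → ℂ → ℂ) (U : ℝ) (s : ℂ) : Prop :=
  ∃ ε > 0, ∃ F : ι → ℂ → ℂ, (∀ i, DifferentiableOn ℂ (F i) (ball s ε)) ∧
    ∀ i, ∀ t ∈ ball s ε, |t.im| < U → F i t = G i t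

/-- `g` is entire, or its first singular line `|Im t| = U` contains a regular point in the upper
half plane -/
def Good (g : ι → ℂ → ℂ) : Prop :=
  (∀ h, ExtS g h) ∨ ∃ U > 0, (¬ ∃ h > U, ExtS g h) ∧ ∃ G : ι → ℂ → ℂ,
    (∀ i, DifferentiableOn ℂ (G i) (Str U)) ∧ (∀ i, ∀ x : ℝ, G i x = g i x) ∧
    ∃ s : ℂ, s.im = U ∧ RegAt G U s



end Crest.Agent.R102.T1A88
end
end

-- ▼ part R102/EndI_348

/-!
Row 102, Case E (helper348): **Hartogs' lemma on a full neighbourhood of a point** and the joint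
extension theorem (method of 948 / 88).

* `hartogs_ball` : analytic `b n` on a disc with `|b n| ≤ K A^n`, `|b n u| ≤ K_u B^n` for a.e. real
  `u` near `0`; then `|b n z| ≤ K'' B'^n` for all `z` near `0`;
* `joint_ball` : joint extension of `f (w, t)` to `ball 0 s × ball t0 R'` when the slices `w = u`
  (`u` real, a.e.) extend to `ball t0 R`.
-/

set_option autoImplicit false

open Set Filter Topology Metric MeasureTheory
open scoped Real ENNReal

noncomputable section

namespace Crest.Agent.R102.EndI348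

open Crest.Agent.R102.M948

theorem hartogs_ball {b : ℕ → ℂ → ℂ} {ρ : ℝ} (hρ : 0 < ρ)
    (hb : ∀ n, DifferentiableOn ℂ (b n) (ball (0 : ℂ) ρ)) {K A : ℝ} (hA : 0 < A)
    (hbd : ∀ n, ∀ z ∈ ball (0 : ℂ) ρ, ‖b n z‖ ≤ K * A ^ n) {B B' : ℝ}
    (hB : 0 < B) (hBB : B < B')
    (hF : ∀ᵐ u : ℝ, u ∈ Ioo (-ρ) ρ → ∃ K', ∀ n, ‖b n u‖ ≤ K' * B ^ n) :
    ∃ s > 0, s ≤ ρ ∧ ∃ K'', ∀ n, ∀ z ∈ ball (0 : ℂ) s, ‖b n z‖ ≤ K'' * B' ^ n := by
  have hK0 : 0 ≤ K := by
    have := (norm_nonneg _).trans (hbd 0 0 (mem_ball_self hρ))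
    simpa using this
  have hB' : 0 < B' := hB.trans hBB
  rcases le_or_gt A B' with hAB | hAB
  · refine ⟨ρ, hρ, le_rfl, K, fun n z hz => (hbd n z hz).trans ?_⟩
    gcongr
  have hBA : B < A := hBB.trans hAB
  obtain ⟨q, hq⟩ : ∃ q : ℕ, 24 < (B' / B) ^ q :=
    pow_unbounded_of_one_lt _ ((one_lt_div hB).2 hBB)
  have hq0 : q ≠ 0 := by
    rintro rfl
    norm_num at hq
  obtain ⟨s, hs0, hs1, hs2⟩ : ∃ s : ℝ, 0 < s ∧ 2 * s / ρ ≤ (B / A) ^ q ∧ s ≤ ρ / 4 := by
    have hpos : 0 < min (ρ * (B / A) ^ q / 2) (ρ / 4) := by positivity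
    refine ⟨min (ρ * (B / A) ^ q / 2) (ρ / 4), hpos, ?_, min_le_right _ _⟩
    rw [div_le_iff₀ hρ]
    have := min_le_left (ρ * (B / A) ^ q / 2) (ρ / 4)
    linarith
  -- the sets `E N`
  set E : ℕ → Set ℝ := fun N => {u | ∀ n, ‖b n u‖ ≤ N * B ^ n} with hE
  have hmono : Monotone (fun N => E N ∩ Icc (0 - s) (0 + s)) := by
    intro N N' h u hu
    refine ⟨fun n => (hu.1 n).trans ?_, hu.2⟩
    have : (N : ℝ) ≤ N' := by exact_mod_cast h
    gcongr
  have hvol : ENNReal.ofReal s < volume (⋃ N, E N ∩ Icc (0 - s) (0 + s)) := by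
    have h1 : volume (Ioo (-s) s) ≤ volume (⋃ N, E N ∩ Icc (0 - s) (0 + s)) := by
      refine measure_mono_ae ?_
      filter_upwards [hF] with u hu
      intro hu2
      have hu3 : u ∈ Ioo (-s) s := hu2
      obtain ⟨K', hK'⟩ := hu ⟨by linarith [hu3.1], by linarith [hu3.2]⟩
      obtain ⟨N, hN⟩ := exists_nat_ge K'
      refine mem_iUnion.2 ⟨N, fun n => (hK' n).trans ?_, ⟨by linarith [hu3.1], by
        linarith [hu3.2]⟩⟩
      gcongr
    refine lt_of_lt_of_le ?_ h1
    rw [Real.volume_Ioo]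
    exact (ENNReal.ofReal_lt_ofReal_iff (by linarith)).2 (by linarith)
  rw [hmono.measure_iUnion, lt_iSup_iff] at hvol
  obtain ⟨N, hN⟩ := hvol
  have hball : ball ((0 : ℝ) : ℂ) ρ ⊆ ball (0 : ℂ) ρ := by
    rw [Complex.ofReal_zero]
  refine ⟨s, hs0, by linarith, 3 * (B' / B) ^ q * (N + 4 * K), fun n z hz => ?_⟩
  set d : ℕ := n / q + 1 with hd
  have hd1 : n ≤ q * d := by
    rw [hd, mul_add, mul_one]
    have := Nat.div_add_mod n q
    have h2 := Nat.mod_lt n (Nat.pos_of_ne_zero hq0)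
    omega
  have hd2 : q * d ≤ n + q := by
    rw [hd, mul_add, mul_one]
    have := Nat.mul_div_le n q
    omega
  have hmain := small_propagation hρ ((hb n).mono hball) (fun z hz => hbd n z (hball hz)) hs0 hs2
    (E := E N ∩ Icc (0 - s) (0 + s)) inter_subset_right hN.le (fun x hx => hx.1 n) d (z := z)
    (by rw [Complex.ofReal_zero, sub_zero]; exact (mem_ball_zero_iff.1 hz).le)
  have h24 : (24 : ℝ) ^ d ≤ (B' / B) ^ (n + q) := by
    calc (24 : ℝ) ^ d ≤ ((B' / B) ^ q) ^ d := by gcongr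
      _ = (B' / B) ^ (q * d) := by rw [← pow_mul]
      _ ≤ (B' / B) ^ (n + q) := pow_le_pow_right₀ ((one_lt_div hB).2 hBB).le hd2
  have hAn : A ^ n * (2 * s / ρ) ^ (d + 1) ≤ B ^ n := by
    have h1 : (2 * s / ρ) ^ (d + 1) ≤ (B / A) ^ n := by
      calc (2 * s / ρ) ^ (d + 1) ≤ ((B / A) ^ q) ^ (d + 1) := by gcongr
        _ = (B / A) ^ (q * (d + 1)) := by rw [← pow_mul]
        _ ≤ (B / A) ^ n := pow_le_pow_of_le_one (by positivity)
            ((div_lt_one hA).2 hBA).le (by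
              calc n ≤ q * d := hd1
                _ ≤ q * (d + 1) := Nat.mul_le_mul_left _ (Nat.le_succ _))
    calc A ^ n * (2 * s / ρ) ^ (d + 1) ≤ A ^ n * (B / A) ^ n := by gcongr
      _ = B ^ n := by rw [← mul_pow]; congr 1; field_simp
  calc ‖b n z‖ ≤ 3 * 24 ^ d * (N * B ^ n + 4 * (K * A ^ n) * (2 * s / ρ) ^ (d + 1)) := hmain
    _ = 3 * 24 ^ d * (N * B ^ n + 4 * K * (A ^ n * (2 * s / ρ) ^ (d + 1))) := by ring
    _ ≤ 3 * (B' / B) ^ (n + q) * (N * B ^ n + 4 * K * B ^ n) := by gcongr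
    _ = 3 * (B' / B) ^ q * (N + 4 * K) * ((B' / B) ^ n * B ^ n) := by rw [pow_add]; ring
    _ = 3 * (B' / B) ^ q * (N + 4 * K) * B' ^ n := by
        rw [← mul_pow]; congr 2; field_simp

/-- **joint extension on a full neighbourhood of the slice `w = 0`** (`f(w,t)`) -/
theorem joint_ball {f : ℂ × ℂ → ℂ} {t0 : ℂ} {r r0 : ℝ} (hr : 0 < r)
    (hr0 : 0 < r0) (hf : DifferentiableOn ℂ f (ball (0 : ℂ) r ×ˢ ball t0 r0)) {R : ℝ}
    (hF : ∀ᵐ u : ℝ, u ∈ Ioo (-r) r → ∃ g : ℂ → ℂ, DifferentiableOn ℂ g (ball t0 R) ∧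
      ∀ᶠ t in 𝓝 t0, g t = f (u, t)) {R' : ℝ} (hR'0 : 0 < R') (hR' : R' < R) :
    ∃ s > 0, s ≤ r ∧ ∃ G : ℂ × ℂ → ℂ, DifferentiableOn ℂ G (ball (0 : ℂ) s ×ˢ ball t0 R') ∧
      ∀ w ∈ ball (0 : ℂ) s, ∀ t ∈ ball t0 r0, G (w, t) = f (w, t) := by
  have hR : 0 < R := hR'0.trans hR'
  obtain ⟨R2, hR2a, hR2b⟩ := exists_between hR'
  obtain ⟨R1, hR1a, hR1b⟩ := exists_between hR2b
  have hR20 : 0 < R2 := hR'0.trans hR2a
  have hR10 : 0 < R1 := hR20.trans hR1a
  have hcomp : IsCompact (closedBall (0 : ℂ) (r / 2) ×ˢ closedBall t0 (r0 / 2)) :=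
    (isCompact_closedBall _ _).prod (isCompact_closedBall _ _)
  have hsub : closedBall (0 : ℂ) (r / 2) ×ˢ closedBall t0 (r0 / 2) ⊆
      ball (0 : ℂ) r ×ˢ ball t0 r0 :=
    prod_mono (closedBall_subset_ball (by linarith)) (closedBall_subset_ball (by linarith))
  obtain ⟨M, hM⟩ := hcomp.exists_bound_of_continuousOn (hf.mono hsub).continuousOn
  have hball : ball (0 : ℂ) (r / 2) ⊆ ball (0 : ℂ) r := ball_subset_ball (by linarith)
  have hbd : ∀ n, ∀ z ∈ ball (0 : ℂ) (r / 2), ‖coefT f t0 n z‖ ≤ M * (1 / (r0 / 2)) ^ n := by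
    intro n z hz
    have hzc : z ∈ closedBall (0 : ℂ) (r / 2) := ball_subset_closedBall hz
    refine norm_coefT_le (by positivity) ?_ (fun t ht => hM _ ⟨hzc, sphere_subset_closedBall ht⟩) n
    exact ((slice_differentiableOn hf (hball hz)).mono
      (closedBall_subset_ball (by linarith))).diffContOnCl_ball (le_refl _)
  have hFb : ∀ᵐ u : ℝ, u ∈ Ioo (-(r / 2)) (r / 2) →
      ∃ K', ∀ n, ‖coefT f t0 n u‖ ≤ K' * (1 / R1) ^ n := by
    filter_upwards [hF] with u hu hu2
    obtain ⟨g, hg, hgf⟩ := hu ⟨by linarith [hu2.1], by linarith [hu2.2]⟩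
    obtain ⟨M', hM'⟩ := (isCompact_closedBall t0 R1).exists_bound_of_continuousOn
      (hg.mono (closedBall_subset_ball hR1b)).continuousOn
    refine ⟨M', fun n => ?_⟩
    have h2 : coefT f t0 n u = coefT (fun p => g p.2) t0 n u := by
      unfold coefT
      congr 1
      have h3 : (fun s => f ((u : ℂ), s)) =ᶠ[𝓝 t0] (fun s => g s) := by
        filter_upwards [hgf] with s hs; exact hs.symm
      exact h3.iteratedDeriv_eq n
    rw [h2]
    exact norm_coefT_le (f := fun p => g p.2) (t0 := t0) (w := (u : ℂ)) (r := R1)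
      (M := M') hR10
      ((hg.mono (closedBall_subset_ball hR1b)).diffContOnCl_ball (le_refl _))
      (fun t ht => hM' t (sphere_subset_closedBall ht)) n
  obtain ⟨s, hs, hsr, K, hK⟩ := hartogs_ball (b := fun n => coefT f t0 n)
    (by positivity : 0 < r / 2)
    (fun n => (differentiableOn_coefT isOpen_ball hr0 hf n).mono hball) (by positivity) hbd
    (by positivity : 0 < 1 / R1) (one_div_lt_one_div_of_lt hR20 hR1a) hFb
  have hsW : ball (0 : ℂ) s ⊆ ball (0 : ℂ) r := ball_subset_ball (by linarith)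
  have hK0 : 0 ≤ K := by
    have := (norm_nonneg _).trans (hK 0 0 (mem_ball_self hs))
    simpa using this
  refine ⟨s, hs, by linarith, fun p => ∑' n, coefT f t0 n p.1 * (p.2 - t0) ^ n, ?_, ?_⟩
  · have hopen : IsOpen (ball (0 : ℂ) s ×ˢ ball t0 R') := isOpen_ball.prod isOpen_ball
    have hsumm : Summable (fun n : ℕ => K * (R' / R2) ^ n) :=
      (summable_geometric_of_lt_one (by positivity) ((div_lt_one hR20).2 hR2a)).mul_left _
    have hbd' : ∀ n : ℕ, ∀ p ∈ ball (0 : ℂ) s ×ˢ ball t0 R',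
        ‖coefT f t0 n p.1 * (p.2 - t0) ^ n‖ ≤ K * (R' / R2) ^ n := by
      intro n p hp
      have h1 := hK n p.1 hp.1
      have h2 : ‖p.2 - t0‖ ≤ R' := by
        have := hp.2; rw [mem_ball, dist_eq_norm] at this; exact this.le
      rw [norm_mul, norm_pow]
      calc ‖coefT f t0 n p.1‖ * ‖p.2 - t0‖ ^ n ≤ K * (1 / R2) ^ n * R' ^ n := by gcongr
        _ = K * (R' / R2) ^ n := by rw [mul_assoc, ← mul_pow]; congr 2; ring
    refine (Crest.Agent.R266.SCV.analyticOnNhd_of_tendstoLocallyUniformlyOn hopen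
      (tendstoUniformlyOn_tsum_nat hsumm hbd').tendstoLocallyUniformlyOn
      (Eventually.of_forall (fun N => ?_))).differentiableOn
    refine DifferentiableOn.fun_sum (fun n _ => ?_)
    refine DifferentiableOn.mul ?_ (by fun_prop)
    exact ((differentiableOn_coefT isOpen_ball hr0 hf n).mono hsW).comp
      (differentiable_fst.differentiableOn) (fun p hp => hp.1)
  · intro w hw t ht
    have h1 := Complex.hasSum_taylorSeries_on_ball (slice_differentiableOn hf (hsW hw))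
      (z := t) ht
    have he : (fun n => coefT f t0 n w * (t - t0) ^ n) =
        (fun n : ℕ => (n.factorial : ℂ)⁻¹ • (t - t0) ^ n •
          iteratedDeriv n (fun s => f (w, s)) t0) := by
      ext n
      unfold coefT; simp only [smul_eq_mul]; ring
    show ∑' n, coefT f t0 n w * (t - t0) ^ n = f (w, t)
    rw [he]
    exact h1.tsum_eq

end Crest.Agent.R102.EndI348
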