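import Mathlib

-- ▼ part R102/PainA_416
section

/-!
Row 102, part (C), T5 input for algebraic curves (Painlevé), part A:
continuous roots of a monic bivariate polynomial over a simply connected space.
-/

set_option autoImplicit false

namespace Crest.Agent.R102.Pain416

open Polynomial Set Filter Topology

noncomputable section

/-- value of a bivariate polynomial -/
def ev (M : Polynomial (Polynomial ℂ)) (p : ℂ × ℂ) : ℂ := M.evalEval p.1 p.2

lemma ev_eq (M : Polynomial (Polynomial ℂ)) (p : ℂ × ℂ) :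
    ev M p = ∑ i ∈ Finset.range (M.natDegree + 1), (M.coeff i).eval p.1 * p.2 ^ i := by
  unfold ev evalEval
  rw [eval_eq_sum_range (p := M), eval_finsetSum]
  simp

lemma ev_map (M : Polynomial (Polynomial ℂ)) (x w : ℂ) :
    ev M (x, w) = (M.map (evalRingHom x)).eval w := by
  unfold ev
  rw [map_evalRingHom_eval]

lemma contDiff_ev (M : Polynomial (Polynomial ℂ)) : ContDiff ℂ 1 (ev M) := by
  have : ev M = fun p : ℂ × ℂ =>
      ∑ i ∈ Finset.range (M.natDegree + 1), (M.coeff i).eval p.1 * p.2 ^ i := by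
    funext p; exact ev_eq M p
  rw [this]
  refine ContDiff.sum fun i _ => ?_
  exact ((M.coeff i).differentiable.contDiff.comp contDiff_fst).mul (contDiff_snd.pow i)

lemma continuous_ev (M : Polynomial (Polynomial ℂ)) : Continuous (ev M) :=
  (contDiff_ev M).continuous

lemma hasDerivAt_ev (M : Polynomial (Polynomial ℂ)) (x w : ℂ) :
    HasDerivAt (fun u => ev M (x, u)) (ev (derivative M) (x, w)) w := by
  have h := (M.map (evalRingHom x)).hasDerivAt w
  have e : (fun u => ev M (x, u)) = fun u => (M.map (evalRingHom x)).eval u := by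
    funext u; exact ev_map M x u
  rw [e, ev_map, derivative_map] at *
  exact h

/-- the shear -/
def shear (a b : ℂ) (hb : b ≠ 0) : (ℂ × ℂ) ≃L[ℂ] (ℂ × ℂ) :=
  ContinuousLinearEquiv.equivOfInverse
    ((ContinuousLinearMap.fst ℂ ℂ ℂ).prod
      (a • ContinuousLinearMap.fst ℂ ℂ ℂ + b • ContinuousLinearMap.snd ℂ ℂ ℂ))
    ((ContinuousLinearMap.fst ℂ ℂ ℂ).prod
      (b⁻¹ • (ContinuousLinearMap.snd ℂ ℂ ℂ - a • ContinuousLinearMap.fst ℂ ℂ ℂ)))
    (by
      intro x
      ext
      · simp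
      · simp only [ContinuousLinearMap.prod_apply, ContinuousLinearMap.coe_fst',
          add_apply, smul_apply, ContinuousLinearMap.coe_snd', sub_apply, smul_eq_mul]
        field_simp
        ring)
    (by
      intro x
      ext
      · simp
      · simp only [ContinuousLinearMap.prod_apply, ContinuousLinearMap.coe_fst',
          add_apply, smul_apply, ContinuousLinearMap.coe_snd', sub_apply, smul_eq_mul]
        field_simp
        ring)

lemma strict_Phi (M : Polynomial (Polynomial ℂ)) (p : ℂ × ℂ) (hp : ev (derivative M) p ≠ 0) :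
    ∃ L : (ℂ × ℂ) ≃L[ℂ] (ℂ × ℂ),
      HasStrictFDerivAt (fun q : ℂ × ℂ => (q.1, ev M q)) (L : (ℂ × ℂ) →L[ℂ] (ℂ × ℂ)) p := by
  have h1 : HasStrictFDerivAt (ev M) (fderiv ℂ (ev M) p) p :=
    ((contDiff_ev M).contDiffAt).hasStrictFDerivAt (by norm_num)
  set D := fderiv ℂ (ev M) p with hD
  have h2 : D (0, 1) = ev (derivative M) p := by
    have h3 : HasDerivAt (fun u : ℂ => ev M (p.1, u)) (D (0, 1)) p.2 := by
      have h4 : HasDerivAt (fun u : ℂ => (p.1, u)) ((0 : ℂ), (1 : ℂ)) p.2 :=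
        (hasDerivAt_const p.2 p.1).prodMk (hasDerivAt_id p.2)
      exact (h1.hasFDerivAt (x := p)).comp_hasDerivAt p.2 h4
    exact h3.unique (hasDerivAt_ev M p.1 p.2)
  refine ⟨shear (D (1, 0)) (ev (derivative M) p) hp, ?_⟩
  have h5 : HasStrictFDerivAt (fun q : ℂ × ℂ => (q.1, ev M q))
      ((ContinuousLinearMap.fst ℂ ℂ ℂ).prod D) p := by
    exact hasStrictFDerivAt_fst.prodMk h1
  convert h5 using 1
  ext
  · simp [shear]
  · simp [shear]
  · simp [shear]
  · simp [shear, h2]

/-- the affine curve -/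
abbrev Tt (M : Polynomial (Polynomial ℂ)) : Type := {p : ℂ × ℂ // ev M p = 0}

/-- first projection -/
def pr (M : Polynomial (Polynomial ℂ)) (p : Tt M) : ℂ := p.1.1

lemma continuous_pr (M : Polynomial (Polynomial ℂ)) : Continuous (pr M) :=
  continuous_fst.comp continuous_subtype_val

lemma root_bound {M : Polynomial (Polynomial ℂ)} (hM : M.Monic) {K : Set ℂ} (hK : IsCompact K) :
    ∃ B : ℝ, ∀ x ∈ K, ∀ w : ℂ, ev M (x, w) = 0 → ‖w‖ ≤ B := by
  have hc : ContinuousOn (fun x : ℂ => ∑ i ∈ Finset.range M.natDegree, ‖(M.coeff i).eval x‖) K := by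
    refine Continuous.continuousOn (continuous_finsetSum _ fun i _ => ?_)
    exact (M.coeff i).continuous.norm
  obtain ⟨C, hC⟩ := hK.exists_bound_of_continuousOn hc
  refine ⟨max 1 C, fun x hx w hw => ?_⟩
  by_contra hlt
  push Not at hlt
  have h1 : 1 < ‖w‖ := lt_of_le_of_lt (le_max_left _ _) hlt
  have h2 : C < ‖w‖ := lt_of_le_of_lt (le_max_right _ _) hlt
  have hsum := hC x hx
  rw [Real.norm_eq_abs] at hsum
  have hsum' := le_trans (le_abs_self _) hsum
  rw [ev_eq, Finset.sum_range_succ] at hw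
  simp only at hw
  rw [show M.coeff M.natDegree = 1 from hM, eval_one, one_mul] at hw
  have h3 : w ^ M.natDegree = -∑ i ∈ Finset.range M.natDegree, (M.coeff i).eval x * w ^ i :=
    eq_neg_of_add_eq_zero_right hw
  rcases Nat.eq_zero_or_pos M.natDegree with h0 | hpos
  · rw [h0] at h3; simp at h3
  · have h4 : ‖w‖ ^ M.natDegree ≤ C * ‖w‖ ^ (M.natDegree - 1) := by
      rw [← norm_pow, h3, norm_neg]
      refine (norm_sum_le _ _).trans ?_
      calc ∑ i ∈ Finset.range M.natDegree, ‖(M.coeff i).eval x * w ^ i‖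
          ≤ ∑ i ∈ Finset.range M.natDegree, ‖(M.coeff i).eval x‖ * ‖w‖ ^ (M.natDegree - 1) := by
            refine Finset.sum_le_sum fun i hi => ?_
            rw [norm_mul, norm_pow]
            refine mul_le_mul_of_nonneg_left ?_ (norm_nonneg _)
            exact pow_le_pow_right₀ h1.le (Nat.le_sub_one_of_lt (Finset.mem_range.1 hi))
        _ = (∑ i ∈ Finset.range M.natDegree, ‖(M.coeff i).eval x‖) * ‖w‖ ^ (M.natDegree - 1) := by
            rw [Finset.sum_mul]
        _ ≤ C * ‖w‖ ^ (M.natDegree - 1) :=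
            mul_le_mul_of_nonneg_right hsum' (by positivity)
    have h5 : ‖w‖ ^ M.natDegree = ‖w‖ * ‖w‖ ^ (M.natDegree - 1) := by
      rw [← pow_succ', Nat.sub_add_cancel hpos]
    rw [h5] at h4
    have h6 : 0 < ‖w‖ ^ (M.natDegree - 1) := by positivity
    exact absurd (le_of_mul_le_mul_right h4 h6) (not_le.2 h2)

lemma isClosedMap_pr {M : Polynomial (Polynomial ℂ)} (hM : M.Monic) : IsClosedMap (pr M) := by
  have hp : IsProperMap (pr M) := by
    rw [isProperMap_iff_isCompact_preimage]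
    refine ⟨continuous_pr M, fun K hK => ?_⟩
    obtain ⟨B, hB⟩ := root_bound hM hK
    have hind : IsInducing (Subtype.val : {p : ℂ × ℂ // ev M p = 0} → ℂ × ℂ) :=
      IsInducing.subtypeVal
    have h1 : IsCompact ((Subtype.val : {p : ℂ × ℂ // ev M p = 0} → ℂ × ℂ) '' (pr M ⁻¹' K)) := by
      refine (hK.prod (isCompact_closedBall (0 : ℂ) B)).of_isClosed_subset ?_ ?_
      · have e : ((Subtype.val : {p : ℂ × ℂ // ev M p = 0} → ℂ × ℂ) '' (pr M ⁻¹' K)) =
            {p : ℂ × ℂ | ev M p = 0} ∩ (Prod.fst ⁻¹' K) := by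
          ext p
          constructor
          · rintro ⟨q, hq, rfl⟩
            exact ⟨q.2, hq⟩
          · rintro ⟨h1, h2⟩
            exact ⟨⟨p, h1⟩, h2, rfl⟩
        rw [e]
        exact (isClosed_eq (continuous_ev M) continuous_const).inter
          (hK.isClosed.preimage continuous_fst)
      · rintro p ⟨q, hq, rfl⟩
        refine ⟨hq, ?_⟩
        rw [mem_closedBall_zero_iff]
        exact hB q.1.1 hq q.1.2 q.2
    exact (hind.isCompact_iff).2 h1
  exact hp.isClosedMap

lemma finite_fiber {M : Polynomial (Polynomial ℂ)} (hM : M.Monic) (x : ℂ) :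
    {w : ℂ | ev M (x, w) = 0}.Finite := by
  have h0 : M.map (evalRingHom x) ≠ 0 := (hM.map _).ne_zero
  refine ((M.map (evalRingHom x)).roots.toFinset.finite_toSet).subset ?_
  intro w hw
  simp only [Finset.mem_coe, Multiset.mem_toFinset]
  rw [mem_roots h0, IsRoot, ← ev_map]
  exact hw

lemma card_fiber {M : Polynomial (Polynomial ℂ)} (hM : M.Monic) (x : ℂ) {n : ℕ}
    (w : Fin n → ℂ) (hw : ∀ j, ev M (x, w j) = 0) (hn : M.natDegree < n) :
    ∃ i j, i < j ∧ w i = w j := by
  have h0 : M.map (evalRingHom x) ≠ 0 := (hM.map _).ne_zero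
  by_contra hne
  push Not at hne
  have hinj : Function.Injective w := by
    intro i j hij
    rcases lt_trichotomy i j with h | h | h
    · exact absurd hij (hne i j h)
    · exact h
    · exact absurd hij.symm (hne j i h)
  have h1 : Finset.univ.image w ⊆ (M.map (evalRingHom x)).roots.toFinset := by
    intro v hv
    obtain ⟨j, _, rfl⟩ := Finset.mem_image.1 hv
    rw [Multiset.mem_toFinset, mem_roots h0, IsRoot, ← ev_map]
    exact hw j
  have h2 := Finset.card_le_card h1
  rw [Finset.card_image_of_injective _ hinj, Finset.card_univ, Fintype.card_fin] at h2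
  have h3 := (Multiset.toFinset_card_le (M.map (evalRingHom x)).roots).trans
    (card_roots' (M.map (evalRingHom x)))
  rw [hM.natDegree_map] at h3
  omega

lemma locHomeo (M : Polynomial (Polynomial ℂ)) (p₀ : Tt M) (hp : ev (derivative M) p₀.1 ≠ 0) :
    ∃ φ : OpenPartialHomeomorph (Tt M) ℂ, p₀ ∈ φ.source ∧ pr M = φ := by
  obtain ⟨L, hL⟩ := strict_Phi M p₀.1 hp
  let R := hL.toOpenPartialHomeomorph (fun q : ℂ × ℂ => (q.1, ev M q))
  have hRc : ∀ q, R q = (q.1, ev M q) := fun q => rfl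
  have hsrc : p₀.1 ∈ R.source := hL.mem_toOpenPartialHomeomorph_source
  have hsymm : ∀ x : ℂ, (x, (0 : ℂ)) ∈ R.target →
      ev M (R.symm (x, 0)) = 0 ∧ (R.symm (x, 0)).1 = x ∧ R.symm (x, 0) ∈ R.source := by
    intro x hx
    have h1 := R.right_inv hx
    rw [hRc] at h1
    exact ⟨(Prod.ext_iff.1 h1).2, (Prod.ext_iff.1 h1).1, R.map_target hx⟩
  have hpt : ∀ p : Tt M, R p.1 = (pr M p, 0) := fun p => by
    rw [hRc]; exact Prod.ext rfl p.2
  classical
  let inv : ℂ → Tt M := fun x =>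
    if h : ev M (R.symm (x, 0)) = 0 then ⟨R.symm (x, 0), h⟩ else p₀
  have hinv : ∀ x : ℂ, (x, (0 : ℂ)) ∈ R.target → (inv x).1 = R.symm (x, 0) := by
    intro x hx
    simp only [inv]
    rw [dif_pos (hsymm x hx).1]
  refine ⟨{ toFun := pr M
            invFun := inv
            source := {p | p.1 ∈ R.source}
            target := {x | (x, (0 : ℂ)) ∈ R.target}
            map_source' := ?ms
            map_target' := ?mt
            left_inv' := ?li
            right_inv' := ?ri
            open_source := ?os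
            open_target := ?ot
            continuousOn_toFun := (continuous_pr M).continuousOn
            continuousOn_invFun := ?ci }, hsrc, rfl⟩
  case ms => 
    intro p hp1
    have := R.map_source hp1
    rw [hpt] at this
    exact this
  case mt =>
    intro x hx
    change (inv x).1 ∈ R.source
    rw [hinv x hx]
    exact (hsymm x hx).2.2
  case li =>
    intro p hp1
    have h1 := R.map_source hp1
    rw [hpt] at h1
    apply Subtype.ext
    rw [hinv _ h1, ← hpt]
    exact R.left_inv hp1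
  case ri =>
    intro x hx
    change (inv x).1.1 = x
    rw [hinv x hx]
    exact (hsymm x hx).2.1
  case os => exact R.open_source.preimage continuous_subtype_val
  case ot => exact R.open_target.preimage (by fun_prop)
  case ci =>
    have hind : IsInducing (Subtype.val : {p : ℂ × ℂ // ev M p = 0} → ℂ × ℂ) :=
      IsInducing.subtypeVal
    refine (hind.continuousOn_iff).2 ?_
    have h1 : ContinuousOn (fun x : ℂ => R.symm (x, 0)) {x | (x, (0 : ℂ)) ∈ R.target} :=
      R.continuousOn_symm.comp (by fun_prop) (fun x hx => hx)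
    refine h1.congr fun x hx => ?_
    exact hinv x hx

/-- good parameter set -/
def Sep (M : Polynomial (Polynomial ℂ)) (s : Set ℂ) : Prop :=
  ∀ x ∈ s, ∀ w : ℂ, ev M (x, w) = 0 → ev (derivative M) (x, w) ≠ 0

theorem cov {M : Polynomial (Polynomial ℂ)} (hM : M.Monic) {s : Set ℂ} (hs : Sep M s) :
    IsCoveringMapOn (pr M) s := by
  refine IsClosedMap.isCoveringMapOn_of_isLocalHomeomorphOn (isClosedMap_pr hM) ?_ ?_
  · intro x _
    refine Set.Finite.of_finite_image (f := fun p : Tt M => p.1.2) ?_ ?_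
    · refine (finite_fiber hM x).subset ?_
      rintro w ⟨p, hp, rfl⟩
      have : p.1.1 = x := hp
      have h2 := p.2
      rw [← Prod.mk.eta (p := p.1), this] at h2
      exact h2
    · intro p hp q hq hpq
      have h1 : p.1.1 = x := hp
      have h2 : q.1.1 = x := hq
      exact Subtype.ext (Prod.ext (h1.trans h2.symm) hpq)
  · intro p hp
    obtain ⟨φ, h1, h2⟩ := locHomeo M p (hs p.1.1 hp p.1.2 p.2)
    exact ⟨φ, h1, h2⟩

/-- existence of a continuous root -/
theorem exists_root {M : Polynomial (Polynomial ℂ)} (hM : M.Monic) {s : Set ℂ} (hs : Sep M s)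
    {A : Type} [TopologicalSpace A] [SimplyConnectedSpace A] [LocallyPathConnectedSpace A]
    (f : C(A, ℂ)) (hf : ∀ a, f a ∈ s) (a₀ : A) (w₀ : ℂ) (h₀ : ev M (f a₀, w₀) = 0) :
    ∃ F : C(A, ℂ), F a₀ = w₀ ∧ ∀ a, ev M (f a, F a) = 0 := by
  obtain ⟨F, ⟨h1, h2⟩, _⟩ := (cov hM hs).existsUnique_continuousMap_lifts f (a₀ := a₀)
    (e₀ := (⟨(f a₀, w₀), h₀⟩ : Tt M)) rfl hf
  refine ⟨⟨fun a => (F a).1.2, ?_⟩, ?_, fun a => ?_⟩
  · exact continuous_snd.comp (continuous_subtype_val.comp F.continuous)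
  · change (F a₀).1.2 = w₀
    rw [h1]
  · have h3 : (F a).1.1 = f a := congrFun h2 a
    have h4 := (F a).2
    rw [← Prod.mk.eta (p := (F a).1), h3] at h4
    exact h4

/-- uniqueness -/
theorem root_unique {M : Polynomial (Polynomial ℂ)} (hM : M.Monic) {s : Set ℂ} (hs : Sep M s)
    {A : Type} [TopologicalSpace A] [PreconnectedSpace A] {f F G : A → ℂ}
    (hfc : Continuous f) (hFc : Continuous F) (hGc : Continuous G) (hf : ∀ a, f a ∈ s)
    (hF : ∀ a, ev M (f a, F a) = 0) (hG : ∀ a, ev M (f a, G a) = 0)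
    {a₀ : A} (h₀ : F a₀ = G a₀) : F = G := by
  have hc := (cov hM hs).isCoveringMap_restrictPreimage
  let F' : A → pr M ⁻¹' s := fun a => ⟨⟨(f a, F a), hF a⟩, hf a⟩
  let G' : A → pr M ⁻¹' s := fun a => ⟨⟨(f a, G a), hG a⟩, hf a⟩
  have hF'c : Continuous F' := Continuous.subtype_mk
    (Continuous.subtype_mk (hfc.prodMk hFc) _) _
  have hG'c : Continuous G' := Continuous.subtype_mk
    (Continuous.subtype_mk (hfc.prodMk hGc) _) _
  have h1 : F' = G' := by
    refine hc.eq_of_comp_eq hF'c hG'c ?_ a₀ ?_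
    · funext a; rfl
    · apply Subtype.ext
      apply Subtype.ext
      exact Prod.ext rfl h₀
  funext a
  have h2 := congrArg (fun p : pr M ⁻¹' s => p.1.1.2) (congrFun h1 a)
  exact h2

/-- a continuous root is holomorphic -/
theorem root_diff {M : Polynomial (Polynomial ℂ)} {f F : ℂ → ℂ} {z : ℂ}
    (hf : DifferentiableAt ℂ f z) (hF : ContinuousAt F z)
    (h0 : ∀ᶠ x in 𝓝 z, ev M (f x, F x) = 0) (hd : ev (derivative M) (f z, F z) ≠ 0) :
    DifferentiableAt ℂ F z := by
  obtain ⟨L, hL⟩ := strict_Phi M (f z, F z) hd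
  have hz : ev M (f z, F z) = 0 := h0.self_of_nhds
  have h1 := hL.to_localInverse
  simp only [hz] at h1
  have h2 : DifferentiableAt ℂ (fun x : ℂ =>
      hL.localInverse (fun q : ℂ × ℂ => (q.1, ev M q)) L (f z, F z) (f x, (0 : ℂ))) z := by
    have h3 : DifferentiableAt ℂ (fun x : ℂ => (f x, (0 : ℂ))) z :=
      hf.prodMk (differentiableAt_const _)
    exact (h1.hasFDerivAt.differentiableAt).comp z h3
  have h4 : (fun x => F x) =ᶠ[𝓝 z] fun x : ℂ =>
      (hL.localInverse (fun q : ℂ × ℂ => (q.1, ev M q)) L (f z, F z) (f x, (0 : ℂ))).2 := by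
    have h5 := hL.eventually_left_inverse
    have h6 : Tendsto (fun x => (f x, F x)) (𝓝 z) (𝓝 (f z, F z)) :=
      hf.continuousAt.prodMk hF
    filter_upwards [h6.eventually h5, h0] with x h7 h8
    rw [h8] at h7
    rw [h7]
  exact (h2.snd).congr_of_eventuallyEq h4

end

end Crest.Agent.R102.Pain416
end

-- ▼ part R102/PainB_416
section

/-!
Row 102, part (C), T5 input for algebraic curves (Painlevé), part B (algebra): from one polynomial
relation `Q(E, y) = 0` between holomorphic functions on a connected set to a monic, generically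
separable relation for `a(E) y`.
-/

set_option autoImplicit false

namespace Crest.Agent.R102.Pain416

open Polynomial Set Filter Topology

noncomputable section

variable {S : Set ℂ} {E w : ℂ → ℂ}

lemma ev_mul (P R : Polynomial (Polynomial ℂ)) (p : ℂ × ℂ) : ev (P * R) p = ev P p * ev R p :=
  evalEval_mul _ _ _ _

lemma ev_add (P R : Polynomial (Polynomial ℂ)) (p : ℂ × ℂ) : ev (P + R) p = ev P p + ev R p :=
  evalEval_add _ _ _ _

lemma ev_C (q : Polynomial ℂ) (p : ℂ × ℂ) : ev (C q) p = q.eval p.1 := evalEval_C _ _ _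

lemma ev_X (p : ℂ × ℂ) : ev X p = p.2 := evalEval_X _ _

lemma ev_one (p : ℂ × ℂ) : ev 1 p = 1 := evalEval_one _ _

lemma ev_unit {P : Polynomial (Polynomial ℂ)} (hP : IsUnit P) (p : ℂ × ℂ) : ev P p ≠ 0 := by
  obtain ⟨R, hR⟩ := hP.exists_right_inv
  intro h0
  have := congrArg (fun T => ev T p) hR
  simp only [ev_mul, ev_one, h0, zero_mul] at this
  exact zero_ne_one this

lemma an_ev (hS : IsOpen S) (hE : DifferentiableOn ℂ E S) (hw : DifferentiableOn ℂ w S)
    (P : Polynomial (Polynomial ℂ)) : AnalyticOnNhd ℂ (fun z => ev P (E z, w z)) S := by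
  refine DifferentiableOn.analyticOnNhd ?_ hS
  exact ((contDiff_ev P).differentiable (by norm_num)).comp_differentiableOn (hE.prodMk hw)

lemma const_of_root (hSc : IsPreconnected S) (hE : ContinuousOn E S) {q : Polynomial ℂ}
    (hq : q ≠ 0) (h : ∀ z ∈ S, q.eval (E z) = 0) : ∃ c, ∀ z ∈ S, E z = c := by
  rcases S.eq_empty_or_nonempty with rfl | ⟨z0, hz0⟩
  · exact ⟨0, fun z hz => by simp at hz⟩
  · refine ⟨E z0, fun z hz => ?_⟩
    have hfin : ((q.roots.toFinset : Finset ℂ) : Set ℂ).Finite := q.roots.toFinset.finite_toSet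
    refine hSc.constant_of_mapsTo hfin.isDiscrete hE ?_ hz hz0
    intro x hx
    simp only [Finset.mem_coe, Multiset.mem_toFinset]
    rw [mem_roots hq]
    exact h x hx

lemma exists_irred (hS : IsOpen S) (hSc : IsPreconnected S) (hne : S.Nonempty)
    (hE : DifferentiableOn ℂ E S) (hw : DifferentiableOn ℂ w S) (T : Polynomial (Polynomial ℂ)) :
    T ≠ 0 → (∀ z ∈ S, ev T (E z, w z) = 0) →
      ∃ P, Irreducible P ∧ P ∣ T ∧ ∀ z ∈ S, ev P (E z, w z) = 0 := by
  obtain ⟨z0, hz0⟩ := hne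
  refine WfDvdMonoid.induction_on_irreducible
    (motive := fun T : Polynomial (Polynomial ℂ) => T ≠ 0 → (∀ z ∈ S, ev T (E z, w z) = 0) →
      ∃ P, Irreducible P ∧ P ∣ T ∧ ∀ z ∈ S, ev P (E z, w z) = 0) T ?_ ?_ ?_
  · intro h; exact absurd rfl h
  · intro u hu _ h
    exact absurd (h z0 hz0) (ev_unit hu _)
  · intro a i ha hi ih _ h
    have h1 := (an_ev hS hE hw i).eq_zero_or_eq_zero_of_mul_eq_zero (an_ev hS hE hw a)
      (fun z hz => by rw [← ev_mul]; exact h z hz) hSc
    rcases h1 with h1 | h1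
    · exact ⟨i, hi, dvd_mul_right _ _, h1⟩
    · obtain ⟨P, h2, h3, h4⟩ := ih ha h1
      exact ⟨P, h2, h3.trans (dvd_mul_left _ _), h4⟩

lemma sep_of_irred {M : Polynomial (Polynomial ℂ)} (hM : M.Monic) (hi : Irreducible M) :
    ∃ d : Polynomial ℂ, d ≠ 0 ∧ ∃ A B : Polynomial (Polynomial ℂ), A * M + B * derivative M = C d := by
  let K := FractionRing (Polynomial ℂ)
  have h1 : Irreducible (M.map (algebraMap (Polynomial ℂ) K)) :=
    (hM.irreducible_iff_irreducible_map_fraction_map (K := K)).1 hi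
  haveI : CharZero K := by
    refine ⟨fun m n hmn => ?_⟩
    have h2 : algebraMap (Polynomial ℂ) K (m : Polynomial ℂ) =
        algebraMap (Polynomial ℂ) K (n : Polynomial ℂ) := by
      rw [map_natCast, map_natCast]; exact hmn
    exact Nat.cast_injective (IsFractionRing.injective (Polynomial ℂ) K h2)
  obtain ⟨A, B, hAB⟩ := h1.separable
  obtain ⟨b1, hb1, h3⟩ := IsLocalization.integerNormalization_spec (nonZeroDivisors (Polynomial ℂ)) A
  obtain ⟨b2, hb2, h4⟩ := IsLocalization.integerNormalization_spec (nonZeroDivisors (Polynomial ℂ)) B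
  set A0 := IsLocalization.integerNormalization (nonZeroDivisors (Polynomial ℂ)) A
  set B0 := IsLocalization.integerNormalization (nonZeroDivisors (Polynomial ℂ)) B
  refine ⟨b1 * b2, mul_ne_zero (nonZeroDivisors.ne_zero hb1) (nonZeroDivisors.ne_zero hb2),
    C b2 * A0, C b1 * B0, ?_⟩
  have hinj : Function.Injective (Polynomial.map (algebraMap (Polynomial ℂ) K)) :=
    Polynomial.map_injective _ (IsFractionRing.injective (Polynomial ℂ) K)
  apply hinj
  rw [Polynomial.map_add, Polynomial.map_mul, Polynomial.map_mul, Polynomial.map_mul,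
    Polynomial.map_mul, h3, h4, Polynomial.map_C, Polynomial.map_C, Polynomial.map_C]
  rw [derivative_map] at hAB
  have e1 : b1 • A = C (algebraMap (Polynomial ℂ) K b1) * A := by
    rw [← Polynomial.smul_eq_C_mul, algebraMap_smul]
  have e2 : b2 • B = C (algebraMap (Polynomial ℂ) K b2) * B := by
    rw [← Polynomial.smul_eq_C_mul, algebraMap_smul]
  rw [e1, e2, map_mul, C_mul]
  linear_combination (C (algebraMap (Polynomial ℂ) K b1) * C (algebraMap (Polynomial ℂ) K b2)) * hAB

/-- **good relation** -/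
theorem good_poly (hS : IsOpen S) (hSc : IsPreconnected S) (hne : S.Nonempty) {y : ℂ → ℂ}
    (hE : DifferentiableOn ℂ E S) (hy : DifferentiableOn ℂ y S)
    {Q : Polynomial (Polynomial ℂ)} (hQ : Q ≠ 0) (hrel : ∀ z ∈ S, ev Q (E z, y z) = 0)
    (hEnc : ¬ ∃ c, ∀ z ∈ S, E z = c) (hy0 : ∃ z ∈ S, y z ≠ 0) :
    ∃ (M : Polynomial (Polynomial ℂ)) (a : Polynomial ℂ) (bad : Finset ℂ), M.Monic ∧ a ≠ 0 ∧
      (∀ z ∈ S, ev M (E z, a.eval (E z) * y z) = 0) ∧ Sep M ((bad : Set ℂ)ᶜ) ∧
      ∀ x ∉ bad, a.eval x ≠ 0 ∧ ev M (x, 0) ≠ 0 := by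
  obtain ⟨z0, hz0⟩ := hne
  -- degree
  have hdeg : 1 ≤ Q.natDegree := by
    by_contra hlt
    have h0 : Q.natDegree = 0 := by omega
    obtain ⟨q, hq⟩ := natDegree_eq_zero.1 h0
    rw [← hq] at hrel hQ
    have hq0 : q ≠ 0 := by rintro rfl; simp at hQ
    refine hEnc (const_of_root hSc hE.continuousOn hq0 fun z hz => ?_)
    have := hrel z hz
    rwa [ev_C] at this
  set a := Q.leadingCoeff with ha
  have ha0 : a ≠ 0 := leadingCoeff_ne_zero.2 hQ
  have hwd : DifferentiableOn ℂ (fun z => a.eval (E z) * y z) S :=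
    (a.differentiable.comp_differentiableOn hE).mul hy
  have h1 : ∀ z ∈ S, ev Q.integralNormalization (E z, a.eval (E z) * y z) = 0 := by
    intro z hz
    have h2 := integralNormalization_eval₂_leadingCoeff_mul hdeg (evalRingHom (E z)) (y z)
    rw [eval₂_evalRingHom] at h2
    have h3 : evalEval (E z) (y z) Q = 0 := hrel z hz
    rw [h3, mul_zero] at h2
    exact h2
  have hmon := monic_integralNormalization hQ
  obtain ⟨P, hPi, ⟨R, hR⟩, hP0⟩ := exists_irred hS hSc ⟨z0, hz0⟩ hE hwd _ hmon.ne_zero h1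
  have hu : P.leadingCoeff * R.leadingCoeff = 1 := by
    rw [← leadingCoeff_mul, ← hR]; exact hmon
  set M := C R.leadingCoeff * P with hMdef
  have hM : M.Monic := monic_C_mul_of_mul_leadingCoeff_eq_one (by rw [mul_comm]; exact hu)
  have hCu : IsUnit (C R.leadingCoeff : Polynomial (Polynomial ℂ)) :=
    (IsUnit.of_mul_eq_one _ (by rw [mul_comm]; exact hu)).map C
  have hMi : Irreducible M := (irreducible_isUnit_mul hCu).2 hPi
  have hM0 : ∀ z ∈ S, ev M (E z, a.eval (E z) * y z) = 0 := by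
    intro z hz
    rw [hMdef, ev_mul, hP0 z hz, mul_zero]
  obtain ⟨d, hd, A, B, hAB⟩ := sep_of_irred hM hMi
  -- constant coefficient
  have hc0 : M.coeff 0 ≠ 0 := by
    intro h0
    obtain ⟨R', hR'⟩ := X_dvd_iff.2 h0
    have hRu : IsUnit R' := by
      rcases hMi.isUnit_or_isUnit hR' with h | h
      · exact absurd h not_isUnit_X
      · exact h
    have h2 : ∀ z ∈ S, a.eval (E z) * y z = 0 := by
      intro z hz
      have h3 := hM0 z hz
      rw [hR', ev_mul, ev_X] at h3
      exact (mul_eq_zero.1 h3).resolve_right (ev_unit hRu _)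
    rcases AnalyticOnNhd.eq_zero_or_eq_zero_of_mul_eq_zero
      ((a.differentiable.comp_differentiableOn hE).analyticOnNhd hS) (hy.analyticOnNhd hS) h2 hSc
      with h3 | h3
    · exact hEnc (const_of_root hSc hE.continuousOn ha0 h3)
    · obtain ⟨z1, hz1, h4⟩ := hy0
      exact h4 (h3 z1 hz1)
  refine ⟨M, a, d.roots.toFinset ∪ (M.coeff 0).roots.toFinset ∪ a.roots.toFinset, hM, ha0, hM0,
    ?_, ?_⟩
  · intro x hx w' hw' hdw
    apply hx
    simp only [Finset.coe_union, mem_union, Finset.mem_coe, Multiset.mem_toFinset]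
    left; left
    rw [mem_roots hd, IsRoot]
    have h5 := congrArg (fun T => ev T (x, w')) hAB
    simp only [ev_add, ev_mul, ev_C, hw', hdw, mul_zero, add_zero] at h5
    exact h5.symm
  · intro x hx
    simp only [Finset.mem_union, Multiset.mem_toFinset, not_or] at hx
    obtain ⟨⟨_, h6⟩, h7⟩ := hx
    refine ⟨fun h8 => h7 ?_, fun h8 => h6 ?_⟩
    · rw [mem_roots ha0]; exact h8
    · rw [mem_roots hc0, IsRoot]
      rw [ev_map] at h8
      rw [← coeff_zero_eq_eval_zero, coeff_map] at h8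
      exact h8

end

end Crest.Agent.R102.Pain416
end

-- ▼ part R102/PainC_416

/-!
Row 102, part (C), T5 input for algebraic curves (Painlevé), part C: a solution of the algebraic
autonomous equation has a limit (finite or infinite) at a boundary point.
-/

set_option autoImplicit false

namespace Crest.Agent.R102.Pain416

open Polynomial Set Filter Topology Metric

noncomputable section

/-- lower half disc at `s` -/
def HD (s : ℂ) (r : ℝ) : Set ℂ := ball s r ∩ {z | z.im < s.im}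

/-- approach from below -/
def bl (s : ℂ) : Filter ℂ := 𝓝[{z : ℂ | z.im < s.im}] s

lemma isOpen_HD (s : ℂ) (r : ℝ) : IsOpen (HD s r) :=
  isOpen_ball.inter (isOpen_lt Complex.continuous_im continuous_const)

lemma convex_HD (s : ℂ) (r : ℝ) : Convex ℝ (HD s r) :=
  (convex_ball s r).inter (convex_halfSpace_im_lt s.im)

lemma HD_mem {s : ℂ} {r : ℝ} (hr : 0 < r) : HD s r ∈ bl s := by
  unfold bl HD
  exact inter_mem (mem_nhdsWithin_of_mem_nhds (ball_mem_nhds s hr)) self_mem_nhdsWithin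

lemma HD_mono {s : ℂ} {r r' : ℝ} (h : r ≤ r') : HD s r ⊆ HD s r' :=
  fun _ hz => ⟨ball_subset_ball h hz.1, hz.2⟩

lemma bl_basis {s : ℂ} {p : ℂ → Prop} :
    (∀ᶠ z in bl s, p z) ↔ ∃ r > 0, ∀ z ∈ HD s r, p z := by
  constructor
  · intro h
    unfold bl at h
    rw [eventually_nhdsWithin_iff, Metric.eventually_nhds_iff_ball] at h
    obtain ⟨r, hr, h1⟩ := h
    exact ⟨r, hr, fun z hz => h1 z hz.1 hz.2⟩
  · rintro ⟨r, hr, h⟩
    filter_upwards [HD_mem hr] with z hz using h z hz

lemma path_mem {s : ℂ} {r t : ℝ} {u : ℂ} (hu : ‖u‖ = 1) (hui : u.im < 0) (ht : 0 < t)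
    (htr : t < r) : s + t * u ∈ HD s r := by
  refine ⟨?_, ?_⟩
  · rw [mem_ball, dist_eq_norm, add_sub_cancel_left, norm_mul, hu, mul_one, Complex.norm_real,
      Real.norm_eq_abs, abs_of_pos ht]
    exact htr
  · simp only [mem_ofPred_eq, Complex.add_im, Complex.mul_im, Complex.ofReal_re, Complex.ofReal_im,
      zero_mul, add_zero]
    nlinarith

instance bl_neBot (s : ℂ) : (bl s).NeBot := by
  rw [neBot_iff]
  intro h
  have h1 : ∀ᶠ _z in bl s, False := by rw [h]; exact Filter.eventually_bot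
  obtain ⟨r, hr, h2⟩ := bl_basis.1 h1
  exact h2 (s + (r / 2 : ℝ) * (-Complex.I)) (path_mem (by simp) (by simp) (by linarith) (by linarith))

/-- the data -/
structure Dat (s : ℂ) (r₀ : ℝ) (E y : ℂ → ℂ) (M : Polynomial (Polynomial ℂ)) (a : Polynomial ℂ)
    (bad : Finset ℂ) : Prop where
  r₀_pos : 0 < r₀
  hE : DifferentiableOn ℂ E (HD s r₀)
  hy : DifferentiableOn ℂ y (HD s r₀)
  hE0 : ∀ z ∈ HD s r₀, E z ≠ 0
  ode : ∀ z ∈ HD s r₀, deriv E z = Complex.I * y z * E z
  mon : M.Monic
  a0 : a ≠ 0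
  rel : ∀ z ∈ HD s r₀, ev M (E z, a.eval (E z) * y z) = 0
  sep : Sep M ((bad : Set ℂ)ᶜ)
  good : ∀ x ∉ bad, a.eval x ≠ 0 ∧ ev M (x, 0) ≠ 0
  y0 : ∃ z ∈ HD s r₀, y z ≠ 0

variable {s : ℂ} {r₀ : ℝ} {E y : ℂ → ℂ} {M : Polynomial (Polynomial ℂ)} {a : Polynomial ℂ}
  {bad : Finset ℂ}

lemma Dat.speed (D : Dat s r₀ E y M a bad) {K : Set ℂ} (hK : IsCompact K)
    (hKb : ∀ x ∈ K, x ∉ bad) : ∃ C : ℝ, 0 ≤ C ∧ ∀ z ∈ HD s r₀, E z ∈ K → ‖deriv E z‖ ≤ C := by
  obtain ⟨B, hB⟩ := root_bound D.mon hK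
  have hc : ContinuousOn (fun x : ℂ => (a.eval x)⁻¹ * x) K := by
    refine ContinuousOn.mul (ContinuousOn.inv₀ a.continuous.continuousOn ?_) continuousOn_id
    exact fun x hx => (D.good x (hKb x hx)).1
  obtain ⟨C1, hC1⟩ := hK.exists_bound_of_continuousOn hc
  refine ⟨max 0 (B * C1), le_max_left _ _, fun z hz hzK => ?_⟩
  have ha := (D.good _ (hKb _ hzK)).1
  have e1 : deriv E z = Complex.I * (a.eval (E z) * y z) * ((a.eval (E z))⁻¹ * E z) := by
    rw [D.ode z hz]; field_simp
  rw [e1, norm_mul, norm_mul, Complex.norm_I, one_mul]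
  refine le_trans ?_ (le_max_right _ _)
  have h1 := hB (E z) hzK _ (D.rel z hz)
  exact mul_le_mul h1 (hC1 _ hzK) (norm_nonneg _) ((norm_nonneg _).trans h1)

/-- trapping along a segment -/
lemma trap {f : ℝ → ℂ} {x1 : ℂ} {ε C : ℝ} (hε : 0 < ε) (hC : C < ε / 2)
    (hf : ∀ t ∈ Icc (0 : ℝ) 1, DifferentiableAt ℝ f t) (h0 : ‖f 0 - x1‖ < ε / 2)
    (hb : ∀ t ∈ Icc (0 : ℝ) 1, ‖f t - x1‖ ≤ ε → ‖deriv f t‖ ≤ C) :
    ∀ t ∈ Icc (0 : ℝ) 1, ‖f t - x1‖ ≤ ε := by
  have key := image_norm_le_of_norm_deriv_right_lt_deriv_boundary' (E := ℂ)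
    (f := fun t => f t - x1) (f' := fun t => deriv f t) (a := 0) (b := 1)
    (B := fun t => ε / 2 + ε / 2 * t) (B' := fun _ => ε / 2)
    (fun t ht => ((hf t ht).continuousAt.sub continuousAt_const).continuousWithinAt)
    (fun t ht => ((hf t (Ico_subset_Icc_self ht)).hasDerivAt.sub_const x1).hasDerivWithinAt)
    (by simpa using h0.le) (by fun_prop)
    (fun t _ => by
      have : HasDerivAt (fun t : ℝ => ε / 2 + ε / 2 * t) (ε / 2 * 1) t :=
        ((hasDerivAt_id t).const_mul (ε / 2)).const_add (ε / 2)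
      rw [mul_one] at this
      exact this.hasDerivWithinAt)
    (fun t ht he => by
      have h1 : ‖f t - x1‖ ≤ ε := by
        rw [he]
        nlinarith [ht.1, ht.2]
      exact lt_of_le_of_lt (hb t (Ico_subset_Icc_self ht) h1) hC)
  intro t ht
  have := key ht
  refine this.trans ?_
  nlinarith [ht.1, ht.2]

lemma Dat.tendsto_of_cluster (D : Dat s r₀ E y M a bad) {x1 : ℂ} (hx1 : x1 ∉ bad)
    (hcl : ∀ ε > 0, ∃ᶠ z in bl s, ‖E z - x1‖ < ε) : Tendsto E (bl s) (𝓝 x1) := by
  -- small closed balls avoid `bad`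
  have hopen : IsOpen ((bad : Set ℂ)ᶜ) := (bad.finite_toSet.isClosed).isOpen_compl
  obtain ⟨ε0, hε0, hball⟩ := Metric.isOpen_iff.1 hopen x1 (by simpa using hx1)
  rw [Metric.tendsto_nhds]
  intro ε' hε'
  set ε := min (ε0 / 2) (ε' / 2) with hε
  have hεp : 0 < ε := by positivity
  have hKb : ∀ x ∈ closedBall x1 ε, x ∉ bad := by
    intro x hx
    have : x ∈ ball x1 ε0 := by
      rw [mem_ball]; rw [mem_closedBall] at hx
      have := min_le_left (ε0 / 2) (ε' / 2)
      linarith
    simpa using hball this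
  obtain ⟨C, hC0, hC⟩ := D.speed (isCompact_closedBall x1 ε) hKb
  set δ := min r₀ (ε / (4 * (C + 1))) with hδ
  have hδp : 0 < δ := lt_min D.r₀_pos (by positivity)
  obtain ⟨z0, hz0, hz0D⟩ := ((hcl (ε / 2) (by positivity)).and_eventually (HD_mem hδp)).exists
  filter_upwards [HD_mem hδp] with z hz
  have hseg : ∀ t ∈ Icc (0 : ℝ) 1, z0 + t * (z - z0) ∈ HD s δ := by
    intro t ht
    have := (convex_HD s δ) hz0D hz (sub_nonneg.2 ht.2) ht.1 (by ring)
    convert this using 1
    simp only [Complex.real_smul]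
    push_cast
    ring
  have hmono : HD s δ ⊆ HD s r₀ := HD_mono (min_le_left _ _)
  have hder : ∀ t ∈ Icc (0 : ℝ) 1, HasDerivAt (fun t : ℝ => E (z0 + t * (z - z0)))
      (deriv E (z0 + t * (z - z0)) * (z - z0)) t := by
    intro t ht
    have h1 : HasDerivAt E (deriv E (z0 + t * (z - z0))) (z0 + t * (z - z0)) :=
      ((D.hE _ (hmono (hseg t ht))).differentiableAt
        ((isOpen_HD s r₀).mem_nhds (hmono (hseg t ht)))).hasDerivAt
    have h2 : HasDerivAt (fun t : ℝ => z0 + (t : ℂ) * (z - z0)) (z - z0) t := by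
      have := ((Complex.ofRealCLM.hasDerivAt (x := t)).mul_const (z - z0)).const_add z0
      simpa using this
    exact h1.comp t h2
  have hdist : ‖z - z0‖ ≤ 2 * δ := by
    have h1 := hz.1
    have h2 := hz0D.1
    rw [mem_ball] at h1 h2
    rw [← dist_eq_norm]
    linarith [dist_triangle_right z z0 s]
  have hCδ : C * (2 * δ) < ε / 2 := by
    have h1 : δ ≤ ε / (4 * (C + 1)) := min_le_right _ _
    have h2 : C * (2 * δ) ≤ C * (2 * (ε / (4 * (C + 1)))) := by gcongr
    refine lt_of_le_of_lt h2 ?_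
    have h3 : C * (2 * (ε / (4 * (C + 1)))) = (ε / 2) * (C / (C + 1)) := by field_simp; ring
    rw [h3]
    have h4 : C / (C + 1) < 1 := by rw [div_lt_one (by positivity)]; linarith
    nlinarith
  have key := trap (f := fun t : ℝ => E (z0 + t * (z - z0))) (x1 := x1) (ε := ε)
    (C := C * (2 * δ)) hεp hCδ (fun t ht => (hder t ht).differentiableAt) (by simpa using hz0)
    (fun t ht hle => by
      rw [(hder t ht).deriv, norm_mul]
      refine mul_le_mul (hC _ (hmono (hseg t ht)) ?_) hdist (norm_nonneg _) hC0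
      rw [mem_closedBall, dist_eq_norm]
      exact hle) 1 (by simp)
  simp only [Complex.ofReal_one, one_mul, add_sub_cancel] at key
  rw [dist_eq_norm]
  have := min_le_right (ε0 / 2) (ε' / 2)
  linarith

lemma eventually_lt_of_ne {g : ℂ → ℝ} {c : ℝ} (hr : 0 < r₀) (hg : ContinuousOn g (HD s r₀))
    (hne : ∀ᶠ z in bl s, g z ≠ c) (hf : ∃ᶠ z in bl s, g z < c) : ∀ᶠ z in bl s, g z < c := by
  obtain ⟨r, hr1, h1⟩ := bl_basis.1 hne
  have hrr : 0 < min r r₀ := lt_min hr1 hr
  obtain ⟨z0, hz0, hz0D⟩ := (hf.and_eventually (HD_mem hrr)).exists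
  rw [bl_basis]
  refine ⟨min r r₀, hrr, fun z hz => ?_⟩
  by_contra hle
  push Not at hle
  have hpre : IsPreconnected (HD s (min r r₀)) := (convex_HD s _).isPreconnected
  have himg : Icc (g z0) (g z) ⊆ g '' HD s (min r r₀) :=
    hpre.intermediate_value hz0D hz (hg.mono (HD_mono (min_le_right _ _)))
  obtain ⟨z1, hz1, h2⟩ := himg ⟨hz0.le, hle⟩
  exact h1 z1 (HD_mono (min_le_left _ _) hz1) h2

/-- **the limit exists** -/
theorem Dat.limit (D : Dat s r₀ E y M a bad) :
    (∃ x0, Tendsto E (bl s) (𝓝 x0)) ∨ Tendsto (fun z => ‖E z‖) (bl s) atTop := by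
  by_cases h1 : ∃ x1 ∉ bad, ∀ ε > 0, ∃ᶠ z in bl s, ‖E z - x1‖ < ε
  · obtain ⟨x1, hx1, hcl⟩ := h1
    exact Or.inl ⟨x1, D.tendsto_of_cluster hx1 hcl⟩
  push Not at h1
  -- compact sets off `bad` are left
  have hK : ∀ K : Set ℂ, IsCompact K → (∀ x ∈ K, x ∉ bad) → ∀ᶠ z in bl s, E z ∉ K := by
    intro K hKc hKb
    by_contra hfr
    rw [not_eventually] at hfr
    simp only [not_not] at hfr
    have hnb : (map E (bl s) ⊓ 𝓟 K).NeBot := by
      rw [← frequently_mem_iff_neBot]
      exact hfr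
    obtain ⟨x, hx, hcx⟩ := hKc (f := map E (bl s) ⊓ 𝓟 K) inf_le_right
    obtain ⟨ε, hε, h2⟩ := h1 x (hKb x hx)
    have h3 : ClusterPt x (map E (bl s)) := hcx.mono inf_le_left
    have h4 : ∃ᶠ v in map E (bl s), ‖v - x‖ < ε := by
      rw [clusterPt_iff_frequently] at h3
      have := h3 (ball x ε) (ball_mem_nhds x hε)
      refine this.mono fun v hv => ?_
      rwa [mem_ball, dist_eq_norm] at hv
    refine h4 ?_
    have h5 : ∀ᶠ v in map E (bl s), ¬ ‖v - x‖ < ε := by
      rw [eventually_map]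
      exact h2.mono fun z hz => not_lt.2 hz
    exact h5
  have hcont : ContinuousOn E (HD s r₀) := D.hE.continuousOn
  by_cases h2 : Tendsto (fun z => ‖E z‖) (bl s) atTop
  · exact Or.inr h2
  left
  rw [Filter.tendsto_atTop] at h2
  push Not at h2
  obtain ⟨R0, hR0⟩ := h2
  -- boundedness
  obtain ⟨R1, hR1⟩ : ∃ R1 : ℝ, ∀ x ∈ bad, ‖x‖ ≤ R1 := by
    obtain ⟨R1, h⟩ := (bad.finite_toSet.isBounded).exists_norm_le
    exact ⟨R1, h⟩
  set R := max R0 R1 + 1 with hR
  have hbdd : ∀ᶠ z in bl s, ‖E z‖ < R := by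
    refine eventually_lt_of_ne D.r₀_pos hcont.norm ?_ ?_
    · have := hK (sphere (0 : ℂ) R) (isCompact_sphere 0 R) (fun x hx hxb => by
        have h3 := hR1 x hxb
        rw [mem_sphere_zero_iff_norm] at hx
        have := le_max_right R0 R1
        linarith)
      refine this.mono fun z hz h => hz ?_
      rw [mem_sphere_zero_iff_norm]
      exact h
    · refine hR0.mono fun z hz => ?_
      have := le_max_left R0 R1
      linarith
  obtain ⟨x0, _, hx0⟩ := (isCompact_closedBall (0 : ℂ) R) (f := map E (bl s)) (by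
    rw [le_principal_iff, mem_map]
    filter_upwards [hbdd] with z hz
    simp only [mem_preimage, mem_closedBall, dist_zero_right]
    exact hz.le)
  have hfr : ∀ ε > 0, ∃ᶠ z in bl s, ‖E z - x0‖ < ε := by
    intro ε hε
    rw [clusterPt_iff_frequently] at hx0
    have := hx0 (ball x0 ε) (ball_mem_nhds x0 hε)
    have h5 : ∃ᶠ z in bl s, E z ∈ ball x0 ε := this
    refine h5.mono fun z hz => ?_
    rwa [mem_ball, dist_eq_norm] at hz
  refine ⟨x0, ?_⟩
  -- isolate x0
  have hopen : IsOpen (((bad.erase x0 : Finset ℂ) : Set ℂ)ᶜ) :=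
    ((bad.erase x0).finite_toSet.isClosed).isOpen_compl
  obtain ⟨ε0, hε0, hball⟩ := Metric.isOpen_iff.1 hopen x0 (by simp)
  rw [Metric.tendsto_nhds]
  intro ε' hε'
  set ε := min (ε0 / 2) ε' with hε
  have hεp : 0 < ε := by positivity
  have h6 : ∀ᶠ z in bl s, ‖E z - x0‖ < ε := by
    refine eventually_lt_of_ne D.r₀_pos (hcont.sub continuousOn_const).norm ?_ (hfr ε hεp)
    have := hK (sphere x0 ε) (isCompact_sphere x0 ε) (fun x hx hxb => by
      have h7 : x ∈ ball x0 ε0 := by
        rw [mem_sphere] at hx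
        rw [mem_ball, hx]
        have := min_le_left (ε0 / 2) ε'
        linarith
      have h8 := hball h7
      have h9 : x ≠ x0 := by
        rintro rfl
        rw [mem_sphere, dist_self] at hx
        linarith
      simp only [mem_compl_iff, Finset.mem_coe, Finset.mem_erase, not_and] at h8
      exact h8 h9 hxb)
    refine this.mono fun z hz h => hz ?_
    rw [mem_sphere, dist_eq_norm]
    exact h
  filter_upwards [h6] with z hz
  rw [dist_eq_norm]
  exact lt_of_lt_of_le hz (min_le_right _ _)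

end

end Crest.Agent.R102.Pain416
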