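import Crest.Agent.R102.Rule2_300
import Mathlib
import Crest.Agent.R102.BoxM_628

-- ▼ part R102/RuleS_300
section

/-!
Row 102, T1-E (helper300): RULE-E: two regular lines `⟹` the vertex is regular, for an entire
curve `(ψ, H)`.

`step_discS`, `rule1gS`, `rule2S`: the germ version and the joint version of F1(ii) from the
one-variable rule `R1D S ψ H` on any open set `S`; `r1dE`: `R1D univ ψ H` for entire `(ψ, H)`.
-/

set_option autoImplicit false

open Set Filter Topology Metric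
open scoped ComplexConjugate

noncomputable section

namespace Crest.Agent.R102.F300

open Crest.Agent.R102.Rule982

/-- value conditions for a label -/
def PVS (S : Set ℂ) (ψ H Ψ N Dn : ℂ → ℂ) (t b : ℂ) : Prop := b ∈ S ∧ ψ b = Ψ t ∧ Dn t * H b = N t

/-- the one-variable rule (F1(ii) on half discs) for the curve `(ψ, H)` on `S` -/
def R1D (S : Set ℂ) (ψ H : ℂ → ℂ) : Prop :=
  ∀ (t₁ : ℂ) (ε : ℝ), 0 < ε → ∀ Ψ N Dn B : ℂ → ℂ, DifferentiableOn ℂ Ψ (ball t₁ ε) →
    DifferentiableOn ℂ N (ball t₁ ε) → DifferentiableOn ℂ Dn (ball t₁ ε) →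
    (∃ t ∈ ball t₁ ε, Dn t ≠ 0) → DifferentiableOn ℂ B (LD t₁ ε) →
    (∀ t ∈ LD t₁ ε, B t ∈ S) → (∃ t ∈ LD t₁ ε, deriv B t ≠ 0) →
    (∀ t ∈ LD t₁ ε, ψ (B t) = Ψ t) → (∀ t ∈ LD t₁ ε, Dn t * H (B t) = N t) →
    ∃ r : ℝ, 0 < r ∧ r ≤ ε ∧ ∃ Bt : ℂ → ℂ, DifferentiableOn ℂ Bt (ball t₁ r) ∧
      (∀ t ∈ ball t₁ r, Bt t ∈ S ∧ ψ (Bt t) = Ψ t ∧ Dn t * H (Bt t) = N t) ∧
      EqOn Bt B (LD t₁ r)

/-- one boundary point of a disc -/
theorem step_discS {S : Set ℂ} {ψ H : ℂ → ℂ} (hR : R1D S ψ H)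
    {W : Set ℂ} (hW : IsOpen W) (hWc : IsPreconnected W) {Ψ N Dn : ℂ → ℂ}
    (hΨ : DifferentiableOn ℂ Ψ W) (hN : DifferentiableOn ℂ N W) (hDn : DifferentiableOn ℂ Dn W)
    (hDn0 : ∃ t ∈ W, Dn t ≠ 0) {a : ℂ} {ρ : ℝ} {B : ℂ → ℂ}
    (hB : DifferentiableOn ℂ B (ball a ρ)) (hBP : ∀ t ∈ ball a ρ, PVS S ψ H Ψ N Dn t (B t))
    (hnc : ∃ t ∈ ball a ρ, deriv B t ≠ 0) {s : ℂ} (hs : dist s a = ρ) (hsW : s ∈ W)
    (hρ : 0 < ρ) :
    ∃ δ : ℝ, 0 < δ ∧ ∃ F : ℂ → ℂ, DifferentiableOn ℂ F (ball s δ) ∧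
      (∀ t ∈ ball s δ, PVS S ψ H Ψ N Dn t (F t)) ∧ ∀ t ∈ ball s δ, t ∈ ball a ρ → F t = B t := by
  have hsa : s - a ≠ 0 := by
    intro h0
    rw [dist_eq_norm, h0, norm_zero] at hs
    exact hρ.ne hs
  have hns : ‖s - a‖ = ρ := by rw [← dist_eq_norm]; exact hs
  -- coordinates
  set m : ℂ → ℂ := fun τ => a + (s - a) * Complex.exp (-(Complex.I * τ)) with hm
  set n : ℂ → ℂ := fun t => Complex.I * Complex.log ((t - a) / (s - a)) with hn
  have hm0 : m 0 = s := by rw [hm]; simp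
  have hn0 : n s = 0 := by rw [hn]; simp [hsa]
  have hmd : Differentiable ℂ m := by
    rw [hm]; fun_prop
  have hmn : ∀ t, t ≠ a → m (n t) = t := by
    intro t ht
    have h1 : (t - a) / (s - a) ≠ 0 := div_ne_zero (sub_ne_zero.2 ht) hsa
    rw [hm, hn]
    simp only
    have e : -(Complex.I * (Complex.I * Complex.log ((t - a) / (s - a))))
        = Complex.log ((t - a) / (s - a)) := by
      linear_combination (-Complex.log ((t - a) / (s - a))) * Complex.I_mul_I
    rw [e, Complex.exp_log h1]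
    field_simp
    ring
  have hnorm : ∀ τ, ‖m τ - a‖ = ρ * Real.exp τ.im := by
    intro τ
    rw [hm]
    simp only
    rw [add_sub_cancel_left, norm_mul, Complex.norm_exp, hns]
    congr 2
    simp
  have hnim : ∀ t, t ≠ a → (n t).im = Real.log (‖t - a‖ / ρ) := by
    intro t _
    rw [hn]
    simp only
    rw [Complex.mul_im, Complex.I_re, Complex.I_im, zero_mul, one_mul, zero_add, Complex.log_re,
      norm_div, hns]
  have hna : ∀ t, (t - a) / (s - a) ∈ Complex.slitPlane → AnalyticAt ℂ n t := by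
    intro t ht
    refine analyticAt_const.mul (AnalyticAt.clog ?_ ht)
    exact (analyticAt_id.sub analyticAt_const).div analyticAt_const hsa
  have hsl : (s - a) / (s - a) ∈ Complex.slitPlane := by
    rw [div_self hsa]; exact Complex.one_mem_slitPlane
  have hnas : AnalyticAt ℂ n s := hna s hsl
  -- a ball in `τ`
  have hmc : Tendsto m (𝓝 0) (𝓝 s) := by
    have := hmd.continuous.tendsto 0
    rwa [hm0] at this
  obtain ⟨e0, he0, hball⟩ := Metric.eventually_nhds_iff_ball.1 (hmc.eventually (hW.mem_nhds hsW))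
  have hmL : ∀ τ ∈ LD 0 e0, m τ ∈ ball a ρ := by
    intro τ hτ
    rw [mem_ball, dist_eq_norm, hnorm]
    have h1 : τ.im < 0 := by simpa using hτ.2
    have h2 : Real.exp τ.im < 1 := by rw [← Real.exp_zero]; exact Real.exp_lt_exp.2 h1
    nlinarith
  have hnct : Tendsto n (𝓝 s) (𝓝 0) := by
    have := hnas.continuousAt.tendsto
    rwa [hn0] at this
  have hsna : ∀ᶠ t in 𝓝 s, t ≠ a := by
    exact eventually_ne_nhds (sub_ne_zero.1 hsa)
  -- hypotheses of rule1d
  have A1 : DifferentiableOn ℂ (fun τ => Ψ (m τ)) (ball 0 e0) :=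
    hΨ.comp hmd.differentiableOn hball
  have A2 : DifferentiableOn ℂ (fun τ => N (m τ)) (ball 0 e0) :=
    hN.comp hmd.differentiableOn hball
  have A3 : DifferentiableOn ℂ (fun τ => Dn (m τ)) (ball 0 e0) :=
    hDn.comp hmd.differentiableOn hball
  have A4 : ∃ τ ∈ ball (0 : ℂ) e0, Dn (m τ) ≠ 0 := by
    by_contra hcon
    push Not at hcon
    have h1 : Dn =ᶠ[𝓝 s] fun _ => (0 : ℂ) := by
      filter_upwards [hnct.eventually (ball_mem_nhds 0 he0), hsna] with t h2 h3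
      have := hcon _ h2
      rwa [hmn t h3] at this
    have h4 := (hDn.analyticOnNhd hW).eqOn_of_preconnected_of_eventuallyEq
      (analyticOnNhd_const) hWc hsW h1
    obtain ⟨t, ht, ht'⟩ := hDn0
    exact ht' (h4 ht)
  have A5 : DifferentiableOn ℂ (fun τ => B (m τ)) (LD 0 e0) :=
    hB.comp hmd.differentiableOn hmL
  have A6 : ∀ τ ∈ LD 0 e0, B (m τ) ∈ S := fun τ hτ => (hBP _ (hmL τ hτ)).1
  have A7 : ∃ τ ∈ LD 0 e0, deriv (fun τ => B (m τ)) τ ≠ 0 := by
    by_contra hcon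
    push Not at hcon
    have hτ2 : (0 : ℂ) - ((e0 / 2 : ℝ) : ℂ) * Complex.I ∈ LD 0 e0 :=
      mem_LD_self (by positivity) (by linarith)
    set τ2 : ℂ := (0 : ℂ) - ((e0 / 2 : ℝ) : ℂ) * Complex.I with hτ2d
    have hcst : ∀ τ ∈ LD 0 e0, B (m τ) = B (m τ2) := by
      intro τ hτ
      exact (isOpen_LD 0 e0).is_const_of_deriv_eq_zero (convex_LD 0 e0).isPreconnected A5
        (fun z hz => hcon z hz) hτ hτ2
    -- near `m τ2`, `B` is constant
    have hmder : HasDerivAt m ((s - a) * (Complex.exp (-(Complex.I * τ2)) * (-(Complex.I)))) τ2 := by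
      have h0 : HasDerivAt (fun τ : ℂ => -(Complex.I * τ)) (-(Complex.I * 1)) τ2 :=
        ((hasDerivAt_id τ2).const_mul Complex.I).neg
      have h1 := (h0.cexp.const_mul (s - a)).const_add a
      rw [mul_one] at h1
      exact h1
    have hmne : (s - a) * (Complex.exp (-(Complex.I * τ2)) * (-(Complex.I))) ≠ 0 :=
      mul_ne_zero hsa (mul_ne_zero (Complex.exp_ne_zero _) (by simp))
    have hopen : map m (𝓝 τ2) = 𝓝 (m τ2) := by
      have h2 : HasStrictDerivAt m ((s - a) * (Complex.exp (-(Complex.I * τ2)) * (-(Complex.I)))) τ2 := by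
        have h3 : AnalyticAt ℂ m τ2 := hmd.analyticAt τ2
        have h4 := h3.hasStrictDerivAt
        rwa [hmder.deriv] at h4
      exact h2.map_nhds_eq hmne
    have hBc : B =ᶠ[𝓝 (m τ2)] fun _ => B (m τ2) := by
      rw [← hopen]
      change ∀ᶠ y in map m (𝓝 τ2), B y = B (m τ2)
      rw [eventually_map]
      filter_upwards [(isOpen_LD 0 e0).mem_nhds hτ2] with τ hτ
      exact hcst τ hτ
    have hEq := (hB.analyticOnNhd isOpen_ball).eqOn_of_preconnected_of_eventuallyEq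
      (analyticOnNhd_const) (convex_ball a ρ).isPreconnected (hmL _ hτ2) hBc
    obtain ⟨t, ht, ht'⟩ := hnc
    apply ht'
    have h5 : B =ᶠ[𝓝 t] fun _ => B (m τ2) := by
      filter_upwards [isOpen_ball.mem_nhds ht] with y hy
      exact hEq hy
    rw [h5.deriv_eq]; simp
  obtain ⟨r, hr, hre, Bt, hBt, hBtP, hBtB⟩ := hR 0 e0 he0 _ _ _ _ A1 A2 A3 A4 A5 A6
    A7 (fun τ hτ => (hBP _ (hmL τ hτ)).2.1) (fun τ hτ => (hBP _ (hmL τ hτ)).2.2)
  have hev : ∀ᶠ t in 𝓝 s, AnalyticAt ℂ n t ∧ n t ∈ ball (0 : ℂ) r ∧ t ≠ a := by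
    exact hnas.eventually_analyticAt.and ((hnct.eventually (ball_mem_nhds 0 hr)).and hsna)
  obtain ⟨δ, hδ, hδb⟩ := Metric.eventually_nhds_iff_ball.1 hev
  refine ⟨δ, hδ, fun t => Bt (n t), ?_, ?_, ?_⟩
  · intro t ht
    obtain ⟨b1, b2, b3⟩ := hδb t ht
    exact ((hBt.differentiableAt (isOpen_ball.mem_nhds b2)).comp t
      b1.differentiableAt).differentiableWithinAt
  · intro t ht
    obtain ⟨b1, b2, b3⟩ := hδb t ht
    obtain ⟨c1, c2, c3⟩ := hBtP (n t) b2
    rw [hmn t b3] at c2 c3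
    exact ⟨c1, c2, c3⟩
  · intro t ht hta
    obtain ⟨b1, b2, b3⟩ := hδb t ht
    have hL : n t ∈ LD 0 r := by
      refine ⟨b2, ?_⟩
      change (n t).im < (0 : ℂ).im
      rw [hnim t b3, Complex.zero_im]
      refine Real.log_neg (div_pos (norm_pos_iff.2 (sub_ne_zero.2 b3)) hρ) ?_
      rw [div_lt_one hρ, ← dist_eq_norm]
      exact hta
    have hh := hBtB hL
    simp only at hh
    change Bt (n t) = B t
    rw [hh, hmn t b3]

/-- **F1(ii), germ version**: the tangent-line data `Ψ, N, Dn` are holomorphic on the disc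
`ball t1 ε`, a non-constant germ of the label `B` is given at a point `t0` of the disc; then the
label continues to the whole disc, with values in the strip. -/
theorem rule1gS {S : Set ℂ} {ψ H : ℂ → ℂ} (hR : R1D S ψ H)
    {t1 t0 : ℂ} {ε : ℝ} {Ψ N Dn : ℂ → ℂ}
    (hΨ : DifferentiableOn ℂ Ψ (ball t1 ε)) (hN : DifferentiableOn ℂ N (ball t1 ε))
    (hDn : DifferentiableOn ℂ Dn (ball t1 ε)) (hDn0 : ∃ t ∈ ball t1 ε, Dn t ≠ 0)
    (ht0 : t0 ∈ ball t1 ε) {B : ℂ → ℂ} (hB : AnalyticAt ℂ B t0)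
    (hBP : ∀ᶠ t in 𝓝 t0, PVS S ψ H Ψ N Dn t (B t)) (hnc : ∃ᶠ t in 𝓝 t0, deriv B t ≠ 0) :
    ∃ Bt : ℂ → ℂ, DifferentiableOn ℂ Bt (ball t1 ε) ∧
      (∀ t ∈ ball t1 ε, PVS S ψ H Ψ N Dn t (Bt t)) ∧ Bt =ᶠ[𝓝 t0] B := by
  have h0 : ‖t1 - t0‖ < ε := by rw [← dist_eq_norm, dist_comm]; exact ht0
  have hε : 0 < ε := (norm_nonneg _).trans_lt h0
  set E : ℝ → Prop := fun r => ∃ Bt : ℂ → ℂ, DifferentiableOn ℂ Bt (Wr t0 t1 ε r) ∧
      (∀ t ∈ Wr t0 t1 ε r, PVS S ψ H Ψ N Dn t (Bt t)) ∧ Bt =ᶠ[𝓝 t0] B with hE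
  -- (1) small `r`
  have hsmall : ∃ r : ℝ, 0 < r ∧ r < 1 ∧ E r := by
    obtain ⟨d, hd, hdb⟩ := Metric.eventually_nhds_iff_ball.1 (hB.eventually_analyticAt.and hBP)
    have hr : 0 < min (1 / 2) (d / (2 * ε)) := by positivity
    refine ⟨min (1 / 2) (d / (2 * ε)), hr, by linarith [min_le_left (1 / 2 : ℝ) (d / (2 * ε))],
      B, ?_, ?_, EventuallyEq.rfl⟩
    all_goals
      have hsub : Wr t0 t1 ε (min (1 / 2) (d / (2 * ε))) ⊆ ball t0 d := by
        refine (Wr_small h0 hr).trans (ball_subset_ball ?_)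
        have := min_le_right (1 / 2 : ℝ) (d / (2 * ε))
        calc 2 * min (1 / 2) (d / (2 * ε)) * ε ≤ 2 * (d / (2 * ε)) * ε := by gcongr
          _ = d := by field_simp
    · intro t ht
      exact (hdb t (hsub ht)).1.differentiableAt.differentiableWithinAt
    · intro t ht
      exact (hdb t (hsub ht)).2
  -- uniqueness
  have huniq : ∀ r r' : ℝ, 0 < r → r ≤ r' → ∀ B1 B2 : ℂ → ℂ,
      DifferentiableOn ℂ B1 (Wr t0 t1 ε r) → DifferentiableOn ℂ B2 (Wr t0 t1 ε r') →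
      B1 =ᶠ[𝓝 t0] B → B2 =ᶠ[𝓝 t0] B → EqOn B1 B2 (Wr t0 t1 ε r) := by
    intro r r' hr hrr B1 B2 d1 d2 e1 e2
    exact (d1.analyticOnNhd isOpen_ball).eqOn_of_preconnected_of_eventuallyEq
      ((d2.mono (Wr_mono h0 hrr)).analyticOnNhd isOpen_ball) (convex_ball _ _).isPreconnected
      (Wr_self h0 hr) (e1.trans e2.symm)
  -- (2) downward closed
  have hdown : ∀ r r' : ℝ, r ≤ r' → E r' → E r := by
    rintro r r' hrr ⟨Bt, b1, b2, b3⟩
    exact ⟨Bt, b1.mono (Wr_mono h0 hrr), fun t ht => b2 t (Wr_mono h0 hrr ht), b3⟩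
  -- (3) closed under suprema
  have hsup : ∀ R : ℝ, 0 < R → (∀ r, 0 < r → r < R → E r) → E R := by
    intro R hR hall
    have hex : ∀ z ∈ Wr t0 t1 ε R, ∃ r : ℝ, 0 < r ∧ r < R ∧ z ∈ Wr t0 t1 ε r := by
      intro z hz
      have hcont : Tendsto (fun r : ℝ => r * ε - ‖z - (t0 + r * (t1 - t0))‖) (𝓝[<] R)
          (𝓝 (R * ε - ‖z - (t0 + R * (t1 - t0))‖)) := by
        have : ContinuousAt (fun r : ℝ => r * ε - ‖z - (t0 + r * (t1 - t0))‖) R := by fun_prop
        exact this.tendsto.mono_left nhdsWithin_le_nhds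
      have hpos : 0 < R * ε - ‖z - (t0 + R * (t1 - t0))‖ := by
        unfold Wr at hz
        rw [mem_ball, dist_eq_norm] at hz
        linarith
      obtain ⟨r, hr1, hr2⟩ := ((hcont.eventually (lt_mem_nhds hpos)).and
        (Ioo_mem_nhdsLT hR)).exists
      refine ⟨r, hr2.1, hr2.2, ?_⟩
      unfold Wr
      rw [mem_ball, dist_eq_norm]
      linarith
    choose! ρ hρ0 hρR hρm using hex
    choose! Br hBr1 hBr2 hBr3 using hall
    have key : ∀ r : ℝ, 0 < r → r < R → ∀ z ∈ Wr t0 t1 ε r, Br (ρ z) z = Br r z := by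
      intro r hr hrR z hz
      have hzR : z ∈ Wr t0 t1 ε R := Wr_mono h0 hrR.le hz
      have a1 := hρ0 z hzR
      have a2 := hρR z hzR
      have a3 := hρm z hzR
      rcases le_total (ρ z) r with h5 | h5
      · exact huniq _ _ a1 h5 _ _ (hBr1 _ a1 a2) (hBr1 _ hr hrR) (hBr3 _ a1 a2) (hBr3 _ hr hrR) a3
      · exact (huniq _ _ hr h5 _ _ (hBr1 _ hr hrR) (hBr1 _ a1 a2) (hBr3 _ hr hrR)
          (hBr3 _ a1 a2) hz).symm
    refine ⟨fun z => Br (ρ z) z, ?_, ?_, ?_⟩
    · intro z hz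
      have a1 := hρ0 z hz
      have a2 := hρR z hz
      have a3 := hρm z hz
      have hev : (fun z => Br (ρ z) z) =ᶠ[𝓝 z] Br (ρ z) := by
        filter_upwards [isOpen_ball.mem_nhds a3] with y hy
        exact key _ a1 a2 y hy
      exact (((hBr1 _ a1 a2).differentiableAt (isOpen_ball.mem_nhds a3)).congr_of_eventuallyEq
        hev).differentiableWithinAt
    · intro z hz
      exact hBr2 _ (hρ0 z hz) (hρR z hz) z (hρm z hz)
    · have hR2 : 0 < R / 2 := by positivity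
      have hR3 : R / 2 < R := by linarith
      refine EventuallyEq.trans ?_ (hBr3 _ hR2 hR3)
      filter_upwards [isOpen_ball.mem_nhds (Wr_self h0 hR2)] with y hy
      exact key _ hR2 hR3 y hy
  -- (4) open
  have hstep : ∀ r : ℝ, 0 < r → r < 1 → E r → ∃ r' > r, E r' := by
    rintro r hr hr1 ⟨Bt, b1, b2, b3⟩
    have hrε : 0 < r * ε := by positivity
    have hfr : ∀ s ∈ frontier (Wr t0 t1 ε r), ∃ δ : ℝ, 0 < δ ∧ ∃ F : ℂ → ℂ,
        DifferentiableOn ℂ F (ball s δ) ∧ (∀ t ∈ ball s δ, PVS S ψ H Ψ N Dn t (F t)) ∧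
        ∀ t ∈ ball s δ, t ∈ Wr t0 t1 ε r → F t = Bt t := by
      intro s hs
      have hs1 : dist s (t0 + r * (t1 - t0)) = r * ε := by
        unfold Wr at hs
        rw [frontier_ball _ hrε.ne'] at hs
        exact hs
      have hsW : s ∈ ball t1 ε := Wr_closed h0 hr1 (by rw [mem_closedBall, hs1])
      refine step_discS hR isOpen_ball (convex_ball t1 ε).isPreconnected
        hΨ hN hDn hDn0 b1 b2 ?_ hs1 hsW hrε
      -- non-constant
      have hmem : ∀ᶠ t in 𝓝 t0, t ∈ Wr t0 t1 ε r := isOpen_ball.mem_nhds (Wr_self h0 hr)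
      obtain ⟨t, ht1, ht2, ht3⟩ := (hnc.and_eventually (hmem.and b3.eventually_nhds)).exists
      refine ⟨t, ht2, ?_⟩
      have : Bt =ᶠ[𝓝 t] B := ht3
      rw [this.deriv_eq]
      exact ht1
    have hcomp : IsCompact (closure (Wr t0 t1 ε r)) := by
      unfold Wr
      rw [closure_ball _ hrε.ne']
      exact isCompact_closedBall _ _
    obtain ⟨η, hη, F, f1, f2, f3⟩ := glue_closure isOpen_ball hcomp b1 b2 hfr
    have hr' : r < r + η / (2 * ε) := by
      have : 0 < η / (2 * ε) := by positivity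
      linarith
    have hsub : Wr t0 t1 ε (r + η / (2 * ε)) ⊆ thickening η (Wr t0 t1 ε r) := by
      refine Wr_thick h0 hr hr' (le_of_eq ?_)
      field_simp
      ring
    refine ⟨r + η / (2 * ε), hr', F, f1.mono hsub, fun t ht => f2 t (hsub ht), ?_⟩
    refine EventuallyEq.trans ?_ b3
    filter_upwards [isOpen_ball.mem_nhds (Wr_self h0 hr)] with y hy
    exact f3 hy
  -- conclusion
  have hE1 : E 1 := by
    by_contra hno
    obtain ⟨r1, hr1, hr1', hEr1⟩ := hsmall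
    set A : Set ℝ := {r | 0 < r ∧ r ≤ 1 ∧ E r} with hA
    have hAne : A.Nonempty := ⟨r1, hr1, hr1'.le, hEr1⟩
    have hAb : BddAbove A := ⟨1, fun r hr => hr.2.1⟩
    have hs1 : sSup A ≤ 1 := csSup_le hAne fun r hr => hr.2.1
    have hs0 : 0 < sSup A := hr1.trans_le (le_csSup hAb ⟨hr1, hr1'.le, hEr1⟩)
    have hEs : E (sSup A) := by
      refine hsup _ hs0 fun r hr hrs => ?_
      obtain ⟨r', hr'A, hrr'⟩ := exists_lt_of_lt_csSup hAne hrs
      exact hdown r r' hrr'.le hr'A.2.2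
    rcases hs1.lt_or_eq with hlt | heq
    · obtain ⟨r', hr'1, hr'2⟩ := hstep _ hs0 hlt hEs
      have hm : min r' 1 ∈ A := ⟨lt_min (hs0.trans hr'1) one_pos, min_le_right _ _,
        hdown _ r' (min_le_left _ _) hr'2⟩
      have := le_csSup hAb hm
      rcases min_le_iff.1 this with h5 | h5
      · linarith
      · linarith
    · rw [heq] at hEs
      exact hno hEs
  obtain ⟨Bt, b1, b2, b3⟩ := hE1
  rw [Wr_one] at b1 b2
  exact ⟨Bt, b1, b2, b3⟩


end Crest.Agent.R102.F300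
end
end

-- ▼ part R102/RuleE_300
section

/-!
Row 102, T1-E (helper300): RULE-E: two regular lines `⟹` the vertex is regular, for an entire
curve `(ψ, H)`.  The one-variable rule `r1dE : R1D univ ψ H`, and the joint version `rule2E`.
(The lemmas `cubeS`, `good_puncturedS`, `label_limitE`, `r1dE` follow helper982's `Rule1D_982`.)
-/

set_option autoImplicit false

open Set Filter Topology Metric

noncomputable section

namespace Crest.Agent.R102.F300

open Crest.Agent.R102.Rule982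

lemma cubeS {S : Set ℂ} (hSo : IsOpen S) {ψ H : ℂ → ℂ} (hψ : DifferentiableOn ℂ ψ S)
    (hH : DifferentiableOn ℂ H S) {c : ℂ} (hc : c ≠ 0)
    (rel : ∀ z ∈ S, deriv ψ z * deriv (deriv H) z - deriv (deriv ψ) z * deriv H z +
      deriv ψ z ^ 3 * H z = c)
    {D : Set ℂ} (hD : IsOpen D) {B Ψ η : ℂ → ℂ} (hB : DifferentiableOn ℂ B D)
    (hBS : ∀ t ∈ D, B t ∈ S) (h1 : ∀ t ∈ D, ψ (B t) = Ψ t) (h2 : ∀ t ∈ D, H (B t) = η t)
    (h3 : ∀ t ∈ D, deriv Ψ t ≠ 0) : ∀ t ∈ D, Mf c Ψ η t = deriv B t ^ 3 := by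
  have hSo := hSo
  have hψ' : DifferentiableOn ℂ (deriv ψ) S := hψ.deriv hSo
  have hH' : DifferentiableOn ℂ (deriv H) S := hH.deriv hSo
  have hd : ∀ t ∈ D, HasDerivAt B (deriv B t) t := fun t ht =>
    (hB.differentiableAt (hD.mem_nhds ht)).hasDerivAt
  have hΨd : ∀ t ∈ D, deriv Ψ t = deriv ψ (B t) * deriv B t := by
    intro t ht
    have h4 : HasDerivAt (fun t => ψ (B t)) (deriv ψ (B t) * deriv B t) t :=
      ((hψ.differentiableAt (hSo.mem_nhds (hBS t ht))).hasDerivAt).comp t (hd t ht)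
    refine (h4.congr_of_eventuallyEq ?_).deriv
    filter_upwards [hD.mem_nhds ht] with s hs
    exact (h1 s hs).symm
  have hηd : ∀ t ∈ D, deriv η t = deriv H (B t) * deriv B t := by
    intro t ht
    have h4 : HasDerivAt (fun t => H (B t)) (deriv H (B t) * deriv B t) t :=
      ((hH.differentiableAt (hSo.mem_nhds (hBS t ht))).hasDerivAt).comp t (hd t ht)
    refine (h4.congr_of_eventuallyEq ?_).deriv
    filter_upwards [hD.mem_nhds ht] with s hs
    exact (h2 s hs).symm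
  have hne : ∀ t ∈ D, deriv ψ (B t) ≠ 0 ∧ deriv B t ≠ 0 := by
    intro t ht
    have := h3 t ht
    rw [hΨd t ht] at this
    exact ⟨left_ne_zero_of_mul this, right_ne_zero_of_mul this⟩
  intro t ht
  have hq : HasDerivAt (fun t => deriv H (B t) / deriv ψ (B t))
      ((deriv (deriv H) (B t) * deriv B t * deriv ψ (B t) -
        deriv H (B t) * (deriv (deriv ψ) (B t) * deriv B t)) / deriv ψ (B t) ^ 2) t := by
    have h4 : HasDerivAt (fun t => deriv H (B t)) (deriv (deriv H) (B t) * deriv B t) t :=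
      ((hH'.differentiableAt (hSo.mem_nhds (hBS t ht))).hasDerivAt).comp t (hd t ht)
    have h5 : HasDerivAt (fun t => deriv ψ (B t)) (deriv (deriv ψ) (B t) * deriv B t) t :=
      ((hψ'.differentiableAt (hSo.mem_nhds (hBS t ht))).hasDerivAt).comp t (hd t ht)
    exact h4.div h5 (hne t ht).1
  have hq' : deriv (fun t => deriv η t / deriv Ψ t) t =
      (deriv (deriv H) (B t) * deriv B t * deriv ψ (B t) -
        deriv H (B t) * (deriv (deriv ψ) (B t) * deriv B t)) / deriv ψ (B t) ^ 2 := by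
    refine (hq.congr_of_eventuallyEq ?_).deriv
    filter_upwards [hD.mem_nhds ht] with s hs
    rw [hΨd s hs, hηd s hs, mul_div_mul_right _ _ (hne s hs).2]
  have hr := rel (B t) (hBS t ht)
  unfold Mf
  rw [hq', hΨd t ht, ← h2 t ht]
  have h6 := (hne t ht).1
  rw [div_eq_iff hc]
  field_simp
  linear_combination deriv B t ^ 3 * hr

/-- Step 1: near `t₁` everything is fine off `t₁` -/
lemma good_puncturedS {S : Set ℂ} (hSo : IsOpen S) {ψ H : ℂ → ℂ} (hψ : DifferentiableOn ℂ ψ S)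
    (hH : DifferentiableOn ℂ H S) {c : ℂ} (hc : c ≠ 0)
    (rel : ∀ z ∈ S, deriv ψ z * deriv (deriv H) z - deriv (deriv ψ) z * deriv H z +
      deriv ψ z ^ 3 * H z = c)
    {t₁ : ℂ} {ε : ℝ} (hε : 0 < ε) {Ψ N Dn B : ℂ → ℂ} (hΨ : DifferentiableOn ℂ Ψ (ball t₁ ε))
    (hN : DifferentiableOn ℂ N (ball t₁ ε)) (hDn : DifferentiableOn ℂ Dn (ball t₁ ε))
    (hDn0 : ∃ t ∈ ball t₁ ε, Dn t ≠ 0) (hB : DifferentiableOn ℂ B (LD t₁ ε))
    (hBS : ∀ t ∈ LD t₁ ε, B t ∈ S) (hBnc : ∃ t ∈ LD t₁ ε, deriv B t ≠ 0)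
    (h1 : ∀ t ∈ LD t₁ ε, ψ (B t) = Ψ t) (h2 : ∀ t ∈ LD t₁ ε, Dn t * H (B t) = N t) :
    ∀ᶠ t in 𝓝[≠] t₁, Dn t ≠ 0 ∧ deriv Ψ t ≠ 0 ∧ Mf c Ψ (fun t => N t / Dn t) t ≠ 0 := by
  have hSo := hSo
  have hLo := isOpen_LD t₁ ε
  have hpre : IsPreconnected (ball t₁ ε) := (convex_ball t₁ ε).isPreconnected
  have ht₁ : t₁ ∈ ball t₁ ε := mem_ball_self hε
  have hΨa : AnalyticOnNhd ℂ Ψ (ball t₁ ε) := hΨ.analyticOnNhd isOpen_ball
  have hNa : AnalyticOnNhd ℂ N (ball t₁ ε) := hN.analyticOnNhd isOpen_ball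
  have hDa : AnalyticOnNhd ℂ Dn (ball t₁ ε) := hDn.analyticOnNhd isOpen_ball
  have e1 : ∀ᶠ t in 𝓝[≠] t₁, Dn t ≠ 0 := by
    rcases (hDa t₁ ht₁).eventually_eq_zero_or_eventually_ne_zero with h3 | h3
    · exfalso
      obtain ⟨t, ht, ht0⟩ := hDn0
      exact ht0 (hDa.eqOn_zero_of_preconnected_of_eventuallyEq_zero hpre ht₁ h3 ht)
    · exact h3
  have hΨ'a : AnalyticOnNhd ℂ (deriv Ψ) (ball t₁ ε) := hΨa.deriv
  have e2 : ∀ᶠ t in 𝓝[≠] t₁, deriv Ψ t ≠ 0 := by
    rcases (hΨ'a t₁ ht₁).eventually_eq_zero_or_eventually_ne_zero with h3 | h3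
    · exfalso
      have hz : ∀ t ∈ ball t₁ ε, deriv Ψ t = 0 := fun t ht =>
        hΨ'a.eqOn_zero_of_preconnected_of_eventuallyEq_zero hpre ht₁ h3 ht
      obtain ⟨t₀, ht₀, hB0⟩ := hBnc
      have hBd : ∀ t ∈ LD t₁ ε, HasDerivAt B (deriv B t) t := fun t ht =>
        (hB.differentiableAt (hLo.mem_nhds ht)).hasDerivAt
      have hB'c : ContinuousAt (deriv B) t₀ :=
        ((hB.deriv hLo).differentiableAt (hLo.mem_nhds ht₀)).continuousAt
      have h4 : ∀ᶠ t in 𝓝 t₀, deriv ψ (B t) = 0 := by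
        filter_upwards [hLo.mem_nhds ht₀, hB'c.eventually_ne hB0] with t ht ht'
        have h5 : HasDerivAt (fun t => ψ (B t)) (deriv ψ (B t) * deriv B t) t :=
          ((hψ.differentiableAt (hSo.mem_nhds (hBS t ht))).hasDerivAt).comp t (hBd t ht)
        have h6 : HasDerivAt Ψ (deriv ψ (B t) * deriv B t) t := by
          refine h5.congr_of_eventuallyEq ?_
          filter_upwards [hLo.mem_nhds ht] with s hs
          exact (h1 s hs).symm
        have h7 := h6.deriv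
        rw [hz t ht.1] at h7
        rcases mul_eq_zero.1 h7.symm with h8 | h8
        · exact h8
        · exact absurd h8 ht'
      have h5 : HasDerivAt (fun t => deriv ψ (B t)) (deriv (deriv ψ) (B t₀) * deriv B t₀) t₀ :=
        (((hψ.deriv hSo).differentiableAt (hSo.mem_nhds (hBS t₀ ht₀))).hasDerivAt).comp t₀
          (hBd t₀ ht₀)
      have h6 := h5.unique ((hasDerivAt_const t₀ (0 : ℂ)).congr_of_eventuallyEq h4)
      have h7 : deriv (deriv ψ) (B t₀) = 0 := by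
        rcases mul_eq_zero.1 h6 with h8 | h8
        · exact h8
        · exact absurd h8 hB0
      have h8 := rel (B t₀) (hBS t₀ ht₀)
      rw [h4.self_of_nhds, h7] at h8
      apply hc
      rw [← h8]
      ring
    · exact h3
  -- meromorphy of the cube
  have hMm : MeromorphicAt (Mf c Ψ (fun t => N t / Dn t)) t₁ := by
    have m1 : MeromorphicAt (fun t => N t / Dn t) t₁ :=
      (hNa t₁ ht₁).meromorphicAt.div (hDa t₁ ht₁).meromorphicAt
    have m2 : MeromorphicAt (deriv Ψ) t₁ := (hΨ'a t₁ ht₁).meromorphicAt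
    have m3 : MeromorphicAt (fun t => deriv (fun t => N t / Dn t) t / deriv Ψ t) t₁ :=
      m1.deriv.div m2
    exact ((m3.deriv.add (m1.mul m2)).mul (m2.pow 2)).div (MeromorphicAt.const c t₁)
  have e3 : ∀ᶠ t in 𝓝[≠] t₁, Mf c Ψ (fun t => N t / Dn t) t ≠ 0 := by
    rcases hMm.eventually_eq_zero_or_eventually_ne_zero with h3 | h3
    · exfalso
      have h4 := (h3.and (e1.and e2))
      rw [eventually_nhdsWithin_iff, Metric.eventually_nhds_iff_ball] at h4
      obtain ⟨r, hr, hrr⟩ := h4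
      set r' := min r ε with hr'
      have hr'0 : 0 < r' := lt_min hr hε
      have hsub : LD t₁ r' ⊆ LD t₁ ε := LD_mono (min_le_right _ _)
      have h5 : ∀ t ∈ LD t₁ r', Mf c Ψ (fun t => N t / Dn t) t = deriv B t ^ 3 := by
        refine cubeS hSo hψ hH hc rel (isOpen_LD t₁ r') (hB.mono hsub) (fun t ht => hBS t (hsub ht))
          (fun t ht => h1 t (hsub ht)) (fun t ht => ?_) (fun t ht => ?_)
        · have h6 := hrr t (ball_subset_ball (min_le_left _ _) ht.1) (ne_of_mem_LD ht)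
          rw [eq_div_iff h6.2.1, mul_comm]
          exact h2 t (hsub ht)
        · exact (hrr t (ball_subset_ball (min_le_left _ _) ht.1) (ne_of_mem_LD ht)).2.2
      have h6 : ∀ t ∈ LD t₁ r', deriv B t = 0 := by
        intro t ht
        have h7 := (hrr t (ball_subset_ball (min_le_left _ _) ht.1) (ne_of_mem_LD ht)).1
        rw [h5 t ht] at h7
        exact pow_eq_zero_iff (by norm_num) |>.1 h7
      have hBa : AnalyticOnNhd ℂ (deriv B) (LD t₁ ε) := (hB.deriv hLo).analyticOnNhd hLo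
      have h7 : t₁ - (r' / 2 : ℝ) * Complex.I ∈ LD t₁ r' :=
        mem_LD_self (by positivity) (by linarith)
      obtain ⟨t₀, ht₀, hB0⟩ := hBnc
      refine hB0 (hBa.eqOn_zero_of_preconnected_of_eventuallyEq_zero
        (convex_LD t₁ ε).isPreconnected (hsub h7) ?_ ht₀)
      filter_upwards [(isOpen_LD t₁ r').mem_nhds h7] with s hs
      exact h6 s hs
    · exact h3
  filter_upwards [e1, e2, e3] with t a1 a2 a3
  exact ⟨a1, a2, a3⟩

/-! ### no period, limit at the puncture, for an entire curve -/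

/-- an entire tangent angle `ψ`, `ψ (z + 1) = ψ z + 2π`, has no period -/
lemma no_period {ψ : ℂ → ℂ} (hψ : Differentiable ℂ ψ) (hper : ∀ z, ψ (z + 1) = ψ z + 2 * Real.pi)
    {P : ℂ} (hP : ∀ z, ψ (z + P) = ψ z) : P = 0 := by
  have hPn : ∀ n : ℕ, ∀ z, ψ (z + n * P) = ψ z := by
    intro n
    induction n with
    | zero => intro z; simp
    | succ n ih =>
      intro z
      have h1 : z + ((n + 1 : ℕ) : ℂ) * P = (z + n * P) + P := by push_cast; ring
      rw [h1, hP, ih]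
  by_cases him : P.im = 0
  · have hPre : P = (P.re : ℂ) := by
      apply Complex.ext
      · simp
      · simp [him]
    have hP0 : P.re = 0 := by
      set k : ℝ → ℂ := fun x => ψ x - 2 * Real.pi * x with hk
      have hkper : Function.Periodic k 1 := by
        intro x
        simp only [hk]
        have h1 : ((x + 1 : ℝ) : ℂ) = (x : ℂ) + 1 := by push_cast; ring
        rw [h1, hper]
        ring
      have hkc : Continuous k := by
        have h1 : Continuous fun x : ℝ => ψ x := hψ.continuous.comp Complex.continuous_ofReal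
        exact h1.sub (by fun_prop)
      obtain ⟨C, hC⟩ := (hkper.isBounded_of_continuous one_ne_zero hkc).exists_norm_le
      have hC' : ∀ x, ‖k x‖ ≤ C := fun x => hC _ (mem_range_self x)
      by_contra hne
      have h1 : ∀ n : ℕ, (n : ℝ) * (2 * Real.pi * |P.re|) ≤ ‖ψ 0‖ + C := by
        intro n
        have h2 : (2 * Real.pi * ((n * P.re : ℝ) : ℂ)) = ψ 0 - k (n * P.re) := by
          simp only [hk]
          have h3 : ((n * P.re : ℝ) : ℂ) = 0 + n * P := by
            rw [hPre]; push_cast; simp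
          have h4 : ψ ((n * P.re : ℝ) : ℂ) = ψ 0 := by rw [h3]; exact hPn n 0
          rw [h4]
          ring
        have h3 : ‖(2 * Real.pi * ((n * P.re : ℝ) : ℂ))‖ = (n : ℝ) * (2 * Real.pi * |P.re|) := by
          rw [norm_mul, norm_mul, Complex.norm_real, Complex.norm_real, Real.norm_eq_abs,
            Real.norm_eq_abs, abs_mul, Nat.abs_cast, abs_of_pos Real.pi_pos, Complex.norm_ofNat]
          ring
        rw [← h3, h2]
        exact (norm_sub_le _ _).trans (by linarith [hC' (n * P.re)])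
      obtain ⟨n, hn⟩ := exists_nat_gt ((‖ψ 0‖ + C) / (2 * Real.pi * |P.re|))
      have h2 : 0 < 2 * Real.pi * |P.re| := by
        have := abs_pos.2 hne
        positivity
      rw [div_lt_iff₀ h2] at hn
      linarith [h1 n]
    rw [hPre, hP0]
    simp
  · exfalso
    set f : ℂ → ℂ := deriv ψ with hf
    have hfd : Differentiable ℂ f := hψ.deriv
    have hf1 : Function.Periodic f 1 := by
      intro z
      have h1 : deriv (fun z => ψ (z + 1)) z = deriv ψ (z + 1) := deriv_comp_add_const _ _ _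
      have h2 : (fun z => ψ (z + 1)) = fun z => ψ z + 2 * Real.pi := funext hper
      rw [h2, deriv_add_const] at h1
      exact h1.symm
    have hf2 : Function.Periodic f P := by
      intro z
      have h1 : deriv (fun z => ψ (z + P)) z = deriv ψ (z + P) := deriv_comp_add_const _ _ _
      have h2 : (fun z => ψ (z + P)) = fun z => ψ z := funext hP
      rw [h2] at h1
      exact h1.symm
    have hbd : Bornology.IsBounded (range f) := by
      have hcomp : IsCompact (f '' closedBall 0 (1 + |P.im|)) :=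
        (isCompact_closedBall _ _).image hfd.continuous
      refine hcomp.isBounded.subset ?_
      rintro _ ⟨z, rfl⟩
      set n : ℤ := ⌊z.im / P.im⌋ with hn
      set z' : ℂ := z - n * P with hz'
      set m : ℤ := ⌊z'.re⌋ with hm
      set z'' : ℂ := z' - m * 1 with hz''
      have e1 : f z'' = f z := by
        have a1 : f z' = f z := by
          rw [hz']
          rw [← zsmul_eq_mul]
          exact Function.Periodic.sub_zsmul_eq (f := f) hf2 n
        have a2 : f z'' = f z' := by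
          rw [hz'']
          rw [← zsmul_eq_mul]
          exact Function.Periodic.sub_zsmul_eq (f := f) hf1 m
        rw [a2, a1]
      refine ⟨z'', ?_, e1⟩
      rw [mem_closedBall, dist_zero_right]
      have b1 : z''.re = Int.fract z'.re := by
        rw [hz'', ← Int.self_sub_floor, ← hm]
        simp only [mul_one, Complex.sub_re, Complex.intCast_re]
      have b2 : z''.im = Int.fract (z.im / P.im) * P.im := by
        rw [hz'', hz']
        simp only [mul_one, Complex.sub_im, Complex.mul_im, Complex.intCast_re, Complex.intCast_im,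
          zero_mul, add_zero, sub_zero]
        rw [← Int.self_sub_floor, ← hn, sub_mul, div_mul_cancel₀ _ him]
      refine (Complex.norm_le_abs_re_add_abs_im z'').trans ?_
      rw [b1, b2, abs_mul, abs_of_nonneg (Int.fract_nonneg _), abs_of_nonneg (Int.fract_nonneg _)]
      have c1 := (Int.fract_lt_one z'.re).le
      have c2 := (Int.fract_lt_one (z.im / P.im)).le
      have c3 : Int.fract (z.im / P.im) * |P.im| ≤ 1 * |P.im| :=
        mul_le_mul_of_nonneg_right c2 (abs_nonneg _)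
      linarith
    have hconst : ∀ z, f z = f 0 := fun z => hfd.apply_eq_apply_of_bounded hbd z 0
    have hlin : ∀ z, ψ z = ψ 0 + f 0 * z := by
      intro z
      have h1 : ∀ w, HasDerivAt (fun z => ψ z - f 0 * z) 0 w := by
        intro w
        have h2 := (hψ w).hasDerivAt.sub ((hasDerivAt_id w).const_mul (f 0))
        refine h2.congr_deriv ?_
        change f w - f 0 * 1 = 0
        rw [hconst w]
        ring
      have h2 : Differentiable ℂ (fun z => ψ z - f 0 * z) := fun w => (h1 w).differentiableAt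
      have h3 := is_const_of_deriv_eq_zero h2 (fun w => (h1 w).deriv) z 0
      simp only [mul_zero, sub_zero] at h3
      linear_combination h3
    have hP0 : P ≠ 0 := by
      rintro rfl
      exact him (by simp)
    have h1 := hP 0
    rw [zero_add, hlin P] at h1
    have h2 : f 0 = 0 := by
      have : f 0 * P = 0 := by linear_combination h1
      rcases mul_eq_zero.1 this with h | h
      · exact h
      · exact absurd h hP0
    have h3 := hper 0
    rw [zero_add, hlin 1, h2] at h3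
    have h4 : (2 * Real.pi : ℂ) = 0 := by linear_combination -h3
    have h5 : (Real.pi : ℂ) ≠ 0 := Complex.ofReal_ne_zero.2 Real.pi_ne_zero
    exact (mul_ne_zero two_ne_zero h5) h4

/-- a periodic holomorphic label on the half plane whose tangent angle is bounded has a limit -/
lemma cuspE {a : ℝ} {ψ Bh Ph : ℂ → ℂ} (hψ : Differentiable ℂ ψ)
    (hψper : ∀ z, ψ (z + 1) = ψ z + 2 * Real.pi)
    (hB : DifferentiableOn ℂ Bh (HPl a))
    (hper : ∀ z ∈ HPl a, Bh (z + 6 * Real.pi * Complex.I) = Bh z)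
    (hP : ∀ z ∈ HPl a, ψ (Bh z) = Ph z) {K : ℝ} (hK : ∀ z ∈ HPl a, ‖Ph z‖ ≤ K) :
    ∃ d, Tendsto Bh LI (𝓝 d) := by
  have := LI_neBot
  have hψn : ∀ (z : ℂ) (n : ℕ), ψ (z + n) = ψ z + 2 * Real.pi * n := by
    intro z n
    induction n with
    | zero => simp
    | succ n ih =>
      have h1 : z + ((n + 1 : ℕ) : ℂ) = (z + n) + 1 := by push_cast; ring
      rw [h1, hψper, ih]
      push_cast
      ring
  have hbig : ∀ z : ℂ, ∀ n : ℕ, 2 * Real.pi * n - ‖ψ z‖ ≤ ‖ψ (z + n)‖ := by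
    intro z n
    rw [hψn]
    have h1 : ‖(2 * Real.pi * n : ℂ)‖ = 2 * Real.pi * n := by
      rw [norm_mul, norm_mul, Complex.norm_natCast, Complex.norm_real, Real.norm_eq_abs,
        abs_of_pos Real.pi_pos, Complex.norm_ofNat]
    have h2 := norm_sub_norm_le (2 * Real.pi * n : ℂ) (-ψ z)
    rw [norm_neg, h1, sub_neg_eq_add, add_comm (2 * Real.pi * n : ℂ)] at h2
    exact h2
  -- a forbidden point
  obtain ⟨zs, hzs⟩ : ∃ zs : ℂ, K < ‖ψ zs‖ := by
    obtain ⟨n, hn⟩ := exists_nat_gt ((K + ‖ψ 0‖) / (2 * Real.pi))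
    rw [div_lt_iff₀ (by positivity)] at hn
    refine ⟨0 + n, ?_⟩
    have := hbig 0 n
    linarith
  obtain ⟨r, hr, hrr⟩ := Metric.eventually_nhds_iff_ball.1
    ((hψ.continuous.norm.tendsto zs).eventually (lt_mem_nhds hzs))
  have hfar : ∀ z ∈ HPl a, r ≤ ‖Bh z - zs‖ := by
    intro z hz
    by_contra hcon
    push Not at hcon
    have h1 := hrr (Bh z) (by rw [mem_ball, dist_eq_norm]; exact hcon)
    rw [hP z hz] at h1
    exact absurd (hK z hz) (not_le.2 h1)
  have hne : ∀ z ∈ HPl a, Bh z - zs ≠ 0 := by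
    intro z hz h0
    have := hfar z hz
    rw [h0, norm_zero] at this
    linarith
  obtain ⟨F, hF1, hF2, hF3⟩ := cusp_main (a := a) (C := r⁻¹) (G := fun z => (Bh z - zs)⁻¹)
    ((hB.sub_const zs).inv hne)
    (fun z hz => by simp only [hper z hz])
    (fun z hz => by
      rw [norm_inv]
      exact inv_anti₀ hr (hfar z hz))
  have hF0 : F 0 ≠ 0 := by
    intro h0
    have hFa : AnalyticAt ℂ F 0 :=
      (Complex.analyticAt_iff_eventually_differentiableAt).2 hF1
    rcases hFa.eventually_constant_or_nhds_le_map_nhds with h1 | h1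
    · have h2 : ∀ᶠ q in 𝓝[≠] (0 : ℂ), F q = F 0 := h1.filter_mono nhdsWithin_le_nhds
      obtain ⟨q, hq1, z, hz, hq2⟩ := (h2.and hF3).exists
      rw [hq1, h0] at hq2
      exact (inv_ne_zero (hne z hz)) hq2.symm
    · rw [h0] at h1
      have h3 : ∀ᶠ q in 𝓝 (0 : ℂ), q ≠ 0 → ∃ z ∈ HPl a, F q = (Bh z - zs)⁻¹ :=
        eventually_nhdsWithin_iff.1 hF3
      have h4 : {v : ℂ | v ≠ 0 → ∃ z ∈ HPl a, v = (Bh z - zs)⁻¹} ∈ 𝓝 (0 : ℂ) := by
        apply h1
        rw [mem_map]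
        filter_upwards [h3] with q hq hq0
        refine hq ?_
        rintro rfl
        exact hq0 h0
      have h5 : Tendsto (fun n : ℕ => ((n : ℂ))⁻¹) atTop (𝓝 0) := by
        exact tendsto_inv₀_cobounded.comp tendsto_natCast_atTop_cobounded
      obtain ⟨N0, hN0⟩ := exists_nat_gt ((K + ‖ψ zs‖) / (2 * Real.pi))
      rw [div_lt_iff₀ (by positivity)] at hN0
      obtain ⟨n, hn1, hn2, hn3⟩ := ((h5.eventually h4).and
        ((eventually_ge_atTop N0).and (eventually_gt_atTop 0))).exists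
      have hn0 : (n : ℂ) ≠ 0 := Nat.cast_ne_zero.2 hn3.ne'
      obtain ⟨z, hz, hzn⟩ := hn1 (inv_ne_zero hn0)
      have h6 : Bh z = zs + n := by
        have := inv_injective hzn
        rw [this]; ring
      have h7 := hbig zs n
      rw [← h6, hP z hz] at h7
      have h8 := hK z hz
      have h9 : (N0 : ℝ) ≤ n := by exact_mod_cast hn2
      have h10 : (N0 : ℝ) * (2 * Real.pi) ≤ n * (2 * Real.pi) :=
        mul_le_mul_of_nonneg_right h9 (by positivity)
      linarith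
  refine ⟨zs + (F 0)⁻¹, ?_⟩
  have h1 : Tendsto (fun z => zs + ((Bh z - zs)⁻¹)⁻¹) LI (𝓝 (zs + (F 0)⁻¹)) :=
    (hF2.inv₀ hF0).const_add zs
  refine h1.congr fun z => ?_
  rw [inv_inv]
  ring

lemma period_zeroE {a : ℝ} {ψ g Bh Ph : ℂ → ℂ} (hψ : Differentiable ℂ ψ)
    (hψper : ∀ z, ψ (z + 1) = ψ z + 2 * Real.pi)
    (hB : ∀ z ∈ HPl a, HasDerivAt Bh (g z) z) (hg : DifferentiableOn ℂ g (HPl a))
    (hg0 : ∀ z ∈ HPl a, g z ≠ 0)
    (hg3 : ∀ z ∈ HPl a, g (z + (2 * Real.pi : ℝ) * Complex.I) ^ 3 = g z ^ 3)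
    (hP : ∀ z ∈ HPl a, ψ (Bh z) = Ph z)
    (hPper : ∀ z ∈ HPl a, Ph (z + (2 * Real.pi : ℝ) * Complex.I) = Ph z) :
    ∀ z ∈ HPl a, Bh (z + 6 * Real.pi * Complex.I) = Bh z := by
  have ho := isOpen_HPl a
  set T : ℂ := (2 * Real.pi : ℝ) * Complex.I with hT
  have hsh : ∀ z ∈ HPl a, z + T ∈ HPl a := fun z hz => add_mem_HPl hz _
  have hz₀ : ((a - 1 : ℝ) : ℂ) ∈ HPl a := by
    change ((a - 1 : ℝ) : ℂ).re < a
    simp
  set z₀ : ℂ := ((a - 1 : ℝ) : ℂ)
  have hgd : ∀ z ∈ HPl a, HasDerivAt g (deriv g z) z := fun z hz =>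
    (hg.differentiableAt (ho.mem_nhds hz)).hasDerivAt
  -- the factor `ω`
  obtain ⟨ω, hω3, hω⟩ := cube_const ho (convex_HPl a) (f := fun z => g (z + T)) (g := g)
    (by
      intro z hz
      exact ((hgd _ (hsh z hz)).comp_add_const z T).differentiableAt.differentiableWithinAt)
    hg hg0 hg3 hz₀
  have hg6 : ∀ z ∈ HPl a, g (z + 6 * Real.pi * Complex.I) = g z := by
    intro z hz
    have h1 : z + 6 * Real.pi * Complex.I = z + T + T + T := by
      rw [hT]; push_cast; ring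
    rw [h1, hω _ (hsh _ (hsh z hz)), hω _ (hsh z hz), hω z hz]
    linear_combination g z * hω3
  have hsh6 : ∀ z ∈ HPl a, z + 6 * Real.pi * Complex.I ∈ HPl a := by
    intro z hz
    have := add_mem_HPl hz (6 * Real.pi)
    push_cast at this
    exact this
  have hc : ∀ z ∈ HPl a, HasDerivAt (fun z => Bh (z + 6 * Real.pi * Complex.I) - Bh z) 0 z := by
    intro z hz
    have h1 := ((hB _ (hsh6 z hz)).comp_add_const z (6 * Real.pi * Complex.I)).sub (hB z hz)
    rw [hg6 z hz, sub_self] at h1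
    exact h1
  set P : ℂ := Bh (z₀ + 6 * Real.pi * Complex.I) - Bh z₀ with hPd
  have hstep : ∀ z ∈ HPl a, Bh (z + 6 * Real.pi * Complex.I) = Bh z + P := by
    intro z hz
    have h1 : Bh (z + 6 * Real.pi * Complex.I) - Bh z = Bh (z₀ + 6 * Real.pi * Complex.I) - Bh z₀ :=
      const_of_deriv_zero hc hz hz₀
    rw [hPd, ← h1]
    ring
  have hPh : ∀ z ∈ HPl a, Ph (z + 6 * Real.pi * Complex.I) = Ph z := by
    intro z hz
    have h1 : z + 6 * Real.pi * Complex.I = z + T + T + T := by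
      rw [hT]; push_cast; ring
    rw [h1, hPper _ (hsh _ (hsh z hz)), hPper _ (hsh z hz), hPper z hz]
  -- `P` is a period of `ψ` near `Bh z₀`
  have hopen : map Bh (𝓝 z₀) = 𝓝 (Bh z₀) := by
    have h2 : AnalyticAt ℂ Bh z₀ := by
      have h3 : DifferentiableOn ℂ Bh (HPl a) := fun z hz =>
        (hB z hz).differentiableAt.differentiableWithinAt
      exact h3.analyticAt (ho.mem_nhds hz₀)
    have h4 := h2.hasStrictDerivAt
    rw [(hB z₀ hz₀).deriv] at h4
    exact h4.map_nhds_eq (hg0 z₀ hz₀)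
  have hloc : (fun w => ψ (w + P)) =ᶠ[𝓝 (Bh z₀)] ψ := by
    rw [← hopen]
    change ∀ᶠ w in map Bh (𝓝 z₀), ψ (w + P) = ψ w
    rw [eventually_map]
    filter_upwards [ho.mem_nhds hz₀] with z hz
    rw [← hstep z hz, hP _ (hsh6 z hz), hPh z hz, hP z hz]
  have hall : (fun w => ψ (w + P)) = ψ := by
    have h1 : Differentiable ℂ fun w => ψ (w + P) := hψ.comp (by fun_prop)
    exact AnalyticOnNhd.eq_of_eventuallyEq (fun z _ => h1.analyticAt z)
      (fun z _ => hψ.analyticAt z) hloc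
  have hP0 : P = 0 := no_period hψ hψper fun z => congrFun hall z
  intro z hz
  rw [hstep z hz, hP0, add_zero]

/-- Step 2: the label has a limit in the strip, and `η` has the corresponding limit -/
lemma label_limitE {ψ H : ℂ → ℂ} (hψ : Differentiable ℂ ψ)
    (hH : Differentiable ℂ H) {c : ℂ} (hc : c ≠ 0)
    (rel : ∀ z, deriv ψ z * deriv (deriv H) z - deriv (deriv ψ) z * deriv H z +
      deriv ψ z ^ 3 * H z = c)
    (hψper : ∀ z, ψ (z + 1) = ψ z + 2 * Real.pi)
    {t₁ : ℂ} {ε : ℝ} (hε : 0 < ε) {Ψ N Dn B : ℂ → ℂ} (hΨ : DifferentiableOn ℂ Ψ (ball t₁ ε))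
    (hN : DifferentiableOn ℂ N (ball t₁ ε)) (hDn : DifferentiableOn ℂ Dn (ball t₁ ε))
    (hDn0 : ∃ t ∈ ball t₁ ε, Dn t ≠ 0) (hB : DifferentiableOn ℂ B (LD t₁ ε))
    (hBnc : ∃ t ∈ LD t₁ ε, deriv B t ≠ 0)
    (h1 : ∀ t ∈ LD t₁ ε, ψ (B t) = Ψ t) (h2 : ∀ t ∈ LD t₁ ε, Dn t * H (B t) = N t) :
    ∃ d, Tendsto B (𝓝[LD t₁ ε] t₁) (𝓝 d) ∧
      Tendsto (fun t => N t / Dn t) (𝓝[≠] t₁) (𝓝 (H d)) := by
  have hgood := good_puncturedS isOpen_univ hψ.differentiableOn hH.differentiableOn hc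
    (fun z _ => rel z) hε hΨ hN hDn hDn0 hB (fun t _ => mem_univ _) hBnc h1 h2
  have hΨb : ∀ᶠ t in 𝓝[≠] t₁, ‖Ψ t‖ ≤ ‖Ψ t₁‖ + 1 := by
    refine nhdsWithin_le_nhds ?_
    have h3 : ContinuousAt Ψ t₁ := (hΨ.differentiableAt (ball_mem_nhds t₁ hε)).continuousAt
    filter_upwards [h3.norm.eventually (gt_mem_nhds (lt_add_one ‖Ψ t₁‖))] with t ht
    exact ht.le
  replace hgood := hgood.and hΨb
  rw [eventually_nhdsWithin_iff, Metric.eventually_nhds_iff_ball] at hgood
  obtain ⟨r, hr, hrr⟩ := hgood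
  set ε₁ := min r ε with hε₁
  have hε₁0 : 0 < ε₁ := lt_min hr hε
  set Wp : Set ℂ := ball t₁ ε₁ \ {t₁} with hWp
  have hWpo : IsOpen Wp := isOpen_ball.sdiff isClosed_singleton
  have hWpb : Wp ⊆ ball t₁ ε := fun t ht => ball_subset_ball (min_le_right _ _) ht.1
  have hW : ∀ t ∈ Wp, Dn t ≠ 0 ∧ deriv Ψ t ≠ 0 ∧ Mf c Ψ (fun t => N t / Dn t) t ≠ 0 :=
    fun t ht => (hrr t (ball_subset_ball (min_le_left _ _) ht.1) ht.2).1
  have hΨK : ∀ t ∈ Wp, ‖Ψ t‖ ≤ ‖Ψ t₁‖ + 1 :=
    fun t ht => (hrr t (ball_subset_ball (min_le_left _ _) ht.1) ht.2).2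
  have hLsub : LD t₁ ε₁ ⊆ LD t₁ ε := LD_mono (min_le_right _ _)
  have hLW : LD t₁ ε₁ ⊆ Wp := fun t ht => ⟨ht.1, ne_of_mem_LD ht⟩
  set η : ℂ → ℂ := fun t => N t / Dn t with hη
  have hηd : DifferentiableOn ℂ η Wp := (hN.mono hWpb).div (hDn.mono hWpb) fun t ht => (hW t ht).1
  have hΨd : DifferentiableOn ℂ (deriv Ψ) Wp := (hΨ.deriv isOpen_ball).mono hWpb
  have hMd : DifferentiableOn ℂ (Mf c Ψ η) Wp := by
    have m1 : DifferentiableOn ℂ (fun t => deriv η t / deriv Ψ t) Wp :=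
      (hηd.deriv hWpo).div hΨd fun t ht => (hW t ht).2.1
    exact (((m1.deriv hWpo).add (hηd.mul hΨd)).mul (hΨd.pow 2)).div_const c
  have hη2 : ∀ t ∈ LD t₁ ε₁, H (B t) = η t := by
    intro t ht
    rw [hη]
    change H (B t) = N t / Dn t
    rw [eq_div_iff (hW t (hLW ht)).1, mul_comm]
    exact h2 t (hLsub ht)
  have hcube : ∀ t ∈ LD t₁ ε₁, Mf c Ψ η t = deriv B t ^ 3 :=
    cubeS isOpen_univ hψ.differentiableOn hH.differentiableOn hc (fun z _ => rel z)
      (isOpen_LD t₁ ε₁) (hB.mono hLsub) (fun t _ => mem_univ _)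
      (fun t ht => h1 t (hLsub ht)) hη2 (fun t ht => (hW t (hLW ht)).2.1)
  -- logarithmic coordinate
  set a : ℝ := Real.log ε₁ with ha
  set E : ℂ → ℂ := fun z => t₁ + Complex.exp z with hE
  have hEd : ∀ z, HasDerivAt E (Complex.exp z) z := fun z =>
    (Complex.hasDerivAt_exp z).const_add t₁
  have hEW : MapsTo E (HPl a) Wp := by
    intro z hz
    refine ⟨?_, ?_⟩
    · rw [mem_ball, dist_eq_norm, hE]
      simp only [add_sub_cancel_left]
      rw [Complex.norm_exp]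
      have : z.re < Real.log ε₁ := hz
      exact (Real.lt_log_iff_exp_lt hε₁0).1 this
    · rw [mem_singleton_iff, hE]
      simp only [add_eq_left]
      exact Complex.exp_ne_zero z
  have ho := isOpen_HPl a
  have hEdo : DifferentiableOn ℂ E (HPl a) := fun z _ => (hEd z).differentiableAt.differentiableWithinAt
  set Gh : ℂ → ℂ := fun z => Mf c Ψ η (E z) * Complex.exp z ^ 3 with hGh
  have hGhd : DifferentiableOn ℂ Gh (HPl a) :=
    (hMd.comp hEdo hEW).mul ((Complex.differentiable_exp.pow 3).differentiableOn)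
  have hGh0 : ∀ z ∈ HPl a, Gh z ≠ 0 := fun z hz =>
    mul_ne_zero (hW _ (hEW hz)).2.2 (pow_ne_zero 3 (Complex.exp_ne_zero z))
  obtain ⟨g₀, hg₀d, hg₀0, hg₀3⟩ := exists_cbrt hGhd hGh0
  -- the start region
  set Z : Set ℂ := {z | z.re < a} ∩ ({z | -Real.pi < z.im} ∩ {z | z.im < 0}) with hZ
  have hZo : IsOpen Z := (isOpen_lt Complex.continuous_re continuous_const).inter
    ((isOpen_lt continuous_const Complex.continuous_im).inter
      (isOpen_lt Complex.continuous_im continuous_const))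
  have hZc : Convex ℝ Z := (convex_halfSpace_re_lt a).inter
    ((convex_halfSpace_im_gt _).inter (convex_halfSpace_im_lt _))
  have hZH : Z ⊆ HPl a := fun z hz => hz.1
  have hEZ : MapsTo E Z (LD t₁ ε₁) := by
    intro z hz
    refine ⟨(hEW (hZH hz)).1, ?_⟩
    change (t₁ + Complex.exp z).im < t₁.im
    rw [Complex.add_im, Complex.exp_im]
    have h3 : Real.sin z.im < 0 := Real.sin_neg_of_neg_of_neg_pi_lt hz.2.2 hz.2.1
    have h4 := mul_neg_of_pos_of_neg (Real.exp_pos z.re) h3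
    linarith
  have hBZ : ∀ z ∈ Z, HasDerivAt (fun z => B (E z)) (deriv B (E z) * Complex.exp z) z := by
    intro z hz
    have h3 : HasDerivAt B (deriv B (E z)) (E z) :=
      (hB.differentiableAt ((isOpen_LD t₁ ε).mem_nhds (hLsub (hEZ hz)))).hasDerivAt
    exact h3.comp z (hEd z)
  have hbd : DifferentiableOn ℂ (fun z => deriv B (E z) * Complex.exp z) Z := by
    refine DifferentiableOn.mul ?_ Complex.differentiable_exp.differentiableOn
    exact ((hB.deriv (isOpen_LD t₁ ε)).mono hLsub).comp (hEdo.mono hZH) hEZ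
  set z₀ : ℂ := ((a - 1 : ℝ) : ℂ) + ((-(Real.pi / 2) : ℝ) : ℂ) * Complex.I with hz₀d
  have hz₀ : z₀ ∈ Z := by
    have hpi := Real.pi_pos
    refine ⟨?_, ?_, ?_⟩
    · change z₀.re < a
      rw [hz₀d]
      simp
    · change -Real.pi < z₀.im
      rw [hz₀d]
      simp
      linarith
    · change z₀.im < 0
      rw [hz₀d]
      simp
      linarith
  obtain ⟨ω, hω3, hω⟩ := cube_const hZo hZc hbd (hg₀d.mono hZH) (fun z hz => hg₀0 z (hZH hz))
    (fun z hz => by
      rw [hg₀3 z (hZH hz), hGh]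
      simp only
      rw [hcube _ (hEZ hz)]
      ring) hz₀
  have hω0 : ω ≠ 0 := by
    rintro rfl
    norm_num at hω3
  set g : ℂ → ℂ := fun z => ω * g₀ z with hg
  have hgd : DifferentiableOn ℂ g (HPl a) := hg₀d.const_mul ω
  have hg0 : ∀ z ∈ HPl a, g z ≠ 0 := fun z hz => mul_ne_zero hω0 (hg₀0 z hz)
  obtain ⟨Bh, hBh0, hBh⟩ := exists_prim hgd (hZH hz₀) (B (E z₀))
  have hBhZ : ∀ z ∈ Z, Bh z = B (E z) := by
    intro z hz
    have h3 : ∀ z ∈ Z, HasDerivAt (fun z => Bh z - B (E z)) 0 z := by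
      intro z hz
      have h4 := (hBh z (hZH hz)).sub (hBZ z hz)
      rw [hω z hz] at h4
      change HasDerivAt _ (ω * g₀ z - ω * g₀ z) z at h4
      rw [sub_self] at h4
      exact h4
    have h5 : Bh z - B (E z) = Bh z₀ - B (E z₀) := const_of_deriv_zero' hZo hZc h3 hz hz₀
    rw [hBh0, sub_self] at h5
    exact sub_eq_zero.1 h5
  have hBhd : DifferentiableOn ℂ Bh (HPl a) := fun z hz =>
    (hBh z hz).differentiableAt.differentiableWithinAt
  have hall1 : EqOn (fun z => ψ (Bh z)) (fun z => Ψ (E z)) (HPl a) := by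
    refine AnalyticOnNhd.eqOn_of_preconnected_of_eventuallyEq (𝕜 := ℂ)
      ((hψ.comp_differentiableOn hBhd).analyticOnNhd ho)
      ((hΨ.comp hEdo fun z hz => hWpb (hEW hz)).analyticOnNhd ho)
      (convex_HPl a).isPreconnected (hZH hz₀) ?_
    filter_upwards [hZo.mem_nhds hz₀] with z hz
    rw [hBhZ z hz]
    exact h1 _ (hLsub (hEZ hz))
  have hall2 : EqOn (fun z => H (Bh z)) (fun z => η (E z)) (HPl a) := by
    refine AnalyticOnNhd.eqOn_of_preconnected_of_eventuallyEq (𝕜 := ℂ)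
      ((hH.comp_differentiableOn hBhd).analyticOnNhd ho)
      ((hηd.comp hEdo hEW).analyticOnNhd ho)
      (convex_HPl a).isPreconnected (hZH hz₀) ?_
    filter_upwards [hZo.mem_nhds hz₀] with z hz
    rw [hBhZ z hz]
    exact hη2 _ (hEZ hz)
  have hEper : ∀ z, E (z + (2 * Real.pi : ℝ) * Complex.I) = E z := by
    intro z
    simp only [hE]
    congr 1
    have := Complex.exp_periodic z
    push_cast
    exact this
  have hper := period_zeroE (ψ := ψ) (g := g) (Bh := Bh) (Ph := fun z => Ψ (E z))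
    hψ hψper hBh hgd hg0
    (fun z hz => by
      simp only [hg]
      rw [mul_pow, mul_pow, hg₀3 _ (add_mem_HPl hz _), hg₀3 z hz, hGh]
      simp only
      rw [hEper z]
      have := Complex.exp_periodic z
      push_cast
      rw [this])
    (fun z hz => hall1 hz) (fun z _ => by
      rw [hEper z])
  obtain ⟨d, hd⟩ := cuspE (Ph := fun z => Ψ (E z)) hψ hψper hBhd hper (fun z hz => hall1 hz)
    (fun z hz => hΨK _ (hEW hz))
  have hlog : Tendsto (fun t => Complex.log (t - t₁)) (𝓝[≠] t₁) LI := by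
    rw [LI, Filter.tendsto_comap_iff]
    have h3 : (Complex.re ∘ fun t => Complex.log (t - t₁)) = fun t => Real.log ‖t - t₁‖ := by
      funext t
      simp [Complex.log_re]
    rw [h3]
    have h4 : Tendsto (fun t : ℂ => t - t₁) (𝓝[≠] t₁) (𝓝[≠] 0) := by
      refine tendsto_nhdsWithin_of_tendsto_nhds_of_eventually_within _ ?_ ?_
      · have : Tendsto (fun t : ℂ => t - t₁) (𝓝 t₁) (𝓝 (t₁ - t₁)) :=
          (continuous_id.sub continuous_const).tendsto t₁
        rw [sub_self] at this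
        exact this.mono_left nhdsWithin_le_nhds
      · filter_upwards [self_mem_nhdsWithin] with t ht
        exact sub_ne_zero.2 ht
    exact Real.tendsto_log_nhdsGT_zero.comp (tendsto_norm_nhdsNE_zero.comp h4)
  have hElog : ∀ t : ℂ, t ≠ t₁ → E (Complex.log (t - t₁)) = t := by
    intro t ht
    simp only [hE]
    rw [Complex.exp_log (sub_ne_zero.2 ht)]
    ring
  refine ⟨d, ?_, ?_⟩
  · have h3 : Tendsto (fun t => Bh (Complex.log (t - t₁))) (𝓝[LD t₁ ε] t₁) (𝓝 d) :=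
      (hd.comp hlog).mono_left (nhdsWithin_mono _ fun t ht => ne_of_mem_LD ht)
    refine h3.congr' ?_
    have h4 : ∀ᶠ t in 𝓝[LD t₁ ε] t₁, t ∈ ball t₁ ε₁ :=
      nhdsWithin_le_nhds (ball_mem_nhds t₁ hε₁0)
    filter_upwards [h4, self_mem_nhdsWithin] with t ht htL
    have htn := ne_of_mem_LD htL
    have hz : Complex.log (t - t₁) ∈ Z := by
      refine ⟨?_, ?_, ?_⟩
      · change (Complex.log (t - t₁)).re < a
        rw [Complex.log_re, ha]
        rw [mem_ball, dist_eq_norm] at ht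
        exact Real.log_lt_log (norm_pos_iff.2 (sub_ne_zero.2 htn)) ht
      · exact Complex.neg_pi_lt_log_im _
      · change (Complex.log (t - t₁)).im < 0
        rw [Complex.log_im, Complex.arg_neg_iff, Complex.sub_im]
        have : t.im < t₁.im := htL.2
        linarith
    rw [hBhZ _ hz, hElog t htn]
  · have h3 : Tendsto (fun z => H (Bh z)) LI (𝓝 (H d)) :=
      (hH.continuous.tendsto d).comp hd
    refine (h3.comp hlog).congr' ?_
    have h4 : ∀ᶠ t in 𝓝[≠] t₁, t ∈ ball t₁ ε₁ := nhdsWithin_le_nhds (ball_mem_nhds t₁ hε₁0)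
    filter_upwards [h4, self_mem_nhdsWithin] with t ht htn
    have hz : Complex.log (t - t₁) ∈ HPl a := by
      change (Complex.log (t - t₁)).re < a
      rw [Complex.log_re, ha]
      rw [mem_ball, dist_eq_norm] at ht
      exact Real.log_lt_log (norm_pos_iff.2 (sub_ne_zero.2 htn)) ht
    have h5 := hall2 hz
    change H (Bh (Complex.log (t - t₁))) = N t / Dn t
    change H (Bh (Complex.log (t - t₁))) = _ at h5
    rw [h5]
    change N (E (Complex.log (t - t₁))) / Dn (E (Complex.log (t - t₁))) = N t / Dn t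
    rw [hElog t htn]

/-- **F1 (ii), one variable**: two regular lines `=>` the vertex is regular, with label in the
strip. -/
theorem r1dE {ψ H : ℂ → ℂ} (hψ : Differentiable ℂ ψ)
    (hH : Differentiable ℂ H) {c : ℂ} (hc : c ≠ 0)
    (rel : ∀ z, deriv ψ z * deriv (deriv H) z - deriv (deriv ψ) z * deriv H z +
      deriv ψ z ^ 3 * H z = c)
    (hψper : ∀ z, ψ (z + 1) = ψ z + 2 * Real.pi) : R1D univ ψ H := by
  intro t₁ ε hε Ψ N Dn B hΨ hN hDn hDn0 hB _ hBnc h1 h2
  obtain ⟨d, hd1, hd2⟩ := label_limitE hψ hH hc rel hψper hε hΨ hN hDn hDn0 hB hBnc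
    h1 h2
  have hne := LD_neBot (t₁ := t₁) hε
  have hΨa : AnalyticAt ℂ Ψ t₁ := hΨ.analyticAt (ball_mem_nhds t₁ hε)
  have hψa : AnalyticAt ℂ ψ d := hψ.analyticAt d
  have hHa : AnalyticAt ℂ H d := hH.analyticAt d
  have hdΨ : Ψ t₁ = ψ d := by
    have h3 : Tendsto Ψ (𝓝[LD t₁ ε] t₁) (𝓝 (Ψ t₁)) := hΨa.continuousAt.tendsto.mono_left
      nhdsWithin_le_nhds
    have h4 : Tendsto (fun t => ψ (B t)) (𝓝[LD t₁ ε] t₁) (𝓝 (ψ d)) :=
      hψa.continuousAt.tendsto.comp hd1
    have h5 : Tendsto Ψ (𝓝[LD t₁ ε] t₁) (𝓝 (ψ d)) := by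
      refine h4.congr' ?_
      filter_upwards [self_mem_nhdsWithin] with t ht
      exact h1 t ht
    exact tendsto_nhds_unique h3 h5
  -- the local extension
  have key : ∃ Bt : ℂ → ℂ, AnalyticAt ℂ Bt t₁ ∧ Bt t₁ = d ∧ ∀ᶠ t in 𝓝[LD t₁ ε] t₁, Bt t = B t := by
    by_cases hp : deriv ψ d = 0
    · -- use `H`
      have hH0 : deriv H d ≠ 0 := by
        intro h0
        have := rel d
        rw [hp, h0] at this
        apply hc
        rw [← this]
        ring
      obtain ⟨κ, hκa, hκd, -, hκl⟩ := exists_local_inverse hHa hH0 univ_mem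
      set ηt : ℂ → ℂ := Function.update (fun t => N t / Dn t) t₁ (H d) with hηt
      have hηc : ContinuousAt ηt t₁ := continuousAt_update_same.2 hd2
      have hgood := good_puncturedS isOpen_univ hψ.differentiableOn hH.differentiableOn hc
        (fun z _ => rel z) hε hΨ hN hDn hDn0 hB (fun t _ => mem_univ _) hBnc h1 h2
      have hηdiff : ∀ᶠ t in 𝓝[≠] t₁, DifferentiableAt ℂ ηt t := by
        filter_upwards [hgood, self_mem_nhdsWithin,
          nhdsWithin_le_nhds (ball_mem_nhds t₁ hε)] with t ht htn htb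
        have h3 : DifferentiableAt ℂ (fun t => N t / Dn t) t :=
          (hN.differentiableAt (isOpen_ball.mem_nhds htb)).div
            (hDn.differentiableAt (isOpen_ball.mem_nhds htb)) ht.1
        refine h3.congr_of_eventuallyEq ?_
        filter_upwards [isOpen_ne.mem_nhds htn] with s hs
        rw [hηt, Function.update_of_ne hs]
      have hηa : AnalyticAt ℂ ηt t₁ :=
        Complex.analyticAt_of_differentiable_on_punctured_nhds_of_continuousAt hηdiff hηc
      have hηt₁ : ηt t₁ = H d := by rw [hηt, Function.update_self]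
      refine ⟨fun t => κ (ηt t), ?_, ?_, ?_⟩
      · rw [← hηt₁] at hκa
        exact hκa.comp hηa
      · simp only [hηt₁, hκd]
      · have h3 := hd1.eventually hκl
        have hg2 : ∀ᶠ t in 𝓝[LD t₁ ε] t₁, Dn t ≠ 0 :=
          (hgood.mono fun t ht => ht.1).filter_mono
            (nhdsWithin_mono _ fun t ht => ne_of_mem_LD ht)
        filter_upwards [h3, self_mem_nhdsWithin, hg2] with t ht htL htD
        have h4 : ηt t = H (B t) := by
          rw [hηt, Function.update_of_ne (ne_of_mem_LD htL), div_eq_iff htD, mul_comm]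
          exact (h2 t htL).symm
        rw [h4, ht]
    · obtain ⟨κ, hκa, hκd, -, hκl⟩ := exists_local_inverse hψa hp univ_mem
      refine ⟨fun t => κ (Ψ t), ?_, ?_, ?_⟩
      · rw [← hdΨ] at hκa
        exact hκa.comp hΨa
      · simp only [hdΨ, hκd]
      · have h3 := hd1.eventually hκl
        filter_upwards [h3, self_mem_nhdsWithin] with t ht htL
        rw [← h1 t htL, ht]
  obtain ⟨Bt, hBta, hBt₁, hBte⟩ := key
  have hBtS : ∀ᶠ t in 𝓝 t₁, DifferentiableAt ℂ Bt t :=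
    hBta.eventually_analyticAt.mono fun t ht => ht.differentiableAt
  rw [eventually_nhdsWithin_iff] at hBte
  obtain ⟨r, hr, hrr⟩ := Metric.eventually_nhds_iff_ball.1 (hBtS.and hBte)
  set r' := min r ε with hr'
  have hr'0 : 0 < r' := lt_min hr hε
  have hb1 : ball t₁ r' ⊆ ball t₁ r := ball_subset_ball (min_le_left _ _)
  have hb2 : ball t₁ r' ⊆ ball t₁ ε := ball_subset_ball (min_le_right _ _)
  have hBtd : DifferentiableOn ℂ Bt (ball t₁ r') := fun t ht =>
    (hrr t (hb1 ht)).1.differentiableWithinAt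
  have hEq : EqOn Bt B (LD t₁ r') := fun t ht =>
    (hrr t (hb1 ht.1)).2 ⟨hb2 ht.1, ht.2⟩
  have hx₀ : t₁ - (r' / 2 : ℝ) * Complex.I ∈ LD t₁ r' := mem_LD_self (by positivity) (by linarith)
  have hLsub : LD t₁ r' ⊆ LD t₁ ε := LD_mono (min_le_right _ _)
  have e1 : EqOn (fun t => ψ (Bt t)) Ψ (ball t₁ r') := by
    refine AnalyticOnNhd.eqOn_of_preconnected_of_eventuallyEq (𝕜 := ℂ)
      ((hψ.comp_differentiableOn hBtd).analyticOnNhd isOpen_ball) ((hΨ.mono hb2).analyticOnNhd isOpen_ball)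
      (convex_ball t₁ r').isPreconnected hx₀.1 ?_
    filter_upwards [(isOpen_LD t₁ r').mem_nhds hx₀] with t ht
    rw [hEq ht]
    exact h1 t (hLsub ht)
  have e2 : EqOn (fun t => Dn t * H (Bt t)) N (ball t₁ r') := by
    refine AnalyticOnNhd.eqOn_of_preconnected_of_eventuallyEq (𝕜 := ℂ)
      (((hDn.mono hb2).mul (hH.comp_differentiableOn hBtd)).analyticOnNhd isOpen_ball)
      ((hN.mono hb2).analyticOnNhd isOpen_ball)
      (convex_ball t₁ r').isPreconnected hx₀.1 ?_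
    filter_upwards [(isOpen_LD t₁ r').mem_nhds hx₀] with t ht
    rw [hEq ht]
    exact h2 t (hLsub ht)
  exact ⟨r', hr'0, min_le_right _ _, Bt, hBtd, fun t ht => ⟨mem_univ _, e1 ht, e2 ht⟩, hEq⟩



/-- **RULE-E, germ form on a disc**: the tangent-line data `Ψ, N, Dn` are holomorphic on
`ball t1 ε`, a non-constant germ of the label is given at one point `t0` of the disc; then the label
continues to the whole disc. -/
theorem rule1E {ψ H : ℂ → ℂ} (hψ : Differentiable ℂ ψ)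
    (hH : Differentiable ℂ H) {c : ℂ} (hc : c ≠ 0)
    (rel : ∀ z, deriv ψ z * deriv (deriv H) z - deriv (deriv ψ) z * deriv H z +
      deriv ψ z ^ 3 * H z = c)
    (hψper : ∀ z, ψ (z + 1) = ψ z + 2 * Real.pi)
    {t1 t0 : ℂ} {ε : ℝ} {Ψ N Dn : ℂ → ℂ}
    (hΨ : DifferentiableOn ℂ Ψ (ball t1 ε)) (hN : DifferentiableOn ℂ N (ball t1 ε))
    (hDn : DifferentiableOn ℂ Dn (ball t1 ε)) (hDn0 : ∃ t ∈ ball t1 ε, Dn t ≠ 0)
    (ht0 : t0 ∈ ball t1 ε) {B : ℂ → ℂ} (hB : AnalyticAt ℂ B t0)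
    (h1 : ∀ᶠ t in 𝓝 t0, ψ (B t) = Ψ t) (h2 : ∀ᶠ t in 𝓝 t0, Dn t * H (B t) = N t)
    (hnc : ∃ᶠ t in 𝓝 t0, deriv B t ≠ 0) :
    ∃ Bt : ℂ → ℂ, DifferentiableOn ℂ Bt (ball t1 ε) ∧
      (∀ t ∈ ball t1 ε, ψ (Bt t) = Ψ t ∧ Dn t * H (Bt t) = N t) ∧ Bt =ᶠ[𝓝 t0] B := by
  obtain ⟨Bt, b1, b2, b3⟩ := rule1gS (r1dE hψ hH hc rel hψper) hΨ hN hDn hDn0 ht0 hB
    (by filter_upwards [h1, h2] with t k1 k2 using ⟨mem_univ _, k1, k2⟩) hnc
  exact ⟨Bt, b1, fun t ht => (b2 t ht).2, b3⟩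

end Crest.Agent.R102.F300
end
end

-- ▼ part R102/RuleVE_628

/-!
Row 102, part (C), T1-E: **RULE, vertex, in Case E** (helper628; proof of helper982's `rule_vertex`
with helper300's RULE-E in place of the natural boundary): two regular lines give a regular label.
-/

set_option autoImplicit false

open Set Filter Topology Metric
open scoped ComplexConjugate

noncomputable section

namespace Crest.Agent.R102.ShE628

open Crest.Agent.R102.T5 Crest.Agent.R102.G576 Crest.Agent.R102.A929 Crest.Agent.R102.B821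
open Crest.Agent.R102.C0 Crest.Agent.R102.C1 Crest.Agent.R102.Rule982
open Crest.Agent.R102.F300 (rule1E extend_of_cluster' Inc)
open Crest.Agent.R102.VH982 (pt pt_eta pt_snd pt_re pt_im tube_mem eq_along continuous_pt_y)
open Crest.Agent.R102.K669 (Slab Tube IsReg isReg_of_slab isOpen_isReg ext_eq
  ext_differentiableAt ext_mem ext_slab isReg_of_local isOpen_slab mem_tube_self isReg_of_tube)
open Crest.Agent.R102.Sh982
open Crest.Agent.R102.Mir151 (MirE)

/-- `rule3` for an entire curve -/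
theorem rule3E {ψ H : ℂ → ℂ} (hψ : Differentiable ℂ ψ)
    (hH : Differentiable ℂ H) {c : ℂ} (hc : c ≠ 0)
    (rel : ∀ z, deriv ψ z * deriv (deriv H) z - deriv (deriv ψ) z * deriv H z +
      deriv ψ z ^ 3 * H z = c)
    (hψper : ∀ z, ψ (z + 1) = ψ z + 2 * Real.pi)
    {D : Set (ℂ × ℂ)} (hD : IsOpen D) {B Ψ N Dn : ℂ × ℂ → ℂ} (hB : DifferentiableOn ℂ B D)
    {t1 w1 : ℂ} (hΨ : AnalyticAt ℂ Ψ (t1, w1)) (hN : AnalyticAt ℂ N (t1, w1))
    (hDn : AnalyticAt ℂ Dn (t1, w1)) (hDnf : ∃ᶠ t in 𝓝 t1, Dn (t, w1) ≠ 0)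
    (hDb : ∀ z : ℂ, ∀ u : ℕ → ℂ × ℂ, (∀ n, u n ∈ D) → Tendsto u atTop (𝓝 (t1, w1)) →
      Tendsto (fun n => B (u n)) atTop (𝓝 z) → deriv ψ z = 0 → Dn (t1, w1) ≠ 0)
    (h1 : ∀ᶠ y in 𝓝 (t1, w1), y ∈ D → ψ (B y) = Ψ y)
    (h2 : ∀ᶠ y in 𝓝 (t1, w1), y ∈ D → Dn y * H (B y) = N y)
    {r0 : ℝ} (hr0 : 0 < r0) (hseg : ∀ s : ℝ, 0 < s → s < r0 → (t1 - s * Complex.I, w1) ∈ D)
    (hnc : ∀ s : ℝ, 0 < s → s < r0 →
      ∃ᶠ t in 𝓝 (t1 - s * Complex.I), deriv (fun t => B (t, w1)) t ≠ 0) :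
    ∃ G : ℂ × ℂ → ℂ, AnalyticAt ℂ G (t1, w1) ∧
      ∀ᶠ s : ℝ in 𝓝[>] 0, G =ᶠ[𝓝 (t1 - s * Complex.I, w1)] B := by
  -- slices
  have hsl : ∀ F : ℂ × ℂ → ℂ, ∀ t : ℂ, AnalyticAt ℂ F (t, w1) →
      AnalyticAt ℂ (fun t => F (t, w1)) t := by
    intro F t hF
    have h3 : AnalyticAt ℂ (fun t : ℂ => ((t, w1) : ℂ × ℂ)) t := analyticAt_id.prod analyticAt_const
    exact AnalyticAt.comp (g := F) (f := fun t : ℂ => ((t, w1) : ℂ × ℂ)) hF h3
  have hslc : Tendsto (fun t : ℂ => ((t, w1) : ℂ × ℂ)) (𝓝 t1) (𝓝 (t1, w1)) :=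
    (Continuous.prodMk continuous_id continuous_const).tendsto t1
  obtain ⟨ε, hε, hball⟩ := Metric.eventually_nhds_iff_ball.1 (hslc.eventually
    (hΨ.eventually_analyticAt.and (hN.eventually_analyticAt.and
      (hDn.eventually_analyticAt.and (h1.eventually_nhds.and h2.eventually_nhds)))))
  set s0 : ℝ := min r0 ε / 2 with hs0
  have hs0p : 0 < s0 := by positivity
  have hs0r : s0 < r0 := by have := min_le_left r0 ε; rw [hs0]; linarith [lt_min hr0 hε]
  have hs0ε : s0 < ε := by have := min_le_right r0 ε; rw [hs0]; linarith [lt_min hr0 hε]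
  have hmem : ∀ s : ℝ, 0 < s → s < ε → t1 - s * Complex.I ∈ ball t1 ε := by
    intro s hs hsε
    rw [mem_ball, dist_eq_norm, sub_sub_cancel_left, norm_neg, norm_mul, Complex.norm_I, mul_one,
      Complex.norm_real, Real.norm_eq_abs, abs_of_pos hs]
    exact hsε
  -- `B` analytic on the slice near the segment
  have hBan : ∀ t : ℂ, (t, w1) ∈ D → AnalyticAt ℂ (fun t => B (t, w1)) t := by
    intro t ht
    have := Crest.Agent.R266.SCV.analyticOnNhd_of_differentiableOn hD hB (t, w1) ht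
    exact hsl B t this
  have hDev : ∀ t : ℂ, (t, w1) ∈ D → ∀ᶠ t' in 𝓝 t, (t', w1) ∈ D := by
    intro t ht
    have hc1 : Tendsto (fun t : ℂ => ((t, w1) : ℂ × ℂ)) (𝓝 t) (𝓝 (t, w1)) :=
      (Continuous.prodMk continuous_id continuous_const).tendsto t
    exact hc1.eventually (hD.mem_nhds ht)
  have hPV : ∀ t ∈ ball t1 ε, (t, w1) ∈ D →
      ψ (B (t, w1)) = Ψ (t, w1) ∧ Dn (t, w1) * H (B (t, w1)) = N (t, w1) := by
    intro t ht htD
    obtain ⟨-, -, -, a5, a6⟩ := hball t ht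
    exact ⟨a5.self_of_nhds htD, a6.self_of_nhds htD⟩
  have hDnx : ∃ t ∈ ball t1 ε, Dn (t, w1) ≠ 0 := by
    obtain ⟨t, k1, k2⟩ := (hDnf.and_eventually (ball_mem_nhds t1 hε)).exists
    exact ⟨t, k2, k1⟩
  obtain ⟨Bt, b1, b2, b3⟩ := rule1E hψ hH hc rel hψper (t1 := t1)
    (t0 := t1 - s0 * Complex.I) (ε := ε) (Ψ := fun t => Ψ (t, w1)) (N := fun t => N (t, w1))
    (Dn := fun t => Dn (t, w1))
    (fun t ht => (hsl Ψ t (hball t ht).1).differentiableAt.differentiableWithinAt)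
    (fun t ht => (hsl N t (hball t ht).2.1).differentiableAt.differentiableWithinAt)
    (fun t ht => (hsl Dn t (hball t ht).2.2.1).differentiableAt.differentiableWithinAt)
    hDnx (hmem s0 hs0p hs0ε)
    (B := fun t => B (t, w1)) (hBan _ (hseg s0 hs0p hs0r))
    (by
      filter_upwards [hDev _ (hseg s0 hs0p hs0r), isOpen_ball.mem_nhds (hmem s0 hs0p hs0ε)]
        with t k1 k2
      exact (hPV t k2 k1).1)
    (by
      filter_upwards [hDev _ (hseg s0 hs0p hs0r), isOpen_ball.mem_nhds (hmem s0 hs0p hs0ε)]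
        with t k1 k2
      exact (hPV t k2 k1).2)
    (hnc s0 hs0p hs0r)
  -- `Bt = B` along the segment
  have hEqseg : ∀ s : ℝ, 0 < s → s ≤ s0 → Bt (t1 - s * Complex.I) = B (t1 - s * Complex.I, w1) := by
    -- identity theorem along the segment: the set of good `s` is clopen in `(0, s0]`
    set γ : ℝ → ℂ := fun s => t1 - s * Complex.I with hγ
    set V : Set ℂ := {t | t ∈ ball t1 ε ∧ (t, w1) ∈ D} with hV
    have hVo : IsOpen V := by
      rw [isOpen_iff_mem_nhds]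
      rintro t ⟨k1, k2⟩
      filter_upwards [isOpen_ball.mem_nhds k1, hDev t k2] with y l1 l2
      exact ⟨l1, l2⟩
    intro s hs hss
    -- preconnected component: the set of points of `V` near which the two agree is clopen in `V`
    set T : Set ℂ := {t | Bt =ᶠ[𝓝 t] fun t => B (t, w1)} with hT
    have hTo : IsOpen T := isOpen_setOfPred_eventually_nhds
    have hTcl : ∀ t ∈ V, t ∈ closure T → t ∈ T := by
      intro t ht htc
      have a1 : AnalyticAt ℂ Bt t := b1.analyticAt (isOpen_ball.mem_nhds ht.1)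
      have a2 : AnalyticAt ℂ (fun t => B (t, w1)) t := hBan t ht.2
      have a3 : ∃ᶠ y in 𝓝 t, y ∈ T := mem_closure_iff_frequently.1 htc
      rcases (a1.eventually_eq_or_eventually_ne a2) with a4 | a4
      · exact a4
      · exfalso
        have a5 : ∀ᶠ y in 𝓝 t, y ≠ t → Bt y ≠ B (y, w1) := eventually_nhdsWithin_iff.1 a4
        obtain ⟨y, hy, hy2⟩ := (a3.and_eventually a5.eventually_nhds).exists
        have a6 : ∀ᶠ z in 𝓝 y, z = t := by
          filter_upwards [hy2, hy] with z l1 l2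
          by_contra l3
          exact l1 l3 l2
        have a7 : ∀ᶠ z in 𝓝[≠] y, z = t := a6.filter_mono nhdsWithin_le_nhds
        have a8 : ∀ᶠ z in 𝓝[≠] y, z ≠ y := eventually_mem_nhdsWithin
        obtain ⟨z, hz1, hz2⟩ := (a7.and a8).exists
        exact hz2 (hz1.trans a6.self_of_nhds.symm)
    have hγc : Continuous γ := by rw [hγ]; fun_prop
    have hIcc : IsPreconnected (γ '' Icc s s0) := isPreconnected_Icc.image _ hγc.continuousOn
    have hsubV : γ '' Icc s s0 ⊆ V := by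
      rintro _ ⟨σ, hσ, rfl⟩
      exact ⟨hmem σ (hs.trans_le hσ.1) (hσ.2.trans_lt hs0ε),
        hseg σ (hs.trans_le hσ.1) (hσ.2.trans_lt hs0r)⟩
    have hsubT : γ '' Icc s s0 ⊆ T := by
      refine hIcc.subset_of_closure_inter_subset hTo ⟨γ s0, ⟨s0, ⟨hss, le_rfl⟩, rfl⟩, b3⟩ ?_
      rintro z ⟨hz1, hz2⟩
      exact hTcl z (hsubV hz2) hz1
    have : γ s ∈ T := hsubT ⟨s, ⟨le_rfl, hss⟩, rfl⟩
    exact (show Bt =ᶠ[𝓝 (γ s)] fun t => B (t, w1) from this).self_of_nhds
  -- cluster value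
  set u : ℕ → ℂ × ℂ := fun n => (t1 - ((s0 / (n + 1 : ℝ) : ℝ) : ℂ) * Complex.I, w1) with hu
  have hsn : ∀ n : ℕ, 0 < s0 / (n + 1 : ℝ) ∧ s0 / (n + 1 : ℝ) ≤ s0 := by
    intro n
    have hn : (1 : ℝ) ≤ (n : ℝ) + 1 := by linarith [Nat.cast_nonneg (α := ℝ) n]
    exact ⟨by positivity, div_le_self hs0p.le hn⟩
  have hlim0 : Tendsto (fun n : ℕ => s0 / (n + 1 : ℝ)) atTop (𝓝 0) :=
    tendsto_const_nhds.div_atTop (tendsto_atTop_add_const_right _ _ tendsto_natCast_atTop_atTop)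
  have hlim1 : Tendsto (fun n : ℕ => t1 - ((s0 / (n + 1 : ℝ) : ℝ) : ℂ) * Complex.I) atTop (𝓝 t1) := by
    have hcc : ContinuousAt (fun s : ℝ => t1 - (s : ℂ) * Complex.I) 0 := by fun_prop
    have := hcc.tendsto.comp hlim0
    simpa [Function.comp_def] using this
  have hux : Tendsto u atTop (𝓝 (t1, w1)) := hlim1.prodMk_nhds tendsto_const_nhds
  have hBtc : ContinuousAt Bt t1 := (b1.differentiableAt (ball_mem_nhds t1 hε)).continuousAt
  have hub : Tendsto (fun n => B (u n)) atTop (𝓝 (Bt t1)) := by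
    refine (hBtc.tendsto.comp hlim1).congr fun n => ?_
    exact hEqseg _ (hsn n).1 (hsn n).2
  have huD : ∀ n, u n ∈ D := fun n => hseg _ (hsn n).1 ((hsn n).2.trans_lt hs0r)
  obtain ⟨G, g1, g2, g3⟩ := extend_of_cluster' isOpen_univ hc hψ.differentiableOn
    hH.differentiableOn (fun z _ => rel z) hD hB hΨ hN hDn (mem_univ _)
    (fun h0 => hDb _ u huD hux hub h0)
    h1 h2 huD hux hub
  refine ⟨G, g1, ?_⟩
  · -- propagate along the segment
    obtain ⟨V, hV1, hV2⟩ : ∃ e : ℝ, 0 < e ∧ ∀ s : ℝ, 0 < s → s < e →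
        AnalyticAt ℂ G (t1 - s * Complex.I, w1) := by
      have hcc : Tendsto (fun s : ℝ => ((t1 - (s : ℂ) * Complex.I, w1) : ℂ × ℂ)) (𝓝 0)
          (𝓝 (t1, w1)) := by
        have hcc : ContinuousAt (fun s : ℝ => ((t1 - (s : ℂ) * Complex.I, w1) : ℂ × ℂ)) 0 := by
          fun_prop
        simpa using hcc.tendsto
      obtain ⟨e, he, heb⟩ := Metric.eventually_nhds_iff_ball.1
        (hcc.eventually g1.eventually_analyticAt)
      refine ⟨e, he, fun s hs hse => heb s ?_⟩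
      rw [mem_ball, dist_zero_right, Real.norm_eq_abs, abs_of_pos hs]
      exact hse
    have hev : ∀ᶠ s : ℝ in 𝓝[>] 0, s ∈ Ioo (0 : ℝ) (min V r0) := Ioo_mem_nhdsGT (lt_min hV1 hr0)
    filter_upwards [hev] with s hs
    obtain ⟨n, hn1, hn2⟩ := (g3.and (hlim0.eventually (gt_mem_nhds hs.1))).exists
    -- both analytic on the segment from `s0/(n+1)` to `s`
    set T : Set (ℂ × ℂ) := {y | G =ᶠ[𝓝 y] B} with hT
    have hTo : IsOpen T := isOpen_setOfPred_eventually_nhds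
    set γ : ℝ → ℂ × ℂ := fun σ => (t1 - (σ : ℂ) * Complex.I, w1) with hγ
    have hγc : Continuous γ := by rw [hγ]; fun_prop
    have hIcc : IsPreconnected (γ '' Icc (s0 / (n + 1 : ℝ)) s) :=
      isPreconnected_Icc.image _ hγc.continuousOn
    have hcl : closure T ∩ (γ '' Icc (s0 / (n + 1 : ℝ)) s) ⊆ T := by
      rintro y ⟨hy1, σ, hσ, rfl⟩
      have hσ0 : 0 < σ := (hsn n).1.trans_le hσ.1
      have hσV : σ < V := hσ.2.trans_lt (hs.2.trans_le (min_le_left _ _))
      have hσr : σ < r0 := hσ.2.trans_lt (hs.2.trans_le (min_le_right _ _))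
      have a1 : AnalyticAt ℂ G (γ σ) := hV2 σ hσ0 hσV
      have a2 : AnalyticAt ℂ B (γ σ) :=
        Crest.Agent.R266.SCV.analyticOnNhd_of_differentiableOn hD hB _ (hseg σ hσ0 hσr)
      obtain ⟨e, he, heb⟩ := Metric.eventually_nhds_iff_ball.1
        (a1.eventually_analyticAt.and a2.eventually_analyticAt)
      obtain ⟨y, hyT, hyb⟩ := ((mem_closure_iff_frequently.1 hy1).and_eventually
        (ball_mem_nhds (γ σ) he)).exists
      have hEq := AnalyticOnNhd.eqOn_of_preconnected_of_eventuallyEq (f := G) (g := B)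
        (U := ball (γ σ) e) (fun z hz => (heb z hz).1) (fun z hz => (heb z hz).2)
        (convex_ball _ _).isPreconnected hyb hyT
      change G =ᶠ[𝓝 (γ σ)] B
      filter_upwards [ball_mem_nhds (γ σ) he] with z hz
      exact hEq hz
    have hsubT : γ '' Icc (s0 / (n + 1 : ℝ)) s ⊆ T :=
      hIcc.subset_of_closure_inter_subset hTo
        ⟨γ (s0 / (n + 1 : ℝ)), ⟨_, ⟨le_rfl, hn2.le⟩, rfl⟩, hn1⟩ hcl
    exact hsubT ⟨s, ⟨hn2.le, le_rfl⟩, rfl⟩


variable {q : C(ℂ, ℂ)} {η ρ r Bc : ℝ} {b φ p : ℂ × ℂ → ℂ} {m₀ : ℂ → ℂ} {θ H K G₀ : ℂ → ℂ}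

/-- **RULE, vertex (Case E)** -/
theorem rule_vertexE (hD : Spine.DataE q η ρ r Bc b φ p m₀ θ H) (hM : MirE q η θ H K G₀) :
    RuleV b φ p ρ r := by
  intro x hx1 hx2 h1
  have D := datE hD (h := η) le_rfl

  have hρ := D.ρ_pos
  have hxr : ‖x.2‖ < r := by simpa using hx1.1
  have hx1W : x.2 ∈ ball (0 : ℂ) r := hx1.1
  refine ⟨hx1W, by linarith, ?_⟩
  refine reg_up isOpen_ball (bE_diff hD) b_mapsE (x := x) hx1W ?_
  intro y hy0 hyx hlow
  set Y : ℂ × ℂ := pt x.1.re y x.2 with hY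
  have hY1 : Y.1.im = y := by rw [hY, pt_im]
  have hY2 : Y.2 = x.2 := rfl
  have hYre : Y.1.re = x.1.re := by rw [hY, pt_re]
  have hYL : ∀ s : ℂ, (s = 1 ∨ s = -1) → sh s x ∈ SL φ p ρ r → sh s Y ∈ SL φ p ρ r := by
    intro s hs hsx
    have him := abs_lt.1 (sh_im hs hxr D.r_le)
    refine Sht_low isOpen_ball D.Fl_diff Fl_maps hsx ?_ rfl ?_ (Or.inl ?_)
    · rw [sh_fst, sh_fst, Complex.add_re, Complex.add_re, hYre, hY2]
    · rw [sh_fst, Complex.add_im, hY1, hY2]
      linarith [him.1]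
    · rw [sh_fst, sh_fst, Complex.add_im, Complex.add_im, hY1, hY2]
      linarith
  have hY1L := hYL 1 (Or.inl rfl) hx1
  have hY2L := hYL (-1) (Or.inr rfl) hx2
  have hseg : ∀ s : ℝ, 0 < s → s < y + ρ / 4 → ((Y.1 - s * Complex.I, Y.2) : ℂ × ℂ) ∈
      SBE b ρ r := by
    intro s hs1 hs2
    have e1 : ((Y.1 - s * Complex.I, Y.2) : ℂ × ℂ) = pt x.1.re (y - s) x.2 := by
      rw [hY]
      unfold VH982.pt
      refine Prod.ext ?_ rfl
      simp only
      push_cast
      ring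
    rw [e1]
    refine ⟨hx1W, by rw [pt_im]; linarith, hlow _ (by linarith)⟩
  have hev : ∀ᶠ z in 𝓝 Y, sh 1 z ∈ SL φ p ρ r ∧ sh (-1) z ∈ SL φ p ρ r ∧
      -(3 * ρ / 8) < z.1.im := by
    have c1 : Continuous fun z : ℂ × ℂ => z.1.im := by fun_prop
    filter_upwards [(isOpen_pre 1).mem_nhds hY1L, (isOpen_pre (-1)).mem_nhds hY2L,
      (c1.tendsto Y).eventually (Ioi_mem_nhds (show -(3 * ρ / 8) < Y.1.im by
        rw [hY1]; linarith))] with z a1 a2 a3
    exact ⟨a1, a2, a3⟩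
  have hθe : ∀ᶠ z in 𝓝 Y, z ∈ SBE b ρ r → θ (beE b ρ r z) =
      (φe φ p ρ r (sh 1 z) + φe φ p ρ r (sh (-1) z)) / 2 := by
    filter_upwards [hev] with z hz hzB
    have := refl_allE hD (Or.inl rfl) hzB hz.1 hz.2.1
    linear_combination (-1 / 2) * this
  have hDb : ∀ z : ℂ, ∀ u : ℕ → ℂ × ℂ, (∀ n, u n ∈ SBE b ρ r) →
      Tendsto u atTop (𝓝 ((Y.1, Y.2) : ℂ × ℂ)) →
      Tendsto (fun n => beE b ρ r (u n)) atTop (𝓝 z) → deriv θ z = 0 →
      2 * Complex.cos ((φe φ p ρ r (sh (-1) (Y.1, Y.2)) -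
        φe φ p ρ r (sh 1 (Y.1, Y.2))) / 2) ≠ 0 := by
    intro z u hu hux hub hz0 hcon
    have hux' : Tendsto u atTop (𝓝 Y) := hux
    have c1 : ContinuousAt (fun z => φe φ p ρ r (sh 1 z)) Y := (D.an_φs hY1L).continuousAt
    have c2 : ContinuousAt (fun z => φe φ p ρ r (sh (-1) z)) Y := (D.an_φs hY2L).continuousAt
    have c3 : ContinuousAt (fun z => pe φ p ρ r (sh 1 z)) Y := (D.an_ps hY1L).continuousAt
    have c4 : ContinuousAt θ z := (hM.mir.θd z).continuousAt
    have c5 : ContinuousAt H z := (hM.mir.Hd z).continuousAt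
    have c6 : ContinuousAt (deriv θ) z := (OS350.diff_deriv hM.mir.θd z).continuousAt
    have c7 : ContinuousAt (deriv H) z := (OS350.diff_deriv hM.mir.Hd z).continuousAt
    have l1 := c1.tendsto.comp hux'
    have l2 := c2.tendsto.comp hux'
    have l3 := c3.tendsto.comp hux'
    have l4 := c4.tendsto.comp hub
    have l5 := c5.tendsto.comp hub
    have l6 := c6.tendsto.comp hub
    have l7 := c7.tendsto.comp hub
    have hθz : θ z = (φe φ p ρ r (sh 1 Y) + φe φ p ρ r (sh (-1) Y)) / 2 := by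
      have l8 := (l1.add l2).div_const 2
      refine tendsto_nhds_unique l4 (l8.congr' ?_)
      filter_upwards [hux'.eventually hθe] with n hn
      exact (hn (hu n)).symm
    have hinc : Inc θ H (φe φ p ρ r (sh 1 Y)) (pe φ p ρ r (sh 1 Y)) z := by
      unfold F300.Inc
      have l9 := l6.mul l3
      have l10 := ((l6.mul l5).mul ((Complex.continuous_cos.tendsto _).comp (l1.sub l4))).add
        (l7.mul ((Complex.continuous_sin.tendsto _).comp (l1.sub l4)))
      refine tendsto_nhds_unique l9 (l10.congr' ?_)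
      filter_upwards [hux'.eventually hev] with n hn
      have := inc_allE hD (Or.inl rfl) (hu n) hn.1
      exact this.symm
    unfold F300.Inc at hinc
    rw [hz0] at hinc
    have hrel := hM.mir.rel z
    rw [hz0] at hrel
    have hH' : deriv H z ≠ 0 := by
      intro h3
      rw [h3] at hrel
      norm_num at hrel
    have hsin : Complex.sin (φe φ p ρ r (sh 1 Y) - θ z) = 0 := by
      have : deriv H z * Complex.sin (φe φ p ρ r (sh 1 Y) - θ z) = 0 := by
        linear_combination -hinc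
      rcases mul_eq_zero.1 this with h3 | h3
      · exact absurd h3 hH'
      · exact h3
    have hcos : Complex.cos (φe φ p ρ r (sh 1 Y) - θ z) = 0 := by
      have e1 : φe φ p ρ r (sh 1 Y) - θ z = -((φe φ p ρ r (sh (-1) Y) -
          φe φ p ρ r (sh 1 Y)) / 2) := by
        rw [hθz]
        ring
      rw [e1, Complex.cos_neg]
      have : 2 * Complex.cos ((φe φ p ρ r (sh (-1) (Y.1, Y.2)) -
        φe φ p ρ r (sh 1 (Y.1, Y.2))) / 2) = 0 := hcon
      rcases mul_eq_zero.1 this with h3 | h3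
      · norm_num at h3
      · exact h3
    have := Complex.sin_sq_add_cos_sq (φe φ p ρ r (sh 1 Y) - θ z)
    rw [hsin, hcos] at this
    norm_num at this
  have h2 : ∀ᶠ z in 𝓝 Y, z ∈ SBE b ρ r →
      2 * Complex.cos ((φe φ p ρ r (sh (-1) z) - φe φ p ρ r (sh 1 z)) / 2) * H (beE b ρ r z) =
        pe φ p ρ r (sh (-1) z) + pe φ p ρ r (sh 1 z) := by
    filter_upwards [hev, hθe] with z hz hz' hzB
    have h3 := sum_allE hD (Or.inl rfl) hzB hz.1 hz.2.1
    have h4 := hz' hzB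
    rw [h3]
    have e1 : φe φ p ρ r (sh (-1) z) - θ (beE b ρ r z) =
        (φe φ p ρ r (sh (-1) z) - φe φ p ρ r (sh 1 z)) / 2 := by
      rw [h4]
      ring
    rw [e1]
    ring
  obtain ⟨G, hGa, hGe⟩ := rule3E hM.mir.θd hM.mir.Hd (c := -1) (by norm_num) hM.mir.rel
    hM.θper (D := SBE b ρ r) isOpen_SBE (B := beE b ρ r)
    (Ψ := fun z => (φe φ p ρ r (sh 1 z) + φe φ p ρ r (sh (-1) z)) / 2)
    (N := fun z => pe φ p ρ r (sh (-1) z) + pe φ p ρ r (sh 1 z))
    (Dn := fun z => 2 * Complex.cos ((φe φ p ρ r (sh (-1) z) - φe φ p ρ r (sh 1 z)) / 2))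
    (beE_an hD).differentiableOn (t1 := Y.1) (w1 := Y.2)
    (((D.an_φs hY1L).add (D.an_φs hY2L)).div_const) ((D.an_ps hY2L).add (D.an_ps hY1L))
    (analyticAt_const.mul (an_cos (((D.an_φs hY2L).fun_sub (D.an_φs hY1L)).div_const)))
    (D.cos_nz hY1L hY2L (by rw [hY1]; linarith)) hDb hθe h2 (r0 := y + ρ / 4) (by linarith) hseg
    (fun s hs1 hs2 => beE_nc hD (hseg s hs1 hs2))
  -- regularity at `Y`
  set N' : Set (ℂ × ℂ) := {z | AnalyticAt ℂ G z} with hN'
  have hN'o : IsOpen N' := isOpen_analyticAt ℂ G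
  refine isReg_of_local D.h10 isOpen_ball (bE_diff hD) b_mapsE (p := Y) (N := N')
    (by rw [hY1]; linarith) hN'o hGa (G := G)
    (fun z hz => (show AnalyticAt ℂ G z from hz).differentiableAt.differentiableWithinAt)
    (fun z _ => mem_univ _) hx1W ?_
  intro ε hε
  have h3 : ∀ᶠ s : ℝ in 𝓝[>] 0, s ∈ Ioo (0 : ℝ) (min ε (y + ρ / 4)) :=
    Ioo_mem_nhdsGT (lt_min hε (by linarith))
  obtain ⟨s, hs1, hs2⟩ := (h3.and hGe).exists
  have hsε : s < ε := hs1.2.trans_le (min_le_left _ _)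
  have hsy : s < y + ρ / 4 := hs1.2.trans_le (min_le_right _ _)
  refine ⟨y - s, by rw [hY1]; linarith, by rw [hY1]; linarith [hs1.1], ?_⟩
  have e1 : (((⟨Y.1.re, y - s⟩ : ℂ), Y.2) : ℂ × ℂ) = (Y.1 - s * Complex.I, Y.2) := by
    refine Prod.ext ?_ rfl
    simp only
    apply Complex.ext
    · simp
    · simp [hY1]
  rw [e1]
  filter_upwards [hs2, isOpen_SBE.mem_nhds (hseg s hs1.1 hsy)] with z hz1 hz2
  exact ⟨hz2.2.2, hz1⟩

end Crest.Agent.R102.ShE628
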