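import Crest.Agent.R102.T1EAsm_314
import Crest.Agent.R102.RuleVE_628
import Mathlib
import Crest.Agent.R102.EndI_348_Mg
import Crest.Agent.R102.Slice_802_Mg
import Crest.Agent.R102.Mir_151
import Crest.Agent.R102.BEndD_802
import Crest.Agent.R102.MGerm_151
import Crest.Agent.R102.PainC_416
import Crest.Agent.R102.T7Max_416
import Crest.Agent.R102.SpineDefs_478
import Crest.Agent.R102.AlgS_151

-- ▼ part R102/T1E_314
section

/-!
Row 102: **`T1E : Spine.T1E`** (proof of helper516; leaves by 151, 300, 350, 486, 516, 599, 628, 712,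
77, 942, 982, 669; assembly helper314).
-/

namespace Crest.Agent.R102.T1E314

/-- **T1-E** -/
theorem t1E : Spine.T1E := T1EAsm314.t1e_of_rule
  (fun _ _ _ _ _ _ _ _ _ _ _ _ _ hD hM => ShE628.rule_vertexE hD hM)

end Crest.Agent.R102.T1E314
end

-- ▼ part R102/EndJ_348
section

/-!
Row 102, Case E (helper348): **`JX univ`** at every leaf `w0` (joint extension of the label, entire
data): slices `w ≠ w0` by `discE`, then Hartogs (`joint_ball`).
-/

set_option autoImplicit false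

noncomputable section

open Filter Topology Set Metric MeasureTheory
open scoped ComplexConjugate

namespace Crest.Agent.R102.EndE348

open Crest.Agent.R102.Rule982 Crest.Agent.R102.BEnd802 Crest.Agent.R102.Mer88
open Crest.Agent.R102.Slice802 Crest.Agent.R102.EndI348

theorem jx_univ {θ H : ℂ → ℂ} {c₀ : ℂ} (D : EData θ H c₀) (w0 : ℂ) : JX univ θ H w0 := by
  intro c r R R' δ B P Q hr hrR' hR'R hδ hB _ hnc hmer hrep
  have hR'0 : 0 < R' := hr.trans hrR'
  obtain ⟨R1, hR1a, hR1b⟩ := exists_between hR'R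
  have hR10 : 0 < R1 := hR'0.trans hR1a
  have hw0 : w0 ∈ ball w0 δ := mem_ball_self hδ
  have hKsub : ∀ t ∈ closedBall c R1, t ∈ ball c R := fun t ht => closedBall_subset_ball hR1b ht
  obtain ⟨ρ1, hρ1, hP1⟩ := mero_slices_compact (f := P) (w0 := w0) (isCompact_closedBall c R1)
    (fun t ht => (hmer (t, w0) ⟨hKsub t ht, hw0⟩).1)
  obtain ⟨ρ2, hρ2, hQ1⟩ := mero_slices_compact (f := Q) (w0 := w0) (isCompact_closedBall c R1)
    (fun t ht => (hmer (t, w0) ⟨hKsub t ht, hw0⟩).2)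
  have hcr : c ∈ ball c r := mem_ball_self hr
  obtain ⟨ρ3, hρ3, hr3⟩ := rep_slices (hrep (c, w0) ⟨hcr, hw0⟩).1
  obtain ⟨ρ4, hρ4, hr4⟩ := rep_slices (hrep (c, w0) ⟨hcr, hw0⟩).2
  set ρ : ℝ := min δ (min (min ρ1 ρ2) (min ρ3 ρ4)) with hρd
  have hρ : 0 < ρ := lt_min hδ (lt_min (lt_min hρ1 hρ2) (lt_min hρ3 hρ4))
  have q0 : ρ ≤ δ := min_le_left _ _
  have q1 : ρ ≤ ρ1 := (min_le_right _ _).trans ((min_le_left _ _).trans (min_le_left _ _))
  have q2 : ρ ≤ ρ2 := (min_le_right _ _).trans ((min_le_left _ _).trans (min_le_right _ _))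
  have q3 : ρ ≤ ρ3 := (min_le_right _ _).trans ((min_le_right _ _).trans (min_le_left _ _))
  have q4 : ρ ≤ ρ4 := (min_le_right _ _).trans ((min_le_right _ _).trans (min_le_right _ _))
  -- the slices
  have hslice : ∀ w ∈ ball w0 ρ, w ≠ w0 → ∃ g : ℂ → ℂ, DifferentiableOn ℂ g (ball c R1) ∧
      ∀ᶠ t in 𝓝 c, g t = B (t, w) := by
    intro w hw hwn
    have hwδ : w ∈ ball w0 δ := ball_subset_ball q0 hw
    have hBw : DifferentiableOn ℂ (fun t => B (t, w)) (ball c r) :=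
      hB.comp (by fun_prop : DifferentiableOn ℂ (fun t : ℂ => (t, w)) (ball c r))
        (fun t ht => ⟨ht, hwδ⟩)
    have hBa : AnalyticOnNhd ℂ (fun t => B (t, w)) (ball c r) := hBw.analyticOnNhd isOpen_ball
    have hA : AdmE θ H (fun t => P (t, w)) (fun t => Q (t, w)) (fun t => B (t, w)) c := by
      refine ⟨hBa c hcr, ?_⟩
      filter_upwards [hr3 w (ball_subset_ball q3 hw) hwn c (mem_ball_self hρ3),
        hr4 w (ball_subset_ball q4 hw) hwn c (mem_ball_self hρ4)] with s h1 h2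
      exact ⟨by rw [mul_comm]; exact h1, by rw [mul_comm]; exact h2⟩
    have hfr : ∃ᶠ t in 𝓝 c, deriv (fun t => B (t, w)) t ≠ 0 := by
      intro hcon
      obtain ⟨t, ht, ht0⟩ := hnc w hwδ
      have h1 : deriv (fun t => B (t, w)) =ᶠ[𝓝 c] 0 := by
        filter_upwards [hcon] with s hs
        exact not_not.1 hs
      exact ht0 (hBa.deriv.eqOn_zero_of_preconnected_of_eventuallyEq_zero
        (convex_ball c r).isPreconnected hcr h1 ht)
    obtain ⟨F, hF1, -, hF2⟩ := discE D hR10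
      (fun t ht => hP1 w (ball_subset_ball q1 hw) hwn t (ball_subset_closedBall ht))
      (fun t ht => hQ1 w (ball_subset_ball q2 hw) hwn t (ball_subset_closedBall ht)) hA hfr
    exact ⟨F, hF1, hF2⟩
  -- Hartogs
  have hmap : ∀ w ∈ ball (0 : ℂ) ρ, w0 + w ∈ ball w0 ρ := by
    intro w hw
    rw [mem_ball, dist_eq_norm, add_sub_cancel_left]
    exact mem_ball_zero_iff.1 hw
  have hf : DifferentiableOn ℂ (fun p : ℂ × ℂ => B (p.2, w0 + p.1))
      (ball (0 : ℂ) ρ ×ˢ ball c r) := by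
    refine hB.comp (by fun_prop : DifferentiableOn ℂ (fun p : ℂ × ℂ => (p.2, w0 + p.1)) _) ?_
    intro p hp
    exact ⟨hp.2, ball_subset_ball q0 (hmap p.1 hp.1)⟩
  have hF : ∀ᵐ u : ℝ, u ∈ Ioo (-ρ) ρ → ∃ g : ℂ → ℂ, DifferentiableOn ℂ g (ball c R1) ∧
      ∀ᶠ t in 𝓝 c, g t = (fun p : ℂ × ℂ => B (p.2, w0 + p.1)) (u, t) := by
    have h0 : ∀ᵐ u : ℝ, u ≠ 0 := Measure.ae_ne volume 0
    filter_upwards [h0] with u hu hu2
    have h1 : (u : ℂ) ∈ ball (0 : ℂ) ρ := by
      rw [mem_ball_zero_iff, Complex.norm_real, Real.norm_eq_abs, abs_lt]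
      exact hu2
    have h2 : w0 + (u : ℂ) ≠ w0 := by
      intro h
      have : (u : ℂ) = 0 := by simpa using h
      exact hu (by exact_mod_cast this)
    exact hslice _ (hmap _ h1) h2
  obtain ⟨s, hs, hsρ, G, hG1, hG2⟩ := joint_ball hρ hr hf hF hR'0 hR1a
  refine ⟨s, hs, hsρ.trans q0, fun x => G (x.2 - w0, x.1), ?_, fun _ _ => mem_univ _, ?_⟩
  · refine hG1.comp (by fun_prop : DifferentiableOn ℂ (fun x : ℂ × ℂ => (x.2 - w0, x.1)) _) ?_
    intro x hx
    refine ⟨?_, hx.1⟩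
    have := hx.2
    rw [mem_ball, dist_eq_norm] at this
    exact mem_ball_zero_iff.2 this
  · intro x hx
    have h1 : x.2 - w0 ∈ ball (0 : ℂ) s := by
      have := hx.2
      rw [mem_ball, dist_eq_norm] at this
      exact mem_ball_zero_iff.2 this
    have h2 := hG2 _ h1 x.1 hx.1
    change G (x.2 - w0, x.1) = B x
    rw [h2]
    change B (x.1, w0 + (x.2 - w0)) = B x
    congr 1
    ext <;> simp

end Crest.Agent.R102.EndE348
end
end

-- ▼ part R102/EndK_348
section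

/-!
Row 102, Case E (helper348): the data of Case E satisfy `EData`; hence `JX univ` at every leaf.
-/

set_option autoImplicit false

noncomputable section

open Filter Topology Set Metric
open scoped ComplexConjugate

namespace Crest.Agent.R102.EndE348

open Crest.Agent.R102.Rule982 Crest.Agent.R102.BEnd802
open Crest.Agent.R102.T5 Crest.Agent.R102.G576 Crest.Agent.R102.A929 Crest.Agent.R102.B821
open Crest.Agent.R102.C0 Crest.Agent.R102.C1 Crest.Agent.R102.Spine Crest.Agent.R102.Mir151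

/-- the data of Case E -/
theorem edata {q : C(ℂ, ℂ)} {η : ℝ} {θ H : ℂ → ℂ} (hD : Datum q η) (hE : VExt q η univ θ H)
    (hc : ¬ Concl q) : EData θ H (-1) := by
  obtain ⟨K, G, M⟩ := mirE hD hE hc
  have hθ : Differentiable ℂ θ := differentiableOn_univ.1 hE.θ_diff
  have hH : Differentiable ℂ H := differentiableOn_univ.1 hE.H_diff
  refine ⟨hθ, hH, by norm_num, ?_, M.yper, ?_, ?_⟩
  · intro h z _
    exact (ZeroY478.zeroY q η univ θ H hD hE).1 z (mem_univ z)
  · intro z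
    rw [M.yconj, Complex.norm_conj]
  · intro hcon
    apply M.K_nc
    have h0 : deriv θ ((0 : ℝ) : ℂ) ≠ 0 := by
      intro h1
      have h2 := (M.y_pos 0).1
      rw [h1] at h2
      exact lt_irrefl _ h2
    have h1 : deriv θ = fun _ => deriv θ ((0 : ℝ) : ℂ) := funext fun z => hcon z _
    have h2 : deriv (deriv θ) = fun _ => 0 := by
      rw [h1]; funext z; simp
    have h3 : deriv (deriv (deriv θ)) = fun _ => 0 := by
      rw [h2]; funext z; simp
    refine ⟨2 * deriv θ ((0 : ℝ) : ℂ) ^ 2, fun z => ?_⟩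
    have h4 := M.hG z
    have h5 := M.G_eq z
    have h6 : deriv θ z = deriv θ ((0 : ℝ) : ℂ) := hcon z _
    rw [h6] at h4 h5
    rw [h3] at h4
    have h7 : G z = 0 := by
      rcases mul_eq_zero.1 h4.symm with h | h
      · exact h
      · exact absurd h h0
    rw [h7] at h5
    linear_combination -h5

/-- **`JX univ` in Case E** -/
theorem jx_caseE {q : C(ℂ, ℂ)} {η ρ r B : ℝ} {b φ p : ℂ × ℂ → ℂ} {m₀ θ H : ℂ → ℂ}
    (hE : DataE q η ρ r B b φ p m₀ θ H) (hc : ¬ Concl q) (w0 : ℂ) : JX univ θ H w0 :=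
  jx_univ (edata hE.fam.dat hE.ext hc) w0

end Crest.Agent.R102.EndE348
end
end

-- ▼ part R102/BEnd_802
section

/-!
Row 102, Cases B and E, (END): **(B3)** and **`BEnd`**.

* `b3` : `RatCont`, not algebraic, `GoodW … V w0`, `JX V θ H w0` ⇒ `False`;
* `bEnd : RatCont → BEnd`.
-/

set_option autoImplicit false

open Set Filter Topology Metric
open scoped ComplexConjugate

noncomputable section

namespace Crest.Agent.R102.BEnd802

open Crest.Agent.R102.T5 Crest.Agent.R102.G576 Crest.Agent.R102.A929 Crest.Agent.R102.B821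
open Crest.Agent.R102.C0 Crest.Agent.R102.C1 Crest.Agent.R102.Mer88 Crest.Agent.R102.MerF217
open Crest.Agent.R102.Slice802 Crest.Agent.R102.Spine

section fam

variable {q : C(ℂ, ℂ)} {η ρ r Bc : ℝ} {b φ p : ℂ × ℂ → ℂ} {m₀ : ℂ → ℂ} {V : Set ℂ} {θ H : ℂ → ℂ}

/-- the next line from the label -/
theorem line_next (hL : LineFam q η ρ r Bc b φ p m₀) (hV : VExt q η V θ H) {w0 : ℂ}
    (hw0 : ‖w0‖ < r) (hw0i : w0.im = 0) {s : ℂ} (hs : 0 < s.im) {e : ℝ} (he : 0 < e)
    {Gφ Gp β : ℂ × ℂ → ℂ}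
    (hGφ : DifferentiableOn ℂ Gφ (Tube s w0 e)) (hGp : DifferentiableOn ℂ Gp (Tube s w0 e))
    (eφ : ∀ x ∈ Tube s w0 e, x ∈ PD ρ r → Gφ x = φ x)
    (ep : ∀ x ∈ Tube s w0 e, x ∈ PD ρ r → Gp x = p x)
    (hβ : DifferentiableOn ℂ β (Tube s w0 e)) (hβV : ∀ x ∈ Tube s w0 e, β x ∈ V)
    (hβb : ∀ᶠ x in 𝓝 (((s.re : ℂ), w0) : ℂ × ℂ), β x = b (x.1 + x.2 / 2, x.2)) :
    RegL ρ r φ p (s + w0) w0 := by
  have D := hL.dat
  have hρ := hL.ρ_pos
  have hVo := hV.open'
  set e4 : ℝ := e / 3 with he4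
  have he40 : 0 < e4 := by positivity
  set T : Set (ℂ × ℂ) := Tube (s + w0) w0 e4 with hT
  have hTo : IsOpen T := isOpen_Tube _ _ _
  have hTc : Convex ℝ T := convex_Tube _ _ _
  have hmap : ∀ x ∈ T, ((x.1 - x.2, x.2) : ℂ × ℂ) ∈ Tube s w0 e := by
    rintro x ⟨h1, h2, h3, h4⟩
    have h5 := Complex.abs_im_le_norm (x.2 - w0)
    have h6 := Complex.abs_re_le_norm (x.2 - w0)
    rw [Complex.sub_im, hw0i, sub_zero] at h5
    rw [Complex.sub_re] at h6
    have h5' := abs_lt.1 (h5.trans_lt h4)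
    have h6' := abs_lt.1 (h6.trans_lt h4)
    rw [Complex.add_re] at h1
    rw [Complex.add_im, hw0i] at h3
    have h1' := abs_lt.1 h1
    refine ⟨?_, ?_, ?_, ?_⟩
    · show |(x.1 - x.2).re - s.re| < e
      rw [Complex.sub_re, abs_lt]
      constructor <;> linarith
    · show -e < (x.1 - x.2).im
      rw [Complex.sub_im]; linarith
    · show (x.1 - x.2).im < s.im + e
      rw [Complex.sub_im]; linarith
    · show ‖x.2 - w0‖ < e
      linarith
  have hsh : Differentiable ℂ (fun x : ℂ × ℂ => ((x.1 - x.2, x.2) : ℂ × ℂ)) := by fun_prop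
  have dφ : DifferentiableOn ℂ (fun x : ℂ × ℂ => Gφ (x.1 - x.2, x.2)) T :=
    hGφ.comp hsh.differentiableOn hmap
  have dp : DifferentiableOn ℂ (fun x : ℂ × ℂ => Gp (x.1 - x.2, x.2)) T :=
    hGp.comp hsh.differentiableOn hmap
  have dβ : DifferentiableOn ℂ (fun x : ℂ × ℂ => β (x.1 - x.2, x.2)) T :=
    hβ.comp hsh.differentiableOn hmap
  have dθ : DifferentiableOn ℂ (fun x : ℂ × ℂ => θ (β (x.1 - x.2, x.2))) T :=
    hV.θ_diff.comp dβ fun x hx => hβV _ (hmap x hx)
  have dH : DifferentiableOn ℂ (fun x : ℂ × ℂ => H (β (x.1 - x.2, x.2))) T :=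
    hV.H_diff.comp dβ fun x hx => hβV _ (hmap x hx)
  set Fφ : ℂ × ℂ → ℂ := fun x => 2 * θ (β (x.1 - x.2, x.2)) - Gφ (x.1 - x.2, x.2) with hFφ
  set Fp : ℂ × ℂ → ℂ := fun x => 2 * H (β (x.1 - x.2, x.2)) *
    Complex.cos (θ (β (x.1 - x.2, x.2)) - Gφ (x.1 - x.2, x.2)) - Gp (x.1 - x.2, x.2) with hFp
  have dFφ : DifferentiableOn ℂ Fφ T := (dθ.const_mul 2).sub dφ
  have dFp : DifferentiableOn ℂ Fp T := ((dH.const_mul 2).mul (dθ.sub dφ).ccos).sub dp
  -- agreement near the real point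
  set x1 : ℂ × ℂ := (((s + w0).re : ℂ), w0) with hx1
  have hx1T : x1 ∈ T := by
    refine ⟨?_, ?_, ?_, ?_⟩
    · simp [hx1, he40]
    · simp [hx1, he40]
    · show (((s + w0).re : ℂ)).im < (s + w0).im + e4
      rw [Complex.ofReal_im, Complex.add_im, hw0i]; linarith
    · simp [hx1, he40]
  have hx1P : x1 ∈ PD ρ r := ⟨by simpa [hx1] using hρ, hw0⟩
  have hre : (s + w0).re = s.re + w0.re := by simp
  have hw0re : (w0.re : ℂ) = w0 := by
    apply Complex.ext <;> simp [hw0i]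
  have hx0 : (x1.1 - x1.2, x1.2) = (((s.re : ℂ), w0) : ℂ × ℂ) := by
    rw [hx1, hre]
    ext1
    · show ((s.re + w0.re : ℝ) : ℂ) - w0 = (s.re : ℂ)
      push_cast
      rw [hw0re]; ring
    · rfl
  have hcont1 : ContinuousAt (fun x : ℂ × ℂ => ((x.1 - x.2, x.2) : ℂ × ℂ)) x1 := by fun_prop
  have hcont2 : ContinuousAt (fun x : ℂ × ℂ => ((x.1 - x.2 / 2, x.2) : ℂ × ℂ)) x1 := by fun_prop
  have ev1 : ∀ᶠ x in 𝓝 x1, β (x.1 - x.2, x.2) = b (x.1 - x.2 / 2, x.2) := by
    have h1 : Tendsto (fun x : ℂ × ℂ => ((x.1 - x.2, x.2) : ℂ × ℂ)) (𝓝 x1)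
        (𝓝 (((s.re : ℂ), w0) : ℂ × ℂ)) := by
      have := hcont1.tendsto
      rwa [hx0] at this
    filter_upwards [h1.eventually hβb] with x hx
    rw [hx]
    congr 2
    ring
  have hP := isOpen_PD ρ r
  have m1 : ((fun x : ℂ × ℂ => ((x.1 - x.2, x.2) : ℂ × ℂ)) x1) ∈ PD ρ r := by
    show (x1.1 - x1.2, x1.2) ∈ PD ρ r
    rw [hx0]
    exact ⟨by simpa using hρ, hw0⟩
  have m2 : ((fun x : ℂ × ℂ => ((x.1 - x.2 / 2, x.2) : ℂ × ℂ)) x1) ∈ PD ρ r := by
    refine ⟨?_, hw0⟩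
    show |(x1.1 - x1.2 / 2).im| < ρ
    rw [hx1]
    simpa [hw0i] using hρ
  have hev : ∀ᶠ x in 𝓝 x1, Fφ x = φ x ∧ Fp x = p x := by
    filter_upwards [ev1, hTo.mem_nhds hx1T, hP.mem_nhds hx1P, hcont1.eventually (hP.mem_nhds m1),
      hcont2.eventually (hP.mem_nhds m2)] with x h1 h2 h3 h4 h5
    have i1 : Gφ (x.1 - x.2, x.2) = φ (x.1 - x.2, x.2) := eφ _ (hmap x h2) h4
    have i2 : Gp (x.1 - x.2, x.2) = p (x.1 - x.2, x.2) := ep _ (hmap x h2) h4
    have hbη : b (x.1 - x.2 / 2, x.2) ∈ Str η := by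
      have := hL.b_mem (x.1 - x.2 / 2, x.2) h5
      exact lt_trans this hL.ρ_lt
    have ea : x.1 - x.2 / 2 - x.2 / 2 = x.1 - x.2 := by ring
    have eb : x.1 - x.2 / 2 + x.2 / 2 = x.1 := by ring
    have ec : x.1 - x.2 + x.2 / 2 = x.1 - x.2 / 2 := by ring
    have hx3 : ((x.1, x.2) : ℂ × ℂ) ∈ PD ρ r := h3
    have j1 := hL.refl (x.1 - x.2 / 2) x.2 h5 (by rw [ea]; exact h4) (by rw [eb]; exact hx3)
    rw [ea, eb] at j1
    have hxe : ((x.1, x.2) : ℂ × ℂ) = x := rfl
    rw [hxe] at j1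
    have j2 := hL.inc (x.1 - x.2) x.2 h4 (by rw [ec]; exact h5)
    rw [ec] at j2
    have j3 := hL.inc' x.1 x.2 hx3 h5
    rw [hxe] at j3
    have hθb : θ (b (x.1 - x.2 / 2, x.2)) = Tc q (b (x.1 - x.2 / 2, x.2)) := hV.θ_eq _ hbη
    have hHb : H (b (x.1 - x.2 / 2, x.2)) = Hc q (b (x.1 - x.2 / 2, x.2)) := hV.H_eq _ hbη
    have f1 : Fφ x = φ x := by
      simp only [hFφ]
      rw [h1, i1, hθb]
      linear_combination -j1
    refine ⟨f1, ?_⟩
    simp only [hFp]
    rw [h1, i1, i2, hθb, hHb]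
    unfold OnLine at j2 j3
    unfold Hc
    set τ := Tc q (b (x.1 - x.2 / 2, x.2)) with hτ
    set Z0 := Zs q 1 (b (x.1 - x.2 / 2, x.2))
    set Zc0 := Zs q (-1) (b (x.1 - x.2 / 2, x.2))
    set φm := φ (x.1 - x.2, x.2) with hφm
    set pm := p (x.1 - x.2, x.2)
    have hφx : φ x = 2 * τ - φm := by linear_combination j1
    rw [hφx] at j3
    -- exponentials
    set d := τ - φm with hd
    have x1e : Complex.exp (-(Complex.I * (2 * τ - φm))) =
        Complex.exp (-(Complex.I * τ)) * Complex.exp (-(Complex.I * d)) := by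
      rw [← Complex.exp_add]; congr 1; rw [hd]; ring
    have x2e : Complex.exp (Complex.I * (2 * τ - φm)) =
        Complex.exp (Complex.I * τ) * Complex.exp (Complex.I * d) := by
      rw [← Complex.exp_add]; congr 1; rw [hd]; ring
    have x3e : Complex.exp (-(Complex.I * φm)) =
        Complex.exp (-(Complex.I * τ)) * Complex.exp (Complex.I * d) := by
      rw [← Complex.exp_add]; congr 1; rw [hd]; ring
    have x4e : Complex.exp (Complex.I * φm) =
        Complex.exp (Complex.I * τ) * Complex.exp (-(Complex.I * d)) := by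
      rw [← Complex.exp_add]; congr 1; rw [hd]; ring
    rw [x1e, x2e] at j3
    rw [x3e, x4e] at j2
    have hcos : 2 * Complex.cos d = Complex.exp (Complex.I * d) + Complex.exp (-(Complex.I * d)) := by
      rw [Complex.cos]
      have : d * Complex.I = Complex.I * d := by ring
      rw [neg_mul, this]
      ring
    have hI := Complex.I_ne_zero
    have key : 2 * Complex.I * (2 * ((Complex.exp (-(Complex.I * τ)) * Z0 -
        Complex.exp (Complex.I * τ) * Zc0) / (2 * Complex.I)) * Complex.cos d - pm) =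
        2 * Complex.I * p x := by
      have hh : 2 * Complex.I * ((Complex.exp (-(Complex.I * τ)) * Z0 -
          Complex.exp (Complex.I * τ) * Zc0) / (2 * Complex.I)) =
          Complex.exp (-(Complex.I * τ)) * Z0 - Complex.exp (Complex.I * τ) * Zc0 :=
        mul_div_cancel₀ _ (mul_ne_zero two_ne_zero hI)
      linear_combination 2 * Complex.cos d * hh + (Complex.exp (-(Complex.I * τ)) * Z0 -
        Complex.exp (Complex.I * τ) * Zc0) * hcos + j2 + j3
    exact mul_left_cancel₀ (mul_ne_zero two_ne_zero hI) key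
  -- agreement everywhere
  have hU : IsPreconnected (T ∩ PD ρ r) := (hTc.inter (convex_PD ρ r)).isPreconnected
  have aT := fun {F : ℂ × ℂ → ℂ} (hF : DifferentiableOn ℂ F T) =>
    (Crest.Agent.R266.SCV.analyticOnNhd_of_differentiableOn hTo hF).mono
      (inter_subset_left : T ∩ PD ρ r ⊆ T)
  have aP := fun {F : ℂ × ℂ → ℂ} (hF : DifferentiableOn ℂ F (PD ρ r)) =>
    (Crest.Agent.R266.SCV.analyticOnNhd_of_differentiableOn hP hF).mono
      (inter_subset_right : T ∩ PD ρ r ⊆ PD ρ r)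
  have E1 : EqOn Fφ φ (T ∩ PD ρ r) := AnalyticOnNhd.eqOn_of_preconnected_of_eventuallyEq (𝕜 := ℂ)
    (aT dFφ) (aP hL.φ_diff) hU ⟨hx1T, hx1P⟩ (hev.mono fun x hx => hx.1)
  have E2 : EqOn Fp p (T ∩ PD ρ r) := AnalyticOnNhd.eqOn_of_preconnected_of_eventuallyEq (𝕜 := ℂ)
    (aT dFp) (aP hL.p_diff) hU ⟨hx1T, hx1P⟩ (hev.mono fun x hx => hx.2)
  exact ⟨⟨e4, he40, Fφ, dFφ, fun _ _ => mem_univ _, fun x hx hx' => E1 ⟨hx, hx'⟩⟩,
    ⟨e4, he40, Fp, dFp, fun _ _ => mem_univ _, fun x hx hx' => E2 ⟨hx, hx'⟩⟩⟩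

/-- consecutive lines are different -/
theorem lines_ne (hL : LineFam q η ρ r Bc b φ p m₀) {w0 : ℝ} (hw0 : 0 < w0) (hw0r : w0 < r)
    (x0 : ℝ) : ∃ᶠ x in 𝓝 (((x0 : ℂ), (w0 : ℂ)) : ℂ × ℂ), Complex.exp (Complex.I * φ x) ^ 2 ≠
      Complex.exp (Complex.I * φ (x.1 + x.2, x.2)) ^ 2 := by
  intro hcon
  have hρ := hL.ρ_pos
  have hwn : ‖(w0 : ℂ)‖ < r := by
    rw [Complex.norm_real, Real.norm_eq_abs, abs_of_pos hw0]; exact hw0r
  -- the strip
  set S : Set ℂ := {t | |t.im| < ρ} with hS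
  have hSo : IsOpen S := isOpen_lt (by fun_prop) continuous_const
  have hSc : Convex ℝ S := by
    have : S = {t : ℂ | -ρ < t.im} ∩ {t | t.im < ρ} := by
      ext t; simp [hS, abs_lt]
    rw [this]
    exact (convex_halfSpace_im_gt _).inter (convex_halfSpace_im_lt _)
  have hmem : ∀ t ∈ S, ∀ x : ℝ, ((t + x, (w0 : ℂ)) : ℂ × ℂ) ∈ PD ρ r := by
    intro t ht x
    refine ⟨?_, hwn⟩
    show |(t + x).im| < ρ
    have h : |t.im| < ρ := ht
    simpa using h
  have hreal : ∀ x : ℝ, (x : ℂ) ∈ S := fun x => by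
    show |((x : ℂ)).im| < ρ
    simpa using hρ
  have dφ : ∀ x : ℝ, DifferentiableOn ℂ (fun t : ℂ => φ (t + x, (w0 : ℂ))) S := by
    intro x
    exact hL.φ_diff.comp (by fun_prop : DifferentiableOn ℂ (fun t : ℂ => ((t + x, (w0 : ℂ)) : ℂ × ℂ)) S)
      (fun t ht => hmem t ht x)
  have hEq : EqOn (fun t : ℂ => Complex.exp (Complex.I * φ (t + (0 : ℝ), (w0 : ℂ))) ^ 2)
      (fun t : ℂ => Complex.exp (Complex.I * φ (t + w0, (w0 : ℂ))) ^ 2) S := by
    refine AnalyticOnNhd.eqOn_of_preconnected_of_eventuallyEq (𝕜 := ℂ)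
      (((((dφ 0).const_mul Complex.I).cexp.pow 2)).analyticOnNhd hSo)
      (((((dφ w0).const_mul Complex.I).cexp.pow 2)).analyticOnNhd hSo) hSc.isPreconnected
      (hreal x0) ?_
    have hc : Tendsto (fun t : ℂ => ((t, (w0 : ℂ)) : ℂ × ℂ)) (𝓝 (x0 : ℂ))
        (𝓝 (((x0 : ℂ), (w0 : ℂ)) : ℂ × ℂ)) := by
      have : ContinuousAt (fun t : ℂ => ((t, (w0 : ℂ)) : ℂ × ℂ)) (x0 : ℂ) := by fun_prop
      exact this.tendsto
    filter_upwards [hc.eventually hcon] with t ht
    have h1 := not_not.1 ht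
    simp only [Complex.ofReal_zero, add_zero]
    exact h1
  -- real translation
  have hstep : ∀ x : ℝ, φ ((x : ℂ) + w0, (w0 : ℂ)) = φ ((x : ℂ), (w0 : ℂ)) := by
    intro x
    have h1 := hEq (hreal x)
    simp only [Complex.ofReal_zero, add_zero] at h1
    have hm : (((x : ℂ) + w0 / 2, (w0 : ℂ)) : ℂ × ℂ) ∈ PD ρ r := by
      have := hmem (x : ℂ) (hreal x) (w0 / 2)
      push_cast at this
      exact this
    have ea : (x : ℂ) + w0 / 2 - w0 / 2 = x := by ring
    have eb : (x : ℂ) + w0 / 2 + w0 / 2 = x + w0 := by ring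
    have hm0 : (((x : ℂ), (w0 : ℂ)) : ℂ × ℂ) ∈ PD ρ r := by
      have := hmem (x : ℂ) (hreal x) 0
      simpa using this
    have hm1 : (((x : ℂ) + w0, (w0 : ℂ)) : ℂ × ℂ) ∈ PD ρ r := hmem (x : ℂ) (hreal x) w0
    have j1 := hL.refl ((x : ℂ) + w0 / 2) w0 hm (by rw [ea]; exact hm0) (by rw [eb]; exact hm1)
    have j2 := hL.δ_small ((x : ℂ) + w0 / 2) w0 hm (by rw [eb]; exact hm1)
    rw [ea, eb] at j1
    rw [eb] at j2
    rw [← Complex.exp_nat_mul, ← Complex.exp_nat_mul, Complex.exp_eq_exp_iff_exists_int] at h1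
    obtain ⟨n, hn⟩ := h1
    have hI := Complex.I_ne_zero
    have h3 : φ ((x : ℂ), (w0 : ℂ)) - φ ((x : ℂ) + w0, (w0 : ℂ)) = n * Real.pi := by
      have h4 : (2 * Complex.I) * (φ ((x : ℂ), (w0 : ℂ)) - φ ((x : ℂ) + w0, (w0 : ℂ))) =
          (2 * Complex.I) * (n * Real.pi) := by
        push_cast at hn
        linear_combination hn
      exact mul_left_cancel₀ (mul_ne_zero two_ne_zero hI) h4
    have h4 : φ ((x : ℂ), (w0 : ℂ)) - φ ((x : ℂ) + w0, (w0 : ℂ)) =
        -2 * (φ ((x : ℂ) + w0, (w0 : ℂ)) - Tc q (b ((x : ℂ) + w0 / 2, (w0 : ℂ)))) := by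
      linear_combination j1
    have h5 : |(n : ℝ)| * Real.pi ≤ 2 / 5 := by
      have h6 : ‖(n : ℂ) * Real.pi‖ = |(n : ℝ)| * Real.pi := by
        rw [norm_mul, Complex.norm_real, Real.norm_eq_abs, abs_of_pos Real.pi_pos,
          Complex.norm_intCast]
      rw [← h6, ← h3, h4, norm_mul, norm_neg, Complex.norm_ofNat]
      linarith
    have h6 : n = 0 := by
      by_contra hn0
      have h7 : (1 : ℝ) ≤ |(n : ℝ)| := by
        rw [← Int.cast_abs]
        exact_mod_cast Int.one_le_abs hn0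
      have h8 := Real.pi_gt_three
      nlinarith
    rw [h6] at h3
    simp only [Int.cast_zero, zero_mul] at h3
    exact (sub_eq_zero.1 h3).symm
  have hn : ∀ n : ℕ, φ (((n * w0 : ℝ) : ℂ), (w0 : ℂ)) = φ (0, (w0 : ℂ)) := by
    intro n
    induction n with
    | zero => simp
    | succ n ih =>
      have h1 := hstep (n * w0)
      rw [ih] at h1
      rw [← h1]
      congr 2
      push_cast
      ring
  -- periodic remainder is bounded
  set g : ℝ → ℂ := fun x => φ ((x : ℂ), (w0 : ℂ)) - 2 * Real.pi * x with hg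
  have hgper : Function.Periodic g 1 := by
    intro x
    simp only [hg]
    have hm0 : (((x : ℂ), (w0 : ℂ)) : ℂ × ℂ) ∈ PD ρ r := by
      have := hmem (x : ℂ) (hreal x) 0
      simpa using this
    have := hL.φ_per (x : ℂ) w0 hm0
    push_cast
    rw [this]
    ring
  have hgc : Continuous g := by
    have h1 : Continuous fun x : ℝ => φ ((x : ℂ), (w0 : ℂ)) := by
      rw [← continuousOn_univ]
      refine hL.φ_diff.continuousOn.comp (by fun_prop) (fun x _ => ?_)
      have := hmem (x : ℂ) (hreal x) 0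
      simpa using this
    exact h1.sub (by fun_prop)
  obtain ⟨C, hC⟩ := (hgper.isBounded_of_continuous one_ne_zero hgc).exists_norm_le
  have hC' : ∀ x, ‖g x‖ ≤ C := fun x => hC _ (mem_range_self x)
  have h1 : ∀ n : ℕ, (n : ℝ) * (2 * Real.pi * w0) ≤ ‖φ (0, (w0 : ℂ))‖ + C := by
    intro n
    have h2 : (2 * Real.pi * ((n * w0 : ℝ) : ℂ)) = φ (0, (w0 : ℂ)) - g (n * w0) := by
      simp only [hg]
      rw [hn n]
      ring
    have h3 : ‖(2 * Real.pi * ((n * w0 : ℝ) : ℂ))‖ = (n : ℝ) * (2 * Real.pi * w0) := by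
      rw [norm_mul, norm_mul, Complex.norm_real, Complex.norm_real, Real.norm_eq_abs,
        Real.norm_eq_abs, abs_mul, Nat.abs_cast, abs_of_pos Real.pi_pos, Complex.norm_ofNat,
        abs_of_pos hw0]
      ring
    rw [← h3, h2]
    exact (norm_sub_le _ _).trans (by linarith [hC' (n * w0)])
  have h2 : 0 < 2 * Real.pi * w0 := by
    have := Real.pi_pos
    positivity
  obtain ⟨n, hn'⟩ := exists_nat_gt ((‖φ (0, (w0 : ℂ))‖ + C) / (2 * Real.pi * w0))
  rw [div_lt_iff₀ h2] at hn'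
  linarith [h1 n]

lemma tube_sub {s w0 : ℂ} {e e' : ℝ} (h : e' ≤ e) : Tube s w0 e' ⊆ Tube s w0 e := by
  rintro x ⟨h1, h2, h3, h4⟩
  exact ⟨by linarith, by linarith, by linarith, by linarith⟩

lemma regAt_open {f : ℂ × ℂ → ℂ} {S : Set ℂ} {s w0 : ℂ} (h : RegAt ρ r f S s w0) :
    ∃ d > 0, ∀ s' : ℂ, s'.im = s.im → |s'.re - s.re| < d → RegAt ρ r f S s' w0 := by
  obtain ⟨e, he, G, g1, g2, g3⟩ := h
  refine ⟨e / 2, by positivity, fun s' h1 h2 => ?_⟩
  have hsub : Tube s' w0 (e / 2) ⊆ Tube s w0 e := by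
    rintro x ⟨k1, k2, k3, k4⟩
    have h2' := abs_lt.1 h2
    have k1' := abs_lt.1 k1
    rw [h1] at k3
    refine ⟨?_, by linarith, by linarith, by linarith⟩
    rw [abs_lt]
    constructor <;> linarith
  exact ⟨e / 2, by positivity, G, g1.mono hsub, fun x hx => g2 x (hsub hx),
    fun x hx hx' => g3 x (hsub hx) hx'⟩

lemma regL_open {s w0 : ℂ} (h : RegL ρ r φ p s w0) :
    ∃ d > 0, ∀ s' : ℂ, s'.im = s.im → |s'.re - s.re| < d → RegL ρ r φ p s' w0 := by
  obtain ⟨d1, hd1, h1⟩ := regAt_open h.1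
  obtain ⟨d2, hd2, h2⟩ := regAt_open h.2
  exact ⟨min d1 d2, lt_min hd1 hd2, fun s' k1 k2 =>
    ⟨h1 s' k1 (k2.trans_le (min_le_left _ _)), h2 s' k1 (k2.trans_le (min_le_right _ _))⟩⟩

/-- shift of a regular point by `k = ± 1` -/
lemma regAt_shift {f : ℂ × ℂ → ℂ} {s w0 : ℂ} {k : ℝ} {C : ℂ}
    (hf : ∀ t w : ℂ, (t, w) ∈ PD ρ r → f (t + k, w) = f (t, w) + C) (h : RegAt ρ r f univ s w0) :
    RegAt ρ r f univ (s + k) w0 := by
  obtain ⟨e, he, G, g1, g2, g3⟩ := h
  have hmap : ∀ x ∈ Tube (s + k) w0 e, ((x.1 - k, x.2) : ℂ × ℂ) ∈ Tube s w0 e := by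
    rintro x ⟨k1, k2, k3, k4⟩
    rw [Complex.add_re, Complex.ofReal_re] at k1
    rw [Complex.add_im, Complex.ofReal_im, add_zero] at k3
    refine ⟨?_, ?_, ?_, k4⟩
    · show |(x.1 - k).re - s.re| < e
      rw [Complex.sub_re, Complex.ofReal_re]
      have : x.1.re - k - s.re = x.1.re - (s.re + k) := by ring
      rw [this]; exact k1
    · show -e < (x.1 - k).im
      rw [Complex.sub_im, Complex.ofReal_im, sub_zero]; exact k2
    · show (x.1 - k).im < s.im + e
      rw [Complex.sub_im, Complex.ofReal_im, sub_zero]; exact k3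
  refine ⟨e, he, fun x => G (x.1 - k, x.2) + C, ?_, fun _ _ => mem_univ _, ?_⟩
  · refine DifferentiableOn.add_const (c := C) ?_
    exact g1.comp (by fun_prop : DifferentiableOn ℂ (fun x : ℂ × ℂ => ((x.1 - k, x.2) : ℂ × ℂ)) _)
      hmap
  · intro x hx hx'
    have hxP : ((x.1 - k, x.2) : ℂ × ℂ) ∈ PD ρ r := by
      refine ⟨?_, hx'.2⟩
      show |(x.1 - k).im| < ρ
      rw [Complex.sub_im, Complex.ofReal_im, sub_zero]
      exact hx'.1
    show G (x.1 - k, x.2) + C = f x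
    rw [g3 _ (hmap x hx) hxP, ← hf (x.1 - k) x.2 hxP]
    congr 1
    ext1 <;> simp

lemma regL_per (hL : LineFam q η ρ r Bc b φ p m₀) (s w0 : ℂ) :
    RegL ρ r φ p s w0 ↔ RegL ρ r φ p (s + 1) w0 := by
  constructor
  · rintro ⟨h1, h2⟩
    have a1 := regAt_shift (k := 1) (C := 2 * Real.pi) (by
      intro t w htw
      simpa using hL.φ_per t w htw) h1
    have a2 := regAt_shift (k := 1) (C := 0) (by
      intro t w htw
      simpa using hL.p_per t w htw) h2
    rw [Complex.ofReal_one] at a1 a2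
    exact ⟨a1, a2⟩
  · rintro ⟨h1, h2⟩
    have hm : ∀ t w : ℂ, (t, w) ∈ PD ρ r → ((t - 1, w) : ℂ × ℂ) ∈ PD ρ r := by
      intro t w htw
      refine ⟨?_, htw.2⟩
      have := htw.1
      simpa using this
    have a1 := regAt_shift (k := -1) (C := -(2 * Real.pi)) (by
      intro t w htw
      have := hL.φ_per (t - 1) w (hm t w htw)
      rw [sub_add_cancel] at this
      rw [this]
      push_cast
      rw [← sub_eq_add_neg]
      ring) h1
    have a2 := regAt_shift (k := -1) (C := 0) (by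
      intro t w htw
      have := hL.p_per (t - 1) w (hm t w htw)
      rw [sub_add_cancel] at this
      rw [this]
      push_cast
      rw [← sub_eq_add_neg]
      ring) h2
    have e1 : s + 1 + ((-1 : ℝ) : ℂ) = s := by push_cast; ring
    rw [e1] at a1 a2
    exact ⟨a1, a2⟩

/-- **(B3)** -/
theorem b3 (hR : RatCont) (hL : LineFam q η ρ r Bc b φ p m₀) (hV : VExt q η V θ H)
    (hna : ¬ AlgC q) {w0 : ℝ} (hG : GoodW ρ r b φ p V w0) (hJ : JX V θ H (w0 : ℂ)) : False := by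
  obtain ⟨hirr, hw0, hw0r, U, hU, hbelow, ⟨s1, hs1, hs1n⟩, ⟨s2, hs2, hs2r⟩⟩ := hG
  have hρ := hL.ρ_pos
  have hwn : ‖(w0 : ℂ)‖ < r := by
    rw [Complex.norm_real, Real.norm_eq_abs, abs_of_pos hw0]; exact hw0r
  have hw0i : ((w0 : ℂ)).im = 0 := Complex.ofReal_im _
  set S : Set ℂ := {s | ¬ RegL ρ r φ p s w0} with hS
  have hmemS : ∀ s, s ∈ S ↔ ¬ RegL ρ r φ p s w0 := fun s => Iff.rfl
  have hopen : IsOpen {x : ℝ | (x : ℂ) + U * Complex.I ∉ S} := by
    rw [Metric.isOpen_iff]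
    intro x hx
    have hx' : RegL ρ r φ p ((x : ℂ) + U * Complex.I) w0 := not_not.1 hx
    obtain ⟨d, hd, h1⟩ := regL_open hx'
    refine ⟨d, hd, fun y hy => ?_⟩
    have h2 : RegL ρ r φ p ((y : ℂ) + U * Complex.I) w0 := by
      refine h1 _ (by simp) ?_
      rw [mem_ball, Real.dist_eq] at hy
      simpa using hy
    exact fun h => h h2
  have hform : ∀ s : ℂ, s.im = U → s = (s.re : ℂ) + U * Complex.I := by
    intro s hs
    rw [← hs]
    exact (Complex.re_add_im s).symm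
  obtain ⟨a, b', ha, hb', hrun, hleft, hright⟩ := Crest.Agent.R102.ChainD88.run_rot hirr
    (S := S) (U := U) hopen ⟨s2.re, by
      rw [← hform s2 hs2]
      exact fun h => h hs2r⟩ (by
      intro x
      rw [hmemS, hmemS, not_iff_not, regL_per hL]
      have : (x : ℂ) + U * Complex.I + 1 = ((x + 1 : ℝ) : ℂ) + U * Complex.I := by
        push_cast; ring
      rw [this]) (s := s1) hs1n hs1
  -- the start of the run
  set s0 : ℂ := s1 + ((a - 1 : ℤ) : ℂ) * w0 with hs0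
  have hs0im : s0.im = U := by
    rw [hs0, Complex.add_im, hs1]; simp
  have hs0r : RegL ρ r φ p s0 w0 := not_not.1 hleft
  have hs0w : s0 + w0 = s1 + (a : ℂ) * w0 := by
    rw [hs0]; push_cast; ring
  have hs1S : ¬ RegL ρ r φ p (s0 + w0) w0 := by
    rw [hs0w]
    exact hrun a le_rfl (ha.trans hb')
  obtain ⟨N, hN⟩ : ∃ N : ℕ, (N : ℤ) = b' - a + 2 := ⟨(b' - a + 2).toNat, by omega⟩
  have hN1 : 1 ≤ N := by omega
  have hNe : s0 + N * w0 = s1 + ((b' + 1 : ℤ) : ℂ) * w0 := by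
    have h1 : (N : ℂ) = ((b' - a + 2 : ℤ) : ℂ) := by
      rw [← hN]; simp
    rw [h1, hs0]; push_cast; ring
  have hsNr : RegL ρ r φ p (s0 + N * w0) w0 := by
    rw [hNe]; exact not_not.1 hright
  -- the common tube
  obtain ⟨⟨e1, he1, G1, g1, -, k1⟩, ⟨e2, he2, G2, g2, -, k2⟩⟩ := hs0r
  obtain ⟨⟨e3, he3, G3, g3, -, k3⟩, ⟨e4, he4, G4, g4, -, k4⟩⟩ := hsNr
  set em : ℝ := min (min e1 e2) (min e3 e4) with hem
  have hem0 : 0 < em := lt_min (lt_min he1 he2) (lt_min he3 he4)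
  set e : ℝ := em / (1 + N) with he
  have hN0 : (0 : ℝ) < 1 + N := by positivity
  have he0 : 0 < e := by positivity
  have hee : e * (1 + N) = em := by rw [he]; field_simp
  have hNR : (0 : ℝ) ≤ N := Nat.cast_nonneg N
  have heem : e ≤ em := by nlinarith
  have heem' : e + N * e ≤ em := by linarith
  have q1' : e ≤ e1 := heem.trans ((min_le_left _ _).trans (min_le_left _ _))
  have q2' : e ≤ e2 := heem.trans ((min_le_left _ _).trans (min_le_right _ _))
  have q3' : em ≤ e3 := (min_le_right _ _).trans (min_le_left _ _)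
  have q4' : em ≤ e4 := (min_le_right _ _).trans (min_le_right _ _)
  have hTo : IsOpen (Tube s0 w0 e) := isOpen_Tube _ _ _
  have hmapN : ∀ x ∈ Tube s0 w0 e, ((x.1 + N * x.2, x.2) : ℂ × ℂ) ∈ Tube (s0 + N * w0) w0 em := by
    rintro x ⟨h1, h2, h3, h4⟩
    have h5 := Complex.abs_im_le_norm (x.2 - w0)
    have h6 := Complex.abs_re_le_norm (x.2 - w0)
    rw [Complex.sub_im, hw0i, sub_zero] at h5
    rw [Complex.sub_re, Complex.ofReal_re] at h6
    have h5' := abs_le.1 (h5.trans h4.le)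
    have h6' := abs_le.1 (h6.trans h4.le)
    have h1' := abs_lt.1 h1
    have r1 : (x.1 + N * x.2).re = x.1.re + N * x.2.re := by simp
    have r2 : (x.1 + N * x.2).im = x.1.im + N * x.2.im := by simp
    have r3 : (s0 + N * w0).re = s0.re + N * w0 := by simp
    have r4 : (s0 + N * w0).im = s0.im := by simp
    have r5 : N * (x.2.re - w0) ≤ N * e := mul_le_mul_of_nonneg_left h6'.2 hNR
    have r6 : N * (-e) ≤ N * (x.2.re - w0) := mul_le_mul_of_nonneg_left h6'.1 hNR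
    have r7 : N * x.2.im ≤ N * e := mul_le_mul_of_nonneg_left h5'.2 hNR
    have r8 : N * (-e) ≤ N * x.2.im := mul_le_mul_of_nonneg_left h5'.1 hNR
    refine ⟨?_, ?_, ?_, ?_⟩
    · show |(x.1 + N * x.2).re - (s0 + N * w0).re| < em
      rw [r1, r3, abs_lt]
      constructor <;> linarith
    · show -em < (x.1 + N * x.2).im
      rw [r2]; linarith
    · show (x.1 + N * x.2).im < (s0 + N * w0).im + em
      rw [r2, r4]; linarith
    · show ‖x.2 - w0‖ < em
      linarith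
  have hshN : Differentiable ℂ (fun x : ℂ × ℂ => ((x.1 + N * x.2, x.2) : ℂ × ℂ)) := by fun_prop
  have d1 : DifferentiableOn ℂ G1 (Tube s0 w0 e) := g1.mono (tube_sub q1')
  have d2 : DifferentiableOn ℂ G2 (Tube s0 w0 e) := g2.mono (tube_sub q2')
  have d3 : DifferentiableOn ℂ (fun x : ℂ × ℂ => G3 (x.1 + N * x.2, x.2)) (Tube s0 w0 e) :=
    g3.comp hshN.differentiableOn fun x hx => tube_sub q3' (hmapN x hx)
  have d4 : DifferentiableOn ℂ (fun x : ℂ × ℂ => G4 (x.1 + N * x.2, x.2)) (Tube s0 w0 e) :=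
    g4.comp hshN.differentiableOn fun x hx => tube_sub q4' (hmapN x hx)
  have an := fun {F : ℂ × ℂ → ℂ} (hF : DifferentiableOn ℂ F (Tube s0 w0 e)) =>
    Crest.Agent.R266.SCV.analyticOnNhd_of_differentiableOn hTo hF
  have hx0T : (((s0.re : ℂ), (w0 : ℂ)) : ℂ × ℂ) ∈ Tube s0 w0 e := by
    refine ⟨?_, ?_, ?_, ?_⟩
    · simp [he0]
    · simp [he0]
    · show ((s0.re : ℂ)).im < s0.im + e
      rw [Complex.ofReal_im, hs0im]; linarith
    · simp [he0]
  have hx0P : (((s0.re : ℂ), (w0 : ℂ)) : ℂ × ℂ) ∈ PD ρ r := ⟨by simpa using hρ, hwn⟩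
  have hxNP : (((s0.re : ℂ) + N * (w0 : ℂ), (w0 : ℂ)) : ℂ × ℂ) ∈ PD ρ r := by
    refine ⟨?_, hwn⟩
    show |((s0.re : ℂ) + N * (w0 : ℂ)).im| < ρ
    simpa using hρ
  have hcN : ContinuousAt (fun x : ℂ × ℂ => ((x.1 + N * x.2, x.2) : ℂ × ℂ))
      (((s0.re : ℂ), (w0 : ℂ)) : ℂ × ℂ) := by fun_prop
  obtain ⟨E, P, hEP, hE0⟩ := hR q η ρ r Bc b φ p m₀ hL hna N (Tube s0 w0 e)
    (((s0.re : ℂ), (w0 : ℂ)) : ℂ × ℂ)
    ![fun x => Complex.exp (Complex.I * G1 x), G2,
      fun x => Complex.exp (Complex.I * G3 (x.1 + N * x.2, x.2)),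
      fun x => G4 (x.1 + N * x.2, x.2)] hTo (convex_Tube _ _ _).isPreconnected hx0T hx0P hxNP
    (by
      intro i c hc
      fin_cases i
      · exact merAt_of_analyticAt ((analyticAt_const.mul (an d1 c hc)).cexp)
      · exact merAt_of_analyticAt (an d2 c hc)
      · exact merAt_of_analyticAt ((analyticAt_const.mul (an d3 c hc)).cexp)
      · exact merAt_of_analyticAt (an d4 c hc))
    (by
      filter_upwards [hTo.mem_nhds hx0T, (isOpen_PD ρ r).mem_nhds hx0P,
        hcN.eventually ((isOpen_PD ρ r).mem_nhds hxNP)] with x h1 h2 h3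
      have h4 := hmapN x h1
      refine ⟨?_, ?_, ?_, ?_⟩
      · show Complex.exp (Complex.I * G1 x) = _
        rw [k1 x (tube_sub q1' h1) h2]
      · show G2 x = _
        rw [k2 x (tube_sub q2' h1) h2]
      · show Complex.exp (Complex.I * G3 (x.1 + N * x.2, x.2)) = _
        rw [k3 _ (tube_sub q3' h4) h3]
      · show G4 (x.1 + N * x.2, x.2) = _
        rw [k4 _ (tube_sub q4' h4) h3]) 1 hN1
  -- climb
  obtain ⟨e5, he5, he5e, β, b1, b2, b3⟩ := label_up hL hV hwn hw0i (s := s0)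
    (by rw [hs0im]; exact hU) he0 d1 d2 (fun x hx hx' => k1 x (tube_sub q1' hx) hx')
    (fun x hx hx' => k2 x (tube_sub q2' hx) hx') hEP (by
      filter_upwards [hE0] with x hx
      simpa only [Nat.cast_one, one_mul] using hx)
    (lines_ne hL hw0 hw0r s0.re)
    (fun s' h1 h2 => (hbelow s' h1 (by rw [← hs0im]; exact h2)).2) hJ
  exact hs1S (line_next hL hV hwn hw0i (s := s0) (by rw [hs0im]; exact hU) he5
    (d1.mono (tube_sub he5e)) (d2.mono (tube_sub he5e))
    (fun x hx hx' => k1 x (tube_sub (he5e.trans q1') hx) hx')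
    (fun x hx hx' => k2 x (tube_sub (he5e.trans q2') hx) hx') b1 b2 b3)

end fam

/-- every boundary point is singular -/
lemma nb_of {h0 : ℝ} {θ H : ℂ → ℂ} {q : C(ℂ, ℂ)} {η : ℝ} (hV : VExt q η (Str h0) θ H)
    (hη : η ≤ h0) (D : Datum q η) (hs : ∀ s : ℂ, s.im = h0 → ¬ RegB h0 θ H s) :
    Crest.Agent.R102.Rule982.NB h0 θ H := by
  rintro s hsi ⟨r, hr, g₁, g₂, h1, h2, h3, h4⟩
  have hcase : s.im = h0 ∨ s.im = -h0 := by
    rcases abs_cases s.im with ⟨h, -⟩ | ⟨h, -⟩
    · left; rw [h] at hsi; exact hsi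
    · right; rw [h] at hsi; linarith
  rcases hcase with h | h
  · exact hs s h ⟨r, hr, g₁, g₂, h1, h2, fun z hz hzi => ⟨h3 ⟨hz, hzi⟩, h4 ⟨hz, hzi⟩⟩⟩
  · have hb : ∀ z ∈ ball (conj s) r, conj z ∈ ball s r := fun z hz => by
      rw [mem_ball, dist_eq_norm] at hz ⊢
      have e : conj z - s = conj (z - conj s) := by rw [map_sub, starRingEnd_self_apply]
      rw [e, RCLike.norm_conj]; exact hz
    refine hs (conj s) (by rw [Complex.conj_im, h, neg_neg]) ⟨r, hr, fun z => conj (g₁ (conj z)),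
      fun z => conj (g₂ (conj z)), ?_, ?_, ?_⟩
    · intro z hz
      exact (((h1.differentiableAt (isOpen_ball.mem_nhds (hb z hz))).hasDerivAt.conj_conj
        ).differentiableAt |> fun h => by
          rw [starRingEnd_self_apply] at h; exact h.differentiableWithinAt)
    · intro z hz
      exact (((h2.differentiableAt (isOpen_ball.mem_nhds (hb z hz))).hasDerivAt.conj_conj
        ).differentiableAt |> fun h => by
          rw [starRingEnd_self_apply] at h; exact h.differentiableWithinAt)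
    · intro z hz hzi
      have hz' : |(conj z).im| < h0 := by rw [Complex.conj_im, abs_neg]; exact hzi
      have e := ext_conj D hη hV (z := z) hzi
      constructor
      · show conj (g₁ (conj z)) = θ z
        rw [h3 ⟨hb z hz, hz'⟩, e.1, starRingEnd_self_apply]
      · show conj (g₂ (conj z)) = H z
        rw [h4 ⟨hb z hz, hz'⟩, e.2, starRingEnd_self_apply]

/-- **end of Case B** -/
theorem bEnd (hR : RatCont) : BEnd := by
  intro q η ρ r Bc b φ p m₀ θ H h0 hD hs hna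
  have hempty : {w0 : ℝ | GoodW ρ r b φ p (Str h0) w0} = ∅ := by
    rw [eq_empty_iff_forall_notMem]
    intro w0 hw0
    have hrel : Rel h0 θ H (-1) := (zeroY q η (Str h0) θ H hD.fam.dat hD.ext).1
    exact b3 hR hD.fam hD.ext hna hw0 (jx_strip (h := h0) hD.ext.θ_diff hD.ext.H_diff
      (by norm_num) hrel (nb_of hD.ext hD.le hD.fam.dat hs) (w0 : ℂ))
  rw [hempty]
  exact countable_empty

end Crest.Agent.R102.BEnd802
end
end

-- ▼ part R102/EEnd_348
section

/-!
Row 102, Case E (helper348): **the end of Case E** (`EEnd` of `SpineDefs_478`) from `RatCont`: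
`b3` (helper802) and the joint extension property `jx_caseE`.
-/

set_option autoImplicit false

noncomputable section

open Filter Topology Set Metric

namespace Crest.Agent.R102.EndE348

open Crest.Agent.R102.Spine Crest.Agent.R102.BEnd802

/-- **EEnd** -/
theorem eEnd (hR : RatCont) : EEnd := by
  intro q η ρ r B b φ p m₀ θ H hE hna hc
  have h0 : {w0 : ℝ | GoodW ρ r b φ p univ w0} = ∅ := by
    ext w0
    simp only [mem_ofPred_eq, mem_empty_iff_false, iff_false]
    intro hG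
    exact b3 hR hE.fam hE.ext hna hG (jx_caseE hE hc (w0 : ℂ))
  rw [h0]
  exact countable_empty

end Crest.Agent.R102.EndE348
end
end

-- ▼ part R102/AlgR_151
section

/-!
# Row 102: the isotropic coordinates of an algebraic curve are rational in `E`, `y` (helper151)

* `int_mem` : an algebraic primitive of an element of a differential field lies in the field, up to
  a constant of derivation
* `const_of_D` : constants of the field of meromorphic germs
* `coord_mem` : `Z`, `Zc ∈ ℂ(E, y)`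
* `rat_fun` : `B(E, y) H = A(E, y)`
-/

set_option autoImplicit false

noncomputable section

open Polynomial IntermediateField

namespace Crest.Agent.R102.AlgR151

open Crest.Agent.R102.AlgD151

section field

variable {k K : Type*} [Field k] [Field K] [Algebra k K]

lemma alg_mono {F M : IntermediateField k K} (h : F ≤ M) {x : K} (hx : IsAlgebraic F x) :
    IsAlgebraic M x := by
  obtain ⟨p, hp, hp0⟩ := hx
  refine ⟨p.map (IntermediateField.inclusion h).toRingHom, ?_, ?_⟩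
  · exact (Polynomial.map_ne_zero_iff (IntermediateField.inclusion h).toRingHom.injective).2 hp
  · rw [Polynomial.aeval_def, Polynomial.eval₂_map, ← hp0, Polynomial.aeval_def]
    rfl

/-- the derivation of an algebraic element -/
theorem der_alg [CharZero k] (D : Derivation k K K) {F M : IntermediateField k K} (hFM : F ≤ M)
    (hD : ∀ a ∈ F, D a ∈ M) {x : K} (hxM : x ∈ M) (hx : IsAlgebraic F x) : D x ∈ M := by
  have : CharZero F := charZero_of_injective_algebraMap (algebraMap k F).injective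
  set p := minpoly F x with hp
  have hs : p.Separable := (minpoly.irreducible hx.isIntegral).separable
  have h1 : aeval x (derivative p) ≠ 0 := hs.aeval_derivative_ne_zero (minpoly.aeval _ x)
  have h2 := der_aeval D F x p
  rw [hp, minpoly.aeval, map_zero, ← hp] at h2
  have h3 : D x = -(p.sum (fun i c => D (algebraMap F K c) * x ^ i)) /
      aeval x (derivative p) := by
    rw [eq_div_iff h1]
    linear_combination -h2
  rw [h3]
  refine div_mem (neg_mem ?_) ?_
  · rw [Polynomial.sum_def]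
    exact sum_mem fun i _ => mul_mem (hD _ (p.coeff i).2) (pow_mem hxM i)
  · rw [aeval_eq_sum_range]
    refine sum_mem fun i _ => ?_
    rw [Algebra.smul_def]
    exact mul_mem (hFM ((derivative p).coeff i).2) (pow_mem hxM i)

/-- an algebraic primitive lies in the field up to a constant -/
theorem int_mem [CharZero k] (D : Derivation k K K) (L : IntermediateField k K)
    (hL : ∀ x ∈ L, D x ∈ L) {x : K} (hx : IsAlgebraic L x) (hDx : D x ∈ L) :
    ∃ c : K, D c = 0 ∧ x - c ∈ L := by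
  have : CharZero L := charZero_of_injective_algebraMap (algebraMap k L).injective
  set p := minpoly L x with hp
  have hmon : p.Monic := minpoly.monic hx.isIntegral
  have hdeg : 0 < p.natDegree := minpoly.natDegree_pos hx.isIntegral
  set m := p.natDegree with hm
  -- the derived polynomial
  let r : L[X] := ∑ i ∈ Finset.range m, C (⟨D (algebraMap L K (p.coeff i)),
    hL _ (p.coeff i).2⟩ : L) * X ^ i + derivative p * C (⟨D x, hDx⟩ : L)
  have hr0 : aeval x r = 0 := by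
    have h2 := der_aeval D L x p
    rw [hp, minpoly.aeval, map_zero, ← hp] at h2
    simp only [r, map_add, map_sum, map_mul, aeval_C, map_pow, aeval_X]
    rw [h2]
    congr 1
    rw [Polynomial.sum_over_range _ (by intro i; simp), Finset.sum_range_succ]
    have h3 : p.coeff p.natDegree = 1 := hmon.coeff_natDegree
    rw [h3]
    simp only [map_one, Derivation.map_one_eq_zero, zero_mul, add_zero]
    rfl
  have hrdeg : r.degree < p.degree := by
    have hpd : p.degree = (m : WithBot ℕ) := degree_eq_natDegree hmon.ne_zero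
    refine lt_of_le_of_lt (degree_add_le _ _) (max_lt ?_ ?_)
    · rw [hpd]
      refine lt_of_le_of_lt (degree_sum_le _ _) ?_
      rw [Finset.sup_lt_iff (by exact WithBot.bot_lt_coe m)]
      intro i hi
      refine lt_of_le_of_lt (degree_C_mul_X_pow_le _ _) ?_
      exact_mod_cast Finset.mem_range.1 hi
    · refine lt_of_le_of_lt (degree_mul_le _ _) ?_
      have h4 : (C (⟨D x, hDx⟩ : L)).degree ≤ 0 := degree_C_le
      have h5 : (derivative p).degree < p.degree := degree_derivative_lt hmon.ne_zero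
      calc (derivative p).degree + (C (⟨D x, hDx⟩ : L)).degree ≤ (derivative p).degree + 0 := by
            gcongr
        _ < p.degree := by rwa [add_zero]
  have hr : r = 0 := by
    by_contra hne
    exact absurd (minpoly.degree_le_of_ne_zero L x hne hr0) (not_le.2 hrdeg)
  have hc : (r.coeff (m - 1) : K) = 0 := by rw [hr]; simp
  have hc2 : (r.coeff (m - 1) : K) = D (algebraMap L K (p.coeff (m - 1))) + (m : K) * D x := by
    simp only [r, coeff_add, finsetSum_coeff, coeff_C_mul, coeff_X_pow, coeff_mul_C,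
      coeff_derivative]
    rw [Finset.sum_eq_single (m - 1)]
    · have h6 : m - 1 + 1 = m := by omega
      have h7 : p.coeff m = 1 := hmon.coeff_natDegree
      rw [h6, h7]
      push_cast
      have h8 : ((m - 1 : ℕ) : K) + 1 = (m : K) := by
        have : ((m - 1 + 1 : ℕ) : K) = (m : K) := by rw [h6]
        push_cast at this
        exact this
      simp only [if_true, one_mul]
      rw [h8, OneMemClass.coe_one, mul_one]
    · intro b _ hb
      rw [if_neg (Ne.symm hb), mul_zero]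
    · intro h9
      exact absurd (Finset.mem_range.2 (by omega)) h9
  rw [hc2] at hc
  have hmK : (m : K) ≠ 0 := by
    have : CharZero K := charZero_of_injective_algebraMap (algebraMap k K).injective
    exact_mod_cast hdeg.ne'
  set a : K := algebraMap L K (p.coeff (m - 1)) with ha
  have haL : a ∈ L := (p.coeff (m - 1)).2
  have hDm : D ((m : K)⁻¹) = 0 := by
    have h10 : (m : K)⁻¹ = algebraMap k K ((m : k)⁻¹) := by
      rw [map_inv₀, map_natCast]
    rw [h10, Derivation.map_algebraMap]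
  refine ⟨x + (m : K)⁻¹ * a, ?_, ?_⟩
  · rw [map_add, Derivation.leibniz, smul_eq_mul, smul_eq_mul, hDm, mul_zero, add_zero]
    field_simp
    linear_combination hc
  · have h11 : x - (x + (m : K)⁻¹ * a) = -((m : K)⁻¹ * a) := by ring
    rw [h11]
    refine neg_mem (mul_mem (inv_mem ?_) haL)
    exact _root_.natCast_mem L m

/-- `ℂ(E, y)` is stable under the derivation -/
theorem stable [CharZero k] (D : Derivation k K K) {E y : K} {i : k} (hi : i ≠ 0) (hE0 : E ≠ 0)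
    (hy0 : y ≠ 0) (hE : D E = algebraMap k K i * y * E) (hyc : y ∈ cl k E) :
    ∀ x ∈ adjoin k {E, y}, D x ∈ adjoin k {E, y} := by
  have hi' : algebraMap k K i ≠ 0 := by simpa using hi
  have hDE : D E ≠ 0 := by rw [hE]; exact mul_ne_zero (mul_ne_zero hi' hy0) hE0
  set M := adjoin k {E, y} with hM
  have hEM : E ∈ M := subset_adjoin _ _ (by simp)
  have hyM : y ∈ M := subset_adjoin _ _ (by simp)
  have hDEM : D E ∈ M := by
    rw [hE]
    exact mul_mem (mul_mem (M.algebraMap_mem i) hyM) hEM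
  have hFM : k⟮E⟯ ≤ M := by
    rw [adjoin_simple_le_iff]
    exact hEM
  have hDy : D y ∈ M := by
    refine der_alg D hFM ?_ hyM (mem_cl.1 hyc)
    intro a ha
    have h1 := der_base D hDE ha
    have h2 : D a = D a / D E * D E := by field_simp
    rw [h2]
    exact mul_mem (hFM h1) hDEM
  intro x hx
  induction hx using IntermediateField.adjoin_induction with
  | mem x hx =>
    rcases hx with rfl | hx
    · exact hDEM
    · rw [Set.mem_singleton_iff] at hx
      rw [hx]; exact hDy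
  | algebraMap a => simp
  | add x y hx hy h1 h2 => rw [map_add]; exact add_mem h1 h2
  | inv x hx h1 =>
    rw [Derivation.leibniz_inv, smul_eq_mul]
    have h2 : -x⁻¹ ^ 2 * D x = -(x⁻¹ ^ 2 * D x) := by ring
    rw [h2]
    exact neg_mem (mul_mem (pow_mem (inv_mem hx) 2) h1)
  | mul x y hx hy h1 h2 =>
    rw [Derivation.leibniz, smul_eq_mul, smul_eq_mul]
    exact add_mem (mul_mem hx h2) (mul_mem hy h1)

/-- **the coordinates are rational in `E`, `y` up to constants** -/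
theorem coord [CharZero k] (D : Derivation k K K) {Z Zc E y : K} {i : k} (hi : i ≠ 0)
    (hE0 : E ≠ 0) (hy0 : y ≠ 0) (hZ : D Z = E / y ^ 2) (hZc : D Zc = 1 / (E * y ^ 2))
    (hE : D E = algebraMap k K i * y * E) {P : MvPolynomial (Fin 2) k} (hP : P ≠ 0)
    (h : MvPolynomial.aeval ![Z, Zc] P = 0) :
    (∃ c : K, D c = 0 ∧ Z - c ∈ adjoin k {E, y}) ∧ ∃ c : K, D c = 0 ∧ Zc - c ∈ adjoin k {E, y} := by
  have hi' : algebraMap k K i ≠ 0 := by simpa using hi
  have hDE : D E ≠ 0 := by rw [hE]; exact mul_ne_zero (mul_ne_zero hi' hy0) hE0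
  have hDZ : D Z ≠ 0 := by rw [hZ]; exact div_ne_zero hE0 (pow_ne_zero 2 hy0)
  obtain ⟨h4, h7, -⟩ := curve_rel D hi hE0 hy0 hZ hZc hE hP h
  have hZcm : Zc ∈ cl k Z := mem_of_rel (transcendental_of_der D hDZ) hP h
  have hEt := transcendental_of_der D hDE
  have tr : ∀ x : K, x ∈ cl k Z → x ∈ cl k E := by
    intro x hx
    obtain ⟨Q, hQ, hQ0⟩ := rel_of_mem h4 hx
    exact mem_of_rel hEt hQ hQ0
  have hyE := tr y h7
  have hst := stable D hi hE0 hy0 hE hyE
  have hFM : k⟮E⟯ ≤ adjoin k {E, y} := by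
    rw [adjoin_simple_le_iff]
    exact subset_adjoin _ _ (by simp)
  have hEM : E ∈ adjoin k {E, y} := subset_adjoin _ _ (by simp)
  have hyM : y ∈ adjoin k {E, y} := subset_adjoin _ _ (by simp)
  refine ⟨int_mem D _ hst (alg_mono hFM (mem_cl.1 (tr Z (self_mem Z)))) ?_,
    int_mem D _ hst (alg_mono hFM (mem_cl.1 (tr Zc hZcm))) ?_⟩
  · rw [hZ]; exact div_mem hEM (pow_mem hyM 2)
  · rw [hZc]; exact div_mem (one_mem _) (mul_mem hEM (pow_mem hyM 2))

end field

open Crest.Agent.R102.MGerm151 Filter Topology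

variable {z₀ : ℂ}

/-- constants of the field of meromorphic germs -/
theorem const_of_D {c : MG z₀} (hc : MGerm151.D c = 0) : ∃ a : ℂ, c = algebraMap ℂ (MG z₀) a := by
  obtain ⟨f, hf, rfl⟩ := exists_mk c
  rw [D_mk, mk_zero, mk_eq] at hc
  by_cases ht : meromorphicOrderAt f z₀ = ⊤
  · refine ⟨0, ?_⟩
    rw [map_zero, mk_zero, mk_eq]
    exact meromorphicOrderAt_eq_top_iff.1 ht
  · obtain ⟨n, hn⟩ := WithTop.ne_top_iff_exists.1 ht
    obtain ⟨g, hg, hg0, hfg⟩ := (meromorphicOrderAt_eq_int_iff hf).1 hn.symm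
    have h1 : ∀ᶠ z in 𝓝[≠] z₀, (n : ℂ) * g z + (z - z₀) * deriv g z = 0 := by
      have h2 : deriv f =ᶠ[𝓝[≠] z₀] deriv (fun z => (z - z₀) ^ n * g z) := by
        refine Filter.EventuallyEq.nhdsNE_deriv ?_
        filter_upwards [hfg] with z hz
        rw [hz, smul_eq_mul]
      have h3 : ∀ᶠ z in 𝓝[≠] z₀, AnalyticAt ℂ g z :=
        hg.eventually_analyticAt.filter_mono nhdsWithin_le_nhds
      filter_upwards [hc, h2, h3, self_mem_nhdsWithin] with z e1 e2 e3 e4
      have hz : z - z₀ ≠ 0 := sub_ne_zero.2 e4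
      have h5 : HasDerivAt (fun z => (z - z₀) ^ n * g z)
          ((n : ℂ) * (z - z₀) ^ (n - 1) * g z + (z - z₀) ^ n * deriv g z) z := by
        have h6 : HasDerivAt (fun z : ℂ => (z - z₀) ^ n) ((n : ℂ) * (z - z₀) ^ (n - 1)) z := by
          exact (hasDerivAt_zpow n (z - z₀) (Or.inl hz)).comp_sub_const z z₀
        exact h6.mul e3.differentiableAt.hasDerivAt
      rw [h5.deriv] at e2
      rw [e2] at e1
      have h7 : (z - z₀) ^ n = (z - z₀) ^ (n - 1) * (z - z₀) := by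
        rw [← zpow_add_one₀ hz, sub_add_cancel]
      rw [h7] at e1
      have h8 : (z - z₀) ^ (n - 1) ≠ 0 := zpow_ne_zero _ hz
      have h9 : (z - z₀) ^ (n - 1) * ((n : ℂ) * g z + (z - z₀) * deriv g z) = 0 := by
        linear_combination e1
      exact (mul_eq_zero.1 h9).resolve_left h8
    have h10 : Tendsto (fun z => (n : ℂ) * g z + (z - z₀) * deriv g z) (𝓝[≠] z₀)
        (𝓝 ((n : ℂ) * g z₀ + (z₀ - z₀) * deriv g z₀)) := by
      have : ContinuousAt (fun z => (n : ℂ) * g z + (z - z₀) * deriv g z) z₀ := by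
        have e1 := hg.continuousAt
        have e2 := hg.deriv.continuousAt
        fun_prop
      exact this.tendsto.mono_left nhdsWithin_le_nhds
    have h11 : (n : ℂ) * g z₀ + (z₀ - z₀) * deriv g z₀ = 0 := by
      refine tendsto_nhds_unique h10 ?_
      exact tendsto_const_nhds.congr' (by filter_upwards [h1] with z hz; exact hz.symm)
    rw [sub_self, zero_mul, add_zero] at h11
    have hn0 : n = 0 := by
      rcases mul_eq_zero.1 h11 with h | h
      · exact_mod_cast h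
      · exact absurd h hg0
    subst hn0
    have hfg' : f =ᶠ[𝓝[≠] z₀] g := by
      filter_upwards [hfg] with z hz
      rw [hz]; simp
    have h12 : ∀ᶠ z in 𝓝[≠] z₀, deriv g z = 0 := by
      filter_upwards [h1, self_mem_nhdsWithin] with z e1 e2
      have hz : z - z₀ ≠ 0 := sub_ne_zero.2 e2
      rw [Int.cast_zero, zero_mul, zero_add] at e1
      exact (mul_eq_zero.1 e1).resolve_left hz
    have h13 : ∀ᶠ z in 𝓝 z₀, deriv g z = 0 :=
      hg.deriv.frequently_zero_iff_eventually_zero.1 h12.frequently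
    obtain ⟨ε, hε, hball⟩ := Metric.eventually_nhds_iff_ball.1
      (h13.and hg.eventually_analyticAt)
    refine ⟨g z₀, ?_⟩
    rw [MGerm151.algebraMap_eq, mk_eq]
    have h14 : ∀ᶠ z in 𝓝[≠] z₀, z ∈ Metric.ball z₀ ε :=
      (Metric.ball_mem_nhds z₀ hε : _) |> fun h => nhdsWithin_le_nhds h
    filter_upwards [hfg', h14] with z e1 e2
    rw [e1]
    exact Metric.isOpen_ball.is_const_of_deriv_eq_zero (convex_ball z₀ ε).isPreconnected
      (fun x hx => (hball x hx).2.differentiableAt.differentiableWithinAt)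
      (fun x hx => (hball x hx).1) e2 (Metric.mem_ball_self hε)

/-- a germ in `ℂ(E, y)` is a quotient of two polynomials in `E`, `y` -/
lemma quot_of_mem {E y H : MG z₀} (h : H ∈ IntermediateField.adjoin ℂ {E, y}) :
    ∃ A B : MvPolynomial (Fin 2) ℂ, MvPolynomial.aeval ![E, y] B ≠ 0 ∧
      MvPolynomial.aeval ![E, y] B * H = MvPolynomial.aeval ![E, y] A := by
  have h1 : ({E, y} : Set (MG z₀)) = Set.range ![E, y] := by
    simp [Set.pair_comm]
  rw [h1, IntermediateField.mem_adjoin_range_iff] at h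
  obtain ⟨r, s, hrs⟩ := h
  by_cases hs : MvPolynomial.aeval ![E, y] s = 0
  · refine ⟨0, 1, by simp, ?_⟩
    rw [hs, div_zero] at hrs
    rw [hrs]; simp
  · refine ⟨r, s, hs, ?_⟩
    rw [hrs]; field_simp

/-- **the support function of an algebraic curve is rational in `E`, `y`** -/
theorem rat_fun {Z Zc E y : ℂ → ℂ} (hZm : MeromorphicAt Z z₀) (hZcm : MeromorphicAt Zc z₀)
    (hEm : MeromorphicAt E z₀) (hym : MeromorphicAt y z₀)
    (hE0 : ∃ᶠ z in 𝓝[≠] z₀, E z ≠ 0) (hy0 : ∃ᶠ z in 𝓝[≠] z₀, y z ≠ 0)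
    (hZ : ∀ᶠ z in 𝓝[≠] z₀, deriv Z z = E z / y z ^ 2)
    (hZc : ∀ᶠ z in 𝓝[≠] z₀, deriv Zc z = 1 / (E z * y z ^ 2))
    (hE : ∀ᶠ z in 𝓝[≠] z₀, deriv E z = Complex.I * y z * E z)
    {P : MvPolynomial (Fin 2) ℂ} (hP : P ≠ 0)
    (h : ∀ᶠ z in 𝓝[≠] z₀, MvPolynomial.eval ![Z z, Zc z] P = 0) :
    ∃ A B : MvPolynomial (Fin 2) ℂ, (∃ᶠ z in 𝓝[≠] z₀, MvPolynomial.eval ![E z, y z] B ≠ 0) ∧
      ∀ᶠ z in 𝓝[≠] z₀, MvPolynomial.eval ![E z, y z] B *
        (((E z)⁻¹ * Z z - E z * Zc z) / (2 * Complex.I)) = MvPolynomial.eval ![E z, y z] A := by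
  have hE0' : mk E hEm ≠ 0 := by
    rw [mk_zero, Ne, mk_eq]
    intro h1
    exact hE0 (h1.mono fun z hz hn => hn hz)
  have hy0' : mk y hym ≠ 0 := by
    rw [mk_zero, Ne, mk_eq]
    intro h1
    exact hy0 (h1.mono fun z hz hn => hn hz)
  obtain ⟨⟨c1, hc1, h1⟩, c2, hc2, h2⟩ := coord (k := ℂ) MGerm151.D (Z := mk Z hZm)
    (Zc := mk Zc hZcm) (E := mk E hEm) (y := mk y hym) (i := Complex.I) Complex.I_ne_zero hE0' hy0'
    (by
      rw [D_mk, div_eq_mul_inv, mk_pow, mk_inv, mk_mul, mk_eq]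
      filter_upwards [hZ] with z hz
      simp [hz, div_eq_mul_inv])
    (by
      rw [D_mk, one_div, mk_pow, mk_mul, mk_inv, mk_eq]
      filter_upwards [hZc] with z hz
      simp [hz])
    (by
      rw [D_mk, MGerm151.algebraMap_eq, mk_mul, mk_mul, mk_eq]
      filter_upwards [hE] with z hz
      simp [hz]) hP ((aeval_eq_zero hZm hZcm P).2 h)
  obtain ⟨a1, rfl⟩ := const_of_D hc1
  obtain ⟨a2, rfl⟩ := const_of_D hc2
  set M := IntermediateField.adjoin ℂ {mk E hEm, mk y hym} with hM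
  have hZM : mk Z hZm ∈ M := by
    have := add_mem h1 (M.algebraMap_mem a1)
    rwa [sub_add_cancel] at this
  have hZcM : mk Zc hZcm ∈ M := by
    have := add_mem h2 (M.algebraMap_mem a2)
    rwa [sub_add_cancel] at this
  have hEM : mk E hEm ∈ M := subset_adjoin _ _ (by simp)
  have hHM : ((mk E hEm)⁻¹ * mk Z hZm - mk E hEm * mk Zc hZcm) *
      algebraMap ℂ (MG z₀) ((2 * Complex.I)⁻¹) ∈ M :=
    mul_mem (sub_mem (mul_mem (inv_mem hEM) hZM) (mul_mem hEM hZcM)) (M.algebraMap_mem _)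
  obtain ⟨A, B, hB, hAB⟩ := quot_of_mem hHM
  obtain ⟨mA, hA1⟩ := mero_eval hEm hym A
  obtain ⟨mB, hB1⟩ := mero_eval hEm hym B
  refine ⟨A, B, ?_, ?_⟩
  · intro hcon
    refine hB ?_
    rw [aeval_eq_zero]
    filter_upwards [hcon] with z hz
    simpa using hz
  · have hneg : (mk E hEm)⁻¹ * mk Z hZm - mk E hEm * mk Zc hZcm =
        mk (fun z => (E z)⁻¹ * Z z - E z * Zc z)
          ((hEm.inv.mul hZm).sub (hEm.mul hZcm)) := by
      rw [mk_inv, mk_mul, mk_mul, sub_eq_iff_eq_add, mk_add, mk_eq]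
      exact Filter.Eventually.of_forall fun z => by simp
    rw [hneg, MGerm151.algebraMap_eq, mk_mul, hB1, mk_mul, hA1, mk_eq] at hAB
    filter_upwards [hAB] with z hz
    simp only [Pi.mul_apply] at hz
    rw [div_eq_mul_inv]
    exact hz

end Crest.Agent.R102.AlgR151
end
end

-- ▼ part R102/PainD_416
section

/-!
Row 102, part (C), T5 input for algebraic curves (Painlevé), part D: the root of a monic separable
family over a punctured disc becomes single valued after `x = x0 + v ^ m`.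
-/

set_option autoImplicit false

namespace Crest.Agent.R102.Pain416

open Polynomial Set Filter Topology Metric

noncomputable section

/-- left half plane -/
def LH (c : ℝ) : Set ℂ := {z | z.re < c}

lemma isOpen_LH (c : ℝ) : IsOpen (LH c) := isOpen_lt Complex.continuous_re continuous_const

lemma convex_LH (c : ℝ) : Convex ℝ (LH c) := convex_halfSpace_re_lt c

variable {M : Polynomial (Polynomial ℂ)} {s' : Set ℂ} {x0 : ℂ} {ρ : ℝ}

lemma exp_mem (hρ : 0 < ρ) (hs : ∀ x, x ≠ x0 → ‖x - x0‖ < ρ → x ∈ s') {z : ℂ}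
    (hz : z ∈ LH (Real.log ρ)) : x0 + Complex.exp z ∈ s' := by
  refine hs _ (by simp [Complex.exp_ne_zero]) ?_
  rw [add_sub_cancel_left, Complex.norm_exp]
  rw [← Real.exp_log hρ]
  exact Real.exp_lt_exp.2 hz

/-- root over the half plane -/
theorem hp_root (hM : M.Monic) (hsep : Sep M s') (hρ : 0 < ρ)
    (hs : ∀ x, x ≠ x0 → ‖x - x0‖ < ρ → x ∈ s') {z0 w0 : ℂ} (hz0 : z0 ∈ LH (Real.log ρ))
    (hw0 : ev M (x0 + Complex.exp z0, w0) = 0) :
    ∃ W : ℂ → ℂ, DifferentiableOn ℂ W (LH (Real.log ρ)) ∧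
      (∀ z ∈ LH (Real.log ρ), ev M (x0 + Complex.exp z, W z) = 0) ∧ W z0 = w0 ∧
      ∃ m : ℕ, 0 < m ∧ ∀ z ∈ LH (Real.log ρ), W (z + m * (2 * Real.pi * Complex.I)) = W z := by
  classical
  set H := LH (Real.log ρ) with hH
  have : ContractibleSpace H := (convex_LH _).contractibleSpace ⟨z0, hz0⟩
  have : LocallyPathConnectedSpace H := (isOpen_LH _).locallyPathConnectedSpace
  have : PreconnectedSpace H := isPreconnected_iff_preconnectedSpace.1 (convex_LH _).isPreconnected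
  let f : C(H, ℂ) := ⟨fun z => x0 + Complex.exp z, by fun_prop⟩
  obtain ⟨F, hF0, hF⟩ := exists_root hM hsep f (fun z => exp_mem hρ hs z.2) ⟨z0, hz0⟩ w0 hw0
  let W : ℂ → ℂ := fun z => if h : z ∈ H then F ⟨z, h⟩ else 0
  have hWF : ∀ z : H, W z = F z := fun z => by simp only [W]; rw [dif_pos z.2]
  have hroot : ∀ z ∈ H, ev M (x0 + Complex.exp z, W z) = 0 := by
    intro z hz
    have := hF ⟨z, hz⟩
    rw [← hWF ⟨z, hz⟩] at this
    exact this
  have hcont : ContinuousOn W H := by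
    rw [continuousOn_iff_continuous_domRestrict]
    have : H.domRestrict W = F := by funext z; exact hWF z
    rw [this]
    exact F.continuous
  have hdiff : DifferentiableOn ℂ W H := by
    intro z hz
    refine (root_diff (M := M) (f := fun z => x0 + Complex.exp z) (by fun_prop)
      (hcont.continuousAt ((isOpen_LH _).mem_nhds hz)) ?_ ?_).differentiableWithinAt
    · filter_upwards [(isOpen_LH _).mem_nhds hz] with z' hz'
      exact hroot z' hz'
    · exact hsep _ (exp_mem hρ hs hz) _ (hroot z hz)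
  refine ⟨W, hdiff, hroot, (hWF ⟨z0, hz0⟩).trans hF0, ?_⟩
  -- period
  have hshift : ∀ (k : ℕ) (z : ℂ), z ∈ H → z + k * (2 * Real.pi * Complex.I) ∈ H := by
    intro k z hz
    have : (z + k * (2 * Real.pi * Complex.I)).re = z.re := by simp
    change (z + k * (2 * Real.pi * Complex.I)).re < _
    rw [this]; exact hz
  have hexp : ∀ (k : ℕ) (z : ℂ), Complex.exp (z + k * (2 * Real.pi * Complex.I)) =
      Complex.exp z := by
    intro k z
    rw [Complex.exp_add, Complex.exp_nat_mul_two_pi_mul_I, mul_one]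
  obtain ⟨i, j, hij, h1⟩ := card_fiber hM (x0 + Complex.exp z0) (n := M.natDegree + 1)
    (fun k => W (z0 + (k : ℕ) * (2 * Real.pi * Complex.I))) (fun k => by
      have := hroot _ (hshift (k : ℕ) z0 hz0)
      rwa [hexp] at this) (by omega)
  have hsh : ∀ k : ℕ, Continuous fun z : H => W (z + k * (2 * Real.pi * Complex.I)) := by
    intro k
    have h2 : ContinuousOn (fun z : ℂ => W (z + k * (2 * Real.pi * Complex.I))) H :=
      hcont.comp (by fun_prop) (fun z hz => hshift k z hz)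
    exact continuousOn_iff_continuous_domRestrict.1 h2
  have key := root_unique hM hsep (A := H) (f := fun z => x0 + Complex.exp z)
    (F := fun z : H => W (z + (i : ℕ) * (2 * Real.pi * Complex.I)))
    (G := fun z : H => W (z + (j : ℕ) * (2 * Real.pi * Complex.I)))
    (by fun_prop) (hsh i) (hsh j) (fun z => exp_mem hρ hs z.2)
    (fun z => by
      have := hroot _ (hshift (i : ℕ) z z.2)
      rwa [hexp] at this)
    (fun z => by
      have := hroot _ (hshift (j : ℕ) z z.2)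
      rwa [hexp] at this) (a₀ := ⟨z0, hz0⟩) h1
  refine ⟨(j : ℕ) - i, by have : (i : ℕ) < j := hij; omega, fun z hz => ?_⟩
  have hz2 : z - (i : ℕ) * (2 * Real.pi * Complex.I) ∈ H := by
    have : (z - (i : ℕ) * (2 * Real.pi * Complex.I)).re = z.re := by simp
    change (z - (i : ℕ) * (2 * Real.pi * Complex.I)).re < _
    rw [this]; exact hz
  have h3 := congrFun key ⟨_, hz2⟩
  simp only [sub_add_cancel] at h3
  rw [h3]
  congr 1
  have : (i : ℕ) ≤ j := le_of_lt hij
  push_cast [Nat.cast_sub this]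
  ring

/-- root over the `m`-fold cover of the punctured disc, with the removable singularity removed -/
theorem disc_root (hM : M.Monic) (hsep : Sep M s') (hρ : 0 < ρ)
    (hs : ∀ x, x ≠ x0 → ‖x - x0‖ < ρ → x ∈ s') {z0 w0 : ℂ} (hz0 : z0 ∈ LH (Real.log ρ))
    (hw0 : ev M (x0 + Complex.exp z0, w0) = 0) :
    ∃ m : ℕ, 0 < m ∧ ∃ (r : ℝ) (V : ℂ → ℂ), 0 < r ∧ r ^ m = ρ ∧ DifferentiableOn ℂ V (ball 0 r) ∧
      (∀ v ∈ ball (0 : ℂ) r, v ≠ 0 → ev M (x0 + v ^ m, V v) = 0) ∧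
      V (Complex.exp (z0 / m)) = w0 := by
  classical
  obtain ⟨W, hWd, hWr, hW0, m, hm, hper⟩ := hp_root hM hsep hρ hs hz0 hw0
  have hm' : (m : ℂ) ≠ 0 := by exact_mod_cast hm.ne'
  have hmR : (m : ℝ) ≠ 0 := by exact_mod_cast hm.ne'
  set r : ℝ := Real.exp (Real.log ρ / m) with hr
  have hrp : 0 < r := Real.exp_pos _
  have hrm : r ^ m = ρ := by
    rw [hr, ← Real.exp_nat_mul, mul_div_cancel₀ _ hmR, Real.exp_log hρ]
  have hlogmem : ∀ v : ℂ, v ≠ 0 → ‖v‖ < r → (m : ℂ) * Complex.log v ∈ LH (Real.log ρ) := by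
    intro v hv hvr
    change ((m : ℂ) * Complex.log v).re < _
    rw [← Complex.ofReal_natCast, Complex.re_ofReal_mul, Complex.log_re]
    have h1 : Real.log ‖v‖ < Real.log ρ / m := by
      rw [← Real.log_exp (Real.log ρ / m)]
      exact Real.log_lt_log (norm_pos_iff.2 hv) hvr
    have hmp : (0 : ℝ) < m := by exact_mod_cast hm
    calc (m : ℝ) * Real.log ‖v‖ < m * (Real.log ρ / m) := by gcongr
      _ = Real.log ρ := by field_simp
  -- integer periods
  have hperZ : ∀ (k : ℤ) (z : ℂ), z ∈ LH (Real.log ρ) →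
      W (z + k * (m * (2 * Real.pi * Complex.I))) = W z := by
    have hmem : ∀ (k : ℤ) (z : ℂ), z ∈ LH (Real.log ρ) →
        z + k * (m * (2 * Real.pi * Complex.I)) ∈ LH (Real.log ρ) := by
      intro k z hz
      have : (z + k * (m * (2 * Real.pi * Complex.I))).re = z.re := by simp
      change (z + k * (m * (2 * Real.pi * Complex.I))).re < _
      rw [this]; exact hz
    intro k z hz
    induction k using Int.induction_on with
    | zero => simp
    | succ i ih =>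
      have h1 := hper _ (hmem i z hz)
      rw [ih] at h1
      rw [← h1]
      congr 1
      push_cast
      ring
    | pred i ih =>
      have h1 := hper _ (hmem (-(i : ℤ) - 1) z hz)
      rw [← h1, ← ih]
      congr 1
      push_cast
      ring
  let V0 : ℂ → ℂ := fun v => W (m * Complex.log v)
  have hV0 : ∀ z ∈ LH (Real.log ρ), V0 (Complex.exp (z / m)) = W z := by
    intro z hz
    simp only [V0]
    obtain ⟨k, hk⟩ := Complex.exp_eq_exp_iff_exists_int.1
      (Complex.exp_log (Complex.exp_ne_zero (z / m)))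
    rw [hk]
    have : (m : ℂ) * (z / m + k * (2 * Real.pi * Complex.I)) =
        z + k * (m * (2 * Real.pi * Complex.I)) := by
      field_simp
    rw [this]
    exact hperZ k z hz
  have hV0d : DifferentiableOn ℂ V0 (ball 0 r \ {0}) := by
    rintro v1 ⟨hv1, hv1'⟩
    rw [mem_ball_zero_iff] at hv1
    have hv10 : v1 ≠ 0 := hv1'
    refine DifferentiableAt.differentiableWithinAt ?_
    set z1 := (m : ℂ) * Complex.log v1 with hz1
    have h1 : DifferentiableAt ℂ (fun v : ℂ => z1 + m * Complex.log (v / v1)) v1 := by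
      have h2 : DifferentiableAt ℂ (fun v : ℂ => v / v1) v1 := by fun_prop
      have h3 : (fun v : ℂ => v / v1) v1 ∈ Complex.slitPlane := by
        simp only [div_self hv10]
        exact Complex.one_mem_slitPlane
      exact (h2.clog h3).const_mul _ |>.const_add _
    have hval : z1 + m * Complex.log (v1 / v1) = z1 := by
      rw [div_self hv10, Complex.log_one, mul_zero, add_zero]
    have hz1mem := hlogmem v1 hv10 hv1
    have h4 : DifferentiableAt ℂ W (z1 + m * Complex.log (v1 / v1)) := by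
      rw [hval]
      exact (hWd z1 hz1mem).differentiableAt ((isOpen_LH _).mem_nhds hz1mem)
    have h5 : DifferentiableAt ℂ (fun v : ℂ => W (z1 + m * Complex.log (v / v1))) v1 :=
      DifferentiableAt.comp v1 h4 h1
    refine h5.congr_of_eventuallyEq ?_
    have h6 : ∀ᶠ v : ℂ in 𝓝 v1, z1 + m * Complex.log (v / v1) ∈ LH (Real.log ρ) := by
      refine h1.continuousAt.eventually_mem ?_
      rw [hval]
      exact (isOpen_LH _).mem_nhds hz1mem
    filter_upwards [h6, isOpen_ne.mem_nhds hv10] with v h7 h8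
    rw [← hV0 _ h7]
    congr 1
    rw [hz1, ← mul_add, mul_div_cancel_left₀ _ hm', Complex.exp_add, Complex.exp_log hv10,
      Complex.exp_log (div_ne_zero h8 hv10)]
    field_simp
  have hV0r : ∀ v ∈ ball (0 : ℂ) r, v ≠ 0 → ev M (x0 + v ^ m, V0 v) = 0 := by
    intro v hv hv0
    rw [mem_ball_zero_iff] at hv
    have h1 := hWr _ (hlogmem v hv0 hv)
    rw [Complex.exp_nat_mul, Complex.exp_log hv0] at h1
    exact h1
  obtain ⟨B, hB⟩ := root_bound hM (isCompact_closedBall x0 ρ)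
  have hbd : BddAbove (norm ∘ V0 '' (ball 0 r \ {0})) := by
    refine ⟨B, ?_⟩
    rintro _ ⟨v, ⟨hv, hv0⟩, rfl⟩
    refine hB (x0 + v ^ m) ?_ _ (hV0r v hv hv0)
    rw [mem_closedBall, dist_eq_norm, add_sub_cancel_left, norm_pow, ← hrm]
    rw [mem_ball_zero_iff] at hv
    gcongr
  have hV := Complex.differentiableOn_update_limUnder_of_bddAbove
    (isOpen_ball.mem_nhds (mem_ball_self hrp)) hV0d hbd
  refine ⟨m, hm, r, Function.update V0 0 (limUnder (𝓝[≠] 0) V0), hrp, hrm, hV, ?_, ?_⟩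
  · intro v hv hv0
    rw [Function.update_of_ne hv0]
    exact hV0r v hv hv0
  · rw [Function.update_of_ne (Complex.exp_ne_zero _), hV0 z0 hz0, hW0]

end

end Crest.Agent.R102.Pain416
end

-- ▼ part R102/PainE_416
section

/-!
Row 102, part (C), T5 input for algebraic curves (Painlevé), part E: choice of a direction, local
solution of `v' = u R(v)` with `R` meromorphic at `0`.
-/

set_option autoImplicit false

namespace Crest.Agent.R102.Pain416

open Polynomial Set Filter Topology Metric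

noncomputable section

/-- a direction from `s` along which `f ≠ x0` -/
lemma dir {s : ℂ} {r₀ : ℝ} {f : ℂ → ℂ} (hf : DifferentiableOn ℂ f (HD s r₀)) {x0 : ℂ}
    (hne : ∃ z ∈ HD s r₀, f z ≠ x0) :
    ∃ u : ℂ, ‖u‖ = 1 ∧ u.im < 0 ∧ ∀ t : ℝ, 0 < t → t < r₀ → f (s + t * u) ≠ x0 := by
  set Z : Set ℂ := {z | z ∈ HD s r₀ ∧ f z = x0} with hZ
  have han : AnalyticOnNhd ℂ (fun z => f z - x0) (HD s r₀) :=
    (hf.sub_const x0).analyticOnNhd (isOpen_HD s r₀)
  have hdisc : IsDiscrete Z := by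
    rw [isDiscrete_iff_forall_mem_exists_isOpen]
    rintro z1 ⟨hz1, hz1'⟩
    have h1 : ∀ᶠ z in 𝓝[≠] z1, f z - x0 ≠ 0 := by
      rcases (han z1 hz1).eventually_eq_zero_or_eventually_ne_zero with h | h
      · exfalso
        obtain ⟨z2, hz2, h2⟩ := hne
        have := han.eqOn_zero_of_preconnected_of_eventuallyEq_zero (convex_HD s r₀).isPreconnected
          hz1 h hz2
        exact h2 (sub_eq_zero.1 this)
      · exact h
    rw [eventually_nhdsWithin_iff, Metric.eventually_nhds_iff_ball] at h1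
    obtain ⟨ε, hε, h2⟩ := h1
    refine ⟨ball z1 ε, isOpen_ball, ?_⟩
    ext z
    constructor
    · rintro ⟨h3, h4⟩
      by_contra h5
      exact h2 z h3 h5 (sub_eq_zero.2 h4.2)
    · rintro rfl
      exact ⟨mem_ball_self hε, hz1, hz1'⟩
  have hcount : Z.Countable :=
    (HereditarilyLindelofSpace.isLindelof Z).countable_of_isDiscrete hdisc
  have hc2 : ((fun z : ℂ => Complex.arg (z - s)) '' Z).Countable := hcount.image _
  obtain ⟨θ, hθ, hθ'⟩ := (hc2.dense_compl ℝ).exists_mem_open isOpen_Ioo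
    (nonempty_Ioo.2 (neg_lt_zero.2 Real.pi_pos))
  refine ⟨Complex.cos θ + Complex.sin θ * Complex.I, ?_, ?_, ?_⟩
  · rw [Complex.norm_cos_add_sin_mul_I]
  · have : (Complex.cos θ + Complex.sin θ * Complex.I).im = Real.sin θ := by
      simp [Complex.cos_ofReal_im, Complex.sin_ofReal_re]
    rw [this]
    exact Real.sin_neg_of_neg_of_neg_pi_lt hθ'.2 hθ'.1
  · intro t ht htr heq
    apply hθ
    have hu : ‖(Complex.cos θ + Complex.sin θ * Complex.I : ℂ)‖ = 1 := by
      rw [Complex.norm_cos_add_sin_mul_I]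
    have hui : (Complex.cos θ + Complex.sin θ * Complex.I : ℂ).im < 0 := by
      have : (Complex.cos θ + Complex.sin θ * Complex.I).im = Real.sin θ := by
        simp [Complex.cos_ofReal_im, Complex.sin_ofReal_re]
      rw [this]
      exact Real.sin_neg_of_neg_of_neg_pi_lt hθ'.2 hθ'.1
    refine ⟨s + t * (Complex.cos θ + Complex.sin θ * Complex.I),
      ⟨path_mem hu hui ht htr, heq⟩, ?_⟩
    simp only [add_sub_cancel_left]
    exact Complex.arg_mul_cos_add_sin_mul_I ht ⟨hθ'.1, hθ'.2.le.trans Real.pi_pos.le⟩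

/-- derivative of a continuous logarithm -/
lemma log_deriv {h L : ℝ → ℂ} {t1 : ℝ} {h' : ℂ} (hL : ContinuousAt L t1)
    (heq : ∀ᶠ t in 𝓝 t1, Complex.exp (L t) = h t) (hh : HasDerivAt h h' t1) :
    HasDerivAt L (h' / h t1) t1 := by
  have h0 : h t1 ≠ 0 := by rw [← heq.self_of_nhds]; exact Complex.exp_ne_zero _
  have h1 : ∀ᶠ t in 𝓝 t1, L t = L t1 + Complex.log (h t / h t1) := by
    have h2 : ContinuousAt (fun t => (L t - L t1).im) t1 :=
      (Complex.continuous_im.continuousAt).comp (hL.sub continuousAt_const)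
    have h3 : ∀ᶠ t in 𝓝 t1, (L t - L t1).im ∈ Ioo (-Real.pi) Real.pi := by
      refine h2.eventually_mem ?_
      simp only [sub_self, Complex.zero_im]
      exact Ioo_mem_nhds (neg_lt_zero.2 Real.pi_pos) Real.pi_pos
    filter_upwards [h3, heq] with t h4 h5
    have h6 : h t / h t1 = Complex.exp (L t - L t1) := by
      rw [Complex.exp_sub, h5, heq.self_of_nhds]
    rw [h6, Complex.log_exp h4.1 h4.2.le]
    ring
  have h7 : HasDerivAt (fun t => L t1 + Complex.log (h t / h t1)) (h' / h t1) t1 := by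
    have h8 : HasDerivAt (fun t => h t / h t1) (h' / h t1) t1 := hh.div_const _
    have h9 : h t1 / h t1 ∈ Complex.slitPlane := by
      rw [div_self h0]; exact Complex.one_mem_slitPlane
    have h10 := (h8.clog_real h9).const_add (L t1)
    rwa [div_self h0, div_one] at h10
  exact h7.congr_of_eventuallyEq h1

/-- `k`-th root coordinate of an analytic function vanishing at `0` -/
lemma root_coord {G : ℂ → ℂ} (hG : AnalyticAt ℂ G 0) (hG0 : G 0 = 0)
    (hne : ¬ ∀ᶠ z in 𝓝 (0 : ℂ), G z = 0) :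
    ∃ (j : ℕ) (Ξ Ψ : ℂ → ℂ), 0 < j ∧ AnalyticAt ℂ Ξ 0 ∧ Ξ 0 = 0 ∧ AnalyticAt ℂ Ψ 0 ∧ Ψ 0 = 0 ∧
      deriv Ψ 0 ≠ 0 ∧ (∀ᶠ v in 𝓝 (0 : ℂ), Ψ (Ξ v) = v) ∧ ∀ᶠ v in 𝓝 (0 : ℂ), Ξ v ^ j = G v := by
  obtain ⟨j, h2, h2an, h20, h2eq⟩ := hG.exists_eventuallyEq_pow_smul_nonzero_iff.2 hne
  have hj : j ≠ 0 := by
    rintro rfl
    have := h2eq.self_of_nhds
    simp only [pow_zero, one_smul] at this
    exact h20 (this.symm.trans hG0)
  obtain ⟨c0, hc0⟩ := IsAlgClosed.exists_pow_nat_eq (h2 0) (Nat.pos_of_ne_zero hj)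
  have hc00 : c0 ≠ 0 := by
    rintro rfl
    rw [zero_pow hj] at hc0
    exact h20 hc0.symm
  let χ : ℂ → ℂ := fun v => c0 * (h2 v / h2 0) ^ ((j : ℂ)⁻¹)
  have hχan : AnalyticAt ℂ χ 0 := by
    refine analyticAt_const.mul ?_
    refine (h2an.div_const).cpow analyticAt_const ?_
    rw [div_self h20]
    exact Complex.one_mem_slitPlane
  have hχ0 : χ 0 = c0 := by simp only [χ]; rw [div_self h20, Complex.one_cpow, mul_one]
  have hχj : ∀ v, χ v ^ j = h2 v := by
    intro v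
    simp only [χ]
    rw [mul_pow, Complex.cpow_nat_inv_pow _ hj, hc0, mul_div_cancel₀ _ h20]
  let Ξ : ℂ → ℂ := fun v => v * χ v
  have hΞan : AnalyticAt ℂ Ξ 0 := analyticAt_id.mul hχan
  have hΞ0 : Ξ 0 = 0 := by simp [Ξ]
  have hΞd : deriv Ξ 0 = c0 := by
    have h1 : HasDerivAt Ξ (1 * χ 0 + 0 * deriv χ 0) 0 :=
      (hasDerivAt_id (0 : ℂ)).mul hχan.differentiableAt.hasDerivAt
    rw [h1.deriv, hχ0]; ring
  have hΞd0 : deriv Ξ 0 ≠ 0 := by rw [hΞd]; exact hc00
  set Ψ := hΞan.hasStrictDerivAt.localInverse _ _ _ hΞd0 with hΨ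
  have hΨan : AnalyticAt ℂ Ψ 0 := by
    have := hΞan.analyticAt_localInverse hΞd0
    rwa [hΞ0] at this
  have hleft : ∀ᶠ v in 𝓝 (0 : ℂ), Ψ (Ξ v) = v :=
    hΞan.hasStrictDerivAt.eventually_left_inverse hΞd0
  have hΨ0 : Ψ 0 = 0 := by
    have := hleft.self_of_nhds
    rwa [hΞ0] at this
  have hΨd : deriv Ψ 0 ≠ 0 := by
    intro h0
    have h1 : HasDerivAt (fun v => Ψ (Ξ v)) (deriv Ψ (Ξ 0) * deriv Ξ 0) 0 := by
      refine HasDerivAt.comp 0 ?_ hΞan.differentiableAt.hasDerivAt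
      rw [hΞ0]
      exact hΨan.differentiableAt.hasDerivAt
    rw [hΞ0, h0, zero_mul] at h1
    have h3 : HasDerivAt (fun v => Ψ (Ξ v)) 1 0 :=
      (hasDerivAt_id (0 : ℂ)).congr_of_eventuallyEq hleft
    exact zero_ne_one (h1.unique h3)
  refine ⟨j, Ξ, Ψ, Nat.pos_of_ne_zero hj, hΞan, hΞ0, hΨan, hΨ0, hΨd, hleft, ?_⟩
  filter_upwards [h2eq] with v hv
  simp only [Ξ]
  rw [mul_pow, hχj, hv, sub_zero, smul_eq_mul]

/-- **local solution** -/
theorem loc {R : ℂ → ℂ} (hR : MeromorphicAt R 0) (hRne : ∀ᶠ v in 𝓝[≠] (0 : ℂ), R v ≠ 0) {u : ℂ}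
    (hu : ‖u‖ = 1) (hui : u.im < 0) {l : ℝ → ℂ} {t1 : ℝ} (ht1 : 0 < t1)
    (hl : ∀ t ∈ Ioo 0 t1, HasDerivAt l (u * R (Complex.exp (l t)) / Complex.exp (l t)) t)
    (hlim : Tendsto (fun t => Complex.exp (l t)) (𝓝[>] (0 : ℝ)) (𝓝 0)) :
    ∃ (j : ℕ) (ψ : ℂ → ℂ), 0 < j ∧ AnalyticAt ℂ ψ 0 ∧ ψ 0 = 0 ∧ deriv ψ 0 ≠ 0 ∧
      ∀ᶠ t : ℝ in 𝓝[>] (0 : ℝ), Complex.exp (l t) = ψ ((t * u) ^ ((j : ℂ)⁻¹)) := by
  have htop : meromorphicOrderAt R 0 ≠ ⊤ :=
    (meromorphicOrderAt_ne_top_iff_eventually_ne_zero hR).2 hRne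
  obtain ⟨g1, g1an, g10, hg1⟩ := (meromorphicOrderAt_ne_top_iff hR).1 htop
  set κ : ℤ := (meromorphicOrderAt R 0).untop₀ with hκ
  -- a good ball
  have hev : ∀ᶠ v in 𝓝 (0 : ℂ), (v ≠ 0 → R v = v ^ κ * g1 v) ∧ AnalyticAt ℂ g1 v ∧ g1 v ≠ 0 ∧
      ‖g1 v‖ < ‖g1 0‖ + 1 := by
    have e1 : ∀ᶠ v in 𝓝 (0 : ℂ), v ≠ 0 → R v = v ^ κ * g1 v := by
      have := eventually_nhdsWithin_iff.1 hg1
      refine this.mono fun v hv hv0 => ?_
      have h1 : R v = (v - 0) ^ κ • g1 v := hv hv0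
      rwa [sub_zero, smul_eq_mul] at h1
    have e2 : ∀ᶠ v in 𝓝 (0 : ℂ), g1 v ≠ 0 := g1an.continuousAt.eventually_ne g10
    have e3 : ∀ᶠ v in 𝓝 (0 : ℂ), ‖g1 v‖ < ‖g1 0‖ + 1 :=
      g1an.continuousAt.norm.eventually_lt_const (by linarith)
    filter_upwards [e1, g1an.eventually_analyticAt, e2, e3] with v h1 h2 h3 h4
    exact ⟨h1, h2, h3, h4⟩
  obtain ⟨r1', hr1', hball'⟩ := Metric.eventually_nhds_iff_ball.1 hev
  set r1 := min r1' 1 with hr1
  have hr1p : 0 < r1 := lt_min hr1' one_pos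
  have hball : ∀ v ∈ ball (0 : ℂ) r1, (v ≠ 0 → R v = v ^ κ * g1 v) ∧ AnalyticAt ℂ g1 v ∧
      g1 v ≠ 0 ∧ ‖g1 v‖ < ‖g1 0‖ + 1 := fun v hv =>
    hball' v (ball_subset_ball (min_le_left _ _) hv)
  have hlim2 : ∀ δ > 0, ∃ t2, 0 < t2 ∧ t2 ≤ t1 ∧ ∀ t ∈ Ioo 0 t2, ‖Complex.exp (l t)‖ < δ := by
    intro δ hδ
    have h1 : ∀ᶠ t in 𝓝[>] (0 : ℝ), ‖Complex.exp (l t)‖ < δ := by
      have := hlim.norm
      rw [norm_zero] at this
      exact this.eventually_lt_const hδ
    rw [eventually_nhdsWithin_iff, Metric.eventually_nhds_iff_ball] at h1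
    obtain ⟨ε, hε, h2⟩ := h1
    refine ⟨min ε t1, lt_min hε ht1, min_le_right _ _, fun t ht => h2 t ?_ ht.1⟩
    rw [mem_ball, Real.dist_eq, sub_zero, abs_of_pos ht.1]
    exact lt_of_lt_of_le ht.2 (min_le_left _ _)
  obtain ⟨t2, ht2, ht21, hsmall⟩ := hlim2 r1 hr1p
  have hl2 : ∀ t ∈ Ioo 0 t2, HasDerivAt l (u * R (Complex.exp (l t)) / Complex.exp (l t)) t :=
    fun t ht => hl t ⟨ht.1, lt_of_lt_of_le ht.2 ht21⟩
  have hmemb : ∀ t ∈ Ioo 0 t2, Complex.exp (l t) ∈ ball (0 : ℂ) r1 := fun t ht => by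
    rw [mem_ball_zero_iff]; exact hsmall t ht
  have hval : ∀ t ∈ Ioo 0 t2, R (Complex.exp (l t)) =
      Complex.exp (l t) ^ κ * g1 (Complex.exp (l t)) := fun t ht =>
    (hball _ (hmemb t ht)).1 (Complex.exp_ne_zero _)
  -- the exponent is nonpositive
  have hκ0 : κ ≤ 0 := by
    by_contra hpos
    push Not at hpos
    obtain ⟨n, hn⟩ := Int.eq_ofNat_of_zero_le (show 0 ≤ κ - 1 by omega)
    have hκn : κ = n + 1 := by omega
    set C := ‖g1 0‖ + 1 with hC
    have hb : ∀ t ∈ Ioo 0 t2, ‖u * R (Complex.exp (l t)) / Complex.exp (l t)‖ ≤ C := by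
      intro t ht
      have hv0 : Complex.exp (l t) ≠ 0 := Complex.exp_ne_zero _
      have e1 : u * R (Complex.exp (l t)) / Complex.exp (l t) =
          u * (Complex.exp (l t) ^ n * g1 (Complex.exp (l t))) := by
        rw [hval t ht, hκn, zpow_add_one₀ hv0, zpow_natCast]
        field_simp
      rw [e1, norm_mul, hu, one_mul, norm_mul, norm_pow]
      have h1 : ‖Complex.exp (l t)‖ ^ n ≤ 1 :=
        pow_le_one₀ (norm_nonneg _) ((hsmall t ht).le.trans (min_le_right _ _))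
      have h2 := (hball _ (hmemb t ht)).2.2.2.le
      calc ‖Complex.exp (l t)‖ ^ n * ‖g1 (Complex.exp (l t))‖ ≤ 1 * C := by gcongr
        _ = C := one_mul C
    set t3 := t2 / 2 with ht3
    have ht3m : t3 ∈ Ioo 0 t2 := ⟨by positivity, by rw [ht3]; linarith⟩
    have hlip : ∀ t ∈ Ioo 0 t2, ‖l t - l t3‖ ≤ C * t2 := by
      intro t ht
      have h1 := (convex_Ioo (0 : ℝ) t2).norm_image_sub_le_of_norm_hasDerivWithin_le
        (f := l) (C := C) (fun x hx => (hl2 x hx).hasDerivWithinAt) hb ht3m ht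
      refine h1.trans ?_
      have hC0 : 0 ≤ C := by positivity
      gcongr
      rw [Real.norm_eq_abs, abs_le]
      constructor <;> linarith [ht.1, ht.2, ht3m.1, ht3m.2]
    obtain ⟨t4, ht4, ht41, hsm⟩ := hlim2 (Real.exp ((l t3).re - C * t2)) (Real.exp_pos _)
    set t5 := min t4 t2 / 2 with ht5
    have hmin : 0 < min t4 t2 := lt_min ht4 ht2
    have h5a : t5 ∈ Ioo 0 t4 := ⟨by positivity, by
      rw [ht5]; have := min_le_left t4 t2; linarith⟩
    have h5b : t5 ∈ Ioo 0 t2 := ⟨by positivity, by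
      rw [ht5]; have := min_le_right t4 t2; linarith⟩
    have h6 := hsm t5 h5a
    rw [Complex.norm_exp] at h6
    have h7 := Real.exp_lt_exp.1 h6
    have h8 := hlip t5 h5b
    have h9 := (Complex.abs_re_le_norm (l t5 - l t3)).trans h8
    rw [Complex.sub_re] at h9
    have := (abs_le.1 h9).1
    linarith
  -- the primitive
  obtain ⟨n, hn⟩ := Int.eq_ofNat_of_zero_le (show 0 ≤ -κ by omega)
  have hF : DifferentiableOn ℂ (fun v => v ^ n / g1 v) (ball 0 r1) := by
    intro v hv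
    have h1 := hball v hv
    exact ((differentiableAt_id.pow n).div h1.2.1.differentiableAt h1.2.2.1).differentiableWithinAt
  obtain ⟨G, hG0, hG⟩ := hF.isExactOn_ball.with_val_at 0 0
  have hGan : AnalyticAt ℂ G 0 := by
    have : DifferentiableOn ℂ G (ball 0 r1) := fun v hv => (hG v hv).differentiableAt.differentiableWithinAt
    exact this.analyticAt (ball_mem_nhds 0 hr1p)
  have hGne : ¬ ∀ᶠ z in 𝓝 (0 : ℂ), G z = 0 := by
    intro h0
    have h1 : ∀ᶠ z in 𝓝 (0 : ℂ), ∀ᶠ z' in 𝓝 z, G z' = 0 := h0.eventually_nhds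
    obtain ⟨ε, hε, h2⟩ := Metric.eventually_nhds_iff_ball.1 h1
    set δ := min ε r1 / 2 with hδ
    have hmin : 0 < min ε r1 := lt_min hε hr1p
    have hδp : 0 < δ := by positivity
    have hz : (δ : ℂ) ∈ ball (0 : ℂ) ε := by
      rw [mem_ball_zero_iff, Complex.norm_real, Real.norm_eq_abs, abs_of_pos hδp, hδ]
      have := min_le_left ε r1; linarith
    have hz' : (δ : ℂ) ∈ ball (0 : ℂ) r1 := by
      rw [mem_ball_zero_iff, Complex.norm_real, Real.norm_eq_abs, abs_of_pos hδp, hδ]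
      have := min_le_right ε r1; linarith
    have h3 : HasDerivAt G 0 (δ : ℂ) :=
      (hasDerivAt_const (δ : ℂ) (0 : ℂ)).congr_of_eventuallyEq (h2 _ hz)
    have h4 := h3.unique (hG _ hz')
    have h5 : (δ : ℂ) ≠ 0 := by exact_mod_cast hδp.ne'
    exact div_ne_zero (pow_ne_zero n h5) (hball _ hz').2.2.1 h4.symm
  have hGv : ∀ t ∈ Ioo 0 t2, G (Complex.exp (l t)) = t * u := by
    have hder : ∀ t ∈ Ioo 0 t2, HasDerivAt (fun t : ℝ => G (Complex.exp (l t)) - t * u) 0 t := by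
      intro t ht
      have hv0 : Complex.exp (l t) ≠ 0 := Complex.exp_ne_zero _
      have h1 := (hl2 t ht).cexp
      have h2 := (hG _ (hmemb t ht)).comp t h1
      have h3 : HasDerivAt (fun t : ℝ => (t : ℂ) * u) (1 * u) t :=
        (Complex.ofRealCLM.hasDerivAt (x := t)).mul_const u
      have h4 := h2.sub h3
      have e1 : Complex.exp (l t) ^ n / g1 (Complex.exp (l t)) *
          (Complex.exp (l t) * (u * R (Complex.exp (l t)) / Complex.exp (l t))) - 1 * u = 0 := by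
        rw [hval t ht]
        have hg := (hball _ (hmemb t ht)).2.2.1
        have hκn : κ = -(n : ℤ) := by omega
        rw [hκn, zpow_neg, zpow_natCast]
        field_simp
        ring
      rw [e1] at h4
      exact h4
    have hconst : ∀ t ∈ Ioo 0 t2, ∀ t' ∈ Ioo 0 t2,
        G (Complex.exp (l t)) - t * u = G (Complex.exp (l t')) - t' * u := by
      intro t ht t' ht'
      have h1 := (convex_Ioo (0 : ℝ) t2).norm_image_sub_le_of_norm_hasDerivWithin_le
        (f := fun t : ℝ => G (Complex.exp (l t)) - t * u) (C := 0)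
        (fun x hx => (hder x hx).hasDerivWithinAt) (fun x _ => by simp) ht' ht
      rw [zero_mul] at h1
      exact sub_eq_zero.1 (norm_le_zero_iff.1 h1)
    intro t ht
    have hlim3 : Tendsto (fun t' : ℝ => G (Complex.exp (l t')) - t' * u) (𝓝[>] (0 : ℝ)) (𝓝 0) := by
      have h1 : Tendsto (fun t' : ℝ => G (Complex.exp (l t'))) (𝓝[>] (0 : ℝ)) (𝓝 (G 0)) :=
        (hGan.continuousAt.tendsto).comp hlim
      have h2 : Tendsto (fun t' : ℝ => (t' : ℂ) * u) (𝓝[>] (0 : ℝ)) (𝓝 (((0 : ℝ) : ℂ) * u)) := by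
        refine Tendsto.mono_left ?_ nhdsWithin_le_nhds
        exact (Continuous.tendsto (by fun_prop) 0)
      have h3 := h1.sub h2
      rwa [hG0, Complex.ofReal_zero, zero_mul, sub_zero] at h3
    have hlim4 : Tendsto (fun _ : ℝ => G (Complex.exp (l t)) - t * u) (𝓝[>] (0 : ℝ)) (𝓝 0) := by
      refine hlim3.congr' ?_
      filter_upwards [Ioo_mem_nhdsGT ht2] with t' ht'
      exact hconst t' ht' t ht
    have := tendsto_nhds_unique hlim4 tendsto_const_nhds
    exact (sub_eq_zero.1 this.symm)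
  obtain ⟨j, Ξ, Ψ, hj, hΞan, hΞ0, hΨan, hΨ0, hΨd, hleft, hpow⟩ := root_coord hGan hG0 hGne
  obtain ⟨r2, hr2, hball2⟩ := Metric.eventually_nhds_iff_ball.1
    (hleft.and (hpow.and hΞan.eventually_analyticAt))
  obtain ⟨t6, ht6, ht61, hsm6⟩ := hlim2 r2 hr2
  set t7 := min t6 t2 with ht7
  have ht7p : 0 < t7 := lt_min ht6 ht2
  have hm6 : ∀ t ∈ Ioo 0 t7, Complex.exp (l t) ∈ ball (0 : ℂ) r2 := fun t ht => by
    rw [mem_ball_zero_iff]
    exact hsm6 t ⟨ht.1, lt_of_lt_of_le ht.2 (min_le_left _ _)⟩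
  have hm2 : ∀ t ∈ Ioo 0 t7, t ∈ Ioo 0 t2 := fun t ht =>
    ⟨ht.1, lt_of_lt_of_le ht.2 (min_le_right _ _)⟩
  have hu0 : u ≠ 0 := by rintro rfl; simp at hu
  have htu0 : ∀ t ∈ Ioo (0 : ℝ) t7, (t : ℂ) * u ≠ 0 := fun t ht =>
    mul_ne_zero (by exact_mod_cast ht.1.ne') hu0
  have hslit : ∀ t ∈ Ioo (0 : ℝ) t7, (t : ℂ) * u ∈ Complex.slitPlane := by
    intro t ht
    rw [Complex.mem_slitPlane_iff]
    right
    simp only [Complex.mul_im, Complex.ofReal_re, Complex.ofReal_im, zero_mul, add_zero]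
    exact (mul_neg_of_pos_of_neg ht.1 hui).ne
  let p : ℝ → ℂ := fun t => ((t : ℂ) * u) ^ ((j : ℂ)⁻¹)
  have hpj : ∀ t, p t ^ j = t * u := fun t => Complex.cpow_nat_inv_pow _ hj.ne'
  have hp0 : ∀ t ∈ Ioo (0 : ℝ) t7, p t ≠ 0 := by
    intro t ht h0
    have := hpj t
    rw [h0, zero_pow hj.ne'] at this
    exact htu0 t ht this.symm
  let ω : ℝ → ℂ := fun t => Ξ (Complex.exp (l t)) / p t
  have hωj : ∀ t ∈ Ioo (0 : ℝ) t7, ω t ^ j = 1 := by
    intro t ht
    simp only [ω]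
    rw [div_pow, hpj, (hball2 _ (hm6 t ht)).2.1, hGv t (hm2 t ht), div_self (htu0 t ht)]
  have hωc : ContinuousOn ω (Ioo 0 t7) := by
    intro t ht
    refine ContinuousAt.continuousWithinAt ?_
    have h1 : ContinuousAt (fun t => Ξ (Complex.exp (l t))) t := by
      have h2 : ContinuousAt Ξ (Complex.exp (l t)) := (hball2 _ (hm6 t ht)).2.2.continuousAt
      exact ContinuousAt.comp h2 ((hl2 t (hm2 t ht)).continuousAt.cexp)
    have h3 : ContinuousAt p t := by
      have h4 : ContinuousAt (fun t : ℝ => (t : ℂ) * u) t := by fun_prop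
      exact h4.cpow continuousAt_const (hslit t ht)
    exact h1.div h3 (hp0 t ht)
  have hfin : {x : ℂ | x ^ j = 1}.Finite := by
    refine ((nthRootsFinset j (1 : ℂ)).finite_toSet).subset fun x hx => ?_
    rw [Finset.mem_coe, mem_nthRootsFinset hj]
    exact hx
  set t8 := t7 / 2 with ht8
  have ht8m : t8 ∈ Ioo 0 t7 := ⟨by positivity, by rw [ht8]; linarith⟩
  have hωconst : ∀ t ∈ Ioo (0 : ℝ) t7, ω t = ω t8 := fun t ht =>
    (isPreconnected_Ioo).constant_of_mapsTo hfin.isDiscrete hωc (fun t ht => hωj t ht) ht ht8m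
  have hω0 : ω t8 ≠ 0 := by
    intro h0
    have := hωj t8 ht8m
    rw [h0, zero_pow hj.ne'] at this
    exact zero_ne_one this
  refine ⟨j, fun x => Ψ (ω t8 * x), hj, ?_, by simp [hΨ0], ?_, ?_⟩
  · have h1 : AnalyticAt ℂ Ψ (ω t8 * 0) := by rw [mul_zero]; exact hΨan
    exact AnalyticAt.comp (g := Ψ) (f := fun x => ω t8 * x) h1 (analyticAt_const.mul analyticAt_id)
  · have h1 : HasDerivAt (fun x => Ψ (ω t8 * x)) (deriv Ψ 0 * (ω t8 * 1)) 0 := by
      refine HasDerivAt.comp 0 ?_ ((hasDerivAt_id (0 : ℂ)).const_mul _)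
      simp only [mul_zero]
      exact hΨan.differentiableAt.hasDerivAt
    rw [h1.deriv]
    exact mul_ne_zero hΨd (by rw [mul_one]; exact hω0)
  · filter_upwards [Ioo_mem_nhdsGT ht7p] with t ht
    have h1 : ω t8 * p t = Ξ (Complex.exp (l t)) := by
      rw [← hωconst t ht]
      exact div_mul_cancel₀ _ (hp0 t ht)
    change Complex.exp (l t) = Ψ (ω t8 * p t)
    rw [h1, (hball2 _ (hm6 t ht)).1]

end

end Crest.Agent.R102.Pain416
end

-- ▼ part R102/PainF_416
section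

/-!
Row 102, part (C), T5 input for algebraic curves (Painlevé), part F: Puiseux form at a finite limit.
-/

set_option autoImplicit false

namespace Crest.Agent.R102.Pain416

open Polynomial Set Filter Topology Metric

noncomputable section

/-- Puiseux form of `f` at `s`, from below -/
def Pui (s : ℂ) (j : ℕ) (k : ℤ) (r : ℝ) (g f : ℂ → ℂ) : Prop :=
  DifferentiableOn ℂ g (ball 0 r) ∧ (∀ x ∈ ball (0 : ℂ) r, g x ≠ 0) ∧
    ∀ z ∈ HD s (r ^ j), f z = ((z - s) ^ ((j : ℂ)⁻¹)) ^ k * g ((z - s) ^ ((j : ℂ)⁻¹))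

lemma path_tendsto {s u : ℂ} (hu : ‖u‖ = 1) (hui : u.im < 0) :
    Tendsto (fun t : ℝ => s + t * u) (𝓝[>] (0 : ℝ)) (bl s) := by
  intro S hS
  have hS' : ∀ᶠ z in bl s, z ∈ S := hS
  obtain ⟨r, hr, h1⟩ := bl_basis.1 hS'
  rw [mem_map]
  filter_upwards [Ioo_mem_nhdsGT hr] with t ht
  exact h1 _ (path_mem hu hui ht.1 ht.2)

lemma mem_slit {s z : ℂ} (h : z.im < s.im) : z - s ∈ Complex.slitPlane := by
  rw [Complex.mem_slitPlane_iff]
  right
  rw [Complex.sub_im]
  linarith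

/-- identity theorem along a ray -/
lemma ray_id {s u : ℂ} {r : ℝ} (hr : 0 < r) (hu : ‖u‖ = 1) (hui : u.im < 0) {f g : ℂ → ℂ}
    (hf : AnalyticOnNhd ℂ f (HD s r)) (hg : AnalyticOnNhd ℂ g (HD s r))
    (h : ∀ᶠ t : ℝ in 𝓝[>] (0 : ℝ), f (s + t * u) = g (s + t * u)) :
    ∀ z ∈ HD s r, f z = g z := by
  rw [eventually_nhdsWithin_iff, Metric.eventually_nhds_iff_ball] at h
  obtain ⟨ε, hε, h1⟩ := h
  set t9 := min ε r / 2 with ht9
  have hmin : 0 < min ε r := lt_min hε hr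
  have ht9p : 0 < t9 := by positivity
  have ht9r : t9 < r := by rw [ht9]; have := min_le_right ε r; linarith
  have ht9e : t9 < ε := by rw [ht9]; have := min_le_left ε r; linarith
  have hu0 : u ≠ 0 := by rintro rfl; simp at hu
  have htend : Tendsto (fun t : ℝ => s + t * u) (𝓝[≠] t9) (𝓝[≠] (s + t9 * u)) := by
    refine tendsto_nhdsWithin_of_tendsto_nhds_of_eventually_within _ ?_ ?_
    · exact (Continuous.tendsto (by fun_prop) t9).mono_left nhdsWithin_le_nhds
    · filter_upwards [self_mem_nhdsWithin] with t ht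
      intro heq
      apply ht
      have h2 : (t : ℂ) * u = t9 * u := add_left_cancel heq
      exact_mod_cast mul_right_cancel₀ hu0 h2
  have hev : ∀ᶠ t : ℝ in 𝓝[≠] t9, f (s + t * u) = g (s + t * u) := by
    have h2 : ∀ᶠ t : ℝ in 𝓝 t9, t ∈ Ioo 0 ε := Ioo_mem_nhds ht9p ht9e
    filter_upwards [mem_nhdsWithin_of_mem_nhds h2] with t ht
    refine h1 t ?_ ht.1
    rw [mem_ball, Real.dist_eq, sub_zero, abs_of_pos ht.1]
    exact ht.2
  have hfr : ∃ᶠ z in 𝓝[≠] (s + t9 * u), f z = g z := htend.frequently hev.frequently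
  exact fun z hz => hf.eqOn_of_preconnected_of_frequently_eq hg (convex_HD s r).isPreconnected
    (path_mem hu hui ht9p ht9r) hfr hz

variable {s : ℂ} {r₀ : ℝ} {E y : ℂ → ℂ} {M : Polynomial (Polynomial ℂ)} {a : Polynomial ℂ}
  {bad : Finset ℂ}

lemma cpow_small {s z : ℂ} {r : ℝ} {j : ℕ} (hj : 0 < j) (hr : 0 < r) (hz : z ∈ HD s (r ^ j)) :
    (z - s) ^ ((j : ℂ)⁻¹) ∈ ball (0 : ℂ) r ∧ (z - s) ^ ((j : ℂ)⁻¹) ≠ 0 := by
  have h1 : ((z - s) ^ ((j : ℂ)⁻¹)) ^ j = z - s := Complex.cpow_nat_inv_pow _ hj.ne'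
  constructor
  · rw [mem_ball_zero_iff]
    refine lt_of_pow_lt_pow_left₀ j hr.le ?_
    rw [← norm_pow, h1]
    have := hz.1
    rwa [mem_ball, dist_eq_norm] at this
  · intro h0
    rw [h0, zero_pow hj.ne'] at h1
    have h2 : z = s := sub_eq_zero.1 h1.symm
    have h3 : z.im < s.im := hz.2
    rw [h2] at h3
    exact lt_irrefl _ h3

lemma cpow_an {s z : ℂ} {j : ℕ} (hz : z.im < s.im) :
    AnalyticAt ℂ (fun z => (z - s) ^ ((j : ℂ)⁻¹)) z :=
  (analyticAt_id.sub analyticAt_const).cpow analyticAt_const (mem_slit hz)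

theorem Dat.puiseux_fin (D : Dat s r₀ E y M a bad) {x0 : ℂ} (hlim : Tendsto E (bl s) (𝓝 x0)) :
    ∃ (j : ℕ) (k k' : ℤ) (r : ℝ) (g e : ℂ → ℂ), 0 < j ∧ 0 < r ∧ r ^ j ≤ r₀ ∧
      Pui s j k r g y ∧ Pui s j k' r e E := by
  classical
  -- `E` is not constant
  have hEne : ∃ z ∈ HD s r₀, E z ≠ x0 := by
    obtain ⟨z1, hz1, hy1⟩ := D.y0
    by_contra hcon
    push Not at hcon
    have h1 : E =ᶠ[𝓝 z1] fun _ => x0 := by
      filter_upwards [(isOpen_HD s r₀).mem_nhds hz1] with z hz using hcon z hz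
    have h2 : deriv E z1 = 0 := by rw [h1.deriv_eq]; simp
    rw [D.ode z1 hz1] at h2
    exact mul_ne_zero (mul_ne_zero Complex.I_ne_zero hy1) (D.hE0 z1 hz1) h2
  obtain ⟨u, hu, hui, hux⟩ := dir D.hE hEne
  -- the radius
  obtain ⟨ρ, hρ, hρb⟩ : ∃ ρ > 0, ∀ x : ℂ, x ≠ x0 → ‖x - x0‖ < ρ → x ∉ bad ∧ x ≠ 0 := by
    have hopen : IsOpen ((((insert 0 bad).erase x0 : Finset ℂ) : Set ℂ)ᶜ) :=
      (((insert 0 bad).erase x0).finite_toSet.isClosed).isOpen_compl
    obtain ⟨ρ, hρ, hball⟩ := Metric.isOpen_iff.1 hopen x0 (by simp)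
    refine ⟨ρ, hρ, fun x hx hxρ => ?_⟩
    have h1 := hball (show x ∈ ball x0 ρ by rwa [mem_ball, dist_eq_norm])
    simp only [mem_compl_iff, Finset.mem_coe, Finset.mem_erase, Finset.mem_insert, not_and,
      not_or] at h1
    exact ⟨(h1 hx).2, (h1 hx).1⟩
  obtain ⟨t1, ht1, ht1r, hclose⟩ : ∃ t1 > 0, t1 ≤ r₀ ∧ ∀ z ∈ HD s t1, ‖E z - x0‖ < ρ := by
    have h1 : ∀ᶠ z in bl s, ‖E z - x0‖ < ρ := by
      have := Metric.tendsto_nhds.1 hlim ρ hρ
      refine this.mono fun z hz => ?_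
      rwa [dist_eq_norm] at hz
    obtain ⟨r, hr, h2⟩ := bl_basis.1 h1
    exact ⟨min r r₀, lt_min hr D.r₀_pos, min_le_right _ _,
      fun z hz => h2 z (HD_mono (min_le_left _ _) hz)⟩
  have hpm : ∀ t ∈ Ioo (0 : ℝ) t1, s + t * u ∈ HD s t1 := fun t ht => path_mem hu hui ht.1 ht.2
  have hpm0 : ∀ t ∈ Ioo (0 : ℝ) t1, s + t * u ∈ HD s r₀ := fun t ht => HD_mono ht1r (hpm t ht)
  set x : ℝ → ℂ := fun t => E (s + t * u) with hx
  have hxne : ∀ t ∈ Ioo (0 : ℝ) t1, x t ≠ x0 := fun t ht =>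
    hux t ht.1 (lt_of_lt_of_le ht.2 ht1r)
  have hxlt : ∀ t ∈ Ioo (0 : ℝ) t1, ‖x t - x0‖ < ρ := fun t ht => hclose _ (hpm t ht)
  have hxbad : ∀ t ∈ Ioo (0 : ℝ) t1, x t ∈ ((bad : Set ℂ)ᶜ) := fun t ht => by
    simpa using (hρb _ (hxne t ht) (hxlt t ht)).1
  have hpath : ∀ t : ℝ, HasDerivAt (fun t : ℝ => s + (t : ℂ) * u) u t := fun t => by
    have := ((Complex.ofRealCLM.hasDerivAt (x := t)).mul_const u).const_add s
    simpa using this
  have hxd : ∀ t ∈ Ioo (0 : ℝ) t1,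
      HasDerivAt x (Complex.I * y (s + t * u) * E (s + t * u) * u) t := by
    intro t ht
    have h1 : HasDerivAt E (deriv E (s + t * u)) (s + t * u) :=
      ((D.hE _ (hpm0 t ht)).differentiableAt ((isOpen_HD s r₀).mem_nhds (hpm0 t ht))).hasDerivAt
    rw [D.ode _ (hpm0 t ht)] at h1
    exact h1.comp t (hpath t)
  -- logarithm
  have ha0m : t1 / 2 ∈ Ioo (0 : ℝ) t1 := ⟨by positivity, by linarith⟩
  have : ContractibleSpace (Ioo (0 : ℝ) t1) := (convex_Ioo 0 t1).contractibleSpace ⟨_, ha0m⟩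
  have : LocallyPathConnectedSpace (Ioo (0 : ℝ) t1) := isOpen_Ioo.locallyPathConnectedSpace
  have : PreconnectedSpace (Ioo (0 : ℝ) t1) := isPreconnected_iff_preconnectedSpace.1
    isPreconnected_Ioo
  have hxc : ContinuousOn x (Ioo (0 : ℝ) t1) := fun t ht =>
    (hxd t ht).continuousAt.continuousWithinAt
  have hxc' : Continuous (fun t : Ioo (0 : ℝ) t1 => x t) :=
    continuousOn_iff_continuous_domRestrict.1 hxc
  let f : C(Ioo (0 : ℝ) t1, ℂ) := ⟨fun t => x t - x0, hxc'.sub continuous_const⟩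
  have hxn0 : ∀ t ∈ Ioo (0 : ℝ) t1, x t - x0 ≠ 0 := fun t ht => sub_ne_zero.2 (hxne t ht)
  obtain ⟨Lc, ⟨_, hLc⟩, _⟩ := Complex.isCoveringMapOn_exp.existsUnique_continuousMap_lifts f
    (a₀ := ⟨t1 / 2, ha0m⟩) (e₀ := Complex.log (x (t1 / 2) - x0))
    (Complex.exp_log (hxn0 _ ha0m)) (fun t => hxn0 t t.2)
  let L : ℝ → ℂ := fun t => if h : t ∈ Ioo (0 : ℝ) t1 then Lc ⟨t, h⟩ else 0
  have hLLc : ∀ t : Ioo (0 : ℝ) t1, L t = Lc t := fun t => by simp only [L]; rw [dif_pos t.2]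
  have hLe : ∀ t ∈ Ioo (0 : ℝ) t1, Complex.exp (L t) = x t - x0 := by
    intro t ht
    rw [hLLc ⟨t, ht⟩]
    exact congrFun hLc ⟨t, ht⟩
  have hLcont : ContinuousOn L (Ioo (0 : ℝ) t1) := by
    rw [continuousOn_iff_continuous_domRestrict]
    have : (Ioo (0 : ℝ) t1).domRestrict L = Lc := by funext t; exact hLLc t
    rw [this]
    exact Lc.continuous
  have hLd : ∀ t ∈ Ioo (0 : ℝ) t1,
      HasDerivAt L (Complex.I * y (s + t * u) * E (s + t * u) * u / (x t - x0)) t := by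
    intro t ht
    refine log_deriv (h := fun t => x t - x0) (hLcont.continuousAt (isOpen_Ioo.mem_nhds ht)) ?_
      ((hxd t ht).sub_const x0)
    filter_upwards [isOpen_Ioo.mem_nhds ht] with t' ht' using hLe t' ht'
  have hLmem : ∀ t ∈ Ioo (0 : ℝ) t1, L t ∈ LH (Real.log ρ) := by
    intro t ht
    have h1 := hxlt t ht
    rw [← hLe t ht, Complex.norm_exp] at h1
    change (L t).re < Real.log ρ
    rwa [Real.lt_log_iff_exp_lt hρ]
  set w : ℝ → ℂ := fun t => a.eval (x t) * y (s + t * u) with hw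
  have hwr : ∀ t ∈ Ioo (0 : ℝ) t1, ev M (x t, w t) = 0 := fun t ht => D.rel _ (hpm0 t ht)
  obtain ⟨m, hm, r, V, hr, hrm, hVd, hVr, hV0⟩ := disc_root D.mon D.sep hρ
    (fun x h1 h2 => by simpa using (hρb x h1 h2).1) (z0 := L (t1 / 2)) (w0 := w (t1 / 2))
    (hLmem _ ha0m) (by
      have := hwr _ ha0m
      rw [hLe _ ha0m]
      simpa using this)
  have hmC : (m : ℂ) ≠ 0 := by exact_mod_cast hm.ne'
  have hvm : ∀ t ∈ Ioo (0 : ℝ) t1, Complex.exp (L t / m) ^ m = x t - x0 := by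
    intro t ht
    rw [← Complex.exp_nat_mul, mul_div_cancel₀ _ hmC, hLe t ht]
  have hvr : ∀ t ∈ Ioo (0 : ℝ) t1, Complex.exp (L t / m) ∈ ball (0 : ℂ) r := by
    intro t ht
    rw [mem_ball_zero_iff]
    refine lt_of_pow_lt_pow_left₀ m hr.le ?_
    rw [← norm_pow, hvm t ht, hrm]
    exact hxlt t ht
  have hxv : ∀ t ∈ Ioo (0 : ℝ) t1, x0 + Complex.exp (L t / m) ^ m = x t := fun t ht => by
    rw [hvm t ht]; ring
  -- the root along the path
  have hVw : ∀ t ∈ Ioo (0 : ℝ) t1, w t = V (Complex.exp (L t / m)) := by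
    have hyc : ContinuousOn (fun t : ℝ => y (s + t * u)) (Ioo (0 : ℝ) t1) :=
      D.hy.continuousOn.comp (by fun_prop) (fun t ht => hpm0 t ht)
    have hwc : ContinuousOn w (Ioo (0 : ℝ) t1) :=
      (a.continuous.comp_continuousOn hxc).mul hyc
    have hVc : ContinuousOn (fun t : ℝ => V (Complex.exp (L t / m))) (Ioo (0 : ℝ) t1) :=
      hVd.continuousOn.comp (Complex.continuous_exp.comp_continuousOn (hLcont.div_const _))
        (fun t ht => hvr t ht)
    have key := root_unique D.mon D.sep (A := Ioo (0 : ℝ) t1) (f := fun t => x t)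
      (F := fun t => w t) (G := fun t => V (Complex.exp (L t / m))) hxc'
      (continuousOn_iff_continuous_domRestrict.1 hwc)
      (continuousOn_iff_continuous_domRestrict.1 hVc) (fun t => hxbad t t.2)
      (fun t => hwr t t.2) (fun t => by
        have := hVr _ (hvr t t.2) (Complex.exp_ne_zero _)
        rwa [hxv t t.2] at this) (a₀ := ⟨t1 / 2, ha0m⟩) hV0.symm
    intro t ht
    exact congrFun key ⟨t, ht⟩
  -- the right hand side
  set R : ℂ → ℂ := fun v => Complex.I * v * V v * (x0 + v ^ m) /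
    (m * v ^ m * a.eval (x0 + v ^ m)) with hR
  have hVan : AnalyticAt ℂ V 0 := hVd.analyticAt (ball_mem_nhds 0 hr)
  have hpowan : AnalyticAt ℂ (fun v : ℂ => x0 + v ^ m) 0 := by fun_prop
  have haan : AnalyticAt ℂ (fun v : ℂ => a.eval (x0 + v ^ m)) 0 := by
    have : Differentiable ℂ (fun v : ℂ => a.eval (x0 + v ^ m)) := by fun_prop
    exact this.analyticAt 0
  have hRm : MeromorphicAt R 0 := by
    refine MeromorphicAt.div ?_ ?_
    · exact (((analyticAt_const.mul analyticAt_id).mul hVan).mul hpowan).meromorphicAt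
    · exact ((analyticAt_const.mul (analyticAt_id.pow m)).mul haan).meromorphicAt
  have hgoodv : ∀ v ∈ ball (0 : ℂ) r, v ≠ 0 →
      x0 + v ^ m ∉ bad ∧ x0 + v ^ m ≠ 0 ∧ V v ≠ 0 := by
    intro v hv hv0
    have h1 : x0 + v ^ m ≠ x0 := by
      intro h
      exact pow_ne_zero m hv0 (add_eq_left.1 h)
    have h2 : ‖x0 + v ^ m - x0‖ < ρ := by
      rw [add_sub_cancel_left, norm_pow, ← hrm]
      rw [mem_ball_zero_iff] at hv
      exact pow_lt_pow_left₀ hv (norm_nonneg _) hm.ne'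
    have h3 := hρb _ h1 h2
    refine ⟨h3.1, h3.2, fun h0 => ?_⟩
    have h4 := hVr v hv hv0
    rw [h0] at h4
    exact (D.good _ h3.1).2 h4
  have hRne : ∀ᶠ v in 𝓝[≠] (0 : ℂ), R v ≠ 0 := by
    filter_upwards [self_mem_nhdsWithin, mem_nhdsWithin_of_mem_nhds (ball_mem_nhds (0 : ℂ) hr)]
      with v hv0 hv
    have hv0' : v ≠ 0 := hv0
    obtain ⟨h1, h2, h3⟩ := hgoodv v hv hv0'
    exact div_ne_zero (mul_ne_zero (mul_ne_zero (mul_ne_zero Complex.I_ne_zero hv0') h3) h2)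
      (mul_ne_zero (mul_ne_zero hmC (pow_ne_zero m hv0')) (D.good _ h1).1)
  have hl : ∀ t ∈ Ioo (0 : ℝ) t1, HasDerivAt (fun t => L t / m)
      (u * R (Complex.exp (L t / m)) / Complex.exp (L t / m)) t := by
    intro t ht
    have h1 := (hLd t ht).div_const (m : ℂ)
    have hv0 : Complex.exp (L t / m) ≠ 0 := Complex.exp_ne_zero _
    have ha := (D.good _ (hρb _ (hxne t ht) (hxlt t ht)).1).1
    have hy1 : y (s + t * u) = V (Complex.exp (L t / m)) / a.eval (x t) := by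
      rw [← hVw t ht, hw]
      field_simp
    have hxn := hxn0 t ht
    have hE1 : E (s + t * u) = x t := rfl
    have e2 : Complex.I * y (s + t * u) * E (s + t * u) * u / (x t - x0) / m =
        u * R (Complex.exp (L t / m)) / Complex.exp (L t / m) := by
      simp only [hR]
      rw [hxv t ht, hvm t ht, hy1, hE1]
      field_simp
    rw [← e2]
    exact h1
  have hlim0 : Tendsto (fun t => Complex.exp (L t / m)) (𝓝[>] (0 : ℝ)) (𝓝 0) := by
    rw [Metric.tendsto_nhds]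
    intro ε hε
    have h1 : Tendsto (fun t : ℝ => x t) (𝓝[>] (0 : ℝ)) (𝓝 x0) := hlim.comp (path_tendsto hu hui)
    filter_upwards [Metric.tendsto_nhds.1 h1 (ε ^ m) (by positivity), Ioo_mem_nhdsGT ht1] with t h2 h3
    rw [dist_zero_right]
    refine lt_of_pow_lt_pow_left₀ m hε.le ?_
    rw [← norm_pow, hvm t h3, ← dist_eq_norm]
    exact h2
  obtain ⟨j, ψ, hj, hψan, hψ0, hψd, hψe⟩ := loc hRm hRne hu hui ht1 hl hlim0
  -- the two Puiseux functions
  set e1 : ℂ → ℂ := fun ξ => x0 + ψ ξ ^ m with he1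
  set Y1 : ℂ → ℂ := fun ξ => V (ψ ξ) / a.eval (x0 + ψ ξ ^ m) with hY1
  have hVan' : AnalyticAt ℂ V (ψ 0) := by rw [hψ0]; exact hVan
  have he1an : AnalyticAt ℂ e1 0 := analyticAt_const.add (hψan.pow m)
  have hY1m : MeromorphicAt Y1 0 := by
    refine MeromorphicAt.div (AnalyticAt.comp hVan' hψan).meromorphicAt ?_
    have h1 : Differentiable ℂ (fun v : ℂ => a.eval (x0 + v ^ m)) := by fun_prop
    exact (AnalyticAt.comp (h1.analyticAt (ψ 0)) hψan).meromorphicAt
  have hψne : ∀ᶠ ξ in 𝓝[≠] (0 : ℂ), ψ ξ ≠ 0 :=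
    hψan.differentiableAt.hasDerivAt.eventually_ne hψd
  have hψball : ∀ᶠ ξ in 𝓝 (0 : ℂ), ψ ξ ∈ ball (0 : ℂ) r := by
    refine hψan.continuousAt.eventually_mem ?_
    rw [hψ0]
    exact ball_mem_nhds 0 hr
  have hgood : ∀ᶠ ξ in 𝓝[≠] (0 : ℂ), e1 ξ ≠ 0 ∧ Y1 ξ ≠ 0 := by
    filter_upwards [hψne, mem_nhdsWithin_of_mem_nhds hψball] with ξ h1 h2
    obtain ⟨h3, h4, h5⟩ := hgoodv _ h2 h1
    exact ⟨h4, div_ne_zero h5 (D.good _ h3).1⟩
  obtain ⟨g, gan, g0, hg⟩ := (meromorphicOrderAt_ne_top_iff hY1m).1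
    ((meromorphicOrderAt_ne_top_iff_eventually_ne_zero hY1m).2 (hgood.mono fun _ h => h.2))
  obtain ⟨e, ean, e0, he⟩ := (meromorphicOrderAt_ne_top_iff he1an.meromorphicAt).1
    ((meromorphicOrderAt_ne_top_iff_eventually_ne_zero he1an.meromorphicAt).2
      (hgood.mono fun _ h => h.1))
  set k := (meromorphicOrderAt Y1 0).untop₀ with hk
  set k' := (meromorphicOrderAt e1 0).untop₀ with hk'
  have hall : ∀ᶠ ξ in 𝓝 (0 : ℂ), AnalyticAt ℂ ψ ξ ∧ ψ ξ ∈ ball (0 : ℂ) r ∧ AnalyticAt ℂ g ξ ∧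
      AnalyticAt ℂ e ξ ∧ g ξ ≠ 0 ∧ e ξ ≠ 0 ∧
      (ξ ≠ 0 → ψ ξ ≠ 0 ∧ Y1 ξ = ξ ^ k * g ξ ∧ e1 ξ = ξ ^ k' * e ξ) := by
    filter_upwards [hψan.eventually_analyticAt, hψball, gan.eventually_analyticAt,
      ean.eventually_analyticAt, gan.continuousAt.eventually_ne g0,
      ean.continuousAt.eventually_ne e0, eventually_nhdsWithin_iff.1 hψne,
      eventually_nhdsWithin_iff.1 hg, eventually_nhdsWithin_iff.1 he] with ξ h1 h2 h3 h4 h5 h6 h7 h8 h9
    refine ⟨h1, h2, h3, h4, h5, h6, fun h => ⟨h7 h, ?_, ?_⟩⟩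
    · have h10 : Y1 ξ = (ξ - 0) ^ k • g ξ := h8 h
      rwa [sub_zero, smul_eq_mul] at h10
    · have h10 : e1 ξ = (ξ - 0) ^ k' • e ξ := h9 h
      rwa [sub_zero, smul_eq_mul] at h10
  obtain ⟨r4', hr4', hall'⟩ := Metric.eventually_nhds_iff_ball.1 hall
  set r4 := min r4' (min t1 1) with hr4
  have hr4p : 0 < r4 := lt_min hr4' (lt_min ht1 one_pos)
  have hall4 : ∀ ξ ∈ ball (0 : ℂ) r4, _ := fun ξ hξ =>
    hall' ξ (ball_subset_ball (min_le_left _ _) hξ)
  have hr4t : r4 ^ j ≤ t1 := by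
    have h1 : r4 ≤ 1 := (min_le_right _ _).trans (min_le_right _ _)
    calc r4 ^ j ≤ r4 ^ 1 := pow_le_pow_of_le_one hr4p.le h1 hj
      _ = r4 := pow_one _
      _ ≤ t1 := (min_le_right _ _).trans (min_le_left _ _)
  have hr4j : 0 < r4 ^ j := by positivity
  have hsub : HD s (r4 ^ j) ⊆ HD s r₀ := HD_mono (hr4t.trans ht1r)
  -- identities
  have hψan2 : AnalyticOnNhd ℂ (fun z => ψ ((z - s) ^ ((j : ℂ)⁻¹))) (HD s (r4 ^ j)) := by
    intro z hz
    exact AnalyticAt.comp (g := ψ) (f := fun z => (z - s) ^ ((j : ℂ)⁻¹))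
      (hall4 _ (cpow_small hj hr4p hz).1).1 (cpow_an hz.2)
  have hid1 : ∀ z ∈ HD s (r4 ^ j), E z = x0 + ψ ((z - s) ^ ((j : ℂ)⁻¹)) ^ m := by
    refine ray_id hr4j hu hui ((D.hE.mono hsub).analyticOnNhd (isOpen_HD _ _))
      (fun z hz => analyticAt_const.add ((hψan2 z hz).pow m)) ?_
    filter_upwards [hψe, Ioo_mem_nhdsGT ht1] with t h1 h2
    rw [add_sub_cancel_left, ← h1, hxv t h2]
  have hid2 : ∀ z ∈ HD s (r4 ^ j), a.eval (E z) * y z = V (ψ ((z - s) ^ ((j : ℂ)⁻¹))) := by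
    have h0 : DifferentiableOn ℂ (fun z => a.eval (E z) * y z) (HD s (r4 ^ j)) :=
      (a.differentiable.comp_differentiableOn (D.hE.mono hsub)).mul (D.hy.mono hsub)
    refine ray_id hr4j hu hui (h0.analyticOnNhd (isOpen_HD _ _)) (fun z hz => ?_) ?_
    · have h1 := (hall4 _ (cpow_small hj hr4p hz).1).2.1
      exact AnalyticAt.comp (g := V) (f := fun z => ψ ((z - s) ^ ((j : ℂ)⁻¹)))
        (hVd.analyticAt (isOpen_ball.mem_nhds h1)) (hψan2 z hz)
    · filter_upwards [hψe, Ioo_mem_nhdsGT ht1] with t h1 h2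
      rw [add_sub_cancel_left, ← h1]
      exact hVw t h2
  refine ⟨j, k, k', r4, g, e, hj, hr4p, hr4t.trans ht1r, ⟨?_, ?_, ?_⟩, ?_, ?_, ?_⟩
  · exact fun ξ hξ => (hall4 ξ hξ).2.2.1.differentiableAt.differentiableWithinAt
  · exact fun ξ hξ => (hall4 ξ hξ).2.2.2.2.1
  · intro z hz
    obtain ⟨h1, h2⟩ := cpow_small hj hr4p hz
    have h3 := hall4 _ h1
    obtain ⟨h4, h5, h6⟩ := h3.2.2.2.2.2.2 h2
    rw [← h5, hY1]
    simp only
    rw [← hid2 z hz, ← hid1 z hz]
    have h7 := (hgoodv _ h3.2.1 h4).1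
    rw [← hid1 z hz] at h7
    have h8 := (D.good _ h7).1
    field_simp
  · exact fun ξ hξ => (hall4 ξ hξ).2.2.2.1.differentiableAt.differentiableWithinAt
  · exact fun ξ hξ => (hall4 ξ hξ).2.2.2.2.2.1
  · intro z hz
    obtain ⟨h1, h2⟩ := cpow_small hj hr4p hz
    have h3 := hall4 _ h1
    obtain ⟨h4, h5, h6⟩ := h3.2.2.2.2.2.2 h2
    rw [← h6, hid1 z hz]

end

end Crest.Agent.R102.Pain416
end

-- ▼ part R102/Pain_416
section

/-!
Row 102, part (C), T5 input for algebraic curves: **Painlevé's theorem** for the autonomous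
algebraic equation `E' = i y E`, `Q(E, y) = 0`: at every boundary point `s` (approached from below)
`y` and `E` are Puiseux functions of `z - s`.
-/

set_option autoImplicit false

namespace Crest.Agent.R102.Pain416

open Polynomial Set Filter Topology Metric

noncomputable section

lemma ev_swap (Q : Polynomial (Polynomial ℂ)) (hQ : Q ≠ 0) :
    ∃ Q1 : Polynomial (Polynomial ℂ), Q1 ≠ 0 ∧ ∃ N : ℕ, ∀ x y : ℂ, x ≠ 0 →
      ev Q1 (x⁻¹, -y) * x ^ N = ev Q (x, y) := by
  classical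
  set N := (Finset.range (Q.natDegree + 1)).sup (fun i => (Q.coeff i).natDegree) with hN
  set Q1 : Polynomial (Polynomial ℂ) :=
    ∑ i ∈ Finset.range (Q.natDegree + 1), C (reflect N (Q.coeff i)) * (-X) ^ i with hQ1
  have key : ∀ x y : ℂ, x ≠ 0 → ev Q1 (x⁻¹, -y) * x ^ N = ev Q (x, y) := by
    intro x y hx
    have e1 : ev Q1 (x⁻¹, -y) =
        ∑ i ∈ Finset.range (Q.natDegree + 1), (reflect N (Q.coeff i)).eval x⁻¹ * y ^ i := by
      rw [hQ1]
      unfold ev
      rw [evalEval_finsetSum]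
      refine Finset.sum_congr rfl fun i _ => ?_
      rw [evalEval_mul, evalEval_pow, evalEval_neg, evalEval_X, evalEval_C, neg_neg]
    rw [e1, ev_eq, Finset.sum_mul]
    refine Finset.sum_congr rfl fun i hi => ?_
    have hdeg : (Q.coeff i).natDegree ≤ N :=
      Finset.le_sup (f := fun i => (Q.coeff i).natDegree) hi
    let _ : Invertible x := invertibleOfNonzero hx
    have h1 := eval₂_reflect_mul_pow (RingHom.id ℂ) x N (Q.coeff i) hdeg
    rw [invOf_eq_inv] at h1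
    simp only [eval₂_id] at h1
    rw [← h1]
    ring
  refine ⟨Q1, ?_, N, key⟩
  intro h0
  apply hQ
  have h1 : ∀ x : ℂ, x ≠ 0 → Q.map (evalRingHom x) = 0 := by
    intro x hx
    refine Polynomial.funext fun y => ?_
    rw [← ev_map, ← key x y hx, h0]
    simp [ev]
  ext1 i
  rw [coeff_zero]
  have h2 : X * Q.coeff i = 0 := by
    refine Polynomial.funext fun x => ?_
    rw [eval_mul, eval_X, eval_zero]
    by_cases hx : x = 0
    · rw [hx, zero_mul]
    · have h3 := congrArg (fun p => coeff p i) (h1 x hx)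
      simp only [coeff_map, coeff_zero, coe_evalRingHom] at h3
      rw [h3, mul_zero]
  exact (mul_eq_zero.1 h2).resolve_left X_ne_zero

variable {s : ℂ} {r₀ : ℝ} {E y : ℂ → ℂ}

lemma exists_Dat (hr₀ : 0 < r₀) (hE : DifferentiableOn ℂ E (HD s r₀))
    (hy : DifferentiableOn ℂ y (HD s r₀)) (hE0 : ∀ z ∈ HD s r₀, E z ≠ 0)
    (hode : ∀ z ∈ HD s r₀, deriv E z = Complex.I * y z * E z)
    {Q : Polynomial (Polynomial ℂ)} (hQ : Q ≠ 0) (hrel : ∀ z ∈ HD s r₀, ev Q (E z, y z) = 0)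
    (hy0 : ∃ z ∈ HD s r₀, y z ≠ 0) :
    ∃ M a bad, Dat s r₀ E y M a bad := by
  have hconst : ¬ ∃ c, ∀ z ∈ HD s r₀, E z = c := by
    rintro ⟨c, hc⟩
    obtain ⟨z1, hz1, hy1⟩ := hy0
    have h1 : E =ᶠ[𝓝 z1] fun _ => c := by
      filter_upwards [(isOpen_HD s r₀).mem_nhds hz1] with z hz using hc z hz
    have h2 : deriv E z1 = 0 := by rw [h1.deriv_eq]; simp
    rw [hode z1 hz1] at h2
    exact mul_ne_zero (mul_ne_zero Complex.I_ne_zero hy1) (hE0 z1 hz1) h2
  obtain ⟨z1, hz1, hy1⟩ := hy0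
  obtain ⟨M, a, bad, h1, h2, h3, h4, h5⟩ := good_poly (isOpen_HD s r₀)
    (convex_HD s r₀).isPreconnected ⟨z1, hz1⟩ hE hy hQ hrel hconst ⟨z1, hz1, hy1⟩
  exact ⟨M, a, bad, ⟨hr₀, hE, hy, hE0, hode, h1, h2, h3, h4, h5, ⟨z1, hz1, hy1⟩⟩⟩

/-- **Painlevé, local form.** -/
theorem pain_local (hr₀ : 0 < r₀) (hE : DifferentiableOn ℂ E (HD s r₀))
    (hy : DifferentiableOn ℂ y (HD s r₀)) (hE0 : ∀ z ∈ HD s r₀, E z ≠ 0)
    (hode : ∀ z ∈ HD s r₀, deriv E z = Complex.I * y z * E z)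
    {Q : Polynomial (Polynomial ℂ)} (hQ : Q ≠ 0) (hrel : ∀ z ∈ HD s r₀, ev Q (E z, y z) = 0)
    (hy0 : ∃ z ∈ HD s r₀, y z ≠ 0) :
    ∃ (j : ℕ) (k k' : ℤ) (r : ℝ) (g e : ℂ → ℂ), 0 < j ∧ 0 < r ∧ r ^ j ≤ r₀ ∧
      Pui s j k r g y ∧ Pui s j k' r e E := by
  obtain ⟨M, a, bad, D⟩ := exists_Dat hr₀ hE hy hE0 hode hQ hrel hy0
  rcases D.limit with ⟨x0, hx0⟩ | hinf
  · exact D.puiseux_fin hx0
  -- the infinite case
  obtain ⟨Q1, hQ1, N, hN⟩ := ev_swap Q hQ
  have hE1 : DifferentiableOn ℂ (fun z => (E z)⁻¹) (HD s r₀) := hE.inv hE0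
  have hode1 : ∀ z ∈ HD s r₀, deriv (fun z => (E z)⁻¹) z = Complex.I * (-y z) * (E z)⁻¹ := by
    intro z hz
    have h1 : HasDerivAt E (deriv E z) z :=
      ((hE z hz).differentiableAt ((isOpen_HD s r₀).mem_nhds hz)).hasDerivAt
    rw [hode z hz] at h1
    have h2 := h1.inv (hE0 z hz)
    have h3 : HasDerivAt (fun z => (E z)⁻¹) (-(Complex.I * y z * E z) / E z ^ 2) z := h2
    rw [h3.deriv]
    have := hE0 z hz
    field_simp
  have hrel1 : ∀ z ∈ HD s r₀, ev Q1 ((E z)⁻¹, -y z) = 0 := by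
    intro z hz
    have h1 := hN (E z) (y z) (hE0 z hz)
    rw [hrel z hz] at h1
    exact (mul_eq_zero.1 h1).resolve_right (pow_ne_zero N (hE0 z hz))
  obtain ⟨z1, hz1, hy1⟩ := hy0
  obtain ⟨M', a', bad', D'⟩ := exists_Dat (E := fun z => (E z)⁻¹) (y := fun z => -y z) hr₀ hE1
    hy.neg (fun z hz => inv_ne_zero (hE0 z hz)) hode1 hQ1 hrel1 ⟨z1, hz1, neg_ne_zero.2 hy1⟩
  have hlim : Tendsto (fun z => (E z)⁻¹) (bl s) (𝓝 0) := by
    rw [tendsto_zero_iff_norm_tendsto_zero]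
    simp only [norm_inv]
    exact hinf.inv_tendsto_atTop
  obtain ⟨j, k, k', r, g, e, hj, hr, hrr, ⟨g1, g2, g3⟩, ⟨e1, e2, e3⟩⟩ := D'.puiseux_fin hlim
  refine ⟨j, k, -k', r, fun x => -g x, fun x => (e x)⁻¹, hj, hr, hrr,
    ⟨g1.neg, fun x hx => neg_ne_zero.2 (g2 x hx), fun z hz => ?_⟩,
    ⟨e1.inv e2, fun x hx => inv_ne_zero (e2 x hx), fun z hz => ?_⟩⟩
  · have := g3 z hz
    simp only at this
    rw [mul_neg, ← this, neg_neg]
  · have := e3 z hz
    simp only at this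
    rw [zpow_neg, ← mul_inv, ← this, inv_inv]

/-- `MvPolynomial (Fin 2)` to bivariate polynomials -/
lemma of_mv {Q : MvPolynomial (Fin 2) ℂ} (hQ : Q ≠ 0) :
    ∃ Q' : Polynomial (Polynomial ℂ), Q' ≠ 0 ∧ ∀ x y : ℂ, ev Q' (x, y) = MvPolynomial.eval ![x, y] Q := by
  let φ : MvPolynomial (Fin 2) ℂ →+* Polynomial (Polynomial ℂ) :=
    MvPolynomial.eval₂Hom (C.comp C) ![C X, X]
  have h1 : ∀ x y : ℂ, ev (φ Q) (x, y) = MvPolynomial.eval ![x, y] Q := by
    intro x y
    have h2 : (evalEvalRingHom x y).comp φ = MvPolynomial.eval ![x, y] := by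
      refine MvPolynomial.ringHom_ext ?_ ?_
      · intro c
        simp [φ]
      · intro i
        fin_cases i <;> simp [φ]
    exact congrArg (fun (ψ : MvPolynomial (Fin 2) ℂ →+* ℂ) => ψ Q) h2
  refine ⟨φ Q, ?_, h1⟩
  intro h0
  apply hQ
  refine MvPolynomial.funext fun v => ?_
  have h2 : v = ![v 0, v 1] := by funext i; fin_cases i <;> rfl
  rw [h2, ← h1, h0]
  simp [ev]

/-- **Painlevé on the top line of the maximal strip.** -/
theorem pain {h0 : ℝ} (hh : 0 < h0) {y E : ℂ → ℂ} (hy : DifferentiableOn ℂ y (T7M.Sg h0))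
    (hE : DifferentiableOn ℂ E (T7M.Sg h0)) (hE0 : ∀ z ∈ T7M.Sg h0, E z ≠ 0)
    (hode : ∀ z ∈ T7M.Sg h0, deriv E z = Complex.I * y z * E z)
    {Q : MvPolynomial (Fin 2) ℂ} (hQ : Q ≠ 0)
    (hrel : ∀ z ∈ T7M.Sg h0, MvPolynomial.eval ![E z, y z] Q = 0)
    (hy0 : ∃ z ∈ T7M.Sg h0, y z ≠ 0) {s : ℂ} (hs : s.im = h0) :
    ∃ (j : ℕ) (k k' : ℤ) (r : ℝ) (g e : ℂ → ℂ), 0 < j ∧ 0 < r ∧ r ^ j ≤ h0 ∧
      Pui s j k r g y ∧ Pui s j k' r e E := by
  have hsub : HD s h0 ⊆ T7M.Sg h0 := by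
    intro z hz
    have h1 := hz.1
    have h2 : z.im < s.im := hz.2
    rw [mem_ball, dist_eq_norm] at h1
    have h3 := (Complex.abs_im_le_norm (z - s)).trans_lt h1
    rw [Complex.sub_im, hs, abs_lt] at h3
    change |z.im| < h0
    rw [abs_lt]
    constructor <;> linarith [h3.1, h3.2]
  obtain ⟨Q', hQ', hev⟩ := of_mv hQ
  refine pain_local hh (hE.mono hsub) (hy.mono hsub) (fun z hz => hE0 z (hsub hz))
    (fun z hz => hode z (hsub hz)) hQ' (fun z hz => by rw [hev]; exact hrel z (hsub hz)) ?_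
  -- `y` does not vanish identically on the half disc
  by_contra hcon
  push Not at hcon
  obtain ⟨z1, hz1, hy1⟩ := hy0
  have hopen : IsOpen (T7M.Sg h0) := T7M.isOpen_Sg h0
  have hconn : IsPreconnected (T7M.Sg h0) := by
    have : Convex ℝ (T7M.Sg h0) := by
      have e : T7M.Sg h0 = Complex.im ⁻¹' Ioo (-h0) h0 := by
        ext z
        simp [T7M.Sg, abs_lt]
      rw [e]
      exact (convex_Ioo _ _).is_linear_preimage ⟨Complex.add_im, fun r z => by simp⟩
    exact this.isPreconnected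
  have hz2 : s + ((h0 / 2 : ℝ) : ℂ) * (-Complex.I) ∈ HD s h0 :=
    path_mem (by simp) (by simp) (by positivity) (by linarith)
  have h4 : y =ᶠ[𝓝 (s + ((h0 / 2 : ℝ) : ℂ) * (-Complex.I))] 0 := by
    filter_upwards [(isOpen_HD s h0).mem_nhds hz2] with z hz using hcon z hz
  have h5 := (hy.analyticOnNhd hopen).eqOn_zero_of_preconnected_of_eventuallyEq_zero hconn
    (hsub hz2) h4 hz1
  exact hy1 h5

end

end Crest.Agent.R102.Pain416
end

-- ▼ part R102/Pui_714

/-!
# Row 102: `Spine.Pui` (helper714)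

Algebraic curves: `(e^{iθ}, H)` is a Puiseux germ at every point of the top line.
Assembled from `AlgS151.alg_datum` (relation `Q (E, θ') = 0` on the strip), `Pain416.pain`
(Painlevé: Puiseux form of `E`, `θ'`), `AlgR151.rat_fun` (`H` is rational in `E`, `θ'`).
-/

set_option autoImplicit false

open Set Filter Topology Metric
open scoped ComplexConjugate

noncomputable section

namespace Crest.Agent.R102.Pui714

open Crest.Agent.R102.T5 Crest.Agent.R102.G576 Crest.Agent.R102.A929 Crest.Agent.R102.B821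
open Crest.Agent.R102.C0 Crest.Agent.R102.C1 Crest.Agent.R102.Mer88

/-- the two uniformizers differ by a constant factor -/
lemma cpow_unif {w : ℂ} (hw : w.im < 0) (j : ℕ) :
    w ^ ((j : ℂ)⁻¹) = Complex.exp (-(Real.pi / 2 * Complex.I * (j : ℂ)⁻¹)) *
      (Complex.I * w) ^ (1 / (j : ℂ)) := by
  have hw0 : w ≠ 0 := by
    rintro rfl
    simp at hw
  have harg : w.arg < 0 := Complex.arg_neg_iff.2 hw
  have hlog : Complex.log (Complex.I * w) = Complex.log Complex.I + Complex.log w := by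
    refine (Complex.log_mul_eq_add_log_iff Complex.I_ne_zero hw0).2 ?_
    rw [Complex.arg_I]
    have h1 := Complex.neg_pi_lt_arg w
    constructor <;> linarith [Real.pi_pos]
  rw [Complex.cpow_def_of_ne_zero hw0, Complex.cpow_def_of_ne_zero
    (mul_ne_zero Complex.I_ne_zero hw0), hlog, Complex.log_I, ← Complex.exp_add, one_div]
  congr 1
  ring

/-- change of uniformizer in a Puiseux form -/
lemma unif {s : ℂ} {j : ℕ} {k : ℤ} {r : ℝ} {g f : ℂ → ℂ} (hr : 0 < r)
    (h : Pain416.Pui s j k r g f) :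
    ∃ F : ℂ → ℂ, MeromorphicAt F 0 ∧
      ∀ z ∈ Pain416.HD s (r ^ j), F ((Complex.I * (z - s)) ^ (1 / (j : ℂ))) = f z := by
  obtain ⟨h1, -, h3⟩ := h
  set c : ℂ := Complex.exp (-(Real.pi / 2 * Complex.I * (j : ℂ)⁻¹)) with hc
  refine ⟨fun u => (c * u) ^ k * g (c * u), ?_, ?_⟩
  · have ha : AnalyticAt ℂ g (c * 0) := by
      rw [mul_zero]
      exact h1.analyticAt (ball_mem_nhds 0 hr)
    have hl : AnalyticAt ℂ (fun u : ℂ => c * u) 0 := by fun_prop
    have hg : AnalyticAt ℂ (fun u : ℂ => g (c * u)) 0 := ha.comp hl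
    exact (hl.meromorphicAt.zpow k).mul hg.meromorphicAt
  · intro z hz
    have him : (z - s).im < 0 := by
      rw [Complex.sub_im]
      exact sub_neg.2 hz.2
    rw [h3 z hz, cpow_unif him]

/-- meromorphy of polynomials in two meromorphic functions -/
lemma mero_eval {f g : ℂ → ℂ} {z₀ : ℂ} (hf : MeromorphicAt f z₀) (hg : MeromorphicAt g z₀)
    (Q : MvPolynomial (Fin 2) ℂ) :
    MeromorphicAt (fun z => MvPolynomial.eval ![f z, g z] Q) z₀ := by
  induction Q using MvPolynomial.induction_on with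
  | C a =>
    simp only [MvPolynomial.eval_C]
    exact MeromorphicAt.const a z₀
  | add p q hp hq =>
    simp only [map_add]
    exact hp.add hq
  | mul_X p i hp =>
    fin_cases i
    · simp only [map_mul, MvPolynomial.eval_X]
      exact hp.mul hf
    · simp only [map_mul, MvPolynomial.eval_X]
      exact hp.mul hg

/-- exchange of the two variables of a relation -/
lemma swap_rel {P : MvPolynomial (Fin 2) ℂ} (hP : P ≠ 0) :
    ∃ P' : MvPolynomial (Fin 2) ℂ, P' ≠ 0 ∧ ∀ a b : ℂ,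
      MvPolynomial.eval ![a, b] P' = MvPolynomial.eval ![b, a] P := by
  refine ⟨MvPolynomial.rename (Equiv.swap (0 : Fin 2) 1) P, ?_, ?_⟩
  · intro h
    exact hP ((MvPolynomial.rename_injective _ (Equiv.swap (0 : Fin 2) 1).injective)
      (by rw [h, map_zero]))
  · intro a b
    rw [MvPolynomial.eval_rename]
    congr 2
    funext i
    fin_cases i <;> simp

lemma isPreconnected_Str (h : ℝ) : IsPreconnected (Str h) := by
  have : Str h = Complex.im ⁻¹' (Set.Ioo (-h) h) := by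
    ext z
    simp [Str, abs_lt]
  rw [this]
  exact ((convex_Ioo _ _).is_linear_preimage
    ⟨Complex.add_im, fun r z => by simp⟩).isPreconnected

/-- **`Spine.Pui`** -/
theorem pui : Spine.Pui := by
  intro q η ρ r B b φ p m₀ θ H h0 hD hA s hs
  obtain ⟨P, hP, hPrel⟩ := hA
  have D := hD.fam.dat
  have X := hD.ext
  have hη : 0 < η := D.η_pos
  have hh : 0 < h0 := hη.trans_le hD.le
  have hU : IsOpen (Str h0) := T7C151.isOpen_Str h0
  have hc : IsPreconnected (Str h0) := isPreconnected_Str h0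
  have h₀ : (0 : ℂ) ∈ Str h0 := T7C151.zero_mem_Str hh
  have hS : ∀ᶠ z in 𝓝 (0 : ℂ), z ∈ Str η :=
    (T7C151.isOpen_Str η).mem_nhds (T7C151.zero_mem_Str hη)
  -- the functions `E`, `y`
  set E : ℂ → ℂ := fun z => Complex.exp (Complex.I * θ z) with hEdef
  set y : ℂ → ℂ := deriv θ with hydef
  have hθ' : ∀ z ∈ Str h0, HasDerivAt θ (y z) z := fun z hz =>
    ((X.θ_diff z hz).differentiableAt (hU.mem_nhds hz)).hasDerivAt
  have hE' : ∀ z ∈ Str h0, HasDerivAt E (Complex.I * y z * E z) z := fun z hz => by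
    have h1 := ((hθ' z hz).const_mul Complex.I).cexp
    rw [mul_comm] at h1
    exact h1
  have hE : DifferentiableOn ℂ E (Str h0) := fun z hz =>
    (hE' z hz).differentiableAt.differentiableWithinAt
  have hy : DifferentiableOn ℂ y (Str h0) := X.θ_diff.deriv hU
  have hE0 : ∀ z ∈ Str h0, E z ≠ 0 := fun z _ => Complex.exp_ne_zero _
  have hode : ∀ z ∈ Str h0, deriv E z = Complex.I * y z * E z := fun z hz => (hE' z hz).deriv
  -- near `0`
  have hθq : ∀ᶠ z in 𝓝 (0 : ℂ), θ z = Tc q z := hS.mono fun z hz => X.θ_eq z hz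
  have hEq : ∀ᶠ z in 𝓝 (0 : ℂ), E z = Complex.exp (Complex.I * Tc q z) :=
    hθq.mono fun z hz => by simp only [hEdef, hz]
  have hyq : ∀ᶠ z in 𝓝 (0 : ℂ), y z = Complex.exp (q z) := by
    filter_upwards [hθq.eventually_nhds, hS] with z hz hzS
    have h1 : θ =ᶠ[𝓝 z] Tc q := hz
    rw [hydef, h1.deriv_eq]
    exact (D.hasDerivAt_Tc hzS).deriv
  have hHq : ∀ᶠ z in 𝓝 (0 : ℂ), H z = Hc q z := hS.mono fun z hz => X.H_eq z hz
  -- the relation
  obtain ⟨P', hP', hPP⟩ := swap_rel hP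
  have hrel' : ∀ᶠ z in 𝓝 (0 : ℂ), MvPolynomial.eval ![Zs q 1 z, Zs q (-1) z] P' = 0 := by
    filter_upwards [hPrel] with z hz
    rw [hPP]
    exact hz
  obtain ⟨Q, hQ, hQrel⟩ := AlgS151.alg_datum D hU hc h₀ hE hy hEq hyq hP' hrel'
  have hy00 : y 0 ≠ 0 := by
    rw [hyq.self_of_nhds]
    exact Complex.exp_ne_zero _
  -- Painlevé
  obtain ⟨j, k, k', r', g, e, hj, hr', hrj, hPy, hPE⟩ := Pain416.pain hh hy hE hE0 hode hQ hQrel
    ⟨0, h₀, hy00⟩ hs
  obtain ⟨Y, hYm, hY⟩ := unif hr' hPy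
  obtain ⟨G, hGm, hG⟩ := unif hr' hPE
  -- `H` is rational in `E`, `y`
  have han : ∀ s : ℂ, MeromorphicAt (Zs q s) 0 := fun s =>
    ((D.Zs_diff s).analyticAt
      ((T7C151.isOpen_Str η).mem_nhds (T7C151.zero_mem_Str hη))).meromorphicAt
  have hya : AnalyticAt ℂ y 0 := hy.analyticAt (hU.mem_nhds h₀)
  have hEa : AnalyticAt ℂ E 0 := hE.analyticAt (hU.mem_nhds h₀)
  obtain ⟨A, C, hC, hAC⟩ := AlgR151.rat_fun (z₀ := 0) (han 1) (han (-1)) hEa.meromorphicAt
    hya.meromorphicAt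
    (Filter.Eventually.frequently (Filter.Eventually.of_forall fun z => Complex.exp_ne_zero _))
    (Filter.Eventually.frequently
      ((hya.continuousAt.eventually_ne hy00).filter_mono nhdsWithin_le_nhds))
    (by
      refine Filter.Eventually.filter_mono nhdsWithin_le_nhds ?_
      filter_upwards [hEq, hyq, hS] with z h1 h2 h3
      rw [(D.hasDerivAt_Zs 1 h3).deriv, h1, h2, C0.vel, ← Complex.exp_nat_mul, ← Complex.exp_sub]
      congr 1
      push_cast
      ring)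
    (by
      refine Filter.Eventually.filter_mono nhdsWithin_le_nhds ?_
      filter_upwards [hEq, hyq, hS] with z h1 h2 h3
      rw [(D.hasDerivAt_Zs (-1) h3).deriv, h1, h2, C0.vel, ← Complex.exp_nat_mul,
        ← Complex.exp_add, one_div, ← Complex.exp_neg]
      congr 1
      push_cast
      ring)
    (by
      refine Filter.Eventually.filter_mono nhdsWithin_le_nhds ?_
      filter_upwards [hU.mem_nhds h₀] with z hz
      exact hode z hz)
    hP' (hrel'.filter_mono nhdsWithin_le_nhds)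
  -- `C(E, y) H = A(E, y)` on the strip
  have hCH : EqOn (fun z => MvPolynomial.eval ![E z, y z] C * H z)
      (fun z => MvPolynomial.eval ![E z, y z] A) (Str h0) := by
    refine AnalyticOnNhd.eqOn_of_preconnected_of_frequently_eq
      (((AlgS151.eval_diffOn hE hy C).mul X.H_diff).analyticOnNhd hU)
      ((AlgS151.eval_diffOn hE hy A).analyticOnNhd hU) hc h₀ ?_
    refine Filter.Eventually.frequently ?_
    filter_upwards [hAC, hθq.filter_mono nhdsWithin_le_nhds,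
      hHq.filter_mono nhdsWithin_le_nhds] with z h1 h2 h3
    rw [← h1, h3, Hc]
    simp only [hEdef, h2, Complex.exp_neg]
  refine ⟨j, hj, G, fun u => MvPolynomial.eval ![G u, Y u] A / MvPolynomial.eval ![G u, Y u] C,
    hGm, (mero_eval hGm hYm A).div (mero_eval hGm hYm C), ?_⟩
  -- the uniformizer tends to `0`
  have hj' : 0 < (1 / (j : ℂ)).re := by
    rw [one_div, ← Complex.ofReal_natCast, ← Complex.ofReal_inv, Complex.ofReal_re]
    exact inv_pos.2 (by exact_mod_cast hj)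
  set u : ℂ → ℂ := fun z => (Complex.I * (z - s)) ^ (1 / (j : ℂ)) with hu
  have hu0 : Tendsto u (𝓝 s) (𝓝 0) := by
    have h1 : ContinuousAt (fun x : ℂ => x ^ (1 / (j : ℂ))) 0 :=
      Complex.continuousAt_cpow_const_of_re_pos (Or.inl (by simp)) hj'
    have h2 : Tendsto (fun z : ℂ => Complex.I * (z - s)) (𝓝 s) (𝓝 0) := by
      have : ContinuousAt (fun z : ℂ => Complex.I * (z - s)) s := by fun_prop
      simpa using this.tendsto
    have h3 : (0 : ℂ) ^ (1 / (j : ℂ)) = 0 := by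
      rw [Complex.zero_cpow]
      intro h
      rw [h] at hj'
      simp at hj'
    have h4 := h1.tendsto.comp h2
    rw [h3] at h4
    exact h4
  have hune : ∀ z, z ≠ s → u z ≠ 0 := by
    intro z hz h
    rw [hu] at h
    simp only at h
    rw [Complex.cpow_eq_zero_iff] at h
    exact (mul_ne_zero Complex.I_ne_zero (sub_ne_zero.2 hz)) h.1
  have hball : ∀ᶠ z in 𝓝 s, z ∈ ball s (r' ^ j) := ball_mem_nhds s (pow_pos hr' j)
  have hmem : ∀ z, z ∈ ball s (r' ^ j) → |z.im| < h0 → z ∈ Pain416.HD s (r' ^ j) := by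
    intro z h1 h2
    refine ⟨h1, ?_⟩
    change z.im < s.im
    rw [hs]
    exact (abs_lt.1 h2).2
  -- `C(G, Y)` does not vanish near `0`
  have hCne : ∀ᶠ w in 𝓝[≠] (0 : ℂ), MvPolynomial.eval ![G w, Y w] C ≠ 0 := by
    rcases (mero_eval hGm hYm C).eventually_eq_zero_or_eventually_ne_zero with h | h
    · exfalso
      -- then `C(E, y) = 0` near `s` in the strip
      have h1 : ∀ᶠ z in 𝓝 s, z ≠ s → MvPolynomial.eval ![G (u z), Y (u z)] C = 0 := by
        have h2 : ∀ᶠ w in 𝓝 (0 : ℂ), w ≠ 0 → MvPolynomial.eval ![G w, Y w] C = 0 :=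
          eventually_nhdsWithin_iff.1 h
        filter_upwards [hu0.eventually h2] with z hz hzs
        exact hz (hune z hzs)
      obtain ⟨ε, hε, hεb⟩ := Metric.eventually_nhds_iff_ball.1 (h1.and hball)
      -- a point of the strip near `s`
      set δ : ℝ := min (ε / 2) (h0 / 2) with hδ
      have hδ0 : 0 < δ := lt_min (by linarith) (by linarith)
      set z1 : ℂ := s - δ * Complex.I with hz1
      have him : z1.im = h0 - δ := by simp [hz1, hs]
      have hz1S : z1 ∈ Str h0 := by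
        change |z1.im| < h0
        rw [him, abs_lt]
        have : δ ≤ h0 / 2 := min_le_right _ _
        constructor <;> linarith
      have hz1b : z1 ∈ ball s ε := by
        rw [mem_ball, dist_eq_norm]
        have : z1 - s = -(δ * Complex.I) := by rw [hz1]; ring
        rw [this, norm_neg, norm_mul, Complex.norm_I, mul_one, Complex.norm_real,
          Real.norm_of_nonneg hδ0.le]
        have : δ ≤ ε / 2 := min_le_left _ _
        linarith
      have h5 : ∀ᶠ z in 𝓝 z1, MvPolynomial.eval ![E z, y z] C = 0 := by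
        filter_upwards [isOpen_ball.mem_nhds hz1b, hU.mem_nhds hz1S] with z h6 h7
        have h8 := hmem z (hεb z h6).2 h7
        have h9 : z ≠ s := by
          rintro rfl
          exact lt_irrefl _ (show z.im < z.im from h8.2)
        have h10 := (hεb z h6).1 h9
        rw [← hG z h8, ← hY z h8]
        exact h10
      have h6 := AlgS151.rel_on hU hc hz1S hE hy (h5.filter_mono nhdsWithin_le_nhds)
      refine hC ?_
      refine Filter.Eventually.filter_mono nhdsWithin_le_nhds ?_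
      filter_upwards [hU.mem_nhds h₀] with z hz
      exact not_not.2 (h6 z hz)
    · exact h
  have h2 : ∀ᶠ w in 𝓝 (0 : ℂ), w ≠ 0 → MvPolynomial.eval ![G w, Y w] C ≠ 0 :=
    eventually_nhdsWithin_iff.1 hCne
  filter_upwards [hball, hu0.eventually h2] with z h3 h4 h5
  have h6 := hmem z h3 h5
  have h9 : z ≠ s := by
    rintro rfl
    exact lt_irrefl _ (show z.im < z.im from h6.2)
  have h7 := h4 (hune z h9)
  have h8 := hCH (show z ∈ Str h0 from h5)
  simp only at h8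
  refine ⟨hG z h6, ?_⟩
  change MvPolynomial.eval ![G (u z), Y (u z)] A / MvPolynomial.eval ![G (u z), Y (u z)] C = H z
  rw [div_eq_iff h7]
  have hGz : G (u z) = E z := hG z h6
  have hYz : Y (u z) = y z := hY z h6
  rw [hGz, hYz, ← h8]
  ring

end Crest.Agent.R102.Pui714

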