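import Crest.Agent.R102.MelDefs_490
import Crest.Agent.R102.Solve_39

/-!
Row 102, [T5] MEL (helper490's strip proof), leaf ML-EF: `ExtF` from `PAn` and `RLimF` (helper39).
-/

set_option autoImplicit false

namespace Crest.Agent.R102.ExtF39

open Complex Set Filter Topology Metric
open Crest.Agent.R102.T5R Crest.Agent.R102.Mel

noncomputable section

theorem isOpen_Sg (κ : ℝ) : IsOpen (Sg κ) := by
  have h1 : IsOpen {τ : ℂ | τ ≠ 0} := isOpen_ne
  have h2 : IsOpen {τ : ℂ | ‖τ‖ < 1} := isOpen_lt continuous_norm continuous_const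
  have h3 : IsOpen {τ : ℂ | τ.im < κ * ‖τ‖} := isOpen_lt continuous_im (by fun_prop)
  exact h1.inter (h2.inter h3)

/-- scaled half disc of labels -/
def Hp (N : ℝ) : Set ℂ := {ξ | 1 / 16 < ξ.re ∧ ‖ξ‖ < N}


theorem convex_Hp (N : ℝ) : Convex ℝ (Hp N) := by
  have h1 : Convex ℝ {s : ℂ | 1 / 16 < s.re} := convex_halfSpace_re_gt _
  have h2 : Convex ℝ {s : ℂ | ‖s‖ < N} := by
    have : {s : ℂ | ‖s‖ < N} = ball 0 N := by
      ext s
      rw [mem_ball_zero_iff]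
      rfl
    rw [this]
    exact convex_ball 0 N
  exact h1.inter h2

/-- the scale `w = - i l` -/
def lam (l : ℝ) : ℂ := -I * (l : ℂ)

theorem norm_lam {l : ℝ} (hl : 0 < l) : ‖lam l‖ = l := by
  rw [lam, norm_mul, norm_neg, norm_I, one_mul, norm_real, Real.norm_eq_abs, abs_of_pos hl]

theorem lam_ne {l : ℝ} (hl : 0 < l) : lam l ≠ 0 := by
  rw [← norm_pos_iff, norm_lam hl]
  exact hl

theorem lam_im (l : ℝ) (ξ : ℂ) : (lam l * ξ).im = -(l * ξ.re) := by
  simp [lam, mul_im]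

theorem re_pos_ne {ξ : ℂ} (h : 0 < ξ.re) : ξ ≠ 0 := by
  rintro rfl
  simp at h

theorem lam_mem {κ l N : ℝ} (hκ : 0 < κ) (hl : 0 < l) (hlN : l * N < 1) {ξ : ℂ} (h1 : 0 < ξ.re)
    (h2 : ‖ξ‖ ≤ N) : lam l * ξ ∈ Sg κ := by
  have hξ := re_pos_ne h1
  refine ⟨mul_ne_zero (lam_ne hl) hξ, ?_, ?_⟩
  · rw [norm_mul, norm_lam hl]
    nlinarith [norm_nonneg ξ]
  · rw [lam_im, norm_mul, norm_lam hl]
    have : 0 < l * ξ.re := mul_pos hl h1
    have : 0 < κ * (l * ‖ξ‖) := mul_pos hκ (mul_pos hl (norm_pos_iff.mpr hξ))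
    linarith

theorem adm_of {κ l N : ℝ} (hκ : 0 < κ) (hl : 0 < l) (hlN : l * N < 1) {ξ η : ℂ}
    (hξ : ξ ∈ Hp N) (hη : η ∈ Hp N) : Adm κ (16 * N) (lam l * ξ) (lam l * η) := by
  intro u hu
  have hN : 0 < N := (norm_nonneg ξ).trans_lt hξ.2
  set ζ : ℂ := ξ + (u : ℂ) * (η - ξ) with hζ
  have hζm : ζ ∈ Hp N := by
    have := (convex_Hp N) hξ hη (a := 1 - u) (b := u) (by linarith [hu.2]) hu.1 (by ring)
    have e : (1 - u) • ξ + u • η = ζ := by
      rw [hζ, real_smul, real_smul]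
      push_cast
      ring
    rwa [e] at this
  have e : lam l * ξ + u * (lam l * η - lam l * ξ) = lam l * ζ := by rw [hζ]; ring
  rw [e]
  have hr1 : 1 / 16 < ‖ζ‖ := lt_of_lt_of_le hζm.1 (re_le_norm ζ)
  have hr2 : 1 / 16 < ‖ξ‖ := lt_of_lt_of_le hξ.1 (re_le_norm ξ)
  refine ⟨lam_mem hκ hl hlN (by linarith [hζm.1]) hζm.2.le, ?_, ?_⟩
  · rw [norm_mul, norm_mul, norm_lam hl]
    have : ‖ξ‖ ≤ 16 * N * ‖ζ‖ := by nlinarith [hξ.2]
    nlinarith
  · rw [norm_mul, norm_mul, norm_lam hl]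
    have : ‖ζ‖ ≤ 16 * N * ‖ξ‖ := by nlinarith [hζm.2]
    nlinarith

/-- `e^{q}` is bounded at a flat end with `c ≥ 0`, on the scaled half disc. -/
theorem expq_bound {κ c β C : ℝ} {q : ℂ → ℂ} (hq : EndQ κ c β C q) (hc : 0 ≤ c) {N : ℝ}
    (hN : 1 ≤ N) : ∃ C₁ l₁ : ℝ, 0 < C₁ ∧ 0 < l₁ ∧ l₁ * N < 1 ∧ ∀ l : ℝ, 0 < l → l ≤ l₁ →
      ∀ ξ ∈ Hp N, ‖Complex.exp (q (lam l * ξ))‖ ≤ C₁ := by
  set l₁ : ℝ := 1 / (2 * N) with hl₁
  have hl₁0 : 0 < l₁ := by positivity
  have hl₁N : l₁ * N < 1 := by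
    rw [hl₁]
    field_simp
    norm_num
  have hβ := hq.β_pos
  have hκ := hq.κ_pos
  have hC : 0 ≤ C := by
    have h1 : lam l₁ * 1 ∈ Sg κ := lam_mem hκ hl₁0 hl₁N (by simp) (by simpa using hN)
    have h2 := (norm_nonneg _).trans (hq.asym _ h1)
    have h3 : 0 < ‖lam l₁ * 1‖ ^ (β - 1) := by
      apply Real.rpow_pos_of_pos
      rw [norm_pos_iff]
      exact h1.1
    by_contra hneg
    push Not at hneg
    have := mul_neg_of_neg_of_pos hneg h3
    linarith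
  -- compact set
  set Kc : Set ℂ := {ξ | 1 / 16 ≤ ξ.re} ∩ closedBall 0 N with hKc
  have hKcc : IsCompact Kc := (isCompact_closedBall (0 : ℂ) N).inter_left
    (isClosed_le continuous_const continuous_re)
  have hcont : ContinuousOn (fun ξ => ‖Complex.exp (q (lam l₁ * ξ))‖) Kc := by
    apply ContinuousOn.norm
    apply Continuous.comp_continuousOn Complex.continuous_exp
    apply hq.diff.continuousOn.comp (by fun_prop)
    rintro ξ ⟨h1, h2⟩
    rw [mem_closedBall_zero_iff] at h2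
    change 1 / 16 ≤ ξ.re at h1
    exact lam_mem hκ hl₁0 hl₁N (by linarith) h2
  obtain ⟨C₀, hC₀⟩ := hKcc.bddAbove_image hcont
  have hC₀' : ∀ ξ ∈ Kc, ‖Complex.exp (q (lam l₁ * ξ))‖ ≤ C₀ := fun ξ hξ =>
    hC₀ (mem_image_of_mem _ hξ)
  set A : ℝ := C * N ^ β / β with hA
  have hA0 : 0 ≤ A := by positivity
  refine ⟨max 1 (C₀ * Real.exp (A * l₁ ^ β)), l₁, by positivity, hl₁0, hl₁N, ?_⟩
  intro l hl hll ξ hξ
  have hξre : 0 < ξ.re := by linarith [hξ.1]
  have hξ0 : ξ ≠ 0 := re_pos_ne hξre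
  have hmem : ∀ x ∈ Ioc (0 : ℝ) l₁, lam x * ξ ∈ Sg κ := by
    intro x hx
    exact lam_mem hκ hx.1 (by nlinarith [hx.2]) hξre hξ.2.le
  set g : ℝ → ℝ := fun x => (q (lam x * ξ)).re + A * x ^ β with hg
  have hder : ∀ x ∈ Ioc (0 : ℝ) l₁, HasDerivAt g
      ((deriv q (lam x * ξ) * (-I * ξ)).re + A * (β * x ^ (β - 1))) x := by
    intro x hx
    have hqd : HasDerivAt q (deriv q (lam x * ξ)) (lam x * ξ) :=
      (hq.diff.differentiableAt ((isOpen_Sg κ).mem_nhds (hmem x hx))).hasDerivAt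
    have h1 : HasDerivAt (fun y : ℝ => lam y * ξ) (-I * ξ) x := by
      have h2 : HasDerivAt (fun y : ℝ => (y : ℂ)) 1 x := by
        simpa using (hasDerivAt_id x).ofReal_comp
      have h3 := (h2.const_mul (-I)).mul_const ξ
      refine h3.congr_deriv (by ring)
    have h4 : HasDerivAt (fun y : ℝ => q (lam y * ξ)) (deriv q (lam x * ξ) * (-I * ξ)) x :=
      hqd.comp x h1
    have h5 : HasDerivAt (fun y : ℝ => (q (lam y * ξ)).re) (deriv q (lam x * ξ) * (-I * ξ)).re x := by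
      exact (reCLM.hasFDerivAt (x := q (lam x * ξ))).comp_hasDerivAt x h4
    have h6 : HasDerivAt (fun y : ℝ => A * y ^ β) (A * (β * x ^ (β - 1))) x :=
      (Real.hasDerivAt_rpow_const (Or.inl hx.1.ne')).const_mul A
    exact h5.add h6
  have hmono : MonotoneOn g (Ioc 0 l₁) := by
    apply monotoneOn_of_deriv_nonneg (convex_Ioc 0 l₁)
    · intro x hx
      exact (hder x hx).continuousAt.continuousWithinAt
    · intro x hx
      rw [interior_Ioc] at hx
      exact (hder x ⟨hx.1, hx.2.le⟩).differentiableAt.differentiableWithinAt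
    · intro x hx
      rw [interior_Ioc] at hx
      have hx' : x ∈ Ioc (0 : ℝ) l₁ := ⟨hx.1, hx.2.le⟩
      rw [(hder x hx').deriv]
      have hx0 := hx.1
      have ha := hq.asym _ (hmem x hx')
      have hlx := lam_ne hx0
      -- deriv q * (-I ξ) = c/x + (deriv q - c/τ)(-I ξ)
      have e1 : deriv q (lam x * ξ) * (-I * ξ) = ((c / x : ℝ) : ℂ) +
          (deriv q (lam x * ξ) - c / (lam x * ξ)) * (-I * ξ) := by
        have hxc : (x : ℂ) ≠ 0 := by exact_mod_cast hx0.ne'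
        have : (c : ℂ) / (lam x * ξ) * (-I * ξ) = ((c / x : ℝ) : ℂ) := by
          rw [lam]
          push_cast
          field_simp
        rw [sub_mul, this]
        ring
      have e2 : ‖(deriv q (lam x * ξ) - c / (lam x * ξ)) * (-I * ξ)‖ ≤ C * N ^ β * x ^ (β - 1) := by
        rw [norm_mul, norm_mul, norm_neg, norm_I, one_mul]
        have h7 : ‖lam x * ξ‖ = x * ‖ξ‖ := by rw [norm_mul, norm_lam hx0]
        rw [h7, Real.mul_rpow hx0.le (norm_nonneg ξ)] at ha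
        have hξn : 0 < ‖ξ‖ := norm_pos_iff.mpr hξ0
        calc ‖deriv q (lam x * ξ) - c / (lam x * ξ)‖ * ‖ξ‖
            ≤ (C * (x ^ (β - 1) * ‖ξ‖ ^ (β - 1))) * ‖ξ‖ := by gcongr
          _ = C * x ^ (β - 1) * ‖ξ‖ ^ β := by
              rw [Real.rpow_sub_one hξn.ne']
              field_simp
          _ ≤ C * x ^ (β - 1) * N ^ β := by
              gcongr
              exact hξ.2.le
          _ = C * N ^ β * x ^ (β - 1) := by ring
      have e3 := abs_le.mp (abs_re_le_norm ((deriv q (lam x * ξ) - c / (lam x * ξ)) * (-I * ξ)))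
      rw [e1, add_re, ofReal_re]
      have e4 : A * (β * x ^ (β - 1)) = C * N ^ β * x ^ (β - 1) := by
        rw [hA]
        field_simp
      have e5 : 0 ≤ c / x := by positivity
      rw [e4]
      linarith [e3.1]
  have hgg := hmono ⟨hl, hll⟩ ⟨hl₁0, le_rfl⟩ hll
  simp only [hg] at hgg
  have h8 : (q (lam l * ξ)).re ≤ (q (lam l₁ * ξ)).re + A * l₁ ^ β := by
    have : 0 ≤ A * l ^ β := by positivity
    linarith
  rw [Complex.norm_exp]
  refine le_trans ?_ (le_max_right _ _)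
  have hξK : ξ ∈ Kc := by
    refine ⟨?_, ?_⟩
    · change 1 / 16 ≤ ξ.re
      linarith [hξ.1]
    · rw [mem_closedBall_zero_iff]; exact hξ.2.le
  have h9 := hC₀' ξ hξK
  rw [Complex.norm_exp] at h9
  calc Real.exp (q (lam l * ξ)).re ≤ Real.exp ((q (lam l₁ * ξ)).re + A * l₁ ^ β) := by
        exact Real.exp_le_exp.mpr h8
    _ = Real.exp (q (lam l₁ * ξ)).re * Real.exp (A * l₁ ^ β) := Real.exp_add _ _
    _ ≤ C₀ * Real.exp (A * l₁ ^ β) := by gcongr

/-- normalised slope -/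
def kap (q : ℂ → ℂ) (l : ℝ) (ξ : ℂ) : ℂ := I * Complex.exp (q (lam l * ξ)) * lam l

def rho (q : ℂ → ℂ) (l : ℝ) (ξ η : ℂ) : ℂ :=
  (Rj q I (lam l * ξ) (lam l * η) - 1) / kap q l ξ

theorem kap_ne (q : ℂ → ℂ) {l : ℝ} (hl : 0 < l) (ξ : ℂ) : kap q l ξ ≠ 0 :=
  mul_ne_zero (mul_ne_zero I_ne_zero (Complex.exp_ne_zero _)) (lam_ne hl)

theorem norm_kap (q : ℂ → ℂ) {l : ℝ} (hl : 0 < l) (ξ : ℂ) :
    ‖kap q l ξ‖ = ‖Complex.exp (q (lam l * ξ))‖ * l := by
  rw [kap, norm_mul, norm_mul, norm_I, one_mul, norm_lam hl]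

theorem rho_close (hR : RLimF) {κ c β C : ℝ} {q : ℂ → ℂ} (hc : c = 0 ∨ c = 1)
    (hq : EndQ κ c β C q) {N : ℝ} (hN : 1 ≤ N) {ε : ℝ} (hε : 0 < ε) :
    ∃ l₁ : ℝ, 0 < l₁ ∧ l₁ * N < 1 ∧ ∀ l : ℝ, 0 < l → l < l₁ → ∀ ξ ∈ Hp N, ∀ η ∈ Hp N,
      Pj q I (lam l * ξ) (lam l * η) ≠ 0 ∧ Pj q (-I) (lam l * ξ) (lam l * η) ≠ 0 ∧
      ‖rho q l ξ η - (η - ξ)‖ ≤ ε := by
  have hκ := hq.κ_pos
  obtain ⟨δ₁, hδ₁, h₁⟩ := hR κ c β C q I hc (Or.inl rfl) hq (16 * N) (ε / N) (by linarith)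
    (by positivity)
  obtain ⟨δ₂, hδ₂, h₂⟩ := hR κ c β C q (-I) hc (Or.inr rfl) hq (16 * N) (ε / N) (by linarith)
    (by positivity)
  refine ⟨min (1 / (2 * N)) (min (δ₁ / N) (δ₂ / N)), by positivity, ?_, ?_⟩
  · calc min (1 / (2 * N)) (min (δ₁ / N) (δ₂ / N)) * N ≤ 1 / (2 * N) * N := by
          gcongr
          exact min_le_left _ _
      _ = 1 / 2 := by field_simp
      _ < 1 := by norm_num
  · intro l hl hll ξ hξ η hη
    have hl1 : l < 1 / (2 * N) := hll.trans_le (min_le_left _ _)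
    have hl2 : l < δ₁ / N := hll.trans_le ((min_le_right _ _).trans (min_le_left _ _))
    have hl3 : l < δ₂ / N := hll.trans_le ((min_le_right _ _).trans (min_le_right _ _))
    have hlN : l * N < 1 := by
      calc l * N < 1 / (2 * N) * N := by gcongr
        _ = 1 / 2 := by field_simp
        _ < 1 := by norm_num
    have hadm := adm_of hκ hl hlN hξ hη
    have hx : ‖lam l * ξ‖ = l * ‖ξ‖ := by rw [norm_mul, norm_lam hl]
    have hxN : ‖lam l * ξ‖ < l * N := by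
      rw [hx]
      exact mul_lt_mul_of_pos_left hξ.2 hl
    have hd1 : ‖lam l * ξ‖ < δ₁ := hxN.trans ((lt_div_iff₀ (by linarith)).mp hl2)
    have hd2 : ‖lam l * ξ‖ < δ₂ := hxN.trans ((lt_div_iff₀ (by linarith)).mp hl3)
    obtain ⟨a1, a2⟩ := h₁ _ _ hadm hd1
    obtain ⟨b1, _⟩ := h₂ _ _ hadm hd2
    refine ⟨a1, b1, ?_⟩
    have hk := kap_ne q hl ξ
    have e : rho q l ξ η - (η - ξ) = (Rj q I (lam l * ξ) (lam l * η) - 1 -
        I * Complex.exp (q (lam l * ξ)) * (lam l * η - lam l * ξ)) / kap q l ξ := by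
      rw [rho, eq_div_iff hk, sub_mul, div_mul_cancel₀ _ hk, kap]
      ring
    rw [e, norm_div, div_le_iff₀ (norm_pos_iff.mpr hk)]
    refine a2.trans ?_
    rw [norm_kap q hl, hx]
    have hξN : ‖ξ‖ ≤ N := hξ.2.le
    have hN0 : 0 < N := by linarith
    calc ε / N * ‖Complex.exp (q (lam l * ξ))‖ * (l * ‖ξ‖)
        ≤ ε / N * ‖Complex.exp (q (lam l * ξ))‖ * (l * N) := by gcongr
      _ = ε * (‖Complex.exp (q (lam l * ξ))‖ * l) := by field_simp

theorem comp_scale {g : ℂ × ℂ → ℂ} {a ξ η : ℂ} (h : DifferentiableAt ℂ g (a * ξ, a * η)) :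
    DifferentiableAt ℂ (fun p : ℂ × ℂ => g (a * p.1, a * p.2)) (ξ, η) := by
  have h2 : DifferentiableAt ℂ (fun p : ℂ × ℂ => (a * p.1, a * p.2)) (ξ, η) := by fun_prop
  exact DifferentiableAt.comp (ξ, η) (g := g) h h2

theorem comp_scale1 {g : ℂ → ℂ} {a ξ η : ℂ} (h : DifferentiableAt ℂ g (a * ξ)) :
    DifferentiableAt ℂ (fun p : ℂ × ℂ => g (a * p.1)) (ξ, η) := by
  have h2 : DifferentiableAt ℂ (fun p : ℂ × ℂ => a * p.1) (ξ, η) := by fun_prop
  exact DifferentiableAt.comp (ξ, η) (g := g) h h2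

theorem dAt_div {E : Type*} [NormedAddCommGroup E] [NormedSpace ℂ E] {f g : E → ℂ} {x : E}
    (hf : DifferentiableAt ℂ f x) (hg : DifferentiableAt ℂ g x) (h0 : g x ≠ 0) :
    DifferentiableAt ℂ (fun y => f y / g y) x := by
  simp only [div_eq_mul_inv]
  exact hf.mul (hg.inv h0)

/-- joint holomorphy of `rho` -/
theorem rho_diff (hP : PAn) {κ : ℝ} (hκ : 0 < κ) {q : ℂ → ℂ} (hq : DifferentiableOn ℂ q (Sg κ))
    {l N : ℝ} (hl : 0 < l) (hlN : l * N < 1) {ξ η : ℂ} (hξ : ξ ∈ Hp N) (hη : η ∈ Hp N)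
    (hne : Pj q (-I) (lam l * ξ) (lam l * η) ≠ 0) :
    DifferentiableAt ℂ (fun p : ℂ × ℂ => rho q l p.1 p.2) (ξ, η) := by
  have hseg : ∀ u ∈ Icc (0 : ℝ) 1, lam l * ξ + u * (lam l * η - lam l * ξ) ∈ Sg κ :=
    fun u hu => (adm_of hκ hl hlN hξ hη u hu).1
  have hm : ∀ j : ℂ, DifferentiableAt ℂ (fun p : ℂ × ℂ => Pj q j (lam l * p.1) (lam l * p.2))
      (ξ, η) := by
    intro j
    have h1 := (hP κ q j (lam l * ξ) (lam l * η) hq (isOpen_Sg κ) hseg).differentiableAt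
    exact comp_scale h1
  have hqd : DifferentiableAt ℂ (fun p : ℂ × ℂ => q (lam l * p.1)) (ξ, η) := by
    have h1 : DifferentiableAt ℂ q (lam l * ξ) :=
      hq.differentiableAt ((isOpen_Sg κ).mem_nhds
        (lam_mem hκ hl hlN (by linarith [hξ.1]) hξ.2.le))
    exact comp_scale1 h1
  have g1 := (dAt_div (hm I) (hm (-I)) hne).sub_const 1
  have g2 := (hqd.cexp.const_mul I).mul_const (lam l)
  exact dAt_div g1 g2 (kap_ne q hl ξ)

/-- the law in scaled labels -/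
def LawL (q : ℂ → ℂ) (l : ℝ) (ξ₀ ξ₁ ξ₂ : ℂ) : Prop :=
  Rj q I (lam l * ξ₁) (lam l * ξ₀) * Rj q I (lam l * ξ₁) (lam l * ξ₂) = 1

theorem law_iff (q : ℂ → ℂ) {l : ℝ} (hl : 0 < l) (ξ₀ ξ₁ ξ₂ : ℂ) :
    LawL q l ξ₀ ξ₁ ξ₂ ↔
      rho q l ξ₁ ξ₀ + rho q l ξ₁ ξ₂ + kap q l ξ₁ * rho q l ξ₁ ξ₀ * rho q l ξ₁ ξ₂ = 0 := by
  have hk := kap_ne q hl ξ₁
  have e0 : Rj q I (lam l * ξ₁) (lam l * ξ₀) = 1 + kap q l ξ₁ * rho q l ξ₁ ξ₀ := by
    rw [rho]
    field_simp
    ring
  have e2 : Rj q I (lam l * ξ₁) (lam l * ξ₂) = 1 + kap q l ξ₁ * rho q l ξ₁ ξ₂ := by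
    rw [rho]
    field_simp
    ring
  rw [LawL, e0, e2]
  constructor
  · intro h
    have : kap q l ξ₁ * (rho q l ξ₁ ξ₀ + rho q l ξ₁ ξ₂ +
        kap q l ξ₁ * rho q l ξ₁ ξ₀ * rho q l ξ₁ ξ₂) = 0 := by linear_combination h
    exact (mul_eq_zero.mp this).resolve_left hk
  · intro h
    linear_combination kap q l ξ₁ * h

/-- smallness of the non linear part at one scale `l` -/
structure Small (q : ℂ → ℂ) (l N η : ℝ) : Prop where
  l_pos : 0 < l
  lN : l * N < 1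
  ne : ∀ ξ ∈ Hp N, ∀ ξ' ∈ Hp N, Pj q (-I) (lam l * ξ) (lam l * ξ') ≠ 0
  close : ∀ ξ ∈ Hp N, ∀ ξ' ∈ Hp N, ‖rho q l ξ ξ' - (ξ' - ξ)‖ ≤ η
  kap : ∀ ξ ∈ Hp N, ‖kap q l ξ‖ ≤ η
  η1 : η ≤ 1 / 4

theorem small_of (hR : RLimF) {κ c β C : ℝ} {q : ℂ → ℂ} (hc : c = 0 ∨ c = 1)
    (hq : EndQ κ c β C q) {N : ℝ} (hN : 1 ≤ N) {η : ℝ} (hη : 0 < η) (hη1 : η ≤ 1 / 4) :
    ∃ l₁ : ℝ, 0 < l₁ ∧ ∀ l : ℝ, 0 < l → l < l₁ → Small q l N η := by
  obtain ⟨l₁, hl₁, hl₁N, h1⟩ := rho_close hR hc hq hN hη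
  have hc0 : 0 ≤ c := by rcases hc with rfl | rfl <;> norm_num
  obtain ⟨C₁, l₂, hC₁, hl₂, hl₂N, h2⟩ := expq_bound hq hc0 hN
  refine ⟨min l₁ (min l₂ (η / C₁)), by positivity, ?_⟩
  intro l hl hll
  have a1 : l < l₁ := hll.trans_le (min_le_left _ _)
  have a2 : l < l₂ := hll.trans_le ((min_le_right _ _).trans (min_le_left _ _))
  have a3 : l < η / C₁ := hll.trans_le ((min_le_right _ _).trans (min_le_right _ _))
  refine ⟨hl, ?_, fun ξ hξ ξ' hξ' => (h1 l hl a1 ξ hξ ξ' hξ').2.1,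
    fun ξ hξ ξ' hξ' => (h1 l hl a1 ξ hξ ξ' hξ').2.2, ?_, hη1⟩
  · have : l * N < l₁ * N := by gcongr
    linarith
  · intro ξ hξ
    rw [norm_kap q hl]
    have := h2 l hl a2.le ξ hξ
    rw [lt_div_iff₀ hC₁] at a3
    calc ‖Complex.exp (q (lam l * ξ))‖ * l ≤ C₁ * l := by gcongr
      _ ≤ η := by linarith

/-- centres of the chords -/
def KK (N : ℝ) : Set ℂ := {s | 9 / 8 < s.re ∧ ‖s‖ < N - 2}

theorem mem_of_Nb {N : ℝ} {v : ℂ × ℂ} (hv : v ∈ Solve39.Nb (KK N) (1 / 256)) :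
    v.1 ∈ Hp N ∧ v.2 ∈ Hp N ∧ (∀ u ∈ ball (0 : ℂ) (1 / 32), 2 * v.1 - v.2 + u ∈ Hp N) ∧
      ‖v.2 - v.1‖ ≤ 5 / 4 := by
  obtain ⟨s, ⟨hs1, hs2⟩, h1, h2⟩ := hv
  have r1 := abs_le.mp (abs_re_le_norm (v.1 - s))
  have r2 := abs_le.mp (abs_re_le_norm (v.2 - (s + 1)))
  rw [sub_re] at r1
  rw [sub_re, add_re, one_re] at r2
  have n1 : ‖v.1‖ ≤ ‖v.1 - s‖ + ‖s‖ := by
    calc ‖v.1‖ = ‖(v.1 - s) + s‖ := by ring_nf
      _ ≤ _ := norm_add_le _ _
  have n2 : ‖v.2‖ ≤ ‖v.2 - (s + 1)‖ + ‖s‖ + 1 := by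
    calc ‖v.2‖ = ‖(v.2 - (s + 1)) + s + 1‖ := by ring_nf
      _ ≤ ‖(v.2 - (s + 1)) + s‖ + ‖(1 : ℂ)‖ := norm_add_le _ _
      _ ≤ ‖v.2 - (s + 1)‖ + ‖s‖ + 1 := by
        rw [norm_one]
        linarith [norm_add_le (v.2 - (s + 1)) s]
  refine ⟨⟨?_, ?_⟩, ⟨?_, ?_⟩, ?_, ?_⟩
  · linarith [r1.1]
  · linarith
  · linarith [r2.1]
  · linarith
  · intro u hu
    rw [mem_ball_zero_iff] at hu
    have r3 := abs_le.mp (abs_re_le_norm u)
    refine ⟨?_, ?_⟩
    · have : (2 * v.1 - v.2 + u).re = 2 * v.1.re - v.2.re + u.re := by simp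
      rw [this]
      linarith [r1.1, r2.2, r3.1]
    · have e : 2 * v.1 - v.2 + u = (v.1 - s) + (v.1 - s) - (v.2 - (s + 1)) + u + s - 1 := by ring
      rw [e]
      have m1 := norm_sub_le ((v.1 - s) + (v.1 - s) - (v.2 - (s + 1)) + u + s) (1 : ℂ)
      have m2 := norm_add_le ((v.1 - s) + (v.1 - s) - (v.2 - (s + 1)) + u) s
      have m3 := norm_add_le ((v.1 - s) + (v.1 - s) - (v.2 - (s + 1))) u
      have m4 := norm_sub_le ((v.1 - s) + (v.1 - s)) (v.2 - (s + 1))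
      have m5 := norm_add_le (v.1 - s) (v.1 - s)
      rw [norm_one] at m1
      linarith
  · have e : v.2 - v.1 = (v.2 - (s + 1)) - (v.1 - s) + 1 := by ring
    rw [e]
    have m1 := norm_add_le ((v.2 - (s + 1)) - (v.1 - s)) (1 : ℂ)
    have m2 := norm_sub_le (v.2 - (s + 1)) (v.1 - s)
    rw [norm_one] at m1
    linarith

theorem comp_a {g : ℂ × ℂ → ℂ} {u : ℂ} {v : ℂ × ℂ}
    (h : DifferentiableAt ℂ g (v.1, 2 * v.1 - v.2 + u)) :
    DifferentiableAt ℂ (fun z : ℂ × (ℂ × ℂ) => g (z.2.1, 2 * z.2.1 - z.2.2 + z.1)) (u, v) := by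
  have g1 : DifferentiableAt ℂ (fun z : ℂ × (ℂ × ℂ) => (z.2.1, 2 * z.2.1 - z.2.2 + z.1)) (u, v) := by
    fun_prop
  exact DifferentiableAt.comp (u, v) (g := g) h g1

theorem comp_b {g : ℂ × ℂ → ℂ} {u : ℂ} {v : ℂ × ℂ} (h : DifferentiableAt ℂ g (v.1, v.2)) :
    DifferentiableAt ℂ (fun z : ℂ × (ℂ × ℂ) => g (z.2.1, z.2.2)) (u, v) := by
  have g1 : DifferentiableAt ℂ (fun z : ℂ × (ℂ × ℂ) => (z.2.1, z.2.2)) (u, v) := by
    fun_prop
  exact DifferentiableAt.comp (u, v) (g := g) h g1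

theorem comp_c {g : ℂ → ℂ} {u : ℂ} {v : ℂ × ℂ} (h : DifferentiableAt ℂ g v.1) :
    DifferentiableAt ℂ (fun z : ℂ × (ℂ × ℂ) => g z.2.1) (u, v) := by
  have g1 : DifferentiableAt ℂ (fun z : ℂ × (ℂ × ℂ) => z.2.1) (u, v) := by
    fun_prop
  exact DifferentiableAt.comp (u, v) (g := g) h g1

/-- the backward operator at one scale -/
theorem back_fixed (hP : PAn) {κ : ℝ} (hκ : 0 < κ) {q : ℂ → ℂ} (hq : DifferentiableOn ℂ q (Sg κ))
    {l N η : ℝ} (hS : Small q l N η) (hη : 6 * η ≤ 1 / 256) :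
    ∃ φ : ℂ × ℂ → ℂ, DifferentiableOn ℂ φ (Solve39.Nb (KK N) (1 / 256)) ∧
      ∀ v ∈ Solve39.Nb (KK N) (1 / 256),
      ‖φ v - (2 * v.1 - v.2)‖ ≤ 6 * η ∧ LawL q l (φ v) v.1 v.2 ∧
      ∀ x : ℂ, ‖x - (2 * v.1 - v.2)‖ < 1 / 64 → LawL q l x v.1 v.2 → x = φ v := by
  have hl := hS.l_pos
  set G : ℂ × (ℂ × ℂ) → ℂ := fun z =>
    -(rho q l z.2.1 (2 * z.2.1 - z.2.2 + z.1) + rho q l z.2.1 z.2.2 +
      kap q l z.2.1 * rho q l z.2.1 (2 * z.2.1 - z.2.2 + z.1) * rho q l z.2.1 z.2.2) with hG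
  have hGd : DifferentiableOn ℂ G (ball (0 : ℂ) (1 / 32) ×ˢ Solve39.Nb (KK N) (1 / 256)) := by
    rintro ⟨u, v⟩ ⟨hu, hv⟩
    obtain ⟨m1, m2, m3, _⟩ := mem_of_Nb hv
    apply DifferentiableAt.differentiableWithinAt
    have m3' := m3 u hu
    have d1 := rho_diff hP hκ hq hl hS.lN m1 m3' (hS.ne _ m1 _ m3')
    have d2 := rho_diff hP hκ hq hl hS.lN m1 m2 (hS.ne _ m1 _ m2)
    have k1 := comp_a d1
    have k2 := comp_b (u := u) d2
    have hqd : DifferentiableAt ℂ (kap q l) v.1 := by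
      have hqd : DifferentiableAt ℂ q (lam l * v.1) :=
        hq.differentiableAt ((isOpen_Sg κ).mem_nhds
          (lam_mem hκ hl hS.lN (by linarith [m1.1]) m1.2.le))
      have h2 : DifferentiableAt ℂ (fun z : ℂ => lam l * z) v.1 := by fun_prop
      have h3 : DifferentiableAt ℂ (fun z : ℂ => q (lam l * z)) v.1 :=
        DifferentiableAt.comp v.1 (g := q) hqd h2
      exact (h3.cexp.const_mul I).mul_const (lam l)
    have k3 := comp_c (u := u) hqd
    exact ((k1.add k2).add ((k3.mul k1).mul k2)).neg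
  have hGb : ∀ u ∈ ball (0 : ℂ) (1 / 32), ∀ v ∈ Solve39.Nb (KK N) (1 / 256),
      ‖G (u, v) + u‖ ≤ 6 * η := by
    intro u hu v hv
    obtain ⟨m1, m2, m3, m4⟩ := mem_of_Nb hv
    have m3' := m3 u hu
    have c1 := hS.close _ m1 _ m3'
    have c2 := hS.close _ m1 _ m2
    have c3 := hS.kap _ m1
    have hη0 : 0 ≤ η := (norm_nonneg _).trans c3
    rw [mem_ball_zero_iff] at hu
    have b2 : ‖rho q l v.1 v.2‖ ≤ 3 / 2 := by
      have := norm_add_le (rho q l v.1 v.2 - (v.2 - v.1)) (v.2 - v.1)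
      rw [sub_add_cancel] at this
      linarith
    have b1 : ‖rho q l v.1 (2 * v.1 - v.2 + u)‖ ≤ 3 / 2 := by
      have n1 := norm_add_le (rho q l v.1 (2 * v.1 - v.2 + u) - (2 * v.1 - v.2 + u - v.1))
        (2 * v.1 - v.2 + u - v.1)
      rw [sub_add_cancel] at n1
      have n2 : ‖2 * v.1 - v.2 + u - v.1‖ ≤ ‖v.2 - v.1‖ + ‖u‖ := by
        have : 2 * v.1 - v.2 + u - v.1 = u - (v.2 - v.1) := by ring
        rw [this]
        linarith [norm_sub_le u (v.2 - v.1)]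
      linarith
    have e : G (u, v) + u = -((rho q l v.1 (2 * v.1 - v.2 + u) - (2 * v.1 - v.2 + u - v.1)) +
        (rho q l v.1 v.2 - (v.2 - v.1)) +
        kap q l v.1 * rho q l v.1 (2 * v.1 - v.2 + u) * rho q l v.1 v.2) := by
      simp only [hG]
      ring
    rw [e, norm_neg]
    have n3 := norm_add_le ((rho q l v.1 (2 * v.1 - v.2 + u) - (2 * v.1 - v.2 + u - v.1)) +
        (rho q l v.1 v.2 - (v.2 - v.1)))
        (kap q l v.1 * rho q l v.1 (2 * v.1 - v.2 + u) * rho q l v.1 v.2)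
    have n4 := norm_add_le (rho q l v.1 (2 * v.1 - v.2 + u) - (2 * v.1 - v.2 + u - v.1))
        (rho q l v.1 v.2 - (v.2 - v.1))
    have n5 : ‖kap q l v.1 * rho q l v.1 (2 * v.1 - v.2 + u) * rho q l v.1 v.2‖
        ≤ η * (3 / 2) * (3 / 2) := by
      rw [norm_mul, norm_mul]
      gcongr
    linarith
  obtain ⟨φ, hφd, hφ⟩ := Solve39.solveA (Solve39.isOpen_Nb (KK N) (1 / 256)) (r := 1 / 32)
    (η := 6 * η) (by norm_num) (by linarith) hGd hGb
  refine ⟨fun v => 2 * v.1 - v.2 + φ v, ?_, ?_⟩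
  · exact (by fun_prop : DifferentiableOn ℂ (fun v : ℂ × ℂ => 2 * v.1 - v.2) _).add hφd
  · intro v hv
    obtain ⟨a1, a2, a3⟩ := hφ v hv
    have hGlaw : ∀ u : ℂ, G (u, v) = 0 ↔ LawL q l (2 * v.1 - v.2 + u) v.1 v.2 := by
      intro u
      rw [law_iff q hl]
      simp only [hG, neg_eq_zero]
    refine ⟨?_, ?_, ?_⟩
    · simpa using a1
    · exact (hGlaw _).mp a2
    · intro x hx hx0
      have hu : x - (2 * v.1 - v.2) ∈ ball (0 : ℂ) (1 / 32 / 2) := by
        rw [mem_ball_zero_iff]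
        linarith
      have h5 := (hGlaw (x - (2 * v.1 - v.2))).mpr (by rw [add_sub_cancel]; exact hx0)
      have h6 := a3 _ hu h5
      simp only
      rw [← h6]
      ring

/-- approximately linear sequences -/
theorem lin_seq {a : ℕ → ℂ} {η : ℝ} (hη : 0 ≤ η) {n : ℕ}
    (h : ∀ k < n, ‖a (k + 2) - 2 * a (k + 1) + a k‖ ≤ η) :
    ∀ k ≤ n + 1, ‖a k - a 0 - k * (a 1 - a 0)‖ ≤ (k : ℝ) ^ 2 * η := by
  -- first differences
  have hd : ∀ k ≤ n, ‖(a (k + 1) - a k) - (a 1 - a 0)‖ ≤ k * η := by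
    intro k
    induction k with
    | zero => intro _; simp
    | succ k ih =>
      intro hk
      have h1 := h k (by omega)
      have h2 := ih (by omega)
      have e : (a (k + 1 + 1) - a (k + 1)) - (a 1 - a 0) =
          (a (k + 2) - 2 * a (k + 1) + a k) + ((a (k + 1) - a k) - (a 1 - a 0)) := by ring
      rw [e]
      refine (norm_add_le _ _).trans ?_
      push_cast
      linarith
  intro k
  induction k with
  | zero => intro _; simp
  | succ k ih =>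
    intro hk
    have h1 := ih (by omega)
    have h2 := hd k (by omega)
    have e : a (k + 1) - a 0 - ((k + 1 : ℕ) : ℂ) * (a 1 - a 0) =
        (a k - a 0 - k * (a 1 - a 0)) + ((a (k + 1) - a k) - (a 1 - a 0)) := by
      push_cast
      ring
    rw [e]
    refine (norm_add_le _ _).trans ?_
    push_cast
    nlinarith [Nat.cast_nonneg (α := ℝ) k]

/-- scaled labels of the family -/
def Xh (X : ℝ → ℂ → ℂ) (l : ℝ) (s : ℂ) : ℂ := X l (lam l * s) / lam l

theorem lam_Xh (X : ℝ → ℂ → ℂ) {l : ℝ} (hl : 0 < l) (s : ℂ) :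
    lam l * Xh X l s = X l (lam l * s) := by
  rw [Xh, mul_div_cancel₀ _ (lam_ne hl)]

theorem mem_WC {κ' cc l : ℝ} (hκ' : 0 < κ') (hcc : 0 < cc) (hl : 0 < l) {s : ℂ} (h1 : 0 < s.re)
    (h2 : 1 / cc < ‖s‖) (h3 : l * ‖s‖ < 1 / 8) : lam l * s ∈ Dl κ' cc l := by
  have hs := re_pos_ne h1
  refine ⟨mul_ne_zero (lam_ne hl) hs, ?_, ?_, ?_⟩
  · rw [norm_mul, norm_lam hl]
    exact h3
  · rw [lam_im, norm_mul, norm_lam hl]
    have a1 : 0 < l * s.re := mul_pos hl h1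
    have a2 : 0 < κ' * (l * ‖s‖) := mul_pos hκ' (mul_pos hl (norm_pos_iff.mpr hs))
    linarith
  · rw [norm_mul, norm_lam hl]
    rw [div_lt_iff₀ hcc] at h2
    nlinarith

theorem isOpen_Dl (κ c l : ℝ) : IsOpen (Dl κ c l) := by
  have h1 : IsOpen {p : ℂ | p ≠ 0} := isOpen_ne
  have h2 : IsOpen {p : ℂ | ‖p‖ < 1 / 8} := isOpen_lt (by fun_prop) continuous_const
  have h3 : IsOpen {p : ℂ | p.im < κ * ‖p‖} :=
    isOpen_lt continuous_im (by fun_prop)
  have h4 : IsOpen {p : ℂ | l < c * ‖p‖} := isOpen_lt (by fun_prop) (by fun_prop)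
  exact h1.inter (h2.inter (h3.inter h4))

section

variable {κ κ' c β C cc CC l₀ : ℝ} {q : ℂ → ℂ} {j : ℂ} {M : ℂ → ℂ} {X : ℝ → ℂ → ℂ}

theorem Xh_near (hS : Side κ κ' c β C cc CC l₀ q j M X) {l : ℝ} (hl : 0 < l) (hl0 : l < l₀) {s : ℂ}
    (h1 : 0 < s.re) (h2 : 1 / cc < ‖s‖) (h3 : l * ‖s‖ < 1 / 8) :
    ‖Xh X l s - s‖ ≤ |CC| / ‖s‖ := by
  have hs := norm_pos_iff.mpr (re_pos_ne h1)
  have h := hS.cone.near l hl hl0 _ (mem_WC hS.κ'_pos hS.cone.c_pos hl h1 h2 h3)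
  have e : Xh X l s - s = (X l (lam l * s) - lam l * s) / lam l := by
    rw [Xh, sub_div, mul_div_cancel_left₀ _ (lam_ne hl)]
  rw [e, norm_div, norm_lam hl, div_le_iff₀ hl]
  refine h.trans ?_
  rw [norm_mul, norm_lam hl]
  have : CC * l ^ 2 / (l * ‖s‖) = CC / ‖s‖ * l := by field_simp
  rw [this]
  have h5 : CC / ‖s‖ ≤ |CC| / ‖s‖ := by
    gcongr
    exact le_abs_self CC
  gcongr

theorem Xh_diff (hS : Side κ κ' c β C cc CC l₀ q j M X) {l : ℝ} (hl : 0 < l) (hl0 : l < l₀) {s : ℂ}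
    (h1 : 0 < s.re) (h2 : 1 / cc < ‖s‖) (h3 : l * ‖s‖ < 1 / 8) :
    DifferentiableAt ℂ (Xh X l) s := by
  have h := (hS.cone.diff l hl hl0).differentiableAt ((isOpen_Dl κ' cc l).mem_nhds
    (mem_WC hS.κ'_pos hS.cone.c_pos hl h1 h2 h3))
  have h4 : DifferentiableAt ℂ (fun s : ℂ => lam l * s) s := by fun_prop
  have h5 : DifferentiableAt ℂ (fun s : ℂ => X l (lam l * s)) s :=
    DifferentiableAt.comp s (g := X l) h h4
  exact h5.div_const _

theorem Xh_law (hS : Side κ κ' c β C cc CC l₀ q j M X) {l : ℝ} (hl : 0 < l) (hl0 : l < l₀) {s : ℂ}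
    (h1 : 0 < s.re) (h2 : 1 / cc < ‖s‖) (h3 : l * (‖s‖ + 2) < 1 / 8) :
    LawL q l (Xh X l s) (Xh X l (s + 1)) (Xh X l (s + 2)) := by
  have hn1 : ‖s‖ ≤ ‖s + 1‖ := by
    rw [Complex.norm_def, Complex.norm_def]
    apply Real.sqrt_le_sqrt
    rw [normSq_apply, normSq_apply]
    simp only [add_re, one_re, add_im, one_im, add_zero]
    nlinarith
  have hn2 : ‖s‖ ≤ ‖s + 2‖ := by
    rw [Complex.norm_def, Complex.norm_def]
    apply Real.sqrt_le_sqrt
    rw [normSq_apply, normSq_apply]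
    simp only [add_re, re_ofNat, add_im, im_ofNat, add_zero]
    nlinarith
  have hu1 : ‖s + 1‖ ≤ ‖s‖ + 1 := by simpa using norm_add_le s 1
  have hu2 : ‖s + 2‖ ≤ ‖s‖ + 2 := by simpa using norm_add_le s 2
  have m0 := mem_WC hS.κ'_pos hS.cone.c_pos hl h1 h2 (by nlinarith)
  have m1 := mem_WC hS.κ'_pos hS.cone.c_pos hl (s := s + 1) (by simp; linarith)
    (h2.trans_le hn1) (by nlinarith)
  have m2 := mem_WC hS.κ'_pos hS.cone.c_pos hl (s := s + 2) (by simp; linarith)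
    (h2.trans_le hn2) (by nlinarith)
  have e0 : lam l * (s + 1) + Complex.I * l = lam l * s := by rw [lam]; ring
  have e2 : lam l * (s + 1) - Complex.I * l = lam l * (s + 2) := by rw [lam]; ring
  have := hS.rlaw l hl hl0 (lam l * (s + 1)) (by rw [e0]; exact m0) m1 (by rw [e2]; exact m2)
  rw [e0, e2] at this
  rw [LawL, lam_Xh X hl, lam_Xh X hl, lam_Xh X hl]
  exact this

/-- constants of the far region -/
structure Far (cc CC R₀ : ℝ) : Prop where
  cc_pos : 0 < cc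
  h1 : 1 / cc < R₀
  h2 : 1024 * |CC| ≤ R₀
  h3 : 8 ≤ R₀

theorem near' (hS : Side κ κ' c β C cc CC l₀ q j M X) {R₀ : ℝ} (hF : Far cc CC R₀) {l : ℝ}
    (hl : 0 < l) (hl0 : l < l₀) {s : ℂ} (h1 : 0 < s.re) (h2 : R₀ < ‖s‖) (h3 : l * ‖s‖ < 1 / 8) :
    ‖Xh X l s - s‖ ≤ 1 / 1024 := by
  refine (Xh_near hS hl hl0 h1 (hF.h1.trans h2) h3).trans ?_
  have := hF.h3
  have := hF.h2
  rw [div_le_div_iff₀ (by linarith) (by norm_num)]
  linarith

theorem mem_Hp {s x : ℂ} {N : ℝ} (h1 : 1 / 8 < s.re) (h2 : ‖s‖ + 1 < N)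
    (h : ‖x - s‖ ≤ 1 / 1024) : x ∈ Hp N := by
  have h3 := abs_le.mp (abs_re_le_norm (x - s))
  rw [sub_re] at h3
  have h4 : ‖x‖ ≤ ‖x - s‖ + ‖s‖ := by
    calc ‖x‖ = ‖(x - s) + s‖ := by ring_nf
      _ ≤ _ := norm_add_le _ _
  exact ⟨by linarith [h3.1], by linarith⟩

theorem approx (hS : Side κ κ' c β C cc CC l₀ q j M X) {R₀ : ℝ} (hF : Far cc CC R₀) {l N η : ℝ}
    (hq : Small q l N η) (hl0 : l < l₀) {s : ℂ} (h1 : 1 / 8 < s.re) (h2 : R₀ < ‖s‖) (h3 : l * (‖s‖ + 2) < 1 / 8)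
    (h4 : ‖s‖ + 3 < N) :
    ‖Xh X l (s + 2) - 2 * Xh X l (s + 1) + Xh X l s‖ ≤ 6 * η := by
  have hl := hq.l_pos
  have hlaw := Xh_law hS hl hl0 (by linarith) (hF.h1.trans h2) h3
  rw [law_iff q hl] at hlaw
  have hn1 : ‖s‖ ≤ ‖s + 1‖ := by
    rw [Complex.norm_def, Complex.norm_def]
    apply Real.sqrt_le_sqrt
    rw [normSq_apply, normSq_apply]
    simp only [add_re, one_re, add_im, one_im, add_zero]
    nlinarith
  have hn2 : ‖s‖ ≤ ‖s + 2‖ := by
    rw [Complex.norm_def, Complex.norm_def]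
    apply Real.sqrt_le_sqrt
    rw [normSq_apply, normSq_apply]
    simp only [add_re, re_ofNat, add_im, im_ofNat, add_zero]
    nlinarith
  have hu1 : ‖s + 1‖ ≤ ‖s‖ + 1 := by simpa using norm_add_le s 1
  have hu2 : ‖s + 2‖ ≤ ‖s‖ + 2 := by simpa using norm_add_le s 2
  have re1 : 1 / 8 < (s + 1).re := by simp; linarith
  have re2 : 1 / 8 < (s + 2).re := by simp; linarith
  have c0 := near' hS hF hl hl0 (by linarith) h2 (by nlinarith)
  have c1 := near' hS hF hl hl0 (s := s + 1) (by linarith) (h2.trans_le hn1) (by nlinarith)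
  have c2 := near' hS hF hl hl0 (s := s + 2) (by linarith) (h2.trans_le hn2) (by nlinarith)
  have m0 : Xh X l s ∈ Hp N := mem_Hp h1 (by linarith) c0
  have m1 : Xh X l (s + 1) ∈ Hp N := mem_Hp re1 (by linarith) c1
  have m2 : Xh X l (s + 2) ∈ Hp N := mem_Hp re2 (by linarith) c2
  generalize Xh X l s = x0 at *
  generalize Xh X l (s + 1) = x1 at *
  generalize Xh X l (s + 2) = x2 at *
  have k0 := hq.close _ m1 _ m0
  have k2 := hq.close _ m1 _ m2
  have k3 := hq.kap _ m1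
  have hη0 : 0 ≤ η := (norm_nonneg _).trans k3
  have hη1 := hq.η1
  have d0 : ‖x0 - x1‖ ≤ 5 / 4 := by
    have : x0 - x1 = (x0 - s) - (x1 - (s + 1)) - 1 := by ring
    rw [this]
    have a1 := norm_sub_le ((x0 - s) - (x1 - (s + 1))) (1 : ℂ)
    have a2 := norm_sub_le (x0 - s) (x1 - (s + 1))
    rw [norm_one] at a1
    linarith
  have d2 : ‖x2 - x1‖ ≤ 5 / 4 := by
    have : x2 - x1 = (x2 - (s + 2)) - (x1 - (s + 1)) + 1 := by ring
    rw [this]
    have a1 := norm_add_le ((x2 - (s + 2)) - (x1 - (s + 1))) (1 : ℂ)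
    have a2 := norm_sub_le (x2 - (s + 2)) (x1 - (s + 1))
    rw [norm_one] at a1
    linarith
  have b0 : ‖rho q l x1 x0‖ ≤ 3 / 2 := by
    have := norm_add_le (rho q l x1 x0 - (x0 - x1)) (x0 - x1)
    rw [sub_add_cancel] at this
    linarith
  have b2 : ‖rho q l x1 x2‖ ≤ 3 / 2 := by
    have := norm_add_le (rho q l x1 x2 - (x2 - x1)) (x2 - x1)
    rw [sub_add_cancel] at this
    linarith
  have e : x2 - 2 * x1 + x0 = -((rho q l x1 x0 - (x0 - x1)) + (rho q l x1 x2 - (x2 - x1)) +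
      kap q l x1 * rho q l x1 x0 * rho q l x1 x2) := by
    linear_combination hlaw
  rw [e, norm_neg]
  have n3 := norm_add_le ((rho q l x1 x0 - (x0 - x1)) + (rho q l x1 x2 - (x2 - x1)))
    (kap q l x1 * rho q l x1 x0 * rho q l x1 x2)
  have n4 := norm_add_le (rho q l x1 x0 - (x0 - x1)) (rho q l x1 x2 - (x2 - x1))
  have n5 : ‖kap q l x1 * rho q l x1 x0 * rho q l x1 x2‖ ≤ η * (3 / 2) * (3 / 2) := by
    rw [norm_mul, norm_mul]
    gcongr
  linarith

/-- the labels converge to the model labels in the far region -/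
theorem D_small (hR : RLimF) (hc : c = 0 ∨ c = 1) (hS : Side κ κ' c β C cc CC l₀ q j M X) {R₀ : ℝ}
    (hF : Far cc CC R₀) (N : ℝ) {err : ℝ} (herr : 0 < err) :
    ∃ l₂ : ℝ, 0 < l₂ ∧ ∀ l : ℝ, 0 < l → l < l₂ → ∀ σ : ℂ, 1 / 8 < σ.re → R₀ < ‖σ‖ → ‖σ‖ < N →
      ‖Xh X l σ - σ‖ ≤ err := by
  obtain ⟨m, hm⟩ := exists_nat_gt (4 * (|CC| + 1) / err)
  obtain ⟨n₂, hn₂⟩ := exists_nat_gt (4 * (m : ℝ) / err + m + 1)
  have hm0 : (0 : ℝ) < m := lt_trans (by positivity) hm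
  have hn0 : (0 : ℝ) < n₂ := lt_trans (by positivity) hn₂
  have hmn : m ≤ n₂ := by
    have : (m : ℝ) < n₂ := by
      have : (0 : ℝ) ≤ 4 * (m : ℝ) / err := by positivity
      linarith
    exact_mod_cast this.le
  set N' : ℝ := max N 1 + n₂ + 5 with hN'
  have hN'1 : 1 ≤ N' := by
    have := le_max_right N 1
    linarith
  set η : ℝ := min (1 / 4) (err / (24 * ((m : ℝ) * n₂ + (m : ℝ) ^ 2 + 1))) with hη
  have hη0 : 0 < η := by positivity
  obtain ⟨l₁, hl₁, h1⟩ := small_of hR hc hS.endq hN'1 hη0 (min_le_left _ _)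
  have hl₀ := hS.cone.l₀_pos
  refine ⟨min (min l₁ l₀) (1 / (16 * N')), by positivity, ?_⟩
  intro l hl hll σ hσ1 hσ2 hσ3
  have a1 : l < l₁ := hll.trans_le ((min_le_left _ _).trans (min_le_left _ _))
  have hl0 : l < l₀ := hll.trans_le ((min_le_left _ _).trans (min_le_right _ _))
  have a2 : l < 1 / (16 * N') := hll.trans_le (min_le_right _ _)
  have hq := h1 l hl a1
  have hlN : l * N' < 1 / 16 := by
    rw [lt_div_iff₀ (by linarith)] at a2
    linarith
  have hNN : N ≤ max N 1 := le_max_left _ _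
  -- the sequence a k = Xh (σ + k)
  have hup : ∀ k : ℕ, ‖σ + k‖ ≤ ‖σ‖ + k := by
    intro k
    have := norm_add_le σ (k : ℂ)
    rwa [Complex.norm_natCast] at this
  have hlow : ∀ k : ℕ, ‖σ‖ ≤ ‖σ + k‖ := by
    intro k
    have hk : (0 : ℝ) ≤ k := Nat.cast_nonneg k
    rw [Complex.norm_def, Complex.norm_def]
    apply Real.sqrt_le_sqrt
    rw [normSq_apply, normSq_apply]
    simp only [add_re, natCast_re, add_im, natCast_im, add_zero]
    nlinarith
  have hre : ∀ k : ℕ, 1 / 8 < (σ + k).re := by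
    intro k
    have hk : (0 : ℝ) ≤ k := Nat.cast_nonneg k
    simp only [add_re, natCast_re]
    linarith
  have hseq := lin_seq (a := fun k : ℕ => Xh X l (σ + k) - (σ + k)) (η := 6 * η) (n := n₂)
    (by positivity) ?_
  · have hD : ∀ k : ℕ, k ≤ n₂ + 1 → ‖Xh X l (σ + k) - (σ + k)‖ ≤ |CC| / ‖σ + k‖ := by
      intro k hk
      have hk' : (k : ℝ) ≤ n₂ + 1 := by exact_mod_cast hk
      apply Xh_near hS hl hl0 (by linarith [hre k]) ((hF.h1.trans hσ2).trans_le (hlow k))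
      have := hup k
      nlinarith
    have hD1 : ∀ k : ℕ, k ≤ n₂ + 1 → ‖Xh X l (σ + k) - (σ + k)‖ ≤ 1 / 1024 := by
      intro k hk
      have hk' : (k : ℝ) ≤ n₂ + 1 := by exact_mod_cast hk
      apply near' hS hF hl hl0 (by linarith [hre k]) (hσ2.trans_le (hlow k))
      have := hup k
      nlinarith
    have s1 := hseq m (by omega)
    have s2 := hseq n₂ (by omega)
    simp only [Nat.cast_zero, add_zero] at s1 s2
    set D0 : ℂ := Xh X l σ - σ with hD0
    set D1 : ℂ := Xh X l (σ + (1 : ℕ)) - (σ + (1 : ℕ)) with hD1'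
    set Dm : ℂ := Xh X l (σ + (m : ℕ)) - (σ + (m : ℕ)) with hDm
    set Dn : ℂ := Xh X l (σ + (n₂ : ℕ)) - (σ + (n₂ : ℕ)) with hDn
    have q0 : ‖D0‖ ≤ 1 / 1024 := by
      have := hD1 0 (by omega)
      simpa using this
    have qn : ‖Dn‖ ≤ 1 / 1024 := hD1 n₂ (by omega)
    have qm : ‖Dm‖ ≤ err / 4 := by
      refine (hD m (by omega)).trans ?_
      have h5 : (m : ℝ) ≤ ‖σ + m‖ := by
        have h6 := Complex.re_le_norm (σ + (m : ℂ))
        simp only [add_re, natCast_re] at h6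
        linarith
      rw [div_lt_iff₀ herr] at hm
      rw [div_le_iff₀ (by linarith)]
      nlinarith
    -- bound of n₂ ‖D1 - D0‖
    have r1 : (n₂ : ℝ) * ‖D1 - D0‖ ≤ 1 + (n₂ : ℝ) ^ 2 * (6 * η) := by
      have e : (n₂ : ℂ) * (D1 - D0) = (Dn - D0) - (Dn - D0 - n₂ * (D1 - D0)) := by ring
      have : ‖(n₂ : ℂ) * (D1 - D0)‖ ≤ ‖Dn - D0‖ + ‖Dn - D0 - n₂ * (D1 - D0)‖ := by
        have h5 := norm_sub_le (Dn - D0) (Dn - D0 - n₂ * (D1 - D0))
        rwa [← e] at h5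
      rw [norm_mul, Complex.norm_natCast] at this
      have h6 := norm_sub_le Dn D0
      linarith
    have r2 : (m : ℝ) * ‖D1 - D0‖ ≤ err / 4 + (m : ℝ) * n₂ * (6 * η) := by
      have h7 : (m : ℝ) * ‖D1 - D0‖ = (m : ℝ) / n₂ * (n₂ * ‖D1 - D0‖) := by field_simp
      rw [h7]
      calc (m : ℝ) / n₂ * (n₂ * ‖D1 - D0‖) ≤ (m : ℝ) / n₂ * (1 + (n₂ : ℝ) ^ 2 * (6 * η)) := by
            gcongr
        _ = (m : ℝ) / n₂ + m * n₂ * (6 * η) := by field_simp
        _ ≤ err / 4 + m * n₂ * (6 * η) := by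
            have : (m : ℝ) / n₂ ≤ err / 4 := by
              rw [div_le_iff₀ hn0]
              have h8 : 4 * (m : ℝ) / err < n₂ := by linarith
              rw [div_lt_iff₀ herr] at h8
              linarith
            linarith
    have r3 : ‖D0‖ ≤ ‖Dm‖ + m * ‖D1 - D0‖ + (m : ℝ) ^ 2 * (6 * η) := by
      have e : D0 = Dm - m * (D1 - D0) - (Dm - D0 - m * (D1 - D0)) := by ring
      calc ‖D0‖ = ‖Dm - m * (D1 - D0) - (Dm - D0 - m * (D1 - D0))‖ := by rw [← e]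
        _ ≤ ‖Dm - m * (D1 - D0)‖ + ‖Dm - D0 - m * (D1 - D0)‖ := norm_sub_le _ _
        _ ≤ ‖Dm‖ + ‖(m : ℂ) * (D1 - D0)‖ + ‖Dm - D0 - m * (D1 - D0)‖ := by
            linarith [norm_sub_le Dm (m * (D1 - D0))]
        _ ≤ _ := by
            rw [norm_mul, Complex.norm_natCast]
            linarith
    have r4 : ((m : ℝ) * n₂ + (m : ℝ) ^ 2) * (6 * η) ≤ err / 4 := by
      have h9 : η ≤ err / (24 * ((m : ℝ) * n₂ + (m : ℝ) ^ 2 + 1)) := min_le_right _ _
      have h10 : 0 < (m : ℝ) * n₂ + (m : ℝ) ^ 2 + 1 := by positivity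
      rw [le_div_iff₀ (by positivity)] at h9
      nlinarith
    linarith
  · intro k hk
    have hk' : (k : ℝ) + 1 ≤ n₂ := by exact_mod_cast hk
    have e : Xh X l (σ + ((k + 2 : ℕ) : ℂ)) - (σ + ((k + 2 : ℕ) : ℂ)) -
        2 * (Xh X l (σ + ((k + 1 : ℕ) : ℂ)) - (σ + ((k + 1 : ℕ) : ℂ))) +
        (Xh X l (σ + (k : ℂ)) - (σ + (k : ℂ))) =
        Xh X l (σ + k + 2) - 2 * Xh X l (σ + k + 1) + Xh X l (σ + k) := by
      have e1 : σ + ((k + 2 : ℕ) : ℂ) = σ + k + 2 := by push_cast; ring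
      have e2 : σ + ((k + 1 : ℕ) : ℂ) = σ + k + 1 := by push_cast; ring
      rw [e1, e2]
      ring
    rw [e]
    have hu := hup k
    apply approx hS hF hq hl0 (hre k) (hσ2.trans_le (hlow k))
    · nlinarith
    · linarith

end

set_option maxHeartbeats 2000000 in
/-- **ML-EF.** -/
theorem extF_of (hP : PAn) (hR : RLimF) : ExtF := by
  intro κ κ' c β C cc CC l₀ q j M X hc hS
  have hcc := hS.cone.c_pos
  have hκ' := hS.κ'_pos
  have hκ := hS.endq.κ_pos
  set R₀ : ℝ := 8 + 8 / cc + 8 / κ' + 1024 * |CC| with hR₀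
  have p1 : 0 < 8 / cc := by positivity
  have p2 : 0 < 8 / κ' := by positivity
  have p3 : 0 ≤ 1024 * |CC| := by positivity
  have hF : Far cc CC R₀ := by
    refine ⟨hcc, ?_, by linarith, by linarith⟩
    have : 8 / cc = 8 * (1 / cc) := by ring
    have h5 : 0 < 1 / cc := by positivity
    linarith
  refine ⟨R₀, by linarith, ?_, ?_, ?_⟩
  · have : cc * (8 / cc) = 8 := by field_simp
    nlinarith
  · have : κ' * (8 / κ') = 8 := by field_simp
    nlinarith
  intro R ε hRR hε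
  have hR8 : 8 ≤ R := by linarith
  obtain ⟨n, hn⟩ := exists_nat_gt (5 * R)
  set N : ℝ := 4 * R + n + 6 with hN
  have hN1 : 1 ≤ N := by linarith
  set ε' : ℝ := min ε (1 / 256) with hε'
  have hε'0 : 0 < ε' := lt_min hε (by norm_num)
  have h3n : (0 : ℝ) < 3 ^ n := by positivity
  have h3n1 : (1 : ℝ) ≤ 3 ^ n := one_le_pow₀ (by norm_num)
  set e₀ : ℝ := ε' / (4 * 3 ^ n) with he₀
  have he₀0 : 0 < e₀ := by positivity
  set η : ℝ := ε' / (12 * 3 ^ n) with hη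
  have hη0 : 0 < η := by positivity
  have hε'1 : ε' ≤ 1 / 256 := min_le_right _ _
  have hη1 : 6 * η ≤ 1 / 256 := by
    have : η ≤ ε' / 12 := by
      rw [hη]
      gcongr
      linarith
    linarith
  have hsum : 3 ^ n * (e₀ + 3 * η) = ε' / 2 := by
    rw [he₀, hη]
    field_simp
    ring
  obtain ⟨l₁, hl₁, h1⟩ := small_of hR hc hS.endq hN1 hη0 (by linarith)
  obtain ⟨l₂, hl₂, h2⟩ := D_small hR hc hS hF N he₀0
  have hl₀ := hS.cone.l₀_pos
  refine ⟨min (min l₁ l₀) (min l₂ (1 / (100 * N))), by positivity,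
    (min_le_left _ _).trans (min_le_right _ _), ?_, ?_⟩
  · calc min (min l₁ l₀) (min l₂ (1 / (100 * N))) * (100 * R) ≤ 1 / (100 * N) * (100 * R) := by
          gcongr
          exact (min_le_right _ _).trans (min_le_right _ _)
      _ < 1 := by
          rw [one_div, inv_mul_lt_iff₀ (by positivity)]
          have : (0 : ℝ) ≤ n := Nat.cast_nonneg n
          linarith
  intro l hl hll
  have a1 : l < l₁ := hll.trans_le ((min_le_left _ _).trans (min_le_left _ _))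
  have hl0 : l < l₀ := hll.trans_le ((min_le_left _ _).trans (min_le_right _ _))
  have a2 : l < l₂ := hll.trans_le ((min_le_right _ _).trans (min_le_left _ _))
  have a3 : l < 1 / (100 * N) := hll.trans_le ((min_le_right _ _).trans (min_le_right _ _))
  have hlN : l * N < 1 / 16 := by
    rw [lt_div_iff₀ (by linarith)] at a3
    linarith
  have hq := h1 l hl a1
  obtain ⟨φ, hφd, hφ⟩ := back_fixed hP hκ hS.endq.diff hq hη1
  set Q : Set ℂ := {s | 1 / 8 < s.re ∧ ‖s‖ < 4 * R} with hQ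
  have hQo : IsOpen Q :=
    (isOpen_lt continuous_const continuous_re).inter (isOpen_lt continuous_norm continuous_const)
  -- the iterates
  set v₀ : ℂ → ℂ × ℂ := fun s => (Xh X l (s + n), Xh X l (s + n + 1)) with hv₀
  let T : ℂ × ℂ → ℂ × ℂ := fun v => (φ v, v.1)
  have hup : ∀ (s : ℂ) (k : ℕ), ‖s + k‖ ≤ ‖s‖ + k := by
    intro s k
    have := norm_add_le s (k : ℂ)
    rwa [Complex.norm_natCast] at this
  have hlow : ∀ (s : ℂ) (k : ℕ), 0 < s.re → ‖s‖ ≤ ‖s + k‖ := by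
    intro s k hs
    have hk : (0 : ℝ) ≤ k := Nat.cast_nonneg k
    rw [Complex.norm_def, Complex.norm_def]
    apply Real.sqrt_le_sqrt
    rw [normSq_apply, normSq_apply]
    simp only [add_re, natCast_re, add_im, natCast_im, add_zero]
    nlinarith
  have hlown : ∀ (s : ℂ) (k : ℕ), 0 < s.re → (k : ℝ) < ‖s + k‖ := by
    intro s k hs
    have h6 := Complex.re_le_norm (s + (k : ℂ))
    simp only [add_re, natCast_re] at h6
    linarith
  have main : ∀ m : ℕ, m ≤ n →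
      DifferentiableOn ℂ (fun s => T^[m] (v₀ s)) Q ∧
      (∀ s ∈ Q, ‖(T^[m] (v₀ s)).1 - (s + (n - m : ℕ))‖ ≤ 3 ^ m * (e₀ + 3 * η) - 3 * η ∧
        ‖(T^[m] (v₀ s)).2 - (s + (n - m : ℕ) + 1)‖ ≤ 3 ^ m * (e₀ + 3 * η) - 3 * η) ∧
      (∀ s ∈ Q, R < ‖s‖ → T^[m] (v₀ s) = (Xh X l (s + (n - m : ℕ)), Xh X l (s + (n - m : ℕ) + 1))) := by
    intro m
    induction m with
    | zero =>
      intro _
      refine ⟨?_, ?_, ?_⟩
      · intro s hs
        obtain ⟨hs1, hs2⟩ := hs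
        apply DifferentiableAt.differentiableWithinAt
        have hk1 : (0 : ℝ) < s.re := by linarith
        have g1 : DifferentiableAt ℂ (Xh X l) (s + n) := by
          apply Xh_diff hS hl hl0
          · simp only [add_re, natCast_re]
            have : (0 : ℝ) ≤ n := Nat.cast_nonneg n
            linarith
          · exact (hF.h1.trans (by linarith)).trans (hlown s n hk1)
          · have := hup s n
            nlinarith
        have g2 : DifferentiableAt ℂ (Xh X l) (s + n + 1) := by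
          apply Xh_diff hS hl hl0
          · simp only [add_re, natCast_re, one_re]
            have : (0 : ℝ) ≤ n := Nat.cast_nonneg n
            linarith
          · have h7 := hlown s (n + 1) hk1
            push_cast at h7
            rw [← add_assoc] at h7
            exact (hF.h1.trans (by linarith)).trans h7
          · have h7 := hup s (n + 1)
            push_cast at h7
            rw [← add_assoc] at h7
            nlinarith
        have g3 : DifferentiableAt ℂ (fun s : ℂ => s + n) s := differentiableAt_id.add_const _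
        have g4 : DifferentiableAt ℂ (fun s : ℂ => s + n + 1) s :=
          (differentiableAt_id.add_const _).add_const _
        exact (DifferentiableAt.comp s g1 g3).prodMk (DifferentiableAt.comp s g2 g4)
      · intro s hs
        obtain ⟨hs1, hs2⟩ := hs
        have hk1 : (0 : ℝ) < s.re := by linarith
        have hn0 : (0 : ℝ) ≤ n := Nat.cast_nonneg n
        simp only [Function.iterate_zero, id_eq, hv₀, pow_zero, one_mul, Nat.sub_zero,
          add_sub_cancel_right]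
        constructor
        · apply h2 l hl a2
          · simp only [add_re, natCast_re]
            linarith
          · have := hlown s n hk1
            linarith
          · have := hup s n
            linarith
        · apply h2 l hl a2
          · simp only [add_re, natCast_re, one_re]
            linarith
          · have h7 := hlown s (n + 1) hk1
            push_cast at h7
            rw [← add_assoc] at h7
            linarith
          · have h7 := hup s (n + 1)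
            push_cast at h7
            rw [← add_assoc] at h7
            linarith
      · intro s hs hsR
        simp [hv₀]
    | succ m ih =>
      intro hm
      obtain ⟨i1, i2, i3⟩ := ih (by omega)
      have hcast : ((n - m : ℕ) : ℂ) = ((n - (m + 1) : ℕ) : ℂ) + 1 := by
        have : n - m = n - (m + 1) + 1 := by omega
        rw [this]
        push_cast
        ring
      have hpow : (3 : ℝ) ^ m ≤ 3 ^ n := pow_le_pow_right₀ (by norm_num) (by omega)
      have hbd : 3 ^ m * (e₀ + 3 * η) - 3 * η < 1 / 256 := by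
        have : 3 ^ m * (e₀ + 3 * η) ≤ 3 ^ n * (e₀ + 3 * η) := by gcongr
        linarith
      have hNb : ∀ s ∈ Q, T^[m] (v₀ s) ∈ Solve39.Nb (KK N) (1 / 256) := by
        intro s hs
        obtain ⟨b1, b2⟩ := i2 s hs
        refine ⟨s + (n - m : ℕ), ⟨?_, ?_⟩, lt_of_le_of_lt b1 hbd, lt_of_le_of_lt b2 hbd⟩
        · have hge : (1 : ℝ) ≤ ((n - m : ℕ) : ℝ) := by
            have : 1 ≤ n - m := by omega
            exact_mod_cast this
          simp only [add_re, natCast_re]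
          linarith [hs.1]
        · have h7 := hup s (n - m)
          have h8 : ((n - m : ℕ) : ℝ) ≤ n := by
            have : n - m ≤ n := by omega
            exact_mod_cast this
          linarith [hs.2]
      have hit : ∀ s, T^[m + 1] (v₀ s) = T (T^[m] (v₀ s)) := fun s =>
        Function.iterate_succ_apply' T m (v₀ s)
      refine ⟨?_, ?_, ?_⟩
      · have : (fun s => T^[m + 1] (v₀ s)) = fun s => (φ (T^[m] (v₀ s)), (T^[m] (v₀ s)).1) := by
          funext s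
          rw [hit]
        rw [this]
        exact (hφd.comp i1 hNb).prodMk i1.fst
      · intro s hs
        obtain ⟨b1, b2⟩ := i2 s hs
        obtain ⟨c1, _, _⟩ := hφ _ (hNb s hs)
        rw [hit]
        simp only [T]
        rw [hcast] at b1 b2
        set v := T^[m] (v₀ s) with hv
        set t : ℂ := s + ((n - (m + 1) : ℕ) : ℂ) with ht
        have et : s + (((n - (m + 1) : ℕ) : ℂ) + 1) = t + 1 := by rw [ht]; ring
        rw [et] at b1 b2
        constructor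
        · have e : φ v - t = (φ v - (2 * v.1 - v.2)) + ((v.1 - (t + 1)) + (v.1 - (t + 1)) -
              (v.2 - (t + 1 + 1))) := by ring
          rw [e]
          have n1 := norm_add_le (φ v - (2 * v.1 - v.2)) ((v.1 - (t + 1)) + (v.1 - (t + 1)) -
              (v.2 - (t + 1 + 1)))
          have n2 := norm_sub_le ((v.1 - (t + 1)) + (v.1 - (t + 1))) (v.2 - (t + 1 + 1))
          have n3 := norm_add_le (v.1 - (t + 1)) (v.1 - (t + 1))
          rw [pow_succ]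
          linarith
        · have hpos : 0 ≤ 3 ^ m * (e₀ + 3 * η) - 3 * η := (norm_nonneg _).trans b1
          rw [pow_succ]
          linarith
      · intro s hs hsR
        have b3 := i3 s hs hsR
        obtain ⟨_, _, c3⟩ := hφ _ (hNb s hs)
        rw [hit]
        simp only [T]
        rw [b3] at c3 ⊢
        rw [hcast] at c3 ⊢
        set t : ℂ := s + ((n - (m + 1) : ℕ) : ℂ) with ht
        have et : s + (((n - (m + 1) : ℕ) : ℂ) + 1) = t + 1 := by rw [ht]; ring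
        rw [et] at c3 ⊢
        have et2 : t + 1 + 1 = t + 2 := by ring
        rw [et2] at c3 ⊢
        simp only at c3 ⊢
        have hk1 : (0 : ℝ) < s.re := by linarith [hs.1]
        have hkk : (0 : ℝ) ≤ ((n - (m + 1) : ℕ) : ℝ) := Nat.cast_nonneg _
        have htre : 1 / 8 < t.re := by
          rw [ht]
          simp only [add_re, natCast_re]
          linarith [hs.1]
        have htn : R₀ < ‖t‖ := by
          have := hlow s (n - (m + 1)) hk1
          linarith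
        have htu : ‖t‖ ≤ 4 * R + n := by
          have h7 := hup s (n - (m + 1))
          have h8 : ((n - (m + 1) : ℕ) : ℝ) ≤ n := by
            have : n - (m + 1) ≤ n := by omega
            exact_mod_cast this
          linarith [hs.2]
        have hl1 : l * ‖t‖ < 1 / 8 := by nlinarith
        have hl2 : l * (‖t‖ + 2) < 1 / 8 := by nlinarith
        have hlaw := Xh_law hS hl hl0 (by linarith) (hF.h1.trans htn) hl2
        have hn1 : ‖t‖ ≤ ‖t + 1‖ := by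
          have := hlow t 1 (by linarith)
          simpa using this
        have hn2 : ‖t‖ ≤ ‖t + 2‖ := by
          have := hlow t 2 (by linarith)
          simpa using this
        have hu1 : ‖t + 1‖ ≤ ‖t‖ + 1 := by simpa using norm_add_le t 1
        have hu2 : ‖t + 2‖ ≤ ‖t‖ + 2 := by simpa using norm_add_le t 2
        have d0 := near' hS hF hl hl0 (by linarith) htn hl1
        have d1 := near' hS hF hl hl0 (s := t + 1) (by simp; linarith) (htn.trans_le hn1) (by nlinarith)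
        have d2 := near' hS hF hl hl0 (s := t + 2) (by simp; linarith) (htn.trans_le hn2) (by nlinarith)
        have key := c3 (Xh X l t) ?_ hlaw
        · rw [← key]
        · have e : Xh X l t - (2 * Xh X l (t + 1) - Xh X l (t + 2)) =
              (Xh X l t - t) - (Xh X l (t + 1) - (t + 1)) - (Xh X l (t + 1) - (t + 1)) +
              (Xh X l (t + 2) - (t + 2)) := by ring
          rw [e]
          have n1 := norm_add_le ((Xh X l t - t) - (Xh X l (t + 1) - (t + 1)) -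
            (Xh X l (t + 1) - (t + 1))) (Xh X l (t + 2) - (t + 2))
          have n2 := norm_sub_le ((Xh X l t - t) - (Xh X l (t + 1) - (t + 1)))
            (Xh X l (t + 1) - (t + 1))
          have n3 := norm_sub_le (Xh X l t - t) (Xh X l (t + 1) - (t + 1))
          linarith
  obtain ⟨f1, f2, f3⟩ := main n le_rfl
  refine ⟨fun s => lam l * (T^[n] (v₀ s)).1, ?_, ?_, ?_⟩
  · exact f1.fst.const_mul _
  · intro s hs1 hs2
    have b := (f2 s ⟨hs1, hs2⟩).1
    simp only [Nat.sub_self, Nat.cast_zero, add_zero] at b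
    have e : lam l * (T^[n] (v₀ s)).1 - (-Complex.I * l) * s = lam l * ((T^[n] (v₀ s)).1 - s) := by
      rw [lam]
      ring
    simp only
    rw [e, norm_mul, norm_lam hl, mul_comm]
    have hεε : ε' ≤ ε := min_le_left _ _
    have : ‖(T^[n] (v₀ s)).1 - s‖ ≤ ε := by linarith
    gcongr
  · intro s hs1 hs2 hs3
    have b := f3 s ⟨hs1, hs3⟩ hs2
    simp only [Nat.sub_self, Nat.cast_zero, add_zero] at b
    simp only
    rw [b, lam_Xh X hl]
    rfl

end

end Crest.Agent.R102.ExtF39
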