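import Mathlib
import Crest.Agent.R102.Petal_297

-- ▼ part R102/Iso1_297
section

/-!
# Row 102, part (C), item [d]: the isotropic end, one-dimensional theorem, part 1 (helper297)

`LL n y = n/(n-1) * log y - log (y-1)`; the domains `D`, `W`; the chord involution
`P : D → W`, `LL (P a) = LL a`, and the map `T a = n^2 / P a` of `D` into itself.
-/

set_option autoImplicit false

open Complex Set Filter Topology

noncomputable section

namespace Crest.Agent.R102.Iso297

/-- `M = n/(n-1)` -/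
def MM (n : ℝ) : ℝ := n / (n - 1)

/-- `L(y) = M log y - log (y-1)` -/
def LL (n : ℝ) (y : ℂ) : ℂ := (MM n : ℂ) * Complex.log y - Complex.log (y - 1)

theorem MM_gt {n : ℝ} (hn : 1 < n) : 1 < MM n := by
  unfold MM
  rw [lt_div_iff₀ (by linarith)]
  linarith

theorem MM_eq {n : ℝ} (hn : 1 < n) : (MM n - 1) * n = MM n := by
  unfold MM
  have : n - 1 ≠ 0 := by linarith
  field_simp
  ring

theorem LL_im (n : ℝ) (y : ℂ) : (LL n y).im = MM n * arg y - arg (y - 1) := by
  unfold LL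
  rw [sub_im, im_ofReal_mul, log_im, log_im]

theorem LL_re (n : ℝ) (y : ℂ) :
    (LL n y).re = MM n * Real.log ‖y‖ - Real.log ‖y - 1‖ := by
  unfold LL
  rw [sub_re, re_ofReal_mul, log_re, log_re]

/-! ### angles -/

/-- the angles of the triangle `0, 1, y` -/
theorem angles {y : ℂ} (h : 0 < y.im) :
    0 < arg y ∧ arg y < arg (y - 1) ∧ arg (y - 1) < Real.pi ∧
    ‖y‖ * Real.sin (arg (y - 1) - arg y) = Real.sin (arg (y - 1)) ∧
    ‖y - 1‖ * Real.sin (arg (y - 1) - arg y) = Real.sin (arg y) := by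
  have him : (y - 1).im = y.im := by simp
  have hre : (y - 1).re = y.re - 1 := by simp
  have c1 := Complex.norm_mul_cos_arg y
  have s1 := Complex.norm_mul_sin_arg y
  have c2 := Complex.norm_mul_cos_arg (y - 1)
  have s2 := Complex.norm_mul_sin_arg (y - 1)
  rw [him] at s2
  rw [hre] at c2
  have hn1 : 0 < ‖y‖ := norm_pos_iff.2 (by rintro rfl; simp at h)
  have hn2 : 0 < ‖y - 1‖ := norm_pos_iff.2 (by
    intro h0; rw [h0] at him; simp at him; linarith)
  have sp1 : 0 < Real.sin (arg y) := by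
    by_contra hc
    push Not at hc
    nlinarith
  have sp2 : 0 < Real.sin (arg (y - 1)) := by
    by_contra hc
    push Not at hc
    nlinarith
  have a1 : 0 < arg y ∧ arg y < Real.pi := by
    have := Complex.arg_mem_Ioc y
    have h1 : 0 ≤ arg y := Complex.arg_nonneg_iff.2 h.le
    constructor
    · rcases h1.lt_or_eq with h2 | h2
      · exact h2
      · rw [← h2, Real.sin_zero] at sp1; exact absurd sp1 (lt_irrefl _)
    · rcases this.2.lt_or_eq with h2 | h2
      · exact h2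
      · rw [h2, Real.sin_pi] at sp1; exact absurd sp1 (lt_irrefl _)
  have a2 : 0 < arg (y - 1) ∧ arg (y - 1) < Real.pi := by
    have := Complex.arg_mem_Ioc (y - 1)
    have h1 : 0 ≤ arg (y - 1) := Complex.arg_nonneg_iff.2 (by rw [him]; exact h.le)
    constructor
    · rcases h1.lt_or_eq with h2 | h2
      · exact h2
      · rw [← h2, Real.sin_zero] at sp2; exact absurd sp2 (lt_irrefl _)
    · rcases this.2.lt_or_eq with h2 | h2
      · exact h2
      · rw [h2, Real.sin_pi] at sp2; exact absurd sp2 (lt_irrefl _)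
  have e1 : ‖y‖ * Real.sin (arg (y - 1) - arg y) = Real.sin (arg (y - 1)) := by
    rw [Real.sin_sub]
    linear_combination Real.sin (arg (y - 1)) * c1 - Real.cos (arg (y - 1)) * s1 +
      Real.cos (arg (y - 1)) * s2 - Real.sin (arg (y - 1)) * c2
  have e2 : ‖y - 1‖ * Real.sin (arg (y - 1) - arg y) = Real.sin (arg y) := by
    rw [Real.sin_sub]
    linear_combination Real.cos (arg y) * s2 - Real.cos (arg y) * s1 +
      Real.sin (arg y) * c1 - Real.sin (arg y) * c2
  refine ⟨a1.1, ?_, a2.2, e1, e2⟩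
  by_contra hc
  push Not at hc
  have h3 : Real.sin (arg (y - 1) - arg y) ≤ 0 :=
    Real.sin_nonpos_of_nonpos_of_neg_pi_le (by linarith) (by linarith [a1.2, a2.1])
  nlinarith

/-- **the basic lemma** -/
theorem norm_lt {n : ℝ} (hn : 1 < n) {y : ℂ} (h : 0 < y.im)
    (hy : MM n * arg y ≤ arg (y - 1)) : ‖y‖ < n := by
  obtain ⟨h1, h2, h3, h4, -⟩ := angles h
  set φ := arg y
  set ψ := arg (y - 1)
  have hψ : 0 < ψ := by linarith
  have hM := MM_gt hn
  have hMn := MM_eq hn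
  have hlam0 : 0 < (ψ - φ) / ψ := div_pos (by linarith) hψ
  have hlam1 : (ψ - φ) / ψ < 1 := by rw [div_lt_one hψ]; linarith
  have hlam : 1 ≤ n * ((ψ - φ) / ψ) := by
    rw [mul_div_assoc', one_le_div hψ]
    -- `n (ψ - φ) ≥ ψ` iff `(n-1) ψ ≥ n φ`
    have h5 : MM n * φ * (n - 1) ≤ ψ * (n - 1) := mul_le_mul_of_nonneg_right hy (by linarith)
    have h6 : MM n * (n - 1) = n := by unfold MM; rw [div_mul_cancel₀]; linarith
    nlinarith
  have hconc := strictConcaveOn_sin_Icc.2 (show (0 : ℝ) ∈ Icc 0 Real.pi from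
    ⟨le_rfl, Real.pi_pos.le⟩) (show ψ ∈ Icc 0 Real.pi from
    ⟨hψ.le, h3.le⟩) hψ.ne (show 0 < 1 - (ψ - φ) / ψ by linarith) hlam0 (by ring)
  simp only [smul_eq_mul, mul_zero, zero_add, Real.sin_zero] at hconc
  rw [div_mul_cancel₀ _ hψ.ne'] at hconc
  have hs : 0 < Real.sin ψ := Real.sin_pos_of_pos_of_lt_pi hψ h3
  have hs2 : 0 < Real.sin (ψ - φ) := Real.sin_pos_of_pos_of_lt_pi (by linarith) (by linarith)
  have h7 : Real.sin ψ < n * Real.sin (ψ - φ) := by
    calc Real.sin ψ ≤ n * ((ψ - φ) / ψ) * Real.sin ψ := by nlinarith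
      _ = n * ((ψ - φ) / ψ * Real.sin ψ) := by ring
      _ < n * Real.sin (ψ - φ) := mul_lt_mul_of_pos_left hconc (by linarith)
  rw [← h4] at h7
  exact lt_of_mul_lt_mul_right h7 hs2.le

/-! ### conjugation -/

theorem slit1 {y : ℂ} (h : y - 1 ∈ slitPlane) : y ∈ slitPlane := by
  rcases h with h | h
  · left; simp at h; linarith
  · right; simpa using h

theorem arg_conj' {y : ℂ} (h : y ∈ slitPlane) :
    arg ((starRingEnd ℂ) y) = - arg y := by
  rw [arg_conj, if_neg (mem_slitPlane_iff_arg.1 h).1]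

theorem LL_conj {n : ℝ} {y : ℂ} (h : y - 1 ∈ slitPlane) :
    LL n ((starRingEnd ℂ) y) = (starRingEnd ℂ) (LL n y) := by
  unfold LL
  rw [map_sub, map_mul, conj_ofReal, ← log_conj _ (mem_slitPlane_iff_arg.1 (slit1 h)).1,
    ← log_conj _ (mem_slitPlane_iff_arg.1 h).1, map_sub, map_one]

theorem slit_of_im {y : ℂ} (h : y.im ≠ 0) : y - 1 ∈ slitPlane := Or.inr (by simpa using h)

theorem LL_real_im {n : ℝ} {y : ℂ} (h : y - 1 ∈ slitPlane) (hy : y.im = 0) :
    (LL n y).im = 0 := by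
  have h1 : (starRingEnd ℂ) y = y := conj_eq_iff_im.2 hy
  have h2 := LL_conj (n := n) h
  rw [h1] at h2
  exact conj_eq_iff_im.1 h2.symm

/-! ### derivative -/

theorem LL_hasDerivAt {n : ℝ} {y : ℂ} (h : y - 1 ∈ slitPlane) :
    HasDerivAt (LL n) ((MM n : ℂ) / y - 1 / (y - 1)) y := by
  have e1 := (Complex.hasDerivAt_log (slit1 h)).const_mul (MM n : ℂ)
  have e2 : HasDerivAt (fun z : ℂ => z - 1) 1 y := by
    simpa using (hasDerivAt_id y).sub_const 1
  have e3 := e2.clog h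
  exact (e1.sub e3).congr_deriv (by ring)

theorem LL_an {n : ℝ} {y : ℂ} (h : y - 1 ∈ slitPlane) : AnalyticAt ℂ (LL n) y :=
  ((analyticAt_const).mul (analyticAt_id.clog (slit1 h))).sub
    ((analyticAt_id.sub analyticAt_const).clog h)

theorem dLL_ne {n : ℝ} (hn : 1 < n) {y : ℂ} (h : y - 1 ∈ slitPlane) (hy : y ≠ (n : ℂ)) :
    (MM n : ℂ) / y - 1 / (y - 1) ≠ 0 := by
  have h0 : y ≠ 0 := slitPlane_ne_zero (slit1 h)
  have h1 : y - 1 ≠ 0 := slitPlane_ne_zero h
  have hn1 : (n : ℂ) - 1 ≠ 0 := by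
    have : n - 1 ≠ 0 := by linarith
    exact_mod_cast this
  rw [div_sub_div _ _ h0 h1]
  refine div_ne_zero ?_ (mul_ne_zero h0 h1)
  intro h2
  apply hy
  unfold MM at h2
  push_cast at h2
  field_simp at h2
  linear_combination h2

/-! ### sign of `Im LL` near real points -/

theorem sign_near {n : ℝ} {x0 : ℝ} (hx0 : 1 < x0) {c : ℝ}
    (hc : 0 < c * (MM n / x0 - 1 / (x0 - 1))) :
    ∀ᶠ z in 𝓝 (x0 : ℂ), (0 < z.im → 0 < c * (LL n z).im) ∧ (z.im < 0 → c * (LL n z).im < 0) := by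
  have hopen : IsOpen {y : ℂ | y - 1 ∈ slitPlane} :=
    isOpen_slitPlane.preimage (continuous_id.sub continuous_const)
  have hmem : (x0 : ℂ) ∈ {y : ℂ | y - 1 ∈ slitPlane} := Or.inl (by simpa using hx0)
  have hcont : ContinuousAt (fun y : ℂ => c * ((MM n : ℂ) / y - 1 / (y - 1)).re) (x0 : ℂ) := by
    have h0 : (x0 : ℂ) ≠ 0 := slitPlane_ne_zero (slit1 hmem)
    have h1 : (x0 : ℂ) - 1 ≠ 0 := slitPlane_ne_zero hmem
    have e1 : ContinuousAt (fun y : ℂ => (MM n : ℂ) / y) (x0 : ℂ) :=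
      continuousAt_const.div continuousAt_id h0
    have e2 : ContinuousAt (fun y : ℂ => 1 / (y - 1)) (x0 : ℂ) :=
      continuousAt_const.div (continuousAt_id.sub continuousAt_const) h1
    exact continuousAt_const.mul (continuous_re.continuousAt.comp (e1.sub e2))
  have hval : (0 : ℝ) < (fun y : ℂ => c * ((MM n : ℂ) / y - 1 / (y - 1)).re) (x0 : ℂ) := by
    have : ((MM n : ℂ) / (x0 : ℂ) - 1 / ((x0 : ℂ) - 1)) =
        ((MM n / x0 - 1 / (x0 - 1) : ℝ) : ℂ) := by push_cast; rfl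
    show 0 < c * ((MM n : ℂ) / (x0 : ℂ) - 1 / ((x0 : ℂ) - 1)).re
    rw [this, ofReal_re]
    exact hc
  have hev : ∀ᶠ y in 𝓝 (x0 : ℂ), y - 1 ∈ slitPlane ∧
      0 < c * ((MM n : ℂ) / y - 1 / (y - 1)).re :=
    (hopen.eventually_mem hmem).and (hcont.eventually (lt_mem_nhds hval))
  obtain ⟨ε, hε, hball⟩ := Metric.eventually_nhds_iff_ball.1 hev
  filter_upwards [Metric.ball_mem_nhds (x0 : ℂ) hε] with z hz
  have hzn : ‖z - x0‖ < ε := by simpa [dist_eq_norm] using hz
  -- the vertical segment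
  have hseg : ∀ t : ℝ, |t| ≤ |z.im| → ((z.re : ℂ) + t * I) ∈ Metric.ball (x0 : ℂ) ε := by
    intro t ht
    rw [Metric.mem_ball, dist_eq_norm]
    refine lt_of_le_of_lt ?_ hzn
    rw [← Real.sqrt_sq (norm_nonneg _), ← Real.sqrt_sq (norm_nonneg (z - x0))]
    apply Real.sqrt_le_sqrt
    rw [← normSq_eq_norm_sq, ← normSq_eq_norm_sq, normSq_apply, normSq_apply]
    have h2 : t * t ≤ z.im * z.im := by
      have := sq_le_sq' (by linarith [neg_abs_le t] : -|z.im| ≤ t)
        (by linarith [le_abs_self t] : t ≤ |z.im|)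
      rw [sq_abs] at this
      nlinarith
    simp
    nlinarith
  set f : ℝ → ℝ := fun t => c * (LL n ((z.re : ℂ) + t * I)).im with hf
  have hder : ∀ t : ℝ, |t| ≤ |z.im| → HasDerivAt f
      (c * ((MM n : ℂ) / ((z.re : ℂ) + t * I) - 1 / ((z.re : ℂ) + t * I - 1)).re) t := by
    intro t ht
    have h1 := LL_hasDerivAt (n := n) (hball _ (hseg t ht)).1
    have h2 : HasDerivAt (fun s : ℝ => (z.re : ℂ) + s * I) I t := by
      have := ((hasDerivAt_id t).ofReal_comp.mul_const I).const_add (z.re : ℂ)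
      simpa using this
    have h3 := h1.comp t h2
    have h4 : HasDerivAt (fun s : ℝ => (LL n ((z.re : ℂ) + s * I)).im)
        (((MM n : ℂ) / ((z.re : ℂ) + t * I) - 1 / ((z.re : ℂ) + t * I - 1)) * I).im t := by
      have h5 : HasFDerivAt (fun w : ℂ => w.im) imCLM
          ((LL n ∘ fun s : ℝ => (z.re : ℂ) + s * I) t) := imCLM.hasFDerivAt
      exact h5.comp_hasDerivAt t h3
    have h5 := h4.const_mul c
    refine h5.congr_deriv ?_
    rw [mul_I_im]
  have h0 : f 0 = 0 := by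
    rw [hf]
    simp only [ofReal_zero, zero_mul, add_zero]
    have := hball _ (hseg 0 (by simp))
    simp only [ofReal_zero, zero_mul, add_zero] at this
    rw [LL_real_im this.1 (ofReal_im _), mul_zero]
  have hz' : (z.re : ℂ) + z.im * I = z := re_add_im z
  have hfz : f z.im = c * (LL n z).im := by rw [hf]; simp only [hz']
  constructor
  · intro hpos
    obtain ⟨ξ, hξ, hslope⟩ := exists_hasDerivAt_eq_slope f _ hpos
      (fun t ht => (hder t (by rw [abs_of_nonneg ht.1, abs_of_pos hpos]; exact ht.2)).continuousAt.continuousWithinAt)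
      (fun t ht => hder t (by rw [abs_of_nonneg ht.1.le, abs_of_pos hpos]; exact ht.2.le))
    have h6 := (hball _ (hseg ξ (by rw [abs_of_nonneg hξ.1.le, abs_of_pos hpos]; exact hξ.2.le))).2
    rw [hslope, h0, hfz, sub_zero, sub_zero] at h6
    exact (div_pos_iff_of_pos_right hpos).1 h6
  · intro hneg
    obtain ⟨ξ, hξ, hslope⟩ := exists_hasDerivAt_eq_slope f _ hneg
      (fun t ht => (hder t (by rw [abs_of_nonpos ht.2, abs_of_neg hneg]; linarith [ht.1])).continuousAt.continuousWithinAt)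
      (fun t ht => hder t (by rw [abs_of_nonpos ht.2.le, abs_of_neg hneg]; linarith [ht.1]))
    have h6 := (hball _ (hseg ξ (by rw [abs_of_nonpos hξ.2.le, abs_of_neg hneg]; linarith [hξ.1]))).2
    rw [hslope, h0, hfz, zero_sub, zero_sub, neg_div_neg_eq] at h6
    by_contra hcon
    push Not at hcon
    have := div_nonpos_of_nonneg_of_nonpos hcon hneg.le
    linarith

end Crest.Agent.R102.Iso297
end
end

-- ▼ part R102/Iso2_297
section

/-!
# Row 102, part (C), item [d]: the isotropic end, part 2 (helper297): the domains `DD`, `WW`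
-/

set_option autoImplicit false

open Complex Set Filter Topology

noncomputable section

namespace Crest.Agent.R102.Iso297

/-- range of the second chord coordinate -/
def WW (n : ℝ) : Set ℂ :=
  {b | b - 1 ∈ slitPlane ∧ (0 < b.im → (LL n b).im < 0) ∧ (b.im < 0 → 0 < (LL n b).im) ∧
    (b.im = 0 → b.re < n)}

/-- the sector `n < |a|`, `|arg a| < π / M` -/
def D2 (n : ℝ) : Set ℂ := {a | n < ‖a‖ ∧ a ∈ slitPlane ∧ |arg a| * MM n < Real.pi}

variable {n : ℝ}


theorem dreal_neg (hn : 1 < n) {x : ℝ} (h1 : 1 < x) (h2 : x < n) :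
    MM n / x - 1 / (x - 1) < 0 := by
  have h3 : 0 < n - 1 := by linarith
  rw [sub_neg]
  unfold MM
  rw [div_div, div_lt_div_iff₀ (by positivity) (by linarith)]
  nlinarith

theorem dreal_pos (hn : 1 < n) {x : ℝ} (h2 : n < x) :
    0 < MM n / x - 1 / (x - 1) := by
  have h3 : 0 < n - 1 := by linarith
  rw [sub_pos]
  unfold MM
  rw [div_div, div_lt_div_iff₀ (by linarith) (mul_pos h3 (by linarith))]
  nlinarith

theorem isOpen_slit1 : IsOpen {y : ℂ | y - 1 ∈ slitPlane} :=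
  isOpen_slitPlane.preimage (continuous_id.sub continuous_const)

theorem cont_LL_im {y : ℂ} (h : y - 1 ∈ slitPlane) :
    ContinuousAt (fun z => (LL n z).im) y :=
  continuous_im.continuousAt.comp (LL_an h).continuousAt

theorem isOpen_WW (hn : 1 < n) : IsOpen (WW n) := by
  rw [isOpen_iff_mem_nhds]
  rintro b ⟨h1, h2, h3, h4⟩
  have e1 : ∀ᶠ z in 𝓝 b, z - 1 ∈ slitPlane := isOpen_slit1.eventually_mem h1
  have e2 := cont_LL_im (n := n) h1
  rcases lt_trichotomy b.im 0 with hb | hb | hb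
  · filter_upwards [e1, e2.eventually (lt_mem_nhds (h3 hb)),
      continuous_im.continuousAt.eventually (gt_mem_nhds hb)] with z g1 g2 g3
    exact ⟨g1, fun h => absurd h (not_lt.2 g3.le), fun _ => g2, fun h => absurd h g3.ne⟩
  · have hb' : b = ((b.re : ℝ) : ℂ) := Complex.ext rfl (by simpa using hb)
    have h5 : 1 < b.re := by
      rcases h1 with h | h
      · simpa using h
      · simp [hb] at h
    have h6 := sign_near (n := n) h5 (c := -1) (by have := dreal_neg hn h5 (h4 hb); linarith)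
    rw [← hb'] at h6
    filter_upwards [e1, h6, continuous_re.continuousAt.eventually (gt_mem_nhds (h4 hb))]
      with z g1 g2 g3
    exact ⟨g1, fun h => by have := g2.1 h; linarith, fun h => by have := g2.2 h; linarith,
      fun _ => g3⟩
  · filter_upwards [e1, e2.eventually (gt_mem_nhds (h2 hb)),
      continuous_im.continuousAt.eventually (lt_mem_nhds hb)] with z g1 g2 g3
    exact ⟨g1, fun _ => g2, fun h => absurd h (not_lt.2 g3.le), fun h => absurd h g3.ne'⟩

theorem isOpen_D2 (n : ℝ) : IsOpen (D2 n) := by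
  rw [isOpen_iff_mem_nhds]
  rintro a ⟨h1, h2, h3⟩
  have e1 : ContinuousAt (fun a : ℂ => |arg a| * MM n) a :=
    ((continuousAt_arg h2).abs).mul continuousAt_const
  filter_upwards [continuous_norm.continuousAt.eventually (lt_mem_nhds h1),
    isOpen_slitPlane.eventually_mem h2, e1.eventually (gt_mem_nhds h3)] with z g1 g2 g3
  exact ⟨g1, g2, g3⟩

theorem D2_slit (hn : 1 < n) {a : ℂ} (h : a ∈ D2 n) : a - 1 ∈ slitPlane := by
  by_cases him : a.im = 0
  · left
    have h1 : 0 < a.re := by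
      rcases h.2.1 with h2 | h2
      · exact h2
      · exact absurd him h2
    have e1 : a = ((a.re : ℝ) : ℂ) := Complex.ext rfl (by simpa using him)
    have h2 := h.1
    rw [e1, Complex.norm_real, Real.norm_of_nonneg h1.le] at h2
    rw [sub_re, one_re]
    linarith
  · exact slit_of_im him

theorem isPreconnected_D2 {n : ℝ} (hn : 1 < n) : IsPreconnected (D2 n) := by
  have hM := MM_gt hn
  have hn0 : (0 : ℝ) < n := by linarith
  have hconv : Convex ℝ {z : ℂ | Real.log n < z.re ∧ |z.im| * MM n < Real.pi} := by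
    have e : {z : ℂ | Real.log n < z.re ∧ |z.im| * MM n < Real.pi} =
        (Complex.reLm ⁻¹' Ioi (Real.log n)) ∩
          (Complex.imLm ⁻¹' Ioo (-(Real.pi / MM n)) (Real.pi / MM n)) := by
      ext z
      simp only [mem_ofPred_eq, mem_inter_iff, mem_preimage, mem_Ioi, mem_Ioo]
      have : |z.im| * MM n < Real.pi ↔ |z.im| < Real.pi / MM n := by
        rw [lt_div_iff₀ (by linarith)]
      rw [this, abs_lt]
      rfl
    rw [e]
    exact ((convex_Ioi _).linear_preimage _).inter ((convex_Ioo _ _).linear_preimage _)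
  have himg : D2 n = Complex.exp '' {z : ℂ | Real.log n < z.re ∧ |z.im| * MM n < Real.pi} := by
    ext a
    constructor
    · rintro ⟨h1, h2, h3⟩
      refine ⟨Complex.log a, ⟨?_, ?_⟩, Complex.exp_log (slitPlane_ne_zero h2)⟩
      · rw [log_re]
        exact Real.log_lt_log hn0 h1
      · rw [log_im]; exact h3
    · rintro ⟨z, ⟨h1, h2⟩, rfl⟩
      have h3 : |z.im| < Real.pi := by nlinarith [abs_nonneg z.im]
      have h4 := abs_lt.1 h3
      have harg : arg (Complex.exp z) = z.im := by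
        rw [← log_im, Complex.log_exp h4.1 h4.2.le]
      refine ⟨?_, ?_, ?_⟩
      · rw [norm_exp]
        calc n = Real.exp (Real.log n) := (Real.exp_log hn0).symm
          _ < _ := Real.exp_lt_exp.2 h1
      · rw [mem_slitPlane_iff_arg, harg]
        exact ⟨h4.2.ne, Complex.exp_ne_zero _⟩
      · rw [harg]; exact h2
  rw [himg]
  exact hconv.isPreconnected.image _ Complex.continuous_exp.continuousOn

theorem slit_conj {y : ℂ} (h : y - 1 ∈ slitPlane) : (starRingEnd ℂ) y - 1 ∈ slitPlane := by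
  rcases h with h | h
  · left; simpa using h
  · right; simpa using h

theorem WW_conj {b : ℂ} (h : b ∈ WW n) : (starRingEnd ℂ) b ∈ WW n := by
  obtain ⟨h1, h2, h3, h4⟩ := h
  refine ⟨slit_conj h1, ?_, ?_, ?_⟩
  · intro h; rw [conj_im] at h
    rw [LL_conj h1, conj_im]; linarith [h3 (by linarith)]
  · intro h; rw [conj_im] at h
    rw [LL_conj h1, conj_im]; linarith [h2 (by linarith)]
  · intro h; rw [conj_im] at h
    rw [conj_re]; exact h4 (by linarith)

theorem D2_conj {a : ℂ} (h : a ∈ D2 n) : (starRingEnd ℂ) a ∈ D2 n := by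
  obtain ⟨h1, h2, h3⟩ := h
  refine ⟨by rwa [norm_conj], ?_, ?_⟩
  · rcases h2 with h | h
    · left; simpa using h
    · right; simpa using h
  · rw [arg_conj' h2, abs_neg]; exact h3

/-! ### the reflection `b ↦ n²/b` -/

theorem inv_mem_of_pos (hn : 1 < n) {b : ℂ} (hb : 0 < b.im) (h : (LL n b).im ≤ 0) :
    (n : ℂ) ^ 2 / b ∈ D2 n ∧ arg ((n : ℂ) ^ 2 / b) = - arg b ∧ ‖b‖ < n := by
  rw [LL_im] at h
  have hlt : ‖b‖ < n := norm_lt hn hb (by linarith)
  obtain ⟨a1, a2, a3, -, -⟩ := angles hb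
  have hb0 : b ≠ 0 := by rintro rfl; simp at hb
  have hbn : 0 < ‖b‖ := norm_pos_iff.2 hb0
  have hn0 : (0 : ℝ) < n := by linarith
  set a := (n : ℂ) ^ 2 / b with ha
  have hna : ‖a‖ = n ^ 2 / ‖b‖ := by
    rw [ha, norm_div, norm_pow, Complex.norm_real, Real.norm_of_nonneg hn0.le]
  have hgt : n < ‖a‖ := by
    rw [hna, lt_div_iff₀ hbn]
    nlinarith
  have harg : arg a = - arg b := by
    have : a = ((n ^ 2 : ℝ) : ℂ) * b⁻¹ := by rw [ha]; push_cast; rw [div_eq_mul_inv]
    rw [this, arg_real_mul _ (by positivity), arg_inv, if_neg (by linarith)]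
  have ha0 : a ≠ 0 := by
    intro h0
    rw [h0, norm_zero] at hgt
    linarith
  refine ⟨⟨hgt, ?_, ?_⟩, harg, hlt⟩
  · rw [mem_slitPlane_iff_arg, harg]
    exact ⟨by linarith [Real.pi_pos], ha0⟩
  · rw [harg, abs_neg, abs_of_pos a1]
    linarith

theorem inv_mem (hn : 1 < n) {b : ℂ} (hb : b ∈ WW n) :
    (n : ℂ) ^ 2 / b ∈ D2 n ∧ ‖b‖ < n := by
  rcases lt_trichotomy b.im 0 with h | h | h
  · have h1 := WW_conj hb
    have h2 : 0 < ((starRingEnd ℂ) b).im := by rw [conj_im]; linarith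
    obtain ⟨g1, -, g2⟩ := inv_mem_of_pos hn h2 (h1.2.1 h2).le
    have h3 : (n : ℂ) ^ 2 / b = (starRingEnd ℂ) ((n : ℂ) ^ 2 / (starRingEnd ℂ) b) := by
      rw [map_div₀, map_pow, conj_ofReal, conj_conj]
    rw [h3]
    refine ⟨D2_conj g1, ?_⟩
    rwa [norm_conj] at g2
  · have hb' : b = ((b.re : ℝ) : ℂ) := Complex.ext rfl (by simpa using h)
    have h5 : 1 < b.re := by
      rcases hb.1 with h6 | h6
      · simpa using h6
      · simp [h] at h6
    have h6 := hb.2.2.2 h
    have h7 : (n : ℂ) ^ 2 / b = ((n ^ 2 / b.re : ℝ) : ℂ) := by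
      rw [hb']; push_cast; simp
    have h8 : n < n ^ 2 / b.re := by rw [lt_div_iff₀ (by linarith)]; nlinarith
    have h9 : 0 < n ^ 2 / b.re := by linarith
    rw [h7]
    refine ⟨⟨?_, Or.inl (by rw [ofReal_re]; exact h9), ?_⟩, ?_⟩
    · rw [Complex.norm_real, Real.norm_of_nonneg h9.le]; exact h8
    · rw [arg_ofReal_of_nonneg h9.le, abs_zero, zero_mul]; exact Real.pi_pos
    · rw [hb', Complex.norm_real, Real.norm_of_nonneg (by linarith)]; exact h6
  · obtain ⟨g1, -, g2⟩ := inv_mem_of_pos hn h (hb.2.1 h).le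
    exact ⟨g1, g2⟩

/-! ### injectivity -/

/-- a holomorphic function on a convex set whose derivative has positive imaginary part is
injective -/
theorem inj_of_im_pos {f : ℂ → ℂ} {f' : ℂ → ℂ} {s : Set ℂ} (hs : Convex ℝ s)
    (hf : ∀ z ∈ s, HasDerivAt f (f' z) z) (hp : ∀ z ∈ s, 0 < (f' z).im) : InjOn f s := by
  intro z1 h1 z2 h2 heq
  by_contra hne
  have hd : z2 - z1 ≠ 0 := sub_ne_zero.2 (Ne.symm hne)
  have hseg : ∀ t : ℝ, t ∈ Icc (0 : ℝ) 1 → z1 + (t : ℂ) * (z2 - z1) ∈ s := by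
    intro t ht
    have := hs h1 h2 (show 0 ≤ 1 - t by linarith [ht.2]) ht.1 (by ring)
    have e : z1 + (t : ℂ) * (z2 - z1) = (1 - t) • z1 + t • z2 := by
      rw [real_smul, real_smul]; push_cast; ring
    rw [e]; exact this
  set g : ℝ → ℝ := fun t => (f (z1 + (t : ℂ) * (z2 - z1)) / (z2 - z1)).im with hg
  have hder : ∀ t ∈ Icc (0 : ℝ) 1, HasDerivAt g ((f' (z1 + (t : ℂ) * (z2 - z1))).im) t := by
    intro t ht
    have e1 : HasDerivAt (fun t : ℝ => z1 + (t : ℂ) * (z2 - z1)) (z2 - z1) t := by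
      have := ((hasDerivAt_id t).ofReal_comp.mul_const (z2 - z1)).const_add z1
      simpa using this
    have e2 := ((hf _ (hseg t ht)).comp t e1).div_const (z2 - z1)
    have e3 : HasFDerivAt (fun w : ℂ => w.im) imCLM
        ((fun t : ℝ => (f ∘ fun t : ℝ => z1 + (t : ℂ) * (z2 - z1)) t / (z2 - z1)) t) :=
      imCLM.hasFDerivAt
    have e4 := e3.comp_hasDerivAt t e2
    refine e4.congr_deriv ?_
    rw [mul_div_cancel_right₀ _ hd]
    rfl
  obtain ⟨ξ, hξ, hslope⟩ := exists_hasDerivAt_eq_slope g _ (zero_lt_one)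
    (fun t ht => (hder t ht).continuousAt.continuousWithinAt)
    (fun t ht => hder t (Ioo_subset_Icc_self ht))
  have h5 := hp _ (hseg ξ (Ioo_subset_Icc_self hξ))
  rw [hslope] at h5
  have h6 : g 1 = g 0 := by
    rw [hg]
    simp only [ofReal_one, one_mul, add_sub_cancel, ofReal_zero, zero_mul, add_zero, heq]
  rw [h6] at h5
  simp at h5

theorem LL_injOn_UH (n : ℝ) : InjOn (LL n) {y : ℂ | 0 < y.im} := by
  -- `LL n y = g (log y)`, `g z = M z - log (e^z - 1)`
  have hconv : Convex ℝ {z : ℂ | 0 < z.im ∧ z.im < Real.pi} := by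
    have : {z : ℂ | 0 < z.im ∧ z.im < Real.pi} = Complex.imLm ⁻¹' Ioo 0 Real.pi := by
      ext z; rfl
    rw [this]
    exact (convex_Ioo 0 Real.pi).linear_preimage _
  have him : ∀ z : ℂ, 0 < z.im ∧ z.im < Real.pi → 0 < (Complex.exp z).im := by
    intro z hz
    rw [exp_im]
    exact mul_pos (Real.exp_pos _) (Real.sin_pos_of_pos_of_lt_pi hz.1 hz.2)
  have hinj := inj_of_im_pos (f := fun z => (MM n : ℂ) * z - Complex.log (Complex.exp z - 1))
    (f' := fun z => (MM n : ℂ) - Complex.exp z / (Complex.exp z - 1)) hconv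
    (by
      intro z hz
      have h1 : Complex.exp z - 1 ∈ slitPlane := slit_of_im (him z hz).ne'
      have e1 : HasDerivAt (fun z : ℂ => Complex.exp z - 1) (Complex.exp z) z :=
        (Complex.hasDerivAt_exp z).sub_const 1
      have e2 := e1.clog h1
      have e3 : HasDerivAt (fun z : ℂ => (MM n : ℂ) * z) (MM n : ℂ) z := by
        simpa using (hasDerivAt_id z).const_mul (MM n : ℂ)
      exact e3.sub e2)
    (by
      intro z hz
      have h1 := him z hz
      have h2 : Complex.exp z - 1 ≠ 0 := slitPlane_ne_zero (slit_of_im h1.ne')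
      have h3 : Complex.exp z / (Complex.exp z - 1) = 1 + (Complex.exp z - 1)⁻¹ := by
        field_simp
        ring
      rw [h3, sub_im, ofReal_im, add_im, one_im, inv_im, zero_add, zero_sub, neg_div, neg_neg]
      have h4 : 0 < normSq (Complex.exp z - 1) := normSq_pos.2 h2
      refine div_pos ?_ h4
      rw [sub_im, one_im, sub_zero]
      exact h1)
  intro y1 h1 y2 h2 heq
  have hl : ∀ y : ℂ, 0 < y.im → 0 < (Complex.log y).im ∧ (Complex.log y).im < Real.pi := by
    intro y hy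
    obtain ⟨a1, a2, a3, -, -⟩ := angles hy
    rw [log_im]
    exact ⟨a1, by linarith⟩
  have hne : ∀ y : ℂ, 0 < y.im → y ≠ 0 := by
    rintro y hy rfl; simp at hy
  have hlog := hinj (hl y1 h1) (hl y2 h2) (by
    simp only [Complex.exp_log (hne y1 h1), Complex.exp_log (hne y2 h2)]
    exact heq)
  rw [← Complex.exp_log (hne y1 h1), hlog, Complex.exp_log (hne y2 h2)]

/-- the real function -/
def ll (n x : ℝ) : ℝ := MM n * Real.log x - Real.log (x - 1)

theorem LL_real {x : ℝ} (h : 1 < x) : LL n (x : ℂ) = (ll n x : ℂ) := by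
  unfold LL ll
  rw [← ofReal_log (by linarith), show (x : ℂ) - 1 = ((x - 1 : ℝ) : ℂ) by push_cast; rfl,
    ← ofReal_log (by linarith)]
  push_cast
  rfl

theorem ll_hasDerivAt {x : ℝ} (h : 1 < x) :
    HasDerivAt (ll n) (MM n / x - 1 / (x - 1)) x := by
  have e1 := (Real.hasDerivAt_log (show x ≠ 0 by linarith)).const_mul (MM n)
  have e2 : HasDerivAt (fun z : ℝ => z - 1) 1 x := by
    simpa using (hasDerivAt_id x).sub_const 1
  have e3 := e2.log (by linarith)
  exact (e1.sub e3).congr_deriv (by ring)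

theorem ll_cont : ContinuousOn (ll n) (Ioi 1) := fun _ hx =>
  (ll_hasDerivAt hx).continuousAt.continuousWithinAt

theorem ll_anti (hn : 1 < n) : StrictAntiOn (ll n) (Ioc 1 n) := by
  refine strictAntiOn_of_deriv_neg (convex_Ioc 1 n) (ll_cont.mono fun x hx => hx.1) ?_
  intro x hx
  rw [interior_Ioc] at hx
  rw [(ll_hasDerivAt hx.1).deriv]
  exact dreal_neg hn hx.1 hx.2

theorem ll_mono (hn : 1 < n) : StrictMonoOn (ll n) (Ici n) := by
  refine strictMonoOn_of_deriv_pos (convex_Ici n)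
    (ll_cont.mono fun x hx => by rw [mem_Ici] at hx; rw [mem_Ioi]; linarith) ?_
  intro x hx
  rw [interior_Ici, mem_Ioi] at hx
  rw [(ll_hasDerivAt (by linarith)).deriv]
  exact dreal_pos hn hx

theorem WW_real {b : ℂ} (h : b ∈ WW n) (hb : b.im = 0) : 1 < b.re ∧ b.re < n := by
  refine ⟨?_, h.2.2.2 hb⟩
  rcases h.1 with h1 | h1
  · simpa using h1
  · simp [hb] at h1

theorem LL_injOn_WW (hn : 1 < n) : InjOn (LL n) (WW n) := by
  intro y1 h1 y2 h2 heq
  have him : (LL n y1).im = (LL n y2).im := by rw [heq]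
  rcases lt_trichotomy y1.im 0 with g1 | g1 | g1 <;> rcases lt_trichotomy y2.im 0 with g2 | g2 | g2
  · have := LL_injOn_UH n (show 0 < ((starRingEnd ℂ) y1).im by rw [conj_im]; linarith)
      (show 0 < ((starRingEnd ℂ) y2).im by rw [conj_im]; linarith)
      (by rw [LL_conj h1.1, LL_conj h2.1, heq])
    exact (starRingEnd ℂ).injective this
  · have := h1.2.2.1 g1
    rw [him, LL_real_im h2.1 g2] at this
    exact absurd this (lt_irrefl _)
  · have := h1.2.2.1 g1
    have := h2.2.1 g2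
    linarith
  · have := h2.2.2.1 g2
    rw [← him, LL_real_im h1.1 g1] at this
    exact absurd this (lt_irrefl _)
  · obtain ⟨r1, r2⟩ := WW_real h1 g1
    obtain ⟨r3, r4⟩ := WW_real h2 g2
    have e1 : y1 = ((y1.re : ℝ) : ℂ) := Complex.ext rfl (by simpa using g1)
    have e2 : y2 = ((y2.re : ℝ) : ℂ) := Complex.ext rfl (by simpa using g2)
    rw [e1, e2, LL_real r1, LL_real r3] at heq
    have h3 : ll n y1.re = ll n y2.re := by exact_mod_cast heq
    have h4 := (ll_anti hn).injOn ⟨r1, r2.le⟩ ⟨r3, r4.le⟩ h3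
    rw [e1, e2, h4]
  · have := h2.2.1 g2
    rw [← him, LL_real_im h1.1 g1] at this
    exact absurd this (lt_irrefl _)
  · have := h1.2.1 g1
    have := h2.2.2.1 g2
    linarith
  · have := h1.2.1 g1
    rw [him, LL_real_im h2.1 g2] at this
    exact absurd this (lt_irrefl _)
  · exact LL_injOn_UH n g1 g2 heq

/-! ### surjectivity -/

theorem exists_angles (hn : 1 < n) (ξ : ℝ) {η : ℝ} (h1 : 0 < η) (h2 : η < Real.pi) :
    ∃ φ : ℝ, 0 < φ ∧ MM n * φ < Real.pi - η ∧
      MM n * Real.log (Real.sin (η + MM n * φ)) - Real.log (Real.sin φ) -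
        (MM n - 1) * Real.log (Real.sin (η + (MM n - 1) * φ)) = ξ := by
  have hM := MM_gt hn
  set M := MM n with hMdef
  set φ1 := (Real.pi - η) / M with hφ1
  have hφ1pos : 0 < φ1 := div_pos (by linarith) (by linarith)
  have hMφ1 : M * φ1 = Real.pi - η := by rw [hφ1]; field_simp
  have hφ1lt : φ1 < Real.pi := by nlinarith
  set R : ℝ → ℝ := fun φ => M * Real.log (Real.sin (η + M * φ)) - Real.log (Real.sin φ) -
        (M - 1) * Real.log (Real.sin (η + (M - 1) * φ)) with hR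
  -- positivity of the sines
  have p1 : ∀ φ ∈ Ioo 0 φ1, 0 < Real.sin (η + M * φ) := fun φ hφ =>
    Real.sin_pos_of_pos_of_lt_pi (by have := hφ.1; positivity) (by nlinarith [hφ.2])
  have p2 : ∀ φ ∈ Ioo 0 φ1, 0 < Real.sin φ := fun φ hφ =>
    Real.sin_pos_of_pos_of_lt_pi hφ.1 (by linarith [hφ.2])
  have p3 : ∀ φ ∈ Ioo 0 φ1, 0 < Real.sin (η + (M - 1) * φ) := fun φ hφ =>
    Real.sin_pos_of_pos_of_lt_pi (by nlinarith [hφ.1]) (by nlinarith [hφ.1, hφ.2])
  have hcont : ContinuousOn R (Ioo 0 φ1) := by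
    intro φ hφ
    have c1 : ContinuousAt (fun φ : ℝ => Real.log (Real.sin (η + M * φ))) φ :=
      ContinuousAt.log (by fun_prop) (p1 φ hφ).ne'
    have c2 : ContinuousAt (fun φ : ℝ => Real.log (Real.sin φ)) φ :=
      ContinuousAt.log (by fun_prop) (p2 φ hφ).ne'
    have c3 : ContinuousAt (fun φ : ℝ => Real.log (Real.sin (η + (M - 1) * φ))) φ :=
      ContinuousAt.log (by fun_prop) (p3 φ hφ).ne'
    exact (((continuousAt_const.mul c1).sub c2).sub
      (continuousAt_const.mul c3)).continuousWithinAt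
  -- limit at `0`
  have lim0 : Tendsto R (𝓝[>] 0) atTop := by
    have c1 : Tendsto (fun φ : ℝ => M * Real.log (Real.sin (η + M * φ))) (𝓝[>] 0)
        (𝓝 (M * Real.log (Real.sin (η + M * 0)))) := by
      refine Tendsto.mono_left ?_ nhdsWithin_le_nhds
      refine (ContinuousAt.log (by fun_prop) ?_).tendsto.const_mul M
      simp only [mul_zero, add_zero]
      exact (Real.sin_pos_of_pos_of_lt_pi h1 h2).ne'
    have c3 : Tendsto (fun φ : ℝ => (M - 1) * Real.log (Real.sin (η + (M - 1) * φ))) (𝓝[>] 0)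
        (𝓝 ((M - 1) * Real.log (Real.sin (η + (M - 1) * 0)))) := by
      refine Tendsto.mono_left ?_ nhdsWithin_le_nhds
      refine (ContinuousAt.log (by fun_prop) ?_).tendsto.const_mul (M - 1)
      simp only [mul_zero, add_zero]
      exact (Real.sin_pos_of_pos_of_lt_pi h1 h2).ne'
    have c2 : Tendsto (fun φ : ℝ => -Real.log (Real.sin φ)) (𝓝[>] 0) atTop := by
      refine tendsto_neg_atBot_atTop.comp (Real.tendsto_log_nhdsGT_zero.comp ?_)
      refine tendsto_nhdsWithin_iff.2 ⟨?_, ?_⟩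
      · have := (Real.continuous_sin.tendsto 0).mono_left (nhdsWithin_le_nhds (s := Ioi 0))
        rwa [Real.sin_zero] at this
      · filter_upwards [Ioo_mem_nhdsGT Real.pi_pos] with φ hφ
        exact Real.sin_pos_of_pos_of_lt_pi hφ.1 hφ.2
    have := (c1.add_atTop c2).atTop_add c3.neg
    refine this.congr fun φ => ?_
    simp only [hR]
    ring
  -- limit at `φ1`
  have lim1 : Tendsto R (𝓝[<] φ1) atBot := by
    have c1 : Tendsto (fun φ : ℝ => M * Real.log (Real.sin (η + M * φ))) (𝓝[<] φ1) atBot := by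
      refine Tendsto.const_mul_atBot (by linarith) (Real.tendsto_log_nhdsGT_zero.comp ?_)
      refine tendsto_nhdsWithin_iff.2 ⟨?_, ?_⟩
      · have h3 : Continuous (fun φ : ℝ => Real.sin (η + M * φ)) := by fun_prop
        have := (h3.tendsto φ1).mono_left (nhdsWithin_le_nhds (s := Iio φ1))
        rwa [hMφ1, add_sub_cancel, Real.sin_pi] at this
      · filter_upwards [Ioo_mem_nhdsLT hφ1pos] with φ hφ using p1 φ hφ
    have c2 : Tendsto (fun φ : ℝ => -Real.log (Real.sin φ)) (𝓝[<] φ1)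
        (𝓝 (-Real.log (Real.sin φ1))) := by
      refine Tendsto.mono_left ?_ nhdsWithin_le_nhds
      refine (ContinuousAt.log (by fun_prop) ?_).tendsto.neg
      exact (Real.sin_pos_of_pos_of_lt_pi hφ1pos hφ1lt).ne'
    have c3 : Tendsto (fun φ : ℝ => (M - 1) * Real.log (Real.sin (η + (M - 1) * φ))) (𝓝[<] φ1)
        (𝓝 ((M - 1) * Real.log (Real.sin (η + (M - 1) * φ1)))) := by
      refine Tendsto.mono_left ?_ nhdsWithin_le_nhds
      refine (ContinuousAt.log (by fun_prop) ?_).tendsto.const_mul (M - 1)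
      exact (Real.sin_pos_of_pos_of_lt_pi (by nlinarith) (by nlinarith)).ne'
    have := (c1.atBot_add c2).atBot_add c3.neg
    refine this.congr fun φ => ?_
    simp only [hR]
    ring
  obtain ⟨a, ha1, ha2⟩ := ((lim0.eventually (eventually_gt_atTop ξ)).and
    (Ioo_mem_nhdsGT hφ1pos)).exists
  obtain ⟨b, hb1, hb2⟩ := ((lim1.eventually (eventually_lt_atBot ξ)).and
    (Ioo_mem_nhdsLT hφ1pos)).exists
  have hsub : uIcc a b ⊆ Ioo 0 φ1 := by
    intro x hx
    rw [mem_uIcc] at hx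
    rcases hx with hx | hx
    · exact ⟨by linarith [ha2.1, hx.1], by linarith [hb2.2, hx.2]⟩
    · exact ⟨by linarith [hb2.1, hx.1], by linarith [ha2.2, hx.2]⟩
  obtain ⟨φ, hφ, hRφ⟩ := intermediate_value_uIcc (hcont.mono hsub)
    (show ξ ∈ uIcc (R a) (R b) by rw [mem_uIcc]; right; exact ⟨hb1.le, ha1.le⟩)
  have hφ' := hsub hφ
  refine ⟨φ, hφ'.1, ?_, hRφ⟩
  nlinarith [hφ'.2]

theorem exists_UH (hn : 1 < n) {v : ℂ} (h1 : -Real.pi < v.im) (h2 : v.im < 0) :
    ∃ b : ℂ, 0 < b.im ∧ LL n b = v := by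
  obtain ⟨φ, hφ0, hφ1, hφ2⟩ := exists_angles hn v.re (η := -v.im) (by linarith) (by linarith)
  have hM := MM_gt hn
  set M := MM n with hMdef
  set ψ := -v.im + M * φ with hψdef
  have hψ0 : φ < ψ := by nlinarith
  have hψ1 : ψ < Real.pi := by linarith
  have hs1 : 0 < Real.sin ψ := Real.sin_pos_of_pos_of_lt_pi (by linarith) hψ1
  have hs2 : 0 < Real.sin φ := Real.sin_pos_of_pos_of_lt_pi hφ0 (by linarith)
  have hs3 : 0 < Real.sin (ψ - φ) := Real.sin_pos_of_pos_of_lt_pi (by linarith) (by linarith)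
  have hψφ : -v.im + (M - 1) * φ = ψ - φ := by rw [hψdef]; ring
  rw [hψφ] at hφ2
  set b : ℂ := ((Real.sin ψ / Real.sin (ψ - φ) : ℝ) : ℂ) * (Real.cos φ + Real.sin φ * I) with hb
  have hb1 : b - 1 = ((Real.sin φ / Real.sin (ψ - φ) : ℝ) : ℂ) * (Real.cos ψ + Real.sin ψ * I) := by
    have h4 : (Real.sin (ψ - φ) : ℂ) ≠ 0 := by exact_mod_cast hs3.ne'
    have h5 : (Real.sin (ψ - φ) : ℂ) = Real.sin ψ * Real.cos φ - Real.cos ψ * Real.sin φ := by
      rw [Real.sin_sub]; push_cast; rfl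
    rw [hb]
    push_cast
    push_cast at h4 h5
    field_simp
    rw [h5]
    ring
  have harg : arg b = φ := by
    rw [hb]
    have := arg_mul_cos_add_sin_mul_I (div_pos hs1 hs3) (show φ ∈ Ioc (-Real.pi) Real.pi from
      ⟨by linarith, by linarith⟩)
    rw [ofReal_cos, ofReal_sin]
    exact this
  have harg1 : arg (b - 1) = ψ := by
    rw [hb1]
    have := arg_mul_cos_add_sin_mul_I (div_pos hs2 hs3) (show ψ ∈ Ioc (-Real.pi) Real.pi from
      ⟨by linarith, by linarith⟩)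
    rw [ofReal_cos, ofReal_sin]
    exact this
  have hunit : ∀ x : ℝ, ‖((Real.cos x : ℂ) + Real.sin x * I)‖ = 1 := by
    intro x
    rw [ofReal_cos, ofReal_sin, ← exp_mul_I, norm_exp_ofReal_mul_I]
  have hnorm : ‖b‖ = Real.sin ψ / Real.sin (ψ - φ) := by
    rw [hb, norm_mul, hunit, mul_one, Complex.norm_real, Real.norm_of_nonneg (by positivity)]
  have hnorm1 : ‖b - 1‖ = Real.sin φ / Real.sin (ψ - φ) := by
    rw [hb1, norm_mul, hunit, mul_one, Complex.norm_real, Real.norm_of_nonneg (by positivity)]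
  have hbim : 0 < b.im := by
    rw [← norm_mul_sin_arg b, harg, hnorm]
    positivity
  refine ⟨b, hbim, Complex.ext ?_ ?_⟩
  · rw [LL_re, hnorm, hnorm1, Real.log_div hs1.ne' hs3.ne', Real.log_div hs2.ne' hs3.ne', ← hφ2]
    ring
  · rw [LL_im, harg, harg1, hψdef]
    ring

/-- the target of `LL` on `WW` -/
def YY (n : ℝ) : Set ℂ := {v | -Real.pi < v.im ∧ v.im < Real.pi ∧ (v.im = 0 → ll n n < v.re)}

theorem exists_WW (hn : 1 < n) {v : ℂ} (hv : v ∈ YY n) : ∃ b ∈ WW n, LL n b = v := by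
  obtain ⟨h1, h2, h3⟩ := hv
  rcases lt_trichotomy v.im 0 with h | h | h
  · obtain ⟨b, hb, hLb⟩ := exists_UH hn h1 h
    refine ⟨b, ⟨slit_of_im hb.ne', fun _ => by rw [hLb]; exact h,
      fun h' => absurd h' (not_lt.2 hb.le), fun h' => absurd h' hb.ne'⟩, hLb⟩
  · have h4 := h3 h
    -- real case
    have hlim : Tendsto (ll n) (𝓝[>] 1) atTop := by
      have c1 : Tendsto (fun x : ℝ => MM n * Real.log x) (𝓝[>] 1) (𝓝 (MM n * Real.log 1)) :=
        ((Real.continuousAt_log one_ne_zero).tendsto.const_mul _).mono_left nhdsWithin_le_nhds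
      have c2 : Tendsto (fun x : ℝ => -Real.log (x - 1)) (𝓝[>] 1) atTop := by
        refine tendsto_neg_atBot_atTop.comp (Real.tendsto_log_nhdsGT_zero.comp ?_)
        refine tendsto_nhdsWithin_iff.2 ⟨?_, ?_⟩
        · have : Tendsto (fun x : ℝ => x - 1) (𝓝 1) (𝓝 (1 - 1)) := tendsto_id.sub_const 1
          rw [sub_self] at this
          exact this.mono_left nhdsWithin_le_nhds
        · filter_upwards [self_mem_nhdsWithin] with x hx
          simpa using hx
      refine (c1.add_atTop c2).congr fun x => ?_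
      unfold ll
      ring
    obtain ⟨x, hx1, hx2⟩ := ((hlim.eventually (eventually_gt_atTop v.re)).and
      (Ioo_mem_nhdsGT hn)).exists
    obtain ⟨r, hr, hrv⟩ := intermediate_value_Icc' hx2.2.le
      (ll_cont.mono fun z hz => lt_of_lt_of_le hx2.1 hz.1)
      (show v.re ∈ Icc (ll n n) (ll n x) from ⟨h4.le, hx1.le⟩)
    have hr1 : 1 < r := lt_of_lt_of_le hx2.1 hr.1
    have hrn : r < n := by
      refine lt_of_le_of_ne hr.2 ?_
      rintro rfl
      linarith
    refine ⟨(r : ℂ), ⟨Or.inl (by simpa using hr1), fun h' => ?_, fun h' => ?_,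
      fun _ => by rw [ofReal_re]; exact hrn⟩, ?_⟩
    · rw [ofReal_im] at h'; exact absurd h' (lt_irrefl _)
    · rw [ofReal_im] at h'; exact absurd h' (lt_irrefl _)
    · rw [LL_real hr1]
      exact Complex.ext (by rw [ofReal_re, hrv]) (by rw [ofReal_im, h])
  · obtain ⟨b, hb, hLb⟩ := exists_UH hn (v := (starRingEnd ℂ) v) (by rw [conj_im]; linarith)
      (by rw [conj_im]; linarith)
    have hs : b - 1 ∈ slitPlane := slit_of_im hb.ne'
    have hL2 : LL n ((starRingEnd ℂ) b) = v := by rw [LL_conj hs, hLb, conj_conj]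
    have hbi : ((starRingEnd ℂ) b).im < 0 := by rw [conj_im]; linarith
    refine ⟨(starRingEnd ℂ) b, ⟨slit_conj hs, fun h' => absurd h' (not_lt.2 hbi.le),
      fun _ => by rw [hL2]; exact h, fun h' => absurd h' hbi.ne⟩, hL2⟩

theorem LL_pos_of_D2 (hn : 1 < n) {a : ℂ} (ha : a ∈ D2 n) (h : 0 < a.im) :
    0 < (LL n a).im ∧ (LL n a).im < Real.pi := by
  obtain ⟨a1, a2, a3, -, -⟩ := angles h
  constructor
  · by_contra hcon
    push Not at hcon
    rw [LL_im] at hcon
    have := norm_lt hn h (by linarith)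
    linarith [ha.1]
  · rw [LL_im]
    have := ha.2.2
    rw [abs_of_pos a1] at this
    linarith

theorem LL_mem_YY (hn : 1 < n) {a : ℂ} (ha : a ∈ D2 n) : LL n a ∈ YY n := by
  have hs := D2_slit hn ha
  have hpi := Real.pi_pos
  rcases lt_trichotomy a.im 0 with h | h | h
  · have h1 := LL_pos_of_D2 hn (D2_conj ha) (by rw [conj_im]; linarith)
    rw [LL_conj hs, conj_im] at h1
    exact ⟨by linarith [h1.2], by linarith [h1.1], fun h' => by linarith [h1.1]⟩
  · have h5 := LL_real_im (n := n) hs h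
    have e1 : a = ((a.re : ℝ) : ℂ) := Complex.ext rfl (by simpa using h)
    have h0 : 0 < a.re := by
      rcases ha.2.1 with h2 | h2
      · exact h2
      · exact absurd h h2
    have h6 : n < a.re := by
      have h2 := ha.1
      rwa [e1, Complex.norm_real, Real.norm_of_nonneg h0.le] at h2
    refine ⟨by rw [h5]; linarith, by rw [h5]; exact hpi, fun _ => ?_⟩
    rw [e1, LL_real (by linarith), ofReal_re]
    exact ll_mono hn (mem_Ici.2 le_rfl) (mem_Ici.2 h6.le) h6
  · have := LL_pos_of_D2 hn ha h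
    exact ⟨by linarith [this.1], this.2, fun h' => absurd h' this.1.ne'⟩

/-! ### the chord involution -/

/-- inverse of `LL` on `WW` -/
def KK (n : ℝ) : ℂ → ℂ := Function.invFunOn (LL n) (WW n)

theorem KK_spec (hn : 1 < n) {v : ℂ} (hv : v ∈ YY n) : KK n v ∈ WW n ∧ LL n (KK n v) = v := by
  obtain ⟨b, hb, hLb⟩ := exists_WW hn hv
  exact ⟨Function.invFunOn_mem ⟨b, hb, hLb⟩, Function.invFunOn_eq ⟨b, hb, hLb⟩⟩

theorem KK_eq (hn : 1 < n) {b : ℂ} (hb : b ∈ WW n) : KK n (LL n b) = b := by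
  have h1 : KK n (LL n b) ∈ WW n := Function.invFunOn_mem ⟨b, hb, rfl⟩
  have h2 : LL n (KK n (LL n b)) = LL n b := Function.invFunOn_eq ⟨b, hb, rfl⟩
  exact LL_injOn_WW hn h1 hb h2

theorem WW_ne {b : ℂ} (hb : b ∈ WW n) : b ≠ (n : ℂ) := by
  rintro rfl
  have := hb.2.2.2 (ofReal_im _)
  rw [ofReal_re] at this
  exact lt_irrefl _ this

theorem WW_ne_zero {b : ℂ} (hb : b ∈ WW n) : b ≠ 0 := slitPlane_ne_zero (slit1 hb.1)

theorem KK_an (hn : 1 < n) {v : ℂ} (hv : v ∈ YY n) :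
    AnalyticAt ℂ (KK n) v ∧ deriv (KK n) v ≠ 0 := by
  obtain ⟨h1, h2⟩ := KK_spec hn hv
  have hL := LL_an (n := n) h1.1
  have hd : deriv (LL n) (KK n v) ≠ 0 := by
    rw [(LL_hasDerivAt h1.1).deriv]
    exact dLL_ne hn h1.1 (WW_ne h1)
  set J := hL.hasStrictDerivAt.localInverse _ _ _ hd with hJ
  have hJa : AnalyticAt ℂ J (LL n (KK n v)) := hL.analyticAt_localInverse hd
  have hJv : J (LL n (KK n v)) = KK n v := HasStrictFDerivAt.localInverse_apply_image ..
  have hJr : ∀ᶠ y in 𝓝 (LL n (KK n v)), LL n (J y) = y :=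
    HasStrictDerivAt.eventually_right_inverse ..
  have hJd : deriv J (LL n (KK n v)) ≠ 0 := by
    rw [hJ, (hL.hasStrictDerivAt.to_localInverse hd).hasDerivAt.deriv]
    exact inv_ne_zero hd
  rw [h2] at hJa hJv hJr hJd
  have hev : ∀ᶠ y in 𝓝 v, J y ∈ WW n := by
    refine hJa.continuousAt.eventually_mem ?_
    rw [hJv]
    exact (isOpen_WW hn).mem_nhds h1
  have heq : KK n =ᶠ[𝓝 v] J := by
    filter_upwards [hJr, hev] with y g1 g2
    have := KK_eq hn g2
    rwa [g1] at this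
  exact ⟨hJa.congr heq.symm, by rw [heq.deriv_eq]; exact hJd⟩

/-- the chord involution -/
def PP (n : ℝ) (a : ℂ) : ℂ := KK n (LL n a)

/-- the dynamics -/
def TT (n : ℝ) (a : ℂ) : ℂ := (n : ℂ) ^ 2 / PP n a

theorem PP_mem (hn : 1 < n) {a : ℂ} (ha : a ∈ D2 n) : PP n a ∈ WW n :=
  (KK_spec hn (LL_mem_YY hn ha)).1

theorem LL_PP (hn : 1 < n) {a : ℂ} (ha : a ∈ D2 n) : LL n (PP n a) = LL n a :=
  (KK_spec hn (LL_mem_YY hn ha)).2

theorem PP_eq (hn : 1 < n) {a b : ℂ} (hb : b ∈ WW n) (h : LL n b = LL n a) : PP n a = b := by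
  unfold PP
  rw [← h, KK_eq hn hb]

theorem TT_mem (hn : 1 < n) {a : ℂ} (ha : a ∈ D2 n) : TT n a ∈ D2 n :=
  (inv_mem hn (PP_mem hn ha)).1

theorem D2_ne (hn : 1 < n) {a : ℂ} (ha : a ∈ D2 n) : a ≠ (n : ℂ) := by
  rintro rfl
  have := ha.1
  rw [Complex.norm_real, Real.norm_of_nonneg (by linarith)] at this
  exact lt_irrefl _ this

theorem PP_an (hn : 1 < n) {a : ℂ} (ha : a ∈ D2 n) :
    AnalyticAt ℂ (PP n) a ∧ deriv (PP n) a ≠ 0 := by
  obtain ⟨h1, h2⟩ := KK_an hn (LL_mem_YY hn ha)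
  have hs := D2_slit hn ha
  have h3 := LL_an (n := n) hs
  refine ⟨h1.fun_comp h3, ?_⟩
  have h4 : HasDerivAt (PP n) (deriv (KK n) (LL n a) * ((MM n : ℂ) / a - 1 / (a - 1))) a :=
    h1.differentiableAt.hasDerivAt.comp a (LL_hasDerivAt hs)
  rw [h4.deriv]
  exact mul_ne_zero h2 (dLL_ne hn hs (D2_ne hn ha))

theorem TT_an (hn : 1 < n) {a : ℂ} (ha : a ∈ D2 n) :
    AnalyticAt ℂ (TT n) a ∧ deriv (TT n) a ≠ 0 := by
  obtain ⟨h1, h2⟩ := PP_an hn ha
  have h0 := WW_ne_zero (PP_mem hn ha)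
  have hn0 : (n : ℂ) ≠ 0 := by
    have : n ≠ 0 := by linarith
    exact_mod_cast this
  refine ⟨analyticAt_const.div h1 h0, ?_⟩
  have h4 : HasDerivAt (TT n) ((0 * PP n a - (n : ℂ) ^ 2 * deriv (PP n) a) / (PP n a) ^ 2) a :=
    (hasDerivAt_const a ((n : ℂ) ^ 2)).div h1.differentiableAt.hasDerivAt h0
  rw [h4.deriv]
  refine div_ne_zero ?_ (pow_ne_zero _ h0)
  rw [zero_mul, zero_sub]
  exact neg_ne_zero.2 (mul_ne_zero (pow_ne_zero _ hn0) h2)

theorem PP_conj (hn : 1 < n) {a : ℂ} (ha : a ∈ D2 n) :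
    PP n ((starRingEnd ℂ) a) = (starRingEnd ℂ) (PP n a) := by
  refine PP_eq hn (WW_conj (PP_mem hn ha)) ?_
  rw [LL_conj (PP_mem hn ha).1, LL_PP hn ha, LL_conj (D2_slit hn ha)]

theorem TT_conj (hn : 1 < n) {a : ℂ} (ha : a ∈ D2 n) :
    TT n ((starRingEnd ℂ) a) = (starRingEnd ℂ) (TT n a) := by
  unfold TT
  rw [PP_conj hn ha, map_div₀, map_pow, conj_ofReal]

end Crest.Agent.R102.Iso297
end
end

-- ▼ part R102/IsoEnd_799
section

/-!
# Row 102, isotropic end (helper799): the end of the explicit curve (leaf E' of helper297)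
-/

set_option autoImplicit false

open Complex Set Filter Topology

noncomputable section

namespace Crest.Agent.R102.IsoEnd799

open Crest.Agent.R102.Iso297

variable {n : ℝ}

/-- the explicit curve `Im LL = 0` -/
def BB (n θ : ℝ) : ℂ :=
  ((Real.sin (n * θ / 2) / Real.sin (θ / 2) : ℝ) : ℂ) * Complex.exp (((n - 1) * θ / 2 : ℝ) * I)

/-- the reflected curve -/
def zz (n θ : ℝ) : ℂ := (n : ℂ) ^ 2 / BB n θ

/-- the chord of the reflected curve -/
def wv (n θ : ℝ) : ℂ := PP n (zz n θ)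

theorem ang (hn : 1 < n) {θ : ℝ} (h : θ ∈ Ioo 0 (2 * Real.pi / n)) :
    0 < n * θ / 2 ∧ n * θ / 2 < Real.pi ∧ 0 < θ / 2 ∧ θ / 2 < Real.pi ∧
    0 < (n - 1) * θ / 2 ∧ (n - 1) * θ / 2 < Real.pi := by
  have hpi := Real.pi_pos
  have h0 := h.1
  have h1 : n * θ < 2 * Real.pi := by
    have := h.2
    rw [lt_div_iff₀ (by linarith)] at this
    linarith
  have h2 : 0 < (n - 1) * θ := mul_pos (by linarith) h0
  have h3 : 0 < n * θ := by nlinarith
  refine ⟨by linarith, by linarith, by linarith, by nlinarith, by linarith, by nlinarith⟩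

theorem exp_eq (x : ℝ) : Complex.exp ((x : ℝ) * I) = Real.cos x + Real.sin x * I := by
  rw [Complex.exp_mul_I, ofReal_cos, ofReal_sin]

theorem BB_norm (hn : 1 < n) {θ : ℝ} (h : θ ∈ Ioo 0 (2 * Real.pi / n)) :
    ‖BB n θ‖ = Real.sin (n * θ / 2) / Real.sin (θ / 2) := by
  obtain ⟨h1, h2, h3, h4, h5, h6⟩ := ang hn h
  have hs1 := Real.sin_pos_of_pos_of_lt_pi h1 h2
  have hs2 := Real.sin_pos_of_pos_of_lt_pi h3 h4
  unfold BB
  rw [norm_mul, norm_exp_ofReal_mul_I, mul_one, Complex.norm_real,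
    Real.norm_of_nonneg (by positivity)]

theorem BB_arg (hn : 1 < n) {θ : ℝ} (h : θ ∈ Ioo 0 (2 * Real.pi / n)) :
    arg (BB n θ) = (n - 1) * θ / 2 := by
  obtain ⟨h1, h2, h3, h4, h5, h6⟩ := ang hn h
  have hs1 := Real.sin_pos_of_pos_of_lt_pi h1 h2
  have hs2 := Real.sin_pos_of_pos_of_lt_pi h3 h4
  unfold BB
  rw [exp_eq, ofReal_cos, ofReal_sin]
  exact arg_mul_cos_add_sin_mul_I (div_pos hs1 hs2) ⟨by linarith [Real.pi_pos], h6.le⟩

theorem BB_sub_one (hn : 1 < n) {θ : ℝ} (h : θ ∈ Ioo 0 (2 * Real.pi / n)) :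
    BB n θ - 1 = ((Real.sin ((n - 1) * θ / 2) / Real.sin (θ / 2) : ℝ) : ℂ) *
      (Real.cos (n * θ / 2) + Real.sin (n * θ / 2) * I) := by
  obtain ⟨h1, h2, h3, h4, h5, h6⟩ := ang hn h
  have hs2 := Real.sin_pos_of_pos_of_lt_pi h3 h4
  have h7 : (Real.sin (θ / 2) : ℂ) ≠ 0 := by exact_mod_cast hs2.ne'
  have h8 : (Real.sin (θ / 2) : ℂ) =
      Real.sin (n * θ / 2) * Real.cos ((n - 1) * θ / 2) -
        Real.cos (n * θ / 2) * Real.sin ((n - 1) * θ / 2) := by
    have : θ / 2 = n * θ / 2 - (n - 1) * θ / 2 := by ring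
    rw [this, Real.sin_sub]
    push_cast
    rfl
  have key : ∀ (s c s' c' r : ℂ), r ≠ 0 → r = s * c' - c * s' →
      s / r * (c' + s' * I) - 1 = s' / r * (c + s * I) := by
    intro s c s' c' r hr h
    field_simp
    linear_combination -h
  unfold BB
  rw [exp_eq]
  rw [Complex.ofReal_div, Complex.ofReal_div]
  exact key _ _ _ _ _ h7 h8

theorem BB_sub_one_arg (hn : 1 < n) {θ : ℝ} (h : θ ∈ Ioo 0 (2 * Real.pi / n)) :
    arg (BB n θ - 1) = n * θ / 2 := by
  obtain ⟨h1, h2, h3, h4, h5, h6⟩ := ang hn h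
  have hs1 := Real.sin_pos_of_pos_of_lt_pi h5 h6
  have hs2 := Real.sin_pos_of_pos_of_lt_pi h3 h4
  rw [BB_sub_one hn h, ofReal_cos, ofReal_sin]
  exact arg_mul_cos_add_sin_mul_I (div_pos hs1 hs2) ⟨by linarith [Real.pi_pos], h2.le⟩

theorem BB_im (hn : 1 < n) {θ : ℝ} (h : θ ∈ Ioo 0 (2 * Real.pi / n)) : 0 < (BB n θ).im := by
  obtain ⟨h1, h2, h3, h4, h5, h6⟩ := ang hn h
  have hs1 := Real.sin_pos_of_pos_of_lt_pi h1 h2
  have hs2 := Real.sin_pos_of_pos_of_lt_pi h3 h4
  rw [← norm_mul_sin_arg, BB_norm hn h, BB_arg hn h]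
  exact mul_pos (div_pos hs1 hs2) (Real.sin_pos_of_pos_of_lt_pi h5 h6)

theorem LL_BB (hn : 1 < n) {θ : ℝ} (h : θ ∈ Ioo 0 (2 * Real.pi / n)) :
    (LL n (BB n θ)).im = 0 := by
  rw [LL_im, BB_arg hn h, BB_sub_one_arg hn h]
  unfold MM
  have : n - 1 ≠ 0 := by linarith
  field_simp
  ring

theorem zz_mem (hn : 1 < n) {θ : ℝ} (h : θ ∈ Ioo 0 (2 * Real.pi / n)) :
    zz n θ ∈ D2 n ∧ arg (zz n θ) = -((n - 1) * θ / 2) := by
  obtain ⟨h1, h2, -⟩ := inv_mem_of_pos hn (BB_im hn h) (LL_BB hn h).le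
  rw [BB_arg hn h] at h2
  exact ⟨h1, h2⟩

theorem zz_norm (hn : 1 < n) {θ : ℝ} (h : θ ∈ Ioo 0 (2 * Real.pi / n)) :
    ‖zz n θ‖ = n ^ 2 / (Real.sin (n * θ / 2) / Real.sin (θ / 2)) := by
  unfold zz
  rw [norm_div, norm_pow, Complex.norm_real, Real.norm_of_nonneg (by linarith), BB_norm hn h]

theorem Ioo_mem (hn : 1 < n) : Ioo 0 (2 * Real.pi / n) ∈ 𝓝[<] (2 * Real.pi / n) :=
  Ioo_mem_nhdsLT (div_pos (by linarith [Real.pi_pos]) (by linarith))

theorem zz_tendsto (hn : 1 < n) :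
    Tendsto (fun θ => ‖zz n θ‖) (𝓝[<] (2 * Real.pi / n)) atTop := by
  have hpi := Real.pi_pos
  have hn0 : (n : ℝ) ≠ 0 := by linarith
  -- the norm of BB tends to 0 from above
  have hs2 : 0 < Real.sin (2 * Real.pi / n / 2) := by
    apply Real.sin_pos_of_pos_of_lt_pi
    · have : 0 < n := by linarith
      positivity
    · rw [div_lt_iff₀ (by norm_num), div_lt_iff₀ (by linarith)]
      nlinarith
  have h1 : Tendsto (fun θ : ℝ => Real.sin (n * θ / 2) / Real.sin (θ / 2))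
      (𝓝[<] (2 * Real.pi / n)) (𝓝[>] 0) := by
    refine tendsto_nhdsWithin_iff.2 ⟨?_, ?_⟩
    · have hc : ContinuousAt (fun θ : ℝ => Real.sin (n * θ / 2) / Real.sin (θ / 2))
          (2 * Real.pi / n) := by
        refine ContinuousAt.div (by fun_prop) (by fun_prop) hs2.ne'
      have := hc.tendsto.mono_left (nhdsWithin_le_nhds (s := Iio (2 * Real.pi / n)))
      have e : Real.sin (n * (2 * Real.pi / n) / 2) = 0 := by
        have : n * (2 * Real.pi / n) / 2 = Real.pi := by field_simp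
        rw [this, Real.sin_pi]
      simp only [e, zero_div] at this
      exact this
    · filter_upwards [Ioo_mem hn] with θ hθ
      obtain ⟨a1, a2, a3, a4, -, -⟩ := ang hn hθ
      exact div_pos (Real.sin_pos_of_pos_of_lt_pi a1 a2) (Real.sin_pos_of_pos_of_lt_pi a3 a4)
  have h2 : Tendsto (fun θ : ℝ => n ^ 2 * (Real.sin (n * θ / 2) / Real.sin (θ / 2))⁻¹)
      (𝓝[<] (2 * Real.pi / n)) atTop :=
    (h1.inv_tendsto_nhdsGT_zero).const_mul_atTop (by positivity)
  refine h2.congr' ?_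
  filter_upwards [Ioo_mem hn] with θ hθ
  rw [zz_norm hn hθ]
  exact (div_eq_mul_inv _ _).symm

/-- **E' (ii)** -/
theorem wv_tendsto (hn : 1 < n) :
    Tendsto (fun θ => wv n θ) (𝓝[<] (2 * Real.pi / n)) (𝓝 1) := by
  have hM := MM_gt hn
  have hz := zz_tendsto hn
  -- `log ‖z‖`
  have hlog : Tendsto (fun θ => Real.log ‖zz n θ‖) (𝓝[<] (2 * Real.pi / n)) atTop :=
    Real.tendsto_log_atTop.comp hz
  have hup : ∀ᶠ θ in 𝓝[<] (2 * Real.pi / n), ‖wv n θ - 1‖ ≤
      Real.exp (MM n * Real.log n + Real.log 2 - (MM n - 1) * Real.log ‖zz n θ‖) := by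
    filter_upwards [Ioo_mem hn, hz.eventually_ge_atTop 1] with θ hθ hz1
    have hmem := (zz_mem hn hθ).1
    have hw := PP_mem hn hmem
    have hLL := LL_PP hn hmem
    have hwn := (inv_mem hn hw).2
    have hw1 : PP n (zz n θ) - 1 ≠ 0 := slitPlane_ne_zero hw.1
    have hw0 : PP n (zz n θ) ≠ 0 := WW_ne_zero hw
    have hre := congrArg Complex.re hLL
    rw [LL_re, LL_re] at hre
    have hzm : ‖zz n θ - 1‖ ≤ 2 * ‖zz n θ‖ := by
      calc ‖zz n θ - 1‖ ≤ ‖zz n θ‖ + ‖(1 : ℂ)‖ := norm_sub_le _ _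
        _ ≤ 2 * ‖zz n θ‖ := by rw [norm_one]; linarith
    have hz1' : zz n θ - 1 ≠ 0 := slitPlane_ne_zero (D2_slit hn hmem)
    have hz0 : 0 < ‖zz n θ‖ := by linarith
    have h3 : Real.log ‖zz n θ - 1‖ ≤ Real.log 2 + Real.log ‖zz n θ‖ := by
      rw [← Real.log_mul (by norm_num) hz0.ne']
      exact Real.log_le_log (norm_pos_iff.2 hz1') hzm
    have h4 : Real.log ‖PP n (zz n θ)‖ ≤ Real.log n :=
      Real.log_le_log (norm_pos_iff.2 hw0) hwn.le
    have h5 : Real.log ‖wv n θ - 1‖ ≤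
        MM n * Real.log n + Real.log 2 - (MM n - 1) * Real.log ‖zz n θ‖ := by
      unfold wv
      nlinarith
    calc ‖wv n θ - 1‖ = Real.exp (Real.log ‖wv n θ - 1‖) :=
          (Real.exp_log (norm_pos_iff.2 hw1)).symm
      _ ≤ _ := Real.exp_le_exp.2 h5
  have hlim : Tendsto (fun θ => Real.exp (MM n * Real.log n + Real.log 2 -
      (MM n - 1) * Real.log ‖zz n θ‖)) (𝓝[<] (2 * Real.pi / n)) (𝓝 0) := by
    refine Real.tendsto_exp_atBot.comp ?_
    have h1 : Tendsto (fun θ => (MM n - 1) * Real.log ‖zz n θ‖) (𝓝[<] (2 * Real.pi / n)) atTop :=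
      hlog.const_mul_atTop (by linarith)
    have h2 := tendsto_neg_atTop_atBot.comp h1
    have h3 := tendsto_atBot_add_const_left _ (MM n * Real.log n + Real.log 2) h2
    refine h3.congr fun θ => ?_
    simp [sub_eq_add_neg]
  rw [tendsto_iff_norm_sub_tendsto_zero]
  exact tendsto_of_tendsto_of_tendsto_of_le_of_le' tendsto_const_nhds hlim
    (Eventually.of_forall fun _ => norm_nonneg _) hup

/-- exact formula on the curve -/
theorem wv_formula (hn : 1 < n) {θ : ℝ} (h : θ ∈ Ioo 0 (2 * Real.pi / n)) :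
    ((‖zz n θ‖ ^ (1 / (n - 1)) : ℝ) : ℂ) * (wv n θ - 1) =
      Complex.exp ((MM n : ℂ) * Complex.log (wv n θ)) * (1 - (zz n θ)⁻¹) *
        Complex.exp ((θ / 2 : ℝ) * I) := by
  obtain ⟨hmem, harg⟩ := zz_mem hn h
  have hw := PP_mem hn hmem
  have hLL := LL_PP hn hmem
  have hw1 : PP n (zz n θ) - 1 ≠ 0 := slitPlane_ne_zero hw.1
  have hz1 : zz n θ - 1 ≠ 0 := slitPlane_ne_zero (D2_slit hn hmem)
  have hz0 : zz n θ ≠ 0 := slitPlane_ne_zero hmem.2.1
  have hn1 : n - 1 ≠ 0 := by linarith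
  have hMM : MM n = 1 + 1 / (n - 1) := by unfold MM; field_simp; ring
  have e1 : wv n θ - 1 = Complex.exp ((MM n : ℂ) * Complex.log (wv n θ)) *
      (Complex.exp (-((MM n : ℂ) * Complex.log (zz n θ))) * (zz n θ - 1)) := by
    have h1 : Complex.log (wv n θ - 1) =
        (MM n : ℂ) * Complex.log (wv n θ) - (MM n : ℂ) * Complex.log (zz n θ) +
          Complex.log (zz n θ - 1) := by
      unfold LL at hLL
      unfold wv
      linear_combination -hLL
    calc wv n θ - 1 = Complex.exp (Complex.log (wv n θ - 1)) := (Complex.exp_log hw1).symm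
      _ = _ := by
        rw [h1, Complex.exp_add, Complex.exp_log hz1, sub_eq_add_neg, Complex.exp_add]; ring
  have e2 : Complex.exp (-((MM n : ℂ) * Complex.log (zz n θ))) * (zz n θ - 1) *
      ((‖zz n θ‖ ^ (1 / (n - 1)) : ℝ) : ℂ) = (1 - (zz n θ)⁻¹) * Complex.exp ((θ / 2 : ℝ) * I) := by
    have hnz : 0 < ‖zz n θ‖ := norm_pos_iff.2 hz0
    have h1 : Complex.log (zz n θ) = (Real.log ‖zz n θ‖ : ℂ) + (-((n - 1) * θ / 2) : ℝ) * I := by
      rw [← harg]
      exact Complex.ext (by simp [log_re]) (by simp [log_im])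
    have h2 : ((‖zz n θ‖ ^ (1 / (n - 1)) : ℝ) : ℂ) =
        Complex.exp ((Real.log ‖zz n θ‖ * (1 / (n - 1)) : ℝ)) := by
      rw [Real.rpow_def_of_pos hnz, ofReal_exp]
    have h3 : Complex.exp (-((MM n : ℂ) * Complex.log (zz n θ))) *
        ((‖zz n θ‖ ^ (1 / (n - 1)) : ℝ) : ℂ) =
        (zz n θ)⁻¹ * Complex.exp ((θ / 2 : ℝ) * I) := by
      have h4 : (zz n θ)⁻¹ = Complex.exp (-Complex.log (zz n θ)) := by
        rw [Complex.exp_neg, Complex.exp_log hz0]
      rw [h4, h2, ← Complex.exp_add, ← Complex.exp_add]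
      congr 1
      rw [h1, hMM]
      have hn1' : (n : ℂ) - 1 ≠ 0 := by exact_mod_cast hn1
      push_cast
      field_simp
      ring
    calc _ = (Complex.exp (-((MM n : ℂ) * Complex.log (zz n θ))) *
        ((‖zz n θ‖ ^ (1 / (n - 1)) : ℝ) : ℂ)) * (zz n θ - 1) := by ring
      _ = _ := by
        rw [h3]
        have : (1 : ℂ) - (zz n θ)⁻¹ = (zz n θ)⁻¹ * (zz n θ - 1) := by
          field_simp
        rw [this]; ring
  calc _ = Complex.exp ((MM n : ℂ) * Complex.log (wv n θ)) *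
      (Complex.exp (-((MM n : ℂ) * Complex.log (zz n θ))) * (zz n θ - 1) *
      ((‖zz n θ‖ ^ (1 / (n - 1)) : ℝ) : ℂ)) := by
        nth_rw 1 [e1]; ring
    _ = _ := by rw [e2]; ring

/-- **E' (iii)** -/
theorem wv_asymp (hn : 1 < n) :
    Tendsto (fun θ => ((‖zz n θ‖ ^ (1 / (n - 1)) : ℝ) : ℂ) * (wv n θ - 1))
      (𝓝[<] (2 * Real.pi / n)) (𝓝 (Complex.exp ((Real.pi / n : ℝ) * I))) := by
  have hw := wv_tendsto hn
  have hz := zz_tendsto hn
  have h1 : Tendsto (fun θ => Complex.exp ((MM n : ℂ) * Complex.log (wv n θ)))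
      (𝓝[<] (2 * Real.pi / n)) (𝓝 1) := by
    have hc : ContinuousAt (fun w : ℂ => Complex.exp ((MM n : ℂ) * Complex.log w)) 1 := by
      refine ContinuousAt.cexp (ContinuousAt.mul continuousAt_const ?_)
      exact continuousAt_clog (by simp)
    have := hc.tendsto.comp hw
    simp only [Complex.log_one, mul_zero, Complex.exp_zero] at this
    exact this
  have h2 : Tendsto (fun θ => 1 - (zz n θ)⁻¹) (𝓝[<] (2 * Real.pi / n)) (𝓝 1) := by
    have h3 : Tendsto (fun θ => (zz n θ)⁻¹) (𝓝[<] (2 * Real.pi / n)) (𝓝 0) := by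
      rw [tendsto_zero_iff_norm_tendsto_zero]
      refine (tendsto_inv_atTop_zero.comp hz).congr fun θ => ?_
      simp
    simpa using h3.const_sub 1
  have h4 : Tendsto (fun θ : ℝ => Complex.exp ((θ / 2 : ℝ) * I)) (𝓝[<] (2 * Real.pi / n))
      (𝓝 (Complex.exp ((Real.pi / n : ℝ) * I))) := by
    have hc : Continuous (fun θ : ℝ => Complex.exp ((θ / 2 : ℝ) * I)) := by fun_prop
    have := (hc.tendsto (2 * Real.pi / n)).mono_left
      (nhdsWithin_le_nhds (s := Iio (2 * Real.pi / n)))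
    have e : 2 * Real.pi / n / 2 = Real.pi / n := by ring
    rwa [e] at this
  have h5 := (h1.mul h2).mul h4
  rw [one_mul, one_mul] at h5
  refine h5.congr' ?_
  filter_upwards [Ioo_mem hn] with θ hθ
  exact (wv_formula hn hθ).symm

end Crest.Agent.R102.IsoEnd799
end
end

-- ▼ part R102/Iso3_297

/-!
# Row 102, (T5), isotropic end, `n > 1`: the one-dimensional theorem (helper297)

`LL n (n e^{F t}) = LL n (n e^{-F(t/(1+t))})`, `F` an odd real germ, `F'(0) > 0`, `n > 1` ⟹ `n = 2`.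
-/

set_option autoImplicit false

open Complex Set Filter Topology Metric

noncomputable section

namespace Crest.Agent.R102.Iso3297

open Crest.Agent.R102.Iso297 Crest.Agent.R102.Petal297 Crest.Agent.R102.IsoEnd799

/-- the germ of the isotropic end -/
structure GermI (n : ℝ) (F : ℂ → ℂ) : Prop where
  hn : 1 < n
  an : AnalyticAt ℂ F 0
  odd : ∀ᶠ t in 𝓝 (0 : ℂ), F (-t) = -F t
  real : ∀ᶠ t in 𝓝 (0 : ℂ), F ((starRingEnd ℂ) t) = (starRingEnd ℂ) (F t)
  der : ∃ g : ℝ, 0 < g ∧ deriv F 0 = (g : ℂ)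
  eq : ∀ᶠ t in 𝓝 (0 : ℂ), LL n (n * exp (F t)) = LL n (n * exp (-(F (t / (1 + t)))))

variable {n : ℝ} {F : ℂ → ℂ}

/-- mean value inequality, real part of the slope -/
theorem slope_re_pos {f : ℂ → ℂ} {f' : ℂ → ℂ} {s : Set ℂ} (hs : Convex ℝ s)
    (hf : ∀ z ∈ s, HasDerivAt f (f' z) z) (hp : ∀ z ∈ s, 0 < (f' z).re) {z1 z2 : ℂ}
    (h1 : z1 ∈ s) (h2 : z2 ∈ s) (hne : z1 ≠ z2) : 0 < ((f z2 - f z1) / (z2 - z1)).re := by
  have hd : z2 - z1 ≠ 0 := sub_ne_zero.2 (Ne.symm hne)
  have hseg : ∀ t : ℝ, t ∈ Icc (0 : ℝ) 1 → z1 + (t : ℂ) * (z2 - z1) ∈ s := by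
    intro t ht
    have := hs h1 h2 (show 0 ≤ 1 - t by linarith [ht.2]) ht.1 (by ring)
    have e : z1 + (t : ℂ) * (z2 - z1) = (1 - t) • z1 + t • z2 := by
      rw [real_smul, real_smul]; push_cast; ring
    rw [e]; exact this
  set g : ℝ → ℝ := fun t => (f (z1 + (t : ℂ) * (z2 - z1)) / (z2 - z1)).re with hg
  have hder : ∀ t ∈ Icc (0 : ℝ) 1, HasDerivAt g ((f' (z1 + (t : ℂ) * (z2 - z1))).re) t := by
    intro t ht
    have e1 : HasDerivAt (fun t : ℝ => z1 + (t : ℂ) * (z2 - z1)) (z2 - z1) t := by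
      have := ((hasDerivAt_id t).ofReal_comp.mul_const (z2 - z1)).const_add z1
      simpa using this
    have e2 := ((hf _ (hseg t ht)).comp t e1).div_const (z2 - z1)
    have e3 : HasFDerivAt (fun w : ℂ => w.re) reCLM
        ((fun t : ℝ => (f ∘ fun t : ℝ => z1 + (t : ℂ) * (z2 - z1)) t / (z2 - z1)) t) :=
      reCLM.hasFDerivAt
    have e4 := e3.comp_hasDerivAt t e2
    refine e4.congr_deriv ?_
    rw [mul_div_cancel_right₀ _ hd]
    rfl
  obtain ⟨ξ, hξ, hslope⟩ := exists_hasDerivAt_eq_slope g _ (zero_lt_one)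
    (fun t ht => (hder t ht).continuousAt.continuousWithinAt)
    (fun t ht => hder t (Ioo_subset_Icc_self ht))
  have h5 := hp _ (hseg ξ (Ioo_subset_Icc_self hξ))
  rw [hslope] at h5
  have h6 : g 1 - g 0 = ((f z2 - f z1) / (z2 - z1)).re := by
    rw [hg]
    simp only [ofReal_one, one_mul, add_sub_cancel, ofReal_zero, zero_mul, add_zero]
    rw [sub_div, sub_re]
  rw [h6] at h5
  simpa using h5

/-- the germ with a fixed radius -/
structure LocF (n : ℝ) (F : ℂ → ℂ) (ε : ℝ) : Prop where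
  ε_pos : 0 < ε
  odd : ∀ t : ℂ, ‖t‖ < ε → F (-t) = -F t
  real : ∀ t : ℂ, ‖t‖ < ε → F ((starRingEnd ℂ) t) = (starRingEnd ℂ) (F t)
  eq : ∀ t : ℂ, ‖t‖ < ε → LL n (n * exp (F t)) = LL n (n * exp (-(F (t / (1 + t)))))
  im_pos : ∀ t : ℂ, ‖t‖ < ε → 0 < t.im → 0 < (F t).im
  im_neg : ∀ t : ℂ, ‖t‖ < ε → t.im < 0 → (F t).im < 0
  re_pos : ∀ t : ℂ, ‖t‖ < ε → t.im = 0 → 0 < t.re → 0 < (F t).re
  small : ∀ t : ℂ, ‖t‖ < ε → ‖F t‖ < 1
  small' : ∀ t : ℂ, ‖t‖ < ε → ‖F t‖ < Real.log n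

theorem GermI.zero (h : GermI n F) : F 0 = 0 := by
  have h1 := h.odd.self_of_nhds
  rw [neg_zero] at h1
  have h2 : (2 : ℂ) * F 0 = 0 := by linear_combination h1
  simpa using h2

theorem GermI.exists_loc (h : GermI n F) : ∃ ε, LocF n F ε := by
  obtain ⟨g, hg, hd⟩ := h.der
  have h0 := h.zero
  have hc : ContinuousAt (fun z => ((deriv F) z).re) 0 :=
    continuous_re.continuousAt.comp h.an.deriv.continuousAt
  have e1 : ∀ᶠ z in 𝓝 (0 : ℂ), 0 < (deriv F z).re := by
    refine hc.eventually (lt_mem_nhds ?_)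
    show 0 < (deriv F 0).re
    rw [hd, ofReal_re]; exact hg
  have hlog : 0 < Real.log n := Real.log_pos h.hn
  have e2 : ∀ᶠ z in 𝓝 (0 : ℂ), ‖F z‖ < min 1 (Real.log n) := by
    refine h.an.continuousAt.norm.eventually (gt_mem_nhds ?_)
    show ‖F 0‖ < min 1 (Real.log n)
    rw [h0, norm_zero]; exact lt_min one_pos hlog
  obtain ⟨ε, hε, hb⟩ := Metric.eventually_nhds_iff_ball.1
    (h.odd.and (h.real.and (h.eq.and (h.an.eventually_analyticAt.and (e1.and e2)))))
  have hm : ∀ t : ℂ, ‖t‖ < ε → t ∈ ball (0 : ℂ) ε := fun t ht => by rwa [mem_ball_zero_iff]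
  have hder : ∀ z ∈ ball (0 : ℂ) ε, HasDerivAt F (deriv F z) z := fun z hz =>
    ((hb z hz).2.2.2.1).differentiableAt.hasDerivAt
  have hpos : ∀ z ∈ ball (0 : ℂ) ε, 0 < (deriv F z).re := fun z hz => (hb z hz).2.2.2.2.1
  have him : ∀ t : ℂ, ‖t‖ < ε → t.im ≠ 0 → 0 < (F t).im / t.im := by
    intro t ht h1
    have hne : (starRingEnd ℂ) t ≠ t := fun hh => h1 (conj_eq_iff_im.1 hh)
    have h2 := slope_re_pos (convex_ball (0 : ℂ) ε) hder hpos (z1 := (starRingEnd ℂ) t) (z2 := t)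
      (hm _ (by rwa [norm_conj])) (hm _ ht) hne
    rw [(hb t (hm t ht)).2.1] at h2
    rw [show F t - (starRingEnd ℂ) (F t) = (2 * (F t).im : ℝ) * I by
        rw [sub_conj],
      show t - (starRingEnd ℂ) t = (2 * t.im : ℝ) * I by rw [sub_conj],
      mul_div_mul_right _ _ I_ne_zero, ← ofReal_div, ofReal_re] at h2
    rwa [mul_div_mul_left _ _ two_ne_zero] at h2
  refine ⟨ε, hε, fun t ht => (hb t (hm t ht)).1, fun t ht => (hb t (hm t ht)).2.1,
    fun t ht => (hb t (hm t ht)).2.2.1, ?_, ?_, ?_,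
    fun t ht => lt_of_lt_of_le (hb t (hm t ht)).2.2.2.2.2 (min_le_left _ _),
    fun t ht => lt_of_lt_of_le (hb t (hm t ht)).2.2.2.2.2 (min_le_right _ _)⟩
  · intro t ht h1
    have := him t ht h1.ne'
    rcases div_pos_iff.1 this with h2 | h2
    · exact h2.1
    · linarith [h2.2]
  · intro t ht h1
    have := him t ht h1.ne
    rcases div_pos_iff.1 this with h2 | h2
    · linarith [h2.2]
    · exact h2.1
  · intro t ht h1 h2
    have hne : (0 : ℂ) ≠ t := by rintro rfl; simp at h2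
    have h3 := slope_re_pos (convex_ball (0 : ℂ) ε) hder hpos (z1 := 0) (z2 := t)
      (hm _ (by rwa [norm_zero])) (hm _ ht) hne
    rw [h0, sub_zero, sub_zero] at h3
    have h4 : t = (t.re : ℂ) := by
      apply Complex.ext
      · simp
      · simp [h1]
    rw [h4, div_ofReal_re] at h3
    rw [← h4] at h3
    rcases div_pos_iff.1 h3 with h5 | h5
    · exact h5.1
    · linarith [h5.2]

/-- the local parametrisation -/
def HH (n : ℝ) (F : ℂ → ℂ) (t : ℂ) : ℂ := n * exp (F t)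

theorem LocF.im_zero {ε : ℝ} (L : LocF n F ε) {t : ℂ} (ht : ‖t‖ < ε) (h : t.im = 0) :
    (F t).im = 0 := by
  have h1 := L.real t ht
  rw [conj_eq_iff_im.2 h] at h1
  exact conj_eq_iff_im.1 h1.symm

theorem im_exp_pos (hn : 1 < n) {z : ℂ} (hz : ‖z‖ < 1) (h : 0 < z.im) :
    0 < ((n : ℂ) * exp z).im := by
  rw [im_ofReal_mul, exp_im]
  have h1 : |z.im| < 1 := lt_of_le_of_lt (abs_im_le_norm z) hz
  have h2 : 0 < Real.sin z.im :=
    Real.sin_pos_of_pos_of_lt_pi h (by linarith [(abs_lt.1 h1).2, Real.pi_gt_three])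
  have h3 := Real.exp_pos z.re
  have h4 : 0 < n := by linarith
  positivity

theorem im_exp_neg (hn : 1 < n) {z : ℂ} (hz : ‖z‖ < 1) (h : z.im < 0) :
    ((n : ℂ) * exp z).im < 0 := by
  have h1 := im_exp_pos hn (z := (starRingEnd ℂ) z) (by rwa [norm_conj]) (by rw [conj_im]; linarith)
  rw [exp_conj, ← conj_ofReal, ← map_mul, conj_im] at h1
  linarith

theorem exp_real {z : ℂ} (h : z.im = 0) : (n : ℂ) * exp z = ((n * Real.exp z.re : ℝ) : ℂ) := by
  have h4 : z = (z.re : ℂ) := by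
    apply Complex.ext
    · simp
    · simp [h]
  conv_lhs => rw [h4]
  push_cast
  rfl

theorem step_im {t : ℂ} (ht : ‖t‖ < 1) : ∃ c : ℝ, 0 < c ∧ (t / (1 + t)).im = c * t.im ∧
    (t.im = 0 → (t / (1 + t)).re = t.re / (1 + t.re)) := by
  have h1 := one_add_ne ht
  have h2 : 0 < normSq (1 + t) := normSq_pos.2 h1
  refine ⟨1 / normSq (1 + t), by positivity, ?_, ?_⟩
  · rw [div_im, add_im, add_re, one_im, one_re]
    field_simp
    ring
  · intro h
    have h4 : t = (t.re : ℂ) := by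
      apply Complex.ext
      · simp
      · simp [h]
    conv_lhs => rw [h4]
    rw [show (1 : ℂ) + (t.re : ℂ) = ((1 + t.re : ℝ) : ℂ) by push_cast; rfl, ← ofReal_div, ofReal_re]

/-- the local conjugation -/
theorem LocF.conj {ε : ℝ} (L : LocF n F ε) (hn : 1 < n) {t : ℂ} (ht : ‖t‖ < ε) (ht1 : ‖t‖ < 1)
    (ht' : ‖t / (1 + t)‖ < ε) (hD : HH n F t ∈ D2 n) :
    TT n (HH n F t) = HH n F (t / (1 + t)) := by
  have hn0 : 0 < n := by linarith
  obtain ⟨c, hc, hcim, hcre⟩ := step_im ht1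
  set t' := t / (1 + t) with ht'def
  set b : ℂ := n * exp (-(F t')) with hb
  have hsm : ‖-(F t')‖ < 1 := by rw [norm_neg]; exact L.small t' ht'
  have hsm' : ‖-(F t')‖ < Real.log n := by rw [norm_neg]; exact L.small' t' ht'
  have heq : LL n (HH n F t) = LL n b := L.eq t ht
  have hW : b ∈ WW n := by
    rcases lt_trichotomy t.im 0 with h | h | h
    · -- `Im t < 0`
      have h1 : (HH n F t).im < 0 := im_exp_neg hn (L.small t ht) (L.im_neg t ht h)
      have h2 : t'.im < 0 := by rw [hcim]; nlinarith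
      have h3 : 0 < b.im := im_exp_pos hn hsm (by rw [neg_im]; linarith [L.im_neg t' ht' h2])
      have h4 := LL_pos_of_D2 hn (D2_conj hD) (by rw [conj_im]; linarith)
      rw [LL_conj (D2_slit hn hD), conj_im, heq] at h4
      exact ⟨slit_of_im h3.ne', fun _ => by linarith [h4.1], fun h' => by linarith,
        fun h' => absurd h' h3.ne'⟩
    · -- `t` real
      have hF := L.im_zero ht h
      have hH : HH n F t = ((n * Real.exp (F t).re : ℝ) : ℂ) := exp_real hF
      have h1 : n < n * Real.exp (F t).re := by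
        have := hD.1
        rwa [hH, Complex.norm_real, Real.norm_of_nonneg (by positivity)] at this
      have h2 : 0 < (F t).re := by
        by_contra hcon
        push Not at hcon
        have := Real.exp_le_one_iff.2 hcon
        nlinarith
      have h3 : 0 < t.re := by
        by_contra hcon
        push Not at hcon
        rcases hcon.lt_or_eq with h4 | h4
        · have h5 := L.re_pos (-t) (by rwa [norm_neg]) (by simp [h]) (by simpa using h4)
          rw [L.odd t ht, neg_re] at h5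
          linarith
        · have h5 : t = 0 := Complex.ext h4 h
          have h6 := L.odd t ht
          rw [h5, neg_zero] at h6
          have h7 : (F 0).re = 0 := by
            have := congrArg Complex.re h6
            rw [neg_re] at this
            linarith
          rw [h5, h7] at h2
          exact lt_irrefl _ h2
      have h4 : t'.im = 0 := by rw [hcim, h, mul_zero]
      have h5 : 0 < t'.re := by rw [hcre h]; positivity
      have h6 := L.re_pos t' ht' h4 h5
      have h7 : (-(F t')).im = 0 := by rw [neg_im, L.im_zero ht' h4, neg_zero]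
      have h8 : b = ((n * Real.exp (-(F t')).re : ℝ) : ℂ) := exp_real h7
      have h9 : Real.exp (-(F t')).re < 1 := by
        rw [Real.exp_lt_one_iff, neg_re]; linarith
      have h10 : 1 < n * Real.exp (-(F t')).re := by
        have h11 : -Real.log n < (-(F t')).re := by
          have := (abs_lt.1 (lt_of_le_of_lt (abs_re_le_norm (-(F t'))) hsm')).1
          exact this
        have h12 := Real.exp_lt_exp.2 h11
        rw [Real.exp_neg, Real.exp_log hn0] at h12
        have h13 := mul_lt_mul_of_pos_left h12 hn0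
        rwa [mul_inv_cancel₀ hn0.ne'] at h13
      have h14 : b.im = 0 := by rw [h8, ofReal_im]
      have h15 : b.re = n * Real.exp (-(F t')).re := by rw [h8, ofReal_re]
      refine ⟨Or.inl ?_, fun h' => by linarith, fun h' => by linarith, fun _ => ?_⟩
      · rw [sub_re, h15, one_re]; linarith
      · rw [h15]; nlinarith
    · -- `0 < Im t`
      have h1 : 0 < (HH n F t).im := im_exp_pos hn (L.small t ht) (L.im_pos t ht h)
      have h2 : 0 < t'.im := by rw [hcim]; positivity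
      have h3 : b.im < 0 := im_exp_neg hn hsm (by rw [neg_im]; linarith [L.im_pos t' ht' h2])
      have h4 := LL_pos_of_D2 hn hD h1
      rw [heq] at h4
      exact ⟨slit_of_im h3.ne, fun h' => by linarith, fun _ => h4.1,
        fun h' => absurd h' h3.ne⟩
  have hP : PP n (HH n F t) = b := PP_eq hn hW heq.symm
  unfold TT
  rw [hP, hb, exp_neg]
  have hnC : (n : ℂ) ≠ 0 := by exact_mod_cast hn0.ne'
  unfold HH
  field_simp

theorem GermI.petal (h : GermI n F) : Petal (D2 n) (TT n) (HH n F) n 0 1 := by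
  have hn := h.hn
  have hn0 : 0 < n := by linarith
  have hnC : (n : ℂ) ≠ 0 := by exact_mod_cast hn0.ne'
  obtain ⟨ε, L⟩ := h.exists_loc
  obtain ⟨g, hg, hd⟩ := h.der
  have hH : HasDerivAt (HH n F) ((n : ℂ) * (exp (F 0) * deriv F 0)) 0 :=
    (h.an.differentiableAt.hasDerivAt.cexp).const_mul (n : ℂ)
  refine ⟨isOpen_D2 n, isPreconnected_D2 hn, fun z hz => TT_mem hn hz, fun z hz => (TT_an hn hz).1,
    fun z hz => (TT_an hn hz).2, zero_ne_one, ?_, ?_, fun hz => D2_ne hn hz rfl,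
    analyticAt_const.mul h.an.cexp, ?_, ?_, ?_, ?_⟩
  · intro h0; have := h0.1; rw [norm_zero] at this; linarith
  · intro h0; have := h0.1; rw [norm_one] at this; linarith
  · unfold HH; rw [h.zero, exp_zero, mul_one]
  · rw [hH.deriv, h.zero, exp_zero, one_mul, hd]
    exact mul_ne_zero hnC (by exact_mod_cast hg.ne')
  · -- conjugation
    have hmin : 0 < min (1 / 4) ε := lt_min (by norm_num) L.ε_pos
    filter_upwards [Metric.ball_mem_nhds (0 : ℂ) (half_pos hmin)] with t ht hD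
    rw [mem_ball_zero_iff] at ht
    have h1 : min (1 / 4) ε ≤ 1 / 4 := min_le_left _ _
    have h2 : min (1 / 4) ε ≤ ε := min_le_right _ _
    refine L.conj hn (by linarith) (by linarith) ?_ hD
    exact lt_of_lt_of_le (norm_step h1 ht) h2
  · -- membership
    filter_upwards [Ioo_mem_nhdsGT L.ε_pos] with x hx
    have hxn : ‖(x : ℂ)‖ < ε := by
      rw [Complex.norm_real, Real.norm_of_nonneg hx.1.le]; exact hx.2
    have h1 := L.im_zero hxn (ofReal_im x)
    have h2 := L.re_pos x hxn (ofReal_im x) (by rw [ofReal_re]; exact hx.1)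
    have h3 : HH n F x = ((n * Real.exp (F x).re : ℝ) : ℂ) := exp_real h1
    have h4 : 0 < n * Real.exp (F x).re := by positivity
    have h5 : 1 < Real.exp (F x).re := by rwa [Real.one_lt_exp_iff]
    refine ⟨?_, ?_, ?_⟩
    · rw [h3, Complex.norm_real, Real.norm_of_nonneg h4.le]; nlinarith
    · rw [h3]; left; rw [ofReal_re]; exact h4
    · rw [h3, arg_ofReal_of_nonneg h4.le, abs_zero, zero_mul]; exact Real.pi_pos

theorem TT_real (hn : 1 < n) {z : ℂ} (hz : z ∈ D2 n) (h : z.im = 0) : (TT n z).im = 0 := by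
  have h1 := TT_conj hn hz
  rw [conj_eq_iff_im.2 h] at h1
  exact conj_eq_iff_im.1 h1.symm

theorem GermI.HH_conj (h : GermI n F) :
    ∀ᶠ t in 𝓝 (0 : ℂ), HH n F ((starRingEnd ℂ) t) = (starRingEnd ℂ) (HH n F t) := by
  filter_upwards [h.real] with t ht
  unfold HH
  rw [ht, exp_conj, map_mul, conj_ofReal]

/-! ### the curve -/

/-- the complexified reflected curve -/
def zc (n : ℝ) (w : ℂ) : ℂ :=
  (n : ℂ) ^ 2 * (Complex.sin (w / 2) / Complex.sin (n * w / 2) * exp (-((n - 1) * w / 2 * I)))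

theorem zc_real (n θ : ℝ) : zc n (θ : ℂ) = zz n θ := by
  unfold zc zz BB
  rw [exp_neg]
  push_cast
  rw [div_eq_mul_inv ((n : ℂ) ^ 2), mul_inv, inv_div]

theorem zc_an (hn : 1 < n) {θ : ℝ} (h : θ ∈ Ioo 0 (2 * Real.pi / n)) :
    AnalyticAt ℂ (zc n) (θ : ℂ) := by
  obtain ⟨h1, h2, -⟩ := ang hn h
  have hs : Complex.sin (n * (θ : ℂ) / 2) ≠ 0 := by
    have := Real.sin_pos_of_pos_of_lt_pi h1 h2
    have h3 : Complex.sin (n * (θ : ℂ) / 2) = (Real.sin (n * θ / 2) : ℂ) := by push_cast; rfl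
    rw [h3]
    exact_mod_cast this.ne'
  have hd : Differentiable ℂ (fun w : ℂ => Complex.sin (w / 2)) :=
    Complex.differentiable_sin.comp (differentiable_id.div_const 2)
  have hd2 : Differentiable ℂ (fun w : ℂ => Complex.sin (n * w / 2)) :=
    Complex.differentiable_sin.comp ((differentiable_id.const_mul (n : ℂ)).div_const 2)
  have hd3 : Differentiable ℂ (fun w : ℂ => exp (-(((n : ℂ) - 1) * w / 2 * I))) :=
    Complex.differentiable_exp.comp
      ((((differentiable_id.const_mul ((n : ℂ) - 1)).div_const 2).mul_const I).neg)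
  have a1 := hd.analyticAt (θ : ℂ)
  have a2 := hd2.analyticAt (θ : ℂ)
  have a3 := hd3.analyticAt (θ : ℂ)
  exact analyticAt_const.mul ((a1.div a2 hs).mul a3)

theorem BB_tendsto (hn : 1 < n) : Tendsto (fun θ => BB n θ) (𝓝[>] (0 : ℝ)) (𝓝 (n : ℂ)) := by
  have h1 : Tendsto (fun θ : ℝ => n * Real.sinc (n * θ / 2) / Real.sinc (θ / 2)) (𝓝 0)
      (𝓝 (n * Real.sinc (n * 0 / 2) / Real.sinc (0 / 2))) := by
    refine ContinuousAt.tendsto (f := fun θ : ℝ => n * Real.sinc (n * θ / 2) / Real.sinc (θ / 2)) ?_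
    refine ContinuousAt.div ?_ ?_ ?_
    · exact (continuous_const.mul (Real.continuous_sinc.comp (by fun_prop))).continuousAt
    · exact (Real.continuous_sinc.comp (by fun_prop)).continuousAt
    · rw [zero_div, Real.sinc_zero]; exact one_ne_zero
  rw [mul_zero, zero_div, Real.sinc_zero, mul_one, div_one] at h1
  have h2 : Tendsto (fun θ : ℝ => Complex.exp (((n - 1) * θ / 2 : ℝ) * I)) (𝓝 0)
      (𝓝 (Complex.exp (((n - 1) * 0 / 2 : ℝ) * I))) := by
    refine ContinuousAt.tendsto (f := fun θ : ℝ => Complex.exp (((n - 1) * θ / 2 : ℝ) * I)) ?_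
    refine Continuous.continuousAt ?_
    fun_prop
  rw [mul_zero, zero_div, ofReal_zero, zero_mul, exp_zero] at h2
  have h3 := ((continuous_ofReal.tendsto n).comp h1).mul h2
  rw [mul_one] at h3
  refine (h3.mono_left nhdsWithin_le_nhds).congr' ?_
  have hn0 : 0 < n := by linarith
  filter_upwards [self_mem_nhdsWithin] with θ hθ
  have hθ0 : 0 < θ := hθ
  show ((n * Real.sinc (n * θ / 2) / Real.sinc (θ / 2) : ℝ) : ℂ) * _ = _
  unfold BB
  congr 2
  rw [Real.sinc_of_ne_zero (by positivity), Real.sinc_of_ne_zero (by positivity)]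
  by_cases hs : Real.sin (θ / 2) = 0
  · rw [hs]; simp
  · field_simp

/-- the curve starts in the petal, on the line `Re (1/t) = 1/2` -/
theorem GermI.start (h : GermI n F) {r : ℝ} (hr : 0 < r) :
    ∀ᶠ θ : ℝ in 𝓝[>] (0 : ℝ), ∃ t : ℂ, ‖t‖ < r ∧ 0 < t.re ∧ HH n F t = zc n θ ∧
      (1 / t).re = 1 / 2 := by
  have hn := h.hn
  have hn0 : 0 < n := by linarith
  have hnC : (n : ℂ) ≠ 0 := by exact_mod_cast hn0.ne'
  obtain ⟨ε, L⟩ := h.exists_loc
  have hP := h.petal
  obtain ⟨J, ε', δ, ε1, M⟩ := hP.exists_loc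
  have hJc : ContinuousAt J (n : ℂ) := (M.J_an (n : ℂ) (mem_ball_self M.δ_pos)).continuousAt
  have hJ0 : J (n : ℂ) = 0 := by
    have := M.JH 0 (by rw [norm_zero]; exact M.ε_pos)
    rwa [hP.H_zero] at this
  have hB := BB_tendsto hn
  have hB' : Tendsto (fun θ => (starRingEnd ℂ) (BB n θ)) (𝓝[>] (0 : ℝ)) (𝓝 (n : ℂ)) := by
    have := (continuous_conj.tendsto (n : ℂ)).comp hB
    rwa [conj_ofReal] at this
  have hJB : Tendsto (fun θ => ‖J ((starRingEnd ℂ) (BB n θ))‖) (𝓝[>] (0 : ℝ)) (𝓝 0) := by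
    have := (hJc.norm.tendsto).comp hB'
    rwa [hJ0, norm_zero] at this
  have hmin : 0 < min (1 / 4) (min ε (min ε' r)) :=
    lt_min (by norm_num) (lt_min L.ε_pos (lt_min M.ε_pos hr))
  have hpi : 0 < 2 * Real.pi / n := by have := Real.pi_pos; positivity
  filter_upwards [hJB.eventually (gt_mem_nhds (half_pos hmin)),
    hB'.eventually_mem (ball_mem_nhds _ M.δ_pos), Ioo_mem_nhdsGT hpi] with θ g1 g2 g3
  have m1 : min (1 / 4) (min ε (min ε' r)) ≤ 1 / 4 := min_le_left _ _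
  have m2 : min (1 / 4) (min ε (min ε' r)) ≤ ε := le_trans (min_le_right _ _) (min_le_left _ _)
  have m3 : min (1 / 4) (min ε (min ε' r)) ≤ ε' :=
    le_trans (min_le_right _ _) (le_trans (min_le_right _ _) (min_le_left _ _))
  have m4 : min (1 / 4) (min ε (min ε' r)) ≤ r :=
    le_trans (min_le_right _ _) (le_trans (min_le_right _ _) (min_le_right _ _))
  set μ := min (1 / 4) (min ε (min ε' r)) with hμ
  have hBim := BB_im hn g3
  have hBL := LL_BB hn g3
  set B := BB n θ with hBdef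
  set t1 := J ((starRingEnd ℂ) B) with ht1
  have hH1 : HH n F t1 = (starRingEnd ℂ) B := M.HJ _ g2
  have hstep : ‖t1 / (1 + t1)‖ < μ := norm_step m1 g1
  have n1 : ‖t1‖ < 1 := by linarith
  obtain ⟨c, hc, hcim, -⟩ := step_im n1
  set t := t1 / (1 + t1) with ht
  have hne1 := one_add_ne n1
  -- `Im t1 < 0`
  have him1 : t1.im < 0 := by
    rcases lt_trichotomy t1.im 0 with h1 | h1 | h1
    · exact h1
    · exfalso
      have h2 := L.im_zero (t := t1) (by linarith) h1
      have h3 : HH n F t1 = ((n * Real.exp (F t1).re : ℝ) : ℂ) := exp_real h2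
      rw [hH1] at h3
      have h4 := congrArg Complex.im h3
      rw [ofReal_im, conj_im] at h4
      linarith
    · exfalso
      have h2 : 0 < (HH n F t1).im :=
        im_exp_pos hn (L.small t1 (by linarith)) (L.im_pos t1 (by linarith) h1)
      rw [hH1, conj_im] at h2
      linarith
  have him : t.im < 0 := by rw [hcim]; nlinarith
  have hts : ‖t‖ < ε := by linarith
  -- `b = B`
  have hb : (n : ℂ) * exp (-(F t)) = B := by
    have h1 : 0 < ((n : ℂ) * exp (-(F t))).im :=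
      im_exp_pos hn (by rw [norm_neg]; exact L.small t hts)
        (by rw [neg_im]; linarith [L.im_neg t hts him])
    refine LL_injOn_UH n h1 hBim ?_
    rw [← L.eq t1 (by linarith)]
    show LL n (HH n F t1) = _
    rw [hH1, LL_conj (slit_of_im hBim.ne')]
    exact conj_eq_iff_im.2 hBL
  -- `-t = conj t1`
  have h2 : HH n F (-t) = B := by
    unfold HH; rw [L.odd t hts]; exact hb
  have h3 : HH n F ((starRingEnd ℂ) t1) = B := by
    unfold HH
    rw [L.real t1 (by linarith), exp_conj]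
    have := congrArg (starRingEnd ℂ) hH1
    unfold HH at this
    rw [map_mul, conj_ofReal, conj_conj] at this
    exact this
  have h4 : -t = (starRingEnd ℂ) t1 := by
    rw [← M.JH (-t) (by rw [norm_neg]; linarith), h2, ← h3,
      M.JH _ (by rw [norm_conj]; linarith)]
  have ht10 : t1 ≠ 0 := by rintro h0; rw [h0] at him1; simp at him1
  have ht0 : t ≠ 0 := by rintro h0; rw [h0] at him; simp at him
  have h5 : 1 / t = 1 / t1 + 1 := by
    rw [ht]; field_simp
  have h6 : (1 / t).re = -(1 / t1).re := by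
    have : 1 / t = -(starRingEnd ℂ) (1 / t1) := by
      rw [map_div₀, map_one, ← h4]
      rw [div_neg, neg_neg]
    rw [this, neg_re, conj_re]
  have h7 : (1 / t).re = (1 / t1).re + 1 := by rw [h5, add_re, one_re]
  have h8 : (1 / t).re = 1 / 2 := by linarith
  refine ⟨t, by linarith, ?_, ?_, h8⟩
  · have h9 : 0 < normSq t := normSq_pos.2 ht0
    rw [one_div, inv_re] at h8
    have h10 : t.re = 1 / 2 * normSq t := by
      rw [← h8]; field_simp
    rw [h10]; positivity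
  · rw [zc_real]
    unfold zz
    rw [← hBdef, ← hb, exp_neg]
    unfold HH
    field_simp

/-- **isotropic end, `n > 1`.** -/
theorem iso (h : GermI n F) : n = 2 := by
  have hn := h.hn
  have hn0 : 0 < n := by linarith
  have hnC : (n : ℂ) ≠ 0 := by exact_mod_cast hn0.ne'
  have hP := h.petal
  obtain ⟨S, r, hr, hSa, hSd, hST, hSH, hSk⟩ := hP.fatou
  have hreal : ∀ z ∈ D2 n, z.im = 0 → (S z).im = 0 :=
    hP.real (fun z hz => TT_real hn hz) h.HH_conj hSk
  have hcurve := curve hSa hSH (z := zc n) (θ1 := 2 * Real.pi / n)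
    (fun θ h1 h2 => ⟨zc_an hn ⟨h1, h2⟩, by rw [zc_real]; exact (zz_mem hn ⟨h1, h2⟩).1⟩)
    (h.start hr)
  -- the point `n ^ 2`
  have hn2 : (n : ℂ) ^ 2 = ((n ^ 2 : ℝ) : ℂ) := by push_cast; rfl
  have hmem : ((n ^ 2 : ℝ) : ℂ) ∈ D2 n := by
    refine ⟨?_, ?_, ?_⟩
    · rw [Complex.norm_real, Real.norm_of_nonneg (by positivity)]; nlinarith
    · left; rw [ofReal_re]; positivity
    · rw [arg_ofReal_of_nonneg (by positivity), abs_zero, zero_mul]; exact Real.pi_pos
  set Φ : ℂ → ℂ := fun w => S ((n : ℂ) ^ 2 / w) with hΦ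
  have hdiv : HasDerivAt (fun w : ℂ => (n : ℂ) ^ 2 / w) (-(n : ℂ) ^ 2) 1 := by
    have := (hasDerivAt_inv (one_ne_zero : (1 : ℂ) ≠ 0)).const_mul ((n : ℂ) ^ 2)
    refine (this.congr_deriv (by ring)).congr_of_eventuallyEq ?_
    exact Filter.Eventually.of_forall fun w => by simp [div_eq_mul_inv]
  have hΦd : HasDerivAt Φ (deriv S ((n ^ 2 : ℝ) : ℂ) * (-(n : ℂ) ^ 2)) 1 := by
    have h1 : HasDerivAt S (deriv S ((n ^ 2 : ℝ) : ℂ)) ((fun w : ℂ => (n : ℂ) ^ 2 / w) 1) := by
      show HasDerivAt S _ ((n : ℂ) ^ 2 / 1)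
      rw [div_one, hn2]
      exact (hSa _ hmem).differentiableAt.hasDerivAt
    exact h1.comp 1 hdiv
  have hSim : (deriv S ((n ^ 2 : ℝ) : ℂ)).im = 0 := by
    refine deriv_im_zero (hSa _ hmem) ?_
    have := continuous_ofReal.continuousAt.eventually_mem ((isOpen_D2 n).mem_nhds hmem)
    filter_upwards [this] with y hy
    exact hreal _ hy (ofReal_im y)
  set s := (deriv S ((n ^ 2 : ℝ) : ℂ)).re with hs
  have hsd : deriv S ((n ^ 2 : ℝ) : ℂ) = (s : ℂ) := by
    apply Complex.ext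
    · simp [hs]
    · rw [hSim, ofReal_im]
  have hs0 : s ≠ 0 := by
    intro h0
    apply hSd _ hmem
    rw [hsd, h0, ofReal_zero]
  rw [hsd] at hΦd
  -- `Re Φ (wv θ) = 3/2`
  have hre : ∀ θ ∈ Ioo 0 (2 * Real.pi / n), (Φ (wv n θ)).re = 3 / 2 := by
    intro θ hθ
    have h1 := hST _ (zz_mem hn hθ).1
    have h2 : Φ (wv n θ) = S (zz n θ) + 1 := h1
    have h3 := hcurve θ hθ.1 hθ.2
    rw [zc_real] at h3
    rw [h2, add_re, h3, one_re]
    norm_num
  have hw := wv_tendsto hn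
  have hIoo := Ioo_mem hn
  have hlim : (Φ 1).re = 3 / 2 := by
    have h1 : Tendsto (fun θ => (Φ (wv n θ)).re) (𝓝[<] (2 * Real.pi / n)) (𝓝 (Φ 1).re) :=
      (continuous_re.tendsto _).comp (hΦd.continuousAt.tendsto.comp hw)
    have h2 : Tendsto (fun θ => (Φ (wv n θ)).re) (𝓝[<] (2 * Real.pi / n)) (𝓝 (3 / 2)) :=
      tendsto_const_nhds.congr' (by filter_upwards [hIoo] with θ hθ; exact (hre θ hθ).symm)
    exact tendsto_nhds_unique h1 h2
  -- the slope
  have hsl : ContinuousAt (dslope Φ 1) 1 := continuousAt_dslope_same.2 hΦd.differentiableAt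
  have h1 : Tendsto (fun θ => dslope Φ 1 (wv n θ) *
      (((‖zz n θ‖ ^ (1 / (n - 1)) : ℝ) : ℂ) * (wv n θ - 1))) (𝓝[<] (2 * Real.pi / n))
      (𝓝 (deriv Φ 1 * Complex.exp ((Real.pi / n : ℝ) * I))) := by
    have := (hsl.tendsto.comp hw).mul (wv_asymp hn)
    rwa [dslope_same] at this
  have h2 : Tendsto (fun θ => (dslope Φ 1 (wv n θ) *
      (((‖zz n θ‖ ^ (1 / (n - 1)) : ℝ) : ℂ) * (wv n θ - 1))).re) (𝓝[<] (2 * Real.pi / n))
      (𝓝 (deriv Φ 1 * Complex.exp ((Real.pi / n : ℝ) * I)).re) :=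
    (continuous_re.tendsto _).comp h1
  have h3 : Tendsto (fun θ => (dslope Φ 1 (wv n θ) *
      (((‖zz n θ‖ ^ (1 / (n - 1)) : ℝ) : ℂ) * (wv n θ - 1))).re) (𝓝[<] (2 * Real.pi / n))
      (𝓝 0) := by
    refine tendsto_const_nhds.congr' ?_
    filter_upwards [hIoo] with θ hθ
    have e1 : dslope Φ 1 (wv n θ) * (((‖zz n θ‖ ^ (1 / (n - 1)) : ℝ) : ℂ) * (wv n θ - 1)) =
        ((‖zz n θ‖ ^ (1 / (n - 1)) : ℝ) : ℂ) * (Φ (wv n θ) - Φ 1) := by
      rw [← sub_smul_dslope Φ 1 (wv n θ), smul_eq_mul]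
      ring
    rw [e1, re_ofReal_mul, sub_re, hre θ hθ, hlim, sub_self, mul_zero]
  have h4 := tendsto_nhds_unique h2 h3
  rw [hΦd.deriv, show (s : ℂ) * (-(n : ℂ) ^ 2) = ((s * (-n ^ 2) : ℝ) : ℂ) by push_cast; ring,
    re_ofReal_mul, exp_ofReal_mul_I_re] at h4
  have h5 : Real.cos (Real.pi / n) = 0 := by
    rcases mul_eq_zero.1 h4 with h6 | h6
    · exfalso
      rcases mul_eq_zero.1 h6 with h7 | h7
      · exact hs0 h7
      · have : 0 < n ^ 2 := by positivity
        linarith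
    · exact h6
  have hpi := Real.pi_pos
  have h6 : 0 < Real.pi / n := by positivity
  have h7 : Real.pi / n < Real.pi := by
    rw [div_lt_iff₀ hn0]; nlinarith
  rw [Real.cos_eq_zero_iff] at h5
  obtain ⟨k, hk⟩ := h5
  have hk0 : (k : ℝ) = 0 := by
    have h8 : 0 < (2 * (k : ℝ) + 1) := by
      by_contra hcon
      push Not at hcon
      nlinarith
    have h9 : (2 * (k : ℝ) + 1) < 2 := by
      by_contra hcon
      push Not at hcon
      nlinarith
    have h10 : -1 < k := by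
      have : (-1 : ℝ) < k := by linarith
      exact_mod_cast this
    have h11 : k < 1 := by
      have : (k : ℝ) < 1 := by linarith
      exact_mod_cast this
    have : k = 0 := by omega
    exact_mod_cast this
  rw [hk0, mul_zero, zero_add, one_mul] at hk
  field_simp at hk
  exact hk.symm

end Crest.Agent.R102.Iso3297
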