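import Mathlib

-- ▼ part R102/Flat1_348
section

/-!
# Row 102, part (C), item [d]: the FLAT end (`Y = X^n`, `n > 1`, `n ≠ 2`) is not embeddable
(helper348), part 1: the function `Lam`.

`N = 1/(n-1) > 0`, `Lam N y = N log y - log (1 - 1/y)` (near `(1,∞)` this is
`(N+1) log y - log (y-1)`), critical point `y = nf N = 1 + 1/N`.
-/

open Complex Set Filter Topology

noncomputable section

namespace Crest.Agent.R102.Flat348

/-- the upper half plane -/
def UH : Set ℂ := {z | 0 < z.im}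

/-- the lower half plane -/
def LH : Set ℂ := {z | z.im < 0}

/-- `n = 1 + 1/N` -/
def nf (N : ℝ) : ℝ := 1 + 1 / N

/-- `Λ(y) = N log y - log (1 - 1/y)` -/
def Lam (N : ℝ) (y : ℂ) : ℂ := (N : ℂ) * Complex.log y - Complex.log (1 - 1 / y)

/-- the domain of `Lam`: the complement of `(-∞, 1]` -/
def Dm : Set ℂ := {y | 1 < y.re ∨ y.im ≠ 0}


lemma isOpen_LH : IsOpen LH := isOpen_lt Complex.continuous_im continuous_const


lemma UH_sub : UH ⊆ Dm := fun _ hz => Or.inr (ne_of_gt hz)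

lemma LH_sub : LH ⊆ Dm := fun _ hz => Or.inr (ne_of_lt hz)

lemma convex_UH : Convex ℝ UH := by
  have : UH = {s : ℂ | 0 < Complex.imCLM s} := rfl
  rw [this]
  exact convex_halfSpace_gt (f := Complex.imCLM) (Complex.imCLM.isLinear) 0


lemma star_LH {y : ℂ} (hy : y ∈ UH) : (starRingEnd ℂ) y ∈ LH := by
  have h : 0 < y.im := hy
  show ((starRingEnd ℂ) y).im < 0
  rw [Complex.conj_im]; linarith

lemma ne_zero_of_Dm {y : ℂ} (hy : y ∈ Dm) : y ≠ 0 := by
  rintro rfl
  rcases hy with h | h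
  · simp at h; linarith
  · simp at h

lemma sub_one_ne {y : ℂ} (hy : y ∈ Dm) : y - 1 ≠ 0 := by
  intro h
  have h1 : y = 1 := by linear_combination h
  subst h1
  rcases hy with h | h
  · simp at h
  · simp at h

lemma slit_of_Dm {y : ℂ} (hy : y ∈ Dm) : y ∈ slitPlane := by
  rw [Complex.mem_slitPlane_iff]
  rcases hy with h | h
  · left; linarith
  · right; exact h

lemma inv_im' (y : ℂ) : (1 / y).im = -y.im / normSq y := by
  rw [one_div, Complex.inv_im]

lemma one_sub_im (y : ℂ) : (1 - 1 / y).im = y.im / normSq y := by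
  rw [Complex.sub_im, Complex.one_im, inv_im']; ring

lemma one_sub_slit {y : ℂ} (hy : y ∈ Dm) : 1 - 1 / y ∈ slitPlane := by
  have h0 := ne_zero_of_Dm hy
  have hpos : 0 < normSq y := Complex.normSq_pos.2 h0
  rw [Complex.mem_slitPlane_iff]
  by_cases him : y.im = 0
  · left
    have hre : 1 < y.re := by
      rcases hy with h | h
      · exact h
      · exact absurd him h
    have hy' : y = (y.re : ℂ) := by apply Complex.ext <;> simp [him]
    rw [hy']
    have : (1 : ℂ) - 1 / (y.re : ℂ) = ((1 - 1 / y.re : ℝ) : ℂ) := by push_cast; ring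
    rw [this, Complex.ofReal_re]
    have h2 : 1 / y.re < 1 := by
      rw [div_lt_one (by linarith)]; exact hre
    linarith
  · right
    rw [one_sub_im]
    exact div_ne_zero him hpos.ne'

/-- derivative of `Lam` -/
def dLam (N : ℝ) (y : ℂ) : ℂ := 1 / y * (N - 1 / (y - 1))

lemma Lam_strict (N : ℝ) {y : ℂ} (hy : y ∈ Dm) : HasStrictDerivAt (Lam N) (dLam N y) y := by
  have h0 := ne_zero_of_Dm hy
  have h1 := sub_one_ne hy
  have hl : HasStrictDerivAt Complex.log y⁻¹ y := Complex.hasStrictDerivAt_log (slit_of_Dm hy)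
  have hi : HasStrictDerivAt (fun y : ℂ => 1 - 1 / y) (1 / y ^ 2) y := by
    have := (hasStrictDerivAt_inv h0).const_sub (1 : ℂ)
    refine (this.congr_deriv ?_).congr_of_eventuallyEq ?_
    · field_simp
    · filter_upwards with x; rw [one_div]
  have hl2 : HasStrictDerivAt (fun y : ℂ => Complex.log (1 - 1 / y)) ((1 / y ^ 2) / (1 - 1 / y)) y :=
    hi.clog (one_sub_slit hy)
  have := (hl.const_mul (N : ℂ)).sub hl2
  refine this.congr_deriv ?_
  have h2 : (1 : ℂ) - 1 / y ≠ 0 := by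
    intro h
    apply h1
    have e0 : y - 1 = y * (1 - 1 / y) := by field_simp
    rw [e0, h, mul_zero]
  unfold dLam
  have e : (1 : ℂ) / y ^ 2 / (1 - 1 / y) = 1 / (y * (y - 1)) := by
    field_simp
  rw [e]
  field_simp

lemma Lam_deriv (N : ℝ) {y : ℂ} (hy : y ∈ Dm) : HasDerivAt (Lam N) (dLam N y) y :=
  (Lam_strict N hy).hasDerivAt

lemma Lam_cont (N : ℝ) {y : ℂ} (hy : y ∈ Dm) : ContinuousAt (Lam N) y :=
  (Lam_deriv N hy).continuousAt

lemma dLam_ne {N : ℝ} {y : ℂ} (hy : y.im ≠ 0) : dLam N y ≠ 0 := by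
  have hD : y ∈ Dm := Or.inr hy
  have h0 := ne_zero_of_Dm hD
  have h1 := sub_one_ne hD
  unfold dLam
  intro h
  rcases mul_eq_zero.1 h with h | h
  · exact h0 (by simpa using h)
  · have h3 : (N : ℂ) * (y - 1) = 1 := by
      field_simp at h
      linear_combination h
    have h4 := congrArg Complex.im h3
    simp at h4
    rcases h4 with h4 | h4
    · rw [h4] at h3; simp at h3
    · exact hy h4

lemma dLam_real {N c : ℝ} : dLam N (c : ℂ) = ((1 / c * (N - 1 / (c - 1)) : ℝ) : ℂ) := by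
  unfold dLam; push_cast; ring

lemma dLam_pos {N c : ℝ} (hN : 0 < N) (hc : nf N < c) : 0 < 1 / c * (N - 1 / (c - 1)) := by
  have h1 : 1 / N < c - 1 := by unfold nf at hc; linarith
  have h2 : 0 < c - 1 := lt_trans (by positivity) h1
  have h3 : 1 / (c - 1) < N := by
    rw [div_lt_iff₀ h2]
    rw [div_lt_iff₀ hN] at h1
    linarith [mul_comm N (c - 1)]
  have h4 : 0 < c := by linarith
  have : 0 < 1 / c := by positivity
  exact mul_pos this (by linarith)

lemma dLam_neg {N c : ℝ} (hN : 0 < N) (h1c : 1 < c) (hc : c < nf N) :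
    1 / c * (N - 1 / (c - 1)) < 0 := by
  have h1 : c - 1 < 1 / N := by unfold nf at hc; linarith
  have h2 : 0 < c - 1 := by linarith
  have h3 : N < 1 / (c - 1) := by
    rw [lt_div_iff₀ h2]
    rw [lt_div_iff₀ hN] at h1
    linarith [mul_comm N (c - 1)]
  have h4 : 0 < c := by linarith
  have : 0 < 1 / c := by positivity
  exact mul_neg_of_pos_of_neg this (by linarith)

/-- conjugation -/
lemma Lam_conj (N : ℝ) {y : ℂ} (hy : y ∈ Dm) :
    Lam N ((starRingEnd ℂ) y) = (starRingEnd ℂ) (Lam N y) := by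
  unfold Lam
  have h1 : Complex.log ((starRingEnd ℂ) y) = (starRingEnd ℂ) (Complex.log y) :=
    Complex.log_conj y (Complex.slitPlane_arg_ne_pi (slit_of_Dm hy))
  have h2 : Complex.log ((starRingEnd ℂ) (1 - 1 / y)) = (starRingEnd ℂ) (Complex.log (1 - 1 / y)) :=
    Complex.log_conj _ (Complex.slitPlane_arg_ne_pi (one_sub_slit hy))
  have h3 : (starRingEnd ℂ) (1 - 1 / y) = 1 - 1 / (starRingEnd ℂ) y := by
    simp
  rw [h1, ← h3, h2]
  simp

/-- imaginary part -/
lemma Lam_im (N : ℝ) (y : ℂ) : (Lam N y).im = N * y.arg - (1 - 1 / y).arg := by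
  unfold Lam
  rw [Complex.sub_im, Complex.im_ofReal_mul, Complex.log_im, Complex.log_im]

/-- real part -/
lemma Lam_re (N : ℝ) (y : ℂ) :
    (Lam N y).re = N * Real.log ‖y‖ - Real.log ‖1 - 1 / y‖ := by
  unfold Lam
  rw [Complex.sub_re, Complex.re_ofReal_mul, Complex.log_re, Complex.log_re]

lemma arg_pos {z : ℂ} (hz : 0 < z.im) : 0 < z.arg ∧ z.arg < Real.pi := by
  constructor
  · have h1 : 0 ≤ z.arg := Complex.arg_nonneg_iff.2 hz.le
    rcases h1.lt_or_eq with h | h
    · exact h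
    · exfalso
      have := Complex.arg_eq_zero_iff.1 h.symm
      linarith [this.2]
  · have h1 : z.arg ≤ Real.pi := Complex.arg_le_pi z
    rcases h1.lt_or_eq with h | h
    · exact h
    · exfalso
      have := Complex.arg_eq_pi_iff.1 h
      linarith [this.2]


lemma im_UH {N : ℝ} (hN : 0 < N) {y : ℂ} (hy : y ∈ UH) :
    -Real.pi < (Lam N y).im ∧ (Lam N y).im < N * Real.pi := by
  have h0 : 0 < normSq y := Complex.normSq_pos.2 (ne_zero_of_Dm (UH_sub hy))
  have hy' : 0 < y.im := hy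
  have h1 := arg_pos hy'
  have h2 : 0 < (1 - 1 / y).im := by rw [one_sub_im]; positivity
  have h3 := arg_pos h2
  rw [Lam_im]
  have h4 : 0 < N * y.arg := mul_pos hN h1.1
  have h5 : N * y.arg < N * Real.pi := mul_lt_mul_of_pos_left h1.2 hN
  constructor <;> linarith [h3.1, h3.2]


/-- lower bound of the real part -/
lemma norm_le_of_re {N : ℝ} (hN : 0 < N) {y : ℂ} {C : ℝ} (hC : (Lam N y).re ≤ C) :
    ‖y‖ ≤ max 1 (Real.exp ((C + Real.log 2) / N)) := by
  by_cases h : ‖y‖ ≤ 1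
  · exact le_max_of_le_left h
  · push Not at h
    apply le_max_of_le_right
    have hpos : 0 < ‖y‖ := by linarith
    rw [Lam_re] at hC
    have h1 : ‖(1 : ℂ) - 1 / y‖ ≤ 2 := by
      calc ‖(1 : ℂ) - 1 / y‖ ≤ ‖(1 : ℂ)‖ + ‖1 / y‖ := norm_sub_le _ _
        _ ≤ 1 + 1 := by
          rw [norm_one, norm_div, norm_one]
          have : 1 / ‖y‖ ≤ 1 := by
            rw [div_le_one hpos]; exact h.le
          linarith
        _ = 2 := by norm_num
    have h2 : Real.log ‖(1 : ℂ) - 1 / y‖ ≤ Real.log 2 := by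
      rcases (norm_nonneg ((1 : ℂ) - 1 / y)).lt_or_eq with h3 | h3
      · exact Real.log_le_log h3 h1
      · rw [← h3, Real.log_zero]
        exact Real.log_nonneg (by norm_num)
    have h3 : Real.log ‖y‖ ≤ (C + Real.log 2) / N := by
      rw [le_div_iff₀ hN]
      linarith [mul_comm N (Real.log ‖y‖)]
    calc ‖y‖ = Real.exp (Real.log ‖y‖) := (Real.exp_log hpos).symm
      _ ≤ _ := Real.exp_le_exp.2 h3

/-! ### injectivity -/

/-- a function with `Im f' < 0` on a convex set is injective -/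
lemma injOn_of_im_neg {U : Set ℂ} (hU : Convex ℝ U) {f f' : ℂ → ℂ}
    (hf : ∀ z ∈ U, HasDerivAt f (f' z) z) (him : ∀ z ∈ U, (f' z).im < 0) : InjOn f U := by
  intro z hz w hw h
  by_contra hne
  have hd : w - z ≠ 0 := sub_ne_zero.2 (Ne.symm hne)
  set p : ℝ → ℂ := fun t => z + (t : ℂ) * (w - z) with hp
  have hpU : ∀ t ∈ Icc (0 : ℝ) 1, p t ∈ U := by
    intro t ht
    have := hU hz hw (sub_nonneg.2 ht.2) ht.1 (by ring)
    convert this using 1
    simp only [hp, real_smul]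
    push_cast
    ring
  have hpd : ∀ t : ℝ, HasDerivAt p (w - z) t := by
    intro t
    have h1 : HasDerivAt (fun t : ℝ => (t : ℂ)) 1 t := Complex.ofRealCLM.hasDerivAt
    have h2 := (h1.mul_const (w - z)).const_add z
    simpa [hp] using h2
  set φ : ℝ → ℝ := fun t => (f (p t) / (w - z)).im with hφ
  have hφd : ∀ t ∈ Icc (0 : ℝ) 1, HasDerivAt φ ((f' (p t)).im) t := by
    intro t ht
    have h1 : HasDerivAt (fun t => f (p t)) (f' (p t) * (w - z)) t :=
      (hf _ (hpU t ht)).comp t (hpd t)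
    have h2 := h1.div_const (w - z)
    have e : f' (p t) * (w - z) / (w - z) = f' (p t) := by field_simp
    rw [e] at h2
    exact (Complex.imCLM.hasFDerivAt.comp_hasDerivAt t h2)
  obtain ⟨c, hc, hc'⟩ := exists_hasDerivAt_eq_slope φ (fun t => (f' (p t)).im) (zero_lt_one' ℝ)
    (fun t ht => (hφd t ht).continuousAt.continuousWithinAt)
    (fun t ht => hφd t ⟨ht.1.le, ht.2.le⟩)
  have h4 := him _ (hpU c ⟨hc.1.le, hc.2.le⟩)
  have h5 : φ 1 = φ 0 := by
    simp only [hφ, hp]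
    simp [h]
  rw [h5] at hc'
  simp at hc'
  linarith

lemma inj_UH' {N : ℝ} (hN : 0 < N) :
    InjOn (fun u : ℂ => (N : ℂ) * Complex.log u + Complex.log (1 - u)) UH := by
  refine injOn_of_im_neg convex_UH (f' := fun u => N * u⁻¹ + (-1) / (1 - u)) ?_ ?_
  · intro u hu
    have hu' : 0 < u.im := hu
    have h1 : u ∈ slitPlane := by rw [Complex.mem_slitPlane_iff]; right; exact hu'.ne'
    have h2 : 1 - u ∈ slitPlane := by
      rw [Complex.mem_slitPlane_iff]; right; simp; exact hu'.ne'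
    have h3 : HasDerivAt (fun u : ℂ => 1 - u) (-1) u := by
      simpa using (hasDerivAt_id u).const_sub (1 : ℂ)
    exact ((Complex.hasDerivAt_log h1).const_mul (N : ℂ)).add (h3.clog h2)
  · intro u hu
    have hu' : 0 < u.im := hu
    have h0 : 0 < normSq u := Complex.normSq_pos.2 (by rintro rfl; simp at hu')
    have h1 : 0 < normSq (1 - u) := Complex.normSq_pos.2 (by
      intro h
      have := congrArg Complex.im h
      simp at this
      linarith)
    have e1 : ((N : ℂ) * u⁻¹).im = -(N * (u.im / normSq u)) := by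
      rw [Complex.im_ofReal_mul, Complex.inv_im]; ring
    have e2 : ((-1 : ℂ) / (1 - u)).im = -(u.im / normSq (1 - u)) := by
      rw [neg_div, Complex.neg_im, one_div, Complex.inv_im]
      simp
    rw [Complex.add_im, e1, e2]
    have : 0 < N * (u.im / normSq u) := by positivity
    have : 0 < u.im / normSq (1 - u) := by positivity
    linarith

/-- `Lam` is injective on the lower half plane -/
lemma inj_LH {N : ℝ} (hN : 0 < N) : InjOn (Lam N) LH := by
  have key : ∀ y ∈ LH, Lam N y = -((N : ℂ) * Complex.log (1 / y) + Complex.log (1 - 1 / y)) := by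
    intro y hy
    have : Complex.log (1 / y) = -Complex.log y := by
      rw [one_div]
      exact Complex.log_inv _ (Complex.slitPlane_arg_ne_pi (slit_of_Dm (LH_sub hy)))
    rw [this]; unfold Lam; ring
  intro y hy z hz h
  rw [key y hy, key z hz, neg_inj] at h
  have hU : ∀ y ∈ LH, 1 / y ∈ UH := by
    intro y hy
    have hy' : y.im < 0 := hy
    have h0 : 0 < normSq y := Complex.normSq_pos.2 (ne_zero_of_Dm (LH_sub hy))
    show 0 < (1 / y).im
    rw [inv_im']
    have : 0 < -y.im := by linarith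
    positivity
  have h1 := inj_UH' hN (hU y hy) (hU z hz) h
  rw [one_div, one_div] at h1
  exact inv_injective h1


/-- no real value `Lam c`, `c > 1`, is taken on the lower half plane -/
lemma no_real_LH {N : ℝ} (hN : 0 < N) {y : ℂ} (hy : y ∈ LH) {c : ℝ} (hc : 1 < c) :
    Lam N y ≠ Lam N (c : ℂ) := by
  intro h
  have hyim : y.im < 0 := hy
  have hcD : (c : ℂ) ∈ Dm := Or.inl (by simpa using hc)
  set δ : ℝ := -y.im / 2 with hδ
  have hδ0 : 0 < δ := by rw [hδ]; linarith
  have hV : Metric.ball y δ ∈ 𝓝 y := Metric.ball_mem_nhds y hδ0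
  have hVL : ∀ v ∈ Metric.ball y δ, v.im < -δ := by
    intro v hv
    rw [Metric.mem_ball, dist_eq_norm] at hv
    have h1 := (abs_lt.1 (lt_of_le_of_lt (Complex.abs_im_le_norm (v - y)) hv)).2
    rw [Complex.sub_im] at h1
    have : y.im = -2 * δ := by rw [hδ]; ring
    linarith
  have himg : Lam N '' Metric.ball y δ ∈ 𝓝 (Lam N y) := by
    rw [← (Lam_strict N (LH_sub hy)).map_nhds_eq (dLam_ne hyim.ne)]
    exact image_mem_map hV
  rw [h] at himg
  have ht : Tendsto (Lam N) (𝓝[LH] (c : ℂ)) (𝓝 (Lam N c)) :=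
    (Lam_cont N hcD).tendsto.mono_left nhdsWithin_le_nhds
  have hne : (𝓝[LH] (c : ℂ)).NeBot := by
    rw [← mem_closure_iff_nhdsWithin_neBot]
    have : closure LH = {s : ℂ | s.im ≤ 0} := by
      have := Complex.closure_preimage_im (Iio 0)
      rw [closure_Iio] at this
      exact this
    rw [this]; simp
  have hW : {z : ℂ | -δ < z.im} ∈ 𝓝[LH] (c : ℂ) := by
    apply mem_nhdsWithin_of_mem_nhds
    apply (isOpen_lt continuous_const Complex.continuous_im).mem_nhds
    simp [hδ0]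
  obtain ⟨z, ⟨⟨v, hv, hvz⟩, hzW⟩, hzL⟩ :=
    ((ht.eventually_mem himg).and hW |>.and self_mem_nhdsWithin).exists
  have h1 := hVL v hv
  have hvL : v ∈ LH := by show v.im < 0; linarith
  have h2 := inj_LH hN hvL hzL hvz
  rw [h2] at h1
  have : -δ < z.im := hzW
  linarith

lemma no_real_UH {N : ℝ} (hN : 0 < N) {y : ℂ} (hy : y ∈ UH) {c : ℝ} (hc : 1 < c) :
    Lam N y ≠ Lam N (c : ℂ) := by
  intro h
  apply no_real_LH hN (star_LH hy) hc
  have hcD : (c : ℂ) ∈ Dm := Or.inl (by simpa using hc)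
  have h1 := Lam_conj N hcD
  rw [Complex.conj_ofReal] at h1
  rw [Lam_conj N (UH_sub hy), h, ← h1]

/-! ### signs near real points -/

/-- sign lemma -/
lemma im_pos_near {f : ℂ → ℂ} {c d : ℝ} (hf : HasStrictDerivAt f (d : ℂ) (c : ℂ)) (hd : 0 < d)
    (hr : ∀ᶠ x : ℝ in 𝓝 c, (f x).im = 0) :
    ∀ᶠ z in 𝓝 (c : ℂ), (0 < z.im → 0 < (f z).im) ∧ (z.im < 0 → (f z).im < 0) := by
  have h1 := (hf.isLittleO.bound (c := d / 2) (by positivity))
  have h2 : Tendsto (fun z : ℂ => (z, ((z.re : ℝ) : ℂ))) (𝓝 (c : ℂ)) (𝓝 ((c : ℂ), (c : ℂ))) := by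
    have : ContinuousAt (fun z : ℂ => (z, ((z.re : ℝ) : ℂ))) (c : ℂ) := by fun_prop
    simpa using this.tendsto
  have h3 : Tendsto (fun z : ℂ => z.re) (𝓝 (c : ℂ)) (𝓝 c) := by
    have : ContinuousAt (fun z : ℂ => z.re) (c : ℂ) := by fun_prop
    simpa using this.tendsto
  filter_upwards [h2.eventually h1, h3.eventually hr] with z hz1 hz2
  have e1 : z - (z.re : ℂ) = (z.im : ℂ) * I := by apply Complex.ext <;> simp
  rw [e1] at hz1
  have e2 : ‖(z.im : ℂ) * I‖ = |z.im| := by simp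
  rw [e2] at hz1
  have h4 := (Complex.abs_im_le_norm _).trans hz1
  have e3 : (f z - f (z.re : ℂ) - (ContinuousLinearMap.toSpanSingleton ℂ (d : ℂ)) ((z.im : ℂ) * I)).im
      = (f z).im - d * z.im := by
    simp [hz2]
    ring
  rw [e3] at h4
  have h5 := abs_le.1 h4
  constructor
  · intro hp
    rw [abs_of_pos hp] at h5
    nlinarith [h5.1, mul_pos hd hp]
  · intro hp
    rw [abs_of_neg hp] at h5
    nlinarith [h5.2, mul_pos hd (neg_pos.2 hp)]

lemma Lam_real_im {N c : ℝ} (hc : 1 < c) : (Lam N (c : ℂ)).im = 0 := by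
  have hcD : (c : ℂ) ∈ Dm := Or.inl (by simpa using hc)
  have h1 := Lam_conj N hcD
  rw [Complex.conj_ofReal] at h1
  have := congrArg Complex.im h1
  rw [Complex.conj_im] at this
  linarith

lemma sign_right {N c : ℝ} (hN : 0 < N) (hc : nf N < c) :
    ∀ᶠ z in 𝓝 (c : ℂ), (0 < z.im → 0 < (Lam N z).im) ∧ (z.im < 0 → (Lam N z).im < 0) := by
  have h1 : 1 < c := by
    have : 0 < 1 / N := by positivity
    unfold nf at hc; linarith
  have hcD : (c : ℂ) ∈ Dm := Or.inl (by simpa using h1)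
  have h := Lam_strict N hcD
  rw [dLam_real] at h
  exact im_pos_near h (dLam_pos hN hc) ((lt_mem_nhds h1).mono fun x hx => Lam_real_im hx)

lemma sign_left {N c : ℝ} (hN : 0 < N) (h1c : 1 < c) (hc : c < nf N) :
    ∀ᶠ z in 𝓝 (c : ℂ), (0 < z.im → (Lam N z).im < 0) ∧ (z.im < 0 → 0 < (Lam N z).im) := by
  have hcD : (c : ℂ) ∈ Dm := Or.inl (by simpa using h1c)
  have h := (Lam_strict N hcD).neg
  rw [dLam_real, ← Complex.ofReal_neg] at h
  have h2 := im_pos_near h (by linarith [dLam_neg hN h1c hc])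
    ((lt_mem_nhds h1c).mono fun x hx => by simp [Lam_real_im hx])
  filter_upwards [h2] with z hz
  simp only [Pi.neg_apply, Complex.neg_im] at hz
  exact ⟨fun h => by linarith [hz.1 h], fun h => by linarith [hz.2 h]⟩

end Crest.Agent.R102.Flat348
end
end

-- ▼ part R102/PickExt_348
section

/-!
# Row 102, part (C), item [d]: abstract Pick extension (helper348)

`D` = half plane or strip in the lower half plane, symmetric under `rf a = -conj a`,
`Φ` injective on `D`, and a germ `G` at infinity with `Φ (G s) = Ps Φ (G (s+1))`,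
`Ps Φ a = conj (Φ (-conj a))` (the other branch, `= Φ (-a)`).  Under the properness hypothesis
`Sys.prop` the germ extends to the whole upper half plane.
-/

open Complex Set Filter Topology

noncomputable section

namespace Crest.Agent.R102.PickExt348

/-- reflection `s ↦ -conj s` -/
def rf (s : ℂ) : ℂ := -(starRingEnd ℂ) s

@[simp] lemma rf_re (s : ℂ) : (rf s).re = -s.re := by simp [rf]
@[simp] lemma rf_im (s : ℂ) : (rf s).im = s.im := by simp [rf]
@[simp] lemma rf_rf (s : ℂ) : rf (rf s) = s := by simp [rf]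
lemma rf_norm (s : ℂ) : ‖rf s‖ = ‖s‖ := by simp [rf]
lemma rf_add_one (s : ℂ) : rf (s + 1) = rf s - 1 := by simp [rf]; ring
lemma continuous_rf : Continuous rf := by unfold rf; fun_prop

/-- the other branch -/
def Ps (Φ : ℂ → ℂ) (a : ℂ) : ℂ := (starRingEnd ℂ) (Φ (rf a))

lemma diff_conj_rf {f : ℂ → ℂ} {s : ℂ} (h : DifferentiableAt ℂ f (rf s)) :
    DifferentiableAt ℂ (fun s => (starRingEnd ℂ) (f (rf s))) s := by
  have h1 : DifferentiableAt ℂ (fun z => f (-z)) ((starRingEnd ℂ) s) := by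
    have : DifferentiableAt ℂ f (-((starRingEnd ℂ) s)) := h
    exact this.comp ((starRingEnd ℂ) s) (differentiableAt_id.neg)
  have h2 := h1.conj_conj
  simpa [Function.comp_def, rf] using h2

lemma diff_rf_rf {f : ℂ → ℂ} {s : ℂ} (h : DifferentiableAt ℂ f (rf s)) :
    DifferentiableAt ℂ (fun s => rf (f (rf s))) s := by
  have := (diff_conj_rf h).neg
  exact this

structure Sys (D : Set ℂ) (Φ Φ' : ℂ → ℂ) : Prop where
  op : IsOpen D
  sy : ∀ a ∈ D, rf a ∈ D
  dr : ∀ a ∈ D, HasStrictDerivAt Φ (Φ' a) a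
  nz : ∀ a ∈ D, Φ' a ≠ 0
  inj : InjOn Φ D
  prop : ∀ a' ∈ D, ∀ a : ℕ → ℂ, (∀ j, a j ∈ D ∧ 0 < (a j).re) →
    Tendsto (fun j => Φ (a j)) atTop (𝓝 (Ps Φ a')) → Ps Φ a' ∈ Φ '' D

structure GInf (D : Set ℂ) (Φ : ℂ → ℂ) (ρ : ℝ) (G : ℂ → ℂ) : Prop where
  hρ : 0 < ρ
  an : DifferentiableOn ℂ G {s | ρ < ‖s‖}
  sy : ∀ s : ℂ, ρ < ‖s‖ → G (rf s) = rf (G s)
  maps : ∀ s : ℂ, ρ < ‖s‖ → 0 < s.im → G s ∈ D
  inj : InjOn G {s | ρ < ‖s‖}
  eq : ∀ s : ℂ, ρ < ‖s‖ → ρ < ‖s + 1‖ → 0 < s.im → Φ (G s) = Ps Φ (G (s + 1))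
  rpos : ∀ s : ℂ, ρ < ‖s‖ → 0 < s.re → 0 < (G s).re

variable {D : Set ℂ} {Φ Φ' : ℂ → ℂ} {ρ : ℝ} {G : ℂ → ℂ}

/-- the half plane `Im > Y` -/
def HP (Y : ℝ) : Set ℂ := {s | Y < s.im}

lemma isOpen_HP (Y : ℝ) : IsOpen (HP Y) := isOpen_lt continuous_const Complex.continuous_im

lemma convex_HP (Y : ℝ) : Convex ℝ (HP Y) := by
  have : HP Y = {s : ℂ | Y < Complex.imCLM s} := rfl
  rw [this]
  exact convex_halfSpace_gt (f := Complex.imCLM) (Complex.imCLM.isLinear) Y

lemma convex_re_gt (Y : ℝ) : Convex ℝ {s : ℂ | Y < s.re} := by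
  have : {s : ℂ | Y < s.re} = {s : ℂ | Y < Complex.reCLM s} := rfl
  rw [this]
  exact convex_halfSpace_gt (f := Complex.reCLM) (Complex.reCLM.isLinear) Y

lemma convex_re_lt (Y : ℝ) : Convex ℝ {s : ℂ | s.re < Y} := by
  have : {s : ℂ | s.re < Y} = {s : ℂ | Complex.reCLM s < Y} := rfl
  rw [this]
  exact convex_halfSpace_lt (f := Complex.reCLM) (Complex.reCLM.isLinear) Y

/-! ### the inverse of `Φ` -/

/-- inverse branch -/
def Jv (Φ : ℂ → ℂ) (D : Set ℂ) : ℂ → ℂ := Function.invFunOn Φ D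

lemma Jv_mem {w : ℂ} (hw : w ∈ Φ '' D) : Jv Φ D w ∈ D := Function.invFunOn_mem hw

lemma Φ_Jv {w : ℂ} (hw : w ∈ Φ '' D) : Φ (Jv Φ D w) = w := Function.invFunOn_eq hw

lemma Sys.Jv_Φ (S : Sys D Φ Φ') {a : ℂ} (ha : a ∈ D) : Jv Φ D (Φ a) = a :=
  S.inj (Jv_mem ⟨a, ha, rfl⟩) ha (Φ_Jv ⟨a, ha, rfl⟩)

lemma Sys.image_nhds (S : Sys D Φ Φ') {a : ℂ} (ha : a ∈ D) {V : Set ℂ} (hV : V ∈ 𝓝 a) :
    Φ '' V ∈ 𝓝 (Φ a) := by
  rw [← (S.dr a ha).map_nhds_eq (S.nz a ha)]
  exact image_mem_map hV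

lemma Sys.open_image (S : Sys D Φ Φ') : IsOpen (Φ '' D) := by
  rw [isOpen_iff_mem_nhds]
  rintro _ ⟨a, ha, rfl⟩
  exact S.image_nhds ha (S.op.mem_nhds ha)

lemma Sys.Jv_cont (S : Sys D Φ Φ') {a : ℂ} (ha : a ∈ D) : ContinuousAt (Jv Φ D) (Φ a) := by
  rw [ContinuousAt, S.Jv_Φ ha]
  intro V hV
  have h1 := S.image_nhds ha (inter_mem hV (S.op.mem_nhds ha))
  rw [Filter.mem_map]
  refine mem_of_superset h1 ?_
  rintro _ ⟨v, hv, rfl⟩
  show Jv Φ D (Φ v) ∈ V
  rw [S.Jv_Φ hv.2]; exact hv.1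

lemma Sys.Jv_diff (S : Sys D Φ Φ') {w : ℂ} (hw : w ∈ Φ '' D) :
    DifferentiableAt ℂ (Jv Φ D) w := by
  obtain ⟨a, ha, rfl⟩ := hw
  refine (HasDerivAt.of_local_left_inverse (f := Φ) (S.Jv_cont ha) ?_ (S.nz a ha) ?_).differentiableAt
  · rw [S.Jv_Φ ha]; exact (S.dr a ha).hasDerivAt
  · filter_upwards [S.open_image.mem_nhds ⟨a, ha, rfl⟩] with w hw
    exact Φ_Jv hw

lemma Sys.Ps_diff (S : Sys D Φ Φ') {a : ℂ} (ha : a ∈ D) : DifferentiableAt ℂ (Ps Φ) a := by
  have h : DifferentiableAt ℂ Φ (rf a) := (S.dr _ (S.sy a ha)).hasDerivAt.differentiableAt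
  exact diff_conj_rf h

lemma Sys.Ps_inj (S : Sys D Φ Φ') {a b : ℂ} (ha : a ∈ D) (hb : b ∈ D) (h : Ps Φ a = Ps Φ b) :
    a = b := by
  have h1 : Φ (rf a) = Φ (rf b) := (starRingEnd ℂ).injective h
  have h2 := S.inj (S.sy a ha) (S.sy b hb) h1
  rw [← rf_rf a, h2, rf_rf]

/-! ### the canonical function -/

/-- one step to the left -/
def Bm (Φ : ℂ → ℂ) (D : Set ℂ) (a : ℂ) : ℂ := Jv Φ D (Ps Φ a)

/-- number of steps -/
def Kn (ρ : ℝ) (s : ℂ) : ℕ := ⌈ρ - s.re⌉₊ + 1

lemma Kn_spec (ρ : ℝ) (s : ℂ) : ρ < s.re + Kn ρ s := by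
  unfold Kn
  have := Nat.le_ceil (ρ - s.re)
  push_cast
  linarith

/-- the extension (total function) -/
def gg (Φ : ℂ → ℂ) (D : Set ℂ) (ρ : ℝ) (G : ℂ → ℂ) (s : ℂ) : ℂ :=
  (Bm Φ D)^[Kn ρ s] (G (s + Kn ρ s))

lemma norm_gt_of_re {s : ℂ} (h : ρ < s.re) : ρ < ‖s‖ := lt_of_lt_of_le h (Complex.re_le_norm s)

lemma norm_gt_of_im {s : ℂ} (h : ρ < s.im) : ρ < ‖s‖ :=
  lt_of_lt_of_le h ((le_abs_self _).trans (Complex.abs_im_le_norm s))

lemma step_G (S : Sys D Φ Φ') (hG : GInf D Φ ρ G) {s : ℂ} (hs : 0 < s.im) (h1 : ρ < ‖s‖)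
    (h2 : ρ < ‖s + 1‖) : Bm Φ D (G (s + 1)) = G s := by
  unfold Bm
  rw [← hG.eq s h1 h2 hs, S.Jv_Φ (hG.maps s h1 hs)]

lemma iter_eq (S : Sys D Φ Φ') (hG : GInf D Φ ρ G) {s : ℂ} (hs : 0 < s.im) {k : ℕ}
    (hk : ρ < s.re + k) (m : ℕ) :
    (Bm Φ D)^[k + m] (G (s + ((k + m : ℕ) : ℂ))) = (Bm Φ D)^[k] (G (s + k)) := by
  induction m with
  | zero => rfl
  | succ m ih =>
    rw [← ih, ← add_assoc, Function.iterate_succ_apply]
    congr 1
    have e : s + ((k + m + 1 : ℕ) : ℂ) = (s + ((k + m : ℕ) : ℂ)) + 1 := by push_cast; ring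
    rw [e]
    have hre : ρ < (s + ((k + m : ℕ) : ℂ)).re := by
      simp only [Complex.add_re, Complex.natCast_re]
      push_cast
      have : (0 : ℝ) ≤ m := Nat.cast_nonneg m
      linarith
    apply step_G S hG
    · simpa using hs
    · exact norm_gt_of_re hre
    · apply norm_gt_of_re
      simp only [Complex.add_re, Complex.one_re] at hre ⊢
      linarith

lemma gg_eq (S : Sys D Φ Φ') (hG : GInf D Φ ρ G) {s : ℂ} (hs : 0 < s.im) {k : ℕ}
    (hk : ρ < s.re + k) : gg Φ D ρ G s = (Bm Φ D)^[k] (G (s + k)) := by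
  unfold gg
  rcases le_total k (Kn ρ s) with h | h
  · obtain ⟨m, hm⟩ := Nat.exists_eq_add_of_le h
    rw [hm]
    exact iter_eq S hG hs hk m
  · obtain ⟨m, hm⟩ := Nat.exists_eq_add_of_le h
    rw [hm]
    exact (iter_eq S hG hs (Kn_spec ρ s) m).symm

lemma gg_step (S : Sys D Φ Φ') (hG : GInf D Φ ρ G) {s : ℂ} (hs : 0 < s.im) :
    gg Φ D ρ G s = Bm Φ D (gg Φ D ρ G (s + 1)) := by
  have h1 : ρ < s.re + (Kn ρ s + 1 : ℕ) := by
    have := Kn_spec ρ s; push_cast; linarith
  have h2 : ρ < (s + 1).re + (Kn ρ s : ℕ) := by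
    have := Kn_spec ρ s; simp only [Complex.add_re, Complex.one_re]; linarith
  rw [gg_eq S hG hs h1, gg_eq S hG (s := s + 1) (by simpa using hs) h2,
    Function.iterate_succ_apply']
  congr 3
  push_cast; ring

lemma gg_right (S : Sys D Φ Φ') (hG : GInf D Φ ρ G) {s : ℂ} (hs : 0 < s.im) (hk : ρ < s.re) :
    gg Φ D ρ G s = G s := by
  have h : ρ < s.re + (0 : ℕ) := by simpa using hk
  rw [gg_eq S hG hs h]
  simp

/-- good points -/
def Om (Φ : ℂ → ℂ) (D : Set ℂ) (ρ : ℝ) (G : ℂ → ℂ) : Set ℂ :=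
  {s | 0 < s.im ∧ ∀ j : ℕ, Ps Φ (gg Φ D ρ G (s + j + 1)) ∈ Φ '' D}


lemma Om_add_one {s : ℂ} (h : s ∈ Om Φ D ρ G) : s + 1 ∈ Om Φ D ρ G := by
  refine ⟨by simpa using h.1, fun j => ?_⟩
  have := h.2 (j + 1)
  have e : s + ((j + 1 : ℕ) : ℂ) + 1 = s + 1 + j + 1 := by push_cast; ring
  rw [e] at this; exact this

lemma Om_add {s : ℂ} (h : s ∈ Om Φ D ρ G) (k : ℕ) : s + k ∈ Om Φ D ρ G := by
  induction k with
  | zero => simpa using h
  | succ k ih =>
    have := Om_add_one ih
    have e : s + k + 1 = s + ((k + 1 : ℕ) : ℂ) := by push_cast; ring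
    rw [e] at this; exact this

lemma Om_of_step {s : ℂ} (hs : 0 < s.im) (h : s + 1 ∈ Om Φ D ρ G)
    (h0 : Ps Φ (gg Φ D ρ G (s + 1)) ∈ Φ '' D) : s ∈ Om Φ D ρ G := by
  refine ⟨hs, fun j => ?_⟩
  rcases j with _ | j
  · simpa using h0
  · have := h.2 j
    have e : s + ((j + 1 : ℕ) : ℂ) + 1 = s + 1 + j + 1 := by push_cast; ring
    rw [e]; exact this

lemma gg_mem (S : Sys D Φ Φ') (hG : GInf D Φ ρ G) {s : ℂ} (h : s ∈ Om Φ D ρ G) :
    gg Φ D ρ G s ∈ D := by
  rw [gg_step S hG h.1]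
  apply Jv_mem
  have := h.2 0
  simpa using this

lemma gg_fe (S : Sys D Φ Φ') (hG : GInf D Φ ρ G) {s : ℂ} (h : s ∈ Om Φ D ρ G) :
    Φ (gg Φ D ρ G s) = Ps Φ (gg Φ D ρ G (s + 1)) := by
  rw [gg_step S hG h.1]
  apply Φ_Jv
  have := h.2 0
  simpa using this

/-- points with all translates outside the disc -/
lemma gg_out (S : Sys D Φ Φ') (hG : GInf D Φ ρ G) :
    ∀ (k : ℕ) (s : ℂ), ρ < s.re + k → 0 < s.im → (∀ j : ℕ, ρ < ‖s + j‖) →
      s ∈ Om Φ D ρ G ∧ gg Φ D ρ G s = G s := by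
  intro k
  induction k with
  | zero =>
    intro s hk hs _
    have hk' : ρ < s.re := by simpa using hk
    refine ⟨⟨hs, fun j => ?_⟩, gg_right S hG hs hk'⟩
    have h1 : ρ < (s + j).re := by
      simp only [Complex.add_re, Complex.natCast_re]
      have : (0 : ℝ) ≤ j := Nat.cast_nonneg j
      linarith
    have h2 : ρ < (s + j + 1).re := by
      simp only [Complex.add_re, Complex.one_re] at h1 ⊢; linarith
    have him : 0 < (s + (j : ℂ)).im := by simpa using hs
    rw [gg_right S hG (by simpa using hs) h2,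
      ← hG.eq (s + j) (norm_gt_of_re h1) (norm_gt_of_re h2) him]
    exact ⟨_, hG.maps _ (norm_gt_of_re h1) him, rfl⟩
  | succ k ih =>
    intro s hk hs hj
    obtain ⟨h1, h2⟩ := ih (s + 1) (by
      simp only [Complex.add_re, Complex.one_re]; push_cast at hk; linarith)
      (by simpa using hs) (fun j => by
        have := hj (j + 1)
        have e : s + ((j + 1 : ℕ) : ℂ) = s + 1 + j := by push_cast; ring
        rw [e] at this; exact this)
    have h0 : ρ < ‖s‖ := by simpa using hj 0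
    have h0' : ρ < ‖s + 1‖ := by simpa using hj 1
    refine ⟨Om_of_step hs h1 ?_, ?_⟩
    · rw [h2, ← hG.eq s h0 h0' hs]
      exact ⟨_, hG.maps s h0 hs, rfl⟩
    · rw [gg_step S hG hs, h2]
      exact step_G S hG hs h0 h0'

lemma exists_k (ρ : ℝ) (s : ℂ) : ∃ k : ℕ, ρ < s.re + k := ⟨_, Kn_spec ρ s⟩

lemma gg_high (S : Sys D Φ Φ') (hG : GInf D Φ ρ G) {s : ℂ} (hs : ρ < s.im) :
    s ∈ Om Φ D ρ G ∧ gg Φ D ρ G s = G s := by
  obtain ⟨k, hk⟩ := exists_k ρ s
  refine gg_out S hG k s hk (lt_trans hG.hρ hs) fun j => norm_gt_of_im ?_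
  simpa using hs

lemma gg_far (S : Sys D Φ Φ') (hG : GInf D Φ ρ G) {s : ℂ} (hs : ρ < s.re) (him : 0 < s.im) :
    s ∈ Om Φ D ρ G ∧ gg Φ D ρ G s = G s :=
  gg_out S hG 0 s (by simpa using hs) him fun j => norm_gt_of_re (by
    simp only [Complex.add_re, Complex.natCast_re]
    have : (0 : ℝ) ≤ j := Nat.cast_nonneg j
    linarith)

/-- differentiability along the chain -/
lemma gg_diff (S : Sys D Φ Φ') (hG : GInf D Φ ρ G) :
    ∀ (k : ℕ) (s : ℂ), ρ < s.re + k → s ∈ Om Φ D ρ G → DifferentiableAt ℂ (gg Φ D ρ G) s := by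
  have hopen : IsOpen {s : ℂ | ρ < ‖s‖} := isOpen_lt continuous_const continuous_norm
  intro k
  induction k with
  | zero =>
    intro s hk hs
    have hk' : ρ < s.re := by simpa using hk
    refine (hG.an.differentiableAt (hopen.mem_nhds (norm_gt_of_re hk'))).congr_of_eventuallyEq ?_
    filter_upwards [(isOpen_lt continuous_const Complex.continuous_re).mem_nhds hk',
      (isOpen_HP 0).mem_nhds hs.1] with z hz1 hz2
    exact gg_right S hG hz2 hz1
  | succ k ih =>
    intro s hk hs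
    have h1 := ih (s + 1) (by
      simp only [Complex.add_re, Complex.one_re]; push_cast at hk; linarith) (Om_add_one hs)
    have h2 : DifferentiableAt ℂ (fun z => gg Φ D ρ G (z + 1)) s :=
      DifferentiableAt.comp (g := gg Φ D ρ G) (f := fun z : ℂ => z + 1) s h1 (by fun_prop)
    have hm := gg_mem S hG (Om_add_one hs)
    have h3 : DifferentiableAt ℂ (fun z => Bm Φ D (gg Φ D ρ G (z + 1))) s := by
      have hw : Ps Φ (gg Φ D ρ G (s + 1)) ∈ Φ '' D := by simpa using hs.2 0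
      have h4 : DifferentiableAt ℂ (Bm Φ D) (gg Φ D ρ G (s + 1)) :=
        DifferentiableAt.comp (g := Jv Φ D) (f := Ps Φ) _ (S.Jv_diff hw) (S.Ps_diff hm)
      exact DifferentiableAt.comp (g := Bm Φ D) (f := fun z => gg Φ D ρ G (z + 1)) s h4 h2
    refine h3.congr_of_eventuallyEq ?_
    filter_upwards [(isOpen_HP 0).mem_nhds hs.1] with z hz
    exact gg_step S hG hz

lemma gg_diffAt (S : Sys D Φ Φ') (hG : GInf D Φ ρ G) {s : ℂ} (hs : s ∈ Om Φ D ρ G) :
    DifferentiableAt ℂ (gg Φ D ρ G) s := by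
  obtain ⟨k, hk⟩ := exists_k ρ s
  exact gg_diff S hG k s hk hs

/-- openness -/
lemma Om_nhds (S : Sys D Φ Φ') (hG : GInf D Φ ρ G) :
    ∀ (k : ℕ) (s : ℂ), ρ < s.re + k → s ∈ Om Φ D ρ G → Om Φ D ρ G ∈ 𝓝 s := by
  intro k
  induction k with
  | zero =>
    intro s hk hs
    have hk' : ρ < s.re := by simpa using hk
    filter_upwards [(isOpen_lt continuous_const Complex.continuous_re).mem_nhds hk',
      (isOpen_HP 0).mem_nhds hs.1] with z hz1 hz2
    exact (gg_far S hG hz1 hz2).1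
  | succ k ih =>
    intro s hk hs
    have hs1 := Om_add_one hs
    have h1 := ih (s + 1) (by
      simp only [Complex.add_re, Complex.one_re]; push_cast at hk; linarith) hs1
    have hc : ContinuousAt (fun z : ℂ => z + 1) s := by fun_prop
    have hm := gg_mem S hG hs1
    have h2 : ContinuousAt (fun z => Ps Φ (gg Φ D ρ G (z + 1))) s := by
      refine ContinuousAt.comp (g := Ps Φ) (f := fun z => gg Φ D ρ G (z + 1))
        (S.Ps_diff hm).continuousAt ?_
      exact ContinuousAt.comp (g := gg Φ D ρ G) (f := fun z : ℂ => z + 1)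
        (gg_diffAt S hG hs1).continuousAt hc
    have hw : Ps Φ (gg Φ D ρ G (s + 1)) ∈ Φ '' D := by simpa using hs.2 0
    filter_upwards [hc.eventually_mem h1, h2.eventually_mem (S.open_image.mem_nhds hw),
      (isOpen_HP 0).mem_nhds hs.1] with z hz1 hz2 hz3
    exact Om_of_step hz3 hz1 hz2

lemma Om_open (S : Sys D Φ Φ') (hG : GInf D Φ ρ G) : IsOpen (Om Φ D ρ G) := by
  rw [isOpen_iff_mem_nhds]
  intro s hs
  obtain ⟨k, hk⟩ := exists_k ρ s
  exact Om_nhds S hG k s hk hs

/-- injectivity on good points -/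
lemma gg_inj (S : Sys D Φ Φ') (hG : GInf D Φ ρ G) {s t : ℂ} (hs : s ∈ Om Φ D ρ G)
    (ht : t ∈ Om Φ D ρ G) (h : gg Φ D ρ G s = gg Φ D ρ G t) : s = t := by
  have key : ∀ k : ℕ, gg Φ D ρ G (s + k) = gg Φ D ρ G (t + k) := by
    intro k
    induction k with
    | zero => simpa using h
    | succ k ih =>
      have h1 := congrArg Φ ih
      rw [gg_fe S hG (Om_add hs k), gg_fe S hG (Om_add ht k)] at h1
      have h2 := S.Ps_inj (gg_mem S hG (Om_add_one (Om_add hs k)))
        (gg_mem S hG (Om_add_one (Om_add ht k))) h1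
      have e1 : s + k + 1 = s + ((k + 1 : ℕ) : ℂ) := by push_cast; ring
      have e2 : t + k + 1 = t + ((k + 1 : ℕ) : ℂ) := by push_cast; ring
      rw [e1, e2] at h2
      exact h2
  obtain ⟨k1, hk1⟩ := exists_k ρ s
  obtain ⟨k2, hk2⟩ := exists_k ρ t
  have h3 := key (k1 + k2)
  have hs1 : ρ < (s + ((k1 + k2 : ℕ) : ℂ)).re := by
    simp only [Complex.add_re, Complex.natCast_re]; push_cast
    have : (0 : ℝ) ≤ k2 := Nat.cast_nonneg k2
    linarith
  have ht1 : ρ < (t + ((k1 + k2 : ℕ) : ℂ)).re := by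
    simp only [Complex.add_re, Complex.natCast_re]; push_cast
    have : (0 : ℝ) ≤ k1 := Nat.cast_nonneg k1
    linarith
  rw [gg_right S hG (by simpa using hs.1) hs1, gg_right S hG (by simpa using ht.1) ht1] at h3
  have h4 := hG.inj (norm_gt_of_re hs1) (norm_gt_of_re ht1) h3
  exact add_right_cancel h4

/-- symmetry on a half plane of good points -/
lemma gg_sym (S : Sys D Φ Φ') (hG : GInf D Φ ρ G) {Y : ℝ} (hY : HP Y ⊆ Om Φ D ρ G) {s : ℂ}
    (hs : s ∈ HP Y) : gg Φ D ρ G (rf s) = rf (gg Φ D ρ G s) := by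
  have hrf : ∀ s ∈ HP Y, rf s ∈ HP Y := fun s hs => by
    show Y < (rf s).im
    rw [rf_im]; exact hs
  have h1 : AnalyticOnNhd ℂ (gg Φ D ρ G) (HP Y) := by
    apply DifferentiableOn.analyticOnNhd _ (isOpen_HP Y)
    intro s hs
    exact (gg_diffAt S hG (hY hs)).differentiableWithinAt
  have h2 : AnalyticOnNhd ℂ (fun s => rf (gg Φ D ρ G (rf s))) (HP Y) := by
    apply DifferentiableOn.analyticOnNhd _ (isOpen_HP Y)
    intro s hs
    exact (diff_rf_rf (gg_diffAt S hG (hY (hrf s hs)))).differentiableWithinAt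
  set z0 : ℂ := ((max Y ρ + 1 : ℝ) : ℂ) * I with hz0
  have hz0im : z0.im = max Y ρ + 1 := by simp [hz0]
  have hz0Y : z0 ∈ HP Y := by
    show Y < z0.im
    rw [hz0im]; linarith [le_max_left Y ρ]
  have hz0ρ : ρ < z0.im := by rw [hz0im]; linarith [le_max_right Y ρ]
  have h3 : gg Φ D ρ G =ᶠ[𝓝 z0] fun s => rf (gg Φ D ρ G (rf s)) := by
    filter_upwards [(isOpen_HP ρ).mem_nhds hz0ρ] with z hz
    have hz' : ρ < z.im := hz
    rw [(gg_high S hG hz').2, (gg_high S hG (s := rf z) (by rw [rf_im]; exact hz')).2,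
      hG.sy z (norm_gt_of_im hz'), rf_rf]
  have h4 := AnalyticOnNhd.eqOn_of_preconnected_of_eventuallyEq h1 h2
    (convex_HP Y).isPreconnected hz0Y h3 hs
  have h5 : gg Φ D ρ G s = rf (gg Φ D ρ G (rf s)) := h4
  rw [h5, rf_rf]

lemma sign_of {U : Set ℂ} (hU : IsPreconnected U) {f : ℂ → ℝ} (hf : ContinuousOn f U)
    (h0 : ∀ z ∈ U, f z ≠ 0) {a : ℂ} (ha : a ∈ U) (hpos : 0 < f a) {z : ℂ} (hz : z ∈ U) :
    0 < f z := by
  by_contra hneg
  push Not at hneg
  have h1 := hU.intermediate_value hz ha hf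
  obtain ⟨w, hw, hw0⟩ := h1 ⟨hneg, hpos.le⟩
  exact h0 w hw hw0

/-- positivity -/
lemma gg_pos (S : Sys D Φ Φ') (hG : GInf D Φ ρ G) {Y : ℝ} (hY : HP Y ⊆ Om Φ D ρ G) {s : ℂ}
    (hs : s ∈ HP Y) (hre : 0 < s.re) : 0 < (gg Φ D ρ G s).re := by
  set U : Set ℂ := HP Y ∩ {s | 0 < s.re} with hU
  have hUc : Convex ℝ U := (convex_HP Y).inter (convex_re_gt 0)
  have hcont : ContinuousOn (fun s => (gg Φ D ρ G s).re) U := by
    intro s hs
    exact (Complex.continuous_re.continuousAt.comp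
      (gg_diffAt S hG (hY hs.1)).continuousAt).continuousWithinAt
  have hne : ∀ z ∈ U, (gg Φ D ρ G z).re ≠ 0 := by
    intro z hz h
    have h1 : rf (gg Φ D ρ G z) = gg Φ D ρ G z := by
      apply Complex.ext <;> simp [h]
    rw [← gg_sym S hG hY hz.1] at h1
    have h2 := gg_inj S hG (hY (by show Y < (rf z).im; rw [rf_im]; exact hz.1)) (hY hz.1) h1
    have h3 := congrArg Complex.re h2
    rw [rf_re] at h3
    have : 0 < z.re := hz.2
    linarith
  set z0 : ℂ := ((1 : ℝ) : ℂ) + ((max Y ρ + 1 : ℝ) : ℂ) * I with hz0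
  have hz0im : z0.im = max Y ρ + 1 := by simp [hz0]
  have hz0re : z0.re = 1 := by simp [hz0]
  have hz0Y : z0 ∈ HP Y := by
    show Y < z0.im
    rw [hz0im]; linarith [le_max_left Y ρ]
  have hz0ρ : ρ < z0.im := by rw [hz0im]; linarith [le_max_right Y ρ]
  have hz0U : z0 ∈ U := ⟨hz0Y, by show 0 < z0.re; rw [hz0re]; norm_num⟩
  refine sign_of hUc.isPreconnected hcont hne hz0U ?_ ⟨hs, hre⟩
  rw [(gg_high S hG hz0ρ).2]
  exact hG.rpos z0 (norm_gt_of_im hz0ρ) (by rw [hz0re]; norm_num)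

/-- points of the line with `Re ≥ 0` are good -/
lemma line_good (S : Sys D Φ Φ') (hG : GInf D Φ ρ G) {Y : ℝ} (hY0 : 0 < Y)
    (hY : HP Y ⊆ Om Φ D ρ G) :
    ∀ (k : ℕ) (s : ℂ), ρ < s.re + k → s.im = Y → 0 ≤ s.re → s ∈ Om Φ D ρ G := by
  intro k
  induction k with
  | zero =>
    intro s hk him hre
    exact (gg_far S hG (by simpa using hk) (by rw [him]; exact hY0)).1
  | succ k ih =>
    intro s hk him hre
    have h1 := ih (s + 1) (by
      simp only [Complex.add_re, Complex.one_re]; push_cast at hk; linarith)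
      (by simpa using him) (by simp only [Complex.add_re, Complex.one_re]; linarith)
    refine Om_of_step (by rw [him]; exact hY0) h1 ?_
    set a : ℕ → ℂ := fun j => s + (((1 / ((j : ℝ) + 1) : ℝ)) : ℂ) * (1 + I) with ha
    have hpos : ∀ j : ℕ, 0 < 1 / ((j : ℝ) + 1) := fun j => by positivity
    have him' : ∀ j, (a j).im = Y + 1 / ((j : ℝ) + 1) := by
      intro j
      simp only [ha, Complex.add_im, Complex.im_ofReal_mul, Complex.one_im, Complex.I_im, him]
      ring
    have hre' : ∀ j, (a j).re = s.re + 1 / ((j : ℝ) + 1) := by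
      intro j
      simp only [ha, Complex.add_re, Complex.re_ofReal_mul, Complex.one_re, Complex.I_re]
      ring
    have hHP : ∀ j, a j ∈ HP Y := fun j => by
      show Y < (a j).im
      rw [him' j]; linarith [hpos j]
    have hlim : Tendsto a atTop (𝓝 s) := by
      have h2 : Tendsto (fun j : ℕ => 1 / ((j : ℝ) + 1)) atTop (𝓝 0) :=
        tendsto_one_div_add_atTop_nhds_zero_nat
      have h3 : Tendsto (fun x : ℝ => s + (x : ℂ) * (1 + I)) (𝓝 0) (𝓝 s) := by
        have : ContinuousAt (fun x : ℝ => s + (x : ℂ) * (1 + I)) 0 := by fun_prop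
        simpa using this.tendsto
      exact h3.comp h2
    refine S.prop _ (gg_mem S hG h1) (fun j => gg Φ D ρ G (a j)) (fun j => ⟨?_, ?_⟩) ?_
    · exact gg_mem S hG (hY (hHP j))
    · exact gg_pos S hG hY (hHP j) (by rw [hre' j]; linarith [hpos j])
    · have hc : ContinuousAt (fun z => Ps Φ (gg Φ D ρ G (z + 1))) s := by
        refine ContinuousAt.comp (g := Ps Φ) (f := fun z => gg Φ D ρ G (z + 1))
          (S.Ps_diff (gg_mem S hG h1)).continuousAt ?_
        exact ContinuousAt.comp (g := gg Φ D ρ G) (f := fun z : ℂ => z + 1)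
          (gg_diffAt S hG h1).continuousAt (by fun_prop)
      refine (hc.tendsto.comp hlim).congr fun j => ?_
      exact (gg_fe S hG (hY (hHP j))).symm

/-- a larger half plane is good -/
lemma extend_down (S : Sys D Φ Φ') (hG : GInf D Φ ρ G) {Y : ℝ} (hY0 : 0 < Y)
    (hY : HP Y ⊆ Om Φ D ρ G) : ∃ Y1, 0 ≤ Y1 ∧ Y1 < Y ∧ HP Y1 ⊆ Om Φ D ρ G := by
  have hρ := hG.hρ
  -- compactness
  set K : Set ℂ := (fun x : ℝ => (x : ℂ) + Y * I) '' Icc 0 ρ with hK
  have hKc : IsCompact K := by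
    apply isCompact_Icc.image
    fun_prop
  have hKW : K ⊆ Om Φ D ρ G := by
    rintro _ ⟨x, hx, rfl⟩
    obtain ⟨k, hk⟩ := exists_k ρ ((x : ℂ) + Y * I)
    exact line_good S hG hY0 hY k _ hk (by simp) (by simpa using hx.1)
  obtain ⟨η, hη, hthick⟩ := hKc.exists_thickening_subset_open (Om_open S hG) hKW
  set δ : ℝ := min (η / 4) (Y / 2) with hδ
  have hδ0 : 0 < δ := lt_min (by positivity) (by positivity)
  have hδη : δ ≤ η / 4 := min_le_left _ _
  have hδY : δ ≤ Y / 2 := min_le_right _ _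
  set Y1 : ℝ := Y - δ with hY1
  have hY1p : 0 < Y1 := by rw [hY1]; linarith
  have hY1Y : Y1 < Y := by rw [hY1]; linarith
  -- the right region
  have hR : ∀ s : ℂ, -δ < s.re → Y1 < s.im → s ∈ Om Φ D ρ G := by
    intro s hre him
    rcases lt_or_ge Y s.im with h | h
    · exact hY h
    rcases lt_or_ge ρ s.re with h2 | h2
    · exact (gg_far S hG h2 (lt_trans hY1p him)).1
    apply hthick
    rw [Metric.mem_thickening_iff]
    refine ⟨((max s.re 0 : ℝ) : ℂ) + Y * I, ⟨max s.re 0, ⟨le_max_right _ _, max_le h2 hρ.le⟩, rfl⟩, ?_⟩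
    rw [dist_eq_norm]
    refine lt_of_le_of_lt (Complex.norm_le_abs_re_add_abs_im _) ?_
    have e1 : (s - (((max s.re 0 : ℝ) : ℂ) + Y * I)).re = s.re - max s.re 0 := by simp
    have e2 : (s - (((max s.re 0 : ℝ) : ℂ) + Y * I)).im = s.im - Y := by simp
    rw [e1, e2]
    have h3 : |s.re - max s.re 0| ≤ δ := by
      rw [abs_le]
      constructor
      · rcases le_total s.re 0 with h5 | h5
        · rw [max_eq_right h5]; linarith
        · rw [max_eq_left h5]; linarith
      · have := le_max_left s.re 0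
        linarith
    have h4 : |s.im - Y| ≤ δ := by
      rw [abs_le]; constructor <;> [rw [hY1] at him; skip] <;> linarith
    linarith
  -- analyticity of `g*`
  have hgd : ∀ s : ℂ, -δ < s.re → Y1 < s.im → DifferentiableAt ℂ (gg Φ D ρ G) s :=
    fun s h1 h2 => gg_diffAt S hG (hR s h1 h2)
  have hsd : ∀ s : ℂ, s.re < δ → Y1 < s.im →
      DifferentiableAt ℂ (fun s => rf (gg Φ D ρ G (rf s))) s := by
    intro s h1 h2
    exact diff_rf_rf (hgd _ (by rw [rf_re]; linarith) (by rw [rf_im]; exact h2))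
  have hsD : ∀ s : ℂ, s.re < δ → Y1 < s.im → rf (gg Φ D ρ G (rf s)) ∈ D := by
    intro s h1 h2
    exact S.sy _ (gg_mem S hG (hR _ (by rw [rf_re]; linarith) (by rw [rf_im]; exact h2)))
  -- agreement on the thin box
  have hA : ∀ s : ℂ, -δ < s.re → s.re < δ → Y1 < s.im →
      gg Φ D ρ G s = rf (gg Φ D ρ G (rf s)) := by
    intro s h1 h2 h3
    set U : Set ℂ := ({s | -δ < s.re} ∩ {s | s.re < δ}) ∩ HP Y1 with hU
    have hUo : IsOpen U := ((isOpen_lt continuous_const Complex.continuous_re).inter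
      (isOpen_lt Complex.continuous_re continuous_const)).inter (isOpen_HP Y1)
    have hUc : Convex ℝ U := ((convex_re_gt _).inter (convex_re_lt _)).inter (convex_HP Y1)
    have a1 : AnalyticOnNhd ℂ (gg Φ D ρ G) U := by
      apply DifferentiableOn.analyticOnNhd _ hUo
      intro z hz
      exact (hgd z hz.1.1 hz.2).differentiableWithinAt
    have a2 : AnalyticOnNhd ℂ (fun s => rf (gg Φ D ρ G (rf s))) U := by
      apply DifferentiableOn.analyticOnNhd _ hUo
      intro z hz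
      exact (hsd z hz.1.2 hz.2).differentiableWithinAt
    set z0 : ℂ := ((Y + 1 : ℝ) : ℂ) * I with hz0
    have hz0im : z0.im = Y + 1 := by simp [hz0]
    have hz0re : z0.re = 0 := by simp [hz0]
    have hz0U : z0 ∈ U := by
      refine ⟨⟨?_, ?_⟩, ?_⟩
      · show -δ < z0.re
        rw [hz0re]; linarith
      · show z0.re < δ
        rw [hz0re]; exact hδ0
      · show Y1 < z0.im
        rw [hz0im]; linarith
    have hz0Y : z0 ∈ HP Y := by show Y < z0.im; rw [hz0im]; linarith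
    have a3 : gg Φ D ρ G =ᶠ[𝓝 z0] fun s => rf (gg Φ D ρ G (rf s)) := by
      filter_upwards [(isOpen_HP Y).mem_nhds hz0Y] with z hz
      rw [gg_sym S hG hY hz, rf_rf]
    exact AnalyticOnNhd.eqOn_of_preconnected_of_eventuallyEq a1 a2 hUc.isPreconnected hz0U a3
      ⟨⟨h1, h2⟩, h3⟩
  -- the functional equation for `g*` on the strip
  have hB : ∀ s : ℂ, -1 - δ < s.re → s.re < δ → Y1 < s.im →
      Φ (rf (gg Φ D ρ G (rf s))) = Ps Φ (gg Φ D ρ G (s + 1)) := by
    intro s h1 h2 h3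
    set U : Set ℂ := ({s | -1 - δ < s.re} ∩ {s | s.re < δ}) ∩ HP Y1 with hU
    have hUo : IsOpen U := ((isOpen_lt continuous_const Complex.continuous_re).inter
      (isOpen_lt Complex.continuous_re continuous_const)).inter (isOpen_HP Y1)
    have hUc : Convex ℝ U := ((convex_re_gt _).inter (convex_re_lt _)).inter (convex_HP Y1)
    have hs1 : ∀ z ∈ U, z + 1 ∈ Om Φ D ρ G ∧ DifferentiableAt ℂ (gg Φ D ρ G) (z + 1) := by
      intro z hz
      have q1 : -1 - δ < z.re := hz.1.1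
      have q2 : Y1 < z.im := hz.2
      have q3 : -δ < (z + 1).re := by simp only [Complex.add_re, Complex.one_re]; linarith
      have q4 : Y1 < (z + 1).im := by simpa using q2
      exact ⟨hR _ q3 q4, hgd _ q3 q4⟩
    have a1 : AnalyticOnNhd ℂ (fun s => Φ (rf (gg Φ D ρ G (rf s)))) U := by
      apply DifferentiableOn.analyticOnNhd _ hUo
      intro z hz
      refine DifferentiableAt.differentiableWithinAt ?_
      exact DifferentiableAt.comp (g := Φ) (f := fun s => rf (gg Φ D ρ G (rf s))) z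
        (S.dr _ (hsD z hz.1.2 hz.2)).hasDerivAt.differentiableAt (hsd z hz.1.2 hz.2)
    have a2 : AnalyticOnNhd ℂ (fun s => Ps Φ (gg Φ D ρ G (s + 1))) U := by
      apply DifferentiableOn.analyticOnNhd _ hUo
      intro z hz
      refine DifferentiableAt.differentiableWithinAt ?_
      refine DifferentiableAt.comp (g := Ps Φ) (f := fun s => gg Φ D ρ G (s + 1)) z
        (S.Ps_diff (gg_mem S hG (hs1 z hz).1)) ?_
      exact DifferentiableAt.comp (g := gg Φ D ρ G) (f := fun z : ℂ => z + 1) z (hs1 z hz).2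
        (by fun_prop)
    set z0 : ℂ := ((Y + 1 : ℝ) : ℂ) * I with hz0
    have hz0im : z0.im = Y + 1 := by simp [hz0]
    have hz0re : z0.re = 0 := by simp [hz0]
    have hz0U : z0 ∈ U := by
      refine ⟨⟨?_, ?_⟩, ?_⟩
      · show -1 - δ < z0.re
        rw [hz0re]; linarith
      · show z0.re < δ
        rw [hz0re]; exact hδ0
      · show Y1 < z0.im
        rw [hz0im]; linarith
    have hz0Y : z0 ∈ HP Y := by show Y < z0.im; rw [hz0im]; linarith
    have a3 : (fun s => Φ (rf (gg Φ D ρ G (rf s)))) =ᶠ[𝓝 z0]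
        fun s => Ps Φ (gg Φ D ρ G (s + 1)) := by
      filter_upwards [(isOpen_HP Y).mem_nhds hz0Y] with z hz
      rw [gg_sym S hG hY hz, rf_rf]
      exact gg_fe S hG (hY hz)
    exact AnalyticOnNhd.eqOn_of_preconnected_of_eventuallyEq a1 a2 hUc.isPreconnected hz0U a3
      ⟨⟨h1, h2⟩, h3⟩
  -- induction to the left
  have hC : ∀ (m : ℕ) (s : ℂ), -(m : ℝ) - δ < s.re → s.re < δ → Y1 < s.im →
      s ∈ Om Φ D ρ G ∧ gg Φ D ρ G s = rf (gg Φ D ρ G (rf s)) := by
    intro m
    induction m with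
    | zero =>
      intro s h1 h2 h3
      have h1' : -δ < s.re := by simpa using h1
      exact ⟨hR s h1' h3, hA s h1' h2 h3⟩
    | succ m ih =>
      intro s h1 h2 h3
      have him : 0 < s.im := lt_trans hY1p h3
      have hrs : rf s ∈ Om Φ D ρ G := hR _ (by rw [rf_re]; linarith) (by rw [rf_im]; exact h3)
      rcases lt_or_ge (-1 - δ) s.re with h4 | h4
      · have hb := hB s h4 h2 h3
        have hs1 : s + 1 ∈ Om Φ D ρ G := hR _
          (by simp only [Complex.add_re, Complex.one_re]; linarith) (by simpa using h3)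
        have hw : Ps Φ (gg Φ D ρ G (s + 1)) ∈ Φ '' D := ⟨_, hsD s h2 h3, hb⟩
        have hs := Om_of_step him hs1 hw
        refine ⟨hs, ?_⟩
        apply S.inj (gg_mem S hG hs) (hsD s h2 h3)
        rw [hb]; exact gg_fe S hG hs
      · -- `s + 1` by induction, `rf s - 1` in the right region
        have hre1 : (s + 1).re = s.re + 1 := by simp
        obtain ⟨hs1, he1⟩ := ih (s + 1) (by rw [hre1]; push_cast at h1; linarith)
          (by rw [hre1]; linarith) (by simpa using h3)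
        have hc : rf (s + 1) ∈ Om Φ D ρ G := hR _ (by rw [rf_re, hre1]; linarith)
          (by rw [rf_im]; simpa using h3)
        have hfe := gg_fe S hG hc
        have e : rf (s + 1) + 1 = rf s := by rw [rf_add_one]; ring
        rw [e] at hfe
        have hP : Ps Φ (gg Φ D ρ G (s + 1)) = Φ (rf (gg Φ D ρ G (rf s))) := by
          rw [he1]
          unfold Ps
          rw [rf_rf, hfe]
          unfold Ps
          exact Complex.conj_conj _
        have hw : Ps Φ (gg Φ D ρ G (s + 1)) ∈ Φ '' D := ⟨_, hsD s h2 h3, hP.symm⟩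
        have hs := Om_of_step him hs1 hw
        refine ⟨hs, ?_⟩
        apply S.inj (gg_mem S hG hs) (hsD s h2 h3)
        rw [← hP]; exact gg_fe S hG hs
  refine ⟨Y1, hY1p.le, hY1Y, fun s hs => ?_⟩
  rcases lt_or_ge s.re δ with h | h
  · obtain ⟨m, hm⟩ := exists_nat_gt (-s.re)
    exact (hC m s (by linarith) h hs).1
  · exact hR s (by linarith) hs

/-- **Pick extension** -/
theorem all_good (S : Sys D Φ Φ') (hG : GInf D Φ ρ G) : HP 0 ⊆ Om Φ D ρ G := by
  set A : Set ℝ := {Y | 0 ≤ Y ∧ HP Y ⊆ Om Φ D ρ G} with hA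
  have hAne : A.Nonempty := ⟨ρ, hG.hρ.le, fun s hs => (gg_high S hG hs).1⟩
  have hAb : BddBelow A := ⟨0, fun Y hY => hY.1⟩
  set Y0 := sInf A with hY0
  have h0 : 0 ≤ Y0 := le_csInf hAne fun Y hY => hY.1
  have h1 : HP Y0 ⊆ Om Φ D ρ G := by
    intro s hs
    obtain ⟨Y, hY, hYs⟩ := exists_lt_of_csInf_lt hAne (show sInf A < s.im from hs)
    exact hY.2 hYs
  rcases h0.lt_or_eq with h | h
  · exfalso
    obtain ⟨Y1, hY1, hY1Y, hY1'⟩ := extend_down S hG h h1
    have := csInf_le hAb (show Y1 ∈ A from ⟨hY1, hY1'⟩)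
    linarith
  · rw [← h] at h1; exact h1

/-- packaged form -/
theorem ext (S : Sys D Φ Φ') (hG : GInf D Φ ρ G) : ∃ g : ℂ → ℂ,
    DifferentiableOn ℂ g (HP 0) ∧ (∀ s ∈ HP 0, g s ∈ D) ∧
    (∀ s ∈ HP 0, Φ (g s) = Ps Φ (g (s + 1))) ∧
    (∀ s ∈ HP 0, ρ < ‖s‖ → g s = G s) ∧ (∀ s ∈ HP 0, g (rf s) = rf (g s)) ∧
    InjOn g (HP 0) ∧ (∀ s ∈ HP 0, 0 < s.re → 0 < (g s).re) := by
  have hall := all_good S hG
  have hfar : ∀ s ∈ HP 0, ρ < ‖s‖ → 0 ≤ s.re → gg Φ D ρ G s = G s := by
    intro s hs hn hre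
    obtain ⟨k, hk⟩ := exists_k ρ s
    refine (gg_out S hG k s hk hs fun j => ?_).2
    refine lt_of_lt_of_le hn ?_
    rw [Complex.norm_def, Complex.norm_def]
    apply Real.sqrt_le_sqrt
    rw [Complex.normSq_apply, Complex.normSq_apply]
    simp only [Complex.add_re, Complex.natCast_re, Complex.add_im, Complex.natCast_im, add_zero]
    have : (0 : ℝ) ≤ j := Nat.cast_nonneg j
    nlinarith
  refine ⟨gg Φ D ρ G, fun s hs => (gg_diffAt S hG (hall hs)).differentiableWithinAt,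
    fun s hs => gg_mem S hG (hall hs), fun s hs => gg_fe S hG (hall hs), ?_,
    fun s hs => gg_sym S hG hall hs, fun s hs t ht h => gg_inj S hG (hall hs) (hall ht) h,
    fun s hs hre => gg_pos S hG hall hs hre⟩
  intro s hs hn
  rcases le_total 0 s.re with h | h
  · exact hfar s hs hn h
  · have hs' : rf s ∈ HP 0 := by show 0 < (rf s).im; rw [rf_im]; exact hs
    have h1 := hfar (rf s) hs' (by rw [rf_norm]; exact hn) (by rw [rf_re]; linarith)
    rw [gg_sym S hG hall hs, hG.sy s hn] at h1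
    rw [← rf_rf (gg Φ D ρ G s), h1, rf_rf]

end Crest.Agent.R102.PickExt348
end
end

-- ▼ part R102/PickGerm_348
section

/-!
# Row 102, part (C), item [d]: from a germ at `0` to `GInf` (helper348)
-/

open Complex Set Filter Topology

noncomputable section

namespace Crest.Agent.R102.PickExt348

/-- the germ `F`, odd, real, `F'(0) = g > 0`, gives the facts at infinity for `G(s) = F(1/s)` -/
theorem ginf_of_germ {D : Set ℂ} {Φ F : ℂ → ℂ} {g : ℝ}
    (hD : ∃ ε > 0, ∀ a : ℂ, ‖a‖ < ε → a.im < 0 → a ∈ D)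
    (an : AnalyticAt ℂ F 0) (odd : ∀ᶠ t in 𝓝 (0 : ℂ), F (-t) = -F t)
    (real : ∀ᶠ t in 𝓝 (0 : ℂ), F ((starRingEnd ℂ) t) = (starRingEnd ℂ) (F t))
    (hg : 0 < g) (hd : deriv F 0 = (g : ℂ))
    (eq : ∀ᶠ t in 𝓝 (0 : ℂ), F t ∈ D → F (t / (1 + t)) ∈ D → Φ (F t) = Ps Φ (F (t / (1 + t)))) :
    ∃ ρ : ℝ, 1 ≤ ρ ∧ GInf D Φ ρ (fun s => F (1 / s)) ∧
      (∀ x : ℝ, ρ < x → 0 < (F (1 / (x : ℂ))).re ∧ (F (1 / (x : ℂ))).im = 0) ∧
      ∃ η > 0, ∀ a : ℝ, 0 < a → a < η → ∃ x : ℝ, ρ < x ∧ F (1 / (x : ℂ)) = (a : ℂ) := by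
  obtain ⟨ε, hε, hDε⟩ := hD
  have hF0 : F 0 = 0 := by
    have h := odd.self_of_nhds
    rw [neg_zero] at h
    have h2 : (2 : ℂ) * F 0 = 0 := by linear_combination h
    simpa using h2
  have hanE : ∀ᶠ t in 𝓝 (0 : ℂ), AnalyticAt ℂ F t := an.eventually_analyticAt
  have hdan : AnalyticAt ℂ (deriv F) 0 := an.deriv
  have h1 : ∀ᶠ t in 𝓝 (0 : ℂ), ‖deriv F t - g‖ < g / 2 := by
    have hc : ContinuousAt (fun t => ‖deriv F t - g‖) 0 :=
      (hdan.continuousAt.sub continuousAt_const).norm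
    have h0 : ‖deriv F 0 - g‖ < g / 2 := by
      rw [hd]; simp; positivity
    exact hc.tendsto.eventually_lt_const h0
  have h2 : ∀ᶠ t in 𝓝 (0 : ℂ), ‖F t‖ < ε := by
    have hc : ContinuousAt (fun t => ‖F t‖) 0 := an.continuousAt.norm
    have h0 : ‖F 0‖ < ε := by
      rw [hF0]; simpa using hε
    exact hc.tendsto.eventually_lt_const h0
  obtain ⟨r0, hr0, hball⟩ := Metric.eventually_nhds_iff_ball.1
    (hanE.and (odd.and (real.and (eq.and (h1.and h2)))))
  set r : ℝ := min r0 1 with hr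
  have hrpos : 0 < r := lt_min hr0 one_pos
  have hr1 : r ≤ 1 := min_le_right _ _
  have hrr0 : r ≤ r0 := min_le_left _ _
  have hsub : ∀ t : ℂ, ‖t‖ < r → t ∈ Metric.ball (0 : ℂ) r0 := by
    intro t ht
    rw [mem_ball_zero_iff]
    exact lt_of_lt_of_le ht hrr0
  have An : ∀ t : ℂ, ‖t‖ < r → AnalyticAt ℂ F t := fun t ht => (hball t (hsub t ht)).1
  have Od : ∀ t : ℂ, ‖t‖ < r → F (-t) = -F t := fun t ht => (hball t (hsub t ht)).2.1
  have Re : ∀ t : ℂ, ‖t‖ < r → F ((starRingEnd ℂ) t) = (starRingEnd ℂ) (F t) :=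
    fun t ht => (hball t (hsub t ht)).2.2.1
  have Eq := fun (t : ℂ) (ht : ‖t‖ < r) => (hball t (hsub t ht)).2.2.2.1
  have B1 : ∀ t : ℂ, ‖t‖ < r → ‖deriv F t - g‖ < g / 2 :=
    fun t ht => (hball t (hsub t ht)).2.2.2.2.1
  have B2 : ∀ t : ℂ, ‖t‖ < r → ‖F t‖ < ε :=
    fun t ht => (hball t (hsub t ht)).2.2.2.2.2
  -- Lipschitz estimate
  have Lip : ∀ t t' : ℂ, ‖t‖ < r → ‖t'‖ < r →
      ‖(F t' - g * t') - (F t - g * t)‖ ≤ g / 2 * ‖t' - t‖ := by
    intro t t' ht ht'
    refine Convex.norm_image_sub_le_of_norm_deriv_le (𝕜 := ℂ) (f := fun t => F t - g * t)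
      (s := Metric.ball (0 : ℂ) r) ?_ ?_ (convex_ball _ _) (by simpa using ht) (by simpa using ht')
    · intro x hx
      rw [mem_ball_zero_iff] at hx
      exact (An x hx).differentiableAt.sub ((differentiableAt_const _).mul differentiableAt_id)
    · intro x hx
      rw [mem_ball_zero_iff] at hx
      have hdx : HasDerivAt (fun t => F t - g * t) (deriv F x - g * 1) x :=
        (An x hx).differentiableAt.hasDerivAt.sub ((hasDerivAt_id x).const_mul (g : ℂ))
      rw [hdx.deriv, mul_one]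
      exact (B1 x hx).le
  -- real values
  have hreal : ∀ x : ℝ, |x| < r → (F (x : ℂ)).im = 0 := by
    intro x hx
    have h := Re (x : ℂ) (by rw [Complex.norm_real]; exact hx)
    rw [Complex.conj_ofReal] at h
    have := congrArg Complex.im h
    rw [Complex.conj_im] at this
    linarith
  -- imaginary values
  have himag : ∀ y : ℝ, |y| < r → (F ((y : ℂ) * I)).re = 0 := by
    intro y hy
    have hn : ‖(y : ℂ) * I‖ < r := by simpa using hy
    have h := Re ((y : ℂ) * I) hn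
    have e : (starRingEnd ℂ) ((y : ℂ) * I) = -((y : ℂ) * I) := by simp
    rw [e, Od _ hn] at h
    have := congrArg Complex.re h
    rw [Complex.conj_re, Complex.neg_re] at this
    linarith
  -- sign of the imaginary part
  have hIm : ∀ t : ℂ, ‖t‖ < r → t.im < 0 → (F t).im < 0 := by
    intro t ht him
    have hre : ‖((t.re : ℝ) : ℂ)‖ < r := by
      rw [Complex.norm_real]
      exact lt_of_le_of_lt (Complex.abs_re_le_norm t) ht
    have hFre := hreal t.re (by rwa [Complex.norm_real] at hre)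
    have hL := Lip (t.re : ℂ) t hre ht
    have hdiff : t - (t.re : ℂ) = (t.im : ℂ) * I := by
      apply Complex.ext <;> simp
    have hn : ‖t - (t.re : ℂ)‖ = -t.im := by
      rw [hdiff, norm_mul, Complex.norm_I, mul_one, Complex.norm_real, Real.norm_eq_abs,
        abs_of_neg him]
    rw [hn] at hL
    have him2 := (Complex.abs_im_le_norm ((F t - g * t) - (F (t.re : ℂ) - g * (t.re : ℂ)))).trans hL
    have him3 : ((F t - g * t) - (F (t.re : ℂ) - g * (t.re : ℂ))).im = (F t).im - g * t.im := by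
      simp [hFre]
    rw [him3] at him2
    have := (abs_le.1 him2).2
    nlinarith [mul_pos hg (neg_pos.2 him)]
  have hRe : ∀ t : ℂ, ‖t‖ < r → 0 < t.re → 0 < (F t).re := by
    intro t ht hre
    have him : |t.im| < r := lt_of_le_of_lt (Complex.abs_im_le_norm t) ht
    have hFim := himag t.im him
    have hL := Lip ((t.im : ℂ) * I) t (by simpa using him) ht
    have hdiff : t - (t.im : ℂ) * I = (t.re : ℂ) := by
      apply Complex.ext <;> simp
    have hn : ‖t - (t.im : ℂ) * I‖ = t.re := by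
      rw [hdiff, Complex.norm_real, Real.norm_eq_abs, abs_of_pos hre]
    rw [hn] at hL
    have h2 := (Complex.abs_re_le_norm
      ((F t - g * t) - (F ((t.im : ℂ) * I) - g * ((t.im : ℂ) * I)))).trans hL
    have h3 : ((F t - g * t) - (F ((t.im : ℂ) * I) - g * ((t.im : ℂ) * I))).re
        = (F t).re - g * t.re := by
      simp [hFim]
    rw [h3] at h2
    have := (abs_le.1 h2).1
    nlinarith [mul_pos hg hre]
  -- inverse
  have inv_lt : ∀ s : ℂ, 1 / r < ‖s‖ → ‖1 / s‖ < r ∧ s ≠ 0 := by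
    intro s hs
    have hpos : 0 < ‖s‖ := lt_trans (by positivity) hs
    refine ⟨?_, norm_pos_iff.1 hpos⟩
    rw [norm_div, norm_one, div_lt_iff₀ hpos]
    rw [div_lt_iff₀ hrpos] at hs
    linarith [mul_comm r ‖s‖]
  have hρ1 : 1 ≤ 1 / r := by
    rw [le_div_iff₀ hrpos]; linarith
  have him_inv : ∀ s : ℂ, s ≠ 0 → 0 < s.im → (1 / s).im < 0 := by
    intro s hs0 him
    rw [one_div, Complex.inv_im]
    have : 0 < Complex.normSq s := Complex.normSq_pos.2 hs0
    rw [neg_div]
    have : 0 < s.im / Complex.normSq s := by positivity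
    linarith
  have hre_inv : ∀ s : ℂ, s ≠ 0 → 0 < s.re → 0 < (1 / s).re := by
    intro s hs0 hre
    rw [one_div, Complex.inv_re]
    have : 0 < Complex.normSq s := Complex.normSq_pos.2 hs0
    positivity
  have hmaps : ∀ s : ℂ, 1 / r < ‖s‖ → 0 < s.im → F (1 / s) ∈ D := by
    intro s hs him
    obtain ⟨hs1, hs0⟩ := inv_lt s hs
    exact hDε _ (B2 _ hs1) (hIm _ hs1 (him_inv s hs0 him))
  refine ⟨1 / r, hρ1, ?_, ?_, ?_⟩
  · refine
      { hρ := by linarith
        an := ?_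
        sy := ?_
        maps := hmaps
        inj := ?_
        eq := ?_
        rpos := ?_ }
    · intro s hs
      obtain ⟨hs1, hs0⟩ := inv_lt s hs
      have hi : DifferentiableAt ℂ (fun s : ℂ => 1 / s) s := by
        simp only [one_div]
        exact differentiableAt_inv hs0
      exact (DifferentiableAt.comp (g := F) s (An _ hs1).differentiableAt hi).differentiableWithinAt
    · intro s hs
      obtain ⟨hs1, hs0⟩ := inv_lt s hs
      have e : (1 : ℂ) / rf s = -(starRingEnd ℂ) (1 / s) := by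
        unfold rf
        rw [map_div₀, map_one]
        field_simp
      show F (1 / rf s) = rf (F (1 / s))
      rw [e, Od _ (by rw [Complex.norm_conj]; exact hs1), Re _ hs1]
      rfl
    · intro s hs s' hs' h
      obtain ⟨hs1, hs0⟩ := inv_lt s hs
      obtain ⟨hs1', hs0'⟩ := inv_lt s' hs'
      have h' : F (1 / s) = F (1 / s') := h
      have hL := Lip (1 / s) (1 / s') hs1 hs1'
      have he : (F (1 / s') - g * (1 / s')) - (F (1 / s) - g * (1 / s)) =
          (-g : ℂ) * (1 / s' - 1 / s) := by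
        rw [h']; ring
      rw [he, norm_mul, norm_neg, Complex.norm_real, Real.norm_eq_abs, abs_of_pos hg] at hL
      have h0 : ‖(1 : ℂ) / s' - 1 / s‖ ≤ 0 := by nlinarith [norm_nonneg ((1 : ℂ) / s' - 1 / s)]
      have h00 := norm_le_zero_iff.1 h0
      have h5 : (1 : ℂ) / s' = 1 / s := by linear_combination h00
      rw [one_div, one_div] at h5
      exact (inv_injective h5).symm
    · intro s hs hs' him
      obtain ⟨hs1, hs0⟩ := inv_lt s hs
      obtain ⟨hs1', hs0'⟩ := inv_lt (s + 1) hs'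
      have h := Eq _ hs1
      have e : (1 : ℂ) / s / (1 + 1 / s) = 1 / (s + 1) := by
        field_simp
      rw [e] at h
      exact h (hmaps s hs him) (hmaps (s + 1) hs' (by simpa using him))
    · intro s hs hre
      obtain ⟨hs1, hs0⟩ := inv_lt s hs
      exact hRe _ hs1 (hre_inv s hs0 hre)
  · intro x hx
    have hx0 : 0 < x := lt_trans (by positivity) hx
    have hxn : 1 / r < ‖(x : ℂ)‖ := by
      rw [Complex.norm_real, Real.norm_eq_abs, abs_of_pos hx0]; exact hx
    obtain ⟨hs1, hs0⟩ := inv_lt _ hxn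
    refine ⟨hRe _ hs1 (hre_inv _ hs0 (by simpa using hx0)), ?_⟩
    have e : (1 : ℂ) / (x : ℂ) = ((1 / x : ℝ) : ℂ) := by push_cast; ring
    rw [e]
    apply hreal
    rw [e, Complex.norm_real] at hs1
    exact hs1
  · -- surjectivity onto small positive reals
    set t0 : ℝ := r / 2 with ht0
    have ht0pos : 0 < t0 := by positivity
    have ht0r : t0 < r := by rw [ht0]; linarith
    have hcont : ContinuousOn (fun t : ℝ => (F (t : ℂ)).re) (Icc 0 t0) := by
      intro t ht
      have hn : ‖(t : ℂ)‖ < r := by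
        rw [Complex.norm_real, Real.norm_eq_abs, abs_of_nonneg ht.1]; linarith [ht.2]
      have h1 : ContinuousAt (fun t : ℝ => F (t : ℂ)) t :=
        ContinuousAt.comp (g := F) (f := fun t : ℝ => (t : ℂ)) (An _ hn).continuousAt
          Complex.continuous_ofReal.continuousAt
      exact (Complex.continuous_re.continuousAt.comp h1).continuousWithinAt
    have hη : 0 < (F (t0 : ℂ)).re := hRe _ (by
      rw [Complex.norm_real, Real.norm_eq_abs, abs_of_pos ht0pos]; exact ht0r) (by simpa using ht0pos)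
    refine ⟨(F (t0 : ℂ)).re, hη, fun a ha ha' => ?_⟩
    have h0 : (F ((0 : ℝ) : ℂ)).re = 0 := by simp [hF0]
    have hiv := intermediate_value_Icc ht0pos.le hcont
    obtain ⟨t, ht, hta⟩ := hiv ⟨by simp only [h0]; exact ha.le, ha'.le⟩
    have hta' : (F (t : ℂ)).re = a := hta
    have htpos : 0 < t := by
      rcases ht.1.lt_or_eq with h | h
      · exact h
      · exfalso
        rw [← h, h0] at hta'
        linarith
    refine ⟨1 / t, ?_, ?_⟩
    · rw [div_lt_div_iff₀ hrpos htpos]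
      linarith [ht.2]
    · have e : (1 : ℂ) / ((1 / t : ℝ) : ℂ) = (t : ℂ) := by
        push_cast; field_simp
      rw [e]
      apply Complex.ext
      · rw [hta', Complex.ofReal_re]
      · rw [Complex.ofReal_im]
        exact hreal t (by rw [abs_of_pos htpos]; linarith [ht.2])

end Crest.Agent.R102.PickExt348
end
end

-- ▼ part R102/Flat2_348

/-!
# Row 102, part (C), item [d]: the FLAT end is not embeddable (helper348), part 2
-/

open Complex Set Filter Topology

noncomputable section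

namespace Crest.Agent.R102.Flat348

open Crest.Agent.R102.PickExt348

variable {N : ℝ}

/-- `Φ(a) = Λ(n + a)` -/
def Ph (N : ℝ) (a : ℂ) : ℂ := Lam N ((nf N : ℂ) + a)

lemma nf_gt (hN : 0 < N) : 1 < nf N := by
  unfold nf
  have : 0 < 1 / N := by positivity
  linarith

lemma Ps_Ph {a : ℂ} (ha : (nf N : ℂ) - a ∈ Dm) : Ps (Ph N) a = Lam N ((nf N : ℂ) - a) := by
  have e : (nf N : ℂ) + rf a = (starRingEnd ℂ) ((nf N : ℂ) - a) := by
    unfold rf
    rw [map_sub, Complex.conj_ofReal]; ring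
  show (starRingEnd ℂ) (Lam N ((nf N : ℂ) + rf a)) = _
  rw [e, Lam_conj N ha, Complex.conj_conj]

lemma add_LH {x : ℝ} {a : ℂ} (ha : a ∈ LH) : (x : ℂ) + a ∈ LH := by
  have : a.im < 0 := ha
  show ((x : ℂ) + a).im < 0
  simpa using this

lemma sub_UH {x : ℝ} {a : ℂ} (ha : a ∈ LH) : (x : ℂ) - a ∈ UH := by
  have : a.im < 0 := ha
  show 0 < ((x : ℂ) - a).im
  simpa using this

lemma sys (hN : 0 < N) : Sys LH (Ph N) (fun a => dLam N ((nf N : ℂ) + a)) := by
  refine
    { op := isOpen_LH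
      sy := ?_
      dr := ?_
      nz := ?_
      inj := ?_
      prop := ?_ }
  · intro a ha
    show (rf a).im < 0
    rw [rf_im]; exact ha
  · intro a ha
    have h1 := Lam_strict N (LH_sub (add_LH (x := nf N) ha))
    have h2 : HasStrictDerivAt (fun a : ℂ => (nf N : ℂ) + a) 1 a :=
      (hasStrictDerivAt_id a).const_add (nf N : ℂ)
    have h3 := h1.comp a h2
    rw [mul_one] at h3
    exact h3
  · intro a ha
    exact dLam_ne (ne_of_lt (add_LH (x := nf N) ha))
  · intro a ha b hb h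
    have := inj_LH hN (add_LH (x := nf N) ha) (add_LH (x := nf N) hb) h
    exact add_left_cancel this
  · intro a' ha' a ha hlim
    have hU := sub_UH (x := nf N) ha'
    rw [Ps_Ph (UH_sub hU)] at hlim ⊢
    set w := Lam N ((nf N : ℂ) - a') with hw
    -- boundedness
    have hre : Tendsto (fun j => (Ph N (a j)).re) atTop (𝓝 w.re) :=
      (Complex.continuous_re.tendsto w).comp hlim
    have hev : ∀ᶠ j in atTop, (Ph N (a j)).re ≤ w.re + 1 :=
      (hre.eventually_lt_const (by linarith : w.re < w.re + 1)).mono fun j hj => hj.le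
    set R : ℝ := max 1 (Real.exp ((w.re + 1 + Real.log 2) / N)) + nf N with hR
    have hbd : ∀ᶠ j in atTop, a j ∈ Metric.closedBall (0 : ℂ) R := by
      filter_upwards [hev] with j hj
      have h1 := norm_le_of_re hN hj
      rw [mem_closedBall_zero_iff]
      have h2 : ‖a j‖ ≤ ‖(nf N : ℂ) + a j‖ + ‖(nf N : ℂ)‖ := by
        have := norm_sub_le ((nf N : ℂ) + a j) (nf N : ℂ)
        simpa using this
      rw [Complex.norm_real, Real.norm_eq_abs, abs_of_pos (by linarith [nf_gt hN])] at h2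
      rw [hR]; linarith
    obtain ⟨b, hb, φ, hφ, hφl⟩ := (isCompact_closedBall (0 : ℂ) R).tendsto_subseq'
      (x := a) hbd.frequently
    have hbre : 0 ≤ b.re := by
      refine ge_of_tendsto' ((Complex.continuous_re.tendsto b).comp hφl) fun j => ?_
      exact (ha (φ j)).2.le
    have hbim : b.im ≤ 0 := by
      refine le_of_tendsto' ((Complex.continuous_im.tendsto b).comp hφl) fun j => ?_
      have : (a (φ j)).im < 0 := (ha (φ j)).1
      exact this.le
    have hbD : (nf N : ℂ) + b ∈ Dm := by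
      left
      simp only [Complex.add_re, Complex.ofReal_re]
      linarith [nf_gt hN]
    have hc : Tendsto (fun j => Ph N (a (φ j))) atTop (𝓝 (Ph N b)) := by
      have h1 : ContinuousAt (Ph N) b := by
        refine ContinuousAt.comp (g := Lam N) (f := fun a : ℂ => (nf N : ℂ) + a)
          (Lam_cont N hbD) (by fun_prop)
      exact h1.tendsto.comp hφl
    have hwb : Ph N b = w := tendsto_nhds_unique hc (hlim.comp hφ.tendsto_atTop)
    rcases hbim.lt_or_eq with h | h
    · exact ⟨b, h, hwb⟩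
    · exfalso
      have hbr : b = (b.re : ℂ) := by apply Complex.ext <;> simp [h]
      have h2 : Ph N b = Lam N ((nf N + b.re : ℝ) : ℂ) := by
        unfold Ph
        conv_lhs => rw [hbr]
        push_cast; rfl
      rw [h2] at hwb
      exact no_real_UH hN hU (by linarith [nf_gt hN] : 1 < nf N + b.re) hwb.symm

/-! ### the real function -/

/-- real values of `Λ` -/
def el (N x : ℝ) : ℝ := (Lam N (x : ℂ)).re

lemma Lam_el {x : ℝ} (hx : 1 < x) : Lam N (x : ℂ) = (el N x : ℂ) := by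
  apply Complex.ext
  · rw [Complex.ofReal_re]; rfl
  · rw [Complex.ofReal_im]; exact Lam_real_im hx

lemma el_deriv {x : ℝ} (hx : 1 < x) : HasDerivAt (el N) (1 / x * (N - 1 / (x - 1))) x := by
  have hD : (x : ℂ) ∈ Dm := Or.inl (by simpa using hx)
  have h := (Lam_deriv N hD).real_of_complex
  rw [dLam_real, Complex.ofReal_re] at h
  exact h

lemma el_contOn : ContinuousOn (el N) (Ioi 1) := fun x hx =>
  (el_deriv hx).continuousAt.continuousWithinAt

lemma el_mono (hN : 0 < N) : StrictMonoOn (el N) (Ici (nf N)) := by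
  have h1 := nf_gt hN
  apply strictMonoOn_of_deriv_pos (convex_Ici _)
  · exact el_contOn.mono fun _ hx => lt_of_lt_of_le h1 hx
  · intro x hx
    rw [interior_Ici] at hx
    rw [(el_deriv (lt_trans h1 hx)).deriv]
    exact dLam_pos hN hx

lemma el_anti (hN : 0 < N) : StrictAntiOn (el N) (Ioc 1 (nf N)) := by
  apply strictAntiOn_of_deriv_neg (convex_Ioc _ _)
  · exact el_contOn.mono fun x hx => hx.1
  · intro x hx
    rw [interior_Ioc] at hx
    rw [(el_deriv hx.1).deriv]
    exact dLam_neg hN hx.1 hx.2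

/-- `ℓ(n+a) < ℓ(n-a)` -/
lemma el_lt (hN : 0 < N) {a : ℝ} (ha : 0 < a) (ha' : a < nf N - 1) :
    el N (nf N + a) < el N (nf N - a) := by
  have h1 := nf_gt hN
  have hD : ∀ x ∈ Ico (0 : ℝ) (nf N - 1), HasDerivAt (fun x => el N (nf N + x) - el N (nf N - x))
      (1 / (nf N + x) * (N - 1 / (nf N + x - 1)) + 1 / (nf N - x) * (N - 1 / (nf N - x - 1))) x := by
    intro x hx
    have e1 : HasDerivAt (fun x => nf N + x) 1 x := (hasDerivAt_id x).const_add _
    have e2 : HasDerivAt (fun x => nf N - x) (-1) x := (hasDerivAt_id x).const_sub _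
    have h2 := (el_deriv (N := N) (by linarith [hx.1] : 1 < nf N + x)).comp x e1
    have h3 := (el_deriv (N := N) (by linarith [hx.2] : 1 < nf N - x)).comp x e2
    refine (h2.sub h3).congr_deriv ?_
    ring
  have hanti : StrictAntiOn (fun x => el N (nf N + x) - el N (nf N - x)) (Ico 0 (nf N - 1)) := by
    apply strictAntiOn_of_deriv_neg (convex_Ico _ _)
    · intro x hx
      exact (hD x hx).continuousAt.continuousWithinAt
    · intro x hx
      rw [interior_Ico] at hx
      rw [(hD x ⟨hx.1.le, hx.2⟩).deriv]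
      have hx0 : 0 < x := hx.1
      have hx1 : x < nf N - 1 := hx.2
      have p1 : 0 < nf N - x - 1 := by linarith
      have p2 : 0 < nf N - x := by linarith
      have p3 : 0 < nf N + x - 1 := by linarith
      have p4 : 0 < nf N + x := by linarith
      have en : 1 = N * (nf N - 1) := by unfold nf; field_simp; ring
      have e1 : 1 / (nf N + x) * (N - 1 / (nf N + x - 1)) = N * x / ((nf N + x) * (nf N + x - 1)) := by
        field_simp
        linear_combination -en
      have e2 : 1 / (nf N - x) * (N - 1 / (nf N - x - 1)) =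
          -(N * x / ((nf N - x) * (nf N - x - 1))) := by
        field_simp
        linear_combination -en
      rw [e1, e2]
      have h5 : N * x / ((nf N + x) * (nf N + x - 1)) < N * x / ((nf N - x) * (nf N - x - 1)) := by
        apply div_lt_div_of_pos_left (by positivity) (by positivity)
        nlinarith
      linarith
  have := hanti ⟨le_refl 0, by linarith⟩ ⟨ha.le, ha'⟩ ha
  simp at this
  linarith

/-- `ℓ → ∞` at `1+` -/
lemma el_big (hN : 0 < N) (C : ℝ) : ∃ x : ℝ, 1 < x ∧ x < nf N ∧ C < el N x := by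
  have h1 := nf_gt hN
  have hform : ∀ x : ℝ, 1 < x → el N x = N * Real.log x - Real.log (1 - 1 / x) := by
    intro x hx
    have hx0 : 0 < x := by linarith
    unfold el
    rw [Lam_re]
    have e : (1 : ℂ) - 1 / (x : ℂ) = ((1 - 1 / x : ℝ) : ℂ) := by push_cast; ring
    have hp : 0 < 1 - 1 / x := by
      have : 1 / x < 1 := by rw [div_lt_one hx0]; exact hx
      linarith
    rw [e, Complex.norm_real, Complex.norm_real, Real.norm_eq_abs, Real.norm_eq_abs,
      abs_of_pos hx0, abs_of_pos hp]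
  -- `x = 1/(1-e)` with small `e`
  set e : ℝ := min (Real.exp (-(|C| + 1))) (1 - 1 / nf N) / 2 with he
  have hnn : 0 < 1 - 1 / nf N := by
    have : 1 / nf N < 1 := by rw [div_lt_one (by linarith)]; exact h1
    linarith
  have he0 : 0 < e := by
    have : 0 < min (Real.exp (-(|C| + 1))) (1 - 1 / nf N) := lt_min (Real.exp_pos _) hnn
    positivity
  have he1 : e < Real.exp (-(|C| + 1)) := by
    have := min_le_left (Real.exp (-(|C| + 1))) (1 - 1 / nf N)
    have : 0 < Real.exp (-(|C| + 1)) := Real.exp_pos _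
    rw [he]; linarith
  have he2 : e < 1 - 1 / nf N := by
    have := min_le_right (Real.exp (-(|C| + 1))) (1 - 1 / nf N)
    rw [he]; linarith
  have hnf0 : 0 < 1 / nf N := by positivity
  have he3 : 0 < 1 - e := by linarith
  refine ⟨1 / (1 - e), ?_, ?_, ?_⟩
  · rw [lt_div_iff₀ he3]; linarith
  · rw [div_lt_iff₀ he3]
    have : nf N * (1 / nf N) = 1 := by field_simp
    nlinarith
  · have hx1 : 1 < 1 / (1 - e) := by rw [lt_div_iff₀ he3]; linarith
    rw [hform _ hx1]
    have e1 : 1 - 1 / (1 / (1 - e)) = e := by field_simp; ring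
    rw [e1]
    have h2 : 0 < N * Real.log (1 / (1 - e)) := mul_pos hN (Real.log_pos hx1)
    have h3 : Real.log e < -(|C| + 1) := by
      rw [Real.log_lt_iff_lt_exp he0]; exact he1
    have := le_abs_self C
    linarith

/-- the real map `T` -/
lemma exists_T (hN : 0 < N) {a : ℝ} (ha : 0 < a) :
    ∃ b : ℝ, 0 < b ∧ b < nf N - 1 ∧ b < a ∧ el N (nf N - b) = el N (nf N + a) := by
  have h1 := nf_gt hN
  obtain ⟨x, hx1, hx2, hx3⟩ := el_big hN (el N (nf N + a))
  have hn : el N (nf N) < el N (nf N + a) :=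
    el_mono hN (mem_Ici.2 le_rfl) (mem_Ici.2 (by linarith)) (by linarith)
  have hcont : ContinuousOn (el N) (Icc x (nf N)) :=
    el_contOn.mono fun y hy => lt_of_lt_of_le hx1 hy.1
  obtain ⟨y, hy, hyv⟩ := intermediate_value_Icc' hx2.le hcont ⟨hn.le, hx3.le⟩
  have hyn : y < nf N := by
    rcases hy.2.lt_or_eq with h | h
    · exact h
    · exfalso; rw [h] at hyv; linarith
  have hy1 : 1 < y := lt_of_lt_of_le hx1 hy.1
  refine ⟨nf N - y, by linarith, by linarith, ?_, by rw [sub_sub_cancel]; exact hyv⟩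
  rcases lt_or_ge a (nf N - 1) with h | h
  · have h2 := el_lt hN ha h
    by_contra hcon
    push Not at hcon
    have h3 : y ≤ nf N - a := by linarith
    rcases h3.lt_or_eq with h4 | h4
    · have := el_anti hN ⟨hy1, hyn.le⟩ ⟨by linarith, by linarith⟩ h4
      linarith
    · rw [h4] at hyv; linarith
  · linarith

/-- iterates of `T` reach every interval `(0, η)` -/
lemma orbit (hN : 0 < N) {P : ℝ → Prop} {η : ℝ} (hη : 0 < η) (h0 : ∀ a, 0 < a → a < η → P a)
    (hs : ∀ a b : ℝ, 0 < a → 0 < b → b < nf N - 1 → el N (nf N - b) = el N (nf N + a) → P b → P a)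
    {a : ℝ} (ha : 0 < a) : P a := by
  classical
  have h1 := nf_gt hN
  choose! T hT1 hT2 hT3 hT4 using fun a : ℝ => exists_T hN (a := a)
  by_contra hPa
  have hpos : ∀ k : ℕ, 0 < T^[k] a := by
    intro k
    induction k with
    | zero => exact ha
    | succ k ih => rw [Function.iterate_succ_apply']; exact hT1 _ ih
  have hnP : ∀ k : ℕ, ¬ P (T^[k] a) := by
    intro k
    induction k with
    | zero => exact hPa
    | succ k ih =>
      rw [Function.iterate_succ_apply']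
      intro h
      exact ih (hs _ _ (hpos k) (hT1 _ (hpos k)) (hT2 _ (hpos k)) (hT4 _ (hpos k)) h)
  have hge : ∀ k : ℕ, η ≤ T^[k] a := by
    intro k
    by_contra h
    push Not at h
    exact hnP k (h0 _ (hpos k) h)
  have hanti : Antitone (fun k => T^[k] a) := by
    apply antitone_nat_of_succ_le
    intro k
    rw [Function.iterate_succ_apply']
    exact (hT3 _ (hpos k)).le
  have hbdd : BddBelow (range fun k => T^[k] a) := ⟨η, by rintro _ ⟨k, rfl⟩; exact hge k⟩
  have hlim := tendsto_atTop_ciInf hanti hbdd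
  set L := ⨅ k, T^[k] a with hL
  have hLη : η ≤ L := le_ciInf hge
  have hL0 : 0 < L := lt_of_lt_of_le hη hLη
  have hL1 : L < nf N - 1 := by
    have h2 : L ≤ T^[1] a := ciInf_le hbdd 1
    have h3 : T^[1] a < nf N - 1 := hT2 a ha
    linarith
  have hlim' : Tendsto (fun k => T^[k + 1] a) atTop (𝓝 L) :=
    (tendsto_add_atTop_iff_nat (f := fun k => T^[k] a) 1).2 hlim
  have c1 : Tendsto (fun k => el N (nf N - T^[k + 1] a)) atTop (𝓝 (el N (nf N - L))) := by
    have : ContinuousAt (fun x : ℝ => el N (nf N - x)) L := by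
      refine ContinuousAt.comp (g := el N) (f := fun x : ℝ => nf N - x) ?_ (by fun_prop)
      exact (el_deriv (by linarith)).continuousAt
    exact this.tendsto.comp hlim'
  have c2 : Tendsto (fun k => el N (nf N + T^[k] a)) atTop (𝓝 (el N (nf N + L))) := by
    have : ContinuousAt (fun x : ℝ => el N (nf N + x)) L := by
      refine ContinuousAt.comp (g := el N) (f := fun x : ℝ => nf N + x) ?_ (by fun_prop)
      exact (el_deriv (by linarith)).continuousAt
    exact this.tendsto.comp hlim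
  have c3 : Tendsto (fun k => el N (nf N - T^[k + 1] a)) atTop (𝓝 (el N (nf N + L))) := by
    refine c2.congr fun k => ?_
    rw [Function.iterate_succ_apply']
    exact (hT4 _ (hpos k)).symm
  have := tendsto_nhds_unique c1 c3
  have := el_lt hN hL0 hL1
  linarith

/-! ### boundary values -/

/-- transition of real boundary values -/
lemma bdy_step (hN : 0 < N) {g : ℂ → ℂ} (hgD : ∀ s ∈ HP 0, g s ∈ LH)
    (hfe : ∀ s ∈ HP 0, Ph N (g s) = Ps (Ph N) (g (s + 1))) {a b x : ℝ} (ha : 0 < a) (hb : 0 < b)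
    (hb1 : b < nf N - 1) (hel : el N (nf N - b) = el N (nf N + a))
    (hlim : Tendsto g (𝓝[HP 0] (x : ℂ)) (𝓝 (b : ℂ))) :
    Tendsto g (𝓝[HP 0] ((x - 1 : ℝ) : ℂ)) (𝓝 (a : ℂ)) := by
  have h1 := nf_gt hN
  have hc1 : 1 < nf N + a := by linarith
  have hc2 : 1 < nf N - b := by linarith
  have hcD : ((nf N + a : ℝ) : ℂ) ∈ Dm := Or.inl (by simpa using hc1)
  have hcD2 : ((nf N - b : ℝ) : ℂ) ∈ Dm := Or.inl (by simpa using hc2)
  -- `g (s + 1) → b`
  have hsh : Tendsto (fun s : ℂ => s + 1) (𝓝[HP 0] ((x - 1 : ℝ) : ℂ)) (𝓝[HP 0] (x : ℂ)) := by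
    apply tendsto_nhdsWithin_of_tendsto_nhds_of_eventually_within
    · have : ContinuousAt (fun s : ℂ => s + 1) ((x - 1 : ℝ) : ℂ) := by fun_prop
      have h2 := this.tendsto
      have e : ((x - 1 : ℝ) : ℂ) + 1 = (x : ℂ) := by push_cast; ring
      rw [e] at h2
      exact h2.mono_left nhdsWithin_le_nhds
    · filter_upwards [self_mem_nhdsWithin] with s hs
      show 0 < (s + 1).im
      have : 0 < s.im := hs
      simpa using this
  have hl1 : Tendsto (fun s : ℂ => (nf N : ℂ) - g (s + 1)) (𝓝[HP 0] ((x - 1 : ℝ) : ℂ))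
      (𝓝 ((nf N - b : ℝ) : ℂ)) := by
    have h2 := (hlim.comp hsh).const_sub (nf N : ℂ)
    have e : ((nf N - b : ℝ) : ℂ) = (nf N : ℂ) - (b : ℂ) := by push_cast; ring
    rw [e]
    exact h2
  have hw : Tendsto (fun s : ℂ => Lam N ((nf N : ℂ) - g (s + 1))) (𝓝[HP 0] ((x - 1 : ℝ) : ℂ))
      (𝓝 (Lam N ((nf N + a : ℝ) : ℂ))) := by
    have := (Lam_cont N hcD2).tendsto.comp hl1
    rw [Lam_el hc2, hel, ← Lam_el hc1] at this
    exact this
  have hwim : ∀ᶠ s in 𝓝[HP 0] ((x - 1 : ℝ) : ℂ), (Lam N ((nf N : ℂ) - g (s + 1))).im < 0 := by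
    filter_upwards [hl1.eventually (sign_left hN hc2 (by linarith)), self_mem_nhdsWithin]
      with s h2 hs
    apply h2.1
    have hs1 : s + 1 ∈ HP 0 := by
      show 0 < (s + 1).im
      have : 0 < s.im := hs
      simpa using this
    exact sub_UH (hgD _ hs1)
  -- local inverse at `n + a`
  intro V hV
  rw [Filter.mem_map]
  have hshift : Tendsto (fun y : ℂ => y - (nf N : ℂ)) (𝓝 ((nf N + a : ℝ) : ℂ)) (𝓝 (a : ℂ)) := by
    have : ContinuousAt (fun y : ℂ => y - (nf N : ℂ)) ((nf N + a : ℝ) : ℂ) := by fun_prop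
    have h2 := this.tendsto
    have e : ((nf N + a : ℝ) : ℂ) - (nf N : ℂ) = (a : ℂ) := by push_cast; ring
    rw [e] at h2
    exact h2
  have hre1 : ∀ᶠ y : ℂ in 𝓝 ((nf N + a : ℝ) : ℂ), 1 < y.re := by
    have : ContinuousAt (fun y : ℂ => y.re) ((nf N + a : ℝ) : ℂ) := by fun_prop
    exact this.eventually (lt_mem_nhds (by simpa using hc1))
  have hW : {y : ℂ | y - (nf N : ℂ) ∈ V ∧ ((0 < y.im → 0 < (Lam N y).im) ∧
      (y.im < 0 → (Lam N y).im < 0)) ∧ 1 < y.re} ∈ 𝓝 ((nf N + a : ℝ) : ℂ) :=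
    (hshift.eventually_mem hV).and ((sign_right hN (by linarith : nf N < nf N + a)).and hre1)
  have hdne : dLam N ((nf N + a : ℝ) : ℂ) ≠ 0 := by
    rw [dLam_real]
    exact_mod_cast (dLam_pos hN (by linarith : nf N < nf N + a)).ne'
  have himg : Lam N '' {y : ℂ | y - (nf N : ℂ) ∈ V ∧ ((0 < y.im → 0 < (Lam N y).im) ∧
      (y.im < 0 → (Lam N y).im < 0)) ∧ 1 < y.re} ∈ 𝓝 (Lam N ((nf N + a : ℝ) : ℂ)) := by
    rw [← (Lam_strict N hcD).map_nhds_eq hdne]
    exact image_mem_map hW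
  filter_upwards [hw.eventually_mem himg, hwim, self_mem_nhdsWithin] with s hs1 hs2 hs3
  obtain ⟨y, ⟨hyV, ⟨hy1, hy2⟩, hyre⟩, hyw⟩ := hs1
  rw [← hyw] at hs2
  have hyim : y.im < 0 := by
    rcases lt_trichotomy y.im 0 with h | h | h
    · exact h
    · exfalso
      have e : y = (y.re : ℂ) := by apply Complex.ext <;> simp [h]
      rw [e, Lam_real_im hyre] at hs2
      linarith
    · exfalso; linarith [hy1 h]
  have hs' : s + 1 ∈ HP 0 := by
    show 0 < (s + 1).im
    have : 0 < s.im := hs3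
    simpa using this
  have h5 := hfe s hs3
  rw [Ps_Ph (UH_sub (sub_UH (hgD _ hs'))), ← hyw] at h5
  have h6 := inj_LH hN (add_LH (x := nf N) (hgD s hs3)) hyim h5
  show g s ∈ V
  have h7 : g s = y - (nf N : ℂ) := by rw [← h6]; ring
  rw [h7]; exact hyV

lemma neBot_HP0 (x : ℝ) : (𝓝[HP 0] (x : ℂ)).NeBot := by
  rw [← mem_closure_iff_nhdsWithin_neBot]
  have : closure (HP 0) = {s : ℂ | 0 ≤ s.im} := by
    have := Complex.closure_preimage_im (Ioi 0)
    rw [closure_Ioi] at this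
    exact this
  rw [this]; simp

/-- limit of `Im Λ` at negative reals, from below -/
lemma im_lim_neg {e : ℝ} (he : e < 0) {l : Filter ℂ} {y : ℂ → ℂ} (hy : ∀ᶠ s in l, (y s).im < 0)
    (hl : Tendsto y l (𝓝 (e : ℂ))) :
    Tendsto (fun s => (Lam N (y s)).im) l (𝓝 (-(N * Real.pi))) := by
  have h1 : Tendsto (fun s => (y s).arg) l (𝓝 (-Real.pi)) := by
    have := Complex.tendsto_arg_nhdsWithin_im_neg_of_re_neg_of_im_zero (z := (e : ℂ))
      (by simpa using he) (by simp)
    exact this.comp (tendsto_nhdsWithin_iff.2 ⟨hl, hy⟩)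
  have hne : (e : ℂ) ≠ 0 := by exact_mod_cast he.ne
  have h2 : Tendsto (fun s => (1 - 1 / y s).arg) l (𝓝 0) := by
    have hc : ContinuousAt (fun y : ℂ => (1 - 1 / y).arg) (e : ℂ) := by
      refine ContinuousAt.comp (g := Complex.arg) (f := fun y : ℂ => 1 - 1 / y) ?_ ?_
      · apply Complex.continuousAt_arg
        rw [Complex.mem_slitPlane_iff]
        left
        have e1 : (1 : ℂ) - 1 / (e : ℂ) = ((1 - 1 / e : ℝ) : ℂ) := by push_cast; ring
        rw [e1, Complex.ofReal_re]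
        have : 1 / e < 0 := one_div_neg.2 he
        linarith
      · exact continuousAt_const.sub (continuousAt_const.div continuousAt_id hne)
    have h3 := hc.tendsto.comp hl
    have e1 : (1 : ℂ) - 1 / (e : ℂ) = ((1 - 1 / e : ℝ) : ℂ) := by push_cast; ring
    have hp : 0 ≤ 1 - 1 / e := by
      have : 1 / e < 0 := one_div_neg.2 he
      linarith
    rw [e1, Complex.arg_ofReal_of_nonneg hp] at h3
    exact h3
  have h3 := (h1.const_mul N).sub h2
  refine (h3.congr fun s => ?_).trans_eq ?_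
  · rw [Lam_im]
  · ring_nf

/-- limit of `Im Λ` at points of `(0,1)`, from below -/
lemma im_lim_mid {e : ℝ} (he : 0 < e) (he1 : e < 1) {l : Filter ℂ} {y : ℂ → ℂ}
    (hy : ∀ᶠ s in l, (y s).im < 0) (hl : Tendsto y l (𝓝 (e : ℂ))) :
    Tendsto (fun s => (Lam N (y s)).im) l (𝓝 Real.pi) := by
  have hne : (e : ℂ) ≠ 0 := by exact_mod_cast he.ne'
  have h1 : Tendsto (fun s => (y s).arg) l (𝓝 0) := by
    have hc : ContinuousAt Complex.arg (e : ℂ) := by
      apply Complex.continuousAt_arg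
      rw [Complex.mem_slitPlane_iff]
      left; simpa using he
    have h3 := hc.tendsto.comp hl
    rw [Complex.arg_ofReal_of_nonneg he.le] at h3
    exact h3
  have h2 : Tendsto (fun s => (1 - 1 / y s).arg) l (𝓝 (-Real.pi)) := by
    have e1 : (1 : ℂ) - 1 / (e : ℂ) = ((1 - 1 / e : ℝ) : ℂ) := by push_cast; ring
    have hneg : 1 - 1 / e < 0 := by
      have : 1 < 1 / e := by rw [lt_div_iff₀ he]; linarith
      linarith
    have h0 := Complex.tendsto_arg_nhdsWithin_im_neg_of_re_neg_of_im_zero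
      (z := ((1 - 1 / e : ℝ) : ℂ)) (by simpa using hneg) (by simp)
    refine h0.comp (tendsto_nhdsWithin_iff.2 ⟨?_, ?_⟩)
    · have hc : ContinuousAt (fun y : ℂ => 1 - 1 / y) (e : ℂ) :=
        continuousAt_const.sub (continuousAt_const.div continuousAt_id hne)
      have := hc.tendsto.comp hl
      rw [e1] at this
      exact this
    · filter_upwards [hy] with s hs
      show (1 - 1 / y s).im < 0
      rw [one_sub_im]
      have h0 : 0 < normSq (y s) := Complex.normSq_pos.2 (by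
        intro h; rw [h] at hs; simp at hs)
      exact div_neg_of_neg_of_pos hs h0
  have h3 := (h1.const_mul N).sub h2
  refine (h3.congr fun s => ?_).trans_eq ?_
  · rw [Lam_im]
  · ring_nf

/-- **FLAT**: the flat end `Y = X^n`, `n = 1 + 1/N > 1`, `n ≠ 2`, is not embeddable. -/
theorem flat {N : ℝ} (hN : 0 < N) (hN1 : N ≠ 1) {F : ℂ → ℂ} {κ : ℝ}
    (an : AnalyticAt ℂ F 0) (odd : ∀ᶠ t in 𝓝 (0 : ℂ), F (-t) = -F t)
    (real : ∀ᶠ t in 𝓝 (0 : ℂ), F ((starRingEnd ℂ) t) = (starRingEnd ℂ) (F t))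
    (hκ : 0 < κ) (hd : deriv F 0 = (κ : ℂ))
    (eq : ∀ᶠ t in 𝓝 (0 : ℂ), Lam N ((nf N : ℂ) + F t) = Lam N ((nf N : ℂ) - F (t / (1 + t)))) :
    False := by
  have h1 := nf_gt hN
  have eq' : ∀ᶠ t in 𝓝 (0 : ℂ), F t ∈ LH → F (t / (1 + t)) ∈ LH →
      Ph N (F t) = Ps (Ph N) (F (t / (1 + t))) := by
    filter_upwards [eq] with t ht _ h3
    rw [Ps_Ph (UH_sub (sub_UH h3))]
    exact ht
  obtain ⟨ρ, hρ, hG, hGr, η, hη, hsurj⟩ :=
    ginf_of_germ (D := LH) (Φ := Ph N) ⟨1, one_pos, fun a _ h => h⟩ an odd real hκ hd eq'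
  set G : ℂ → ℂ := fun s => F (1 / s) with hGdef
  have S := sys hN
  obtain ⟨g, hgd, hgD, hfe, hext, hsym, hinj, hpos⟩ := ext S hG
  -- every positive real is a boundary value
  have hbv : ∀ a : ℝ, 0 < a → ∃ x : ℝ, Tendsto g (𝓝[HP 0] (x : ℂ)) (𝓝 (a : ℂ)) := by
    intro a ha
    refine orbit hN (P := fun a => ∃ x : ℝ, Tendsto g (𝓝[HP 0] (x : ℂ)) (𝓝 (a : ℂ))) hη ?_ ?_ ha
    · intro a ha haη
      obtain ⟨x, hx, hxa⟩ := hsurj a ha haη
      refine ⟨x, ?_⟩
      have hx0 : 0 < x := by linarith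
      have hxn : ρ < ‖(x : ℂ)‖ := by
        rw [Complex.norm_real, Real.norm_eq_abs, abs_of_pos hx0]; exact hx
      have hopen : IsOpen {s : ℂ | ρ < ‖s‖} := isOpen_lt continuous_const continuous_norm
      have hc : ContinuousAt G (x : ℂ) := (hG.an.differentiableAt (hopen.mem_nhds hxn)).continuousAt
      have h2 : Tendsto G (𝓝[HP 0] (x : ℂ)) (𝓝 (a : ℂ)) := by
        have := hc.tendsto.mono_left (nhdsWithin_le_nhds (s := HP 0))
        have e : G (x : ℂ) = (a : ℂ) := hxa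
        rw [e] at this
        exact this
      refine h2.congr' ?_
      filter_upwards [self_mem_nhdsWithin, nhdsWithin_le_nhds (hopen.mem_nhds hxn)] with s hs1 hs2
      exact (hext s hs1 hs2).symm
    · rintro a b ha hb hb1 hel ⟨x, hx⟩
      exact ⟨x - 1, bdy_step hN hgD hfe ha hb hb1 hel hx⟩
  -- negative values by symmetry
  have hbv' : ∀ a : ℝ, 0 < a → ∃ x : ℝ, Tendsto (fun s => (nf N : ℂ) + g s) (𝓝[HP 0] (x : ℂ))
      (𝓝 ((nf N - a : ℝ) : ℂ)) := by
    intro a ha
    obtain ⟨x, hx⟩ := hbv a ha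
    refine ⟨-x, ?_⟩
    have h2 : Tendsto rf (𝓝[HP 0] ((-x : ℝ) : ℂ)) (𝓝[HP 0] (x : ℂ)) := by
      apply tendsto_nhdsWithin_of_tendsto_nhds_of_eventually_within
      · have := (continuous_rf.tendsto ((-x : ℝ) : ℂ))
        have e : rf ((-x : ℝ) : ℂ) = (x : ℂ) := by
          unfold rf; rw [Complex.conj_ofReal]; push_cast; ring
        rw [e] at this
        exact this.mono_left nhdsWithin_le_nhds
      · filter_upwards [self_mem_nhdsWithin] with s hs
        show 0 < (rf s).im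
        rw [rf_im]; exact hs
    have h3 : Tendsto (fun s => rf (g (rf s))) (𝓝[HP 0] ((-x : ℝ) : ℂ)) (𝓝 (rf (a : ℂ))) :=
      (continuous_rf.tendsto _).comp (hx.comp h2)
    have h4 : Tendsto g (𝓝[HP 0] ((-x : ℝ) : ℂ)) (𝓝 (rf (a : ℂ))) := by
      refine h3.congr' ?_
      filter_upwards [self_mem_nhdsWithin] with s hs
      rw [hsym s hs, rf_rf]
    have h5 := h4.const_add (nf N : ℂ)
    have e : (nf N : ℂ) + rf (a : ℂ) = ((nf N - a : ℝ) : ℂ) := by
      unfold rf; rw [Complex.conj_ofReal]; push_cast; ring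
    rw [e] at h5
    exact h5
  have hlow : ∀ x : ℝ, ∀ᶠ s in 𝓝[HP 0] (x : ℂ), ((nf N : ℂ) + g s).im < 0 := by
    intro x
    filter_upwards [self_mem_nhdsWithin] with s hs
    exact add_LH (hgD s hs)
  -- bounds of `Im Λ`
  have hbd : ∀ s ∈ HP 0, -Real.pi < (Lam N ((nf N : ℂ) + g s)).im ∧
      (Lam N ((nf N : ℂ) + g s)).im < N * Real.pi := by
    intro s hs
    have hs1 : s + 1 ∈ HP 0 := by
      show 0 < (s + 1).im
      have : 0 < s.im := hs
      simpa using this
    have h2 := hfe s hs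
    rw [Ps_Ph (UH_sub (sub_UH (hgD _ hs1)))] at h2
    have h3 : Lam N ((nf N : ℂ) + g s) = Lam N ((nf N : ℂ) - g (s + 1)) := h2
    rw [h3]
    exact im_UH hN (sub_UH (hgD _ hs1))
  rcases lt_or_gt_of_ne hN1 with hlt | hgt
  · -- `N < 1`: value `1/2`
    obtain ⟨x, hx⟩ := hbv' (nf N - 1 / 2) (by linarith)
    have e : nf N - (nf N - 1 / 2) = 1 / 2 := by ring
    rw [e] at hx
    have := neBot_HP0 x
    have h2 := im_lim_mid (N := N) (e := 1 / 2) (by norm_num) (by norm_num) (hlow x) hx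
    have h3 : Real.pi ≤ N * Real.pi := by
      refine le_of_tendsto h2 ?_
      filter_upwards [self_mem_nhdsWithin] with s hs
      exact (hbd s hs).2.le
    have := Real.pi_pos
    nlinarith
  · -- `N > 1`: value `-1`
    obtain ⟨x, hx⟩ := hbv' (nf N + 1) (by linarith)
    have e : nf N - (nf N + 1) = -1 := by ring
    rw [e] at hx
    have := neBot_HP0 x
    have h2 := im_lim_neg (N := N) (e := -1) (by norm_num) (hlow x) hx
    have h3 : -Real.pi ≤ -(N * Real.pi) := by
      refine ge_of_tendsto h2 ?_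
      filter_upwards [self_mem_nhdsWithin] with s hs
      exact (hbd s hs).1.le
    have := Real.pi_pos
    nlinarith

end Crest.Agent.R102.Flat348
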