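import Mathlib
import Crest.Agent.R102.H4Defs_490

-- ▼ part R102/H4L0_852
section

/-!
# Row 102, [H4], leaf H4-0: elementary facts of `G(s) = F(1/s)` near `oo` (helper852)
-/

open Complex Set Filter Topology

noncomputable section

namespace Crest.Agent.R102.H4L0

open Crest.Agent.R102.H4

theorem leaf0 : Leaf0 := by
  intro N F hF
  obtain ⟨g, hg, hd⟩ := hF.der
  have hN := hF.hN
  have hn1 : nn N < 1 := by
    unfold nn
    rw [div_lt_one (by linarith)]
    linarith
  have hF0 : F 0 = 0 := by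
    have h := hF.odd.self_of_nhds
    rw [neg_zero] at h
    have h2 : (2 : ℂ) * F 0 = 0 := by linear_combination h
    simpa using h2
  have hanE : ∀ᶠ t in 𝓝 (0 : ℂ), AnalyticAt ℂ F t := hF.an.eventually_analyticAt
  have hdan : AnalyticAt ℂ (deriv F) 0 := hF.an.deriv
  have hddan : AnalyticAt ℂ (deriv (deriv F)) 0 := hdan.deriv
  have h1 : ∀ᶠ t in 𝓝 (0 : ℂ), ‖deriv F t + g‖ < g / 2 := by
    have hc : ContinuousAt (fun t => ‖deriv F t + g‖) 0 :=
      (hdan.continuousAt.add continuousAt_const).norm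
    have h0 : ‖deriv F 0 + g‖ < g / 2 := by
      rw [hd]; simp; positivity
    exact hc.tendsto.eventually_lt_const h0
  have h2 : ∀ᶠ t in 𝓝 (0 : ℂ), ‖F t‖ < (1 - nn N) / 4 := by
    have hc : ContinuousAt (fun t => ‖F t‖) 0 := hF.an.continuousAt.norm
    have h0 : ‖F 0‖ < (1 - nn N) / 4 := by
      rw [hF0]; simp; linarith
    exact hc.tendsto.eventually_lt_const h0
  have h3 : ∀ᶠ t in 𝓝 (0 : ℂ), (2 * deriv F t + t * deriv (deriv F) t).re < 0 := by
    have hc : ContinuousAt (fun t => (2 * deriv F t + t * deriv (deriv F) t).re) 0 :=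
      Complex.continuous_re.continuousAt.comp
        ((continuousAt_const.mul hdan.continuousAt).add
          (continuousAt_id.mul hddan.continuousAt))
    have h0 : (2 * deriv F 0 + 0 * deriv (deriv F) 0).re < 0 := by
      rw [hd]; simp; exact hg
    exact hc.tendsto.eventually_lt_const h0
  obtain ⟨r0, hr0, hball⟩ := Metric.eventually_nhds_iff_ball.1
    (hanE.and (hF.odd.and (hF.real.and (hF.eq.and (h1.and (h2.and h3))))))
  set r : ℝ := min r0 1 with hr
  have hrpos : 0 < r := lt_min hr0 one_pos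
  have hr1 : r ≤ 1 := min_le_right _ _
  have hrr0 : r ≤ r0 := min_le_left _ _
  have hsub : ∀ t : ℂ, ‖t‖ < r → t ∈ Metric.ball (0 : ℂ) r0 := by
    intro t ht
    rw [mem_ball_zero_iff]
    exact lt_of_lt_of_le ht hrr0
  have An : ∀ t : ℂ, ‖t‖ < r → AnalyticAt ℂ F t := fun t ht => (hball t (hsub t ht)).1
  have Od : ∀ t : ℂ, ‖t‖ < r → F (-t) = -F t := fun t ht => (hball t (hsub t ht)).2.1
  have Re : ∀ t : ℂ, ‖t‖ < r → F ((starRingEnd ℂ) t) = (starRingEnd ℂ) (F t) :=
    fun t ht => (hball t (hsub t ht)).2.2.1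
  have Eq : ∀ t : ℂ, ‖t‖ < r → L N ((nn N : ℂ) + F t) = L N ((nn N : ℂ) - F (t / (1 + t))) :=
    fun t ht => (hball t (hsub t ht)).2.2.2.1
  have B1 : ∀ t : ℂ, ‖t‖ < r → ‖deriv F t + g‖ < g / 2 :=
    fun t ht => (hball t (hsub t ht)).2.2.2.2.1
  have B2 : ∀ t : ℂ, ‖t‖ < r → ‖F t‖ < (1 - nn N) / 4 :=
    fun t ht => (hball t (hsub t ht)).2.2.2.2.2.1
  have B3 : ∀ t : ℂ, ‖t‖ < r → (2 * deriv F t + t * deriv (deriv F) t).re < 0 :=
    fun t ht => (hball t (hsub t ht)).2.2.2.2.2.2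
  -- Lipschitz estimate
  have Lip : ∀ t t' : ℂ, ‖t‖ < r → ‖t'‖ < r →
      ‖(F t' + g * t') - (F t + g * t)‖ ≤ g / 2 * ‖t' - t‖ := by
    intro t t' ht ht'
    refine Convex.norm_image_sub_le_of_norm_deriv_le (𝕜 := ℂ) (f := fun t => F t + g * t)
      (s := Metric.ball (0 : ℂ) r) ?_ ?_ (convex_ball _ _) (by simpa using ht) (by simpa using ht')
    · intro x hx
      rw [mem_ball_zero_iff] at hx
      exact (An x hx).differentiableAt.add ((differentiableAt_const _).mul differentiableAt_id)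
    · intro x hx
      rw [mem_ball_zero_iff] at hx
      have hdx : HasDerivAt (fun t => F t + g * t) (deriv F x + g * 1) x :=
        (An x hx).differentiableAt.hasDerivAt.add ((hasDerivAt_id x).const_mul (g : ℂ))
      rw [hdx.deriv, mul_one]
      exact (B1 x hx).le
  -- inverse
  have inv_lt : ∀ s : ℂ, 1 / r < ‖s‖ → ‖1 / s‖ < r ∧ s ≠ 0 := by
    intro s hs
    have hpos : 0 < ‖s‖ := lt_trans (by positivity) hs
    refine ⟨?_, norm_pos_iff.1 hpos⟩
    rw [norm_div, norm_one, div_lt_iff₀ hpos]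
    rw [div_lt_iff₀ hrpos] at hs
    linarith [mul_comm r ‖s‖]
  have hρ1 : 1 ≤ 1 / r := by
    rw [le_div_iff₀ hrpos]; linarith
  have hGd : ∀ s : ℂ, 1 / r < ‖s‖ →
      HasDerivAt (fun s => F (1 / s)) (deriv F (1 / s) * (-(1 / s ^ 2))) s := by
    intro s hs
    obtain ⟨hs1, hs0⟩ := inv_lt s hs
    have hi : HasDerivAt (fun s : ℂ => 1 / s) (-(1 / s ^ 2)) s := by
      have := hasDerivAt_inv hs0
      simpa [one_div] using this
    exact (An _ hs1).differentiableAt.hasDerivAt.comp s hi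
  have hopen : IsOpen {s : ℂ | 1 / r < ‖s‖} := isOpen_lt continuous_const continuous_norm
  refine ⟨1 / r, ?_⟩
  refine
    { hN := hN
      hρ := hρ1
      an := ?_
      odd := ?_
      real := ?_
      pos := ?_
      inj := ?_
      small := ?_
      lim := ?_
      eq := ?_
      neg := ?_
      dpos := ?_
      dneg := ?_ }
  · intro s hs
    exact (hGd s hs).differentiableAt.differentiableWithinAt
  · intro s hs
    obtain ⟨hs1, hs0⟩ := inv_lt s hs
    have : (1 : ℂ) / (-s) = -(1 / s) := by field_simp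
    simp only [this]
    exact Od _ hs1
  · intro s hs
    obtain ⟨hs1, hs0⟩ := inv_lt s hs
    have : (1 : ℂ) / ((starRingEnd ℂ) s) = (starRingEnd ℂ) (1 / s) := by
      rw [map_div₀, map_one]
    simp only [this]
    exact Re _ hs1
  · intro s hs him
    obtain ⟨hs1, hs0⟩ := inv_lt s hs
    set t : ℂ := 1 / s with ht
    have htim : t.im < 0 := by
      rw [ht, one_div, Complex.inv_im]
      have : 0 < Complex.normSq s := Complex.normSq_pos.2 hs0
      rw [neg_div]
      have : 0 < s.im / Complex.normSq s := by positivity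
      linarith
    have hre : ‖((t.re : ℝ) : ℂ)‖ < r := by
      rw [Complex.norm_real]
      exact lt_of_le_of_lt (Complex.abs_re_le_norm t) hs1
    have hFre : (F (t.re : ℂ)).im = 0 := by
      have h := Re _ hre
      rw [Complex.conj_ofReal] at h
      have := congrArg Complex.im h
      rw [Complex.conj_im] at this
      linarith
    have hL := Lip (t.re : ℂ) t hre hs1
    have hdiff : t - (t.re : ℂ) = (t.im : ℂ) * I := by
      apply Complex.ext <;> simp
    have hn : ‖t - (t.re : ℂ)‖ = -t.im := by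
      rw [hdiff, norm_mul, Complex.norm_I, mul_one, Complex.norm_real, Real.norm_eq_abs,
        abs_of_neg htim]
    rw [hn] at hL
    have him2 := (Complex.abs_im_le_norm ((F t + g * t) - (F (t.re : ℂ) + g * (t.re : ℂ)))).trans hL
    have him3 : ((F t + g * t) - (F (t.re : ℂ) + g * (t.re : ℂ))).im = (F t).im + g * t.im := by
      simp [hFre]
    rw [him3] at him2
    have := (abs_le.1 him2).1
    show 0 < (F t).im
    nlinarith [mul_pos hg (neg_pos.2 htim)]
  · intro s hs s' hs' h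
    obtain ⟨hs1, hs0⟩ := inv_lt s hs
    obtain ⟨hs1', hs0'⟩ := inv_lt s' hs'
    have h' : F (1 / s) = F (1 / s') := h
    have hL := Lip (1 / s) (1 / s') hs1 hs1'
    have he : (F (1 / s') + g * (1 / s')) - (F (1 / s) + g * (1 / s)) =
        (g : ℂ) * (1 / s' - 1 / s) := by
      rw [h']; ring
    rw [he, norm_mul, Complex.norm_real, Real.norm_eq_abs, abs_of_pos hg] at hL
    have h0 : ‖(1 : ℂ) / s' - 1 / s‖ ≤ 0 := by nlinarith [norm_nonneg ((1 : ℂ) / s' - 1 / s)]
    have h00 := norm_le_zero_iff.1 h0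
    have h5 : (1 : ℂ) / s' = 1 / s := by linear_combination h00
    rw [one_div, one_div] at h5
    exact (inv_injective h5).symm
  · intro s hs
    obtain ⟨hs1, hs0⟩ := inv_lt s hs
    exact B2 _ hs1
  · have hc : Tendsto F (𝓝 0) (𝓝 0) := by
      have := hF.an.continuousAt.tendsto
      rwa [hF0] at this
    have hi : Tendsto (fun s : ℂ => 1 / s) (cocompact ℂ) (𝓝 0) := by
      have := Filter.tendsto_inv₀_cobounded (α := ℂ)
      rw [← Metric.cobounded_eq_cocompact]
      simpa [one_div] using this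
    exact hc.comp hi
  · intro s hs hs'
    obtain ⟨hs1, hs0⟩ := inv_lt s hs
    obtain ⟨hs1', hs0'⟩ := inv_lt (s + 1) hs'
    have h := Eq _ hs1
    have : (1 : ℂ) / s / (1 + 1 / s) = 1 / (s + 1) := by
      field_simp
    rw [this] at h
    exact h
  · intro x hx
    have hx0 : 0 < x := lt_trans (by positivity) hx
    have hxn : 1 / r < ‖(x : ℂ)‖ := by
      rw [Complex.norm_real, Real.norm_eq_abs, abs_of_pos hx0]; exact hx
    obtain ⟨hs1, hs0⟩ := inv_lt _ hxn
    have hL := Lip 0 (1 / (x : ℂ)) (by simpa using hrpos) hs1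
    rw [hF0] at hL
    have e1 : (F (1 / (x : ℂ)) + g * (1 / (x : ℂ))) - (0 + g * 0) =
        F (1 / (x : ℂ)) + ((g * (1 / x) : ℝ) : ℂ) := by push_cast; ring
    have e2 : ‖(1 / (x : ℂ)) - 0‖ = 1 / x := by
      rw [sub_zero, norm_div, norm_one, Complex.norm_real, Real.norm_eq_abs, abs_of_pos hx0]
    rw [e1, e2] at hL
    have h4 := (Complex.abs_re_le_norm _).trans hL
    rw [Complex.add_re, Complex.ofReal_re] at h4
    have h5 := (abs_le.1 h4).2
    have h6 : 0 < g * (1 / x) := by positivity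
    show (F (1 / (x : ℂ))).re < 0
    nlinarith
  · intro x hx
    have hx0 : 0 < x := lt_trans (by positivity) hx
    have hxn : 1 / r < ‖(x : ℂ)‖ := by
      rw [Complex.norm_real, Real.norm_eq_abs, abs_of_pos hx0]; exact hx
    obtain ⟨hs1, hs0⟩ := inv_lt _ hxn
    rw [(hGd _ hxn).deriv]
    have h1 := B1 _ hs1
    have h4 := lt_of_le_of_lt (Complex.abs_re_le_norm _) h1
    rw [Complex.add_re, Complex.ofReal_re] at h4
    have h5 := (abs_lt.1 h4).2
    have e1 : deriv F (1 / (x : ℂ)) * (-(1 / (x : ℂ) ^ 2)) =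
        ((-(1 / x ^ 2) : ℝ) : ℂ) * deriv F (1 / (x : ℂ)) := by push_cast; ring
    rw [e1, Complex.re_ofReal_mul]
    have h6 : 0 < 1 / x ^ 2 := by positivity
    nlinarith
  · intro x hx
    have hx0 : 0 < x := lt_trans (by positivity) hx
    have hxn : 1 / r < ‖(x : ℂ)‖ := by
      rw [Complex.norm_real, Real.norm_eq_abs, abs_of_pos hx0]; exact hx
    obtain ⟨hs1, hs0⟩ := inv_lt _ hxn
    have hev : (deriv fun s => F (1 / s)) =ᶠ[𝓝 (x : ℂ)]
        fun s => deriv F (1 / s) * (-(1 / s ^ 2)) := by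
      filter_upwards [hopen.mem_nhds hxn] with s hs
      exact (hGd s hs).deriv
    rw [hev.deriv_eq]
    have hi : HasDerivAt (fun s : ℂ => 1 / s) (-(1 / (x : ℂ) ^ 2)) (x : ℂ) := by
      have := hasDerivAt_inv hs0
      simpa [one_div] using this
    have hF' : HasDerivAt (fun s => deriv F (1 / s))
        (deriv (deriv F) (1 / (x : ℂ)) * (-(1 / (x : ℂ) ^ 2))) (x : ℂ) :=
      HasDerivAt.comp (x : ℂ) ((An _ hs1).deriv.differentiableAt.hasDerivAt) hi
    have hi2 : HasDerivAt (fun s : ℂ => -(1 / s ^ 2)) (2 / (x : ℂ) ^ 3) (x : ℂ) := by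
      have h7 : HasDerivAt (fun s : ℂ => s ^ 2) (2 * (x : ℂ)) (x : ℂ) := by
        simpa using hasDerivAt_pow 2 (x : ℂ)
      have h8 := (h7.inv (pow_ne_zero 2 hs0)).neg
      have e9 : (fun s : ℂ => -(1 / s ^ 2)) = -(fun s : ℂ => s ^ 2)⁻¹ := by
        ext s; simp
      rw [e9]
      refine h8.congr_deriv ?_
      field_simp
    have hprod := hF'.mul hi2
    have hprod' : HasDerivAt (fun s => deriv F (1 / s) * (-(1 / s ^ 2)))
        (((1 / x ^ 3 : ℝ) : ℂ) * (2 * deriv F (1 / (x : ℂ)) +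
          (1 / (x : ℂ)) * deriv (deriv F) (1 / (x : ℂ)))) (x : ℂ) := by
      refine hprod.congr_deriv ?_
      push_cast
      field_simp
      ring
    rw [hprod'.deriv, Complex.re_ofReal_mul]
    have h6 : 0 < 1 / x ^ 3 := by positivity
    exact mul_neg_of_pos_of_neg h6 (B3 _ hs1)

end Crest.Agent.R102.H4L0
end
end

-- ▼ part R102/H4L1b_203
section

/-!
# Row 102, [H4], leaf H4-1b (helper203): boundary behaviour of the inverse of `L` on `UH`.
-/

open Complex Set Filter Topology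

noncomputable section

namespace Crest.Agent.R102.H4L1b203

open Crest.Agent.R102.H4

variable {N : ℝ}

lemma nn_pos (hN : 1 < N) : 0 < nn N := by
  unfold nn; have : (0 : ℝ) < N := by linarith
  positivity

lemma nn_lt_one (hN : 1 < N) : nn N < 1 := by
  unfold nn; rw [div_lt_one (by linarith)]; linarith

lemma ell_hasDerivAt (N : ℝ) {x : ℝ} (h0 : x ≠ 0) (h1 : x ≠ 1) :
    HasDerivAt (ell N) (N / x - 1 / (1 - x)) x := by
  have h1' : (1 : ℝ) - x ≠ 0 := sub_ne_zero.mpr (Ne.symm h1)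
  have a := (Real.hasDerivAt_log h0).const_mul N
  have b := ((hasDerivAt_const x (1 : ℝ)).sub (hasDerivAt_id x)).log h1'
  have := a.add b
  refine (this.congr_deriv ?_)
  simp only [Pi.sub_apply, id]
  ring

lemma ell_continuousOn (N : ℝ) {s : Set ℝ} (h : ∀ x ∈ s, x ≠ 0 ∧ x ≠ 1) :
    ContinuousOn (ell N) s := fun x hx =>
  (ell_hasDerivAt N (h x hx).1 (h x hx).2).continuousAt.continuousWithinAt

lemma ell_mono_left (hN : 1 < N) : StrictMonoOn (ell N) (Ioc 0 (nn N)) := by
  have hn := nn_lt_one hN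
  refine strictMonoOn_of_deriv_pos (convex_Ioc _ _) (ell_continuousOn N ?_) ?_
  · intro x hx
    exact ⟨hx.1.ne', (lt_of_le_of_lt hx.2 hn).ne⟩
  · intro x hx
    rw [interior_Ioc] at hx
    have hx1 : x < 1 := hx.2.trans hn
    rw [(ell_hasDerivAt N hx.1.ne' hx1.ne).deriv]
    have hx2 : x < N / (N + 1) := hx.2
    rw [lt_div_iff₀ (by linarith)] at hx2
    rw [sub_pos, div_lt_div_iff₀ (by linarith) hx.1]
    nlinarith [hx.1]

lemma ell_anti_mid (hN : 1 < N) : StrictAntiOn (ell N) (Ico (nn N) 1) := by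
  have hn := nn_pos hN
  refine strictAntiOn_of_deriv_neg (convex_Ico _ _) (ell_continuousOn N ?_) ?_
  · intro x hx
    exact ⟨(lt_of_lt_of_le hn hx.1).ne', hx.2.ne⟩
  · intro x hx
    rw [interior_Ico] at hx
    have hx0 : 0 < x := hn.trans hx.1
    rw [(ell_hasDerivAt N hx0.ne' hx.2.ne).deriv]
    have hx2 : N / (N + 1) < x := hx.1
    rw [div_lt_iff₀ (by linarith)] at hx2
    rw [sub_neg, div_lt_div_iff₀ hx0 (by linarith [hx.2])]
    nlinarith [hx.2]

lemma ell_mono_right (hN : 1 < N) : StrictMonoOn (ell N) (Ioi 1) := by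
  refine strictMonoOn_of_deriv_pos (convex_Ioi _) (ell_continuousOn N ?_) ?_
  · intro x hx
    have : (1 : ℝ) < x := hx
    exact ⟨by linarith, by linarith⟩
  · intro x hx
    rw [interior_Ioi] at hx
    have hx1 : (1 : ℝ) < x := hx
    rw [(ell_hasDerivAt N (by linarith) (by linarith)).deriv]
    have h1 : 0 < N / x := by apply div_pos <;> linarith
    have h2 : 1 / (1 - x) < 0 := div_neg_of_pos_of_neg one_pos (by linarith)
    linarith

lemma ell_surj_right (hN : 1 < N) (y : ℝ) : ∃ r : ℝ, 1 < r ∧ ell N r = y := by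
  set d := min 1 (Real.exp (y - N * Real.log 2)) with hd
  set R := max 2 (Real.exp y) with hR
  have hd0 : 0 < d := lt_min one_pos (Real.exp_pos _)
  have hd1 : d ≤ 1 := min_le_left _ _
  have hR2 : 2 ≤ R := le_max_left _ _
  have hRy : Real.exp y ≤ R := le_max_right _ _
  have hlo : ell N (1 + d) ≤ y := by
    unfold ell
    have e1 : Real.log (1 + d) ≤ Real.log 2 :=
      Real.log_le_log (by linarith) (by linarith)
    have e2 : Real.log (1 - (1 + d)) ≤ y - N * Real.log 2 := by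
      have : (1 : ℝ) - (1 + d) = -d := by ring
      rw [this, Real.log_neg_eq_log]
      rw [Real.log_le_iff_le_exp hd0]
      exact min_le_right _ _
    nlinarith
  have hhi : y ≤ ell N R := by
    unfold ell
    have e1 : y ≤ Real.log R := by
      rw [Real.le_log_iff_exp_le (by linarith)]; exact hRy
    have e2 : 0 ≤ Real.log (1 - R) := by
      have : (1 : ℝ) - R = -(R - 1) := by ring
      rw [this, Real.log_neg_eq_log]
      exact Real.log_nonneg (by linarith)
    have e3 : 0 ≤ Real.log R := Real.log_nonneg (by linarith)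
    nlinarith
  have hc : ContinuousOn (ell N) (Icc (1 + d) R) := ell_continuousOn N (by
    intro x hx
    have := hx.1
    exact ⟨by linarith, by linarith⟩)
  obtain ⟨r, hr, hr'⟩ := intermediate_value_Icc (by linarith) hc ⟨hlo, hhi⟩
  exact ⟨r, by linarith [hr.1], hr'⟩

lemma L_re (N : ℝ) (z : ℂ) :
    (L N z).re = N * Real.log ‖z‖ + Real.log ‖1 - z‖ := by
  simp [L, Complex.log_re]

lemma norm_le_of_re_le (hN : 1 < N) {z : ℂ} {C : ℝ} (h : (L N z).re ≤ C) :
    ‖z‖ ≤ max 2 (Real.exp C) := by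
  by_contra hcon
  rw [not_le, max_lt_iff] at hcon
  obtain ⟨h2, hC⟩ := hcon
  rw [L_re] at h
  have e1 : C < Real.log ‖z‖ := by
    rw [Real.lt_log_iff_exp_lt (by linarith)]; exact hC
  have e2 : 0 ≤ Real.log ‖1 - z‖ := by
    apply Real.log_nonneg
    have := norm_sub_norm_le z 1
    rw [norm_one, norm_sub_rev] at this
    linarith
  have e3 : 0 ≤ Real.log ‖z‖ := Real.log_nonneg (by linarith)
  nlinarith

/-- compactness form -/
lemma master (hN : 1 < N) {l : Filter ℂ} {z : ℂ → ℂ} {q : ℂ} {C : ℝ}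
    (hz : ∀ᶠ i in l, z i ∈ UH) (hC : ∀ᶠ i in l, (L N (z i)).re ≤ C)
    (huniq : ∀ (u : Ultrafilter ℂ), (u : Filter ℂ) ≤ l → ∀ p : ℂ, 0 ≤ p.im →
      Tendsto z u (𝓝 p) → p = q) : Tendsto z l (𝓝 q) := by
  have hK : IsCompact (Metric.closedBall (0 : ℂ) (max 2 (Real.exp C)) ∩ {p : ℂ | 0 ≤ p.im}) :=
    (isCompact_closedBall _ _).inter_right (isClosed_le continuous_const Complex.continuous_im)
  refine hK.tendsto_nhds_of_unique_mapClusterPt ?_ ?_
  · filter_upwards [hz, hC] with i h1 h2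
    refine ⟨?_, show (0 : ℝ) ≤ (z i).im from le_of_lt h1⟩
    rw [Metric.mem_closedBall, dist_zero_right]
    exact norm_le_of_re_le hN h2
  · intro p hp hcl
    obtain ⟨u, hu, hu'⟩ := mapClusterPt_iff_ultrafilter.mp hcl
    exact huniq u hu p hp.2 hu'

lemma L_continuousAt {p : ℂ} (hp : p ∈ UH) : ContinuousAt (L N) p := by
  have him : 0 < p.im := hp
  have h1 : p ∈ slitPlane := by
    rw [Complex.mem_slitPlane_iff]; right; exact him.ne'
  have h2 : 1 - p ∈ slitPlane := by
    rw [Complex.mem_slitPlane_iff]; right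
    simp only [Complex.sub_im, Complex.one_im, zero_sub, ne_eq, neg_eq_zero]; exact him.ne'
  unfold L
  exact (continuousAt_const.mul (continuousAt_clog h1)).add
    ((continuousAt_const.sub continuousAt_id).clog h2)

lemma classify (hS : BdyS N) {u : Ultrafilter ℂ} {z : ℂ → ℂ}
    (hz : ∀ᶠ i in (u : Filter ℂ), z i ∈ UH) {p : ℂ} (hp : 0 ≤ p.im)
    (ht : Tendsto z u (𝓝 p)) :
    (p ∈ UH ∧ Tendsto (fun i => L N (z i)) u (𝓝 (L N p))) ∨
    (p = 0 ∧ Tendsto (fun i => (L N (z i)).re) u atBot ∧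
      ∀ᶠ i in (u : Filter ℂ), 0 < (L N (z i)).im) ∨
    (p = 1 ∧ Tendsto (fun i => (L N (z i)).re) u atBot ∧
      ∀ᶠ i in (u : Filter ℂ), (L N (z i)).im < 0) ∨
    (∃ x : ℝ, p = x ∧ 0 < x ∧ x < 1 ∧
      Tendsto (fun i => L N (z i)) u (𝓝 (ell N x : ℂ)) ∧
      (x < nn N → ∀ᶠ i in (u : Filter ℂ), 0 < (L N (z i)).im) ∧
      (nn N < x → ∀ᶠ i in (u : Filter ℂ), (L N (z i)).im < 0)) ∨
    (∃ x : ℝ, p = x ∧ 1 < x ∧
      Tendsto (fun i => L N (z i)) u (𝓝 ((ell N x : ℂ) - Real.pi * I))) ∨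
    (∃ x : ℝ, p = x ∧ x < 0 ∧
      Tendsto (fun i => L N (z i)) u (𝓝 ((ell N x : ℂ) + N * Real.pi * I))) := by
  rcases hp.lt_or_eq with hpos | hzero
  · left
    exact ⟨hpos, (L_continuousAt hpos).tendsto.comp ht⟩
  right
  have hpx : p = ((p.re : ℝ) : ℂ) := by
    apply Complex.ext <;> simp [← hzero]
  have ht' : Tendsto z u (𝓝[UH] p) := tendsto_nhdsWithin_iff.mpr ⟨ht, hz⟩
  set x := p.re with hx
  rw [hpx] at ht'
  rcases lt_trichotomy x 0 with h | h | h
  · right; right; right; right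
    exact ⟨x, hpx, h, (hS.v3 x h).comp ht'⟩
  · left
    rw [h, Complex.ofReal_zero] at ht'
    exact ⟨by rw [hpx, h, Complex.ofReal_zero], hS.s0'.comp ht', ht'.eventually hS.s0⟩
  · rcases lt_trichotomy x 1 with h1 | h1 | h1
    · right; right; left
      refine ⟨x, hpx, h, h1, (hS.v1 x h h1).comp ht', ?_, ?_⟩
      · intro h2; exact ht'.eventually (hS.s1 x h h2)
      · intro h2; exact ht'.eventually (hS.s2 x h2 h1)
    · right; left
      rw [h1, Complex.ofReal_one] at ht'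
      exact ⟨by rw [hpx, h1, Complex.ofReal_one], hS.s3'.comp ht', ht'.eventually hS.s3⟩
    · right; right; right; left
      exact ⟨x, hpx, h1, (hS.v2 x h1).comp ht'⟩

lemma re_tendsto {l : Filter ℂ} {f : ℂ → ℂ} {w : ℂ} (h : Tendsto f l (𝓝 w)) :
    Tendsto (fun i => (f i).re) l (𝓝 w.re) := (Complex.continuous_re.tendsto w).comp h

lemma re_bdd {l : Filter ℂ} {f : ℂ → ℂ} {w : ℂ} (h : Tendsto f l (𝓝 w)) :
    ∀ᶠ i in l, (f i).re ≤ w.re + 1 := by
  have := (re_tendsto h).eventually (gt_mem_nhds (show w.re < w.re + 1 by linarith))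
  filter_upwards [this] with i hi
  exact le_of_lt hi

lemma no_bot {u : Ultrafilter ℂ} {f : ℂ → ℂ} {w : ℂ} (h : Tendsto f u (𝓝 w))
    (hb : Tendsto (fun i => (f i).re) u atBot) : False :=
  not_tendsto_nhds_of_tendsto_atBot hb _ (re_tendsto h)

theorem bdyB (h1a : Leaf1a) (h1c : Leaf1c) {N : ℝ} (hN : 1 < N) : BdyB N := by
  obtain ⟨hinj, hmaps, -⟩ := h1a N hN
  have hS := h1c N hN
  have hn0 := nn_pos hN
  have hn1 := nn_lt_one hN
  have hpi := Real.pi_pos
  have hNpi : 0 < N * Real.pi := by positivity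
  refine ⟨?_, ?_, ?_, ?_, ?_, ?_⟩
  · -- b1
    intro l z z0 hz hz0 hL
    have him : 0 < z0.im := hz0
    have h1 : z0 ∈ slitPlane := by
      rw [Complex.mem_slitPlane_iff]; right; exact him.ne'
    have h2 : 1 - z0 ∈ slitPlane := by
      rw [Complex.mem_slitPlane_iff]; right
      simp only [Complex.sub_im, Complex.one_im, zero_sub, ne_eq, neg_eq_zero]; exact him.ne'
    have hd : HasStrictDerivAt (L N) ((N : ℂ) * z0⁻¹ + -1 / (1 - z0)) z0 := by
      have a := (Complex.hasStrictDerivAt_log h1).const_mul (N : ℂ)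
      have b := ((hasStrictDerivAt_id z0).const_sub (1 : ℂ)).clog h2
      exact a.add b
    have hne : (N : ℂ) * z0⁻¹ + -1 / (1 - z0) ≠ 0 := by
      intro h0
      have hz00 : z0 ≠ 0 := by
        intro h; rw [h] at him; simp at him
      have hz01 : 1 - z0 ≠ 0 := by
        intro h
        have : z0 = 1 := by linear_combination -h
        rw [this] at him; simp at him
      have h3 : (N : ℂ) * (1 - z0) - z0 = 0 := by
        field_simp at h0
        linear_combination h0
      have h4 := congrArg Complex.im h3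
      simp only [Complex.sub_im, Complex.mul_im, Complex.ofReal_re, Complex.ofReal_im,
        Complex.one_im, Complex.sub_re, Complex.zero_im, zero_sub, zero_mul, add_zero] at h4
      nlinarith
    have hmap := hd.map_nhds_eq hne
    intro s hs
    have hopen : IsOpen UH := isOpen_lt continuous_const Complex.continuous_im
    have hs' : s ∩ UH ∈ 𝓝 z0 := inter_mem hs (hopen.mem_nhds hz0)
    have himg : (L N) '' (s ∩ UH) ∈ 𝓝 (L N z0) := by
      rw [← hmap]; exact image_mem_map hs'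
    have hev : ∀ᶠ i in l, L N (z i) ∈ (L N) '' (s ∩ UH) := hL himg
    have : ∀ᶠ i in l, z i ∈ s := by
      filter_upwards [hev, hz] with i hi hzi
      obtain ⟨z', hz', he⟩ := hi
      have := hinj hz'.2 hzi he
      rw [← this]; exact hz'.1
    exact this
  · -- b2
    intro l z w hl hz hw hL
    obtain ⟨r, hr1, hr2⟩ := ell_surj_right hN w.re
    refine ⟨r, hr1, hr2, ?_⟩
    refine master hN hz (re_bdd hL) ?_
    intro u hu p hp ht
    have hz' : ∀ᶠ i in (u : Filter ℂ), z i ∈ UH := hz.filter_mono hu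
    have hL' : Tendsto (fun i => L N (z i)) u (𝓝 w) := hL.mono_left hu
    rcases classify hS hz' hp ht with ⟨hp', h⟩ | ⟨-, h, -⟩ | ⟨-, h, -⟩ | ⟨x, -, -, -, h, -⟩ |
      ⟨x, hpx, hx, h⟩ | ⟨x, -, -, h⟩
    · exfalso
      have := tendsto_nhds_unique h hL'
      have h2 := (hmaps p hp').1
      rw [this, hw] at h2
      exact lt_irrefl _ h2
    · exact (no_bot hL' h).elim
    · exact (no_bot hL' h).elim
    · exfalso
      have := congrArg Complex.im (tendsto_nhds_unique h hL')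
      rw [hw] at this
      simp only [Complex.ofReal_im] at this
      linarith
    · have := congrArg Complex.re (tendsto_nhds_unique h hL')
      simp only [Complex.sub_re, Complex.ofReal_re, Complex.mul_re, Complex.I_re, mul_zero,
        Complex.ofReal_im, Complex.I_im, mul_one, sub_self, sub_zero] at this
      have hxr : x = r := (ell_mono_right hN).injOn hx hr1 (by rw [this, hr2])
      rw [hpx, hxr]
    · exfalso
      have := congrArg Complex.im (tendsto_nhds_unique h hL')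
      rw [hw] at this
      simp only [Complex.add_im, Complex.ofReal_im, Complex.mul_im, Complex.mul_re,
        Complex.ofReal_re, Complex.I_im, Complex.I_re, mul_zero, mul_one, zero_mul, add_zero,
        zero_add, sub_zero] at this
      linarith
  · -- b3
    intro l z r hz hr0 hr1 him hL
    refine master hN hz (re_bdd hL) ?_
    intro u hu p hp ht
    have hz' : ∀ᶠ i in (u : Filter ℂ), z i ∈ UH := hz.filter_mono hu
    have him' : ∀ᶠ i in (u : Filter ℂ), (L N (z i)).im < 0 := him.filter_mono hu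
    have hL' : Tendsto (fun i => L N (z i)) u (𝓝 (ell N r : ℂ)) := hL.mono_left hu
    have hlt : ell N r < ell N (nn N) :=
      ell_anti_mid hN ⟨le_refl _, hn1⟩ ⟨hr0.le, hr1⟩ hr0
    rcases classify hS hz' hp ht with ⟨hp', h⟩ | ⟨-, h, -⟩ | ⟨-, h, -⟩ |
      ⟨x, hpx, hx0, hx1, h, hs1, -⟩ | ⟨x, -, -, h⟩ | ⟨x, -, -, h⟩
    · exfalso
      have he := tendsto_nhds_unique h hL'
      have h2 := (hmaps p hp').2.2
      rw [he, Complex.ofReal_im, Complex.ofReal_re] at h2
      exact absurd (h2 rfl) (not_lt.mpr hlt.le)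
    · exact (no_bot hL' h).elim
    · exact (no_bot hL' h).elim
    · have he : ell N x = ell N r := by
        have := tendsto_nhds_unique h hL'
        exact_mod_cast this
      rcases lt_trichotomy x (nn N) with hx | hx | hx
      · exfalso
        obtain ⟨i, hi1, hi2⟩ := ((hs1 hx).and him').exists
        linarith
      · exfalso
        rw [hx] at he
        linarith
      · have : x = r := (ell_anti_mid hN).injOn ⟨hx.le, hx1⟩ ⟨hr0.le, hr1⟩ he
        rw [hpx, this]
    · exfalso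
      have := congrArg Complex.im (tendsto_nhds_unique h hL')
      simp only [Complex.sub_im, Complex.ofReal_im, Complex.mul_im, Complex.ofReal_re,
        Complex.I_im, Complex.I_re, mul_zero, mul_one, add_zero, zero_sub] at this
      linarith
    · exfalso
      have := congrArg Complex.im (tendsto_nhds_unique h hL')
      simp only [Complex.add_im, Complex.ofReal_im, Complex.mul_im, Complex.mul_re,
        Complex.ofReal_re, Complex.I_im, Complex.I_re, mul_zero, mul_one, zero_mul, add_zero,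
        zero_add, sub_zero] at this
      linarith
  · -- b4
    intro l z r hz hr0 hr1 him hL
    refine master hN hz (re_bdd hL) ?_
    intro u hu p hp ht
    have hz' : ∀ᶠ i in (u : Filter ℂ), z i ∈ UH := hz.filter_mono hu
    have him' : ∀ᶠ i in (u : Filter ℂ), 0 < (L N (z i)).im := him.filter_mono hu
    have hL' : Tendsto (fun i => L N (z i)) u (𝓝 (ell N r : ℂ)) := hL.mono_left hu
    have hlt : ell N r < ell N (nn N) :=
      ell_mono_left hN ⟨hr0, hr1.le⟩ ⟨hn0, le_refl _⟩ hr1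
    rcases classify hS hz' hp ht with ⟨hp', h⟩ | ⟨-, h, -⟩ | ⟨-, h, -⟩ |
      ⟨x, hpx, hx0, hx1, h, -, hs2⟩ | ⟨x, -, -, h⟩ | ⟨x, -, -, h⟩
    · exfalso
      have he := tendsto_nhds_unique h hL'
      have h2 := (hmaps p hp').2.2
      rw [he, Complex.ofReal_im, Complex.ofReal_re] at h2
      exact absurd (h2 rfl) (not_lt.mpr hlt.le)
    · exact (no_bot hL' h).elim
    · exact (no_bot hL' h).elim
    · have he : ell N x = ell N r := by
        have := tendsto_nhds_unique h hL'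
        exact_mod_cast this
      rcases lt_trichotomy x (nn N) with hx | hx | hx
      · have : x = r := (ell_mono_left hN).injOn ⟨hx0, hx.le⟩ ⟨hr0, hr1.le⟩ he
        rw [hpx, this]
      · exfalso
        rw [hx] at he
        linarith
      · exfalso
        obtain ⟨i, hi1, hi2⟩ := ((hs2 hx).and him').exists
        linarith
    · exfalso
      have := congrArg Complex.im (tendsto_nhds_unique h hL')
      simp only [Complex.sub_im, Complex.ofReal_im, Complex.mul_im, Complex.ofReal_re,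
        Complex.I_im, Complex.I_re, mul_zero, mul_one, add_zero, zero_sub] at this
      linarith
    · exfalso
      have := congrArg Complex.im (tendsto_nhds_unique h hL')
      simp only [Complex.add_im, Complex.ofReal_im, Complex.mul_im, Complex.mul_re,
        Complex.ofReal_re, Complex.I_im, Complex.I_re, mul_zero, mul_one, zero_mul, add_zero,
        zero_add, sub_zero] at this
      linarith
  · -- b5
    intro l z hz him hre
    refine master hN hz (hre.eventually (eventually_le_atBot 0)) ?_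
    intro u hu p hp ht
    have hz' : ∀ᶠ i in (u : Filter ℂ), z i ∈ UH := hz.filter_mono hu
    have him' : ∀ᶠ i in (u : Filter ℂ), 0 < (L N (z i)).im := him.filter_mono hu
    have hre' : Tendsto (fun i => (L N (z i)).re) u atBot := hre.mono_left hu
    rcases classify hS hz' hp ht with ⟨-, h⟩ | ⟨h, -, -⟩ | ⟨-, -, h⟩ |
      ⟨x, -, -, -, h, -⟩ | ⟨x, -, -, h⟩ | ⟨x, -, -, h⟩
    · exact (no_bot h hre').elim
    · exact h
    · exfalso
      obtain ⟨i, hi1, hi2⟩ := (h.and him').exists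
      linarith
    · exact (no_bot h hre').elim
    · exact (no_bot h hre').elim
    · exact (no_bot h hre').elim
  · -- b6
    intro l z hz him hre
    refine master hN hz (hre.eventually (eventually_le_atBot 0)) ?_
    intro u hu p hp ht
    have hz' : ∀ᶠ i in (u : Filter ℂ), z i ∈ UH := hz.filter_mono hu
    have him' : ∀ᶠ i in (u : Filter ℂ), (L N (z i)).im < 0 := him.filter_mono hu
    have hre' : Tendsto (fun i => (L N (z i)).re) u atBot := hre.mono_left hu
    rcases classify hS hz' hp ht with ⟨-, h⟩ | ⟨-, -, h⟩ | ⟨h, -, -⟩ |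
      ⟨x, -, -, -, h, -⟩ | ⟨x, -, -, h⟩ | ⟨x, -, -, h⟩
    · exact (no_bot h hre').elim
    · exfalso
      obtain ⟨i, hi1, hi2⟩ := (h.and him').exists
      linarith
    · exact h
    · exact (no_bot h hre').elim
    · exact (no_bot h hre').elim
    · exact (no_bot h hre').elim

/-- **H4-1b**. -/
theorem leaf1b (h1a : Leaf1a) (h1c : Leaf1c) : Leaf1b := fun _ hN => bdyB h1a h1c hN

end Crest.Agent.R102.H4L1b203
end
end

-- ▼ part R102/H4L1c_406
section

/-!
# Row 102, [H4], leaf 1c (helper406): signs and limits of `L` near real points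
-/

open Complex Set Filter Topology

noncomputable section

namespace Crest.Agent.R102.H4

theorem L_im (N : ℝ) (z : ℂ) : (L N z).im = N * arg z + arg (1 - z) := by
  unfold L
  rw [add_im, im_ofReal_mul, log_im, log_im]

theorem L_re (N : ℝ) (z : ℂ) : (L N z).re = N * Real.log ‖z‖ + Real.log ‖1 - z‖ := by
  unfold L
  rw [add_re, re_ofReal_mul, log_re, log_re]

theorem arg_lb {z : ℂ} (h : 0 < z.im) : z.im / ‖z‖ ≤ arg z := by
  rw [← Complex.sin_arg]
  exact Real.sin_le (arg_nonneg_iff.2 h.le)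

theorem arg_ub {z : ℂ} (h : 0 < z.im) (h' : 0 < z.re) : arg z ≤ z.im / z.re := by
  rw [← Complex.tan_arg]
  refine Real.le_tan (arg_nonneg_iff.2 h.le) ?_
  have := abs_arg_lt_pi_div_two_iff.2 (Or.inl h')
  exact (abs_lt.1 this).2

theorem arg_eq_neg {w : ℂ} (h : w.im < 0) : arg w = -arg ((starRingEnd ℂ) w) := by
  have h1 : arg w < 0 := arg_neg_iff.2 h
  rw [arg_conj, if_neg (by linarith [Real.pi_pos]), neg_neg]

theorem arg_neg_ub {w : ℂ} (h : w.im < 0) : arg w ≤ w.im / ‖w‖ := by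
  rw [arg_eq_neg h]
  have h1 := arg_lb (z := (starRingEnd ℂ) w) (by simpa using h)
  rw [conj_im, norm_conj, neg_div] at h1
  linarith

theorem arg_neg_lb {w : ℂ} (h : w.im < 0) (h' : 0 < w.re) : w.im / w.re ≤ arg w := by
  rw [arg_eq_neg h]
  have h1 := arg_ub (z := (starRingEnd ℂ) w) (by simpa using h) (by simpa using h')
  rw [conj_im, conj_re, neg_div] at h1
  linarith

/-- lower bound of `Im L` -/
theorem im_lb {N : ℝ} (hN : 0 < N) {z : ℂ} (h : z ∈ UH) (h' : z.re < 1) :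
    z.im * (N / ‖z‖ - 1 / (1 - z.re)) ≤ (L N z).im := by
  have h0 : 0 < z.im := h
  rw [L_im]
  have h1 := mul_le_mul_of_nonneg_left (arg_lb h0) hN.le
  have h2 := arg_neg_lb (w := 1 - z) (by simpa using h0) (by simpa using h')
  simp only [sub_im, one_im, zero_sub, sub_re, one_re] at h2
  have e : z.im * (N / ‖z‖ - 1 / (1 - z.re)) = N * (z.im / ‖z‖) + -z.im / (1 - z.re) := by ring
  rw [e]
  linarith

/-- upper bound of `Im L` -/
theorem im_ub {N : ℝ} (hN : 0 < N) {z : ℂ} (h : z ∈ UH) (h' : 0 < z.re) :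
    (L N z).im ≤ z.im * (N / z.re - 1 / ‖1 - z‖) := by
  have h0 : 0 < z.im := h
  rw [L_im]
  have h1 := mul_le_mul_of_nonneg_left (arg_ub h0 h') hN.le
  have h2 := arg_neg_ub (w := 1 - z) (by simpa using h0)
  simp only [sub_im, one_im, zero_sub] at h2
  have e : z.im * (N / z.re - 1 / ‖1 - z‖) = N * (z.im / z.re) + -z.im / ‖1 - z‖ := by ring
  rw [e]
  linarith

theorem nn_pos {N : ℝ} (hN : 1 < N) : 0 < nn N := div_pos (by linarith) (by linarith)

theorem nn_lt_one {N : ℝ} (hN : 1 < N) : nn N < 1 := by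
  unfold nn
  rw [div_lt_one (by linarith)]
  linarith

theorem mem_UH_of {x : ℂ} : ∀ᶠ z in 𝓝[UH] x, z ∈ UH := self_mem_nhdsWithin

theorem ev_within {x : ℂ} {p : ℂ → Prop} (h : ∀ᶠ z in 𝓝 x, p z) : ∀ᶠ z in 𝓝[UH] x, p z :=
  nhdsWithin_le_nhds h

theorem ofReal_mem_slit {x : ℝ} (h : 0 < x) : (x : ℂ) ∈ slitPlane := ofReal_mem_slitPlane.2 h

theorem L_ofReal {N x : ℝ} (h0 : 0 < x) (h1 : x < 1) : L N (x : ℂ) = (ell N x : ℂ) := by
  have h2 : (1 - (x : ℂ)) = ((1 - x : ℝ) : ℂ) := by push_cast; rfl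
  have h3 : (0 : ℝ) ≤ 1 - x := by linarith
  unfold L ell
  rw [h2, ← ofReal_log h3, ← ofReal_log h0.le, ofReal_add, ofReal_mul]

theorem leaf1c : Leaf1c := by
  intro N hN
  have hN0 : 0 < N := by linarith
  refine ⟨?_, ?_, ?_, ?_, ?_, ?_, ?_, ?_, ?_, ?_⟩
  · -- conjugation
    intro z hz
    have h0 : 0 < z.im := hz
    unfold L
    have e1 : log ((starRingEnd ℂ) z) = (starRingEnd ℂ) (log z) := by
      refine log_conj z fun h => ?_
      have := (arg_eq_pi_iff.1 h).2
      linarith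
    have e2 : log (1 - (starRingEnd ℂ) z) = (starRingEnd ℂ) (log (1 - z)) := by
      have : 1 - (starRingEnd ℂ) z = (starRingEnd ℂ) (1 - z) := by simp
      rw [this]
      refine log_conj _ fun h => ?_
      have := (arg_eq_pi_iff.1 h).2
      simp at this
      linarith
    rw [e1, e2, map_add, map_mul, conj_ofReal]
  · -- s0
    have h1 : ∀ᶠ z : ℂ in 𝓝 (0 : ℂ), ‖z‖ < 1 / 2 := by
      have : ContinuousAt (fun z : ℂ => ‖z‖) 0 := continuous_norm.continuousAt
      exact this.eventually_lt continuousAt_const (by simp)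
    filter_upwards [mem_UH_of, ev_within h1] with z hz h2
    have h0 : 0 < z.im := hz
    have hz0 : 0 < ‖z‖ := norm_pos_iff.2 fun h => by rw [h] at h0; simp at h0
    have h3 : z.re < 1 / 2 := (re_le_norm z).trans_lt h2
    refine lt_of_lt_of_le (mul_pos h0 ?_) (im_lb hN0 hz (by linarith))
    have a1 : 2 < N / ‖z‖ := by
      rw [lt_div_iff₀ hz0]
      nlinarith
    have a2 : 1 / (1 - z.re) < 2 := by
      rw [div_lt_iff₀ (by linarith)]
      linarith
    linarith
  · -- s0'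
    have h1 : Tendsto (fun z : ℂ => Real.log ‖z‖) (𝓝[UH] (0 : ℂ)) atBot := by
      refine Real.tendsto_log_nhdsGT_zero.comp ?_
      refine tendsto_nhdsWithin_iff.2 ⟨?_, ?_⟩
      · have : Tendsto (fun z : ℂ => ‖z‖) (𝓝 0) (𝓝 0) := by
          simpa using (continuous_norm (E := ℂ)).tendsto 0
        exact this.mono_left nhdsWithin_le_nhds
      · filter_upwards [mem_UH_of] with z hz
        have h0 : 0 < z.im := hz
        exact norm_pos_iff.2 fun h => by rw [h] at h0; simp at h0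
    have h2 : Tendsto (fun z : ℂ => Real.log ‖1 - z‖) (𝓝[UH] (0 : ℂ)) (𝓝 0) := by
      have : ContinuousAt (fun z : ℂ => Real.log ‖1 - z‖) 0 := by
        refine ContinuousAt.log ?_ (by simp)
        fun_prop
      have h3 := this.tendsto
      simp only [sub_zero, norm_one, Real.log_one] at h3
      exact h3.mono_left nhdsWithin_le_nhds
    have h3 := (h1.const_mul_atBot hN0).atBot_add h2
    refine h3.congr fun z => ?_
    rw [L_re]
  · -- s1
    intro x hx hx'
    have hx1 : x < 1 := hx'.trans (nn_lt_one hN)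
    have h0 : 0 < N / x - 1 / (1 - x) := by
      unfold nn at hx'
      rw [lt_div_iff₀ (by linarith)] at hx'
      rw [sub_pos, div_lt_div_iff₀ (by linarith) hx]
      nlinarith
    have h1 : ContinuousAt (fun z : ℂ => N / ‖z‖ - 1 / (1 - z.re)) (x : ℂ) := by
      refine ContinuousAt.sub ?_ ?_
      · refine continuousAt_const.div continuous_norm.continuousAt ?_
        simpa using hx.ne'
      · refine continuousAt_const.div (by fun_prop) ?_
        simp only [ofReal_re]
        linarith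
    have h2 : ∀ᶠ z : ℂ in 𝓝 (x : ℂ), 0 < N / ‖z‖ - 1 / (1 - z.re) := by
      refine continuousAt_const.eventually_lt h1 ?_
      simpa [abs_of_pos hx] using h0
    have h3 : ∀ᶠ z : ℂ in 𝓝 (x : ℂ), z.re < 1 :=
      continuous_re.continuousAt.eventually_lt continuousAt_const (by simpa using hx1)
    filter_upwards [mem_UH_of, ev_within h2, ev_within h3] with z hz h4 h5
    exact lt_of_lt_of_le (mul_pos hz h4) (im_lb hN0 hz h5)
  · -- s2
    intro x hx hx1
    have hx0 : 0 < x := (nn_pos hN).trans hx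
    have h0 : N / x - 1 / (1 - x) < 0 := by
      unfold nn at hx
      rw [div_lt_iff₀ (by linarith)] at hx
      rw [sub_neg, div_lt_div_iff₀ hx0 (by linarith)]
      nlinarith
    have h1 : ContinuousAt (fun z : ℂ => N / z.re - 1 / ‖1 - z‖) (x : ℂ) := by
      refine ContinuousAt.sub ?_ ?_
      · refine continuousAt_const.div continuous_re.continuousAt ?_
        simpa using hx0.ne'
      · refine continuousAt_const.div (by fun_prop) ?_
        rw [norm_ne_zero_iff]
        intro h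
        have := congrArg Complex.re h
        simp at this
        linarith
    have hn : ‖(1 : ℂ) - (x : ℂ)‖ = 1 - x := by
      have : (1 : ℂ) - (x : ℂ) = ((1 - x : ℝ) : ℂ) := by push_cast; rfl
      rw [this, norm_real, Real.norm_eq_abs, abs_of_pos (by linarith)]
    have h2 : ∀ᶠ z : ℂ in 𝓝 (x : ℂ), N / z.re - 1 / ‖1 - z‖ < 0 := by
      refine h1.eventually_lt continuousAt_const ?_
      rw [hn]
      simpa using h0
    have h3 : ∀ᶠ z : ℂ in 𝓝 (x : ℂ), 0 < z.re :=
      continuousAt_const.eventually_lt continuous_re.continuousAt (by simpa using hx0)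
    filter_upwards [mem_UH_of, ev_within h2, ev_within h3] with z hz h4 h5
    exact lt_of_le_of_lt (im_ub hN0 hz h5) (mul_neg_of_pos_of_neg hz h4)
  · -- s3
    have h1 : ∀ᶠ z : ℂ in 𝓝 (1 : ℂ), ‖1 - z‖ < 1 / (2 * N) := by
      have : ContinuousAt (fun z : ℂ => ‖1 - z‖) 1 := by fun_prop
      exact this.eventually_lt continuousAt_const (by simp; positivity)
    have h2 : ∀ᶠ z : ℂ in 𝓝 (1 : ℂ), 1 / 2 < z.re :=
      continuousAt_const.eventually_lt continuous_re.continuousAt (by norm_num)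
    filter_upwards [mem_UH_of, ev_within h1, ev_within h2] with z hz h3 h4
    have h0 : 0 < z.im := hz
    have hz0 : 0 < ‖1 - z‖ := norm_pos_iff.2 fun h => by
      have := congrArg Complex.im h
      simp at this
      linarith
    refine lt_of_le_of_lt (im_ub hN0 hz (by linarith)) (mul_neg_of_pos_of_neg h0 ?_)
    have a1 : N / z.re < 2 * N := by
      rw [div_lt_iff₀ (by linarith)]
      nlinarith
    have a2 : 2 * N < 1 / ‖1 - z‖ := by
      rw [lt_div_iff₀ hz0]
      rw [lt_div_iff₀ (by positivity)] at h3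
      linarith
    linarith
  · -- s3'
    have h1 : Tendsto (fun z : ℂ => Real.log ‖1 - z‖) (𝓝[UH] (1 : ℂ)) atBot := by
      refine Real.tendsto_log_nhdsGT_zero.comp ?_
      refine tendsto_nhdsWithin_iff.2 ⟨?_, ?_⟩
      · have : Tendsto (fun z : ℂ => ‖1 - z‖) (𝓝 1) (𝓝 0) := by
          have h : Continuous fun z : ℂ => ‖1 - z‖ := by fun_prop
          have h' := h.tendsto 1
          simp only [sub_self, norm_zero] at h'
          exact h'
        exact this.mono_left nhdsWithin_le_nhds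
      · filter_upwards [mem_UH_of] with z hz
        have h0 : 0 < z.im := hz
        exact norm_pos_iff.2 fun h => by
          have := congrArg Complex.im h
          simp at this
          linarith
    have h2 : Tendsto (fun z : ℂ => N * Real.log ‖z‖) (𝓝[UH] (1 : ℂ)) (𝓝 0) := by
      have : ContinuousAt (fun z : ℂ => N * Real.log ‖z‖) 1 := by
        refine continuousAt_const.mul (ContinuousAt.log ?_ (by simp))
        fun_prop
      have h3 := this.tendsto
      simp only [norm_one, Real.log_one, mul_zero] at h3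
      exact h3.mono_left nhdsWithin_le_nhds
    have h3 := h2.add_atBot h1
    refine h3.congr fun z => ?_
    rw [L_re]
  · -- v1
    intro x hx hx1
    rw [← L_ofReal hx hx1]
    have : ContinuousAt (L N) (x : ℂ) := by
      unfold L
      refine (continuousAt_const.mul (continuousAt_clog (ofReal_mem_slit hx))).add ?_
      refine ContinuousAt.clog (by fun_prop) ?_
      have : (1 : ℂ) - (x : ℂ) = ((1 - x : ℝ) : ℂ) := by push_cast; rfl
      rw [this]
      exact ofReal_mem_slit (by linarith)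
    exact this.tendsto.mono_left nhdsWithin_le_nhds
  · -- v2
    intro x hx
    have h1 : Tendsto (fun z : ℂ => (N : ℂ) * log z) (𝓝[UH] (x : ℂ)) (𝓝 ((N : ℂ) * log x)) :=
      (continuousAt_const.mul (continuousAt_clog (ofReal_mem_slit (by linarith)))).tendsto.mono_left
        nhdsWithin_le_nhds
    have h2 : Tendsto (fun z : ℂ => 1 - z) (𝓝[UH] (x : ℂ)) (𝓝[{z : ℂ | z.im < 0}] (1 - x)) := by
      refine tendsto_nhdsWithin_iff.2 ⟨?_, ?_⟩
      · exact (continuous_const.sub continuous_id : Continuous fun z : ℂ => 1 - z).continuousAt.mono_left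
          nhdsWithin_le_nhds
      · filter_upwards [mem_UH_of] with z hz
        have h0 : 0 < z.im := hz
        simpa using h0
    have h3 := (tendsto_log_nhdsWithin_im_neg_of_re_neg_of_im_zero (z := 1 - (x : ℂ))
      (by simp; linarith) (by simp)).comp h2
    have h4 := h1.add h3
    have e : (N : ℂ) * log x + ((Real.log ‖(1 : ℂ) - x‖ : ℝ) - Real.pi * I) =
        (ell N x : ℂ) - Real.pi * I := by
      unfold ell
      have h5 : (1 : ℂ) - (x : ℂ) = ((1 - x : ℝ) : ℂ) := by push_cast; rfl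
      have h6 : (0 : ℝ) ≤ x := by linarith
      rw [h5, norm_real, Real.norm_eq_abs, Real.log_abs, ← ofReal_log h6, ofReal_add, ofReal_mul]
      ring
    rw [← e]
    exact h4
  · -- v3
    intro x hx
    have h1 : Tendsto (fun z : ℂ => log (1 - z)) (𝓝[UH] (x : ℂ)) (𝓝 (log (1 - x))) := by
      have : ContinuousAt (fun z : ℂ => log (1 - z)) (x : ℂ) := by
        refine ContinuousAt.clog (by fun_prop) ?_
        have : (1 : ℂ) - (x : ℂ) = ((1 - x : ℝ) : ℂ) := by push_cast; rfl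
        rw [this]
        exact ofReal_mem_slit (by linarith)
      exact this.tendsto.mono_left nhdsWithin_le_nhds
    have h2 : Tendsto log (𝓝[UH] (x : ℂ)) (𝓝 (log x)) := by
      have h3 := continuousWithinAt_log_of_re_neg_of_im_zero (z := (x : ℂ)) (by simpa using hx)
        (by simp)
      refine h3.mono ?_
      intro z hz
      have h0 : 0 < z.im := hz
      exact h0.le
    have h4 := (h2.const_mul (N : ℂ)).add h1
    have e : (N : ℂ) * log x + log (1 - x) = (ell N x : ℂ) + N * Real.pi * I := by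
      unfold ell
      have e1 : (1 : ℂ) - (x : ℂ) = ((1 - x : ℝ) : ℂ) := by push_cast; rfl
      have e2 : log (x : ℂ) = (Real.log x : ℂ) + Real.pi * I := by
        apply Complex.ext
        · rw [log_re, norm_real, Real.norm_eq_abs, Real.log_abs]
          simp
        · rw [log_im, arg_ofReal_of_neg hx]
          simp
      have h6 : (0 : ℝ) ≤ 1 - x := by linarith
      rw [e1, ← ofReal_log h6, e2, ofReal_add, ofReal_mul]
      ring
    rw [← e]
    exact h4

end Crest.Agent.R102.H4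
end
end

-- ▼ part R102/H4L1a_963
section

/-!
# Row 102, [H4], leaf H4-1a (helper963): `L` is univalent on `UH`, onto the slit strip.
-/

open Complex Set Filter Topology

noncomputable section

namespace Crest.Agent.R102.H4L1a963

open Crest.Agent.R102.H4

variable {N : ℝ}

lemma isOpen_UH : IsOpen UH := isOpen_lt continuous_const Complex.continuous_im

lemma convex_UH : Convex ℝ UH := convex_halfSpace_im_gt 0

lemma mem_slit {z : ℂ} (hz : z ∈ UH) : z ∈ slitPlane := by
  have h : 0 < z.im := hz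
  rw [Complex.mem_slitPlane_iff]; right; exact h.ne'

lemma mem_slit' {z : ℂ} (hz : z ∈ UH) : 1 - z ∈ slitPlane := by
  have h : 0 < z.im := hz
  rw [Complex.mem_slitPlane_iff]; right
  simp only [Complex.sub_im, Complex.one_im, zero_sub, ne_eq, neg_eq_zero]; exact h.ne'

lemma ne_zero' {z : ℂ} (hz : z ∈ UH) : z ≠ 0 := Complex.slitPlane_ne_zero (mem_slit hz)

lemma ne_one' {z : ℂ} (hz : z ∈ UH) : 1 - z ≠ 0 := Complex.slitPlane_ne_zero (mem_slit' hz)

lemma hasDerivAt_L {z : ℂ} (hz : z ∈ UH) :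
    HasDerivAt (L N) ((N : ℂ) * z⁻¹ + -1 / (1 - z)) z := by
  have a := (Complex.hasStrictDerivAt_log (mem_slit hz)).const_mul (N : ℂ)
  have b := ((hasStrictDerivAt_id z).const_sub (1 : ℂ)).clog (mem_slit' hz)
  exact (a.add b).hasDerivAt

lemma im_deriv_neg (hN : 1 < N) {z : ℂ} (hz : z ∈ UH) :
    ((N : ℂ) * z⁻¹ + -1 / (1 - z)).im < 0 := by
  have h : 0 < z.im := hz
  have h1 : 0 < Complex.normSq z := Complex.normSq_pos.mpr (ne_zero' hz)
  have h2 : 0 < Complex.normSq (1 - z) := Complex.normSq_pos.mpr (ne_one' hz)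
  have e1 : ((N : ℂ) * z⁻¹).im = -(N * (z.im / Complex.normSq z)) := by
    rw [Complex.im_ofReal_mul, Complex.inv_im]; ring
  have e2 : (-1 / (1 - z)).im = -(z.im / Complex.normSq (1 - z)) := by
    rw [neg_div, Complex.neg_im, one_div, Complex.inv_im]
    simp only [Complex.sub_im, Complex.one_im, zero_sub, neg_neg]
  rw [Complex.add_im, e1, e2]
  have p1 : 0 < z.im / Complex.normSq z := div_pos h h1
  have p2 : 0 < z.im / Complex.normSq (1 - z) := div_pos h h2
  have : 0 < N * (z.im / Complex.normSq z) := mul_pos (by linarith) p1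
  linarith

lemma injOn (hN : 1 < N) : InjOn (L N) UH := by
  intro a ha b hb hab
  by_contra hne
  have hd : b - a ≠ 0 := sub_ne_zero.mpr (Ne.symm hne)
  have hseg : ∀ t ∈ Icc (0 : ℝ) 1, a + (t : ℂ) * (b - a) ∈ UH := by
    intro t ht
    have := convex_UH.add_smul_sub_mem ha hb ht
    simpa [Complex.real_smul] using this
  have hder : ∀ t ∈ Icc (0 : ℝ) 1,
      HasDerivAt (fun t : ℝ => ((L N (a + (t : ℂ) * (b - a))) / (b - a)).im)
        ((N : ℂ) * (a + (t : ℂ) * (b - a))⁻¹ + -1 / (1 - (a + (t : ℂ) * (b - a)))).im t := by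
    intro t ht
    have hγ : HasDerivAt (fun t : ℝ => a + (t : ℂ) * (b - a)) (b - a) t := by
      have := ((Complex.ofRealCLM.hasDerivAt (x := t)).mul_const (b - a)).const_add a
      simpa using this
    have h1 := (hasDerivAt_L (N := N) (hseg t ht)).scomp t hγ
    have h2 := h1.div_const (b - a)
    have h3 := Complex.imCLM.hasFDerivAt.comp_hasDerivAt t h2
    refine (h3.congr_deriv ?_)
    rw [Complex.imCLM_apply, smul_eq_mul, mul_div_cancel_left₀ _ hd]
  have hcont : ContinuousOn (fun t : ℝ => ((L N (a + (t : ℂ) * (b - a))) / (b - a)).im)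
      (Icc 0 1) := fun t ht => (hder t ht).continuousAt.continuousWithinAt
  have hend : (fun t : ℝ => ((L N (a + (t : ℂ) * (b - a))) / (b - a)).im) 0
      = (fun t : ℝ => ((L N (a + (t : ℂ) * (b - a))) / (b - a)).im) 1 := by
    simp only [Complex.ofReal_zero, zero_mul, add_zero, Complex.ofReal_one, one_mul,
      add_sub_cancel]
    rw [hab]
  obtain ⟨c, hc, hc0⟩ := exists_hasDerivAt_eq_zero one_pos hcont hend
    (fun t ht => hder t (Ioo_subset_Icc_self ht))
  have := im_deriv_neg hN (hseg c (Ioo_subset_Icc_self hc))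
  linarith

lemma arg_bounds {z : ℂ} (hz : z ∈ UH) :
    0 < arg z ∧ arg z < Real.pi ∧ -Real.pi < arg (1 - z) ∧ arg (1 - z) < 0 := by
  have h : 0 < z.im := hz
  refine ⟨?_, ?_, neg_pi_lt_arg _, ?_⟩
  · refine lt_of_le_of_ne (Complex.arg_nonneg_iff.mpr h.le) ?_
    intro h0
    have := (Complex.arg_eq_zero_iff.mp h0.symm).2
    exact h.ne' this
  · exact Complex.arg_lt_pi_iff.mpr (Or.inr h.ne')
  · rw [Complex.arg_neg_iff]
    simp only [Complex.sub_im, Complex.one_im, zero_sub]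
    linarith

/-- strict concavity of `sin` -/
lemma sin_conc {S t : ℝ} (hS0 : 0 < S) (hS1 : S < Real.pi) (ht0 : 0 < t) (ht1 : t < 1) :
    t * Real.sin S < Real.sin (t * S) := by
  have h := strictConcaveOn_sin_Icc.2
    (⟨le_refl _, Real.pi_pos.le⟩ : (0 : ℝ) ∈ Icc 0 Real.pi)
    (⟨hS0.le, hS1.le⟩ : S ∈ Icc 0 Real.pi) hS0.ne (show (0 : ℝ) < 1 - t by linarith) ht0
    (by ring)
  simpa using h

lemma slit (hN : 1 < N) {z : ℂ} (hz : z ∈ UH) (h0 : (L N z).im = 0) :
    nn N < ‖z‖ ∧ 1 - nn N < ‖1 - z‖ := by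
  have h : 0 < z.im := hz
  obtain ⟨ha0, ha1, hb0, hb1⟩ := arg_bounds hz
  rw [L_im] at h0
  set α := arg z with hα
  set β := -arg (1 - z) with hβ
  have hβα : β = N * α := by rw [hβ]; linarith
  have e1 : ‖z‖ * Real.cos α = z.re := Complex.norm_mul_cos_arg z
  have e2 : ‖z‖ * Real.sin α = z.im := Complex.norm_mul_sin_arg z
  have e3 : ‖1 - z‖ * Real.cos β = 1 - z.re := by
    rw [hβ, Real.cos_neg, Complex.norm_mul_cos_arg]; simp
  have e4 : ‖1 - z‖ * Real.sin β = z.im := by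
    rw [hβ, Real.sin_neg, mul_neg, Complex.norm_mul_sin_arg]; simp
  have hβ0 : 0 < β := by rw [hβ]; linarith
  have hβ1 : β < Real.pi := by rw [hβ]; linarith
  have hsα : 0 < Real.sin α := Real.sin_pos_of_pos_of_lt_pi ha0 ha1
  have hsβ : 0 < Real.sin β := Real.sin_pos_of_pos_of_lt_pi hβ0 hβ1
  have hz0 : 0 < ‖z‖ := norm_pos_iff.mpr (ne_zero' hz)
  have hz1 : 0 < ‖1 - z‖ := norm_pos_iff.mpr (ne_one' hz)
  have k1 : ‖z‖ * Real.sin (α + β) = Real.sin β := by
    rw [Real.sin_add]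
    linear_combination Real.cos β * e2 - Real.cos β * e4 + Real.sin β * e1 + Real.sin β * e3
  have k2 : ‖1 - z‖ * Real.sin (α + β) = Real.sin α := by
    rw [Real.sin_add]
    linear_combination Real.sin α * e3 + Real.cos α * e4 - Real.cos α * e2 + Real.sin α * e1
  have hs : 0 < Real.sin (α + β) := by
    by_contra hcon
    rw [not_lt] at hcon
    nlinarith
  have hsum : α + β < Real.pi := by
    by_contra hcon
    rw [not_lt] at hcon
    have : Real.sin (α + β) ≤ 0 := by
      have h1 : Real.sin (α + β) = -Real.sin (α + β - Real.pi) := by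
        rw [Real.sin_sub_pi]; ring
      rw [h1]
      have := Real.sin_nonneg_of_nonneg_of_le_pi (x := α + β - Real.pi) (by linarith)
        (by linarith)
      linarith
    linarith
  have hN1 : 0 < N + 1 := by linarith
  have hSe : α + β = (N + 1) * α := by rw [hβα]; ring
  have c1 := sin_conc (S := α + β) (t := N / (N + 1)) (by linarith) hsum
    (div_pos (by linarith) hN1) (by rw [div_lt_one hN1]; linarith)
  have c2 := sin_conc (S := α + β) (t := 1 / (N + 1)) (by linarith) hsum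
    (div_pos one_pos hN1) (by rw [div_lt_one hN1]; linarith)
  have t1 : N / (N + 1) * (α + β) = β := by
    rw [hSe, hβα]; field_simp
  have t2 : 1 / (N + 1) * (α + β) = α := by
    rw [hSe]; field_simp
  rw [t1, ← k1] at c1
  rw [t2, ← k2] at c2
  have hn : 1 - nn N = 1 / (N + 1) := by
    unfold nn; field_simp; ring
  refine ⟨lt_of_mul_lt_mul_right c1 hs.le, ?_⟩
  rw [hn]
  exact lt_of_mul_lt_mul_right c2 hs.le

lemma maps (hN : 1 < N) {z : ℂ} (hz : z ∈ UH) : L N z ∈ SS N := by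
  obtain ⟨ha0, ha1, hb0, hb1⟩ := arg_bounds hz
  have hNp : 0 < N := by linarith
  refine ⟨?_, ?_, ?_⟩
  · rw [L_im]
    have := mul_pos hNp ha0
    linarith
  · rw [L_im]
    have := mul_lt_mul_of_pos_left ha1 hNp
    linarith
  · intro h0
    obtain ⟨h1, h2⟩ := slit hN hz h0
    have hn0 := H4L1b203.nn_pos hN
    have hn1 := H4L1b203.nn_lt_one hN
    rw [L_re]
    unfold ell
    have l1 : Real.log (nn N) < Real.log ‖z‖ := Real.log_lt_log hn0 h1
    have l2 : Real.log (1 - nn N) < Real.log ‖1 - z‖ := Real.log_lt_log (by linarith) h2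
    have := mul_lt_mul_of_pos_left l1 hNp
    linarith

lemma starSS (hN : 1 < N) : StarConvex ℝ ((ell N (nn N) + 1 : ℝ) : ℂ) (SS N) := by
  intro w hw a b ha hb hab
  obtain ⟨h1, h2, h3⟩ := hw
  have hpi := Real.pi_pos
  have hNpi : 0 < N * Real.pi := by positivity
  have him : (a • ((ell N (nn N) + 1 : ℝ) : ℂ) + b • w).im = b * w.im := by
    simp [Complex.real_smul]
  have hre : (a • ((ell N (nn N) + 1 : ℝ) : ℂ) + b • w).re
      = a * (ell N (nn N) + 1) + b * w.re := by
    simp [Complex.real_smul]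
    ring
  have hb1 : b ≤ 1 := by linarith
  refine ⟨?_, ?_, ?_⟩
  · rw [him]
    rcases hb.lt_or_eq with hb' | hb'
    · nlinarith
    · rw [← hb']; linarith
  · rw [him]
    rcases hb.lt_or_eq with hb' | hb'
    · nlinarith
    · rw [← hb']; linarith
  · rw [him, hre]
    intro h
    rcases mul_eq_zero.mp h with h | h
    · rw [h] at hab ⊢
      have : a = 1 := by linarith
      rw [this]; linarith
    · have h4 := h3 h
      rcases hb.lt_or_eq with hb' | hb'
      · have e : a * ell N (nn N) + b * ell N (nn N) = ell N (nn N) := by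
          rw [← add_mul, hab, one_mul]
        have e2 := mul_lt_mul_of_pos_left h4 hb'
        linarith
      · rw [← hb'] at hab ⊢
        have : a = 1 := by linarith
        rw [this]; linarith

lemma center_mem (hN : 1 < N) : ((ell N (nn N) + 1 : ℝ) : ℂ) ∈ SS N := by
  have hpi := Real.pi_pos
  have hNpi : 0 < N * Real.pi := by positivity
  refine ⟨?_, ?_, ?_⟩
  · rw [Complex.ofReal_im]; linarith
  · rw [Complex.ofReal_im]; exact hNpi
  · intro _; rw [Complex.ofReal_re]; linarith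

lemma preSS (hN : 1 < N) : IsPreconnected (SS N) :=
  ((starSS hN).isPathConnected (center_mem hN)).isConnected.isPreconnected

lemma openImage (hN : 1 < N) : IsOpen (L N '' UH) := by
  have han : AnalyticOnNhd ℂ (L N) UH := by
    apply DifferentiableOn.analyticOnNhd _ isOpen_UH
    intro z hz
    exact (hasDerivAt_L hz).differentiableAt.differentiableWithinAt
  rcases han.is_constant_or_isOpen convex_UH.isPreconnected with ⟨w, hw⟩ | h
  · exfalso
    have h1 : I ∈ UH := by show 0 < I.im; simp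
    have h2 : 2 * I ∈ UH := by show 0 < (2 * I).im; simp
    have := injOn hN h1 h2 ((hw _ h1).trans (hw _ h2).symm)
    have h3 := congrArg Complex.im this
    simp at h3
  · exact h UH subset_rfl isOpen_UH

lemma ell_le (hN : 1 < N) {x : ℝ} (h0 : 0 < x) (h1 : x < 1) : ell N x ≤ ell N (nn N) := by
  have hn0 := H4L1b203.nn_pos hN
  have hn1 := H4L1b203.nn_lt_one hN
  rcases le_or_gt x (nn N) with h | h
  · exact (H4L1b203.ell_mono_left hN).monotoneOn ⟨h0, h⟩ ⟨hn0, le_refl _⟩ h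
  · exact (H4L1b203.ell_anti_mid hN).antitoneOn ⟨le_refl _, hn1⟩ ⟨h.le, h1⟩ h.le

lemma surj (hN : 1 < N) {w : ℂ} (hw : w ∈ SS N) : ∃ z ∈ UH, L N z = w := by
  have hS : BdyS N := leaf1c N hN
  have key : SS N ⊆ L N '' UH := by
    refine (preSS hN).subset_of_closure_inter_subset (openImage hN) ?_ ?_
    · have h1 : I ∈ UH := by show 0 < I.im; simp
      exact ⟨L N I, maps hN h1, ⟨I, h1, rfl⟩⟩
    · rintro w ⟨hwc, hwS⟩
      obtain ⟨u, hu, hle⟩ := mem_closure_iff_ultrafilter.mp hwc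
      classical
      let z : ℂ → ℂ := fun i => if h : i ∈ L N '' UH then h.choose else 0
      have hz1 : ∀ᶠ i in (u : Filter ℂ), z i ∈ UH := by
        filter_upwards [hu] with i hi
        have := hi.choose_spec.1
        simp only [z, dif_pos hi]
        exact this
      have hz2 : ∀ᶠ i in (u : Filter ℂ), L N (z i) = i := by
        filter_upwards [hu] with i hi
        have := hi.choose_spec.2
        simp only [z, dif_pos hi]
        exact this
      have hL : Tendsto (fun i => L N (z i)) u (𝓝 w) := by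
        have h1 : Tendsto (fun i : ℂ => i) u (𝓝 w) := hle
        exact h1.congr' (hz2.mono fun i hi => hi.symm)
      have hK : IsCompact (Metric.closedBall (0 : ℂ) (max 2 (Real.exp (w.re + 1))) ∩
          {p : ℂ | 0 ≤ p.im}) :=
        (isCompact_closedBall _ _).inter_right
          (isClosed_le continuous_const Complex.continuous_im)
      have hmem : ∀ᶠ i in (u : Filter ℂ), z i ∈
          (Metric.closedBall (0 : ℂ) (max 2 (Real.exp (w.re + 1))) ∩ {p : ℂ | 0 ≤ p.im}) := by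
        filter_upwards [hz1, H4L1b203.re_bdd hL] with i h1 h2
        refine ⟨?_, show (0 : ℝ) ≤ (z i).im from le_of_lt h1⟩
        rw [Metric.mem_closedBall, dist_zero_right]
        exact H4L1b203.norm_le_of_re_le hN h2
      obtain ⟨p, hp, hp'⟩ := hK.ultrafilter_le_nhds (u.map z) (by
        rw [Filter.le_principal_iff]
        exact hmem)
      have ht : Tendsto z u (𝓝 p) := hp'
      rcases H4L1b203.classify hS hz1 hp.2 ht with ⟨hp', h⟩ | ⟨-, h, -⟩ | ⟨-, h, -⟩ |
        ⟨x, -, hx0, hx1, h, -⟩ | ⟨x, -, -, h⟩ | ⟨x, -, -, h⟩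
      · exact ⟨p, hp', tendsto_nhds_unique h hL⟩
      · exact (H4L1b203.no_bot hL h).elim
      · exact (H4L1b203.no_bot hL h).elim
      · exfalso
        have he := tendsto_nhds_unique h hL
        have h2 := hwS.2.2
        rw [← he, Complex.ofReal_im, Complex.ofReal_re] at h2
        have h3 := h2 rfl
        linarith [ell_le hN hx0 hx1]
      · exfalso
        have := congrArg Complex.im (tendsto_nhds_unique h hL)
        simp only [Complex.sub_im, Complex.ofReal_im, Complex.mul_im, Complex.ofReal_re,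
          Complex.I_im, Complex.I_re, mul_zero, mul_one, add_zero, zero_sub] at this
        linarith [hwS.1]
      · exfalso
        have := congrArg Complex.im (tendsto_nhds_unique h hL)
        simp only [Complex.add_im, Complex.ofReal_im, Complex.mul_im, Complex.mul_re,
          Complex.ofReal_re, Complex.I_im, Complex.I_re, mul_zero, mul_one, zero_mul, add_zero,
          zero_add, sub_zero] at this
        linarith [hwS.2.1]
  obtain ⟨z, hz, he⟩ := key hw
  exact ⟨z, hz, he⟩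

theorem leaf1a : Leaf1a := fun N hN => ⟨injOn hN, fun _ hz => maps hN hz, fun _ hw => surj hN hw⟩

end Crest.Agent.R102.H4L1a963
end
end

-- ▼ part R102/H4T_490
section

/-!
# [H4]: transition lemmas along the chain `L(v') = L(2n - v)` (helper490)
-/

open Complex Set Filter Topology

noncomputable section

namespace Crest.Agent.R102.H4

variable {N : ℝ}

local notation "cj" => (starRingEnd ℂ)

lemma nn_pos490 (hN : 1 < N) : 0 < nn N := by unfold nn; positivity

lemma nn_lt_one490 (hN : 1 < N) : nn N < 1 := by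
  unfold nn; rw [div_lt_one (by linarith)]; linarith

lemma half_lt_nn (hN : 1 < N) : 1 / 2 < nn N := by
  unfold nn; rw [div_lt_div_iff₀ (by norm_num) (by linarith)]; linarith

lemma one_sub_nn (hN : 1 < N) : 1 - nn N = 1 / (N + 1) := by
  unfold nn; have : N + 1 ≠ 0 := by linarith
  field_simp; ring

lemma N_div_nn (hN : 1 < N) : N / nn N = N + 1 := by
  unfold nn; have : N + 1 ≠ 0 := by linarith
  have : N ≠ 0 := by linarith
  field_simp

lemma isOpen_UH : IsOpen UH := isOpen_lt continuous_const Complex.continuous_im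

lemma isOpen_SS (N : ℝ) : IsOpen (SS N) := by
  have h : SS N = {w | -Real.pi < w.im} ∩ {w | w.im < N * Real.pi} ∩
      ({w | w.im ≠ 0} ∪ {w : ℂ | ell N (nn N) < w.re}) := by
    ext w
    simp only [SS, mem_ofPred_eq, mem_inter_iff, mem_union]
    constructor
    · rintro ⟨h1, h2, h3⟩
      refine ⟨⟨h1, h2⟩, ?_⟩
      by_cases h : w.im = 0
      · exact Or.inr (h3 h)
      · exact Or.inl h
    · rintro ⟨⟨h1, h2⟩, h3⟩
      refine ⟨h1, h2, fun h => ?_⟩
      rcases h3 with h3 | h3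
      · exact absurd h h3
      · exact h3
  rw [h]
  refine ((isOpen_lt continuous_const Complex.continuous_im).inter
    (isOpen_lt Complex.continuous_im continuous_const)).inter
    (IsOpen.union ?_ (isOpen_lt continuous_const Complex.continuous_re))
  exact isOpen_ne_fun Complex.continuous_im continuous_const

lemma refl_mem {v : ℂ} (hv : v ∈ UH) : 2 * (nn N : ℂ) - cj v ∈ UH := by
  simp only [UH, mem_ofPred_eq] at *
  simp; exact hv

lemma L_refl (S : BdyS N) {v : ℂ} (hv : v ∈ UH) :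
    L N (2 * (nn N : ℂ) - v) = cj (L N (2 * (nn N : ℂ) - cj v)) := by
  rw [← S.cj _ (refl_mem hv)]
  congr 1
  rw [map_sub, map_mul, Complex.conj_conj, Complex.conj_ofReal, map_ofNat]

lemma L_refl_im_lt (h1 : ∀ z ∈ UH, L N z ∈ SS N) (S : BdyS N) {v : ℂ} (hv : v ∈ UH) :
    (L N (2 * (nn N : ℂ) - v)).im < Real.pi := by
  rw [L_refl S hv]
  have := (h1 _ (refl_mem (N := N) hv)).1
  simp only [conj_im]; linarith

lemma L_refl_mem (hN : 1 < N) (h1 : ∀ z ∈ UH, L N z ∈ SS N) (S : BdyS N) {v : ℂ} (hv : v ∈ UH)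
    (h : -Real.pi < (L N (2 * (nn N : ℂ) - v)).im) : L N (2 * (nn N : ℂ) - v) ∈ SS N := by
  refine ⟨h, ?_, ?_⟩
  · have := L_refl_im_lt h1 S hv
    nlinarith [Real.pi_pos]
  · rw [L_refl S hv]
    have := (h1 _ (refl_mem (N := N) hv)).2.2
    simp only [conj_im, conj_re]
    intro h0; exact this (by linarith)

lemma mem_slit_of_im {z : ℂ} (hz : z.im ≠ 0) : z ∈ slitPlane := by
  rw [Complex.mem_slitPlane_iff]; exact Or.inr hz

lemma L_differentiableAt {z : ℂ} (hz : z.im ≠ 0) : DifferentiableAt ℂ (L N) z := by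
  unfold L
  refine DifferentiableAt.add ?_ ?_
  · exact (differentiableAt_const _).mul (Complex.differentiableAt_log (mem_slit_of_im hz))
  · refine DifferentiableAt.clog (by fun_prop) (mem_slit_of_im ?_)
    simpa using hz

lemma L_hasDerivAt {z : ℂ} (hz : z.im ≠ 0) :
    HasDerivAt (L N) ((N : ℂ) * z⁻¹ + -1 / (1 - z)) z := by
  unfold L
  refine HasDerivAt.add ?_ ?_
  · exact (Complex.hasDerivAt_log (mem_slit_of_im hz)).const_mul _
  · have h1 : HasDerivAt (fun z : ℂ => 1 - z) (-1) z := by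
      simpa using (hasDerivAt_id z).const_sub (1 : ℂ)
    exact h1.clog (mem_slit_of_im (by simpa using hz))

lemma L_deriv_im (hN : 1 < N) {z : ℂ} (hz : z ∈ UH) :
    ((N : ℂ) * z⁻¹ + -1 / (1 - z)).im < 0 := by
  have hz' : 0 < z.im := hz
  have h3 : 0 < normSq z := by
    rw [normSq_pos]; rintro rfl; simp at hz'
  have h4 : 0 < normSq (1 - z) := by
    rw [normSq_pos]; intro h; have := congrArg Complex.im h; simp at this; linarith
  have h5 : ((N : ℂ) * z⁻¹).im = -(N * z.im / normSq z) := by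
    rw [Complex.im_ofReal_mul, Complex.inv_im]; ring
  have h6 : (-1 / (1 - z)).im = -(z.im / normSq (1 - z)) := by
    rw [neg_div, one_div, Complex.neg_im, Complex.inv_im]; simp
  rw [Complex.add_im, h5, h6]
  have : 0 < N * z.im / normSq z := by positivity
  have : 0 < z.im / normSq (1 - z) := by positivity
  linarith

lemma L_deriv_ne (hN : 1 < N) {z : ℂ} (hz : z ∈ UH) : (N : ℂ) * z⁻¹ + -1 / (1 - z) ≠ 0 := by
  intro h
  have := L_deriv_im hN hz
  rw [h] at this; simp at this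

/-! ### The inverse of `L` -/

/-- inverse of `L : UH → SS` -/
def KK (N : ℝ) : ℂ → ℂ := Function.invFunOn (L N) UH

lemma KK_mem (h2 : ∀ w ∈ SS N, ∃ z ∈ UH, L N z = w) {w : ℂ} (hw : w ∈ SS N) : KK N w ∈ UH :=
  Function.invFunOn_mem (h2 w hw)

lemma L_KK (h2 : ∀ w ∈ SS N, ∃ z ∈ UH, L N z = w) {w : ℂ} (hw : w ∈ SS N) : L N (KK N w) = w :=
  Function.invFunOn_eq (h2 w hw)

lemma KK_eq (h0 : Set.InjOn (L N) UH) (h1 : ∀ z ∈ UH, L N z ∈ SS N)
    (h2 : ∀ w ∈ SS N, ∃ z ∈ UH, L N z = w) {z : ℂ} (hz : z ∈ UH) : KK N (L N z) = z :=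
  h0 (KK_mem h2 (h1 z hz)) hz (L_KK h2 (h1 z hz))

lemma KK_cont (B : BdyB N) (h2 : ∀ w ∈ SS N, ∃ z ∈ UH, L N z = w) {w : ℂ} (hw : w ∈ SS N) :
    ContinuousAt (KK N) w := by
  have hev : ∀ᶠ i in 𝓝 w, i ∈ SS N := (isOpen_SS N).mem_nhds hw
  refine B.b1 (𝓝 w) (KK N) (KK N w) (hev.mono fun i hi => KK_mem h2 hi) (KK_mem h2 hw) ?_
  rw [L_KK h2 hw]
  refine Tendsto.congr' (hev.mono fun i hi => (L_KK h2 hi).symm) tendsto_id

lemma KK_hasDerivAt (hN : 1 < N) (B : BdyB N) (h2 : ∀ w ∈ SS N, ∃ z ∈ UH, L N z = w) {w : ℂ}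
    (hw : w ∈ SS N) :
    HasDerivAt (KK N) ((N : ℂ) * (KK N w)⁻¹ + -1 / (1 - KK N w))⁻¹ w := by
  have hm := KK_mem h2 hw
  have hm' : (KK N w).im ≠ 0 := ne_of_gt hm
  refine HasDerivAt.of_local_left_inverse (KK_cont B h2 hw) (L_hasDerivAt hm') (L_deriv_ne hN hm) ?_
  exact (show ∀ᶠ i in 𝓝 w, i ∈ SS N from (isOpen_SS N).mem_nhds hw).mono fun i hi => L_KK h2 hi

/-! ### real values of `ell` -/

lemma ell_lt {x : ℝ} (hN : 1 < N) (h0 : 0 < x) (h1 : x < 1) (hx : x ≠ nn N) :
    ell N x < ell N (nn N) := by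
  have hn := nn_pos490 hN
  have hn1 := nn_lt_one490 hN
  have a1 : Real.log (x / nn N) < x / nn N - 1 :=
    Real.log_lt_sub_one_of_pos (by positivity) (by
      intro h; apply hx; field_simp at h; exact h)
  have a2 : Real.log ((1 - x) / (1 - nn N)) ≤ (1 - x) / (1 - nn N) - 1 :=
    Real.log_le_sub_one_of_pos (div_pos (by linarith) (by linarith))
  rw [Real.log_div h0.ne' hn.ne'] at a1
  rw [Real.log_div (by linarith) (by linarith)] at a2
  unfold ell
  have e1 : N * (x / nn N - 1) = (N + 1) * (x - nn N) := by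
    have := N_div_nn hN
    have h' : N * (x / nn N - 1) = (N / nn N) * (x - nn N) := by field_simp
    rw [h', this]
  have e2 : (1 - x) / (1 - nn N) - 1 = -((N + 1) * (x - nn N)) := by
    rw [one_sub_nn hN]
    have h' : N + 1 ≠ 0 := by linarith
    have h3 : (1 - x) / (1 / (N + 1)) - 1 = (N + 1) * (1 - x) - 1 := by field_simp
    rw [h3]
    have h4 : (N + 1) * nn N = N := by unfold nn; field_simp
    linear_combination -h4
  nlinarith [mul_lt_mul_of_pos_left a1 (show (0 : ℝ) < N by linarith)]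

lemma ell_exists {x : ℝ} (hN : 1 < N) (h0 : 0 < x) (h1 : x < nn N) :
    ∃ r : ℝ, nn N < r ∧ r < 1 ∧ ell N r = ell N x := by
  have hn := nn_pos490 hN
  have hn1 := nn_lt_one490 hN
  have hlt := ell_lt hN h0 (h1.trans hn1) h1.ne
  -- a point close to 1
  obtain ⟨y, hy0, hy1, hy2⟩ : ∃ y : ℝ, nn N < y ∧ y < 1 ∧ ell N y < ell N x := by
    set c := min ((1 - nn N) / 2) (Real.exp (ell N x) / 2) with hc
    have hc0 : 0 < c := lt_min (by linarith) (by positivity)
    have hc1 : c ≤ (1 - nn N) / 2 := min_le_left _ _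
    have hc2 : c ≤ Real.exp (ell N x) / 2 := min_le_right _ _
    refine ⟨1 - c, by linarith, by linarith, ?_⟩
    unfold ell
    have e1 : Real.log (1 - c) ≤ 0 := Real.log_nonpos (by linarith) (by linarith)
    have e2 : Real.log (1 - (1 - c)) < ell N x := by
      rw [show 1 - (1 - c) = c by ring]
      rw [Real.log_lt_iff_lt_exp hc0]
      linarith [Real.exp_pos (ell N x)]
    have : ell N x = N * Real.log x + Real.log (1 - x) := rfl
    nlinarith
  have hcont : ContinuousOn (ell N) (Icc (nn N) y) := by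
    unfold ell
    intro t ht
    have : ContinuousAt (fun x => N * Real.log x + Real.log (1 - x)) t := by
      have h1 : t ≠ 0 := by linarith [ht.1]
      have h2 : 1 - t ≠ 0 := by linarith [ht.2]
      exact (continuousAt_const.mul (Real.continuousAt_log h1)).add
        ((continuousAt_const.sub continuousAt_id).log h2)
    exact this.continuousWithinAt
  have := intermediate_value_Icc' hy0.le hcont ⟨hy2.le, hlt.le⟩
  obtain ⟨r, hr, hr'⟩ := this
  refine ⟨r, ?_, by linarith [hr.2], hr'⟩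
  rcases hr.1.lt_or_eq with h | h
  · exact h
  · rw [← h] at hr'; linarith

/-! ### Transition lemmas -/

section trans

variable (hN : 1 < N) (h0 : Set.InjOn (L N) UH) (h1 : ∀ z ∈ UH, L N z ∈ SS N)
  (h2 : ∀ w ∈ SS N, ∃ z ∈ UH, L N z = w) (B : BdyB N) (S : BdyS N)
  {l : Filter ℂ} {v v' : ℂ → ℂ} (hv : ∀ᶠ i in l, v i ∈ UH) (hv' : ∀ᶠ i in l, v' i ∈ UH)
  (he : ∀ᶠ i in l, L N (v' i) = L N (2 * (nn N : ℂ) - v i))

set_option linter.unusedSectionVars false
include hN h1 h2 B S hv' he in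
/-- from an interior value: the next value is interior, or real `> 1` -/
lemma T1 [l.NeBot] {v0 : ℂ} (hv0 : v0 ∈ UH) (ht : Tendsto v l (𝓝 v0)) :
    (∃ z0 ∈ UH, L N z0 = L N (2 * (nn N : ℂ) - v0) ∧ Tendsto v' l (𝓝 z0)) ∨
    ((L N (2 * (nn N : ℂ) - v0)).im = -Real.pi ∧
      ∃ r : ℝ, 1 < r ∧ ell N r = (L N (2 * (nn N : ℂ) - v0)).re ∧ Tendsto v' l (𝓝 (r : ℂ))) := by
  have hc : ContinuousAt (L N) (2 * (nn N : ℂ) - v0) :=
    (L_differentiableAt (by simpa using ne_of_gt hv0)).continuousAt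
  have hlim : Tendsto (fun i => L N (v' i)) l (𝓝 (L N (2 * (nn N : ℂ) - v0))) := by
    refine Tendsto.congr' (he.mono fun i hi => hi.symm) ?_
    exact hc.tendsto.comp (tendsto_const_nhds.sub ht)
  have him : -Real.pi ≤ (L N (2 * (nn N : ℂ) - v0)).im := by
    refine ge_of_tendsto ((Complex.continuous_im.tendsto _).comp hlim) ?_
    exact hv'.mono fun i hi => (h1 _ hi).1.le
  rcases him.lt_or_eq with h | h
  · left
    obtain ⟨z0, hz0, hz0'⟩ := h2 _ (L_refl_mem hN h1 S hv0 h)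
    exact ⟨z0, hz0, hz0', B.b1 l v' z0 hv' hz0 (by rw [hz0']; exact hlim)⟩
  · right
    obtain ⟨r, hr1, hr2, hr3⟩ := B.b2 l v' _ inferInstance hv' h.symm hlim
    exact ⟨h.symm, r, hr1, hr2, hr3⟩

include hN S hv in
lemma refl_tendsto {r : ℝ} (ht : Tendsto v l (𝓝 (r : ℂ))) :
    Tendsto (fun i => 2 * (nn N : ℂ) - cj (v i)) l (𝓝[UH] ((2 * nn N - r : ℝ) : ℂ)) := by
  rw [tendsto_nhdsWithin_iff]
  refine ⟨?_, hv.mono fun i hi => refl_mem hi⟩
  have : Tendsto (fun i => 2 * (nn N : ℂ) - cj (v i)) l (𝓝 (2 * (nn N : ℂ) - cj (r : ℂ))) :=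
    tendsto_const_nhds.sub ((Complex.continuous_conj.tendsto _).comp ht)
  convert this using 2
  simp

include hN B S hv hv' he in
/-- from a real value `r ∈ (n, 2n)`: the next one is real in `(n,1)` -/
lemma T2 {r : ℝ} (hr : nn N < r) (hr' : r < 2 * nn N) (ht : Tendsto v l (𝓝 (r : ℂ))) :
    ∃ r' : ℝ, nn N < r' ∧ r' < 1 ∧ ell N r' = ell N (2 * nn N - r) ∧
      Tendsto v' l (𝓝 (r' : ℂ)) := by
  obtain ⟨r', g1, g2, g3⟩ := ell_exists (x := 2 * nn N - r) hN (by linarith) (by linarith)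
  have hx1 : 2 * nn N - r < 1 := by linarith [nn_lt_one490 hN]
  have hx0 : 0 < 2 * nn N - r := by linarith
  refine ⟨r', g1, g2, g3, ?_⟩
  have hrt := refl_tendsto (N := N) hN S hv ht
  refine B.b3 l v' r' hv' g1 g2 ?_ ?_
  · have := hrt.eventually (S.s1 _ hx0 (by linarith))
    filter_upwards [this, he, hv] with i hi hi2 hi3
    rw [hi2, L_refl S hi3]
    simp only [conj_im]; linarith
  · have h5 := (S.v1 _ hx0 hx1).comp hrt
    have h6 := (Complex.continuous_conj.tendsto _).comp h5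
    refine Tendsto.congr' ?_ (by rw [g3]; simpa using h6)
    filter_upwards [he, hv] with i hi2 hi3
    simp only [Function.comp]
    rw [hi2, L_refl S hi3]

include hN B S hv hv' he in
/-- from the value `2n` (or with the argument tending to `0`): the next value is `1` -/
lemma T3 (ht : Tendsto v l (𝓝 ((2 * nn N : ℝ) : ℂ))) : Tendsto v' l (𝓝 1) := by
  have hrt := refl_tendsto (N := N) hN S hv ht
  rw [sub_self] at hrt
  simp only [ofReal_zero] at hrt
  refine B.b6 l v' hv' ?_ ?_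
  · have := hrt.eventually S.s0
    filter_upwards [this, he, hv] with i hi hi2 hi3
    rw [hi2, L_refl S hi3]
    simp only [conj_im]; linarith
  · have h5 := S.s0'.comp hrt
    refine Tendsto.congr' ?_ h5
    filter_upwards [he, hv] with i hi2 hi3
    simp only [Function.comp]
    rw [hi2, L_refl S hi3, conj_re]

include hN h1 S hv hv' he in
/-- a real value `> 2n` is impossible -/
lemma T4 [l.NeBot] {r : ℝ} (hr : 2 * nn N < r) (ht : Tendsto v l (𝓝 (r : ℂ))) : False := by
  have hrt := refl_tendsto (N := N) hN S hv ht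
  have h5 := (S.v3 _ (show 2 * nn N - r < 0 by linarith)).comp hrt
  have h6 := (Complex.continuous_conj.tendsto _).comp h5
  have h7 := (Complex.continuous_im.tendsto _).comp h6
  have h8 : -Real.pi ≤ (cj ((ell N (2 * nn N - r) : ℂ) + N * Real.pi * I)).im := by
    refine ge_of_tendsto h7 ?_
    filter_upwards [he, hv, hv'] with i hi2 hi3 hi4
    simp only [Function.comp]
    rw [← L_refl S hi3, ← hi2]
    exact (h1 _ hi4).1.le
  have h9 : (cj ((ell N (2 * nn N - r) : ℂ) + N * Real.pi * I)).im = -(N * Real.pi) := by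
    simp
  rw [h9] at h8
  nlinarith [Real.pi_pos]

end trans

/-- a chain which starts at a real value `> n` ends up at real values in `(n,1)` -/
lemma chain_real (hN : 1 < N) (h1 : ∀ z ∈ UH, L N z ∈ SS N) (B : BdyB N) (S : BdyS N)
    {l : Filter ℂ} [l.NeBot] {f : ℕ → ℂ → ℂ} (hf : ∀ j, ∀ᶠ i in l, f j i ∈ UH)
    (he : ∀ j, ∀ᶠ i in l, L N (f (j + 1) i) = L N (2 * (nn N : ℂ) - f j i))
    {r : ℝ} (hr : nn N < r) (ht : Tendsto (f 0) l (𝓝 (r : ℂ))) (j : ℕ) :
    ∃ r' : ℝ, nn N < r' ∧ r' < 1 ∧ Tendsto (f (j + 2)) l (𝓝 (r' : ℂ)) := by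
  have hn1 := nn_lt_one490 hN
  have hn2 := half_lt_nn hN
  have h1' : ∃ r' : ℝ, nn N < r' ∧ r' ≤ 1 ∧ Tendsto (f 1) l (𝓝 (r' : ℂ)) := by
    rcases lt_trichotomy r (2 * nn N) with h | h | h
    · obtain ⟨r', a, b, _, c⟩ := T2 hN B S (hf 0) (hf 1) (he 0) hr h ht
      exact ⟨r', a, b.le, c⟩
    · refine ⟨1, hn1, le_rfl, ?_⟩
      have := T3 hN B S (hf 0) (hf 1) (he 0) (by rw [← h]; exact ht)
      simpa using this
    · exact (T4 hN h1 S (hf 0) (hf 1) (he 0) h ht).elim
  obtain ⟨r1, a1, b1, c1⟩ := h1'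
  induction j with
  | zero =>
    obtain ⟨r', a, b, _, c⟩ := T2 hN B S (hf 1) (hf 2) (he 1) a1 (by linarith) c1
    exact ⟨r', a, b, c⟩
  | succ j ih =>
    obtain ⟨r2, a2, b2, c2⟩ := ih
    obtain ⟨r', a, b, _, c⟩ := T2 hN B S (hf (j + 2)) (hf (j + 3)) (he (j + 2)) a2 (by linarith) c2
    exact ⟨r', a, b, c⟩

end Crest.Agent.R102.H4
end
end

-- ▼ part R102/H4L2_490
section

/-!
# [H4], Leaf2: analytic continuation of `b = n + G` to the upper half plane (helper490)
-/

open Complex Set Filter Topology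

noncomputable section

namespace Crest.Agent.R102.H4

variable {N ρ : ℝ} {G : ℂ → ℂ}

/-- the half plane `Im > Y` -/
def HP (Y : ℝ) : Set ℂ := {s | Y < s.im}

lemma isOpen_HP (Y : ℝ) : IsOpen (HP Y) := isOpen_lt continuous_const Complex.continuous_im

structure CY (N ρ : ℝ) (G : ℂ → ℂ) (Y : ℝ) (b : ℂ → ℂ) : Prop where
  an : DifferentiableOn ℂ b (HP Y)
  maps : ∀ s ∈ HP Y, b s ∈ UH
  ext : ∀ s ∈ HP Y, ρ < ‖s‖ → b s = (nn N : ℂ) + G s
  eq : ∀ s ∈ HP Y, L N (b s) = L N (2 * (nn N : ℂ) - b (s + 1))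

lemma add_nat_mem {Y : ℝ} {s : ℂ} (hs : s ∈ HP Y) (k : ℕ) : s + k ∈ HP Y := by
  simp only [HP, mem_ofPred_eq] at *; simpa using hs

lemma exists_large (ρ : ℝ) (s : ℂ) : ∃ k0 : ℕ, ∀ k : ℕ, k0 ≤ k → ρ < ‖s + k‖ := by
  obtain ⟨k0, hk⟩ := exists_nat_gt (ρ - s.re)
  refine ⟨k0, fun k hk' => ?_⟩
  have h1 : (s + k).re ≤ ‖s + k‖ := Complex.re_le_norm _
  have h2 : (k0 : ℝ) ≤ k := by exact_mod_cast hk'
  simp at h1
  linarith

lemma CY.unique (h0 : Set.InjOn (L N) UH) {Y Y' : ℝ} {b b' : ℂ → ℂ} (hb : CY N ρ G Y b)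
    (hb' : CY N ρ G Y' b') {s : ℂ} (hs : s ∈ HP Y) (hs' : s ∈ HP Y') : b s = b' s := by
  have key : ∀ k : ℕ, b (s + k) = b' (s + k) → b s = b' s := by
    intro k
    induction k with
    | zero => simp
    | succ k ih =>
      intro h
      apply ih
      apply h0 (hb.maps _ (add_nat_mem hs k)) (hb'.maps _ (add_nat_mem hs' k))
      rw [hb.eq _ (add_nat_mem hs k), hb'.eq _ (add_nat_mem hs' k)]
      have e : s + (k : ℂ) + 1 = s + ((k + 1 : ℕ) : ℂ) := by push_cast; ring
      rw [e, h]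
  obtain ⟨k0, hk⟩ := exists_large ρ s
  apply key k0
  rw [hb.ext _ (add_nat_mem hs k0) (hk k0 le_rfl), hb'.ext _ (add_nat_mem hs' k0) (hk k0 le_rfl)]

lemma CY.base (hG : GF N ρ G) : CY N ρ G ρ (fun s => (nn N : ℂ) + G s) := by
  have hn : ∀ s ∈ HP ρ, ρ < ‖s‖ := fun s hs =>
    lt_of_lt_of_le hs ((le_abs_self _).trans (Complex.abs_im_le_norm s))
  have hpos : ∀ s ∈ HP ρ, 0 < s.im := fun s hs => lt_trans (by linarith [hG.hρ]) hs
  refine ⟨?_, ?_, ?_, ?_⟩
  · exact (hG.an.mono hn).const_add _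
  · intro s hs
    have := hG.pos s (hn s hs) (hpos s hs)
    simpa [UH] using this
  · intro s _ _; rfl
  · intro s hs
    have hs1 : s + 1 ∈ HP ρ := by simpa using add_nat_mem hs 1
    have := hG.eq s (hn s hs) (hn _ hs1)
    rw [this]; congr 1; ring

lemma CY.mono {Y Y' : ℝ} {b : ℂ → ℂ} (hb : CY N ρ G Y b) (h : Y ≤ Y') : CY N ρ G Y' b := by
  have hsub : HP Y' ⊆ HP Y := fun s hs => lt_of_le_of_lt h hs
  exact ⟨hb.an.mono hsub, fun s hs => hb.maps s (hsub hs), fun s hs => hb.ext s (hsub hs),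
    fun s hs => hb.eq s (hsub hs)⟩

lemma CY.union (h0 : Set.InjOn (L N) UH) {Y0 : ℝ} (h : ∀ Y, Y0 < Y → ∃ b, CY N ρ G Y b) :
    ∃ b, CY N ρ G Y0 b := by
  classical
  choose! B hB using h
  have hmid : ∀ s ∈ HP Y0, Y0 < (Y0 + s.im) / 2 ∧ s ∈ HP ((Y0 + s.im) / 2) := by
    intro s hs
    have : Y0 < s.im := hs
    refine ⟨by linarith, ?_⟩
    show (Y0 + s.im) / 2 < s.im
    linarith
  refine ⟨fun s => B ((Y0 + s.im) / 2) s, ?_, ?_, ?_, ?_⟩
  · intro s hs
    obtain ⟨h1, h2⟩ := hmid s hs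
    have hd : DifferentiableAt ℂ (B ((Y0 + s.im) / 2)) s :=
      (hB _ h1).an.differentiableAt ((isOpen_HP _).mem_nhds h2)
    refine DifferentiableAt.differentiableWithinAt ?_
    refine hd.congr_of_eventuallyEq ?_
    filter_upwards [(isOpen_HP ((Y0 + s.im) / 2)).mem_nhds h2] with s' hs'
    have hs'' : s' ∈ HP Y0 := lt_trans h1 hs'
    obtain ⟨h3, h4⟩ := hmid s' hs''
    exact CY.unique h0 (hB _ h3) (hB _ h1) h4 hs'
  · intro s hs
    obtain ⟨h1, h2⟩ := hmid s hs
    exact (hB _ h1).maps s h2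
  · intro s hs hr
    obtain ⟨h1, h2⟩ := hmid s hs
    exact (hB _ h1).ext s h2 hr
  · intro s hs
    obtain ⟨h1, h2⟩ := hmid s hs
    have := (hB _ h1).eq s h2
    simpa using this

/-! ### Extension below the line `Im s = Y0` -/

/-- iterated chain from the right -/
def Bf (N : ℝ) (G : ℂ → ℂ) (k : ℕ) : ℕ → ℂ → ℂ
  | 0, s => (nn N : ℂ) + G (s + k)
  | i + 1, s => KK N (L N (2 * (nn N : ℂ) - Bf N G k i s))

lemma Bf_eq (h0 : Set.InjOn (L N) UH) (h1 : ∀ z ∈ UH, L N z ∈ SS N)
    (h2 : ∀ w ∈ SS N, ∃ z ∈ UH, L N z = w) {Y0 : ℝ} {b : ℂ → ℂ} (hb : CY N ρ G Y0 b)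
    {k : ℕ} {s : ℂ} (hs : s ∈ HP Y0) (hk : ρ < ‖s + k‖) :
    ∀ i j : ℕ, i + j = k → Bf N G k i s = b (s + j) := by
  intro i
  induction i with
  | zero =>
    intro j hj
    have : j = k := by omega
    subst this
    show (nn N : ℂ) + G (s + j) = _
    rw [hb.ext _ (add_nat_mem hs j) hk]
  | succ i ih =>
    intro j hj
    have h := ih (j + 1) (by omega)
    show KK N (L N (2 * (nn N : ℂ) - Bf N G k i s)) = _
    rw [h]
    have e : s + ((j + 1 : ℕ) : ℂ) = s + j + 1 := by push_cast; ring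
    rw [e, ← hb.eq _ (add_nat_mem hs j)]
    exact KK_eq h0 h1 h2 (hb.maps _ (add_nat_mem hs j))

lemma neBot_HP {Y0 : ℝ} {s0 : ℂ} (h : s0.im = Y0) : (𝓝[HP Y0] s0).NeBot := by
  rw [← mem_closure_iff_nhdsWithin_neBot]
  have : closure (HP Y0) = {s : ℂ | Y0 ≤ s.im} := by
    have := Complex.closure_preimage_im (Ioi Y0)
    rw [closure_Ioi] at this
    exact this
  rw [this]; exact h.ge

/-- every point of the line is good -/
lemma good_line (hG : GF N ρ G) (h0 : Set.InjOn (L N) UH) (h1 : ∀ z ∈ UH, L N z ∈ SS N)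
    (h2 : ∀ w ∈ SS N, ∃ z ∈ UH, L N z = w) (B : BdyB N) (S : BdyS N)
    {Y0 : ℝ} (hY : 0 < Y0) {b : ℂ → ℂ} (hb : CY N ρ G Y0 b) {k : ℕ} {s0 : ℂ} (hs0 : s0.im = Y0)
    (hk : ρ < ‖s0 + k‖) :
    ∀ i : ℕ, i ≤ k → Bf N G k i s0 ∈ UH ∧ (∀ᶠ s in 𝓝 s0, DifferentiableAt ℂ (Bf N G k i) s) ∧
      (i < k → L N (2 * (nn N : ℂ) - Bf N G k i s0) ∈ SS N) := by
  have hN := hG.hN
  have := neBot_HP hs0
  have hopen : IsOpen {s : ℂ | ρ < ‖s‖} := isOpen_lt continuous_const continuous_norm
  have hkev : ∀ᶠ s : ℂ in 𝓝 s0, ρ < ‖s + (k : ℂ)‖ := by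
    have : ContinuousAt (fun s : ℂ => ‖s + (k : ℂ)‖) s0 := by fun_prop
    exact this.eventually (lt_mem_nhds hk)
  have hin : ∀ᶠ s in 𝓝[HP Y0] s0, s ∈ HP Y0 := self_mem_nhdsWithin
  -- the dichotomy at step i
  have key : ∀ i : ℕ, i < k → Bf N G k i s0 ∈ UH → ContinuousAt (Bf N G k i) s0 →
      L N (2 * (nn N : ℂ) - Bf N G k i s0) ∈ SS N := by
    intro i hi hm hc
    obtain ⟨j, hj⟩ : ∃ j, i + (j + 1) = k := ⟨k - i - 1, by omega⟩
    have hl : Tendsto (fun s => b (s + ((j + 1 : ℕ) : ℂ))) (𝓝[HP Y0] s0)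
        (𝓝 (Bf N G k i s0)) := by
      refine Tendsto.congr' ?_ (hc.tendsto.mono_left nhdsWithin_le_nhds)
      filter_upwards [hin, hkev.filter_mono nhdsWithin_le_nhds] with s hs hs'
      exact Bf_eq h0 h1 h2 hb hs hs' i (j + 1) hj
    -- chain to the left
    set f : ℕ → ℂ → ℂ := fun q s => b (s + (j : ℂ) - q) with hf
    have hmemq : ∀ q : ℕ, ∀ s ∈ HP Y0, s + (j : ℂ) - q ∈ HP Y0 := by
      intro q s hs
      simp only [HP, mem_ofPred_eq] at *; simpa using hs
    have hfq : ∀ q, ∀ᶠ s in 𝓝[HP Y0] s0, f q s ∈ UH := fun q =>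
      hin.mono fun s hs => hb.maps _ (hmemq q s hs)
    have heq : ∀ q, ∀ᶠ s in 𝓝[HP Y0] s0,
        L N (f (q + 1) s) = L N (2 * (nn N : ℂ) - f q s) := fun q =>
      hin.mono fun s hs => by
        simp only [hf]
        rw [hb.eq _ (hmemq (q + 1) s hs)]
        congr 3; push_cast; ring
    have he0 : ∀ᶠ s in 𝓝[HP Y0] s0,
        L N (f 0 s) = L N (2 * (nn N : ℂ) - b (s + ((j + 1 : ℕ) : ℂ))) := hin.mono fun s hs => by
        simp only [hf]
        rw [hb.eq _ (hmemq 0 s hs)]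
        congr 3; push_cast; ring
    have hv : ∀ᶠ s in 𝓝[HP Y0] s0, b (s + ((j + 1 : ℕ) : ℂ)) ∈ UH :=
      hin.mono fun s hs => hb.maps _ (add_nat_mem hs _)
    rcases T1 hN h1 h2 B S (hfq 0) he0 hm hl with ⟨z0, hz0, hz1, _⟩ | ⟨_, r, hr, _, hrt⟩
    · rw [← hz1]; exact h1 _ hz0
    · exfalso
      obtain ⟨q, hq⟩ := exists_nat_gt (ρ + (s0 + (j : ℂ)).re)
      obtain ⟨r', _, _, hr'⟩ := chain_real hN h1 B S hfq heq
        (lt_trans (nn_lt_one490 hN) hr) hrt q
      -- the point is far to the left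
      set p : ℂ := s0 + (j : ℂ) - ((q + 2 : ℕ) : ℂ) with hp
      have hpn : ρ < ‖p‖ := by
        have h3 : |p.re| ≤ ‖p‖ := Complex.abs_re_le_norm p
        have h4 : p.re = (s0 + (j : ℂ)).re - (q + 2) := by
          simp [hp]
        have h5 := neg_abs_le p.re
        linarith
      have hpim : 0 < p.im := by simp [hp, hs0, hY]
      have hcont : ContinuousAt (fun s : ℂ => (nn N : ℂ) + G (s + (j : ℂ) - ((q + 2 : ℕ) : ℂ))) s0 := by
        have hGc : ContinuousAt G p := (hG.an.differentiableAt (hopen.mem_nhds hpn)).continuousAt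
        refine ContinuousAt.add continuousAt_const ?_
        exact ContinuousAt.comp (f := fun s : ℂ => s + (j : ℂ) - ((q + 2 : ℕ) : ℂ)) hGc (by fun_prop)
      have hlim : Tendsto (f (q + 2)) (𝓝[HP Y0] s0) (𝓝 ((nn N : ℂ) + G p)) := by
        refine Tendsto.congr' ?_ (hcont.tendsto.mono_left nhdsWithin_le_nhds)
        have hev : ∀ᶠ s in 𝓝 s0, ρ < ‖s + (j : ℂ) - ((q + 2 : ℕ) : ℂ)‖ := by
          have : ContinuousAt (fun s : ℂ => ‖s + (j : ℂ) - ((q + 2 : ℕ) : ℂ)‖) s0 := by fun_prop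
          exact this.eventually (lt_mem_nhds hpn)
        filter_upwards [hin, hev.filter_mono nhdsWithin_le_nhds] with s hs hs'
        exact (hb.ext _ (hmemq (q + 2) s hs) hs').symm
      have hu := tendsto_nhds_unique hr' hlim
      have hi := congrArg Complex.im hu
      have hgp := hG.pos p hpn hpim
      simp at hi
      linarith
  intro i
  induction i with
  | zero =>
    intro _
    have hd : ∀ᶠ s in 𝓝 s0, DifferentiableAt ℂ (Bf N G k 0) s := by
      filter_upwards [hkev] with s hs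
      show DifferentiableAt ℂ (fun s => (nn N : ℂ) + G (s + k)) s
      refine DifferentiableAt.const_add _ ?_
      exact DifferentiableAt.comp s (f := fun s : ℂ => s + k)
        (hG.an.differentiableAt (hopen.mem_nhds hs)) (by fun_prop)
    have hm : Bf N G k 0 s0 ∈ UH := by
      have := hG.pos (s0 + k) hk (by simpa [hs0] using hY)
      show 0 < ((nn N : ℂ) + G (s0 + k)).im
      simpa using this
    exact ⟨hm, hd, fun hk' => key 0 hk' hm hd.self_of_nhds.continuousAt⟩
  | succ i ih =>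
    intro hi
    obtain ⟨g1, g2, g3⟩ := ih (by omega)
    have g3' := g3 (by omega)
    have hLc : ContinuousAt (fun s => L N (2 * (nn N : ℂ) - Bf N G k i s)) s0 := by
      refine ContinuousAt.comp (g := L N) (f := fun s => 2 * (nn N : ℂ) - Bf N G k i s) ?_ ?_
      · exact (L_differentiableAt (by simpa using ne_of_gt g1)).continuousAt
      · exact continuousAt_const.sub g2.self_of_nhds.continuousAt
    have hev : ∀ᶠ s in 𝓝 s0, L N (2 * (nn N : ℂ) - Bf N G k i s) ∈ SS N :=
      hLc.eventually ((isOpen_SS N).mem_nhds g3')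
    have hev2 : ∀ᶠ s in 𝓝 s0, Bf N G k i s ∈ UH :=
      g2.self_of_nhds.continuousAt.eventually (isOpen_UH.mem_nhds g1)
    have hd : ∀ᶠ s in 𝓝 s0, DifferentiableAt ℂ (Bf N G k (i + 1)) s := by
      filter_upwards [g2, hev, hev2] with s q1 q2 q3
      show DifferentiableAt ℂ (fun s => KK N (L N (2 * (nn N : ℂ) - Bf N G k i s))) s
      refine DifferentiableAt.comp s (f := fun s => L N (2 * (nn N : ℂ) - Bf N G k i s))
        (KK_hasDerivAt hN B h2 q2).differentiableAt ?_
      exact DifferentiableAt.comp s (f := fun s => 2 * (nn N : ℂ) - Bf N G k i s)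
        (L_differentiableAt (by simpa using ne_of_gt q3)) (q1.const_sub _)
    have hm : Bf N G k (i + 1) s0 ∈ UH := KK_mem h2 g3'
    exact ⟨hm, hd, fun hk' => key (i + 1) hk' hm hd.self_of_nhds.continuousAt⟩

lemma convex_HP (Y : ℝ) : Convex ℝ (HP Y) := by
  have : HP Y = {s : ℂ | Y < Complex.imCLM s} := rfl
  rw [this]
  exact convex_halfSpace_gt (f := Complex.imCLM) (Complex.imCLM.isLinear) Y

lemma CY.extend (hG : GF N ρ G) (h0 : Set.InjOn (L N) UH) (h1 : ∀ z ∈ UH, L N z ∈ SS N)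
    (h2 : ∀ w ∈ SS N, ∃ z ∈ UH, L N z = w) (B : BdyB N) (S : BdyS N)
    {Y0 : ℝ} (hY : 0 < Y0) {b : ℂ → ℂ} (hb : CY N ρ G Y0 b) :
    ∃ Y1, 0 < Y1 ∧ Y1 < Y0 ∧ ∃ b', CY N ρ G Y1 b' := by
  classical
  have hρ : 0 < ρ := by linarith [hG.hρ]
  have hopen : IsOpen {s : ℂ | ρ < ‖s‖} := isOpen_lt continuous_const continuous_norm
  obtain ⟨k, hk⟩ := exists_nat_gt (2 * ρ + 2)
  have hkn : ∀ s : ℂ, |s.re| ≤ ρ + 1 → ρ < ‖s + (k : ℂ)‖ := by
    intro s hs
    have h3 : (s + (k : ℂ)).re ≤ ‖s + (k : ℂ)‖ := Complex.re_le_norm _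
    have h4 : (s + (k : ℂ)).re = s.re + k := by simp
    have := neg_abs_le s.re
    linarith
  -- `Bf k = b` on the upper part
  have hBb : ∀ s ∈ HP Y0, ρ < ‖s + (k : ℂ)‖ → Bf N G k k s = b s := by
    intro s hs hs'
    have := Bf_eq h0 h1 h2 hb hs hs' k 0 (by omega)
    simpa using this
  have hBb' : ∀ s ∈ HP Y0, |s.re| ≤ ρ + 1 → Bf N G k k =ᶠ[𝓝 s] b := by
    intro s hs hs'
    have hc : ContinuousAt (fun s : ℂ => ‖s + (k : ℂ)‖) s := by fun_prop
    filter_upwards [(isOpen_HP Y0).mem_nhds hs, hc.eventually (lt_mem_nhds (hkn s hs'))]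
      with z hz hz'
    exact hBb z hz hz'
  set W : Set ℂ := {s | Bf N G k k s ∈ UH ∧ DifferentiableAt ℂ (Bf N G k k) s} with hW
  set K : Set ℂ := (fun x : ℝ => (x : ℂ) + Y0 * I) '' Icc (-(ρ + 1)) (ρ + 1) with hK
  have hKc : IsCompact K := by
    apply isCompact_Icc.image
    fun_prop
  have hKW : K ⊆ interior W := by
    rintro _ ⟨x, hx, rfl⟩
    rw [mem_interior_iff_mem_nhds]
    have him : ((x : ℂ) + Y0 * I).im = Y0 := by simp
    have hre : ((x : ℂ) + Y0 * I).re = x := by simp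
    obtain ⟨g1, g2, _⟩ := good_line hG h0 h1 h2 B S hY hb him
      (hkn _ (by rw [hre, abs_le]; exact hx)) k le_rfl
    have hev2 := g2.self_of_nhds.continuousAt.eventually (isOpen_UH.mem_nhds g1)
    filter_upwards [g2, hev2] with s q1 q2
    exact ⟨q2, q1⟩
  obtain ⟨δ, hδ, hthick⟩ := hKc.exists_thickening_subset_open isOpen_interior hKW
  set Y1 : ℝ := max (Y0 / 2) (Y0 - δ) with hY1
  have hY1a : Y0 / 2 ≤ Y1 := le_max_left _ _
  have hY1b : Y0 - δ ≤ Y1 := le_max_right _ _
  have hY1c : Y1 < Y0 := max_lt (by linarith) (by linarith)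
  have hY1p : 0 < Y1 := by linarith
  have hWall : ∀ s : ℂ, |s.re| ≤ ρ + 1 → Y1 < s.im → s ∈ W := by
    intro s hs hs'
    rcases lt_or_ge Y0 s.im with h | h
    · have he := hBb' s h hs
      refine ⟨?_, ?_⟩
      · show Bf N G k k s ∈ UH
        rw [he.self_of_nhds]; exact hb.maps s h
      · exact (hb.an.differentiableAt ((isOpen_HP Y0).mem_nhds h)).congr_of_eventuallyEq he
    · apply interior_subset
      apply hthick
      rw [Metric.mem_thickening_iff]
      refine ⟨(s.re : ℂ) + Y0 * I, ⟨s.re, abs_le.mp hs, rfl⟩, ?_⟩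
      have e : s - ((s.re : ℂ) + Y0 * I) = ((s.im - Y0 : ℝ) : ℂ) * I := by
        apply Complex.ext <;> simp
      rw [dist_eq_norm, e, norm_mul, Complex.norm_I, mul_one, Complex.norm_real,
        Real.norm_eq_abs, abs_of_nonpos (by linarith)]
      linarith
  set Ω : Set ℂ := {s | |s.re| < ρ + 1} ∩ {s | Y1 < s.im} with hΩ
  have hΩo : IsOpen Ω := (isOpen_lt (by fun_prop) continuous_const).inter (isOpen_HP Y1)
  have hBan : AnalyticOnNhd ℂ (Bf N G k k) Ω := by
    apply DifferentiableOn.analyticOnNhd _ hΩo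
    intro s hs
    exact (hWall s hs.1.le hs.2).2.differentiableWithinAt
  have hGan : AnalyticOnNhd ℂ (fun s => (nn N : ℂ) + G s) {s | ρ < ‖s‖} :=
    DifferentiableOn.analyticOnNhd (hG.an.const_add _) hopen
  -- agreement
  have hagree : ∀ s : ℂ, s ∈ Ω → ρ < ‖s‖ → Bf N G k k s = (nn N : ℂ) + G s := by
    intro s hs hsn
    set U : Set ℂ := (fun t : ℝ => s + t * I) '' Icc 0 Y0 with hU
    have hUp : IsPreconnected U := by
      apply isPreconnected_Icc.image
      fun_prop
    have hz : ∀ z ∈ U, z ∈ Ω ∧ ρ < ‖z‖ := by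
      rintro _ ⟨t, ht, rfl⟩
      have hsim : Y1 < s.im := hs.2
      refine ⟨⟨?_, ?_⟩, ?_⟩
      · show |(s + t * I).re| < ρ + 1
        simpa using hs.1
      · show Y1 < (s + t * I).im
        simp; linarith [ht.1]
      · refine lt_of_lt_of_le hsn ?_
        rw [Complex.norm_def, Complex.norm_def]
        apply Real.sqrt_le_sqrt
        rw [Complex.normSq_apply, Complex.normSq_apply]
        simp
        nlinarith [ht.1]
    have hz0 : s + (Y0 : ℝ) * I ∈ U := ⟨Y0, ⟨hY.le, le_rfl⟩, rfl⟩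
    have hs0 : s ∈ U := ⟨0, ⟨le_rfl, hY.le⟩, by simp⟩
    have hup : s + (Y0 : ℝ) * I ∈ HP Y0 := by
      show Y0 < (s + (Y0 : ℝ) * I).im
      have : Y1 < s.im := hs.2
      simp; linarith
    have hre : |(s + (Y0 : ℝ) * I).re| ≤ ρ + 1 := (hz _ hz0).1.1.le
    have hee : Bf N G k k =ᶠ[𝓝 (s + (Y0 : ℝ) * I)] (fun s => (nn N : ℂ) + G s) := by
      filter_upwards [hBb' _ hup hre, (isOpen_HP Y0).mem_nhds hup,
        hopen.mem_nhds (hz _ hz0).2] with z q1 q2 q3
      rw [q1]; exact hb.ext z q2 q3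
    exact AnalyticOnNhd.eqOn_of_preconnected_of_eventuallyEq
      (fun z hz' => hBan z (hz z hz').1) (fun z hz' => hGan z (hz z hz').2) hUp hz0 hee hs0
  set b' : ℂ → ℂ := fun s => if ρ < ‖s‖ then (nn N : ℂ) + G s else Bf N G k k s with hb'
  have hb1 : ∀ s : ℂ, ρ < ‖s‖ → b' s = (nn N : ℂ) + G s := fun s hs => by simp [hb', hs]
  have hb2 : ∀ s ∈ Ω, b' s = Bf N G k k s := by
    intro s hs
    by_cases h : ρ < ‖s‖
    · rw [hb1 s h, hagree s hs h]
    · simp [hb', h]
  have hΩmem : ∀ s ∈ HP Y1, ¬ ρ < ‖s‖ → s ∈ Ω := by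
    intro s hs h
    refine ⟨?_, hs⟩
    have := Complex.abs_re_le_norm s
    show |s.re| < ρ + 1
    linarith
  have hbb : ∀ s ∈ HP Y0, b' s = b s := by
    intro s hs
    by_cases h : ρ < ‖s‖
    · rw [hb1 s h, hb.ext s hs h]
    · have hm := hΩmem s (lt_trans hY1c hs) h
      rw [hb2 s hm, (hBb' s hs hm.1.le).self_of_nhds]
  have han : DifferentiableOn ℂ b' (HP Y1) := by
    intro s hs
    apply DifferentiableAt.differentiableWithinAt
    by_cases h : ρ < ‖s‖
    · refine (hGan s h).differentiableAt.congr_of_eventuallyEq ?_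
      filter_upwards [hopen.mem_nhds h] with z hz
      exact hb1 z hz
    · have hm := hΩmem s hs h
      refine (hBan s hm).differentiableAt.congr_of_eventuallyEq ?_
      filter_upwards [hΩo.mem_nhds hm] with z hz
      exact hb2 z hz
  have hmaps : ∀ s ∈ HP Y1, b' s ∈ UH := by
    intro s hs
    by_cases h : ρ < ‖s‖
    · rw [hb1 s h]
      have := hG.pos s h (lt_trans hY1p hs)
      simpa [UH] using this
    · have hm := hΩmem s hs h
      rw [hb2 s hm]
      exact (hWall s hm.1.le hm.2).1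
  refine ⟨Y1, hY1p, hY1c, b', han, hmaps, fun s _ hs' => hb1 s hs', ?_⟩
  -- functional equation by the identity theorem
  have hL1 : AnalyticOnNhd ℂ (fun s => L N (b' s)) (HP Y1) := by
    apply DifferentiableOn.analyticOnNhd _ (isOpen_HP Y1)
    intro s hs
    apply DifferentiableAt.differentiableWithinAt
    exact DifferentiableAt.comp (g := L N) s (L_differentiableAt (ne_of_gt (hmaps s hs)))
      (han.differentiableAt ((isOpen_HP Y1).mem_nhds hs))
  have hs1 : ∀ s ∈ HP Y1, s + 1 ∈ HP Y1 := fun s hs => by simpa using add_nat_mem hs 1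
  have hL2 : AnalyticOnNhd ℂ (fun s => L N (2 * (nn N : ℂ) - b' (s + 1))) (HP Y1) := by
    apply DifferentiableOn.analyticOnNhd _ (isOpen_HP Y1)
    intro s hs
    apply DifferentiableAt.differentiableWithinAt
    refine DifferentiableAt.comp (g := L N) (f := fun s => 2 * (nn N : ℂ) - b' (s + 1)) s
      (L_differentiableAt ?_) ?_
    · have h7 : 0 < (b' (s + 1)).im := hmaps _ (hs1 s hs)
      have : (2 * (nn N : ℂ) - b' (s + 1)).im = -(b' (s + 1)).im := by simp
      rw [this]; exact neg_ne_zero.mpr h7.ne'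
    · refine DifferentiableAt.const_sub ?_ _
      exact DifferentiableAt.comp (g := b') (f := fun s : ℂ => s + 1) s
        (han.differentiableAt ((isOpen_HP Y1).mem_nhds (hs1 s hs))) (by fun_prop)
  have hp0 : (((Y0 + 1 : ℝ) : ℂ) * I) ∈ HP Y0 := by
    show Y0 < (((Y0 + 1 : ℝ) : ℂ) * I).im
    simp
  refine AnalyticOnNhd.eqOn_of_preconnected_of_eventuallyEq hL1 hL2
    (convex_HP Y1).isPreconnected (z₀ := ((Y0 + 1 : ℝ) : ℂ) * I) (lt_trans hY1c hp0) ?_
  filter_upwards [(isOpen_HP Y0).mem_nhds hp0] with s hs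
  have hs' : s + 1 ∈ HP Y0 := by simpa using add_nat_mem hs 1
  rw [hbb s hs, hbb _ hs', hb.eq s hs]

theorem leaf2 (h1a : Leaf1a) (h1b : Leaf1b) (h1c : Leaf1c) : Leaf2 := by
  intro N ρ G hG
  obtain ⟨h0, h1, h2⟩ := h1a N hG.hN
  have B := h1b N hG.hN
  have S := h1c N hG.hN
  set J : Set ℝ := {Y | 0 < Y ∧ ∃ b, CY N ρ G Y b} with hJ
  have hJne : J.Nonempty := ⟨ρ, by linarith [hG.hρ], _, CY.base hG⟩
  have hJb : BddBelow J := ⟨0, fun Y hY => hY.1.le⟩
  have hinf0 : 0 ≤ sInf J := le_csInf hJne fun Y hY => hY.1.le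
  have habove : ∀ Y, sInf J < Y → ∃ b, CY N ρ G Y b := by
    intro Y hY
    obtain ⟨Y', hY', hlt⟩ := exists_lt_of_csInf_lt hJne hY
    obtain ⟨b, hb⟩ := hY'.2
    exact ⟨b, hb.mono hlt.le⟩
  have hinf : sInf J = 0 := by
    by_contra hne
    have hpos : 0 < sInf J := lt_of_le_of_ne hinf0 (Ne.symm hne)
    obtain ⟨b, hb⟩ := CY.union h0 habove
    obtain ⟨Y1, h1p, h1l, b', hb'⟩ := CY.extend hG h0 h1 h2 B S hpos hb
    have : sInf J ≤ Y1 := csInf_le hJb ⟨h1p, b', hb'⟩
    linarith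
  rw [hinf] at habove
  obtain ⟨b, hb⟩ := CY.union h0 habove
  exact ⟨b, hb.an, hb.maps, hb.ext, hb.eq⟩

end Crest.Agent.R102.H4
end
end

-- ▼ part R102/H4L3_377

/-!
# Row 102, [H4], leaf H4-3: the real line (helper377)
-/

set_option autoImplicit false

open Complex Set Filter Topology

noncomputable section

namespace Crest.Agent.R102.H4.L3

local notation "cj" => (starRingEnd ℂ)

/-! ## real-symmetric germs -/


/-- the derivative of a real-symmetric germ is real-symmetric -/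
lemma deriv_real {e : ℂ → ℂ} (hr : ∀ᶠ δ in 𝓝 (0 : ℂ), e (cj δ) = cj (e δ)) :
    ∀ᶠ δ in 𝓝 (0 : ℂ), deriv e (cj δ) = cj (deriv e δ) := by
  filter_upwards [hr.eventually_nhds] with δ hδ
  have h1 : deriv (cj ∘ e ∘ cj) (cj δ) = cj (deriv e δ) := by
    rw [deriv_conj_conj]; simp
  rw [← h1]
  have h2 : (cj ∘ e ∘ cj) =ᶠ[𝓝 (cj δ)] e := by
    have ht : Tendsto (fun z : ℂ => cj z) (𝓝 (cj δ)) (𝓝 δ) := by
      have := (Complex.continuous_conj).tendsto (cj δ)
      simpa using this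
    filter_upwards [ht.eventually hδ] with z hz
    simp only [Function.comp_apply]
    rw [← hz]; simp
  exact h2.symm.deriv_eq

lemma im_zero_of_real {e : ℂ → ℂ} (hr : ∀ᶠ δ in 𝓝 (0 : ℂ), e (cj δ) = cj (e δ)) :
    (e 0).im = 0 := by
  have := hr.self_of_nhds
  rw [map_zero] at this
  exact Complex.conj_eq_iff_im.1 this.symm

/-- a real-symmetric germ with positive derivative maps `UH` to `UH` -/
lemma maps_UH {e : ℂ → ℂ} {e1 : ℝ} (ha : AnalyticAt ℂ e 0)
    (hr : ∀ᶠ δ in 𝓝 (0 : ℂ), e (cj δ) = cj (e δ)) (h1 : 0 < e1) (hd : deriv e 0 = (e1 : ℂ)) :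
    ∀ᶠ δ in 𝓝[UH] (0 : ℂ), e δ ∈ UH := by
  have hs : HasStrictDerivAt e (e1 : ℂ) 0 := by
    rw [← hd]; exact ha.hasStrictDerivAt
  have hb := hs.isLittleO
  have hb' := hb.def (half_pos h1)
  -- points (δ, re δ)
  have ht : Tendsto (fun δ : ℂ => (δ, ((δ.re : ℝ) : ℂ))) (𝓝 0) (𝓝 ((0 : ℂ), (0 : ℂ))) := by
    have : Continuous fun δ : ℂ => (δ, ((δ.re : ℝ) : ℂ)) := by fun_prop
    simpa using this.tendsto 0
  have hre : ∀ᶠ δ in 𝓝 (0 : ℂ), (e ((δ.re : ℝ) : ℂ)).im = 0 := by
    have ht2 : Tendsto (fun δ : ℂ => ((δ.re : ℝ) : ℂ)) (𝓝 0) (𝓝 0) := by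
      have : Continuous fun δ : ℂ => ((δ.re : ℝ) : ℂ) := by fun_prop
      simpa using this.tendsto 0
    filter_upwards [ht2.eventually hr] with δ hδ
    rw [Complex.conj_ofReal] at hδ
    exact Complex.conj_eq_iff_im.1 hδ.symm
  have h2 := ht.eventually hb'
  rw [eventually_nhdsWithin_iff]
  filter_upwards [h2, hre] with δ h3 h4 h5
  simp only [UH, Set.mem_ofPred_eq] at h5 ⊢
  have h6 : δ - ((δ.re : ℝ) : ℂ) = (δ.im : ℂ) * I := by
    apply Complex.ext <;> simp
  rw [h6] at h3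
  have h7 : |((e δ - e ((δ.re : ℝ) : ℂ) - (δ.im : ℂ) * I • (e1 : ℂ)) : ℂ).im| ≤ e1 / 2 * δ.im := by
    refine (Complex.abs_im_le_norm _).trans ?_
    have : ‖(δ.im : ℂ) * I‖ = δ.im := by
      rw [norm_mul, Complex.norm_I, mul_one, Complex.norm_real, Real.norm_eq_abs, abs_of_pos h5]
    rw [this] at h3
    simpa [smul_eq_mul, mul_assoc] using h3
  have h8 : ((e δ - e ((δ.re : ℝ) : ℂ) - (δ.im : ℂ) * I • (e1 : ℂ)) : ℂ).im
      = (e δ).im - δ.im * e1 := by
    simp [h4]
  rw [h8, abs_le] at h7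
  nlinarith [h7.1]

/-! ## the function `L` near real points of `(0,1)` -/

/-- the complex derivative of `L` -/
def dL (N : ℝ) (y : ℂ) : ℂ := (N : ℂ) / y - 1 / (1 - y)

lemma hasDerivAt_L {N : ℝ} {y : ℂ} (h1 : y ∈ slitPlane) (h2 : 1 - y ∈ slitPlane) :
    HasDerivAt (L N) (dL N y) y := by
  have a1 : HasDerivAt Complex.log (y⁻¹) y := Complex.hasDerivAt_log h1
  have a2 : HasDerivAt (fun y : ℂ => Complex.log (1 - y)) ((-1) / (1 - y)) y := by
    have : HasDerivAt (fun y : ℂ => 1 - y) (-1) y := by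
      simpa using (hasDerivAt_id y).const_sub 1
    exact this.clog h2
  have := (a1.const_mul (N : ℂ)).add a2
  have e : dL N y = (N : ℂ) * y⁻¹ + -1 / (1 - y) := by
    unfold dL; ring
  rw [e]; exact this

lemma hasDerivAt_dL {N : ℝ} {y : ℂ} (h1 : y ≠ 0) (h2 : 1 - y ≠ 0) :
    HasDerivAt (dL N) (-(N : ℂ) / y ^ 2 - 1 / (1 - y) ^ 2) y := by
  have a1 : HasDerivAt (fun y : ℂ => (N : ℂ) / y) (-(N : ℂ) / y ^ 2) y := by
    have := (hasDerivAt_inv h1).const_mul (N : ℂ)
    refine (this.congr_deriv (by ring)).congr_of_eventuallyEq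
      (Eventually.of_forall fun y => by simp [div_eq_mul_inv])
  have a2 : HasDerivAt (fun y : ℂ => 1 / (1 - y)) (1 / (1 - y) ^ 2) y := by
    have h3 : HasDerivAt (fun y : ℂ => 1 - y) (-1) y := by
      simpa using (hasDerivAt_id y).const_sub 1
    have := h3.fun_inv h2
    refine (this.congr_deriv (by ring)).congr_of_eventuallyEq
      (Eventually.of_forall fun y => by simp)
  exact a1.sub a2

lemma slit_near {z : ℝ} (h0 : 0 < z) (h1 : z < 1) :
    ∀ᶠ y in 𝓝 (z : ℂ), y ∈ slitPlane ∧ 1 - y ∈ slitPlane := by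
  have a1 : (z : ℂ) ∈ slitPlane := by simp [slitPlane, h0]
  have a2 : 1 - (z : ℂ) ∈ slitPlane := by simp [slitPlane, h1]
  have b1 : ∀ᶠ y in 𝓝 (z : ℂ), y ∈ slitPlane := isOpen_slitPlane.mem_nhds a1
  have b2 : ∀ᶠ y in 𝓝 (z : ℂ), 1 - y ∈ slitPlane := by
    have : Continuous fun y : ℂ => 1 - y := by fun_prop
    exact this.tendsto (z : ℂ) (isOpen_slitPlane.mem_nhds a2)
  exact b1.and b2

lemma analyticAt_L {N z : ℝ} (h0 : 0 < z) (h1 : z < 1) : AnalyticAt ℂ (L N) (z : ℂ) := by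
  have : ∀ᶠ y in 𝓝 (z : ℂ), DifferentiableAt ℂ (L N) y :=
    (slit_near h0 h1).mono fun y hy => (hasDerivAt_L hy.1 hy.2).differentiableAt
  exact Complex.analyticAt_iff_eventually_differentiableAt.2 this

lemma L_real {N z : ℝ} (h0 : 0 < z) (h1 : z < 1) : L N (z : ℂ) = (ell N z : ℂ) := by
  have e1 : Complex.log (z : ℂ) = ((Real.log z : ℝ) : ℂ) := (Complex.ofReal_log h0.le).symm
  have e2 : Complex.log (1 - (z : ℂ)) = ((Real.log (1 - z) : ℝ) : ℂ) := by
    have : (1 - (z : ℂ)) = ((1 - z : ℝ) : ℂ) := by push_cast; ring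
    rw [this, ← Complex.ofReal_log (by linarith)]
  unfold L ell
  rw [e1, e2]; push_cast; ring

lemma L_conj {N : ℝ} {y : ℂ} (h1 : y ∈ slitPlane) (h2 : 1 - y ∈ slitPlane) :
    L N (cj y) = cj (L N y) := by
  unfold L
  have a1 : y.arg ≠ Real.pi := (Complex.mem_slitPlane_iff_arg.1 h1).1
  have a2 : (1 - y).arg ≠ Real.pi := (Complex.mem_slitPlane_iff_arg.1 h2).1
  have e1 := Complex.log_conj y a1
  have e2 := Complex.log_conj (1 - y) a2
  have e3 : (1 : ℂ) - cj y = cj (1 - y) := by simp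
  rw [e3, e1, e2]
  simp

lemma dL_real_ne {N z : ℝ} (hN : 1 < N) (h0 : 0 < z) (h1 : z < 1) (hn : z ≠ nn N) :
    N / z - 1 / (1 - z) ≠ 0 := by
  intro h
  apply hn
  have h1' : (1 - z) ≠ 0 := by linarith
  unfold nn
  field_simp at h
  field_simp
  linarith

lemma dL_ofReal {N z : ℝ} : dL N (z : ℂ) = ((N / z - 1 / (1 - z) : ℝ) : ℂ) := by
  unfold dL; push_cast; ring

/-- local inverse of `L` near a real point -/
lemma exists_inv {N z : ℝ} (hN : 1 < N) (h0 : 0 < z) (h1 : z < 1) (hn : z ≠ nn N) :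
    ∃ g : ℂ → ℂ, AnalyticAt ℂ g (ell N z : ℂ) ∧ g (ell N z : ℂ) = z ∧
      (∀ᶠ ζ in 𝓝 (ell N z : ℂ), L N (g ζ) = ζ) ∧ (∀ᶠ y in 𝓝 (z : ℂ), g (L N y) = y) := by
  have ha := analyticAt_L (N := N) h0 h1
  have hz1 : (z : ℂ) ∈ slitPlane := (slit_near h0 h1).self_of_nhds.1
  have hz2 : 1 - (z : ℂ) ∈ slitPlane := (slit_near h0 h1).self_of_nhds.2
  have hd : deriv (L N) (z : ℂ) ≠ 0 := by
    rw [(hasDerivAt_L hz1 hz2).deriv, dL_ofReal]
    exact_mod_cast dL_real_ne hN h0 h1 hn
  refine ⟨ha.hasStrictDerivAt.localInverse _ _ _ hd, ?_, ?_, ?_, ?_⟩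
  · rw [← L_real h0 h1]; exact ha.analyticAt_localInverse hd
  · rw [← L_real h0 h1]; exact HasStrictFDerivAt.localInverse_apply_image ..
  · rw [← L_real h0 h1]; exact ha.hasStrictDerivAt.eventually_right_inverse hd
  · exact ha.hasStrictDerivAt.eventually_left_inverse hd

/-! ## real analysis of `ell` -/

lemma nn_bounds {N : ℝ} (hN : 1 < N) : 1 / 2 < nn N ∧ nn N < 1 := by
  unfold nn
  constructor
  · rw [lt_div_iff₀ (by linarith)]; linarith
  · rw [div_lt_one (by linarith)]; linarith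

lemma nn_eq {N : ℝ} (hN : 1 < N) : N = (N + 1) * nn N := by
  unfold nn; field_simp

lemma hasDerivAt_ell {N y : ℝ} (h0 : 0 < y) (h1 : y < 1) :
    HasDerivAt (ell N) (N / y - 1 / (1 - y)) y := by
  have a1 : HasDerivAt Real.log (y⁻¹) y := Real.hasDerivAt_log h0.ne'
  have a2 : HasDerivAt (fun y : ℝ => Real.log (1 - y)) ((-1) / (1 - y)) y := by
    have : HasDerivAt (fun y : ℝ => 1 - y) (-1) y := by
      simpa using (hasDerivAt_id y).const_sub 1
    exact this.log (by linarith)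
  have := (a1.const_mul N).add a2
  exact this.congr_deriv (by ring)

/-- factored derivative -/
lemma phi_eq {N y : ℝ} (hN : 1 < N) (h0 : 0 < y) (h1 : y < 1) :
    N / y - 1 / (1 - y) = (N + 1) * (nn N - y) / (y * (1 - y)) := by
  have h2 : 1 - y ≠ 0 := by linarith
  have h3 := nn_eq hN
  rw [div_sub_div _ _ h0.ne' h2]
  congr 1
  linear_combination h3

lemma ell_cont {N : ℝ} : ContinuousOn (ell N) (Ioo 0 1) := fun _ hy =>
  (hasDerivAt_ell hy.1 hy.2).continuousAt.continuousWithinAt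

lemma ell_mono {N : ℝ} (hN : 1 < N) : StrictMonoOn (ell N) (Ioc 0 (nn N)) := by
  have hb := nn_bounds hN
  apply strictMonoOn_of_deriv_pos (convex_Ioc _ _)
  · exact ell_cont.mono fun y hy => ⟨hy.1, hy.2.trans_lt hb.2⟩
  · intro y hy
    rw [interior_Ioc] at hy
    have h1 : y < 1 := hy.2.trans hb.2
    rw [(hasDerivAt_ell hy.1 h1).deriv, phi_eq hN hy.1 h1]
    have : 0 < 1 - y := by linarith
    have h2 : 0 < nn N - y := by linarith [hy.2]
    have h3 : 0 < y := hy.1
    positivity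

lemma ell_anti {N : ℝ} (hN : 1 < N) : StrictAntiOn (ell N) (Ico (nn N) 1) := by
  have hb := nn_bounds hN
  apply strictAntiOn_of_deriv_neg (convex_Ico _ _)
  · exact ell_cont.mono fun y hy => ⟨by linarith [hy.1], hy.2⟩
  · intro y hy
    rw [interior_Ico] at hy
    have h0 : 0 < y := by linarith [hy.1]
    rw [(hasDerivAt_ell h0 hy.2).deriv, phi_eq hN h0 hy.2]
    have h1 : 0 < 1 - y := by linarith [hy.2]
    have h2 : 0 < y - nn N := by linarith [hy.1]
    have h3 : (N + 1) * (nn N - y) / (y * (1 - y)) = -((N + 1) * (y - nn N) / (y * (1 - y))) := by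
      ring
    rw [h3, neg_lt_zero]
    positivity

/-- `ell (n + t) < ell (n - t)` -/
lemma ell_refl {N t : ℝ} (hN : 1 < N) (h0 : 0 < t) (h1 : t < 1 - nn N) :
    ell N (nn N + t) < ell N (nn N - t) := by
  have hb := nn_bounds hN
  have hd : ∀ u ∈ Ico (0 : ℝ) (1 - nn N), HasDerivAt (fun u => ell N (nn N - u) - ell N (nn N + u))
      (-(N / (nn N - u) - 1 / (1 - (nn N - u))) - (N / (nn N + u) - 1 / (1 - (nn N + u)))) u := by
    intro u hu
    have a1 : HasDerivAt (fun u : ℝ => nn N - u) (-1) u := by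
      simpa using (hasDerivAt_id u).const_sub (nn N)
    have a2 : HasDerivAt (fun u : ℝ => nn N + u) 1 u := by
      simpa using (hasDerivAt_id u).const_add (nn N)
    have b1 := (hasDerivAt_ell (N := N) (y := nn N - u) (by linarith [hu.2]) (by linarith [hu.1]))
    have b2 := (hasDerivAt_ell (N := N) (y := nn N + u) (by linarith [hu.1]) (by linarith [hu.2]))
    have c1 := b1.comp u a1
    have c2 := b2.comp u a2
    exact (c1.sub c2).congr_deriv (by ring)
  have hm : StrictMonoOn (fun u => ell N (nn N - u) - ell N (nn N + u)) (Ico 0 (1 - nn N)) := by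
    apply strictMonoOn_of_deriv_pos (convex_Ico _ _)
    · exact fun u hu => (hd u hu).continuousAt.continuousWithinAt
    · intro u hu
      rw [interior_Ico] at hu
      rw [(hd u ⟨hu.1.le, hu.2⟩).deriv]
      have ha0 : 0 < nn N - u := by linarith [hu.2]
      have ha1 : nn N - u < 1 := by linarith [hu.1]
      have hb0 : 0 < nn N + u := by linarith [hu.1]
      have hb1 : nn N + u < 1 := by linarith [hu.2]
      rw [phi_eq hN ha0 ha1, phi_eq hN hb0 hb1]
      have e : -((N + 1) * (nn N - (nn N - u)) / ((nn N - u) * (1 - (nn N - u)))) -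
          (N + 1) * (nn N - (nn N + u)) / ((nn N + u) * (1 - (nn N + u))) =
          ((N + 1) * u) * (1 / ((nn N + u) * (1 - (nn N + u))) -
            1 / ((nn N - u) * (1 - (nn N - u)))) := by ring
      rw [e]
      have h3 : 0 < (nn N + u) * (1 - (nn N + u)) := mul_pos hb0 (by linarith)
      have h4 : (nn N + u) * (1 - (nn N + u)) < (nn N - u) * (1 - (nn N - u)) := by
        nlinarith [hu.1, hb.1]
      have h5 := one_div_lt_one_div_of_lt h3 h4
      have h6 : 0 < (N + 1) * u := mul_pos (by linarith) hu.1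
      exact mul_pos h6 (by linarith)
  have := hm (left_mem_Ico.2 (by linarith)) ⟨h0.le, h1⟩ h0
  simp only [sub_zero, add_zero, sub_self] at this
  linarith

lemma ell_small {N : ℝ} (hN : 1 < N) (c : ℝ) : ∃ y, nn N < y ∧ y < 1 ∧ ell N y < c := by
  have hb := nn_bounds hN
  set ε := min ((1 - nn N) / 2) (Real.exp c / 2) with hε
  have h1 : 0 < ε := lt_min (by linarith) (by positivity)
  have h2 : ε ≤ (1 - nn N) / 2 := min_le_left _ _
  have h3 : ε < Real.exp c := (min_le_right _ _).trans_lt (by linarith [Real.exp_pos c])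
  refine ⟨1 - ε, by linarith, by linarith, ?_⟩
  unfold ell
  have h4 : Real.log (1 - ε) ≤ 0 := Real.log_nonpos (by linarith) (by linarith)
  have h5 : Real.log (1 - (1 - ε)) < c := by
    rw [sub_sub_cancel, Real.log_lt_iff_lt_exp h1]; exact h3
  nlinarith

/-- one step of the real recursion -/
lemma exists_step {N t : ℝ} (hN : 1 < N) (h0 : 0 < t) (h1 : t ≤ 1 - nn N) :
    ∃ t' : ℝ, 0 < t' ∧ t' < t ∧ t' < 1 - nn N ∧ ell N (nn N + t') = ell N (nn N - t) := by
  have hb := nn_bounds hN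
  obtain ⟨y, hy1, hy2, hy3⟩ := ell_small hN (ell N (nn N - t))
  have hlt : ell N (nn N - t) < ell N (nn N) :=
    ell_mono hN ⟨by linarith, by linarith⟩ ⟨by linarith, le_rfl⟩ (by linarith)
  have hc : ContinuousOn (ell N) (Icc (nn N) y) :=
    ell_cont.mono fun z hz => ⟨by linarith [hz.1], by linarith [hz.2]⟩
  obtain ⟨w, hw, hwe⟩ := intermediate_value_Ioo' hy1.le hc ⟨hy3, hlt⟩
  refine ⟨w - nn N, by linarith [hw.1], ?_, by linarith [hw.2], by rw [← hwe]; congr 1; ring⟩
  by_contra hcon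
  push Not at hcon
  have h2 : t < 1 - nn N := by linarith [hw.2]
  have h3 := ell_refl hN h0 h2
  have h4 : ell N w ≤ ell N (nn N + t) :=
    (ell_anti hN).antitoneOn ⟨by linarith, by linarith⟩ ⟨by linarith [hw.1], by linarith [hw.2]⟩
      (by linarith)
  linarith

/-- the real orbit -/
lemma exists_orbit {N : ℝ} (hN : 1 < N) : ∃ t : ℕ → ℝ, t 0 = 1 - nn N ∧ (∀ k, 0 < t k) ∧
    (∀ k, t (k + 1) < t k) ∧ (∀ k, t (k + 1) < 1 - nn N) ∧
    (∀ k, ell N (nn N + t (k + 1)) = ell N (nn N - t k)) ∧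
    (∀ η : ℝ, 0 < η → ∃ k, t k < η) := by
  have hb := nn_bounds hN
  let S := {t : ℝ // 0 < t ∧ t ≤ 1 - nn N}
  choose F hF using fun s : S => exists_step hN s.2.1 s.2.2
  let F' : S → S := fun s => ⟨F s, (hF s).1, (hF s).2.2.1.le⟩
  let s0 : S := ⟨1 - nn N, by linarith, le_rfl⟩
  let t : ℕ → ℝ := fun k => ((F'^[k] s0 : S) : ℝ)
  have hstep : ∀ k, t (k + 1) = F (F'^[k] s0) := by
    intro k
    simp only [t, Function.iterate_succ', Function.comp_apply, F']
  have hpos : ∀ k, 0 < t k := fun k => (F'^[k] s0).2.1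
  have hlt : ∀ k, t (k + 1) < t k := fun k => by rw [hstep k]; exact (hF _).2.1
  have hlt1 : ∀ k, t (k + 1) < 1 - nn N := fun k => by rw [hstep k]; exact (hF _).2.2.1
  have he : ∀ k, ell N (nn N + t (k + 1)) = ell N (nn N - t k) := fun k => by
    rw [hstep k]; exact (hF _).2.2.2
  refine ⟨t, rfl, hpos, hlt, hlt1, he, ?_⟩
  intro η hη
  by_contra hcon
  push Not at hcon
  have hanti : Antitone t := antitone_nat_of_succ_le fun k => (hlt k).le
  have hbdd : BddBelow (range t) := ⟨η, by rintro _ ⟨k, rfl⟩; exact hcon k⟩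
  have hlim := tendsto_atTop_ciInf hanti hbdd
  set τ := ⨅ k, t k with hτ
  have hτη : η ≤ τ := le_ciInf hcon
  have hτ1 : τ < 1 - nn N := (ciInf_le hbdd 1).trans_lt (hlt1 0)
  have hlim1 : Tendsto (fun k => t (k + 1)) atTop (𝓝 τ) := hlim.comp (tendsto_add_atTop_nat 1)
  have c1 : ContinuousAt (ell N) (nn N + τ) :=
    (hasDerivAt_ell (by linarith) (by linarith)).continuousAt
  have c2 : ContinuousAt (ell N) (nn N - τ) :=
    (hasDerivAt_ell (by linarith) (by linarith)).continuousAt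
  have l1 : Tendsto (fun k => ell N (nn N + t (k + 1))) atTop (𝓝 (ell N (nn N + τ))) :=
    c1.tendsto.comp (hlim1.const_add _)
  have l2 : Tendsto (fun k => ell N (nn N - t k)) atTop (𝓝 (ell N (nn N - τ))) :=
    c2.tendsto.comp (hlim.const_sub _)
  have l3 : Tendsto (fun k => ell N (nn N + t (k + 1))) atTop (𝓝 (ell N (nn N - τ))) := by
    simpa only [he] using l2
  have := tendsto_nhds_unique l1 l3
  have h2 := ell_refl hN (hη.trans_le hτη) hτ1
  linarith

/-! ## germs of `b` at real points -/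

/-- `e` is the germ of `b` at the real point `x`, with real value `v` -/
structure PG (x v : ℝ) (b e : ℂ → ℂ) : Prop where
  an : AnalyticAt ℂ e 0
  val : e 0 = (v : ℂ)
  real : ∀ᶠ δ in 𝓝 (0 : ℂ), e (cj δ) = cj (e δ)
  d1 : ∃ e1 : ℝ, 0 < e1 ∧ deriv e 0 = (e1 : ℂ)
  d2 : ∃ e2 : ℝ, e2 < 0 ∧ deriv (deriv e) 0 = (e2 : ℂ)
  eq : ∀ᶠ δ in 𝓝[UH] (0 : ℂ), b ((x : ℂ) + δ) = e δ

/-- the real computation of the second derivative -/
lemma second_neg {N z w e1 e2 f1 f2 : ℝ} (hN : 1 < N) (hz0 : 0 < z) (hz : z < nn N)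
    (hw : nn N < w) (hw1 : w < 1) (hzw : w - nn N < nn N - z) (he1 : 0 < e1) (he2 : e2 < 0)
    (hf1 : (N / z - 1 / (1 - z)) * f1 = -(N / w - 1 / (1 - w)) * e1)
    (hf2 : (-N / z ^ 2 - 1 / (1 - z) ^ 2) * f1 ^ 2 + (N / z - 1 / (1 - z)) * f2 =
      (-N / w ^ 2 - 1 / (1 - w) ^ 2) * e1 ^ 2 - (N / w - 1 / (1 - w)) * e2) :
    0 < f1 ∧ f2 < 0 := by
  have hb := nn_bounds hN
  have hn := nn_eq hN
  have hz1 : z < 1 := by linarith
  have hw0 : 0 < w := by linarith
  set A := N / z - 1 / (1 - z) with hA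
  set B := N / w - 1 / (1 - w) with hB
  have hAe : A = (N + 1) * (nn N - z) / (z * (1 - z)) := phi_eq hN hz0 hz1
  have hBe : B = (N + 1) * (nn N - w) / (w * (1 - w)) := phi_eq hN hw0 hw1
  have p1 : 0 < 1 - z := by linarith
  have p2 : 0 < 1 - w := by linarith
  have p3 : 0 < nn N - z := by linarith
  have p4 : 0 < w - nn N := by linarith
  have hA0 : 0 < A := by rw [hAe]; positivity
  have hB0 : B < 0 := by
    rw [hBe]
    have h3 : (N + 1) * (nn N - w) / (w * (1 - w)) = -((N + 1) * (w - nn N) / (w * (1 - w))) := by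
      ring
    rw [h3, neg_lt_zero]
    positivity
  have hf1' : 0 < f1 := by
    have : 0 < A * f1 := by rw [hf1]; nlinarith
    exact (pos_iff_pos_of_mul_pos this).1 hA0
  refine ⟨hf1', ?_⟩
  -- second derivatives of `ell`
  set A' := -N / z ^ 2 - 1 / (1 - z) ^ 2 with hA'
  set B' := -N / w ^ 2 - 1 / (1 - w) ^ 2 with hB'
  -- A' / A ^ 2 formula
  have key : ∀ y : ℝ, 0 < y → y < 1 → y ≠ nn N → (-N / y ^ 2 - 1 / (1 - y) ^ 2) =
      -(nn N + (N + 1) * (y - nn N) ^ 2) / ((N + 1) ^ 2 * (y - nn N) ^ 2) *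
        (N / y - 1 / (1 - y)) ^ 2 := by
    intro y h0 h1 hne
    rw [phi_eq hN h0 h1]
    have q1 : y - nn N ≠ 0 := sub_ne_zero.2 hne
    have q2 : (1 - y) ≠ 0 := by linarith
    have q3 : N + 1 ≠ 0 := by linarith
    have e1 : -(nn N + (N + 1) * (y - nn N) ^ 2) / ((N + 1) ^ 2 * (y - nn N) ^ 2) *
        ((N + 1) * (nn N - y) / (y * (1 - y))) ^ 2 =
        -(nn N + (N + 1) * (y - nn N) ^ 2) / (y ^ 2 * (1 - y) ^ 2) := by
      field_simp
      ring
    rw [e1, div_sub_div _ _ (pow_ne_zero 2 h0.ne') (pow_ne_zero 2 q2)]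
    congr 1
    linear_combination (2 * y - 1 - nn N) * hn
  have kA : A' = _ := key z hz0 hz1 hz.ne
  have kB : B' = _ := key w hw0 hw1 hw.ne'
  rw [← hA] at kA
  rw [← hB] at kB
  -- compare
  have hsq : (w - nn N) ^ 2 < (z - nn N) ^ 2 := by nlinarith
  have hw2 : 0 < (w - nn N) ^ 2 := by positivity
  have hz2 : 0 < (z - nn N) ^ 2 := by linarith
  have hr : ∀ u : ℝ, 0 < u → -(nn N + (N + 1) * u) / ((N + 1) ^ 2 * u) =
      -(nn N / (N + 1) ^ 2) * (1 / u) - 1 / (N + 1) := by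
    intro u hu
    have q3 : N + 1 ≠ 0 := by linarith
    field_simp
    ring
  rw [hr _ hz2] at kA
  rw [hr _ hw2] at kB
  have hinv := one_div_lt_one_div_of_lt hw2 hsq
  have hc : 0 < nn N / (N + 1) ^ 2 := div_pos (by linarith) (by positivity)
  have e3 : A ^ 2 * f1 ^ 2 = B ^ 2 * e1 ^ 2 := by
    have : (A * f1) ^ 2 = (-B * e1) ^ 2 := by rw [hf1]
    linear_combination this
  have e4 : A' * f1 ^ 2 = (-(nn N / (N + 1) ^ 2) * (1 / (z - nn N) ^ 2) - 1 / (N + 1)) *
      (B ^ 2 * e1 ^ 2) := by rw [kA, ← e3]; ring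
  have e5 : B' * e1 ^ 2 = (-(nn N / (N + 1) ^ 2) * (1 / (w - nn N) ^ 2) - 1 / (N + 1)) *
      (B ^ 2 * e1 ^ 2) := by rw [kB]; ring
  have hpos : 0 < B ^ 2 * e1 ^ 2 := by
    have : B ≠ 0 := hB0.ne
    positivity
  have e6 : A * f2 = -(nn N / (N + 1) ^ 2) * (1 / (w - nn N) ^ 2 - 1 / (z - nn N) ^ 2) *
      (B ^ 2 * e1 ^ 2) - B * e2 := by
    have : A * f2 = B' * e1 ^ 2 - B * e2 - A' * f1 ^ 2 := by linarith
    rw [this, e4, e5]; ring
  have e7 : A * f2 < 0 := by
    rw [e6]
    have h1 : 0 < nn N / (N + 1) ^ 2 * (1 / (w - nn N) ^ 2 - 1 / (z - nn N) ^ 2) *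
      (B ^ 2 * e1 ^ 2) := mul_pos (mul_pos hc (by linarith)) hpos
    have h2 : 0 < B * e2 := mul_pos_of_neg_of_neg hB0 he2
    have h3 : -(nn N / (N + 1) ^ 2) * (1 / (w - nn N) ^ 2 - 1 / (z - nn N) ^ 2) *
      (B ^ 2 * e1 ^ 2) = -(nn N / (N + 1) ^ 2 * (1 / (w - nn N) ^ 2 - 1 / (z - nn N) ^ 2) *
      (B ^ 2 * e1 ^ 2)) := by ring
    rw [h3]; linarith
  by_contra hcon
  push Not at hcon
  exact absurd e7 (not_lt.2 (mul_nonneg hA0.le hcon))

/-- one step of the continuation to the left along the real line -/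
lemma step {N ρ : ℝ} {G b : ℂ → ℂ} (hN : 1 < N) (hinj : InjOn (L N) UH) (hb : Cont N ρ G b)
    {x w z : ℝ} (hz0 : 0 < z) (hz : z < nn N) (hw : nn N < w) (hw1 : w < 1)
    (hzw : w - nn N < nn N - z) (hell : ell N w = ell N z) {e : ℂ → ℂ}
    (he : PG (x + 1) (2 * nn N - w) b e) : ∃ f : ℂ → ℂ, PG x z b f := by
  have hbd := nn_bounds hN
  have hz1 : z < 1 := by linarith
  have hw0 : 0 < w := by linarith
  obtain ⟨g, hga, hgv, hgr, hgl⟩ := exists_inv hN hz0 hz1 hz.ne
  set p : ℂ → ℂ := fun δ => 2 * (nn N : ℂ) - e δ with hp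
  have hp0 : p 0 = (w : ℂ) := by
    simp only [hp, he.val]; push_cast; ring
  have hpa : AnalyticAt ℂ p 0 := analyticAt_const.sub he.an
  have hpt : Tendsto p (𝓝 0) (𝓝 (w : ℂ)) := by
    have := hpa.continuousAt.tendsto
    rwa [hp0] at this
  have hLp0 : L N (p 0) = (ell N z : ℂ) := by rw [hp0, L_real hw0 hw1, hell]
  have hLa : AnalyticAt ℂ (fun δ => L N (p δ)) 0 := by
    have : AnalyticAt ℂ (L N) (p 0) := by rw [hp0]; exact analyticAt_L hw0 hw1
    exact this.comp hpa
  have hLt : Tendsto (fun δ => L N (p δ)) (𝓝 0) (𝓝 (ell N z : ℂ)) := by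
    have := hLa.continuousAt.tendsto
    rwa [hLp0] at this
  set f : ℂ → ℂ := fun δ => g (L N (p δ)) with hf
  have hfa : AnalyticAt ℂ f 0 := by
    have : AnalyticAt ℂ g (L N (p 0)) := by rw [hLp0]; exact hga
    exact AnalyticAt.comp (g := g) (f := fun δ => L N (p δ)) this hLa
  have hf0 : f 0 = (z : ℂ) := by simp only [hf, hLp0, hgv]
  have hft : Tendsto f (𝓝 0) (𝓝 (z : ℂ)) := by
    have := hfa.continuousAt.tendsto
    rwa [hf0] at this
  have hLf : ∀ᶠ δ in 𝓝 (0 : ℂ), L N (f δ) = L N (p δ) := hLt.eventually hgr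
  -- reality
  have hgreal : ∀ᶠ ζ in 𝓝 (ell N z : ℂ), g (cj ζ) = cj (g ζ) := by
    have hgt : Tendsto g (𝓝 (ell N z : ℂ)) (𝓝 (z : ℂ)) := by
      have := hga.continuousAt.tendsto
      rwa [hgv] at this
    have hct : Tendsto (fun y : ℂ => cj y) (𝓝 (z : ℂ)) (𝓝 (z : ℂ)) := by
      have := (Complex.continuous_conj).tendsto (z : ℂ)
      simpa using this
    filter_upwards [hgr, (hct.comp hgt).eventually hgl, hgt.eventually (slit_near hz0 hz1)]
      with ζ h1 h2 h3
    simp only [Function.comp_apply] at h2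
    rw [L_conj h3.1 h3.2, h1] at h2
    exact h2
  have hfreal : ∀ᶠ δ in 𝓝 (0 : ℂ), f (cj δ) = cj (f δ) := by
    filter_upwards [hLt.eventually hgreal, he.real, hpt.eventually (slit_near hw0 hw1)]
      with δ h1 h2 h3
    have h4 : p (cj δ) = cj (p δ) := by
      simp only [hp, h2, map_sub, map_mul, Complex.conj_ofReal, map_ofNat]
    simp only [hf]
    rw [h4, L_conj h3.1 h3.2, h1]
  -- derivatives
  obtain ⟨e1, he1, he1'⟩ := he.d1
  obtain ⟨e2, he2, he2'⟩ := he.d2
  have hfd : ∀ᶠ δ in 𝓝 (0 : ℂ), DifferentiableAt ℂ f δ :=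
    hfa.eventually_analyticAt.mono fun z hz => hz.differentiableAt
  have hed : ∀ᶠ δ in 𝓝 (0 : ℂ), DifferentiableAt ℂ e δ :=
    he.an.eventually_analyticAt.mono fun z hz => hz.differentiableAt
  have hder : ∀ᶠ δ in 𝓝 (0 : ℂ), dL N (f δ) * deriv f δ = -(dL N (p δ) * deriv e δ) := by
    filter_upwards [hLf.eventually_nhds, hfd, hed, hft.eventually (slit_near hz0 hz1),
      hpt.eventually (slit_near hw0 hw1)] with δ h1 h2 h3 h4 h5
    have d1 : HasDerivAt (fun δ => L N (f δ)) (dL N (f δ) * deriv f δ) δ :=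
      (hasDerivAt_L h4.1 h4.2).comp δ h2.hasDerivAt
    have d3 : HasDerivAt p (-deriv e δ) δ := h3.hasDerivAt.const_sub _
    have d2 : HasDerivAt (fun δ => L N (p δ)) (dL N (p δ) * (-deriv e δ)) δ :=
      (hasDerivAt_L h5.1 h5.2).comp δ d3
    have := (d1.congr_of_eventuallyEq (h1.mono fun _ h => h.symm)).unique d2
    rw [this]; ring
  have hfdr := deriv_real hfreal
  obtain ⟨f1, hf1⟩ : ∃ f1 : ℝ, deriv f 0 = (f1 : ℂ) :=
    ⟨(deriv f 0).re, Complex.ext (by simp) (by simp [im_zero_of_real hfdr])⟩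
  obtain ⟨f2, hf2⟩ : ∃ f2 : ℝ, deriv (deriv f) 0 = (f2 : ℂ) :=
    ⟨(deriv (deriv f) 0).re, Complex.ext (by simp)
      (by simp [im_zero_of_real (deriv_real hfdr)])⟩
  have hz1' : (z : ℂ) ≠ 0 := by exact_mod_cast hz0.ne'
  have hz2' : 1 - (z : ℂ) ≠ 0 := by
    have : (1 - z) ≠ 0 := by linarith
    exact_mod_cast this
  have hw1' : (w : ℂ) ≠ 0 := by exact_mod_cast hw0.ne'
  have hw2' : 1 - (w : ℂ) ≠ 0 := by
    have : (1 - w) ≠ 0 := by linarith
    exact_mod_cast this
  have eq1 : (N / z - 1 / (1 - z)) * f1 = -(N / w - 1 / (1 - w)) * e1 := by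
    have := hder.self_of_nhds
    rw [hf0, hp0, dL_ofReal, dL_ofReal, hf1, he1'] at this
    have h2 : (((N / z - 1 / (1 - z)) * f1 : ℝ) : ℂ) = ((-(N / w - 1 / (1 - w)) * e1 : ℝ) : ℂ) := by
      rw [Complex.ofReal_mul, this]; push_cast; ring
    exact_mod_cast h2
  have eq2 : (-N / z ^ 2 - 1 / (1 - z) ^ 2) * f1 ^ 2 + (N / z - 1 / (1 - z)) * f2 =
      (-N / w ^ 2 - 1 / (1 - w) ^ 2) * e1 ^ 2 - (N / w - 1 / (1 - w)) * e2 := by
    have hdf : HasDerivAt f (f1 : ℂ) 0 := by
      rw [← hf1]; exact hfa.differentiableAt.hasDerivAt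
    have hde : HasDerivAt e (e1 : ℂ) 0 := by
      rw [← he1']; exact he.an.differentiableAt.hasDerivAt
    have hddf : HasDerivAt (deriv f) (f2 : ℂ) 0 := by
      rw [← hf2]; exact hfa.deriv.differentiableAt.hasDerivAt
    have hdde : HasDerivAt (deriv e) (e2 : ℂ) 0 := by
      rw [← he2']; exact he.an.deriv.differentiableAt.hasDerivAt
    have hdp : HasDerivAt p (-(e1 : ℂ)) 0 := hde.const_sub _
    have a1 : HasDerivAt (fun δ => dL N (f δ))
        ((-(N : ℂ) / (z : ℂ) ^ 2 - 1 / (1 - (z : ℂ)) ^ 2) * f1) 0 := by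
      have := hasDerivAt_dL (N := N) hz1' hz2'
      rw [← hf0] at this
      have := this.comp (0 : ℂ) hdf
      rw [hf0] at this
      exact this
    have a2 : HasDerivAt (fun δ => dL N (p δ))
        ((-(N : ℂ) / (w : ℂ) ^ 2 - 1 / (1 - (w : ℂ)) ^ 2) * (-(e1 : ℂ))) 0 := by
      have := hasDerivAt_dL (N := N) hw1' hw2'
      rw [← hp0] at this
      have := this.comp (0 : ℂ) hdp
      rw [hp0] at this
      exact this
    have b1 := a1.mul hddf
    have b2 := (a2.mul hdde).neg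
    have hder' : (fun δ => dL N (f δ) * deriv f δ) =ᶠ[𝓝 0]
      (fun δ => -(dL N (p δ) * deriv e δ)) := hder
    have := (b1.congr_of_eventuallyEq hder'.symm).unique b2
    rw [hf0, hp0, dL_ofReal, dL_ofReal, hf1, he1'] at this
    have h2 : (((-N / z ^ 2 - 1 / (1 - z) ^ 2) * f1 ^ 2 + (N / z - 1 / (1 - z)) * f2 : ℝ) : ℂ) =
        (((-N / w ^ 2 - 1 / (1 - w) ^ 2) * e1 ^ 2 - (N / w - 1 / (1 - w)) * e2 : ℝ) : ℂ) := by
      push_cast
      push_cast at this
      linear_combination this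
    exact_mod_cast h2
  obtain ⟨hf1p, hf2n⟩ := second_neg hN hz0 hz hw hw1 hzw he1 he2 eq1 eq2
  have hfUH := maps_UH hfa hfreal hf1p hf1
  refine ⟨f, hfa, hf0, hfreal, ⟨f1, hf1p, hf1⟩, ⟨f2, hf2n, hf2⟩, ?_⟩
  filter_upwards [hfUH, he.eq, nhdsWithin_le_nhds hLf, self_mem_nhdsWithin] with δ h1 h2 h3 h4
  have hs : (x : ℂ) + δ ∈ UH := by
    simp only [UH, Set.mem_ofPred_eq] at h4 ⊢
    simpa using h4
  apply hinj (hb.maps _ hs) h1
  rw [hb.eq _ hs, h3]
  have : (x : ℂ) + δ + 1 = ((x + 1 : ℝ) : ℂ) + δ := by push_cast; ring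
  rw [this, h2]

/-- the germ of `b` at a real point beyond `ρ` -/
lemma base {N ρ : ℝ} {G b : ℂ → ℂ} (hG : GF N ρ G) (hb : Cont N ρ G b) {x : ℝ} (hx : ρ < x) :
    PG x (nn N + (G x).re) b (fun δ => (nn N : ℂ) + G ((x : ℂ) + δ)) := by
  have hρ := hG.hρ
  have hx0 : 0 < x := by linarith
  have hopen : IsOpen {s : ℂ | ρ < ‖s‖} := isOpen_lt continuous_const continuous_norm
  have hxm : (x : ℂ) ∈ {s : ℂ | ρ < ‖s‖} := by
    simp only [Set.mem_ofPred_eq, Complex.norm_real, Real.norm_eq_abs, abs_of_pos hx0]; exact hx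
  have hGa : ∀ s : ℂ, ρ < ‖s‖ → AnalyticAt ℂ G s := fun s hs =>
    (hG.an.analyticOnNhd hopen) s hs
  have hGx := hGa _ hxm
  have hGxr : (G x).im = 0 := by
    have := hG.real x hxm
    rw [Complex.conj_ofReal] at this
    exact Complex.conj_eq_iff_im.1 this.symm
  have hshift : AnalyticAt ℂ (fun δ : ℂ => (x : ℂ) + δ) 0 := analyticAt_const.add analyticAt_id
  have hea : AnalyticAt ℂ (fun δ => (nn N : ℂ) + G ((x : ℂ) + δ)) 0 := by
    have : AnalyticAt ℂ G ((fun δ : ℂ => (x : ℂ) + δ) 0) := by simpa using hGx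
    exact analyticAt_const.add (AnalyticAt.comp (g := G) (f := fun δ : ℂ => (x : ℂ) + δ) this hshift)
  have hst : Tendsto (fun δ : ℂ => (x : ℂ) + δ) (𝓝 0) (𝓝 (x : ℂ)) := by
    have := hshift.continuousAt.tendsto
    simpa using this
  have hmem : ∀ᶠ δ in 𝓝 (0 : ℂ), ρ < ‖(x : ℂ) + δ‖ := hst.eventually (hopen.mem_nhds hxm)
  have hreal : ∀ᶠ δ in 𝓝 (0 : ℂ), (fun δ => (nn N : ℂ) + G ((x : ℂ) + δ)) (cj δ) =
      cj ((fun δ => (nn N : ℂ) + G ((x : ℂ) + δ)) δ) := by
    filter_upwards [hmem] with δ hδ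
    have := hG.real _ hδ
    simp only [map_add, Complex.conj_ofReal] at this ⊢
    rw [this]
  have hd : ∀ᶠ δ in 𝓝 (0 : ℂ), deriv (fun δ => (nn N : ℂ) + G ((x : ℂ) + δ)) δ =
      deriv G ((x : ℂ) + δ) := by
    filter_upwards [hmem] with δ hδ
    have h1 : HasDerivAt (fun δ : ℂ => (x : ℂ) + δ) 1 δ := by
      simpa using (hasDerivAt_id δ).const_add (x : ℂ)
    have h2 := (hGa _ hδ).differentiableAt.hasDerivAt
    have h3 := (h2.comp δ h1).const_add (nn N : ℂ)
    simpa using h3.deriv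
  have hd0 : deriv (fun δ => (nn N : ℂ) + G ((x : ℂ) + δ)) 0 = deriv G (x : ℂ) := by
    simpa using hd.self_of_nhds
  have hdd0 : deriv (deriv (fun δ => (nn N : ℂ) + G ((x : ℂ) + δ))) 0 =
      deriv (deriv G) (x : ℂ) := by
    have e1 : deriv (fun δ => (nn N : ℂ) + G ((x : ℂ) + δ)) =ᶠ[𝓝 0]
      fun δ => deriv G ((x : ℂ) + δ) := hd
    rw [e1.deriv_eq]
    have h1 : HasDerivAt (fun δ : ℂ => (x : ℂ) + δ) 1 0 := by
      simpa using (hasDerivAt_id (0 : ℂ)).const_add (x : ℂ)
    have h2 : HasDerivAt (deriv G) (deriv (deriv G) ((x : ℂ) + 0)) ((x : ℂ) + 0) := by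
      simpa using hGx.deriv.differentiableAt.hasDerivAt
    have h3 := h2.comp (0 : ℂ) h1
    simpa [Function.comp_def] using h3.deriv
  have hr1 := deriv_real (e := fun δ => (nn N : ℂ) + G ((x : ℂ) + δ)) hreal
  have hr2 := deriv_real hr1
  have i1 := im_zero_of_real hr1
  have i2 := im_zero_of_real hr2
  refine ⟨hea, ?_, hreal, ⟨(deriv G x).re, hG.dpos x hx, ?_⟩,
    ⟨(deriv (deriv G) x).re, hG.dneg x hx, ?_⟩, ?_⟩
  · apply Complex.ext <;> simp [hGxr]
  · rw [hd0] at i1 ⊢
    exact Complex.ext (by simp) (by simp [i1])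
  · rw [hdd0] at i2 ⊢
    exact Complex.ext (by simp) (by simp [i2])
  · filter_upwards [nhdsWithin_le_nhds hmem, self_mem_nhdsWithin] with δ h1 h2
    have hs : (x : ℂ) + δ ∈ UH := by
      simp only [UH, Set.mem_ofPred_eq] at h2 ⊢
      simpa using h2
    exact hb.ext _ hs h1

/-- **H4-3** -/
theorem leaf3 (h1a : Leaf1a) : Leaf3 := by
  intro N ρ G b hG hb
  have hN := hG.hN
  have hρ := hG.hρ
  have hbd := nn_bounds hN
  have hinj := (h1a N hN).1
  obtain ⟨t, ht0, htp, htl, htl1, hte, hts⟩ := exists_orbit hN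
  -- a real function
  set u : ℝ → ℝ := fun x => nn N + (G x).re with hu
  have hcont : ContinuousOn u (Ioi ρ) := by
    intro x hx
    have hx0 : 0 < x := by have : ρ < x := hx; linarith
    have hopen : IsOpen {s : ℂ | ρ < ‖s‖} := isOpen_lt continuous_const continuous_norm
    have hxm : (x : ℂ) ∈ {s : ℂ | ρ < ‖s‖} := by
      simp only [Set.mem_ofPred_eq, Complex.norm_real, Real.norm_eq_abs, abs_of_pos hx0]; exact hx
    have h1 : ContinuousAt G (x : ℂ) := (hG.an.differentiableAt (hopen.mem_nhds hxm)).continuousAt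
    have h2 : ContinuousAt (fun x : ℝ => G (x : ℂ)) x :=
      ContinuousAt.comp (f := fun x : ℝ => (x : ℂ)) h1 Complex.continuous_ofReal.continuousAt
    have h3 : ContinuousAt (fun x : ℝ => (G (x : ℂ)).re) x :=
      Complex.continuous_re.continuousAt.comp h2
    exact (continuousAt_const.add h3).continuousWithinAt
  have hlim : Tendsto u atTop (𝓝 (nn N)) := by
    have h1 : Tendsto (fun x : ℝ => (x : ℂ)) atTop (cocompact ℂ) := by
      rw [← Metric.cobounded_eq_cocompact, ← tendsto_norm_atTop_iff_cobounded]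
      simp only [Complex.norm_real]
      exact tendsto_norm_atTop_atTop
    have h2 : Tendsto (fun x : ℝ => (G (x : ℂ)).re) atTop (𝓝 0) := by
      have := (Complex.continuous_re.tendsto 0).comp (hG.lim.comp h1)
      simpa [Function.comp_def] using this
    simpa [hu] using h2.const_add (nn N)
  have hu1 : u (ρ + 1) < nn N := by
    have := hG.neg (ρ + 1) (by linarith)
    simp only [hu]; push_cast at this ⊢; linarith
  obtain ⟨K, hK⟩ := hts (nn N - u (ρ + 1)) (by linarith)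
  have hlt : nn N - t K < nn N := by linarith [htp K]
  obtain ⟨x2, hx2, hx2'⟩ := ((hlim.eventually (lt_mem_nhds hlt)).and
    (eventually_ge_atTop (ρ + 1))).exists
  obtain ⟨x, hx, hxe⟩ := intermediate_value_Icc hx2'
    (hcont.mono fun y hy => by
      have := hy.1
      simp only [Set.mem_Ioi]; linarith) ⟨by linarith, hx2.le⟩
  have hxρ : ρ < x := by linarith [hx.1]
  -- induction to the left
  have hind : ∀ j : ℕ, j ≤ K → ∃ e, PG (x - j) (nn N - t (K - j)) b e := by
    intro j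
    induction j with
    | zero =>
      intro _
      have := base hG hb hxρ
      have e1 : nn N + (G x).re = nn N - t K := hxe
      rw [e1] at this
      exact ⟨_, by simpa using this⟩
    | succ j ih =>
      intro hj
      obtain ⟨e, he⟩ := ih (by omega)
      set k := K - (j + 1) with hk
      have hk1 : K - j = k + 1 := by omega
      rw [hk1] at he
      have hx1 : x - ((j + 1 : ℕ) : ℝ) + 1 = x - j := by push_cast; ring
      have he' : PG (x - ((j + 1 : ℕ) : ℝ) + 1) (2 * nn N - (nn N + t (k + 1))) b e := by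
        rw [hx1]
        have : 2 * nn N - (nn N + t (k + 1)) = nn N - t (k + 1) := by ring
        rw [this]; exact he
      have htk : t k ≤ 1 - nn N := by
        rcases Nat.eq_zero_or_pos k with h0 | h0
        · rw [h0, ht0]
        · obtain ⟨m, hm⟩ : ∃ m, k = m + 1 := ⟨k - 1, by omega⟩
          rw [hm]; exact (htl1 m).le
      exact step hN hinj hb (by linarith [htk]) (by linarith [htp k]) (by linarith [htp (k + 1)])
        (by linarith [htl1 k]) (by linarith [htl k]) (hte k) he'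
  obtain ⟨e, he⟩ := hind K le_rfl
  rw [Nat.sub_self, ht0] at he
  refine ⟨x - K - 1, fun δ => e δ - (2 * (nn N : ℂ) - 1), ?_⟩
  have hval : e 0 = 2 * (nn N : ℂ) - 1 := by
    rw [he.val]; push_cast; ring
  have hda : ∀ δ, deriv (fun δ => e δ - (2 * (nn N : ℂ) - 1)) δ = deriv e δ := fun δ => by
    simp
  have hda' : deriv (fun δ => e δ - (2 * (nn N : ℂ) - 1)) = deriv e := funext hda
  refine ⟨he.an.sub analyticAt_const, by simp [hval], ?_, ?_, ?_, ?_⟩
  · filter_upwards [he.real] with δ hδ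
    simp only [hδ, map_sub, map_mul, Complex.conj_ofReal, map_ofNat, map_one]
  · rw [hda']; exact he.d1
  · rw [hda']; exact he.d2
  · filter_upwards [he.eq] with δ hδ
    have : ((x - K - 1 : ℝ) : ℂ) + 1 + δ = ((x - K : ℝ) : ℂ) + δ := by push_cast; ring
    rw [this, hδ]; ring

end Crest.Agent.R102.H4.L3
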