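import Crest.Agent.R102.H4Defs_490
import Mathlib

-- ▼ part R102/H4L2b_872
section

/-!
# Row 102, [H4], leaf 2b: injectivity, reflection symmetry and signs of the continuation `b`
-/

open Complex Set Filter Topology

noncomputable section

namespace Crest.Agent.R102.H4

namespace L2b872

lemma isOpen_UH : IsOpen UH := isOpen_lt continuous_const Complex.continuous_im

lemma convex_UH : Convex ℝ UH := by
  have : UH = Complex.imLm ⁻¹' (Set.Ioi 0) := by
    ext z; simp [UH]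
  rw [this]
  exact (convex_Ioi 0).linear_preimage Complex.imLm

lemma add_mem_UH {s : ℂ} (hs : s ∈ UH) (x : ℝ) : s + x ∈ UH := by
  simpa [UH] using hs

lemma star_mem_UH {s : ℂ} (hs : s ∈ UH) : -(starRingEnd ℂ) s ∈ UH := by
  simpa [UH] using hs

lemma nn_pos {N : ℝ} (hN : 1 < N) : 1 / 2 < nn N := by
  unfold nn
  rw [lt_div_iff₀ (by linarith)]; linarith

lemma nn_lt_one {N : ℝ} (hN : 1 < N) : nn N < 1 := by
  unfold nn
  rw [div_lt_one (by linarith)]; linarith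

/-- injectivity of `L` on the lower half plane -/
lemma inj_low {N : ℝ} (hN : 1 < N) (h1a : Leaf1a) (h1c : Leaf1c) {z w : ℂ} (hz : z ∈ UH)
    (hw : w ∈ UH) (h : L N (2 * (nn N : ℂ) - z) = L N (2 * (nn N : ℂ) - w)) : z = w := by
  have key : ∀ u : ℂ, u ∈ UH → (2 * (nn N : ℂ) - (starRingEnd ℂ) u) ∈ UH ∧
      L N (2 * (nn N : ℂ) - u) = (starRingEnd ℂ) (L N (2 * (nn N : ℂ) - (starRingEnd ℂ) u)) := by
    intro u hu
    have h1 : (2 * (nn N : ℂ) - (starRingEnd ℂ) u) ∈ UH := by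
      simpa [UH] using hu
    refine ⟨h1, ?_⟩
    rw [← (h1c N hN).cj _ h1]
    congr 1
    rw [map_sub, map_mul, Complex.conj_ofReal, Complex.conj_conj, Complex.conj_ofNat]
  obtain ⟨hz1, hz2⟩ := key z hz
  obtain ⟨hw1, hw2⟩ := key w hw
  rw [hz2, hw2] at h
  have h3 := (h1a N hN).1 hz1 hw1 ((starRingEnd ℂ).injective h)
  have h4 : (starRingEnd ℂ) z = (starRingEnd ℂ) w := by
    linear_combination -h3
  exact (starRingEnd ℂ).injective h4

lemma norm_add_nat {s : ℂ} {ρ : ℝ} {k : ℕ} (hk : ρ + ‖s‖ < k) : ρ < ‖s + (k : ℂ)‖ := by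
  have h1 : ‖(k : ℂ)‖ ≤ ‖s + (k : ℂ)‖ + ‖s‖ := by
    calc ‖(k : ℂ)‖ = ‖(s + (k : ℂ)) - s‖ := by congr 1; ring
      _ ≤ _ := norm_sub_le _ _
  rw [Complex.norm_natCast] at h1
  linarith

theorem b_inj (h1a : Leaf1a) (h1c : Leaf1c) {N ρ : ℝ} {G b : ℂ → ℂ} (hG : GF N ρ G)
    (hb : Cont N ρ G b) : Set.InjOn b UH := by
  intro s hs t ht hst
  have key : ∀ k : ℕ, b (s + k) = b (t + k) := by
    intro k
    induction k with
    | zero => simpa using hst
    | succ k ih =>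
      have hs' : s + (k : ℂ) ∈ UH := by simpa using add_mem_UH hs (k : ℝ)
      have ht' : t + (k : ℂ) ∈ UH := by simpa using add_mem_UH ht (k : ℝ)
      have e1 := hb.eq _ hs'
      have e2 := hb.eq _ ht'
      rw [ih, e2] at e1
      have hs2 : s + (k : ℂ) + 1 ∈ UH := by simpa using add_mem_UH hs' (1 : ℝ)
      have ht2 : t + (k : ℂ) + 1 ∈ UH := by simpa using add_mem_UH ht' (1 : ℝ)
      have := inj_low hG.hN h1a h1c (hb.maps _ ht2) (hb.maps _ hs2) e1
      push_cast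
      rw [← add_assoc, ← add_assoc]
      exact this.symm
  obtain ⟨k, hk⟩ := exists_nat_gt (ρ + ‖s‖ + (ρ + ‖t‖))
  have hρ := hG.hρ
  have hks : ρ < ‖s + (k : ℂ)‖ := norm_add_nat (by linarith [norm_nonneg t])
  have hkt : ρ < ‖t + (k : ℂ)‖ := norm_add_nat (by linarith [norm_nonneg s])
  have hs' : s + (k : ℂ) ∈ UH := by simpa using add_mem_UH hs (k : ℝ)
  have ht' : t + (k : ℂ) ∈ UH := by simpa using add_mem_UH ht (k : ℝ)
  have h := key k
  rw [hb.ext _ hs' hks, hb.ext _ ht' hkt] at h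
  have h2 := hG.inj hks hkt (add_left_cancel h)
  exact add_right_cancel h2

theorem b_refl {N ρ : ℝ} {G b : ℂ → ℂ} (hG : GF N ρ G) (hb : Cont N ρ G b) :
    ∀ s ∈ UH, b (-(starRingEnd ℂ) s) = 2 * (nn N : ℂ) - (starRingEnd ℂ) (b s) := by
  -- `f s = 2 n - conj (b (-conj s))`
  set f : ℂ → ℂ := fun s => 2 * (nn N : ℂ) - (starRingEnd ℂ) (b (-(starRingEnd ℂ) s)) with hf
  have hfd : DifferentiableOn ℂ f UH := by
    intro s hs
    have hd : DifferentiableAt ℂ b (-(starRingEnd ℂ) s) :=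
      (hb.an _ (star_mem_UH hs)).differentiableAt (isOpen_UH.mem_nhds (star_mem_UH hs))
    have hd2 : DifferentiableAt ℂ (fun u => b (-u)) ((starRingEnd ℂ) s) := by
      have := DifferentiableAt.comp (𝕜 := ℂ) ((starRingEnd ℂ) s) (f := fun u : ℂ => -u) (g := b)
        hd differentiableAt_id.neg
      exact this
    have hd3 : DifferentiableAt ℂ ((starRingEnd ℂ) ∘ (fun u => b (-u)) ∘ (starRingEnd ℂ)) s := by
      have := hd2.conj_conj
      simpa using this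
    exact ((differentiableAt_const _).sub hd3).differentiableWithinAt
  have hba : AnalyticOnNhd ℂ b UH := hb.an.analyticOnNhd isOpen_UH
  have hfa : AnalyticOnNhd ℂ f UH := hfd.analyticOnNhd isOpen_UH
  -- a base point
  set z0 : ℂ := (ρ + 1) * I with hz0
  have hρ := hG.hρ
  have hz0U : z0 ∈ UH := by
    simp [hz0, UH]; linarith
  have hz0n : ρ < ‖z0‖ := by
    rw [hz0, norm_mul, norm_I, mul_one]
    have : ((ρ : ℂ) + 1) = ((ρ + 1 : ℝ) : ℂ) := by push_cast; ring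
    rw [this, Complex.norm_real, Real.norm_eq_abs, abs_of_pos (by linarith)]
    linarith
  have hev : f =ᶠ[𝓝 z0] b := by
    have h1 : ∀ᶠ s in 𝓝 z0, s ∈ UH := isOpen_UH.mem_nhds hz0U
    have h2 : ∀ᶠ s in 𝓝 z0, ρ < ‖s‖ := continuous_norm.continuousAt.eventually (lt_mem_nhds hz0n)
    filter_upwards [h1, h2] with s hs hn
    have hn' : ρ < ‖-(starRingEnd ℂ) s‖ := by simpa using hn
    have hn'' : ρ < ‖(starRingEnd ℂ) s‖ := by simpa using hn
    rw [hf]
    simp only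
    rw [hb.ext _ (star_mem_UH hs) hn', hb.ext _ hs hn, hG.odd _ hn'', hG.real _ hn]
    simp
    ring
  have heq := hfa.eqOn_of_preconnected_of_eventuallyEq hba convex_UH.isPreconnected hz0U hev
  intro s hs
  have h := heq hs
  simp only [hf] at h
  rw [← h, map_sub, map_mul, Complex.conj_ofReal, Complex.conj_conj, Complex.conj_ofNat,
    sub_sub_cancel]

lemma G_real {N ρ : ℝ} {G : ℂ → ℂ} (hG : GF N ρ G) {x : ℝ} (hx : ρ < x) : (G x).im = 0 := by
  have hn : ρ < ‖(x : ℂ)‖ := by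
    rw [Complex.norm_real, Real.norm_eq_abs]; exact lt_of_lt_of_le hx (le_abs_self x)
  have := hG.real _ hn
  rw [Complex.conj_ofReal] at this
  exact Complex.conj_eq_iff_im.mp this.symm

/-- limit of `b` at large real points -/
lemma b_tendsto {N ρ : ℝ} {G b : ℂ → ℂ} (hG : GF N ρ G) (hb : Cont N ρ G b) {x : ℝ}
    (hx : ρ < x) : Tendsto b (𝓝[UH] (x : ℂ)) (𝓝 ((nn N + (G x).re : ℝ) : ℂ)) := by
  have hn : ρ < ‖(x : ℂ)‖ := by
    rw [Complex.norm_real, Real.norm_eq_abs]; exact lt_of_lt_of_le hx (le_abs_self x)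
  have hopen : IsOpen {s : ℂ | ρ < ‖s‖} := isOpen_lt continuous_const continuous_norm
  have hc : ContinuousAt G x :=
    ((hG.an _ hn).differentiableAt (hopen.mem_nhds hn)).continuousAt
  have h1 : Tendsto (fun s => (nn N : ℂ) + G s) (𝓝[UH] (x : ℂ)) (𝓝 ((nn N : ℂ) + G x)) :=
    (tendsto_const_nhds.add hc.tendsto).mono_left nhdsWithin_le_nhds
  have h2 : ((nn N + (G x).re : ℝ) : ℂ) = (nn N : ℂ) + G x := by
    have := G_real hG hx
    apply Complex.ext
    · simp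
    · simp [this]
  rw [h2]
  refine h1.congr' ?_
  have h3' : ∀ᶠ s in 𝓝 (x : ℂ), ρ < ‖s‖ := hopen.mem_nhds hn
  have h3 : ∀ᶠ s in 𝓝[UH] (x : ℂ), ρ < ‖s‖ := h3'.filter_mono nhdsWithin_le_nhds
  filter_upwards [h3, self_mem_nhdsWithin] with s hs hsU
  exact (hb.ext s hsU hs).symm

instance neBot_UH (x : ℝ) : (𝓝[UH] (x : ℂ)).NeBot := by
  rw [← mem_closure_iff_nhdsWithin_neBot, mem_closure_iff_seq_limit]
  refine ⟨fun k : ℕ => (x : ℂ) + ((1 / ((k : ℝ) + 1) : ℝ) : ℂ) * I, ?_, ?_⟩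
  · intro k
    have hk : (0 : ℝ) < 1 / ((k : ℝ) + 1) := by positivity
    show 0 < ((x : ℂ) + ((1 / ((k : ℝ) + 1) : ℝ) : ℂ) * I).im
    rw [Complex.add_im, Complex.ofReal_im, Complex.im_ofReal_mul, Complex.I_im]
    linarith
  · have h : Tendsto (fun k : ℕ => (1 / ((k : ℝ) + 1) : ℝ)) atTop (𝓝 0) :=
      tendsto_one_div_add_atTop_nhds_zero_nat
    have h2 : Tendsto (fun k : ℕ => (x : ℂ) + ((1 / ((k : ℝ) + 1) : ℝ) : ℂ) * I) atTop
        (𝓝 ((x : ℂ) + ((0 : ℝ) : ℂ) * I)) :=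
      tendsto_const_nhds.add ((Complex.continuous_ofReal.continuousAt.tendsto.comp h).mul_const I)
    simpa using h2

/-- constant sign on convex (preconnected) sets -/
lemma sign_of {S : Set ℂ} (hS : IsPreconnected S) {f : ℂ → ℝ} (hf : ContinuousOn f S)
    (h0 : ∀ s ∈ S, f s ≠ 0) {s0 : ℂ} (hs0 : s0 ∈ S) (hp : 0 < f s0) : ∀ s ∈ S, 0 < f s := by
  intro s hs
  by_contra hneg
  have hlt : f s < 0 := lt_of_le_of_ne (not_lt.mp hneg) (h0 s hs)
  have := hS.intermediate_value hs hs0 hf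
  obtain ⟨u, hu, hu0⟩ := this ⟨hlt.le, hp.le⟩
  exact h0 u hu hu0

lemma convex_right (a : ℝ) : Convex ℝ (UH ∩ {s : ℂ | a < s.re}) := by
  refine convex_UH.inter ?_
  have : {s : ℂ | a < s.re} = Complex.reLm ⁻¹' (Set.Ioi a) := by
    ext z; simp
  rw [this]
  exact (convex_Ioi a).linear_preimage Complex.reLm

/-- a point far right in `UH` with given eventual property -/
lemma exists_pt {x a : ℝ} (hx : a < x) {P : ℂ → Prop} (hP : ∀ᶠ s in 𝓝[UH] (x : ℂ), P s) :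
    ∃ s ∈ UH ∩ {s : ℂ | a < s.re}, P s := by
  have h1 : ∀ᶠ s in 𝓝[UH] (x : ℂ), a < s.re := by
    have : ∀ᶠ s in 𝓝 (x : ℂ), a < s.re :=
      Complex.continuous_re.continuousAt.eventually (lt_mem_nhds (by simpa using hx))
    exact this.filter_mono nhdsWithin_le_nhds
  have h2 : ∀ᶠ s in 𝓝[UH] (x : ℂ), s ∈ UH := self_mem_nhdsWithin
  obtain ⟨s, hs⟩ := (hP.and (h1.and h2)).exists
  exact ⟨s, ⟨hs.2.2, hs.2.1⟩, hs.1⟩

lemma L_cont (N : ℝ) : ContinuousOn (L N) UH := by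
  intro z hz
  have hz' : 0 < z.im := hz
  have h1 : z ∈ Complex.slitPlane := Or.inr (ne_of_gt hz')
  have h2 : 1 - z ∈ Complex.slitPlane := by
    refine Or.inr ?_
    simp
    exact ne_of_gt hz'
  have c1 : ContinuousAt (fun z : ℂ => Complex.log z) z := continuousAt_clog h1
  have c2 : ContinuousAt (fun z : ℂ => Complex.log (1 - z)) z :=
    ContinuousAt.clog (continuousAt_const.sub continuousAt_id) h2
  exact ((continuousAt_const.mul c1).add c2).continuousWithinAt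

end L2b872

open L2b872

/-- **H4-2b** -/
theorem leaf2b (h1a : Leaf1a) (h1c : Leaf1c) : Leaf2b := by
  intro N ρ G b hG hb
  have hN := hG.hN
  have hinj := b_inj h1a h1c hG hb
  have hrefl := b_refl hG hb
  have hρ := hG.hρ
  have hbc : ContinuousOn b UH := hb.an.continuousOn
  -- real part
  have hre0 : ∀ s ∈ UH, s.re = 0 → (b s).re = nn N := by
    intro s hs h0
    have e : -(starRingEnd ℂ) s = s := by
      apply Complex.ext <;> simp [h0]
    have h := hrefl s hs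
    rw [e] at h
    have h' := congrArg Complex.re h
    simp at h'
    linarith
  have hre0' : ∀ s ∈ UH, (b s).re = nn N → s.re = 0 := by
    intro s hs h0
    have h := hrefl s hs
    have e : 2 * (nn N : ℂ) - (starRingEnd ℂ) (b s) = b s := by
      apply Complex.ext
      · simp [h0]; ring
      · simp
    rw [e] at h
    have h2 := hinj (star_mem_UH hs) hs h
    have h3 := congrArg Complex.re h2
    simp at h3
    linarith
  have hpos : ∀ s ∈ UH, 0 < s.re → (b s).re < nn N := by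
    have hev : ∀ᶠ s in 𝓝[UH] ((ρ + 1 : ℝ) : ℂ), 0 < nn N - (b s).re := by
      have h1 := b_tendsto hG hb (x := ρ + 1) (by linarith)
      have h2 : Tendsto (fun s => nn N - (b s).re) (𝓝[UH] ((ρ + 1 : ℝ) : ℂ))
          (𝓝 (nn N - (nn N + (G ((ρ + 1 : ℝ) : ℂ)).re))) := by
        have h5 := (Complex.continuous_re.continuousAt.tendsto.comp h1)
        rw [Complex.ofReal_re] at h5
        exact tendsto_const_nhds.sub h5
      refine h2.eventually (lt_mem_nhds ?_)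
      have := hG.neg (ρ + 1) (by linarith)
      linarith
    obtain ⟨s0, hs0, hs0'⟩ := exists_pt (a := 0) (x := ρ + 1) (by linarith) hev
    have hmain := sign_of (convex_right 0).isPreconnected (f := fun s => nn N - (b s).re)
      (continuousOn_const.sub (Complex.continuous_re.comp_continuousOn
        (hbc.mono inter_subset_left)))
      (by
        intro s hs h
        have : (b s).re = nn N := by linarith
        have h2 := hre0' s hs.1 this
        have h3 : (0 : ℝ) < s.re := hs.2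
        linarith) hs0 hs0'
    intro s hs hs2
    have := hmain s ⟨hs, hs2⟩
    linarith
  have hnegp : ∀ s ∈ UH, s.re < 0 → nn N < (b s).re := by
    intro s hs h
    have h1 := hpos (-(starRingEnd ℂ) s) (star_mem_UH hs) (by simp; exact h)
    rw [hrefl s hs] at h1
    simp at h1
    linarith
  -- imaginary part
  have hstar : ∀ s ∈ UH, (-1 - (starRingEnd ℂ) s) ∈ UH ∧
      L N (b (-1 - (starRingEnd ℂ) s)) = (starRingEnd ℂ) (L N (b s)) := by
    intro s hs
    have hm : (-1 - (starRingEnd ℂ) s) ∈ UH := by simpa [UH] using hs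
    refine ⟨hm, ?_⟩
    rw [hb.eq _ hm]
    have e : (-1 - (starRingEnd ℂ) s) + 1 = -(starRingEnd ℂ) s := by ring
    rw [e, hrefl s hs, sub_sub_cancel]
    exact (h1c N hN).cj _ (hb.maps s hs)
  have him0 : ∀ s ∈ UH, s.re = -(1 / 2) → (L N (b s)).im = 0 := by
    intro s hs h
    obtain ⟨_, h2⟩ := hstar s hs
    have e : (-1 - (starRingEnd ℂ) s) = s := by
      apply Complex.ext
      · simp [h]; norm_num
      · simp
    rw [e] at h2
    exact Complex.conj_eq_iff_im.mp h2.symm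
  have him0' : ∀ s ∈ UH, (L N (b s)).im = 0 → s.re = -(1 / 2) := by
    intro s hs h
    obtain ⟨h1, h2⟩ := hstar s hs
    rw [Complex.conj_eq_iff_im.mpr h] at h2
    have h3 := (h1a N hN).1 (hb.maps _ h1) (hb.maps _ hs) h2
    have h4 := hinj h1 hs h3
    have h5 := congrArg Complex.re h4
    simp at h5
    linarith
  have himp : ∀ s ∈ UH, -(1 / 2) < s.re → 0 < (L N (b s)).im := by
    have hn1 := nn_pos hN
    have hn2 := nn_lt_one hN
    have hsm := hG.small ((ρ + 1 : ℝ) : ℂ) (by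
      rw [Complex.norm_real, Real.norm_eq_abs, abs_of_pos (by linarith)]; linarith)
    have habs := Complex.abs_re_le_norm (G ((ρ + 1 : ℝ) : ℂ))
    have hneg := hG.neg (ρ + 1) (by linarith)
    rw [abs_of_neg hneg] at habs
    have hx0 : 0 < nn N + (G ((ρ + 1 : ℝ) : ℂ)).re := by linarith
    have hx1 : nn N + (G ((ρ + 1 : ℝ) : ℂ)).re < nn N := by linarith
    have hs1 := (h1c N hN).s1 _ hx0 hx1
    have htd : Tendsto b (𝓝[UH] ((ρ + 1 : ℝ) : ℂ))
        (𝓝[UH] ((nn N + (G ((ρ + 1 : ℝ) : ℂ)).re : ℝ) : ℂ)) := by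
      rw [tendsto_nhdsWithin_iff]
      refine ⟨b_tendsto hG hb (by linarith), ?_⟩
      filter_upwards [self_mem_nhdsWithin] with s hs using hb.maps s hs
    have hev : ∀ᶠ s in 𝓝[UH] ((ρ + 1 : ℝ) : ℂ), 0 < (L N (b s)).im := htd.eventually hs1
    obtain ⟨s0, hs0, hs0'⟩ := exists_pt (a := -(1 / 2)) (x := ρ + 1) (by linarith) hev
    have hmain := sign_of (convex_right (-(1 / 2))).isPreconnected
      (f := fun s => (L N (b s)).im)
      (Complex.continuous_im.comp_continuousOn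
        ((L_cont N).comp (hbc.mono inter_subset_left) (fun s hs => hb.maps s hs.1)))
      (by
        intro s hs h
        have h2 := him0' s hs.1 h
        have h3 : -(1 / 2 : ℝ) < s.re := hs.2
        linarith) hs0 hs0'
    intro s hs hs2
    exact hmain s ⟨hs, hs2⟩
  have himn : ∀ s ∈ UH, s.re < -(1 / 2) → (L N (b s)).im < 0 := by
    intro s hs h
    obtain ⟨h1, h2⟩ := hstar s hs
    have h3 := himp _ h1 (by simp; linarith)
    rw [h2] at h3
    simpa using h3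
  exact ⟨hinj, hrefl, hnegp, hpos, hre0, himp, himn, him0⟩

end Crest.Agent.R102.H4
end
end

-- ▼ part R102/H4L4a_722
section

/-!
# Row 102, [H4], leaf 4a (helper722)

`b(σ+δ) → 0` and `b(σ-1+δ) → b₁` with `L(b₁) = ell(2n) + iπ` as `δ → 0` in the upper half plane.
-/

open Complex Set Filter Topology

noncomputable section

namespace Crest.Agent.R102.H4

namespace L4a722

/-- `1/2 < n < 1` -/
theorem nn_gt {N : ℝ} (hN : 1 < N) : 1 / 2 < nn N := by
  unfold nn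
  rw [lt_div_iff₀ (by linarith)]
  linarith


/-- reflection of a real number minus something -/
theorem conj_mem {a : ℝ} {z : ℂ} (hz : 0 < z.im) :
    (starRingEnd ℂ) ((a : ℂ) - z) ∈ UH := by
  simp only [UH, mem_setOf_eq, conj_im, sub_im, ofReal_im]
  linarith

/-- if `z i → 0` from `UH` then `conj (a - z i) → a` from `UH` -/
theorem tendsto_conj {l : Filter ℂ} {z : ℂ → ℂ} (a : ℝ) (hz : ∀ᶠ i in l, 0 < (z i).im)
    (h : Tendsto z l (𝓝 0)) :
    Tendsto (fun i => (starRingEnd ℂ) ((a : ℂ) - z i)) l (𝓝[UH] (a : ℂ)) := by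
  refine tendsto_nhdsWithin_iff.2 ⟨?_, ?_⟩
  · have h1 : Tendsto (fun i => (starRingEnd ℂ) ((a : ℂ) - z i)) l
        (𝓝 ((starRingEnd ℂ) ((a : ℂ) - 0))) :=
      (Complex.continuous_conj.tendsto _).comp (tendsto_const_nhds.sub h)
    simpa using h1
  · filter_upwards [hz] with i hi
    exact conj_mem hi

end L4a722

open L4a722

theorem leaf4a (h1a : Leaf1a) (h1b : Leaf1b) (h1c : Leaf1c) : Leaf4a := by
  intro N ρ σ G b e hG hb he
  have hN := hG.hN
  have B := h1b N hN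
  have S := h1c N hN
  have hpi := Real.pi_pos
  have hUH : ∀ᶠ δ : ℂ in 𝓝[UH] (0 : ℂ), δ ∈ UH := eventually_mem_nhdsWithin
  have he0 : Tendsto e (𝓝[UH] (0 : ℂ)) (𝓝 0) := by
    have := he.an.continuousAt.tendsto
    rw [he.zero] at this
    exact this.mono_left nhdsWithin_le_nhds
  have heUH : ∀ᶠ δ : ℂ in 𝓝[UH] (0 : ℂ), 0 < (e δ).im := by
    filter_upwards [hUH, he.eq] with δ hδ h
    have h1 : b ((σ : ℂ) + 1 + δ) ∈ UH := hb.maps _ (by simpa [UH] using hδ)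
    rw [h] at h1
    simpa [UH] using h1
  have hm0 : ∀ᶠ δ : ℂ in 𝓝[UH] (0 : ℂ), b ((σ : ℂ) + δ) ∈ UH := by
    filter_upwards [hUH] with δ hδ
    exact hb.maps _ (by simpa [UH] using hδ)
  have hm1 : ∀ᶠ δ : ℂ in 𝓝[UH] (0 : ℂ), b ((σ : ℂ) - 1 + δ) ∈ UH := by
    filter_upwards [hUH] with δ hδ
    exact hb.maps _ (by simpa [UH] using hδ)
  -- first part
  have hz1 := tendsto_conj (l := 𝓝[UH] (0 : ℂ)) (z := e) 1 heUH he0
  have hL0 : ∀ᶠ δ : ℂ in 𝓝[UH] (0 : ℂ), L N (b ((σ : ℂ) + δ)) =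
      (starRingEnd ℂ) (L N ((starRingEnd ℂ) (((1 : ℝ) : ℂ) - e δ))) := by
    filter_upwards [hUH, he.eq, heUH] with δ hδ h hi
    have h2 := hb.eq ((σ : ℂ) + δ) (by simpa [UH] using hδ)
    have h3 : (σ : ℂ) + δ + 1 = (σ : ℂ) + 1 + δ := by ring
    rw [h3, h] at h2
    have h4 := S.cj _ (conj_mem (a := 1) hi)
    rw [← h4, h2, Complex.conj_conj]
    congr 1
    push_cast
    ring
  have hT0 : Tendsto (fun δ : ℂ => b ((σ : ℂ) + δ)) (𝓝[UH] 0) (𝓝 0) := by
    refine B.b5 _ _ hm0 ?_ ?_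
    · have h5 := hz1.eventually S.s3
      filter_upwards [hL0, h5] with δ h h5
      rw [h, conj_im]
      linarith
    · have h6 := S.s3'.comp hz1
      refine h6.congr' ?_
      filter_upwards [hL0] with δ h
      rw [h, conj_re]
      rfl
  refine ⟨hT0, ?_⟩
  -- second part
  have h2n : 1 < 2 * nn N := by linarith [nn_gt hN]
  have hm0' : ∀ᶠ δ : ℂ in 𝓝[UH] (0 : ℂ), 0 < (b ((σ : ℂ) + δ)).im := hm0
  have hz2 := tendsto_conj (l := 𝓝[UH] (0 : ℂ)) (z := fun δ => b ((σ : ℂ) + δ)) (2 * nn N) hm0' hT0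
  have hL1 : ∀ᶠ δ : ℂ in 𝓝[UH] (0 : ℂ), L N (b ((σ : ℂ) - 1 + δ)) =
      (starRingEnd ℂ) (L N ((starRingEnd ℂ) (((2 * nn N : ℝ) : ℂ) - b ((σ : ℂ) + δ)))) := by
    filter_upwards [hUH, hm0'] with δ hδ hi
    have h2 := hb.eq ((σ : ℂ) - 1 + δ) (by simpa [UH] using hδ)
    have h3 : (σ : ℂ) - 1 + δ + 1 = (σ : ℂ) + δ := by ring
    rw [h3] at h2
    have h4 := S.cj _ (conj_mem (a := 2 * nn N) hi)
    rw [← h4, h2, Complex.conj_conj]
    congr 1
    push_cast
    ring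
  obtain ⟨b1, hb1, hLb1⟩ := (h1a N hN).2.2 ((ell N (2 * nn N) : ℂ) + Real.pi * I) (by
    refine ⟨?_, ?_, ?_⟩
    · simp; linarith
    · simp; nlinarith
    · intro h
      simp at h)
  refine ⟨b1, hb1, hLb1, ?_⟩
  refine B.b1 _ _ _ hm1 hb1 ?_
  rw [hLb1]
  have h7 := ((Complex.continuous_conj.tendsto _).comp (S.v2 _ h2n)).comp hz2
  have h8 : (starRingEnd ℂ) ((ell N (2 * nn N) : ℂ) - Real.pi * I) =
      (ell N (2 * nn N) : ℂ) + Real.pi * I := by
    simp [map_sub, map_mul]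
  rw [h8] at h7
  refine h7.congr' ?_
  filter_upwards [hL1] with δ h
  rw [h]
  rfl

end Crest.Agent.R102.H4
end
end

-- ▼ part R102/H4L4bR_722
section

/-!
# Row 102, [H4], leaf 4b, the analyticity contradiction (helper722)

`b(σ+δ)` behaves like `δ^{1/N}`, so it is not an analytic function of the analytic germ
`b(σ-k+δ) = n + G(σ-k+δ)`.
-/

open Complex Set Filter Topology

noncomputable section

namespace Crest.Agent.R102.H4

namespace L4bR722

instance neBot_UH0 : (𝓝[UH] (0 : ℂ)).NeBot := by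
  have h : Tendsto (fun t : ℝ => (t : ℂ) * I) (𝓝[>] (0 : ℝ)) (𝓝[UH] (0 : ℂ)) := by
    refine tendsto_nhdsWithin_iff.2 ⟨?_, ?_⟩
    · have h1 : Continuous (fun t : ℝ => (t : ℂ) * I) := by fun_prop
      have h2 := h1.tendsto 0
      simp only [ofReal_zero, zero_mul] at h2
      exact h2.mono_left nhdsWithin_le_nhds
    · filter_upwards [self_mem_nhdsWithin] with t ht
      simpa [UH] using ht
  exact h.neBot

theorem lower {f : ℂ → ℂ} {f' x0 : ℂ} (h : HasDerivAt f f' x0) (hf' : f' ≠ 0) :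
    ∀ᶠ x in 𝓝 x0, ‖f'‖ / 2 * ‖x - x0‖ ≤ ‖f x - f x0‖ := by
  have h1 := h.isLittleO.def (half_pos (norm_pos_iff.2 hf'))
  filter_upwards [h1] with x hx
  have h2 : ‖(x - x0) • f'‖ = ‖x - x0‖ * ‖f'‖ := by rw [norm_smul]
  have h3 : ‖(x - x0) • f'‖ ≤ ‖f x - f x0‖ + ‖f x - f x0 - (x - x0) • f'‖ := by
    have : (x - x0) • f' = (f x - f x0) - (f x - f x0 - (x - x0) • f') := by ring
    calc ‖(x - x0) • f'‖ = ‖(f x - f x0) - (f x - f x0 - (x - x0) • f')‖ := by rw [← this]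
      _ ≤ _ := norm_sub_le _ _
  rw [h2] at h3
  nlinarith

theorem L_re (N : ℝ) (z : ℂ) : (L N z).re = N * Real.log ‖z‖ + Real.log ‖1 - z‖ := by
  simp [L, Complex.log_re]

end L4bR722

open L4bR722

theorem growth {N ρ σ : ℝ} {G b e Ψ : ℂ → ℂ} {k : ℕ} (hG : GF N ρ G) (hb : Cont N ρ G b)
    (he : End N σ b e)
    (h0 : Tendsto (fun δ : ℂ => b ((σ : ℂ) + δ)) (𝓝[UH] 0) (𝓝 0))
    (hk : ρ < ‖(σ : ℂ) - k‖)
    (hΨ : AnalyticAt ℂ Ψ 0) (hΨ' : deriv Ψ 0 ≠ 0)
    (heq : ∀ᶠ δ in 𝓝[UH] (0 : ℂ), b ((σ : ℂ) - k + δ) = Ψ (b ((σ : ℂ) + δ))) : False := by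
  have hN := hG.hN
  have hUH : ∀ᶠ δ : ℂ in 𝓝[UH] (0 : ℂ), δ ∈ UH := eventually_mem_nhdsWithin
  have hm0 : ∀ᶠ δ : ℂ in 𝓝[UH] (0 : ℂ), 0 < (b ((σ : ℂ) + δ)).im := by
    filter_upwards [hUH] with δ hδ
    exact hb.maps _ (by simpa [UH] using hδ)
  -- the germ on the left
  have hopen : IsOpen {s : ℂ | ρ < ‖s‖} := isOpen_lt continuous_const continuous_norm
  have hGd : DifferentiableAt ℂ G ((σ : ℂ) - k) := hG.an.differentiableAt (hopen.mem_nhds hk)
  have hshift : Tendsto (fun δ : ℂ => (σ : ℂ) - k + δ) (𝓝[UH] (0 : ℂ)) (𝓝 ((σ : ℂ) - k)) := by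
    have h1 : Continuous (fun δ : ℂ => (σ : ℂ) - k + δ) := by fun_prop
    have h2 := h1.tendsto 0
    simp only [add_zero] at h2
    exact h2.mono_left nhdsWithin_le_nhds
  have hext : ∀ᶠ δ in 𝓝[UH] (0 : ℂ), Ψ (b ((σ : ℂ) + δ)) = (nn N : ℂ) + G ((σ : ℂ) - k + δ) := by
    filter_upwards [heq, hUH, hshift.eventually (hopen.mem_nhds hk)] with δ h hδ hr
    rw [← h]
    refine hb.ext _ ?_ hr
    simpa [UH] using hδ
  have hval : Ψ 0 = (nn N : ℂ) + G ((σ : ℂ) - k) := by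
    have h1 : Tendsto (fun δ => Ψ (b ((σ : ℂ) + δ))) (𝓝[UH] (0 : ℂ)) (𝓝 (Ψ 0)) :=
      hΨ.continuousAt.tendsto.comp h0
    have h2 : Tendsto (fun δ : ℂ => (nn N : ℂ) + G ((σ : ℂ) - k + δ)) (𝓝[UH] (0 : ℂ))
        (𝓝 ((nn N : ℂ) + G ((σ : ℂ) - k))) :=
      tendsto_const_nhds.add (hGd.continuousAt.tendsto.comp hshift)
    have h3 := h2.congr' (hext.mono fun δ h => h.symm)
    exact tendsto_nhds_unique h1 h3
  -- upper bound `‖b(σ+δ)‖ ≤ C ‖δ‖`
  obtain ⟨C1, hC1⟩ := hGd.isBigO_sub.bound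
  have hlow := lower hΨ.differentiableAt.hasDerivAt hΨ'
  have hPpos : 0 < ‖deriv Ψ 0‖ := norm_pos_iff.2 hΨ'
  obtain ⟨C, hCpos, hC⟩ : ∃ C : ℝ, 0 < C ∧ ∀ᶠ δ in 𝓝[UH] (0 : ℂ), ‖b ((σ : ℂ) + δ)‖ ≤ C * ‖δ‖ := by
    refine ⟨max (2 * C1 / ‖deriv Ψ 0‖) 1, lt_max_of_lt_right one_pos, ?_⟩
    filter_upwards [hext, h0.eventually hlow, hshift.eventually hC1] with δ h1 h2 h3
    have h4 : Ψ (b ((σ : ℂ) + δ)) - Ψ 0 = G ((σ : ℂ) - k + δ) - G ((σ : ℂ) - k) := by
      rw [h1, hval]; ring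
    have h5 : (σ : ℂ) - k + δ - ((σ : ℂ) - k) = δ := by ring
    rw [h4, sub_zero] at h2
    rw [h5] at h3
    have h6 : ‖deriv Ψ 0‖ / 2 * ‖b ((σ : ℂ) + δ)‖ ≤ C1 * ‖δ‖ := h2.trans h3
    have h7 : ‖b ((σ : ℂ) + δ)‖ ≤ 2 * C1 / ‖deriv Ψ 0‖ * ‖δ‖ := by
      rw [div_mul_eq_mul_div, le_div_iff₀ hPpos]
      nlinarith
    exact h7.trans (mul_le_mul_of_nonneg_right (le_max_left _ _) (norm_nonneg _))
  -- lower bound `‖e δ‖ ≥ c ‖δ‖`
  obtain ⟨e1, he1, hde⟩ := he.d1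
  have hed : HasDerivAt e (e1 : ℂ) 0 := by
    rw [← hde]; exact he.an.differentiableAt.hasDerivAt
  have hlowe := lower hed (by exact_mod_cast he1.ne')
  have hlowe' : ∀ᶠ δ in 𝓝[UH] (0 : ℂ), e1 / 2 * ‖δ‖ ≤ ‖e δ‖ := by
    filter_upwards [hlowe.filter_mono nhdsWithin_le_nhds] with δ h
    rw [he.zero, sub_zero, sub_zero] at h
    simpa [abs_of_pos he1] using h
  have he0 : Tendsto e (𝓝[UH] (0 : ℂ)) (𝓝 0) := by
    have := he.an.continuousAt.tendsto
    rw [he.zero] at this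
    exact this.mono_left nhdsWithin_le_nhds
  have hesm : ∀ᶠ δ in 𝓝[UH] (0 : ℂ), ‖e δ‖ < 1 / 2 := by
    have := he0.norm
    rw [norm_zero] at this
    exact this.eventually_lt_const (by norm_num)
  have hbsm : ∀ᶠ δ in 𝓝[UH] (0 : ℂ), ‖b ((σ : ℂ) + δ)‖ < 1 := by
    have := h0.norm
    rw [norm_zero] at this
    exact this.eventually_lt_const (by norm_num)
  -- the identity of moduli
  have hL : ∀ᶠ δ : ℂ in 𝓝[UH] (0 : ℂ), N * Real.log ‖b ((σ : ℂ) + δ)‖ +
      Real.log ‖1 - b ((σ : ℂ) + δ)‖ = N * Real.log ‖1 - e δ‖ + Real.log ‖e δ‖ := by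
    filter_upwards [hUH, he.eq] with δ hδ h
    have h2 := hb.eq ((σ : ℂ) + δ) (by simpa [UH] using hδ)
    have h3 : (σ : ℂ) + δ + 1 = (σ : ℂ) + 1 + δ := by ring
    have h4 : 2 * (nn N : ℂ) - (2 * (nn N : ℂ) - 1 + e δ) = 1 - e δ := by ring
    rw [h3, h, h4] at h2
    have h5 := congrArg Complex.re h2
    rw [L_re, L_re] at h5
    have h6 : (1 : ℂ) - (1 - e δ) = e δ := by ring
    rwa [h6] at h5
  -- logarithm of `‖δ‖` bounded below
  have hfin : ∀ᶠ δ : ℂ in 𝓝[UH] (0 : ℂ), (-(N * Real.log 2) + Real.log (e1 / 2) -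
      N * Real.log C - Real.log 2) / (N - 1) ≤ Real.log ‖δ‖ := by
    filter_upwards [hL, hC, hlowe', hesm, hbsm, hUH, hm0] with δ h1 h2 h3 h4 h5 h6 h7
    have hδ : δ ≠ 0 := by
      rintro rfl
      simp [UH] at h6
    have hδp : 0 < ‖δ‖ := norm_pos_iff.2 hδ
    have hbp : 0 < ‖b ((σ : ℂ) + δ)‖ := by
      refine norm_pos_iff.2 ?_
      intro h
      rw [h] at h7
      simp at h7
    have a1 : Real.log ‖b ((σ : ℂ) + δ)‖ ≤ Real.log C + Real.log ‖δ‖ := by
      rw [← Real.log_mul hCpos.ne' hδp.ne']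
      exact Real.log_le_log hbp h2
    have a2 : Real.log ‖1 - b ((σ : ℂ) + δ)‖ ≤ Real.log 2 := by
      refine Real.log_le_log ?_ ?_
      · have := norm_sub_norm_le (1 : ℂ) (b ((σ : ℂ) + δ))
        rw [norm_one] at this
        linarith
      · have := norm_sub_le (1 : ℂ) (b ((σ : ℂ) + δ))
        rw [norm_one] at this
        linarith
    have a3 : -Real.log 2 ≤ Real.log ‖1 - e δ‖ := by
      rw [← Real.log_inv]
      refine Real.log_le_log (by norm_num) ?_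
      have := norm_sub_norm_le (1 : ℂ) (e δ)
      rw [norm_one] at this
      norm_num
      linarith
    have a4 : Real.log (e1 / 2) + Real.log ‖δ‖ ≤ Real.log ‖e δ‖ := by
      rw [← Real.log_mul (by positivity) hδp.ne']
      exact Real.log_le_log (by positivity) h3
    rw [div_le_iff₀ (by linarith)]
    have b1 : N * Real.log ‖b ((σ : ℂ) + δ)‖ ≤ N * (Real.log C + Real.log ‖δ‖) :=
      mul_le_mul_of_nonneg_left a1 (by linarith)
    have b2 : N * -Real.log 2 ≤ N * Real.log ‖1 - e δ‖ :=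
      mul_le_mul_of_nonneg_left a3 (by linarith)
    nlinarith
  have hlog : Tendsto (fun δ : ℂ => Real.log ‖δ‖) (𝓝[UH] (0 : ℂ)) atBot := by
    have h1 : Tendsto (fun δ : ℂ => ‖δ‖) (𝓝[UH] (0 : ℂ)) (𝓝[≠] 0) := by
      refine tendsto_nhdsWithin_iff.2 ⟨?_, ?_⟩
      · have := (continuous_norm (E := ℂ)).tendsto 0
        rw [norm_zero] at this
        exact this.mono_left nhdsWithin_le_nhds
      · filter_upwards [hUH] with δ hδ
        simp only [mem_compl_iff, mem_singleton_iff, norm_eq_zero]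
        rintro rfl
        simp [UH] at hδ
    exact Real.tendsto_log_nhdsNE_zero.comp h1
  obtain ⟨δ, h1, h2⟩ := (hfin.and (hlog.eventually_lt_atBot _)).exists
  exact absurd h1 (not_le.2 h2)

end Crest.Agent.R102.H4
end
end

-- ▼ part R102/H4L4b_297
section

/-!
# Row 102, part (C), item [H4], leaf 4b (helper297): the chain from the right end point of the
cut closes at the left end point.  Paper: r102_doc C_H4_148 (helper148 / helper490).
-/

set_option autoImplicit false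

open Complex Set Filter Topology
open Crest.Agent.R102.H4

noncomputable section

namespace Crest.Agent.R102.H4L4b297

/-! ### local inverses -/

theorem loc_inv {F : ℂ → ℂ} {z : ℂ} (hF : AnalyticAt ℂ F z) (hd : deriv F z ≠ 0) :
    ∃ J : ℂ → ℂ, AnalyticAt ℂ J (F z) ∧ J (F z) = z ∧ deriv J (F z) ≠ 0 ∧
      ∀ᶠ y in 𝓝 z, J (F y) = y := by
  refine ⟨hF.hasStrictDerivAt.localInverse _ _ _ hd, hF.analyticAt_localInverse hd,
    HasStrictFDerivAt.localInverse_apply_image .., ?_, HasStrictDerivAt.eventually_left_inverse ..⟩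
  rw [(hF.hasStrictDerivAt.to_localInverse hd).hasDerivAt.deriv]
  exact inv_ne_zero hd

theorem lift {l : Filter ℂ} {f x : ℂ → ℂ} {W Ls : ℂ → ℂ} {z : ℂ} (hW : AnalyticAt ℂ W 0)
    (hW' : deriv W 0 ≠ 0) (hLs : AnalyticAt ℂ Ls z) (hLs' : deriv Ls z ≠ 0) (hz : Ls z = W 0)
    (hf : Tendsto f l (𝓝 z)) (heq : ∀ᶠ i in l, Ls (f i) = W (x i)) :
    ∃ Ψ : ℂ → ℂ, AnalyticAt ℂ Ψ 0 ∧ Ψ 0 = z ∧ deriv Ψ 0 ≠ 0 ∧ ∀ᶠ i in l, f i = Ψ (x i) := by
  obtain ⟨J, hJ, hJz, hJ', hJl⟩ := loc_inv hLs hLs'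
  rw [hz] at hJ hJz hJ'
  refine ⟨fun v => J (W v), hJ.comp hW, hJz, ?_, ?_⟩
  · have h1 : HasDerivAt (fun v => J (W v)) (deriv J (W 0) * deriv W 0) 0 :=
      hJ.differentiableAt.hasDerivAt.comp 0 hW.differentiableAt.hasDerivAt
    rw [h1.deriv]
    exact mul_ne_zero hJ' hW'
  · filter_upwards [hf.eventually hJl, heq] with i h1 h2
    rw [← h2, h1]

/-! ### the function `L` -/

/-- the branch of `L` near real points `> 1` -/
def L1 (N : ℝ) (z : ℂ) : ℂ := (N : ℂ) * Complex.log z + Complex.log (z - 1)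

theorem log_neg_UH {w : ℂ} (h : 0 < w.im) : Complex.log (-w) = Complex.log w - Real.pi * I := by
  rw [Complex.log, Complex.log, norm_neg, arg_neg_eq_arg_sub_pi_of_im_pos h]
  push_cast
  ring

theorem log_neg_LH {w : ℂ} (h : w.im < 0) : Complex.log (-w) = Complex.log w + Real.pi * I := by
  rw [Complex.log, Complex.log, norm_neg, arg_neg_eq_arg_add_pi_of_im_neg h]
  push_cast
  ring

theorem L_eq_UH (N : ℝ) {z : ℂ} (h : 0 < z.im) : L N z = L1 N z - Real.pi * I := by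
  have h1 : 1 - z = -(z - 1) := by ring
  unfold L L1
  rw [h1, log_neg_UH (by simpa using h)]
  ring

theorem L_eq_LH (N : ℝ) {z : ℂ} (h : z.im < 0) : L N z = L1 N z + Real.pi * I := by
  have h1 : 1 - z = -(z - 1) := by ring
  unfold L L1
  rw [h1, log_neg_LH (by simpa using h)]
  ring

theorem dL_ne {N : ℝ} (hN : 1 < N) {z : ℂ} (h0 : z ≠ 0) (h1 : z ≠ 1) (hn : z ≠ (nn N : ℂ)) :
    (N : ℂ) / z - 1 / (1 - z) ≠ 0 := by
  have h2 : 1 - z ≠ 0 := sub_ne_zero.2 h1.symm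
  have hN1 : (N : ℂ) + 1 ≠ 0 := by
    have : (N : ℝ) + 1 ≠ 0 := by linarith
    exact_mod_cast this
  rw [div_sub_div _ _ h0 h2]
  refine div_ne_zero ?_ (mul_ne_zero h0 h2)
  intro h
  apply hn
  unfold nn
  push_cast
  rw [eq_div_iff hN1]
  linear_combination -h

theorem hasDerivAt_L {N : ℝ} {z : ℂ} (h1 : z ∈ slitPlane) (h2 : 1 - z ∈ slitPlane) :
    HasDerivAt (L N) ((N : ℂ) / z - 1 / (1 - z)) z := by
  have e1 := (Complex.hasDerivAt_log h1).const_mul (N : ℂ)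
  have e2 : HasDerivAt (fun z : ℂ => 1 - z) (-1) z := by
    simpa using (hasDerivAt_id z).const_sub 1
  have e3 := e2.clog h2
  exact (e1.add e3).congr_deriv (by ring)

theorem hasDerivAt_L1 {N : ℝ} {z : ℂ} (h1 : z ∈ slitPlane) (h2 : z - 1 ∈ slitPlane) :
    HasDerivAt (L1 N) ((N : ℂ) / z - 1 / (1 - z)) z := by
  have e1 := (Complex.hasDerivAt_log h1).const_mul (N : ℂ)
  have e2 : HasDerivAt (fun z : ℂ => z - 1) 1 z := by
    simpa using (hasDerivAt_id z).sub_const 1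
  have e3 := e2.clog h2
  have h3 : z - 1 ≠ 0 := slitPlane_ne_zero h2
  have h4 : (1 : ℂ) / (z - 1) = - (1 / (1 - z)) := by
    rw [← div_neg, neg_sub]
  refine (e1.add e3).congr_deriv ?_
  rw [h4]
  ring

theorem an_L {N : ℝ} {z : ℂ} (h1 : z ∈ slitPlane) (h2 : 1 - z ∈ slitPlane) :
    AnalyticAt ℂ (L N) z :=
  ((analyticAt_const).mul (analyticAt_id.clog h1)).add
    ((analyticAt_const.sub analyticAt_id).clog h2)

theorem an_L1 {N : ℝ} {z : ℂ} (h1 : z ∈ slitPlane) (h2 : z - 1 ∈ slitPlane) :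
    AnalyticAt ℂ (L1 N) z :=
  ((analyticAt_const).mul (analyticAt_id.clog h1)).add
    ((analyticAt_id.sub analyticAt_const).clog h2)

theorem mem_slit_of_im {z : ℂ} (h : z.im ≠ 0) : z ∈ slitPlane ∧ 1 - z ∈ slitPlane :=
  ⟨Or.inr h, Or.inr (by simpa using h)⟩

theorem mem_slit_real {x : ℝ} (h0 : 0 < x) (h1 : x < 1) :
    (x : ℂ) ∈ slitPlane ∧ 1 - (x : ℂ) ∈ slitPlane :=
  ⟨Or.inl (by simpa using h0), Or.inl (by simpa using h1)⟩

theorem mem_slit_real' {x : ℝ} (h1 : 1 < x) :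
    (x : ℂ) ∈ slitPlane ∧ (x : ℂ) - 1 ∈ slitPlane :=
  ⟨Or.inl (by simp; linarith), Or.inl (by simpa using h1)⟩

theorem L_real {N x : ℝ} (h0 : 0 < x) (h1 : x < 1) : L N (x : ℂ) = (ell N x : ℂ) := by
  unfold L ell
  rw [← ofReal_log h0.le, show (1 : ℂ) - x = ((1 - x : ℝ) : ℂ) by push_cast; rfl,
    ← ofReal_log (by linarith)]
  push_cast
  rfl

theorem L1_real {N x : ℝ} (h1 : 1 < x) : L1 N (x : ℂ) = (ell N x : ℂ) := by
  unfold L1 ell
  rw [← ofReal_log (by linarith), show (x : ℂ) - 1 = ((x - 1 : ℝ) : ℂ) by push_cast; rfl,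
    ← ofReal_log (by linarith)]
  rw [← Real.log_neg_eq_log (x := 1 - x), neg_sub]
  push_cast
  rfl

theorem nn_lt {N : ℝ} (hN : 1 < N) : 1 / 2 < nn N ∧ nn N < 1 := by
  unfold nn
  constructor
  · rw [div_lt_div_iff₀ (by norm_num) (by linarith)]; linarith
  · rw [div_lt_one (by linarith)]; linarith

/-- the derivative of `L` does not vanish at a point `≠ 0, 1, n` -/
theorem deriv_L_ne {N : ℝ} (hN : 1 < N) {z : ℂ} (h1 : z ∈ slitPlane) (h2 : 1 - z ∈ slitPlane)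
    (hn : z ≠ (nn N : ℂ)) : deriv (L N) z ≠ 0 := by
  rw [(hasDerivAt_L h1 h2).deriv]
  refine dL_ne hN (slitPlane_ne_zero h1) ?_ hn
  rintro rfl
  simp at h2

theorem deriv_L1_ne {N : ℝ} (hN : 1 < N) {x : ℝ} (h : 1 < x) : deriv (L1 N) (x : ℂ) ≠ 0 := by
  obtain ⟨h1, h2⟩ := mem_slit_real' h
  rw [(hasDerivAt_L1 h1 h2).deriv]
  refine dL_ne hN (slitPlane_ne_zero h1) ?_ ?_
  · intro h3
    have : x = 1 := by exact_mod_cast h3
    linarith
  · intro h3
    have : x = nn N := by exact_mod_cast h3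
    have := (nn_lt hN).2
    linarith

/-! ### the level points -/

theorem continuousOn_ell {N : ℝ} : ContinuousOn (ell N) (Ioo 0 1) := by
  unfold ell
  refine ContinuousOn.add (continuousOn_const.mul (Real.continuousOn_log.mono ?_)) ?_
  · intro x hx; exact ne_of_gt hx.1
  · refine ContinuousOn.log (continuousOn_const.sub continuousOn_id) ?_
    intro x hx
    have := hx.2
    intro h
    have h' : 1 - x = 0 := h
    linarith

theorem hasDerivAt_ell {N x : ℝ} (h0 : 0 < x) (h1 : x < 1) :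
    HasDerivAt (ell N) (N / x - 1 / (1 - x)) x := by
  have e1 := (Real.hasDerivAt_log h0.ne').const_mul N
  have e2 : HasDerivAt (fun z : ℝ => 1 - z) (-1) x := by
    simpa using (hasDerivAt_id x).const_sub 1
  have e3 := e2.log (by linarith)
  exact (e1.add e3).congr_deriv (by ring)

theorem ell_lt {N : ℝ} (hN : 1 < N) {x : ℝ} (h0 : 0 < x) (hx : x < nn N) :
    ell N x < ell N (nn N) := by
  have hn := nn_lt hN
  have hmono : StrictMonoOn (ell N) (Icc x (nn N)) := by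
    refine strictMonoOn_of_deriv_pos (convex_Icc _ _)
      (continuousOn_ell.mono fun y hy => ⟨by linarith [hy.1], by linarith [hy.2]⟩) ?_
    intro y hy
    rw [interior_Icc] at hy
    have hy0 : 0 < y := by linarith [hy.1]
    have hy1 : y < 1 := by linarith [hy.2]
    rw [(hasDerivAt_ell hy0 hy1).deriv, sub_pos, div_lt_div_iff₀ (by linarith) hy0]
    have h2 := hy.2
    unfold nn at h2
    rw [lt_div_iff₀ (by linarith)] at h2
    nlinarith
  exact hmono ⟨le_rfl, hx.le⟩ ⟨hx.le, le_rfl⟩ hx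

theorem exists_level {N : ℝ} (hN : 1 < N) {x : ℝ} (h0 : 0 < x) (hx : x < nn N) :
    ∃ r : ℝ, nn N < r ∧ r < 1 ∧ ell N r = ell N x := by
  have hn := nn_lt hN
  have hlt := ell_lt hN h0 hx
  have hlim : Tendsto (ell N) (𝓝[<] 1) atBot := by
    unfold ell
    have e1 : Tendsto (fun y : ℝ => N * Real.log y) (𝓝[<] 1) (𝓝 (N * Real.log 1)) :=
      ((Real.continuousAt_log one_ne_zero).tendsto.const_mul N).mono_left nhdsWithin_le_nhds
    refine Tendsto.add_atBot e1 ?_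
    refine Real.tendsto_log_nhdsGT_zero.comp ?_
    refine tendsto_nhdsWithin_iff.2 ⟨?_, ?_⟩
    · have : Tendsto (fun y : ℝ => 1 - y) (𝓝 1) (𝓝 (1 - 1)) := tendsto_const_nhds.sub tendsto_id
      rw [sub_self] at this
      exact this.mono_left nhdsWithin_le_nhds
    · filter_upwards [self_mem_nhdsWithin] with y hy
      simpa using hy
  obtain ⟨y, hy1, hy2, hy3⟩ := ((hlim.eventually (eventually_lt_atBot (ell N x))).and
    ((Ioo_mem_nhdsLT hn.2 : Ioo (nn N) 1 ∈ 𝓝[<] (1 : ℝ)))).exists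
  have hc : ContinuousOn (ell N) (Icc (nn N) y) :=
    continuousOn_ell.mono fun z hz => ⟨by linarith [hz.1], by linarith [hz.2]⟩
  obtain ⟨r, hr, hre⟩ := intermediate_value_Icc' hy2.le hc
    (show ell N x ∈ Icc (ell N y) (ell N (nn N)) from ⟨hy1.le, hlt.le⟩)
  refine ⟨r, lt_of_le_of_ne hr.1 ?_, by linarith [hr.2], hre⟩
  rintro rfl
  linarith

/-! ### shifted limits -/

instance neBot_UH : (𝓝[UH] (0 : ℂ)).NeBot := by
  rw [← mem_closure_iff_nhdsWithin_neBot, Metric.mem_closure_iff]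
  intro ε hε
  refine ⟨((ε / 2 : ℝ) : ℂ) * I, ?_, ?_⟩
  · show 0 < (((ε / 2 : ℝ) : ℂ) * I).im
    simp [hε]
  · rw [dist_zero_left, norm_mul, norm_I, mul_one, Complex.norm_real, Real.norm_eq_abs,
      abs_of_pos (by linarith)]
    linarith

/-- `b(c+δ) → z` as `δ → 0` in the upper half plane -/
def T (b : ℂ → ℂ) (c : ℝ) (z : ℂ) : Prop :=
  Tendsto (fun δ : ℂ => b ((c : ℂ) + δ)) (𝓝[UH] (0 : ℂ)) (𝓝 z)

theorem ev_UH : ∀ᶠ δ in 𝓝[UH] (0 : ℂ), δ ∈ UH := self_mem_nhdsWithin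

theorem sh_UH {c : ℝ} {δ : ℂ} (h : δ ∈ UH) : (c : ℂ) + δ ∈ UH := by
  have h' : 0 < δ.im := h
  show 0 < ((c : ℂ) + δ).im
  simpa using h'

/-- the reflected argument `2n - conj (b (c+δ))` -/
def rf (N : ℝ) (b : ℂ → ℂ) (c : ℝ) (δ : ℂ) : ℂ :=
  2 * (nn N : ℂ) - (starRingEnd ℂ) (b ((c : ℂ) + δ))

section

variable {N ρ σ : ℝ} {G b e : ℂ → ℂ}

theorem rf_UH (hb : Cont N ρ G b) {c : ℝ} {δ : ℂ} (h : δ ∈ UH) : rf N b c δ ∈ UH := by
  have h1 : 0 < (b ((c : ℂ) + δ)).im := hb.maps _ (sh_UH h)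
  show 0 < (rf N b c δ).im
  unfold rf
  simpa using h1

theorem conj_rf (c : ℝ) (δ : ℂ) :
    (starRingEnd ℂ) (rf N b c δ) = 2 * (nn N : ℂ) - b ((c : ℂ) + δ) := by
  unfold rf
  rw [map_sub, map_mul, conj_conj, conj_ofReal, show (starRingEnd ℂ) 2 = 2 from map_ofNat _ 2]

/-- `L(b(c-1+δ)) = conj (L (2n - conj b(c+δ)))` -/
theorem eqL (hS : BdyS N) (hb : Cont N ρ G b) {c : ℝ} {δ : ℂ} (h : δ ∈ UH) :
    L N (b (((c - 1 : ℝ) : ℂ) + δ)) = (starRingEnd ℂ) (L N (rf N b c δ)) := by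
  rw [← hS.cj _ (rf_UH hb h), conj_rf, hb.eq _ (sh_UH h)]
  congr 3
  push_cast
  ring

theorem eqL' (hb : Cont N ρ G b) {c : ℝ} {δ : ℂ} (h : δ ∈ UH) :
    L N (b (((c - 1 : ℝ) : ℂ) + δ)) = L N (2 * (nn N : ℂ) - b ((c : ℂ) + δ)) := by
  rw [hb.eq _ (sh_UH h)]
  congr 3
  push_cast
  ring

theorem rf_tendsto (hb : Cont N ρ G b) {c r : ℝ} (h : T b c (r : ℂ)) :
    Tendsto (rf N b c) (𝓝[UH] (0 : ℂ)) (𝓝[UH] ((2 * nn N - r : ℝ) : ℂ)) := by
  refine tendsto_nhdsWithin_iff.2 ⟨?_, ?_⟩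
  · have h1 : Tendsto (fun δ : ℂ => 2 * (nn N : ℂ) - (starRingEnd ℂ) (b ((c : ℂ) + δ)))
        (𝓝[UH] (0 : ℂ)) (𝓝 (2 * (nn N : ℂ) - (starRingEnd ℂ) (r : ℂ))) :=
      tendsto_const_nhds.sub ((continuous_conj.tendsto _).comp h)
    rw [conj_ofReal] at h1
    push_cast
    exact h1
  · filter_upwards [ev_UH] with δ hδ using rf_UH hb hδ

/-- sign and limit of `L(b(c-1+δ))` when `b(c+δ) → r ∈ (n,2n)` -/
theorem stepL (hN : 1 < N) (hS : BdyS N) (hb : Cont N ρ G b) {c r : ℝ} (h : T b c (r : ℂ))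
    (h1 : nn N < r) (h2 : r < 2 * nn N) :
    (∀ᶠ δ in 𝓝[UH] (0 : ℂ), (L N (b (((c - 1 : ℝ) : ℂ) + δ))).im < 0) ∧
    Tendsto (fun δ : ℂ => L N (b (((c - 1 : ℝ) : ℂ) + δ))) (𝓝[UH] (0 : ℂ))
      (𝓝 (ell N (2 * nn N - r) : ℂ)) := by
  have hn := nn_lt hN
  have ht := rf_tendsto hb h
  constructor
  · filter_upwards [ev_UH, ht.eventually (hS.s1 (2 * nn N - r) (by linarith) (by linarith))]
      with δ hδ h3
    rw [eqL hS hb hδ]
    simpa using h3
  · have h3 := (hS.v1 (2 * nn N - r) (by linarith) (by linarith)).comp ht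
    have h4 := (continuous_conj.tendsto _).comp h3
    rw [conj_ofReal] at h4
    refine h4.congr' ?_
    filter_upwards [ev_UH] with δ hδ
    exact (eqL hS hb hδ).symm

/-! ### the chain property -/

def Kp (σ : ℝ) (b : ℂ → ℂ) (k : ℕ) (z : ℂ) : Prop :=
  ∃ Ψ : ℂ → ℂ, AnalyticAt ℂ Ψ 0 ∧ Ψ 0 = z ∧ deriv Ψ 0 ≠ 0 ∧
    ∀ᶠ δ in 𝓝[UH] (0 : ℂ), b ((σ : ℂ) - k + δ) = Ψ (b ((σ : ℂ) + δ))

theorem Kp.tendsto {k : ℕ} {z : ℂ} (hK : Kp σ b k z) (h0 : T b σ 0) :
    T b (σ - k) z := by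
  obtain ⟨Ψ, hΨ, hz, -, heq⟩ := hK
  have h1 : Tendsto (fun δ : ℂ => Ψ (b ((σ : ℂ) + δ))) (𝓝[UH] (0 : ℂ)) (𝓝 z) := by
    rw [← hz]
    exact hΨ.continuousAt.tendsto.comp h0
  refine h1.congr' ?_
  filter_upwards [heq] with δ h
  rw [← h]
  push_cast
  rfl

theorem Kp.step {k : ℕ} {z z' : ℂ} (hK : Kp σ b k z) {Ls Lt : ℂ → ℂ}
    (hs : AnalyticAt ℂ Ls (2 * (nn N : ℂ) - z)) (hs' : deriv Ls (2 * (nn N : ℂ) - z) ≠ 0)
    (ht : AnalyticAt ℂ Lt z') (ht' : deriv Lt z' ≠ 0) (hz : Lt z' = Ls (2 * (nn N : ℂ) - z))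
    (hf : T b (σ - k - 1) z')
    (heq : ∀ᶠ δ in 𝓝[UH] (0 : ℂ), Lt (b (((σ - k - 1 : ℝ) : ℂ) + δ)) =
      Ls (2 * (nn N : ℂ) - b (((σ - k : ℝ) : ℂ) + δ))) :
    Kp σ b (k + 1) z' := by
  obtain ⟨Ψ, hΨ, hΨz, hΨ', hΨe⟩ := hK
  have hW : AnalyticAt ℂ (fun v => Ls (2 * (nn N : ℂ) - Ψ v)) 0 := by
    refine AnalyticAt.fun_comp ?_ (analyticAt_const.sub hΨ)
    rw [hΨz]; exact hs
  have hWd : HasDerivAt (fun v => Ls (2 * (nn N : ℂ) - Ψ v))
      (deriv Ls (2 * (nn N : ℂ) - z) * (-(deriv Ψ 0))) 0 := by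
    have e1 : HasDerivAt (fun v => 2 * (nn N : ℂ) - Ψ v) (-(deriv Ψ 0)) 0 :=
      hΨ.differentiableAt.hasDerivAt.const_sub _
    have e2 : HasDerivAt Ls (deriv Ls (2 * (nn N : ℂ) - z)) (2 * (nn N : ℂ) - Ψ 0) := by
      rw [hΨz]; exact hs.differentiableAt.hasDerivAt
    exact e2.comp (0 : ℂ) e1
  obtain ⟨Φ, hΦ, hΦz, hΦ', hΦe⟩ := lift (l := 𝓝[UH] (0 : ℂ))
    (f := fun δ => b (((σ - k - 1 : ℝ) : ℂ) + δ)) (x := fun δ => b ((σ : ℂ) + δ)) hW
    (by rw [hWd.deriv]; exact mul_ne_zero hs' (neg_ne_zero.2 hΨ')) ht ht'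
    (by rw [hz, hΨz]) hf
    (by
      filter_upwards [heq, hΨe] with δ h1 h2
      rw [h1, ← h2]
      push_cast
      rfl)
  refine ⟨Φ, hΦ, hΦz, hΦ', ?_⟩
  filter_upwards [hΦe] with δ h
  rw [← h]
  congr 1
  push_cast
  ring

theorem step_UH (hN : 1 < N) (h1a : Leaf1a) (hB : BdyB N) (hS : BdyS N) (hb : Cont N ρ G b)
    (h0 : T b σ 0) {k : ℕ} {z : ℂ} (hK : Kp σ b k z) (hz : z ∈ UH) :
    (∃ z' ∈ UH, Kp σ b (k + 1) z') ∨ (∃ r : ℝ, 1 < r ∧ Kp σ b (k + 1) (r : ℂ)) := by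
  have hzi : 0 < z.im := hz
  have hai : (2 * (nn N : ℂ) - z).im < 0 := by simpa using hzi
  obtain ⟨hs1, hs2⟩ := mem_slit_of_im hai.ne
  have han := an_L (N := N) hs1 hs2
  have hne : (2 * (nn N : ℂ) - z) ≠ (nn N : ℂ) := by
    intro h
    have := congrArg Complex.im h
    rw [ofReal_im] at this
    linarith
  have hder := deriv_L_ne hN hs1 hs2 hne
  have hc : (starRingEnd ℂ) (2 * (nn N : ℂ) - z) ∈ UH := by
    show 0 < ((starRingEnd ℂ) (2 * (nn N : ℂ) - z)).im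
    rw [conj_im]; linarith
  have hV : L N (2 * (nn N : ℂ) - z) =
      (starRingEnd ℂ) (L N ((starRingEnd ℂ) (2 * (nn N : ℂ) - z))) := by
    have := hS.cj _ hc
    rwa [conj_conj] at this
  obtain ⟨g1, g2, g3⟩ := (h1a N hN).2.1 _ hc
  have ht := hK.tendsto h0
  have hf1 : Tendsto (fun δ : ℂ => L N (b (((σ - k - 1 : ℝ) : ℂ) + δ))) (𝓝[UH] (0 : ℂ))
      (𝓝 (L N (2 * (nn N : ℂ) - z))) := by
    have h1 : Tendsto (fun δ : ℂ => L N (2 * (nn N : ℂ) - b (((σ - k : ℝ) : ℂ) + δ)))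
        (𝓝[UH] (0 : ℂ)) (𝓝 (L N (2 * (nn N : ℂ) - z))) :=
      han.continuousAt.tendsto.comp (tendsto_const_nhds.sub ht)
    refine h1.congr' ?_
    filter_upwards [ev_UH] with δ hδ
    exact (eqL' hb hδ).symm
  have hevU : ∀ᶠ δ in 𝓝[UH] (0 : ℂ), b (((σ - k - 1 : ℝ) : ℂ) + δ) ∈ UH := by
    filter_upwards [ev_UH] with δ hδ using hb.maps _ (sh_UH hδ)
  have him : -Real.pi ≤ (L N (2 * (nn N : ℂ) - z)).im := by
    refine ge_of_tendsto ((continuous_im.tendsto _).comp hf1) ?_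
    filter_upwards [hevU] with δ hδ
    exact ((h1a N hN).2.1 _ hδ).1.le
  have heq : ∀ᶠ δ in 𝓝[UH] (0 : ℂ), L N (b (((σ - k - 1 : ℝ) : ℂ) + δ)) =
      L N (2 * (nn N : ℂ) - b (((σ - k : ℝ) : ℂ) + δ)) := by
    filter_upwards [ev_UH] with δ hδ using eqL' hb hδ
  have hVi : (L N (2 * (nn N : ℂ) - z)).im =
      -(L N ((starRingEnd ℂ) (2 * (nn N : ℂ) - z))).im := by
    conv_lhs => rw [hV]
    rw [conj_im]
  have hVr : (L N (2 * (nn N : ℂ) - z)).re =
      (L N ((starRingEnd ℂ) (2 * (nn N : ℂ) - z))).re := by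
    conv_lhs => rw [hV]
    rw [conj_re]
  rcases him.lt_or_eq with him | him
  · left
    have hmem : L N (2 * (nn N : ℂ) - z) ∈ SS N := by
      refine ⟨him, ?_, ?_⟩
      · rw [hVi]
        have := Real.pi_pos
        nlinarith
      · intro h
        rw [hVr]
        rw [hVi] at h
        exact g3 (by linarith)
    obtain ⟨z', hz', hLz'⟩ := (h1a N hN).2.2 _ hmem
    have hzi' : 0 < z'.im := hz'
    obtain ⟨ht1, ht2⟩ := mem_slit_of_im hzi'.ne'
    have hne' : z' ≠ (nn N : ℂ) := by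
      intro h
      have := congrArg Complex.im h
      rw [ofReal_im] at this
      linarith
    refine ⟨z', hz', hK.step (N := N) han hder (an_L ht1 ht2) (deriv_L_ne hN ht1 ht2 hne') hLz'
      ?_ heq⟩
    exact hB.b1 _ _ z' hevU hz' (by rw [hLz']; exact hf1)
  · right
    obtain ⟨r, hr, hlr, hrt⟩ := hB.b2 _ _ (L N (2 * (nn N : ℂ) - z)) inferInstance hevU
      him.symm hf1
    obtain ⟨ht1, ht2⟩ := mem_slit_real' hr
    have hLt : AnalyticAt ℂ (fun z => L1 N z - Real.pi * I) (r : ℂ) :=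
      (an_L1 ht1 ht2).sub analyticAt_const
    have hLt' : deriv (fun z => L1 N z - Real.pi * I) (r : ℂ) ≠ 0 := by
      rw [deriv_sub_const]
      exact deriv_L1_ne hN hr
    refine ⟨r, hr, hK.step (N := N) han hder hLt hLt' ?_ hrt ?_⟩
    · simp only [L1_real hr, hlr]
      apply Complex.ext
      · simp
      · simp [← him]
    · filter_upwards [heq, hevU] with δ h1 h2
      rw [← h1, L_eq_UH N h2]

/-- from a real value in `(n,2n)` the chain goes to a real value in `(n,1)` -/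
theorem step_real (hN : 1 < N) (hB : BdyB N) (hS : BdyS N) (hb : Cont N ρ G b)
    (h0 : T b σ 0) {k : ℕ} {r : ℝ} (hK : Kp σ b k (r : ℂ)) (h1 : nn N < r)
    (h2 : r < 2 * nn N) :
    ∃ r' : ℝ, nn N < r' ∧ r' < 1 ∧ Kp σ b (k + 1) (r' : ℂ) := by
  have hn := nn_lt hN
  have hx0 : 0 < 2 * nn N - r := by linarith
  have hx1 : 2 * nn N - r < nn N := by linarith
  obtain ⟨r', hr1, hr2, hr3⟩ := exists_level hN hx0 hx1
  obtain ⟨hs, ht⟩ := stepL hN hS hb (hK.tendsto h0) h1 h2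
  have hevU : ∀ᶠ δ in 𝓝[UH] (0 : ℂ), b (((σ - k - 1 : ℝ) : ℂ) + δ) ∈ UH := by
    filter_upwards [ev_UH] with δ hδ using hb.maps _ (sh_UH hδ)
  have hT : T b (σ - k - 1) (r' : ℂ) :=
    hB.b3 _ _ r' hevU hr1 hr2 hs (by rw [hr3]; exact ht)
  obtain ⟨hs1, hs2⟩ := mem_slit_real hx0 (by linarith : 2 * nn N - r < 1)
  obtain ⟨ht1, ht2⟩ := mem_slit_real (by linarith : 0 < r') hr2
  have hcast : 2 * (nn N : ℂ) - (r : ℂ) = ((2 * nn N - r : ℝ) : ℂ) := by push_cast; ring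
  refine ⟨r', hr1, hr2, hK.step (N := N) (Ls := L N) (Lt := L N) ?_ ?_ (an_L ht1 ht2)
    (deriv_L_ne hN ht1 ht2 ?_) ?_ hT ?_⟩
  · rw [hcast]; exact an_L hs1 hs2
  · rw [hcast]
    refine deriv_L_ne hN hs1 hs2 ?_
    intro h
    have : 2 * nn N - r = nn N := by exact_mod_cast h
    linarith
  · intro h
    have : r' = nn N := by exact_mod_cast h
    linarith
  · rw [hcast, L_real hx0 (by linarith), L_real (by linarith) hr2, hr3]
  · filter_upwards [ev_UH] with δ hδ using eqL' hb hδ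

/-- a value `> 2n` is impossible -/
theorem step_big (hN : 1 < N) (h1a : Leaf1a) (hS : BdyS N) (hb : Cont N ρ G b) {c r : ℝ}
    (h : T b c (r : ℂ)) (h1 : 2 * nn N < r) : False := by
  have ht := rf_tendsto hb h
  have h3 := (hS.v3 (2 * nn N - r) (by linarith)).comp ht
  have h4 := (continuous_im.tendsto _).comp h3
  have h5 : N * Real.pi ≤ Real.pi := by
    have h6 : (((ell N (2 * nn N - r) : ℂ) + N * Real.pi * I)).im = N * Real.pi := by
      simp
    rw [h6] at h4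
    refine le_of_tendsto h4 ?_
    filter_upwards [ev_UH] with δ hδ
    have h7 := eqL hS hb (c := c) hδ
    have h8 := ((h1a N hN).2.1 _ (hb.maps _ (sh_UH (c := c - 1) hδ))).1
    rw [h7, conj_im] at h8
    simp only [Function.comp]
    linarith
  have := Real.pi_pos
  nlinarith

/-- after the value `2n` comes the value `1` -/
theorem step_two (hB : BdyB N) (hS : BdyS N) (hb : Cont N ρ G b) {c : ℝ}
    (h : T b c ((2 * nn N : ℝ) : ℂ)) : T b (c - 1) 1 := by
  have ht := rf_tendsto hb h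
  rw [sub_self, ofReal_zero] at ht
  refine hB.b6 _ _ ?_ ?_ ?_
  · filter_upwards [ev_UH] with δ hδ using hb.maps _ (sh_UH hδ)
  · filter_upwards [ev_UH, ht.eventually hS.s0] with δ hδ h3
    rw [eqL hS hb hδ]
    simpa using h3
  · refine (hS.s0'.comp ht).congr' ?_
    filter_upwards [ev_UH] with δ hδ
    rw [eqL hS hb hδ, conj_re]
    rfl

theorem tau (hN : 1 < N) (hB : BdyB N) (hS : BdyS N) (hb : Cont N ρ G b) {c c' : ℝ}
    (h : T b c 1) (h' : T b c' ((2 * nn N - 1 : ℝ) : ℂ)) (j : ℕ) :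
    ∃ t : ℝ, nn N < t ∧ t ≤ 1 ∧ T b (c - j) (t : ℂ) ∧
      T b (c' + j) ((2 * nn N - t : ℝ) : ℂ) := by
  have hn := nn_lt hN
  induction j with
  | zero =>
    refine ⟨1, hn.2, le_rfl, ?_, ?_⟩
    · simpa using h
    · simpa using h'
  | succ j ih =>
    obtain ⟨t, ht1, ht2, hl, hr⟩ := ih
    obtain ⟨t', ht1', ht2', ht3'⟩ := exists_level hN (show 0 < 2 * nn N - t by linarith)
      (by linarith)
    refine ⟨t', ht1', ht2'.le, ?_, ?_⟩
    · obtain ⟨hs, hlim⟩ := stepL hN hS hb hl ht1 (by linarith)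
      have hevU : ∀ᶠ δ in 𝓝[UH] (0 : ℂ), b (((c - j - 1 : ℝ) : ℂ) + δ) ∈ UH := by
        filter_upwards [ev_UH] with δ hδ using hb.maps _ (sh_UH hδ)
      have := hB.b3 _ _ t' hevU ht1' ht2' hs (by rw [ht3']; exact hlim)
      have e1 : c - ((j + 1 : ℕ) : ℝ) = c - j - 1 := by push_cast; ring
      rw [e1]
      exact this
    · have e1 : c' + ((j + 1 : ℕ) : ℝ) - 1 = c' + j := by push_cast; ring
      have hrw : Tendsto (fun δ : ℂ => b (((c' + j : ℝ) : ℂ) + δ)) (𝓝[UH] (0 : ℂ))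
          (𝓝[UH] ((2 * nn N - t : ℝ) : ℂ)) :=
        tendsto_nhdsWithin_iff.2 ⟨hr, by
          filter_upwards [ev_UH] with δ hδ using hb.maps _ (sh_UH hδ)⟩
      have hconj : ∀ δ ∈ UH, L N (rf N b (c' + ((j + 1 : ℕ) : ℝ)) δ) =
          (starRingEnd ℂ) (L N (b (((c' + j : ℝ) : ℂ) + δ))) := by
        intro δ hδ
        have := eqL hS hb (c := c' + ((j + 1 : ℕ) : ℝ)) hδ
        rw [e1] at this
        rw [this, conj_conj]
      have hf : Tendsto (rf N b (c' + ((j + 1 : ℕ) : ℝ))) (𝓝[UH] (0 : ℂ)) (𝓝 (t' : ℂ)) := by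
        refine hB.b3 _ _ t' ?_ ht1' ht2' ?_ ?_
        · filter_upwards [ev_UH] with δ hδ using rf_UH hb hδ
        · filter_upwards [ev_UH, hrw.eventually (hS.s1 (2 * nn N - t) (by linarith)
            (by linarith))] with δ hδ h3
          rw [hconj δ hδ, conj_im]
          linarith
        · have h3 := (hS.v1 (2 * nn N - t) (by linarith) (by linarith)).comp hrw
          have h4 := (continuous_conj.tendsto _).comp h3
          rw [conj_ofReal] at h4
          rw [ht3']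
          refine h4.congr' ?_
          filter_upwards [ev_UH] with δ hδ
          exact (hconj δ hδ).symm
      have h5 : Tendsto (fun δ => 2 * (nn N : ℂ) -
          (starRingEnd ℂ) (rf N b (c' + ((j + 1 : ℕ) : ℝ)) δ)) (𝓝[UH] (0 : ℂ))
          (𝓝 (2 * (nn N : ℂ) - (starRingEnd ℂ) (t' : ℂ))) :=
        tendsto_const_nhds.sub ((continuous_conj.tendsto _).comp hf)
      rw [conj_ofReal] at h5
      have e2 : ((2 * nn N - t' : ℝ) : ℂ) = 2 * (nn N : ℂ) - (t' : ℂ) := by push_cast; ring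
      rw [e2]
      refine h5.congr fun δ => ?_
      rw [conj_rf]
      ring

/-- the limit at a real point of modulus `> ρ` -/
theorem T_eq (hG : GF N ρ G) (hb : Cont N ρ G b) {c : ℝ} (hc : ρ < ‖(c : ℂ)‖) {z : ℂ}
    (h : T b c z) : z = (nn N : ℂ) + G (c : ℂ) := by
  have hopen : IsOpen {s : ℂ | ρ < ‖s‖} := isOpen_lt continuous_const continuous_norm
  have hcont : ContinuousAt G (c : ℂ) :=
    (hG.an.differentiableAt (hopen.mem_nhds hc)).continuousAt
  have hsh : Tendsto (fun δ : ℂ => (c : ℂ) + δ) (𝓝[UH] (0 : ℂ)) (𝓝 (c : ℂ)) := by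
    have : Tendsto (fun δ : ℂ => (c : ℂ) + δ) (𝓝 (0 : ℂ)) (𝓝 ((c : ℂ) + 0)) :=
      tendsto_const_nhds.add tendsto_id
    rw [add_zero] at this
    exact this.mono_left nhdsWithin_le_nhds
  have h1 : Tendsto (fun δ : ℂ => (nn N : ℂ) + G ((c : ℂ) + δ)) (𝓝[UH] (0 : ℂ))
      (𝓝 ((nn N : ℂ) + G (c : ℂ))) := tendsto_const_nhds.add (hcont.tendsto.comp hsh)
  refine tendsto_nhds_unique h (h1.congr' ?_)
  filter_upwards [ev_UH, hsh.eventually (hopen.mem_nhds hc)] with δ hδ h2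
  exact (hb.ext _ (sh_UH hδ) h2).symm

theorem two_sigma (hN : 1 < N) (hG : GF N ρ G) (hB : BdyB N) (hS : BdyS N)
    (hb : Cont N ρ G b) {c c' : ℝ}
    (h : T b c 1) (h' : T b c' ((2 * nn N - 1 : ℝ) : ℂ)) : c = -c' := by
  obtain ⟨j, hj⟩ := exists_nat_gt (ρ + |c| + |c'|)
  have hρ := hG.hρ
  obtain ⟨t, -, -, h1, h2⟩ := tau hN hB hS hb h h' j
  have a1 := abs_nonneg c
  have a2 := abs_nonneg c'
  have n1 : ρ < ‖((c - j : ℝ) : ℂ)‖ := by
    rw [Complex.norm_real, Real.norm_eq_abs]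
    have := neg_abs_le (c - j)
    have := le_abs_self c
    linarith
  have n2 : ρ < ‖((c' + j : ℝ) : ℂ)‖ := by
    rw [Complex.norm_real, Real.norm_eq_abs]
    have := le_abs_self (c' + j)
    have := neg_abs_le c'
    linarith
  have e1 := T_eq hG hb n1 h1
  have e2 := T_eq hG hb n2 h2
  have e3 : G (-((c' + j : ℝ) : ℂ)) = -G ((c' + j : ℝ) : ℂ) := hG.odd _ n2
  have e4 : G ((c - j : ℝ) : ℂ) = G (-((c' + j : ℝ) : ℂ)) := by
    rw [e3]
    push_cast at e1 e2 ⊢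
    linear_combination -e1 - e2
  have e5 := hG.inj n1 (show ρ < ‖-((c' + j : ℝ) : ℂ)‖ by rw [norm_neg]; exact n2) e4
  have e6 : c - j = -(c' + j) := by exact_mod_cast e5
  linarith

/-- No chain function at a point where `n + G` is analytic. -/
def Growth : Prop := ∀ {N ρ σ : ℝ} {G b e Ψ : ℂ → ℂ} {k : ℕ}, GF N ρ G → Cont N ρ G b →
  End N σ b e → Tendsto (fun δ : ℂ => b ((σ : ℂ) + δ)) (𝓝[UH] 0) (𝓝 0) →
  ρ < ‖(σ : ℂ) - k‖ → AnalyticAt ℂ Ψ 0 → deriv Ψ 0 ≠ 0 →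
  (∀ᶠ δ in 𝓝[UH] (0 : ℂ), b ((σ : ℂ) - k + δ) = Ψ (b ((σ : ℂ) + δ))) → False

theorem exists_big (σ ρ : ℝ) (k : ℕ) : ∃ j : ℕ, k ≤ j ∧ ρ < ‖(σ : ℂ) - j‖ := by
  obtain ⟨j, hj⟩ := exists_nat_gt (ρ + |σ|)
  refine ⟨max j k, le_max_right _ _, ?_⟩
  have e1 : (σ : ℂ) - ((max j k : ℕ) : ℂ) = ((σ - ((max j k : ℕ) : ℝ) : ℝ) : ℂ) := by
    rw [ofReal_sub, ofReal_natCast]
  rw [e1, Complex.norm_real, Real.norm_eq_abs]
  have h1 := neg_abs_le (σ - ((max j k : ℕ) : ℝ))
  have h2 := le_abs_self σ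
  have h3 : (j : ℝ) ≤ ((max j k : ℕ) : ℝ) := by exact_mod_cast le_max_left _ _
  linarith

theorem start (hN : 1 < N) (hb : Cont N ρ G b) {b1 : ℂ} (hb1 : b1 ∈ UH)
    (hL : L N b1 = (ell N (2 * nn N) : ℂ) + Real.pi * I)
    (hlim : Tendsto (fun δ : ℂ => b ((σ : ℂ) - 1 + δ)) (𝓝[UH] 0) (𝓝 b1)) : Kp σ b 1 b1 := by
  have hn := nn_lt hN
  have h1 : (1 : ℝ) < 2 * nn N := by linarith
  obtain ⟨hs1, hs2⟩ := mem_slit_real' h1
  have hcast : ((2 * nn N : ℝ) : ℂ) = 2 * (nn N : ℂ) := by push_cast; rfl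
  have hi : 0 < b1.im := hb1
  obtain ⟨ht1, ht2⟩ := mem_slit_of_im hi.ne'
  have hne : b1 ≠ (nn N : ℂ) := by
    intro h
    have := congrArg Complex.im h
    rw [ofReal_im] at this
    linarith
  have hW : AnalyticAt ℂ (fun v => L1 N (2 * (nn N : ℂ) - v) + Real.pi * I) 0 := by
    refine AnalyticAt.add ?_ analyticAt_const
    refine AnalyticAt.fun_comp ?_ (analyticAt_const.sub analyticAt_id)
    rw [sub_zero, ← hcast]
    exact an_L1 hs1 hs2
  have hWd : HasDerivAt (fun v => L1 N (2 * (nn N : ℂ) - v) + Real.pi * I)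
      (deriv (L1 N) ((2 * nn N : ℝ) : ℂ) * (-1)) 0 := by
    refine HasDerivAt.add_const _ ?_
    have e1 : HasDerivAt (fun v : ℂ => 2 * (nn N : ℂ) - v) (-1) 0 := by
      simpa using (hasDerivAt_id (0 : ℂ)).const_sub (2 * (nn N : ℂ))
    have e2 : HasDerivAt (L1 N) (deriv (L1 N) ((2 * nn N : ℝ) : ℂ)) (2 * (nn N : ℂ) - 0) := by
      rw [sub_zero, ← hcast]
      exact (an_L1 hs1 hs2).differentiableAt.hasDerivAt
    exact e2.comp (0 : ℂ) e1
  obtain ⟨Φ, hΦ, hΦz, hΦ', hΦe⟩ := lift (l := 𝓝[UH] (0 : ℂ)) (Ls := L N)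
    (f := fun δ => b ((σ : ℂ) - 1 + δ)) (x := fun δ => b ((σ : ℂ) + δ)) hW
    (by rw [hWd.deriv]; exact mul_ne_zero (deriv_L1_ne hN h1) (by norm_num)) (an_L ht1 ht2)
    (deriv_L_ne hN ht1 ht2 hne)
    (by rw [hL, sub_zero, ← hcast, L1_real h1]) hlim
    (by
      filter_upwards [ev_UH] with δ hδ
      have h2 := eqL' hb (c := σ) hδ
      have h3 : ((σ - 1 : ℝ) : ℂ) = (σ : ℂ) - 1 := by push_cast; rfl
      rw [h3] at h2
      rw [h2]
      have h4 : 0 < (b ((σ : ℂ) + δ)).im := hb.maps _ (sh_UH hδ)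
      exact L_eq_LH N (by simpa using h4))
  refine ⟨Φ, hΦ, hΦz, hΦ', ?_⟩
  filter_upwards [hΦe] with δ h
  rw [← h]
  push_cast
  rfl

/-- leaf 4b from the growth lemma -/
theorem leaf4b_of (hgr : Growth) (h1a : Leaf1a) (h1b : Leaf1b) (h1c : Leaf1c) (h4a : Leaf4a) :
    Leaf4b := by
  intro N ρ σ G b e hG hb _ he
  have hN := hG.hN
  have hB := h1b N hN
  have hS := h1c N hN
  have hn := nn_lt hN
  obtain ⟨h0, b1, hb1, hL1, hlim1⟩ := h4a N ρ σ G b e hG hb he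
  have hT0 : T b σ 0 := h0
  have hK1 : Kp σ b 1 b1 := start hN hb hb1 hL1 hlim1
  -- no infinite chain
  have hno : ∀ k : ℕ, (∀ j, k ≤ j → ∃ z, Kp σ b j z) → False := by
    intro k hk
    obtain ⟨j, hj1, hj2⟩ := exists_big σ ρ k
    obtain ⟨z, Ψ, hΨ, -, hΨ', hΨe⟩ := hk j hj1
    exact hgr hG hb he h0 hj2 hΨ hΨ' hΨe
  -- first exit from the upper half plane
  have hexit : ∃ k : ℕ, 1 ≤ k ∧ ∃ r : ℝ, 1 < r ∧ Kp σ b k (r : ℂ) := by
    by_contra hcon
    push Not at hcon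
    have hall : ∀ j : ℕ, ∃ z ∈ UH, Kp σ b (j + 1) z := by
      intro j
      induction j with
      | zero => exact ⟨b1, hb1, hK1⟩
      | succ j ih =>
        obtain ⟨z, hz, hK⟩ := ih
        rcases step_UH hN h1a hB hS hb hT0 hK hz with h | ⟨r, hr, hKr⟩
        · exact h
        · exact absurd hKr (hcon (j + 1 + 1) (by omega) r hr)
    refine hno 1 fun j hj => ?_
    obtain ⟨z, -, hK⟩ := hall (j - 1)
    rw [Nat.sub_add_cancel hj] at hK
    exact ⟨z, hK⟩
  obtain ⟨M, hM, r, hr, hKr⟩ := hexit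
  have hTr : T b (σ - M) (r : ℂ) := hKr.tendsto hT0
  rcases lt_trichotomy r (2 * nn N) with hlt | heq | hgt
  · exfalso
    have hall : ∀ j : ℕ, ∃ t : ℝ, nn N < t ∧ t < 2 * nn N ∧ Kp σ b (M + j) (t : ℂ) := by
      intro j
      induction j with
      | zero => exact ⟨r, by linarith, hlt, hKr⟩
      | succ j ih =>
        obtain ⟨t, ht1, ht2, hK⟩ := ih
        obtain ⟨t', g1, g2, g3⟩ := step_real hN hB hS hb hT0 hK ht1 ht2
        exact ⟨t', g1, by linarith, g3⟩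
    refine hno M fun j hj => ?_
    obtain ⟨t, -, -, hK⟩ := hall (j - M)
    rw [Nat.add_sub_cancel' hj] at hK
    exact ⟨_, hK⟩
  · subst heq
    have h1 : T b (σ - M - 1) 1 := step_two hB hS hb hTr
    have h2 : T b (σ + 1) ((2 * nn N - 1 : ℝ) : ℂ) := by
      have h3 : Tendsto (fun δ : ℂ => 2 * (nn N : ℂ) - 1 + e δ) (𝓝[UH] (0 : ℂ))
          (𝓝 (2 * (nn N : ℂ) - 1 + e 0)) :=
        (tendsto_const_nhds.add he.an.continuousAt.tendsto).mono_left nhdsWithin_le_nhds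
      rw [he.zero, add_zero] at h3
      have h4 : ((2 * nn N - 1 : ℝ) : ℂ) = 2 * (nn N : ℂ) - 1 := by push_cast; rfl
      rw [h4]
      refine h3.congr' ?_
      filter_upwards [he.eq] with δ hδ
      rw [← hδ]
      push_cast
      rfl
    have h5 := two_sigma hN hG hB hS hb h1 h2
    obtain ⟨Ψ, hΨ, hΨz, hΨ', hΨe⟩ := hKr
    refine ⟨M, fun v => 2 * (nn N : ℂ) - Ψ v, hM, by linarith, analyticAt_const.sub hΨ, ?_, ?_, ?_⟩
    · show 2 * (nn N : ℂ) - Ψ 0 = 0
      rw [hΨz]; push_cast; ring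
    · rw [deriv_const_sub]
      exact neg_ne_zero.2 hΨ'
    · filter_upwards [hΨe] with δ hδ
      rw [hδ]
  · exact (step_big hN h1a hS hb hTr hgt).elim

end

/-- **H4-4b** (growth lemma by helper722). -/
theorem leaf4b (h1a : Leaf1a) (h1b : Leaf1b) (h1c : Leaf1c) (h4a : Leaf4a) : Leaf4b :=
  leaf4b_of (fun hG hb he h0 hk hΨ hΨ' hΨe => growth hG hb he h0 hk hΨ hΨ' hΨe) h1a h1b h1c h4a

end Crest.Agent.R102.H4L4b297
end
end

-- ▼ part R102/H4mono_435
section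

/-!
Row 102, block [H4], section 4 of the document `C_H4_148` (helper148): the monodromy argument.
If the germ `η` at `0` satisfies `Q (A x) = η x`, `Q (H (A x)) = η (-x)` on a small lower half disc,
`Q y = y ^ N (1 - y)` (principal branches), `A → 0`, `H` a local biholomorphism at `0`, and `N` is
not an integer, then `η'' 0 = 0`.
-/

set_option autoImplicit false

namespace Crest.Agent.R102.H4mono435

open Complex Set Filter Topology Metric

/-- equivariance of the time reversal germ under a non-trivial rotation kills the second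
derivative. -/
theorem deriv2_of_equivariant {η σ : ℂ → ℂ} (hη : AnalyticAt ℂ η 0) (h0 : η 0 = 0)
    (h1 : deriv η 0 ≠ 0) {ω : ℂ} (hω0 : ω ≠ 0) (hω : ω ≠ 1) (hσ : AnalyticAt ℂ σ 0)
    (hση : ∀ᶠ x in 𝓝 (0 : ℂ), σ (η x) = η (-x))
    (hσω : ∃ᶠ z in 𝓝[≠] (0 : ℂ), σ (ω * z) = ω * σ z) : deriv (deriv η) 0 = 0 := by
  -- first: `σ (ω z) = ω σ z` near `0`
  have hm : AnalyticAt ℂ (fun z : ℂ => σ (ω * z)) 0 := by
    have h2 : AnalyticAt ℂ σ ((fun z : ℂ => ω * z) 0) := by simpa using hσ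
    exact h2.comp (analyticAt_const.mul analyticAt_id)
  have hr : AnalyticAt ℂ (fun z : ℂ => ω * σ z) 0 := analyticAt_const.mul hσ
  have he : ∀ᶠ z in 𝓝 (0 : ℂ), σ (ω * z) = ω * σ z :=
    (hm.frequently_eq_iff_eventually_eq hr).1 hσω
  have hσd : ∀ᶠ z in 𝓝 (0 : ℂ), DifferentiableAt ℂ σ z :=
    hσ.eventually_analyticAt.mono fun z hz => hz.differentiableAt
  have hηd : ∀ᶠ z in 𝓝 (0 : ℂ), DifferentiableAt ℂ η z :=
    hη.eventually_analyticAt.mono fun z hz => hz.differentiableAt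
  have hσ2 : HasDerivAt (deriv σ) (deriv (deriv σ) 0) 0 := hσ.deriv.differentiableAt.hasDerivAt
  have hη2 : HasDerivAt (deriv η) (deriv (deriv η) 0) 0 := hη.deriv.differentiableAt.hasDerivAt
  have hlin : Tendsto (fun z : ℂ => ω * z) (𝓝 0) (𝓝 0) := by
    have : Continuous fun z : ℂ => ω * z := by fun_prop
    simpa using this.tendsto 0
  have hneg : Tendsto (fun z : ℂ => -z) (𝓝 0) (𝓝 0) := by
    have : Continuous fun z : ℂ => -z := by fun_prop
    simpa using this.tendsto 0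
  have hηt : Tendsto η (𝓝 0) (𝓝 0) := by
    simpa [h0] using hη.continuousAt.tendsto
  -- second derivative of `σ` vanishes
  have hs2 : deriv (deriv σ) 0 = 0 := by
    have e1 : ∀ᶠ z in 𝓝 (0 : ℂ), deriv σ (ω * z) * ω = ω * deriv σ z := by
      filter_upwards [he.eventually_nhds, hlin.eventually hσd, hσd] with z hz hz1 hz2
      have d1 : HasDerivAt (fun z : ℂ => σ (ω * z)) (deriv σ (ω * z) * ω) z := by
        have := hz1.hasDerivAt
        have h3 : HasDerivAt (fun z : ℂ => ω * z) ω z := by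
          simpa using (hasDerivAt_id z).const_mul ω
        exact this.comp z h3
      have d2 : HasDerivAt (fun z : ℂ => ω * σ z) (ω * deriv σ z) z := hz2.hasDerivAt.const_mul ω
      exact (d1.congr_of_eventuallyEq (hz.mono fun _ h => h.symm)).unique d2
    have e2 : ∀ᶠ z in 𝓝 (0 : ℂ), deriv σ (ω * z) = deriv σ z := by
      filter_upwards [e1] with z hz
      have : ω * (deriv σ (ω * z)) = ω * deriv σ z := by rw [← hz]; ring
      exact mul_left_cancel₀ hω0 this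
    have d1 : HasDerivAt (fun z : ℂ => deriv σ (ω * z)) (deriv (deriv σ) 0 * ω) 0 := by
      have h3 : HasDerivAt (fun z : ℂ => ω * z) ω 0 := by
        simpa using (hasDerivAt_id (0 : ℂ)).const_mul ω
      have h4 : HasDerivAt (deriv σ) (deriv (deriv σ) 0) ((fun z : ℂ => ω * z) 0) := by
        simpa using hσ2
      exact h4.comp 0 h3
    have := (d1.congr_of_eventuallyEq (e2.mono fun _ h => h.symm)).unique hσ2
    have h5 : deriv (deriv σ) 0 * (ω - 1) = 0 := by linear_combination this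
    rcases mul_eq_zero.1 h5 with h | h
    · exact h
    · exact absurd (sub_eq_zero.1 h) hω
  -- first derivative identity near zero
  have e1 : ∀ᶠ x in 𝓝 (0 : ℂ), deriv σ (η x) * deriv η x = -deriv η (-x) := by
    filter_upwards [hση.eventually_nhds, hηt.eventually hσd, hηd, hneg.eventually hηd]
      with x hx hx1 hx2 hx3
    have d1 : HasDerivAt (fun x : ℂ => σ (η x)) (deriv σ (η x) * deriv η x) x :=
      hx1.hasDerivAt.comp x hx2.hasDerivAt
    have d2 : HasDerivAt (fun x : ℂ => η (-x)) (deriv η (-x) * (-1)) x := by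
      have h3 : HasDerivAt (fun x : ℂ => -x) (-1) x := hasDerivAt_neg x
      exact hx3.hasDerivAt.comp x h3
    have := (d1.congr_of_eventuallyEq (hx.mono fun _ h => h.symm)).unique d2
    rw [this]; ring
  have hs1 : deriv σ 0 = -1 := by
    have := e1.self_of_nhds
    rw [h0, neg_zero] at this
    have h5 : deriv η 0 * (deriv σ 0 + 1) = 0 := by linear_combination this
    rcases mul_eq_zero.1 h5 with h | h
    · exact absurd h h1
    · exact eq_neg_of_add_eq_zero_left h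
  have d1 : HasDerivAt (fun x : ℂ => deriv σ (η x) * deriv η x)
      (deriv (deriv σ) 0 * deriv η 0 * deriv η 0 + deriv σ (η 0) * deriv (deriv η) 0) 0 := by
    have h4 : HasDerivAt (deriv σ) (deriv (deriv σ) 0) (η 0) := by rw [h0]; exact hσ2
    exact (h4.comp 0 hη.differentiableAt.hasDerivAt).mul hη2
  have d2 : HasDerivAt (fun x : ℂ => -deriv η (-x)) (-(deriv (deriv η) 0 * (-1))) 0 := by
    have h3 : HasDerivAt (fun x : ℂ => -x) (-1) (0 : ℂ) := hasDerivAt_neg (0 : ℂ)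
    have h4 : HasDerivAt (deriv η) (deriv (deriv η) 0) ((fun x : ℂ => -x) 0) := by
      simpa using hη2
    exact (h4.comp 0 h3).neg
  have := (d1.congr_of_eventuallyEq (e1.mono fun _ h => h.symm)).unique d2
  rw [hs2, h0, hs1] at this
  linear_combination (-1 / 2) * this

/-- **Monodromy leaf** (section 4 of `C_H4_148`). -/
theorem monodromy {N : ℝ} (hN : 0 < N) (hω : cexp (2 * Real.pi * I * N) ≠ 1) {η H A : ℂ → ℂ}
    (hη : AnalyticAt ℂ η 0) (h0 : η 0 = 0) (h1 : deriv η 0 ≠ 0)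
    (hH : AnalyticAt ℂ H 0) (hH0 : H 0 = 0) (hH1 : deriv H 0 ≠ 0)
    {r : ℝ} (hr : 0 < r)
    (hAc : ContinuousOn A (ball 0 r ∩ {x | x.im < 0}))
    (hA0 : Tendsto A (𝓝[{x | x.im < 0}] 0) (𝓝 0))
    (hAim : ∀ x ∈ ball (0 : ℂ) r, x.im < 0 → (A x).im ≠ 0)
    (hHim : ∀ x ∈ ball (0 : ℂ) r, x.im < 0 → (H (A x)).im ≠ 0)
    (hQ1 : ∀ x ∈ ball (0 : ℂ) r, x.im < 0 → cexp (N * log (A x)) * (1 - A x) = η x)
    (hQ2 : ∀ x ∈ ball (0 : ℂ) r, x.im < 0 →
      cexp (N * log (H (A x))) * (1 - H (A x)) = η (-x)) :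
    deriv (deriv η) 0 = 0 := by
  -- the quotient `h = H / z` and its logarithm
  obtain ⟨h, hh⟩ : ∃ h : ℂ → ℂ, h = dslope H 0 := ⟨_, rfl⟩
  have hha : AnalyticAt ℂ h 0 := by
    rw [hh]
    obtain ⟨p, hp⟩ := hH
    exact ⟨_, hp.has_fpower_series_dslope_fslope⟩
  have hh0 : h 0 ≠ 0 := by rw [hh, dslope_same]; exact hH1
  have hHh : ∀ z : ℂ, H z = z * h z := by
    intro z
    have := sub_smul_dslope H 0 z
    rw [hH0, sub_zero, sub_zero, smul_eq_mul] at this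
    rw [hh, this]
  obtain ⟨ℓ, hℓ⟩ : ∃ ℓ : ℂ → ℂ, ℓ = fun z => log (h z / h 0) + log (h 0) := ⟨_, rfl⟩
  have hℓa : AnalyticAt ℂ ℓ 0 := by
    rw [hℓ]
    have h2 : AnalyticAt ℂ (fun z => h z / h 0) 0 := hha.div analyticAt_const hh0
    have h3 : (fun z => h z / h 0) 0 ∈ slitPlane := by
      simp only [div_self hh0]
      exact one_mem_slitPlane
    exact (h2.clog h3).add analyticAt_const
  have hℓe : ∀ᶠ z in 𝓝 (0 : ℂ), h z ≠ 0 ∧ cexp (ℓ z) = h z := by
    filter_upwards [hha.continuousAt.eventually_ne hh0] with z hz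
    refine ⟨hz, ?_⟩
    rw [hℓ]
    simp only
    rw [Complex.exp_add, exp_log (div_ne_zero hz hh0), exp_log hh0, div_mul_cancel₀ _ hh0]
  -- the time reversal germ
  obtain ⟨τ, hτ⟩ : ∃ τ : ℂ → ℂ, τ = hη.hasStrictDerivAt.localInverse _ _ _ h1 := ⟨_, rfl⟩
  have hτa : AnalyticAt ℂ τ 0 := by
    have := hη.analyticAt_localInverse h1
    rw [h0] at this
    rw [hτ]; exact this
  have hτl : ∀ᶠ x in 𝓝 (0 : ℂ), τ (η x) = x := by
    rw [hτ]; exact HasStrictDerivAt.eventually_left_inverse ..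
  have hτ0 : τ 0 = 0 := by
    have := hτl.self_of_nhds
    rwa [h0] at this
  obtain ⟨σ, hσd⟩ : ∃ σ : ℂ → ℂ, σ = fun z => η (-(τ z)) := ⟨_, rfl⟩
  have hσ : AnalyticAt ℂ σ 0 := by
    rw [hσd]
    have h2 : AnalyticAt ℂ (fun z => -(τ z)) 0 := hτa.neg
    have h3 : AnalyticAt ℂ η ((fun z => -(τ z)) 0) := by
      simpa [hτ0] using hη
    exact AnalyticAt.comp (g := η) (f := fun z => -(τ z)) h3 h2
  have hση : ∀ᶠ x in 𝓝 (0 : ℂ), σ (η x) = η (-x) := by
    filter_upwards [hτl] with x hx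
    rw [hσd]; simp only; rw [hx]
  set ω : ℂ := cexp (2 * Real.pi * I * N) with hωd
  have hω0 : ω ≠ 0 := Complex.exp_ne_zero _
  -- radii
  obtain ⟨r1, hr1, hb1⟩ := Metric.eventually_nhds_iff_ball.1
    (hℓa.eventually_analyticAt.and (hH.eventually_analyticAt.and hℓe))
  obtain ⟨r2, hr2, hb2⟩ := Metric.eventually_nhds_iff_ball.1 hσ.eventually_analyticAt
  obtain ⟨r3, hr3, hb3⟩ := Metric.eventually_nhds_iff_ball.1 (hτl.and hση)
  -- the half plane `Re ζ < -M`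
  have hlim : Tendsto (fun t : ℝ => Real.exp (-t)) atTop (𝓝 0) :=
    Real.tendsto_exp_neg_atTop_nhds_zero
  have hlim2 : Tendsto (fun t : ℝ => Real.exp (-(N * t)) * 2) atTop (𝓝 0) := by
    have h2 : Tendsto (fun t : ℝ => N * t) atTop atTop := tendsto_id.const_mul_atTop hN
    have h3 := (Real.tendsto_exp_neg_atTop_nhds_zero.comp h2).mul_const 2
    simpa using h3
  obtain ⟨M, hM0, hM1, hM2⟩ : ∃ M : ℝ, 0 < M ∧ Real.exp (-M) < r1 ∧
      Real.exp (-(N * M)) * 2 < r2 := by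
    have := ((eventually_gt_atTop (0 : ℝ)).and ((hlim.eventually (gt_mem_nhds hr1)).and
      (hlim2.eventually (gt_mem_nhds hr2)))).exists
    exact this
  obtain ⟨HP, hHP⟩ : ∃ HP : Set ℂ, HP = {ζ : ℂ | ζ.re < -M} := ⟨_, rfl⟩
  have hexp : ∀ ζ ∈ HP, ‖cexp ζ‖ < r1 ∧ ‖cexp ζ‖ ≤ 1 := by
    intro ζ hζ
    rw [hHP] at hζ
    rw [Complex.norm_exp]
    have hζ' : ζ.re < -M := hζ
    refine ⟨lt_of_le_of_lt (Real.exp_le_exp.2 hζ'.le) hM1, ?_⟩
    exact Real.exp_le_one_iff.2 (by linarith)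
  have hz : ∀ ζ ∈ HP, ‖cexp (N * ζ) * (1 - cexp ζ)‖ < r2 := by
    intro ζ hζ
    have h2 := (hexp ζ hζ).2
    rw [hHP] at hζ
    have hζ' : ζ.re < -M := hζ
    rw [norm_mul, Complex.norm_exp]
    have h3 : ((N : ℂ) * ζ).re = N * ζ.re := by simp
    rw [h3]
    have h4 : ‖1 - cexp ζ‖ ≤ 2 := by
      calc ‖1 - cexp ζ‖ ≤ ‖(1 : ℂ)‖ + ‖cexp ζ‖ := norm_sub_le _ _
        _ ≤ 2 := by rw [norm_one]; linarith
    have h5 : Real.exp (N * ζ.re) ≤ Real.exp (-(N * M)) := by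
      apply Real.exp_le_exp.2
      nlinarith
    calc Real.exp (N * ζ.re) * ‖1 - cexp ζ‖ ≤ Real.exp (-(N * M)) * 2 :=
          mul_le_mul h5 h4 (norm_nonneg _) (Real.exp_pos _).le
      _ < r2 := hM2
  have hmem : ∀ ζ ∈ HP, cexp ζ ∈ ball (0 : ℂ) r1 := fun ζ hζ => by
    rw [mem_ball_zero_iff]; exact (hexp ζ hζ).1
  -- a base point
  have hne : (𝓝[{x : ℂ | x.im < 0}] (0 : ℂ)).NeBot := by
    rw [← mem_closure_iff_nhdsWithin_neBot]
    have : closure {z : ℂ | z.im < 0} = {z : ℂ | z.im ≤ 0} := Complex.closure_setOfPred_im_lt 0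
    rw [this]; simp
  obtain ⟨x₀, hx₀A, hx₀b, hx₀r, hx₀i⟩ : ∃ x₀ : ℂ, ‖A x₀‖ < Real.exp (-M) ∧ x₀ ∈ ball (0 : ℂ) r3 ∧
      x₀ ∈ ball (0 : ℂ) r ∧ x₀.im < 0 := by
    have e1 : ∀ᶠ x in 𝓝[{x : ℂ | x.im < 0}] (0 : ℂ), ‖A x‖ < Real.exp (-M) := by
      have h2 : Tendsto (fun x => ‖A x‖) (𝓝[{x : ℂ | x.im < 0}] (0 : ℂ)) (𝓝 0) := by
        simpa using hA0.norm
      exact h2.eventually (gt_mem_nhds (Real.exp_pos _))
    have e2 : ∀ᶠ x in 𝓝[{x : ℂ | x.im < 0}] (0 : ℂ), x ∈ ball (0 : ℂ) r3 :=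
      mem_nhdsWithin_of_mem_nhds (ball_mem_nhds _ hr3)
    have e3 : ∀ᶠ x in 𝓝[{x : ℂ | x.im < 0}] (0 : ℂ), x ∈ ball (0 : ℂ) r :=
      mem_nhdsWithin_of_mem_nhds (ball_mem_nhds _ hr)
    have e4 : ∀ᶠ x in 𝓝[{x : ℂ | x.im < 0}] (0 : ℂ), x.im < 0 := self_mem_nhdsWithin
    exact (e1.and (e2.and (e3.and e4))).exists
  have hopen : IsOpen (ball (0 : ℂ) r3 ∩ (ball (0 : ℂ) r ∩ {x : ℂ | x.im < 0})) :=
    isOpen_ball.inter (isOpen_ball.inter (isOpen_lt Complex.continuous_im continuous_const))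
  have hnear : ∀ᶠ x in 𝓝 x₀, x ∈ ball (0 : ℂ) r3 ∧ x ∈ ball (0 : ℂ) r ∧ x.im < 0 :=
    hopen.mem_nhds ⟨hx₀b, hx₀r, hx₀i⟩
  have hAcx : ContinuousAt A x₀ := hAc.continuousAt
    ((isOpen_ball.inter (isOpen_lt Complex.continuous_im continuous_const)).mem_nhds
      ⟨hx₀r, hx₀i⟩)
  have hA0ne : A x₀ ≠ 0 := by
    intro hc
    apply hAim x₀ hx₀r hx₀i
    rw [hc]; simp
  have hAslit : A x₀ ∈ slitPlane := Or.inr (hAim x₀ hx₀r hx₀i)
  have hHslit : H (A x₀) ∈ slitPlane := Or.inr (hHim x₀ hx₀r hx₀i)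
  have hA1 : A x₀ ∈ ball (0 : ℂ) r1 := by
    rw [mem_ball_zero_iff]; exact hx₀A.trans hM1
  have hlogA : ContinuousAt (fun x => log (A x)) x₀ := hAcx.clog hAslit
  have hHc : ContinuousAt (fun x => H (A x)) x₀ :=
    ContinuousAt.comp (f := A) (hb1 _ hA1).2.1.continuousAt hAcx
  have hlogH : ContinuousAt (fun x => log (H (A x))) x₀ := hHc.clog hHslit
  have hℓc : ContinuousAt (fun x => ℓ (A x)) x₀ :=
    ContinuousAt.comp (f := A) (hb1 _ hA1).1.continuousAt hAcx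
  obtain ⟨κ, hκ⟩ : ∃ κ : ℂ → ℂ, κ = fun x => log (H (A x)) - log (A x) - ℓ (A x) := ⟨_, rfl⟩
  have hκc : ContinuousAt κ x₀ := by
    rw [hκ]; exact (hlogH.sub hlogA).sub hℓc
  -- `κ` takes values in `2πiℤ`
  have hκint : ∀ᶠ x in 𝓝 x₀, ∃ k : ℤ, κ x = k * (2 * Real.pi * I) := by
    have e1 : ∀ᶠ x in 𝓝 x₀, A x ∈ ball (0 : ℂ) r1 :=
      hAcx.eventually (isOpen_ball.mem_nhds hA1)
    filter_upwards [hnear, e1, hAcx.eventually_ne hA0ne] with x hx hx1 hx2
    obtain ⟨hx3, hx4⟩ := (hb1 _ hx1).2.2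
    have hHne : H (A x) ≠ 0 := by rw [hHh]; exact mul_ne_zero hx2 hx3
    have : cexp (κ x) = 1 := by
      rw [hκ]
      simp only
      rw [Complex.exp_sub, Complex.exp_sub, exp_log hHne, exp_log hx2, hx4, hHh]
      field_simp
    rw [Complex.exp_eq_one_iff] at this
    exact this
  have hκconst : ∀ᶠ x in 𝓝 x₀, κ x = κ x₀ := by
    have e1 : ∀ᶠ x in 𝓝 x₀, dist (κ x) (κ x₀) < 1 := hκc (Metric.ball_mem_nhds _ one_pos)
    obtain ⟨k₀, hk₀⟩ := hκint.self_of_nhds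
    filter_upwards [e1, hκint] with x hx1 hx2
    obtain ⟨k, hk⟩ := hx2
    rw [dist_eq_norm, hk, hk₀, ← sub_mul, norm_mul] at hx1
    have h3 : ‖(2 * Real.pi * I : ℂ)‖ = 2 * Real.pi := by
      rw [norm_mul, norm_mul, Complex.norm_I, Complex.norm_real, Complex.norm_ofNat, mul_one,
        Real.norm_of_nonneg Real.pi_pos.le]
    have h4 : ‖((k : ℂ) - k₀)‖ = |((k - k₀ : ℤ) : ℝ)| := by
      rw [← Int.cast_sub, Complex.norm_intCast]
    rw [h3, h4] at hx1
    have h5 : |((k - k₀ : ℤ) : ℝ)| < 1 := by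
      have := Real.pi_gt_three
      by_contra hc
      push Not at hc
      nlinarith
    have h6 : |k - k₀| < 1 := by
      have : ((|k - k₀| : ℤ) : ℝ) < 1 := by rw [Int.cast_abs]; exact h5
      exact_mod_cast this
    have h7 : k = k₀ := by
      have := Int.abs_lt_one_iff.1 h6
      omega
    rw [hk, hk₀, h7]
  -- the two analytic functions
  obtain ⟨F, hF⟩ : ∃ F : ℂ → ℂ, F = fun ζ => cexp (N * κ x₀) *
    (cexp (N * (ζ + ℓ (cexp ζ))) * (1 - H (cexp ζ))) := ⟨_, rfl⟩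
  obtain ⟨G, hG⟩ : ∃ G : ℂ → ℂ, G = fun ζ => σ (cexp (N * ζ) * (1 - cexp ζ)) := ⟨_, rfl⟩
  have hFa : AnalyticOnNhd ℂ F HP := by
    intro ζ hζ
    rw [hF]
    have e1 : AnalyticAt ℂ (fun ζ : ℂ => cexp ζ) ζ := analyticAt_cexp
    have e2 : AnalyticAt ℂ (fun ζ : ℂ => ℓ (cexp ζ)) ζ :=
      AnalyticAt.comp (g := ℓ) (f := cexp) (hb1 _ (hmem ζ hζ)).1 e1
    have e3 : AnalyticAt ℂ (fun ζ : ℂ => H (cexp ζ)) ζ :=
      AnalyticAt.comp (g := H) (f := cexp) (hb1 _ (hmem ζ hζ)).2.1 e1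
    have e4 : AnalyticAt ℂ (fun ζ : ℂ => (N : ℂ) * (ζ + ℓ (cexp ζ))) ζ :=
      analyticAt_const.mul (analyticAt_id.add e2)
    exact analyticAt_const.mul (e4.cexp.mul (analyticAt_const.sub e3))
  have hGa : AnalyticOnNhd ℂ G HP := by
    intro ζ hζ
    rw [hG]
    have e1 : AnalyticAt ℂ (fun ζ : ℂ => cexp (N * ζ) * (1 - cexp ζ)) ζ := by
      have : AnalyticAt ℂ (fun ζ : ℂ => (N : ℂ) * ζ) ζ := analyticAt_const.mul analyticAt_id
      exact this.cexp.mul (analyticAt_const.sub analyticAt_cexp)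
    have e2 : AnalyticAt ℂ σ ((fun ζ : ℂ => cexp (N * ζ) * (1 - cexp ζ)) ζ) :=
      hb2 _ (by rw [mem_ball_zero_iff]; exact hz ζ hζ)
    exact AnalyticAt.comp (g := σ) (f := fun ζ : ℂ => cexp (N * ζ) * (1 - cexp ζ)) e2 e1
  have hHPc : IsPreconnected HP := by
    rw [hHP]
    exact (convex_halfSpace_re_lt (-M)).isPreconnected
  have hζ₀ : log (A x₀) ∈ HP := by
    rw [hHP]
    show (log (A x₀)).re < -M
    rw [Complex.log_re, Real.log_lt_iff_lt_exp (norm_pos_iff.2 hA0ne)]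
    exact hx₀A
  have hkey : ∀ᶠ x in 𝓝 x₀, F (log (A x)) = G (log (A x)) ∧
      (log (A x) = log (A x₀) → x = x₀) := by
    have e1 : ∀ᶠ x in 𝓝 x₀, A x ∈ ball (0 : ℂ) r1 :=
      hAcx.eventually (isOpen_ball.mem_nhds hA1)
    filter_upwards [hnear, e1, hAcx.eventually_ne hA0ne, hκconst] with x hx hx1 hx2 hx3
    obtain ⟨hxr3, hxr, hxi⟩ := hx
    have q1 := hQ1 x hxr hxi
    have q2 := hQ2 x hxr hxi
    constructor
    · rw [hF, hG]
      simp only
      rw [exp_log hx2, q1, (hb3 x hxr3).2, ← q2]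
      have h5 : log (H (A x)) = κ x₀ + (log (A x) + ℓ (A x)) := by
        rw [← hx3, hκ]; ring
      have h6 : cexp (N * (κ x₀ + (log (A x) + ℓ (A x)))) =
          cexp (N * κ x₀) * cexp (N * (log (A x) + ℓ (A x))) := by
        rw [← Complex.exp_add]; congr 1; ring
      rw [h5, h6, mul_assoc]
    · intro hl
      have h5 : A x = A x₀ := by rw [← exp_log hx2, hl, exp_log hA0ne]
      have h6 : η x = η x₀ := by
        rw [← q1, h5, hQ1 x₀ hx₀r hx₀i]
      rw [← (hb3 x hxr3).1, h6, (hb3 x₀ hx₀b).1]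
  have hfreq : ∃ᶠ ζ in 𝓝[≠] (log (A x₀)), F ζ = G ζ := by
    have ht : Tendsto (fun x => log (A x)) (𝓝[≠] x₀) (𝓝[≠] (log (A x₀))) := by
      rw [tendsto_nhdsWithin_iff]
      refine ⟨hlogA.tendsto.mono_left nhdsWithin_le_nhds, ?_⟩
      have e1 := hkey.filter_mono (nhdsWithin_le_nhds (s := {x₀}ᶜ))
      filter_upwards [e1, self_mem_nhdsWithin] with x hx hx1
      intro hc
      exact hx1 (hx.2 hc)
    refine ht.frequently ?_
    exact ((hkey.filter_mono (nhdsWithin_le_nhds (s := {x₀}ᶜ))).mono fun x hx => hx.1).frequently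
  have hEq : EqOn F G HP := hFa.eqOn_of_preconnected_of_frequently_eq hGa hHPc hζ₀ hfreq
  -- monodromy
  have hmono : ∀ ζ ∈ HP, σ (ω * (cexp (N * ζ) * (1 - cexp ζ))) =
      ω * σ (cexp (N * ζ) * (1 - cexp ζ)) := by
    intro ζ hζ
    have hζ' : ζ + 2 * Real.pi * I ∈ HP := by
      rw [hHP] at hζ ⊢
      have : (ζ + 2 * Real.pi * I).re = ζ.re := by simp
      show (ζ + 2 * Real.pi * I).re < -M
      rw [this]; exact hζ
    have a1 := hEq hζ
    have a2 := hEq hζ'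
    rw [hF, hG] at a1 a2
    simp only at a1 a2
    have p1 : cexp (ζ + 2 * Real.pi * I) = cexp ζ := by
      rw [Complex.exp_add, Complex.exp_two_pi_mul_I, mul_one]
    have p2 : cexp (N * (ζ + 2 * Real.pi * I)) = ω * cexp (N * ζ) := by
      rw [hωd, ← Complex.exp_add]; congr 1; ring
    have p3 : cexp (N * (ζ + 2 * Real.pi * I + ℓ (cexp ζ))) = ω * cexp (N * (ζ + ℓ (cexp ζ))) := by
      rw [hωd, ← Complex.exp_add]; congr 1; ring
    rw [p1, p2, p3] at a2
    rw [← a1, ← mul_assoc ω (cexp (N * ζ)) (1 - cexp ζ), ← a2]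
    ring
  refine deriv2_of_equivariant hη h0 h1 hω0 hω hσ hση ?_
  have ht : Tendsto (fun t : ℝ => cexp (N * ((-t : ℝ) : ℂ)) * (1 - cexp ((-t : ℝ) : ℂ))) atTop
      (𝓝[≠] (0 : ℂ)) := by
    rw [tendsto_nhdsWithin_iff]
    constructor
    · have h2 : Tendsto (fun t : ℝ => Real.exp (-(N * t)) * (1 - Real.exp (-t))) atTop (𝓝 0) := by
        have h3 : Tendsto (fun t : ℝ => N * t) atTop atTop := tendsto_id.const_mul_atTop hN
        have h4 := (Real.tendsto_exp_neg_atTop_nhds_zero.comp h3).mul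
          ((tendsto_const_nhds (x := (1 : ℝ))).sub hlim)
        simpa using h4
      have h3 := (Complex.continuous_ofReal.tendsto (0 : ℝ)).comp h2
      rw [Complex.ofReal_zero] at h3
      refine h3.congr fun t => ?_
      simp only [Function.comp]
      push_cast
      congr 3
      ring
    · filter_upwards [eventually_gt_atTop (0 : ℝ)] with t ht0
      have : (1 - cexp ((-t : ℝ) : ℂ)) ≠ 0 := by
        rw [← Complex.ofReal_exp, ← Complex.ofReal_one, ← Complex.ofReal_sub,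
          Complex.ofReal_ne_zero]
        have : Real.exp (-t) < 1 := by
          rw [Real.exp_lt_one_iff]; linarith
        linarith
      exact mul_ne_zero (Complex.exp_ne_zero _) this
  refine ht.frequently (Eventually.frequently ?_)
  filter_upwards [eventually_gt_atTop M] with t htM
  refine hmono _ ?_
  rw [hHP]
  show (((-t : ℝ) : ℂ)).re < -M
  rw [Complex.ofReal_re]; linarith

end Crest.Agent.R102.H4mono435
end

-- ▼ part R102/H4L5_435
section

/-!
Row 102, block [H4], leaf H4-5b: the closed chain and concavity force `N` to be an integer.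
(By the monodromy theorem of `H4mono_435`; leaf H4-5a is not needed.)
-/

set_option autoImplicit false

open Complex Set Filter Topology Metric

noncomputable section

namespace Crest.Agent.R102.H4

/-- monodromy in the upper half plane -/
theorem mono_UH {N : ℝ} (hN : 0 < N) (hω : cexp (2 * Real.pi * I * N) ≠ 1) {η H A : ℂ → ℂ}
    (hη : AnalyticAt ℂ η 0) (h0 : η 0 = 0) (h1 : deriv η 0 ≠ 0)
    (hH : AnalyticAt ℂ H 0) (hH0 : H 0 = 0) (hH1 : deriv H 0 ≠ 0)
    {r : ℝ} (hr : 0 < r)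
    (hAc : ContinuousOn A (ball 0 r ∩ UH))
    (hA0 : Tendsto A (𝓝[UH] 0) (𝓝 0))
    (hAim : ∀ x ∈ ball (0 : ℂ) r, x ∈ UH → (A x).im ≠ 0)
    (hHim : ∀ x ∈ ball (0 : ℂ) r, x ∈ UH → (H (A x)).im ≠ 0)
    (hQ1 : ∀ x ∈ ball (0 : ℂ) r, x ∈ UH → cexp (N * log (A x)) * (1 - A x) = η x)
    (hQ2 : ∀ x ∈ ball (0 : ℂ) r, x ∈ UH →
      cexp (N * log (H (A x))) * (1 - H (A x)) = η (-x)) :
    deriv (deriv η) 0 = 0 := by
  have hnegc : Continuous fun x : ℂ => -x := continuous_neg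
  have hball : ∀ x ∈ ball (0 : ℂ) r, -x ∈ ball (0 : ℂ) r := by
    intro x hx
    rw [mem_ball_zero_iff] at hx ⊢
    rwa [norm_neg]
  have hmem : ∀ x : ℂ, x.im < 0 → -x ∈ UH := by
    intro x hx
    show 0 < (-x).im
    rw [neg_im]; linarith
  have hd : ∀ f : ℂ → ℂ, deriv (fun x : ℂ => f (-x)) = fun x => -deriv f (-x) := by
    intro f
    funext x
    exact deriv_comp_neg f x
  have hη' : AnalyticAt ℂ (fun x : ℂ => η (-x)) 0 := by
    have h3 : AnalyticAt ℂ η ((fun x : ℂ => -x) 0) := by simpa using hη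
    exact AnalyticAt.comp (g := η) (f := fun x : ℂ => -x) h3 analyticAt_id.neg
  have h1' : deriv (fun x : ℂ => η (-x)) 0 ≠ 0 := by
    rw [hd]; simpa using h1
  have key := H4mono435.monodromy (A := fun x => A (-x)) hN hω hη' (by simpa using h0) h1' hH hH0
    hH1 hr ?_ ?_ ?_ ?_ ?_ ?_
  · rw [hd] at key
    have h2 : deriv (fun x : ℂ => -deriv η (-x)) 0 = deriv (deriv η) 0 := by
      have : (fun x : ℂ => -deriv η (-x)) = -(fun x : ℂ => deriv η (-x)) := rfl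
      rw [this, deriv.neg, hd]
      simp
    rw [h2] at key
    exact key
  · refine hAc.comp hnegc.continuousOn ?_
    intro x hx
    exact ⟨hball x hx.1, hmem x hx.2⟩
  · refine hA0.comp ?_
    rw [tendsto_nhdsWithin_iff]
    constructor
    · have := hnegc.tendsto (0 : ℂ)
      rw [neg_zero] at this
      exact this.mono_left nhdsWithin_le_nhds
    · filter_upwards [self_mem_nhdsWithin] with x hx
      exact hmem x hx
  · intro x hx hxi
    exact hAim _ (hball x hx) (hmem x hxi)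
  · intro x hx hxi
    exact hHim _ (hball x hx) (hmem x hxi)
  · intro x hx hxi
    exact hQ1 _ (hball x hx) (hmem x hxi)
  · intro x hx hxi
    have := hQ2 _ (hball x hx) (hmem x hxi)
    simpa using this

/-- `exp (L y) = exp (N log y) (1 - y)` -/
theorem exp_L (N : ℝ) {y : ℂ} (hy : y ≠ 1) :
    cexp (L N y) = cexp (N * log y) * (1 - y) := by
  unfold L
  rw [Complex.exp_add, exp_log (sub_ne_zero.2 (Ne.symm hy))]

theorem ne_one_of_im {y : ℂ} (hy : y.im ≠ 0) : y ≠ 1 := by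
  rintro rfl
  exact hy (by simp)

/-- the germ `g` -/
def gg (N : ℝ) (e : ℂ → ℂ) (δ : ℂ) : ℂ := cexp (N * log (1 - e δ)) * e δ

theorem leaf5b (h4a : Leaf4a) : Leaf5b := by
  intro N ρ σ G b e Ψ M hG hb hs he hc
  obtain ⟨hA0, -⟩ := h4a N ρ σ G b e hG hb he
  have hN1 : 1 < N := hG.hN
  have hN : 0 < N := by linarith
  obtain ⟨e1, he1, hde1⟩ := he.d1
  obtain ⟨e2, he2, hde2⟩ := he.d2
  -- analyticity of `g`
  have hslit : (1 : ℂ) - e 0 ∈ slitPlane := by
    rw [he.zero, sub_zero]; exact one_mem_slitPlane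
  have hlog : AnalyticAt ℂ (fun δ => log (1 - e δ)) 0 :=
    (analyticAt_const.sub he.an).clog hslit
  have hga : AnalyticAt ℂ (gg N e) 0 := ((analyticAt_const.mul hlog).cexp).mul he.an
  have hg0 : gg N e 0 = 0 := by unfold gg; rw [he.zero, mul_zero]
  -- derivatives
  have hen : ∀ᶠ δ in 𝓝 (0 : ℂ), AnalyticAt ℂ e δ ∧ (1 : ℂ) - e δ ∈ slitPlane := by
    refine he.an.eventually_analyticAt.and ?_
    have hc1 : ContinuousAt (fun δ => (1 : ℂ) - e δ) 0 :=
      continuousAt_const.sub he.an.continuousAt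
    exact hc1.eventually (isOpen_slitPlane.mem_nhds hslit)
  have hderiv : ∀ᶠ δ in 𝓝 (0 : ℂ), deriv (gg N e) δ =
      cexp (N * log (1 - e δ)) * (N * (-deriv e δ / (1 - e δ))) * e δ +
        cexp (N * log (1 - e δ)) * deriv e δ := by
    filter_upwards [hen] with δ hδ
    have d1 : HasDerivAt e (deriv e δ) δ := hδ.1.differentiableAt.hasDerivAt
    have d2 : HasDerivAt (fun δ => (1 : ℂ) - e δ) (-deriv e δ) δ := d1.const_sub 1
    have d3 : HasDerivAt (fun δ => log (1 - e δ)) (-deriv e δ / (1 - e δ)) δ := d2.clog hδ.2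
    exact (((d3.const_mul (N : ℂ)).cexp).mul d1).deriv
  have hd0 : deriv (gg N e) 0 = (e1 : ℂ) := by
    rw [hderiv.self_of_nhds, he.zero, hde1]
    simp
  have hdd : deriv (deriv (gg N e)) 0 = ((e2 - 2 * N * e1 ^ 2 : ℝ) : ℂ) := by
    rw [Filter.EventuallyEq.deriv_eq hderiv]
    have d1 : HasDerivAt e (e1 : ℂ) 0 := by
      rw [← hde1]; exact he.an.differentiableAt.hasDerivAt
    have d1' : HasDerivAt (deriv e) (e2 : ℂ) 0 := by
      rw [← hde2]; exact he.an.deriv.differentiableAt.hasDerivAt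
    have d2 : HasDerivAt (fun δ => (1 : ℂ) - e δ) (-(e1 : ℂ)) 0 := d1.const_sub 1
    have d3 : HasDerivAt (fun δ => log (1 - e δ)) (-(e1 : ℂ) / (1 - e 0)) 0 := d2.clog hslit
    have d4 := (d3.const_mul (N : ℂ)).cexp
    have h10 : (1 : ℂ) - e 0 ≠ 0 := slitPlane_ne_zero hslit
    have d5 := (d1'.neg.div d2 h10).const_mul (N : ℂ)
    have d6 := ((d4.mul d5).mul d1).add (d4.mul d1')
    refine d6.deriv.trans ?_
    simp only [Pi.neg_apply, Pi.mul_apply, Pi.div_apply, he.zero, hde1, sub_zero, log_one,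
      mul_zero, Complex.exp_zero, div_one, one_mul, mul_one]
    push_cast
    ring
  by_contra hcon
  have hω : cexp (2 * Real.pi * I * N) ≠ 1 := by
    intro h
    rw [Complex.exp_eq_one_iff] at h
    obtain ⟨k, hk⟩ := h
    have h2 : (2 * Real.pi * I : ℂ) ≠ 0 := Complex.two_pi_I_ne_zero
    have h3 : (N : ℂ) = k := by
      have : (2 * Real.pi * I : ℂ) * N = (2 * Real.pi * I) * k := by rw [hk]; ring
      exact mul_left_cancel₀ h2 this
    have h4 : N = k := by exact_mod_cast h3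
    have h5 : 0 < k := by
      have : (0 : ℝ) < k := by rw [← h4]; exact hN
      exact_mod_cast this
    apply hcon
    refine ⟨k.toNat, ?_⟩
    rw [h4]
    have : ((k.toNat : ℤ) : ℝ) = (k : ℝ) := by rw [Int.toNat_of_nonneg h5.le]
    exact_mod_cast this.symm
  -- neighbourhoods
  have hrealg : ∀ᶠ δ in 𝓝 (0 : ℂ), gg N e ((starRingEnd ℂ) δ) = (starRingEnd ℂ) (gg N e δ) := by
    filter_upwards [he.real, hen] with δ hδ hδ2
    unfold gg
    rw [hδ]
    have : (1 : ℂ) - (starRingEnd ℂ) (e δ) = (starRingEnd ℂ) (1 - e δ) := by simp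
    rw [this, log_conj _ (slitPlane_arg_ne_pi hδ2.2), map_mul, ← Complex.exp_conj]
    simp
  obtain ⟨U, hUo, h0U, hU⟩ : ∃ r : ℝ, 0 < r ∧ (∀ δ ∈ ball (0 : ℂ) r,
      gg N e ((starRingEnd ℂ) δ) = (starRingEnd ℂ) (gg N e δ)) ∧
      (∀ δ ∈ ball (0 : ℂ) r, δ ∈ UH → b ((σ : ℂ) + 1 + δ) = 2 * (nn N : ℂ) - 1 + e δ ∧
        2 * (nn N : ℂ) - b ((σ : ℂ) - M + δ) = Ψ (b ((σ : ℂ) + δ))) := by
    obtain ⟨r1, hr1, hb1⟩ := Metric.eventually_nhds_iff_ball.1 hrealg
    have h2 := he.eq.and hc.eq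
    rw [eventually_nhdsWithin_iff] at h2
    obtain ⟨r2, hr2, hb2⟩ := Metric.eventually_nhds_iff_ball.1 h2
    refine ⟨min r1 r2, lt_min hr1 hr2, fun δ hδ => hb1 δ ?_, fun δ hδ hδU => hb2 δ ?_ hδU⟩
    · exact ball_subset_ball (min_le_left _ _) hδ
    · exact ball_subset_ball (min_le_right _ _) hδ
  have hmemσ : ∀ (x : ℝ) (δ : ℂ), δ ∈ UH → (x : ℂ) + δ ∈ UH := by
    intro x δ hδ
    show 0 < ((x : ℂ) + δ).im
    rw [add_im, ofReal_im, zero_add]; exact hδ
  have hQ : ∀ δ ∈ ball (0 : ℂ) U, δ ∈ UH →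
      cexp (L N (b ((σ : ℂ) + δ))) = gg N e δ := by
    intro δ hδ hδU
    have h1 := hb.eq _ (hmemσ σ δ hδU)
    have h2 : (σ : ℂ) + δ + 1 = (σ : ℂ) + 1 + δ := by ring
    rw [h1, h2, (hU δ hδ hδU).1]
    have h3 : 2 * (nn N : ℂ) - (2 * (nn N : ℂ) - 1 + e δ) = 1 - e δ := by ring
    have h4 : (1 : ℂ) - e δ ≠ 1 := by
      rw [← h3, ← (hU δ hδ hδU).1, ← h2]
      apply ne_one_of_im
      have h5 : (σ : ℂ) + δ + 1 ∈ UH := by
        rw [h2]
        have := hmemσ (σ + 1) δ hδU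
        push_cast at this
        exact this
      have h6 : 0 < (b ((σ : ℂ) + δ + 1)).im := hb.maps _ h5
      have h7 : (2 * (nn N : ℂ) - b ((σ : ℂ) + δ + 1)).im = -(b ((σ : ℂ) + δ + 1)).im := by
        simp
      rw [h7]
      exact neg_ne_zero.2 h6.ne'
    rw [h3, exp_L N h4]
    unfold gg
    ring
  have hreflΨ : ∀ δ ∈ ball (0 : ℂ) U, δ ∈ UH →
      Ψ (b ((σ : ℂ) + δ)) = (starRingEnd ℂ) (b ((σ : ℂ) + -(starRingEnd ℂ) δ)) := by
    intro δ hδ hδU
    have hδ' : -(starRingEnd ℂ) δ ∈ UH := by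
      show 0 < (-(starRingEnd ℂ) δ).im
      rw [neg_im, conj_im, neg_neg]; exact hδU
    have h1 := hs.refl _ (hmemσ σ _ hδ')
    have h2 : -(starRingEnd ℂ) ((σ : ℂ) + -(starRingEnd ℂ) δ) = (σ : ℂ) - M + δ := by
      have h3 : (M : ℂ) = 2 * (σ : ℂ) := by
        have := hc.hσ
        have h4 : ((M : ℝ) : ℂ) = ((2 * σ : ℝ) : ℂ) := by rw [this]
        push_cast at h4
        exact h4
      rw [h3, map_add, map_neg, conj_conj, conj_ofReal]
      ring
    rw [h2] at h1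
    rw [← (hU δ hδ hδU).2, h1]
    ring
  have key := mono_UH (N := N) (η := gg N e) (H := Ψ) (A := fun δ => b ((σ : ℂ) + δ)) (r := U)
    hN hω hga hg0 (by rw [hd0]; exact_mod_cast he1.ne') hc.an hc.zero hc.der hUo ?_ hA0 ?_ ?_ ?_ ?_
  · rw [hdd] at key
    have : e2 - 2 * N * e1 ^ 2 = 0 := by exact_mod_cast key
    nlinarith [sq_nonneg e1, mul_pos hN (pow_pos he1 2)]
  · refine ContinuousOn.mono (s := UH) ?_ inter_subset_right
    refine hb.an.continuousOn.comp (by fun_prop) ?_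
    intro δ hδ
    exact hmemσ σ δ hδ
  · intro x _ hxU
    have : 0 < (b ((σ : ℂ) + x)).im := hb.maps _ (hmemσ σ x hxU)
    exact this.ne'
  · intro x hx hxU
    rw [hreflΨ x hx hxU, conj_im]
    have hδ' : -(starRingEnd ℂ) x ∈ UH := by
      show 0 < (-(starRingEnd ℂ) x).im
      rw [neg_im, conj_im, neg_neg]; exact hxU
    have : 0 < (b ((σ : ℂ) + -(starRingEnd ℂ) x)).im := hb.maps _ (hmemσ σ _ hδ')
    exact neg_ne_zero.2 this.ne'
  · intro x hx hxU
    rw [← hQ x hx hxU, exp_L]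
    apply ne_one_of_im
    have : 0 < (b ((σ : ℂ) + x)).im := hb.maps _ (hmemσ σ x hxU)
    exact this.ne'
  · intro x hx hxU
    have hδ' : -(starRingEnd ℂ) x ∈ UH := by
      show 0 < (-(starRingEnd ℂ) x).im
      rw [neg_im, conj_im, neg_neg]; exact hxU
    have hball' : -(starRingEnd ℂ) x ∈ ball (0 : ℂ) U := by
      rw [mem_ball_zero_iff] at hx ⊢
      rwa [norm_neg, Complex.norm_conj]
    have him : 0 < (b ((σ : ℂ) + -(starRingEnd ℂ) x)).im := hb.maps _ (hmemσ σ _ hδ')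
    rw [hreflΨ x hx hxU]
    have h1 := hQ _ hball' hδ'
    rw [exp_L N (ne_one_of_im him.ne')] at h1
    have harg : (b ((σ : ℂ) + -(starRingEnd ℂ) x)).arg ≠ Real.pi := by
      intro h
      rw [Complex.arg_eq_pi_iff] at h
      exact him.ne' h.2
    have h2 : cexp (N * log ((starRingEnd ℂ) (b ((σ : ℂ) + -(starRingEnd ℂ) x)))) *
        (1 - (starRingEnd ℂ) (b ((σ : ℂ) + -(starRingEnd ℂ) x))) =
        (starRingEnd ℂ) (cexp (N * log (b ((σ : ℂ) + -(starRingEnd ℂ) x))) *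
          (1 - b ((σ : ℂ) + -(starRingEnd ℂ) x))) := by
      rw [log_conj _ harg, map_mul, ← Complex.exp_conj]
      simp
    rw [h2, h1, ← h0U _ hball', map_neg, conj_conj]

end Crest.Agent.R102.H4
end
end

-- ▼ part R102/H4L6_148
section

/-! # H4-6: integer `N ≥ 2` is impossible (bookkeeping from Leaf4a, Leaf6a, 6b, 6c, Sym) -/

open Complex Set Filter Topology

namespace Crest.Agent.R102.H4L6148

open Crest.Agent.R102.H4

theorem tendsto_path : Tendsto (fun t : ℝ => (t : ℂ) * I) (𝓝[>] 0) (𝓝[UH] 0) := by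
  refine tendsto_nhdsWithin_iff.2 ⟨?_, ?_⟩
  · have : Tendsto (fun t : ℝ => (t : ℂ) * I) (𝓝 0) (𝓝 (((0 : ℝ) : ℂ) * I)) :=
      (Complex.continuous_ofReal.mul continuous_const).tendsto 0
    rw [Complex.ofReal_zero, zero_mul] at this
    exact this.mono_left nhdsWithin_le_nhds
  · filter_upwards [self_mem_nhdsWithin] with t ht
    show 0 < ((t : ℂ) * I).im
    simpa using ht

theorem lim_path {f : ℂ → ℂ} {c : ℝ} {v : ℂ}
    (h : Tendsto (fun δ : ℂ => f ((c : ℂ) + δ)) (𝓝[UH] 0) (𝓝 v)) {S : Set ℂ} (hS : IsClosed S)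
    (hf : ∀ s ∈ UH, s.re = c → f s ∈ S) : v ∈ S := by
  have h1 := h.comp tendsto_path
  refine hS.mem_of_tendsto h1 ?_
  filter_upwards [self_mem_nhdsWithin] with t ht
  have ht' : (0 : ℝ) < t := ht
  apply hf
  · show 0 < ((c : ℂ) + (t : ℂ) * I).im
    simpa using ht'
  · simp

theorem closed_re_le (a : ℝ) : IsClosed {z : ℂ | z.re ≤ a} :=
  isClosed_le Complex.continuous_re continuous_const

theorem closed_re_ge (a : ℝ) : IsClosed {z : ℂ | a ≤ z.re} :=
  isClosed_le continuous_const Complex.continuous_re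

theorem closed_im_ge (a : ℝ) : IsClosed {z : ℂ | a ≤ z.im} :=
  isClosed_le continuous_const Complex.continuous_im

theorem closed_im_le (a : ℝ) : IsClosed {z : ℂ | z.im ≤ a} :=
  isClosed_le Complex.continuous_im continuous_const

theorem contAt_L (N : ℝ) {z : ℂ} (hz : z.im ≠ 0) : ContinuousAt (L N) z := by
  have h0 : z ∈ slitPlane := Or.inr hz
  have h1 : 1 - z ∈ slitPlane := Or.inr (by simpa using hz)
  unfold L
  exact (continuousAt_const.mul (continuousAt_clog h0)).add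
    ((continuousAt_const.sub continuousAt_id).clog h1)

/-- limit one step further left -/
theorem step {N ρ : ℝ} {G b : ℂ → ℂ} (hb : Cont N ρ G b) {c : ℝ} {v : ℂ} (hv : v.im ≠ 0)
    (h : Tendsto (fun δ : ℂ => b ((c : ℂ) + δ)) (𝓝[UH] 0) (𝓝 v)) :
    Tendsto (fun δ : ℂ => L N (b (((c - 1 : ℝ) : ℂ) + δ))) (𝓝[UH] 0)
      (𝓝 (L N (2 * (nn N : ℂ) - v))) := by
  have hc : ContinuousAt (L N) (2 * (nn N : ℂ) - v) := by
    apply contAt_L
    simpa using hv
  have h1 : Tendsto (fun δ : ℂ => L N (2 * (nn N : ℂ) - b ((c : ℂ) + δ))) (𝓝[UH] 0)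
      (𝓝 (L N (2 * (nn N : ℂ) - v))) :=
    hc.tendsto.comp (tendsto_const_nhds.sub h)
  refine h1.congr' ?_
  filter_upwards [self_mem_nhdsWithin] with δ hδ
  have hδ' : 0 < δ.im := hδ
  have hs : ((c - 1 : ℝ) : ℂ) + δ ∈ UH := by
    show 0 < (((c - 1 : ℝ) : ℂ) + δ).im
    rw [Complex.add_im, Complex.ofReal_im, zero_add]
    exact hδ'
  rw [hb.eq _ hs]
  congr 3
  push_cast
  ring

theorem leaf6 (h1a : Leaf1a) (h1b : Leaf1b) (h1c : Leaf1c) (h4a : Leaf4a) (h6a : Leaf6a)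
    (h6b : Leaf6b) (h6c : Leaf6c) : Leaf6 := by
  intro N ρ σ G b e Ψ M m hG hb hsym he hch hNm
  have hN : 1 < N := hG.hN
  obtain ⟨-, b1, hb1, hLb1, ht1⟩ := h4a N ρ σ G b e hG hb he
  have hb1im : 0 < b1.im := hb1
  have hσ := hch.hσ
  -- basic limits
  have t1 : Tendsto (fun δ : ℂ => b (((σ - 1 : ℝ) : ℂ) + δ)) (𝓝[UH] 0) (𝓝 b1) := by
    refine ht1.congr fun δ => ?_
    push_cast
    rfl
  have t1L : Tendsto (fun δ : ℂ => (fun s => L N (b s)) (((σ - 1 : ℝ) : ℂ) + δ)) (𝓝[UH] 0)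
      (𝓝 (L N b1)) := (contAt_L N hb1im.ne').tendsto.comp t1
  have t2L : Tendsto (fun δ : ℂ => (fun s => L N (b s)) (((σ - 2 : ℝ) : ℂ) + δ)) (𝓝[UH] 0)
      (𝓝 (L N (2 * (nn N : ℂ) - b1))) := by
    have := step hb hb1im.ne' t1
    have e2 : σ - 1 - 1 = σ - 2 := by ring
    rw [e2] at this
    exact this
  have hLim : (L N b1).im = Real.pi := by
    rw [hLb1]
    simp
  -- `M ≠ 1`
  have hM1 : M ≠ 1 := by
    intro hM
    rw [hM] at hσ
    have hc : σ - 1 = -(1 / 2) := by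
      push_cast at hσ
      linarith
    have h := lim_path (f := fun s => L N (b s)) t1L (closed_im_le 0) (fun s hs hre => by
      show (L N (b s)).im ≤ 0
      exact (hsym.im_zero s hs (by rw [hre, hc])).le)
    have h' : (L N b1).im ≤ 0 := h
    rw [hLim] at h'
    linarith [Real.pi_pos]
  have hM2 : 2 ≤ M := by
    have := hch.hM
    omega
  have hσ1 : 1 ≤ σ := by
    have : (2 : ℝ) ≤ M := by exact_mod_cast hM2
    linarith
  -- `M = 2` forces `Re b1 = n`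
  have hMeq2 : M = 2 → b1.re = nn N := by
    intro hM
    rw [hM] at hσ
    have hc : σ - 1 = 0 := by
      push_cast at hσ
      linarith
    have ha := lim_path (f := b) t1 (closed_re_le (nn N)) (fun s hs hre =>
      (hsym.re_zero s hs (by rw [hre, hc])).le)
    have hb' := lim_path (f := b) t1 (closed_re_ge (nn N)) (fun s hs hre =>
      (hsym.re_zero s hs (by rw [hre, hc])).ge)
    exact le_antisymm ha hb'
  have hM3 : M ≠ 2 → 3 / 2 ≤ σ := by
    intro hM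
    have : 3 ≤ M := by omega
    have : (3 : ℝ) ≤ M := by exact_mod_cast this
    linarith
  have hm1 : 1 < m := by
    rw [hNm] at hN
    exact_mod_cast hN
  rcases (by omega : m = 2 ∨ (m = 3 ∨ m = 4) ∨ 5 ≤ m) with h | h | h
  · -- `N = 2`
    have hN2 : N = 2 := by rw [hNm, h]; norm_num
    subst hN2
    have hnn : nn 2 = 2 / 3 := by unfold nn; norm_num
    -- `Re b1 < 0`
    have harg1 : (Complex.arg (1 - b1)) < 0 := by
      rw [Complex.arg_neg_iff]
      simpa using hb1im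
    have hre1 : b1.re < 0 := by
      by_contra hcon
      push Not at hcon
      have h2 : Complex.arg b1 ≤ Real.pi / 2 := by
        have := (Complex.abs_arg_le_pi_div_two_iff (z := b1)).2 hcon
        exact (abs_le.1 this).2
      have h3 : (L 2 b1).im = 2 * Complex.arg b1 + Complex.arg (1 - b1) := by
        simp [L, Complex.log_im]
      rw [hLim] at h3
      linarith
    have hMne2 : M ≠ 2 := by
      intro hM
      have := hMeq2 hM
      rw [hnn] at this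
      linarith
    have hσ3 := hM3 hMne2
    -- `w2 = L (2n - b1) ∈ SS 2`
    set z2 : ℂ := 2 * (nn 2 : ℂ) - b1 with hz2
    have hz2im : z2.im < 0 := by
      rw [hz2]
      simpa using hb1im
    have hz2re : 0 < z2.re := by
      rw [hz2]
      simp only [Complex.sub_re, Complex.mul_re, Complex.re_ofNat, Complex.ofReal_re,
        Complex.im_ofNat, Complex.ofReal_im, mul_zero, sub_zero]
      rw [hnn]
      linarith
    have hw2im : -Real.pi < (L 2 z2).im := by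
      have h3 : (L 2 z2).im = 2 * Complex.arg z2 + Complex.arg (1 - z2) := by
        simp [L, Complex.log_im]
      have h4 : -(Real.pi / 2) < Complex.arg z2 := by
        have := (Complex.abs_arg_lt_pi_div_two_iff (z := z2)).2 (Or.inl hz2re)
        exact (abs_lt.1 this).1
      have h5 : 0 ≤ Complex.arg (1 - z2) := by
        rw [Complex.arg_nonneg_iff]
        simpa using hz2im.le
      rw [h3]
      linarith
    have hz2c : (starRingEnd ℂ) z2 ∈ UH := by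
      show 0 < ((starRingEnd ℂ) z2).im
      rw [Complex.conj_im]
      linarith
    have hcj : L 2 z2 = (starRingEnd ℂ) (L 2 ((starRingEnd ℂ) z2)) := by
      have := (h1c 2 hN).cj _ hz2c
      rw [Complex.conj_conj] at this
      exact this
    obtain ⟨hs1, hs2, hs3⟩ := (h1a 2 hN).2.1 _ hz2c
    have hw2 : L 2 z2 ∈ SS 2 := by
      refine ⟨hw2im, ?_, ?_⟩
      · rw [hcj, Complex.conj_im]
        linarith [Real.pi_pos]
      · intro h0
        rw [hcj, Complex.conj_im, neg_eq_zero] at h0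
        rw [hcj, Complex.conj_re]
        exact hs3 h0
    obtain ⟨b2, hb2, hLb2⟩ := (h1a 2 hN).2.2 _ hw2
    have hb2im : 0 < b2.im := hb2
    obtain ⟨h7, h8⟩ := h6c b1 b2 hb1 hb2 hLb1 hLb2
    -- `b (σ - 2 + δ) → b2`
    have t2 : Tendsto (fun δ : ℂ => b (((σ - 2 : ℝ) : ℂ) + δ)) (𝓝[UH] 0) (𝓝 b2) := by
      -- transport to a filter statement
      have hev : ∀ᶠ δ in 𝓝[UH] (0 : ℂ), (fun δ : ℂ => b (((σ - 2 : ℝ) : ℂ) + δ)) δ ∈ UH := by
        filter_upwards [self_mem_nhdsWithin] with δ hδ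
        apply hb.maps
        have hδ' : 0 < δ.im := hδ
        show 0 < (((σ - 2 : ℝ) : ℂ) + δ).im
        rw [Complex.add_im, Complex.ofReal_im, zero_add]
        exact hδ'
      refine (h1b 2 hN).b1 _ _ b2 hev hb2 ?_
      rw [hLb2]
      exact t2L
    -- positions
    have hM4 : 4 ≤ M := by
      by_contra hlt
      have hM3' : M = 3 := by omega
      rw [hM3'] at hσ
      have hc : σ - 2 = -(1 / 2) := by
        push_cast at hσ
        linarith
      have hge := lim_path (f := b) t2 (closed_re_ge (nn 2)) (fun s hs hre =>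
        (hsym.re_neg s hs (by rw [hre, hc]; norm_num)).le)
      have : nn 2 ≤ b2.re := hge
      linarith
    have hM4' : M ≠ 4 := by
      intro hM
      rw [hM] at hσ
      have hc : σ - 2 = 0 := by
        push_cast at hσ
        linarith
      have hge := lim_path (f := b) t2 (closed_re_ge (nn 2)) (fun s hs hre =>
        (hsym.re_zero s hs (by rw [hre, hc])).ge)
      have : nn 2 ≤ b2.re := hge
      linarith
    have hM5 : (5 : ℝ) ≤ M := by
      have : 5 ≤ M := by omega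
      exact_mod_cast this
    have t3L : Tendsto (fun δ : ℂ => (fun s => L 2 (b s)) (((σ - 2 - 1 : ℝ) : ℂ) + δ)) (𝓝[UH] 0)
        (𝓝 (L 2 (2 * (nn 2 : ℂ) - b2))) := step hb hb2im.ne' t2
    have hge := lim_path (f := fun s => L 2 (b s)) t3L (closed_im_ge 0) (fun s hs hre => by
      show 0 ≤ (L 2 (b s)).im
      rcases lt_or_eq_of_le (by rw [hre]; linarith : -(1 / 2) ≤ s.re) with h' | h'
      · exact (hsym.im_pos s hs h').le
      · exact (hsym.im_zero s hs h'.symm).ge)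
    have : 0 ≤ (L 2 (2 * (nn 2 : ℂ) - b2)).im := hge
    linarith
  · -- `N = 3, 4`
    have hN34 : N = 3 ∨ N = 4 := by
      rcases h with h | h
      · left; rw [hNm, h]; norm_num
      · right; rw [hNm, h]; norm_num
    obtain ⟨h7, h8⟩ := h6b N b1 hN34 hb1 hLb1
    have hMne2 : M ≠ 2 := by
      intro hM
      have := hMeq2 hM
      linarith
    have hσ3 := hM3 hMne2
    have hge := lim_path (f := fun s => L N (b s)) t2L (closed_im_ge 0) (fun s hs hre => by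
      show 0 ≤ (L N (b s)).im
      rcases lt_or_eq_of_le (by rw [hre]; linarith : -(1 / 2) ≤ s.re) with h' | h'
      · exact (hsym.im_pos s hs h').le
      · exact (hsym.im_zero s hs h'.symm).ge)
    have : 0 ≤ (L N (2 * (nn N : ℂ) - b1)).im := hge
    linarith
  · -- `N ≥ 5`
    have hN5 : 5 ≤ N := by
      rw [hNm]
      exact_mod_cast h
    have h7 := h6a N b1 hN5 hb1 hLb1
    have hMne2 : M ≠ 2 := by
      intro hM
      have := hMeq2 hM
      linarith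
    have hσ3 := hM3 hMne2
    have hle := lim_path (f := b) t1 (closed_re_le (nn N)) (fun s hs hre =>
      (hsym.re_pos s hs (by rw [hre]; linarith)).le)
    have : b1.re ≤ nn N := hle
    linarith

end Crest.Agent.R102.H4L6148
end

-- ▼ part R102/H4L6c_503

/-!
# Row 102, part (C), [H4], leaf H4-6c (helper503): the numerics for `N = 2`

`b₁ = z = (-1 + i√15)/6`, `b₂ = z2 ≈ 0.388 + 1.207 i`.
-/

open Complex Set Filter Topology

noncomputable section

namespace Crest.Agent.R102.H4L6c503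

open Crest.Agent.R102.H4

/-- `exp (L 2 z) = z² (1 - z)` -/
theorem exp_L2 (z : ℂ) (h0 : z ≠ 0) (h1 : 1 - z ≠ 0) : Complex.exp (L 2 z) = z ^ 2 * (1 - z) := by
  unfold L
  rw [Complex.exp_add, Complex.exp_log h1]
  congr 1
  have : ((2 : ℝ) : ℂ) * Complex.log z = (2 : ℕ) * Complex.log z := by push_cast; ring
  rw [this, Complex.exp_nat_mul, Complex.exp_log h0]

theorem ne_of_im {z : ℂ} (h : z.im ≠ 0) : z ≠ 0 ∧ 1 - z ≠ 0 := by
  constructor
  · rintro rfl; simp at h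
  · intro h1
    have : z = 1 := by linear_combination -h1
    rw [this] at h; simp at h

/-- quartic bound -/
theorem bound_a (a b c : ℝ) (hb : 0 < b) (hc : 0 < c) (hc2 : c ^ 2 = 15)
    (h1 : a ^ 2 - b ^ 2 + a / 2 + c * b / 6 + 1 / 3 = 0)
    (h2 : 2 * a * b + b / 2 - c * a / 6 - c / 3 = 0) :
    0.38 < a ∧ a < 0.4 ∧ 1.1 < b := by
  have h3 : b * (12 * a + 3) = c * (a + 2) := by linear_combination 6 * h2
  have hP : 24 * a ^ 4 + 24 * a ^ 3 + 18 * a ^ 2 + 6 * a - 7 = 0 := by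
    have e : (a ^ 2 + a / 2 + 1 / 3) * (12 * a + 3) ^ 2 + c / 6 * (b * (12 * a + 3)) * (12 * a + 3)
        - (b * (12 * a + 3)) ^ 2 = 0 := by
      linear_combination (12 * a + 3) ^ 2 * h1
    rw [h3] at e
    have e2 : (a ^ 2 + a / 2 + 1 / 3) * (12 * a + 3) ^ 2 + c ^ 2 / 6 * (a + 2) * (12 * a + 3)
        - c ^ 2 * (a + 2) ^ 2 = 0 := by linear_combination e
    rw [hc2] at e2
    linear_combination e2 / 6
  have ha : -1 / 4 < a := by
    by_contra hcon
    push Not at hcon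
    have h4 : c * (a + 2) ≤ 0 := by
      rw [← h3]
      exact mul_nonpos_of_nonneg_of_nonpos hb.le (by linarith)
    have h5 : a + 2 ≤ 0 := by
      by_contra h6
      push Not at h6
      have := mul_pos hc h6
      linarith
    have h6 : 0 ≤ (-a) * (-a - 2) := mul_nonneg (by linarith) (by linarith)
    nlinarith [mul_nonneg h6 (sq_nonneg a), h6, sq_nonneg a]
  have ha1 : 0.38 < a := by
    by_contra hcon
    push Not at hcon
    nlinarith [mul_nonneg (sub_nonneg.2 hcon) (by linarith : (0:ℝ) ≤ a + 1 / 4), sq_nonneg a,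
      mul_nonneg (mul_nonneg (sub_nonneg.2 hcon) (by linarith : (0:ℝ) ≤ a + 1 / 4)) (sq_nonneg a),
      mul_nonneg (mul_nonneg (sub_nonneg.2 hcon) (by linarith : (0:ℝ) ≤ a + 1 / 4))
        (by linarith : (0:ℝ) ≤ a + 1 / 4)]
  have ha2 : a < 0.4 := by
    by_contra hcon
    push Not at hcon
    have hp : (0:ℝ) < a := by linarith
    have e2 : (0.4:ℝ) ^ 2 ≤ a ^ 2 := by gcongr
    have e3 : (0.4:ℝ) ^ 3 ≤ a ^ 3 := by gcongr
    have e4 : (0.4:ℝ) ^ 4 ≤ a ^ 4 := by gcongr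
    norm_num at e2 e3 e4 hcon
    linarith
  refine ⟨ha1, ha2, ?_⟩
  have hc3 : 3.87 < c := by
    by_contra hcon
    push Not at hcon
    nlinarith
  by_contra hcon
  push Not at hcon
  have e1 : b * (12 * a + 3) ≤ 1.1 * (12 * 0.4 + 3) := by
    apply mul_le_mul hcon (by linarith) (by linarith) (by norm_num)
  have e2 : 3.87 * 2.38 ≤ c * (a + 2) := by
    apply mul_le_mul hc3.le (by linarith) (by norm_num) hc.le
  norm_num at e1 e2
  linarith

/-- **H4-6c** -/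
theorem leaf6c : Leaf6c := by
  intro z z2 hz hz2 hL hL2
  have hz' : 0 < z.im := hz
  have hz2' : 0 < z2.im := hz2
  have hnn : nn 2 = 2 / 3 := by unfold nn; norm_num
  rw [hnn] at hL hL2 ⊢
  obtain ⟨hz0, hz1⟩ := ne_of_im hz'.ne'
  obtain ⟨hz20, hz21⟩ := ne_of_im hz2'.ne'
  -- the equation for `z`
  have hQ : z ^ 2 * (1 - z) = -16 / 27 := by
    rw [← exp_L2 z hz0 hz1, hL, Complex.exp_add, Complex.exp_pi_mul_I]
    have : Complex.exp ((ell 2 (2 * (2 / 3)) : ℝ) : ℂ) = ((16 / 27 : ℝ) : ℂ) := by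
      rw [← Complex.ofReal_exp]
      congr 1
      unfold ell
      rw [Real.exp_add, show (2 : ℝ) * Real.log (2 * (2 / 3)) = ((2 : ℕ) : ℝ) * Real.log (2 * (2 / 3))
        by norm_num, Real.exp_nat_mul, Real.exp_log (by norm_num),
        show Real.log (1 - 2 * (2 / 3)) = Real.log (1 / 3) by
          rw [show (1 : ℝ) - 2 * (2 / 3) = -(1 / 3) by norm_num, Real.log_neg_eq_log],
        Real.exp_log (by norm_num)]
      norm_num
    rw [this]
    push_cast
    ring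
  set c : ℝ := Real.sqrt 15 with hcdef
  have hc : 0 < c := Real.sqrt_pos.2 (by norm_num)
  have hc2 : c ^ 2 = 15 := Real.sq_sqrt (by norm_num)
  -- `z = (-1 + i c)/6`
  have hquad : z ^ 2 + z / 3 + 4 / 9 = 0 := by
    have h : (z - 4 / 3) * (z ^ 2 + z / 3 + 4 / 9) = 0 := by linear_combination -hQ
    rcases mul_eq_zero.1 h with h | h
    · exfalso
      have : z = 4 / 3 := by linear_combination h
      have h2 := congrArg Complex.im this
      rw [show (4 / 3 : ℂ) = ((4 / 3 : ℝ) : ℂ) by push_cast; rfl, Complex.ofReal_im] at h2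
      linarith
    · exact h
  have hre := congrArg Complex.re hquad
  have him := congrArg Complex.im hquad
  have r1 : (z ^ 2 + z / 3 + 4 / 9).re = z.re ^ 2 - z.im ^ 2 + z.re / 3 + 4 / 9 := by
    rw [show z ^ 2 + z / 3 + 4 / 9 = z * z + ((1 / 3 : ℝ) : ℂ) * z + ((4 / 9 : ℝ) : ℂ) by
      push_cast; ring]
    simp only [Complex.add_re, Complex.mul_re, Complex.ofReal_re, Complex.ofReal_im]
    ring
  have r2 : (z ^ 2 + z / 3 + 4 / 9).im = 2 * z.re * z.im + z.im / 3 := by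
    rw [show z ^ 2 + z / 3 + 4 / 9 = z * z + ((1 / 3 : ℝ) : ℂ) * z + ((4 / 9 : ℝ) : ℂ) by
      push_cast; ring]
    simp only [Complex.add_im, Complex.mul_im, Complex.ofReal_re, Complex.ofReal_im]
    ring
  rw [r1, Complex.zero_re] at hre
  rw [r2, Complex.zero_im] at him
  have zre : z.re = -1 / 6 := by
    have : z.im * (2 * z.re + 1 / 3) = 0 := by linear_combination him
    rcases mul_eq_zero.1 this with h | h
    · exact absurd h hz'.ne'
    · linarith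
  have zim : z.im = c / 6 := by
    rw [zre] at hre
    have h : (z.im - c / 6) * (z.im + c / 6) = 0 := by
      linear_combination -hre - hc2 / 36
    rcases mul_eq_zero.1 h with h | h
    · linarith
    · have : 0 < z.im + c / 6 := by positivity
      exact absurd h this.ne'
  -- the equation for `z2`
  set w : ℂ := 2 * ((2 / 3 : ℝ) : ℂ) - z with hw
  have wre : w.re = 3 / 2 := by
    rw [hw, Complex.sub_re, zre, show (2 : ℂ) * ((2 / 3 : ℝ) : ℂ) = ((4 / 3 : ℝ) : ℂ) by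
      push_cast; ring, Complex.ofReal_re]
    norm_num
  have wim : w.im = -(c / 6) := by
    rw [hw, Complex.sub_im, zim, show (2 : ℂ) * ((2 / 3 : ℝ) : ℂ) = ((4 / 3 : ℝ) : ℂ) by
      push_cast; ring, Complex.ofReal_im]
    ring
  have wim' : w.im < 0 := by rw [wim]; linarith
  obtain ⟨hw0, hw1⟩ := ne_of_im wim'.ne
  have hQ2 : z2 ^ 2 * (1 - z2) = w ^ 2 * (1 - w) := by
    rw [← exp_L2 z2 hz20 hz21, hL2, exp_L2 w hw0 hw1]
  have hquad2 : z2 * z2 + (w - 1) * z2 + w * w - w = 0 := by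
    have h : (z2 - w) * (z2 * z2 + (w - 1) * z2 + w * w - w) = 0 := by linear_combination -hQ2
    rcases mul_eq_zero.1 h with h | h
    · exfalso
      have : z2 = w := by linear_combination h
      have h2 := congrArg Complex.im this
      linarith
    · exact h
  have hre2 := congrArg Complex.re hquad2
  have him2 := congrArg Complex.im hquad2
  simp only [Complex.add_re, Complex.sub_re, Complex.mul_re, Complex.sub_im, Complex.one_re,
    Complex.one_im, Complex.zero_re, wre, wim] at hre2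
  simp only [Complex.add_im, Complex.sub_im, Complex.mul_im, Complex.sub_re, Complex.one_re,
    Complex.one_im, Complex.zero_im, wre, wim] at him2
  obtain ⟨ha1, ha2, hb1⟩ := bound_a z2.re z2.im c hz2' hc hc2
    (by linear_combination hre2 + hc2 / 36) (by linear_combination him2)
  have hc3 : 3.87 < c := by
    by_contra hcon
    push Not at hcon
    nlinarith
  refine ⟨by linarith, ?_⟩
  -- the sign of `Im L (4/3 - z2)`
  set u : ℂ := 2 * ((2 / 3 : ℝ) : ℂ) - z2 with hu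
  have ure : u.re = 4 / 3 - z2.re := by
    rw [hu, Complex.sub_re, show (2 : ℂ) * ((2 / 3 : ℝ) : ℂ) = ((4 / 3 : ℝ) : ℂ) by
      push_cast; ring, Complex.ofReal_re]
  have uim : u.im = -z2.im := by
    rw [hu, Complex.sub_im, show (2 : ℂ) * ((2 / 3 : ℝ) : ℂ) = ((4 / 3 : ℝ) : ℂ) by
      push_cast; ring, Complex.ofReal_im]
    ring
  have uim' : u.im < 0 := by rw [uim]; linarith
  have ure' : 0 < u.re := by rw [ure]; linarith
  obtain ⟨hu0, hu1⟩ := ne_of_im uim'.ne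
  have hexp := exp_L2 u hu0 hu1
  have himL : (L 2 u).im = 2 * Complex.arg u + Complex.arg (1 - u) := by
    unfold L
    rw [Complex.add_im, Complex.im_ofReal_mul, Complex.log_im, Complex.log_im]
  have a1 : -(Real.pi / 2) < Complex.arg u := by
    exact (Complex.neg_pi_div_two_lt_arg_iff.2 (Or.inl ure'))
  have a2 : Complex.arg u < 0 := Complex.arg_neg_iff.2 uim'
  have b1 : 0 < (1 - u).im := by rw [Complex.sub_im, Complex.one_im]; linarith
  have b2 : 0 < Complex.arg (1 - u) := by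
    rcases (Complex.arg_nonneg_iff.2 b1.le).lt_or_eq with h | h
    · exact h
    · exfalso
      have := (Complex.arg_eq_zero_iff.1 h.symm).2
      linarith
  have b3 : Complex.arg (1 - u) ≤ Real.pi := Complex.arg_le_pi _
  have him3 : (Complex.exp (L 2 u)).im < 0 := by
    rw [hexp]
    have : (u ^ 2 * (1 - u)).im = u.im * (-(3 * u.re ^ 2) + 2 * u.re + u.im ^ 2) := by
      rw [show u ^ 2 * (1 - u) = u * u * (1 - u) by ring]
      simp only [Complex.mul_im, Complex.mul_re, Complex.sub_im, Complex.sub_re, Complex.one_re,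
        Complex.one_im]
      ring
    rw [this]
    apply mul_neg_of_neg_of_pos uim'
    rw [ure, uim]
    have hcb : 3.87 * 1.1 < c * z2.im := by
      apply mul_lt_mul hc3 hb1.le (by norm_num) hc.le
    norm_num at hcb ha1 ha2
    nlinarith [mul_pos (sub_pos.2 ha1) (sub_pos.2 ha2)]
  rw [Complex.exp_im] at him3
  have hsin : Real.sin (L 2 u).im < 0 := by
    by_contra hcon
    push Not at hcon
    have := mul_nonneg (Real.exp_pos (L 2 u).re).le hcon
    linarith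
  by_contra hcon
  push Not at hcon
  have : 0 ≤ Real.sin (L 2 u).im := by
    apply Real.sin_nonneg_of_nonneg_of_le_pi hcon
    rw [himL]; linarith
  linarith

end Crest.Agent.R102.H4L6c503
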