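import Mathlib

/-!
# Row 102, block [H4], section 5 of `C_H4_148`: `N` integer / `N ≥ 5` numerics
(helper631).

`Lf N y = N Log y + Log (1-y)` (principal branches), `nn N = N/(N+1)`,
`V1 N = Lf₊ N (2 n) = N log (2n) + log (2n-1) - iπ`.
-/

set_option autoImplicit false

namespace Crest.Agent.R102.H4num631

open Complex

/-- `L(y) = N Log y + Log (1-y)`, principal branches. -/
noncomputable def Lf (N : ℝ) (y : ℂ) : ℂ := (N : ℂ) * Complex.log y + Complex.log (1 - y)

/-- `n = N/(N+1)`. -/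
noncomputable def nn (N : ℝ) : ℝ := N / (N + 1)

/-- the value `L₊(2n)`. -/
noncomputable def V1 (N : ℝ) : ℂ :=
  ((N * Real.log (2 * nn N) + Real.log (2 * nn N - 1) : ℝ) : ℂ) - Real.pi * I


theorem Lf_im (N : ℝ) (y : ℂ) : (Lf N y).im = N * Complex.arg y + Complex.arg (1 - y) := by
  simp [Lf, Complex.log_im]


theorem V1_im (N : ℝ) : (V1 N).im = - Real.pi := by
  simp [V1]



/-! ### exponentials -/

theorem exp_Lf (k : ℕ) (z : ℂ) (hz : z ≠ 0) (hz1 : 1 - z ≠ 0) :
    Complex.exp (Lf (k : ℝ) z) = z ^ k * (1 - z) := by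
  unfold Lf
  rw [Complex.exp_add, Complex.exp_log hz1]
  congr 1
  rw [show (((k : ℝ) : ℂ)) = (k : ℂ) by push_cast; rfl, Complex.exp_nat_mul, Complex.exp_log hz]

theorem exp_V1 (k : ℕ) (hk : 2 ≤ k) :
    Complex.exp (V1 (k : ℝ)) = -(((2 * nn k) ^ k * (2 * nn k - 1) : ℝ) : ℂ) := by
  have hk' : (2 : ℝ) ≤ k := by exact_mod_cast hk
  have h1 : (1 : ℝ) / 2 < nn k := by
    unfold nn
    rw [div_lt_div_iff₀ (by norm_num) (by linarith)]
    linarith
  have h2 : 0 < 2 * nn k := by linarith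
  have h3 : 0 < 2 * nn k - 1 := by linarith
  unfold V1
  rw [Complex.exp_sub, Complex.exp_pi_mul_I, ← Complex.ofReal_exp, Real.exp_add,
    Real.exp_nat_mul, Real.exp_log h2, Real.exp_log h3, div_neg, div_one]

theorem im_pos (k : ℕ) (z : ℂ) (hz : 0 < z.im) (h : 0 < (z ^ k * (1 - z)).im) :
    0 < (Lf (k : ℝ) z).im := by
  have hz0 : z ≠ 0 := by
    intro h0; rw [h0] at hz; simp at hz
  have hz1 : 1 - z ≠ 0 := by
    intro h0
    have := congrArg Complex.im h0
    simp at this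
    linarith
  rw [← exp_Lf k z hz0 hz1, Complex.exp_im] at h
  have hs : 0 < Real.sin (Lf (k : ℝ) z).im := by
    by_contra hc
    push Not at hc
    have := mul_nonpos_of_nonneg_of_nonpos (Real.exp_pos (Lf (k : ℝ) z).re).le hc
    linarith
  by_contra hc
  push Not at hc
  have h1 : 0 ≤ Complex.arg z := Complex.arg_nonneg_iff.mpr hz.le
  have h2 : -Real.pi < Complex.arg (1 - z) := Complex.neg_pi_lt_arg _
  have h3 : -Real.pi < (Lf (k : ℝ) z).im := by
    rw [Lf_im]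
    have : 0 ≤ (k : ℝ) * Complex.arg z := by positivity
    linarith
  have := Real.sin_nonpos_of_nonpos_of_neg_pi_le hc h3.le
  linarith

/-- the polynomial equation of `L y = V1`. -/
theorem poly_eq (k : ℕ) (hk : 2 ≤ k) (y : ℂ) (hy : y.im < 0) (h : Lf (k : ℝ) y = V1 (k : ℝ)) :
    y ^ k * (1 - y) = -(((2 * nn k) ^ k * (2 * nn k - 1) : ℝ) : ℂ) := by
  have hy0 : y ≠ 0 := by
    intro h0; rw [h0] at hy; simp at hy
  have hy1 : 1 - y ≠ 0 := by
    intro h0
    have := congrArg Complex.im h0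
    simp at this
    linarith
  rw [← exp_Lf k y hy0 hy1, h, exp_V1 k hk]

theorem nn_three : nn 3 = 3 / 4 := by norm_num [nn]
theorem nn_four : nn 4 = 4 / 5 := by norm_num [nn]

/-- (5b), `N = 3` -/
theorem three (y : ℂ) (hy : y.im < 0) (h : Lf 3 y = V1 3) :
    y.re < nn 3 ∧ 0 < (Lf 3 (2 * (nn 3 : ℝ) - y)).im := by
  have hp := poly_eq 3 (by norm_num) y hy (by push_cast; exact h)
  simp only [Nat.cast_ofNat, nn_three] at hp
  -- scaled root
  obtain ⟨q, hq⟩ : ∃ q : ℂ, y = (3 / 2) * q := ⟨(2 / 3) * y, by ring⟩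
  have hqim : q.im < 0 := by
    rw [hq] at hy
    simp at hy
    linarith
  have hq1 : q - 1 ≠ 0 := by
    intro h0
    have := congrArg Complex.im h0
    simp at this
    linarith
  have hcub : 3 * q ^ 3 + q ^ 2 + q + 1 = 0 := by
    have : (q - 1) * (3 * q ^ 3 + q ^ 2 + q + 1) = 0 := by
      rw [hq] at hp
      push_cast at hp
      linear_combination (-16 / 27 : ℂ) * hp
    rcases mul_eq_zero.mp this with h0 | h0
    · exact absurd h0 hq1
    · exact h0
  set s := q.re with hs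
  set t := q.im with ht
  have hre := congrArg Complex.re hcub
  have him := congrArg Complex.im hcub
  simp [pow_succ] at hre him
  rw [← hs, ← ht] at hre him
  have e1 : 9 * s ^ 2 - 3 * t ^ 2 + 2 * s + 1 = 0 := by
    have : t * (9 * s ^ 2 - 3 * t ^ 2 + 2 * s + 1) = 0 := by linear_combination him
    rcases mul_eq_zero.mp this with h0 | h0
    · linarith
    · exact h0
  have e2 : 3 * (s ^ 3 - 3 * s * t ^ 2) + (s ^ 2 - t ^ 2) + s + 1 = 0 := by
    linear_combination hre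
  have e3 : 36 * s ^ 3 + 12 * s ^ 2 + 4 * s - 1 = 0 := by
    linear_combination (-3 / 2 : ℝ) * e2 + (1 / 2 : ℝ) * (9 * s + 1) * e1
  have hs1 : 0.15 < s := by
    by_contra hc
    push Not at hc
    have hq : 0 ≤ 36 * (s ^ 2 + 0.15 * s + 0.0225) + 12 * (s + 0.15) + 4 := by
      nlinarith [sq_nonneg (s + 0.25)]
    nlinarith [mul_nonneg (sub_nonneg.mpr hc) hq]
  have hs2 : s < 0.152 := by
    by_contra hc
    push Not at hc
    have hq : 0 ≤ 36 * (s ^ 2 + 0.152 * s + 0.023104) + 12 * (s + 0.152) + 4 := by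
      nlinarith [sq_nonneg (s + 0.25)]
    nlinarith [mul_nonneg (sub_nonneg.mpr hc) hq]
  have hyre : y.re = 3 / 2 * s := by
    rw [hq]; simp [hs]
  refine ⟨by rw [hyre, nn_three]; linarith, ?_⟩
  have hz : (2 * ((nn 3 : ℝ) : ℂ) - y) = (3 / 2) * (1 - q) := by
    rw [nn_three, hq]; push_cast; ring
  have hzim : 0 < (2 * ((nn 3 : ℝ) : ℂ) - y).im := by
    rw [hz]; simp [← ht]; linarith
  have key := im_pos 3 (2 * ((nn 3 : ℝ) : ℂ) - y) hzim ?_
  · simpa using key
  · rw [hz]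
    have e4 : ((3 / 2 * (1 - q)) ^ 3 * (1 - 3 / 2 * (1 - q))).im
        = 27 / 8 * (-t) * (3 * (1 - s) ^ 2 - t ^ 2 - 6 * (1 - s) ^ 3 + 6 * (1 - s) * t ^ 2) := by
      simp [pow_succ, ← hs, ← ht]
      ring
    rw [e4]
    have e5 : 0 < 3 * (1 - s) ^ 2 - t ^ 2 - 6 * (1 - s) ^ 3 + 6 * (1 - s) * t ^ 2 := by
      have hT : t ^ 2 = (9 * s ^ 2 + 2 * s + 1) / 3 := by linarith
      rw [hT]
      nlinarith [mul_pos (sub_pos.mpr hs1) (sub_pos.mpr hs2)]
    have : 0 < -t := by linarith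
    positivity

theorem aux_four (c T T2 : ℝ) (hT2' : T2 = T * T) (c1 : 0.61 < c) (c2 : c < 0.63)
    (hT1 : 0.54 < T) (hT2 : T < 0.56) :
    0 < 20 * c * (c ^ 2 - T) - 8 * (5 * c ^ 4 - 10 * c ^ 2 * T + T2) := by
  have c3 : 0.3721 < c * c := by nlinarith
  have c4 : c * c < 0.3969 := by nlinarith
  have c5 : (c * c) * (c * c) < 0.1576 := by nlinarith
  have c6 : T * T < 0.3136 := by nlinarith
  have c7 : 0.2 < (c * c) * T := by nlinarith
  have c8 : c * (T - c * c) < 0.1184 := by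
    have h1 : T - c * c < 0.1879 := by linarith
    have h2 : 0 < T - c * c := by linarith
    calc c * (T - c * c) < 0.63 * (T - c * c) := by
          exact mul_lt_mul_of_pos_right c2 h2
      _ ≤ 0.63 * 0.1879 := by linarith
      _ < 0.1184 := by norm_num
  have e : 20 * c * (c ^ 2 - T) - 8 * (5 * c ^ 4 - 10 * c ^ 2 * T + T2)
      = -20 * (c * (T - c * c)) - 40 * ((c * c) * (c * c)) + 80 * ((c * c) * T) - 8 * (T * T) := by
    rw [hT2']; ring
  rw [e]
  linarith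

/-- (5b), `N = 4` -/
theorem four (y : ℂ) (hy : y.im < 0) (h : Lf 4 y = V1 4) :
    y.re < nn 4 ∧ 0 < (Lf 4 (2 * (nn 4 : ℝ) - y)).im := by
  have hp := poly_eq 4 (by norm_num) y hy (by push_cast; exact h)
  simp only [Nat.cast_ofNat, nn_four] at hp
  -- `y.re > 0`
  have him0 : 4 * Complex.arg y + Complex.arg (1 - y) = - Real.pi := by
    rw [← Lf_im, h, V1_im]
  have harg1 : Complex.arg (1 - y) < Real.pi := by
    rcases lt_or_eq_of_le (Complex.arg_le_pi (1 - y)) with h0 | h0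
    · exact h0
    · have := (Complex.arg_eq_pi_iff.mp h0).2
      simp at this
      linarith
  have hpi := Real.pi_pos
  have hargneg : Complex.arg y < 0 := Complex.arg_neg_iff.mpr hy
  have hyre0 : 0 < y.re := by
    have hab : |Complex.arg y| < Real.pi / 2 := by
      rw [abs_lt]; constructor <;> linarith
    rcases Complex.abs_arg_lt_pi_div_two_iff.mp hab with h0 | h0
    · exact h0
    · rw [h0] at hy; simp at hy
  obtain ⟨q, hq⟩ : ∃ q : ℂ, y = (8 / 5) * q := ⟨(5 / 8) * y, by ring⟩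
  have hqim : q.im < 0 := by
    rw [hq] at hy
    simp at hy
    linarith
  have hq1 : q - 1 ≠ 0 := by
    intro h0
    have := congrArg Complex.im h0
    simp at this
    linarith
  have hquar : 8 * q ^ 4 + 3 * q ^ 3 + 3 * q ^ 2 + 3 * q + 3 = 0 := by
    have : (q - 1) * (8 * q ^ 4 + 3 * q ^ 3 + 3 * q ^ 2 + 3 * q + 3) = 0 := by
      rw [hq] at hp
      push_cast at hp
      linear_combination (-3125 / 4096 : ℂ) * hp
    rcases mul_eq_zero.mp this with h0 | h0
    · exact absurd h0 hq1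
    · exact h0
  set s := q.re with hs
  set t := q.im with ht
  have hyre : y.re = 8 / 5 * s := by
    rw [hq]; simp [hs]
  have hs0 : 0 < s := by linarith
  have hre := congrArg Complex.re hquar
  have him := congrArg Complex.im hquar
  simp [pow_succ] at hre him
  rw [← hs, ← ht] at hre him
  have e1 : t ^ 2 * (32 * s + 3) = 32 * s ^ 3 + 9 * s ^ 2 + 6 * s + 3 := by
    have : t * (32 * s ^ 3 + 9 * s ^ 2 + 6 * s + 3 - t ^ 2 * (32 * s + 3)) = 0 := by
      linear_combination him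
    rcases mul_eq_zero.mp this with h0 | h0
    · linarith
    · linarith
  have e2 : 8 * (s ^ 4 - 6 * s ^ 2 * t ^ 2 + t ^ 4) + 3 * (s ^ 3 - 3 * s * t ^ 2)
      + 3 * (s ^ 2 - t ^ 2) + 3 * s + 3 = 0 := by
    linear_combination hre
  have e3 : 72 + 468 * s + 2280 * s ^ 2 - 2520 * s ^ 3 - 9600 * s ^ 4 - 18432 * s ^ 5
      - 32768 * s ^ 6 = 0 := by
    linear_combination (32 * s + 3) ^ 2 * e2
      - (-48 * s ^ 2 * (32 * s + 3) + 8 * (t ^ 2 * (32 * s + 3)
          + (32 * s ^ 3 + 9 * s ^ 2 + 6 * s + 3)) - 9 * s * (32 * s + 3)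
          - 3 * (32 * s + 3)) * e1
  have hs1 : 0.37 < s := by
    by_contra hc
    push Not at hc
    have h3 : s ^ 3 ≤ 0.37 * s ^ 2 := by nlinarith [sq_nonneg s]
    have h4 : s ^ 4 ≤ 0.37 * (0.37 * s ^ 2) := by nlinarith [sq_nonneg s]
    have h5 : s ^ 5 ≤ 0.37 * (0.37 * (0.37 * s ^ 2)) := by nlinarith [sq_nonneg s, sq_nonneg (s^2)]
    have h6 : s ^ 6 ≤ 0.37 * (0.37 * (0.37 * (0.37 * s ^ 2))) := by
      nlinarith [sq_nonneg s, sq_nonneg (s^2), pow_pos hs0 5]
    nlinarith [mul_nonneg hs0.le (sub_nonneg.mpr hc)]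
  have hs2 : s < 0.39 := by
    by_contra hc
    push Not at hc
    obtain ⟨u, hu, hu0⟩ : ∃ u : ℝ, s = 0.39 + u ∧ 0 ≤ u := ⟨s - 0.39, by ring, by linarith⟩
    rw [hu] at e3
    have : 0 ≤ u ^ 2 := by positivity
    have : 0 ≤ u ^ 3 := by positivity
    have : 0 ≤ u ^ 4 := by positivity
    have : 0 ≤ u ^ 5 := by positivity
    have : 0 ≤ u ^ 6 := by positivity
    ring_nf at e3
    linarith
  refine ⟨by rw [hyre, nn_four]; linarith, ?_⟩
  have hT1 : 0.54 < t ^ 2 := by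
    by_contra hc
    push Not at hc
    have : t ^ 2 * (32 * s + 3) ≤ 0.54 * (32 * s + 3) :=
      mul_le_mul_of_nonneg_right hc (by linarith)
    nlinarith
  have hT2 : t ^ 2 < 0.56 := by
    by_contra hc
    push Not at hc
    have : 0.56 * (32 * s + 3) ≤ t ^ 2 * (32 * s + 3) :=
      mul_le_mul_of_nonneg_right hc (by linarith)
    nlinarith
  have hz : (2 * ((nn 4 : ℝ) : ℂ) - y) = (8 / 5) * (1 - q) := by
    rw [nn_four, hq]; push_cast; ring
  have hzim : 0 < (2 * ((nn 4 : ℝ) : ℂ) - y).im := by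
    rw [hz]; simp [← ht]; linarith
  have key := im_pos 4 (2 * ((nn 4 : ℝ) : ℂ) - y) hzim ?_
  · simpa using key
  · rw [hz]
    have e4 : ((8 / 5 * (1 - q)) ^ 4 * (1 - 8 / 5 * (1 - q))).im
        = 4096 / 3125 * (-t) * (20 * (1 - s) * ((1 - s) ^ 2 - t ^ 2)
          - 8 * (5 * (1 - s) ^ 4 - 10 * (1 - s) ^ 2 * t ^ 2 + t ^ 4)) := by
      simp [pow_succ, ← hs, ← ht]
      ring
    rw [e4]
    have e5 : 0 < 20 * (1 - s) * ((1 - s) ^ 2 - t ^ 2)
          - 8 * (5 * (1 - s) ^ 4 - 10 * (1 - s) ^ 2 * t ^ 2 + t ^ 4) := by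
      exact aux_four (1 - s) (t ^ 2) (t ^ 4) (by ring) (by linarith) (by linarith) hT1 hT2
    have : 0 < -t := by linarith
    positivity



end Crest.Agent.R102.H4num631
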