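import Mathlib
import Crest.Agent.R102.H4Defs_490
import Crest.Agent.R102.H4num_631
import Crest.Agent.R102.H4L3_377_Mg
import Crest.Agent.R102.H4L6c_503_Mg
import Crest.Agent.R102.T5Defs_160
import Crest.Agent.R102.Flat2_348
import Crest.Agent.R102.Petal_297
import Crest.Agent.R102.T5L6I_496

-- ▼ part R102/H4L6a_864
section

/-!
# Row 102, [H4], leaf H4-6a (helper864): for `N ≥ 5` the value `b₁` has `Re b₁ > n`.
-/

open Complex Set Filter Topology

noncomputable section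

namespace Crest.Agent.R102.H4L6a864

open Crest.Agent.R102.H4

theorem L_im (N : ℝ) (z : ℂ) : (L N z).im = N * arg z + arg (1 - z) := by
  simp [L, Complex.add_im, Complex.log_im]

theorem L_re (N : ℝ) (z : ℂ) : (L N z).re = N * Real.log ‖z‖ + Real.log ‖1 - z‖ := by
  simp [L, Complex.add_re, Complex.log_re]

/-- `cos² (3π/10) > 1/2.9`. -/
theorem cos_bound {a : ℝ} (h0 : 0 ≤ a) (h1 : a ≤ 3 * Real.pi / 10) :
    0 < Real.cos a ∧ 1 ≤ 2.9 * Real.cos a ^ 2 := by
  have hpi := Real.pi_pos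
  have hc : Real.cos (3 * Real.pi / 10) ≤ Real.cos a :=
    Real.cos_le_cos_of_nonneg_of_le_pi h0 (by linarith) h1
  have he : Real.cos (3 * Real.pi / 10) = Real.sin (Real.pi / 5) := by
    rw [← Real.cos_pi_div_two_sub]; congr 1; ring
  have hs : 0 < Real.sin (Real.pi / 5) :=
    Real.sin_pos_of_pos_of_lt_pi (by linarith) (by linarith)
  have hs2 : Real.sin (Real.pi / 5) ^ 2 = (10 - 2 * √5) / 16 := by
    have h := Real.sin_sq_add_cos_sq (Real.pi / 5)
    rw [Real.cos_pi_div_five] at h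
    have h5 : √5 ^ 2 = 5 := Real.sq_sqrt (by norm_num)
    nlinarith
  have h5 : √5 < 2.24 := by
    rw [show (2.24 : ℝ) = √(2.24 ^ 2) by rw [Real.sqrt_sq (by norm_num)]]
    exact Real.sqrt_lt_sqrt (by norm_num) (by norm_num)
  rw [he] at hc
  refine ⟨lt_of_lt_of_le hs hc, ?_⟩
  have : Real.sin (Real.pi / 5) ^ 2 ≤ Real.cos a ^ 2 := by
    apply pow_le_pow_left₀ hs.le hc
  nlinarith

theorem leaf6a : Leaf6a := by
  intro N z hN hz hL
  by_contra hcon
  push Not at hcon
  have hpi := Real.pi_pos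
  have hN0 : 0 < N := by linarith
  have hN1 : 0 < N + 1 := by linarith
  have hn1 : nn N < 1 := by
    unfold nn; rw [div_lt_one hN1]; linarith
  have hn0 : 0 < nn N := by unfold nn; positivity
  have hx1 : z.re < 1 := lt_of_le_of_lt hcon hn1
  have hz0 : z ≠ 0 := by
    intro h; rw [h] at hz; simp [UH] at hz
  have hzp : 0 < ‖z‖ := norm_pos_iff.mpr hz0
  -- imaginary part
  have him : N * arg z + arg (1 - z) = Real.pi := by
    have := congrArg Complex.im hL
    rw [L_im] at this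
    simpa using this
  have hre : N * Real.log ‖z‖ + Real.log ‖1 - z‖ = ell N (2 * nn N) := by
    have := congrArg Complex.re hL
    rw [L_re] at this
    simpa using this
  have hb : |arg (1 - z)| < Real.pi / 2 := by
    rw [Complex.abs_arg_lt_pi_div_two_iff]
    left; simp; exact hx1
  rw [abs_lt] at hb
  have ha0 : 0 ≤ arg z := by
    by_contra hneg
    push Not at hneg
    nlinarith [mul_neg_of_pos_of_neg hN0 hneg]
  have ha1 : arg z ≤ 3 * Real.pi / 10 := by
    by_contra hneg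
    push Not at hneg
    have : N * (3 * Real.pi / 10) < N * arg z := mul_lt_mul_of_pos_left hneg hN0
    have h2 : 5 * (3 * Real.pi / 10) ≤ N * (3 * Real.pi / 10) :=
      mul_le_mul_of_nonneg_right hN (by positivity)
    linarith
  obtain ⟨hc, hc2⟩ := cos_bound ha0 ha1
  have hxc : ‖z‖ * Real.cos (arg z) = z.re := Complex.norm_mul_cos_arg z
  have hx0 : 0 < z.re := by rw [← hxc]; positivity
  -- bound of `‖z‖²`
  have hz2 : ‖z‖ ^ 2 ≤ 2.9 * z.re ^ 2 := by
    rw [← hxc]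
    nlinarith [sq_nonneg ‖z‖, mul_le_mul_of_nonneg_left hc2 (sq_nonneg ‖z‖)]
  have hz3 : ‖z‖ ^ 2 ≤ nn N ^ 2 * 2.9 := by
    have : z.re ^ 2 ≤ nn N ^ 2 := pow_le_pow_left₀ hx0.le hcon 2
    nlinarith
  have hw2 : ‖1 - z‖ ^ 2 ≤ 1.9 := by
    have h1 : ‖1 - z‖ ^ 2 = 1 - 2 * z.re + ‖z‖ ^ 2 := by
      rw [← Complex.normSq_eq_norm_sq, ← Complex.normSq_eq_norm_sq, Complex.normSq_apply,
        Complex.normSq_apply]
      simp only [Complex.sub_re, Complex.one_re, Complex.sub_im, Complex.one_im]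
      ring
    rw [h1]
    nlinarith [mul_pos hx0 (sub_pos.mpr hx1)]
  have hwne : (1 : ℂ) - z ≠ 0 := by
    intro h
    have := congrArg Complex.im h
    simp at this
    have hz' : 0 < z.im := hz
    linarith
  have hwp : 0 < ‖1 - z‖ := norm_pos_iff.mpr hwne
  -- logarithms
  have hA : 2 * Real.log ‖z‖ ≤ 2 * Real.log (nn N) + Real.log 2.9 := by
    have h1 : Real.log (‖z‖ ^ 2) ≤ Real.log (nn N ^ 2 * 2.9) :=
      Real.log_le_log (by positivity) hz3
    rw [Real.log_mul (by positivity) (by norm_num), Real.log_pow, Real.log_pow] at h1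
    push_cast at h1
    linarith
  have hB : 2 * Real.log ‖1 - z‖ ≤ Real.log 1.9 := by
    have h1 : Real.log (‖1 - z‖ ^ 2) ≤ Real.log 1.9 :=
      Real.log_le_log (by positivity) hw2
    rw [Real.log_pow] at h1
    push_cast at h1
    linarith
  have hn2 : 2 / 3 ≤ 2 * nn N - 1 := by
    unfold nn
    rw [show 2 * (N / (N + 1)) - 1 = (N - 1) / (N + 1) by field_simp; ring]
    rw [div_le_div_iff₀ (by norm_num) hN1]
    linarith
  have hell : ell N (2 * nn N) = N * (Real.log 2 + Real.log (nn N)) + Real.log (2 * nn N - 1) := by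
    unfold ell
    rw [Real.log_mul (by norm_num) hn0.ne', ← Real.log_neg_eq_log (2 * nn N - 1)]
    congr 2
    ring
  have hC : Real.log (2 / 3) ≤ Real.log (2 * nn N - 1) :=
    Real.log_le_log (by norm_num) hn2
  rw [hell] at hre
  have h4 : Real.log 2.9 ≤ 2 * Real.log 2 := by
    have : 2 * Real.log 2 = Real.log (2 ^ 2) := by rw [Real.log_pow]; push_cast; ring
    rw [this]
    exact Real.log_le_log (by norm_num) (by norm_num)
  have hfin : Real.log (2.9 ^ 5 * 1.9) < Real.log (2 ^ 10 * (2 / 3) ^ 2) :=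
    Real.log_lt_log (by norm_num) (by norm_num)
  rw [Real.log_mul (by norm_num) (by norm_num), Real.log_mul (by norm_num) (by norm_num),
    Real.log_pow, Real.log_pow, Real.log_pow] at hfin
  push_cast at hfin
  have h5 : 5 * (2 * Real.log 2 - Real.log 2.9) ≤ N * (2 * Real.log 2 - Real.log 2.9) :=
    mul_le_mul_of_nonneg_right hN (by linarith)
  have hA' : N * (2 * Real.log ‖z‖) ≤ N * (2 * Real.log (nn N) + Real.log 2.9) :=
    mul_le_mul_of_nonneg_left hA hN0.le
  nlinarith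

end Crest.Agent.R102.H4L6a864
end
end

-- ▼ part R102/H4L6b_631
section

/-! # Row 102, leaf H4-6b from `H4num_631` (helper631) -/

set_option autoImplicit false

namespace Crest.Agent.R102.H4L6b631

open Complex Crest.Agent.R102.H4

theorem L_conj (N : ℝ) (z : ℂ) (hz : 0 < z.im) :
    H4num631.Lf N ((starRingEnd ℂ) z) = (starRingEnd ℂ) (L N z) := by
  unfold H4num631.Lf L
  have h1 : z.arg ≠ Real.pi := by
    intro h
    have := (Complex.arg_eq_pi_iff.mp h).2
    linarith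
  have h2 : (1 - z).arg ≠ Real.pi := by
    intro h
    have := (Complex.arg_eq_pi_iff.mp h).2
    simp at this
    linarith
  rw [map_add, map_mul, Complex.conj_ofReal, ← Complex.log_conj _ h1, ← Complex.log_conj _ h2]
  simp

theorem nn_eq (N : ℝ) : H4num631.nn N = nn N := rfl

theorem V1_eq (N : ℝ) :
    H4num631.V1 N = (starRingEnd ℂ) ((ell N (2 * nn N) : ℂ) + Real.pi * I) := by
  unfold H4num631.V1 ell
  rw [nn_eq]
  have : Real.log (1 - 2 * nn N) = Real.log (2 * nn N - 1) := by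
    rw [← Real.log_neg_eq_log]; congr 1; ring
  rw [this]
  simp
  ring

theorem leaf6b : Leaf6b := by
  intro N z hN hz h
  have hz' : 0 < z.im := hz
  have hy : ((starRingEnd ℂ) z).im < 0 := by simpa using hz'
  have hL : H4num631.Lf N ((starRingEnd ℂ) z) = H4num631.V1 N := by
    rw [L_conj N z hz', h, V1_eq]
  have main : ((starRingEnd ℂ) z).re < H4num631.nn N ∧
      0 < (H4num631.Lf N (2 * (H4num631.nn N : ℝ) - (starRingEnd ℂ) z)).im := by
    rcases hN with rfl | rfl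
    · exact H4num631.three _ hy hL
    · exact H4num631.four _ hy hL
  obtain ⟨m1, m2⟩ := main
  rw [nn_eq] at m1 m2
  refine ⟨by simpa using m1, ?_⟩
  -- `2n - conj z = conj (2n - z)`, and `2n - z` has negative imaginary part
  set w : ℂ := 2 * ((nn N : ℝ) : ℂ) - (starRingEnd ℂ) z with hw
  have hwim : 0 < w.im := by
    rw [hw]; simpa using hz'
  have e1 : 2 * ((nn N : ℝ) : ℂ) - z = (starRingEnd ℂ) w := by
    rw [hw, map_sub, map_mul, Complex.conj_conj, Complex.conj_ofReal, map_ofNat]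
  have e2 : L N w = H4num631.Lf N w := rfl
  rw [e1]
  have e3 : L N ((starRingEnd ℂ) w) = (starRingEnd ℂ) (L N w) := L_conj N w hwim
  rw [e3, e2]
  simpa using m2

end Crest.Agent.R102.H4L6b631
end

-- ▼ part R102/H4Asm_490
section

/-!
# Row 102, part (C), item [H4]: assembly (helper490)

`h4 : H4Stmt`: for real `N > 1` there is no odd real germ `G` at `s = oo` with
`Q(n + G(s)) = Q(n - G(s+1))`, `Q(y) = y ^ N (1 - y)`, `n = N/(N+1)`.
-/

namespace Crest.Agent.R102.H4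

/-- **H4** (all leaves): the one-dimensional non-embeddability theorem for `N > 1`. -/
theorem h4 : H4Stmt :=
  h4_of_leaves H4L0.leaf0
    (leaf2 H4L1a963.leaf1a (H4L1b203.leaf1b H4L1a963.leaf1a leaf1c) leaf1c)
    (leaf2b H4L1a963.leaf1a leaf1c)
    (L3.leaf3 H4L1a963.leaf1a)
    (H4L4b297.leaf4b H4L1a963.leaf1a (H4L1b203.leaf1b H4L1a963.leaf1a leaf1c) leaf1c
      (leaf4a H4L1a963.leaf1a (H4L1b203.leaf1b H4L1a963.leaf1a leaf1c) leaf1c))
    (leaf5b (leaf4a H4L1a963.leaf1a (H4L1b203.leaf1b H4L1a963.leaf1a leaf1c) leaf1c))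
    (H4L6148.leaf6 H4L1a963.leaf1a (H4L1b203.leaf1b H4L1a963.leaf1a leaf1c) leaf1c
      (leaf4a H4L1a963.leaf1a (H4L1b203.leaf1b H4L1a963.leaf1a leaf1c) leaf1c)
      H4L6a864.leaf6a H4L6b631.leaf6b H4L6c503.leaf6c)

end Crest.Agent.R102.H4
end

-- ▼ part R102/T5L6F_836
section

/-!
# Row 102, part (C), leaf T5-L6F (helper836): exclusion of the flat homogeneous germs

`NoF`: from `Flat348.flat` (`n > 1`, `n ≠ 2`) and `H4.h4` (`1/2 < n < 1`), by the flip
`n → 1 - n`, `ϱ → -ϱ`.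
-/

set_option autoImplicit false

open Set Filter Topology Metric
open scoped ComplexConjugate

noncomputable section

namespace Crest.Agent.R102.T5L6F836

open Crest.Agent.R102.T5R

/-! ### Algebra of `a_n` -/

lemma aN_zero (n : ℝ) : aN n 0 = n := by simp [aN]

lemma aN_of_ne (n : ℝ) {r : ℂ} (h : r ≠ 0) :
    aN n r = (Complex.exp (n * r) - 1) / (Complex.exp r - 1) := by simp [aN, h]

/-- `a_n(-r) = e^{(1-n) r} a_n(r)` -/
lemma aN_neg (n : ℝ) (r : ℂ) : aN n (-r) = Complex.exp ((1 - n) * r) * aN n r := by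
  by_cases h : r = 0
  · subst h; simp [aN]
  rw [aN_of_ne n h, aN_of_ne n (neg_ne_zero.2 h)]
  by_cases h1 : Complex.exp r = 1
  · rw [Complex.exp_neg, h1]; simp
  have h2 : Complex.exp r - 1 ≠ 0 := sub_ne_zero.2 h1
  have h3 : Complex.exp (-r) - 1 ≠ 0 := by
    rw [Complex.exp_neg]
    intro h3
    apply h1
    rw [sub_eq_zero, inv_eq_one] at h3
    exact h3
  have e1 : (n : ℂ) * -r = -(n * r) := by ring
  have e2 : (1 - (n : ℂ)) * r = r - n * r := by ring
  rw [e1, e2, Complex.exp_sub, Complex.exp_neg, Complex.exp_neg]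
  have h4 := Complex.exp_ne_zero r
  have h5 := Complex.exp_ne_zero ((n : ℂ) * r)
  have h6 : 1 - Complex.exp r ≠ 0 := by
    intro h; apply h2; linear_combination -h
  have h7 : (Complex.exp r)⁻¹ - 1 = (1 - Complex.exp r) / Complex.exp r := by
    field_simp
  have h8 : (Complex.exp ((n : ℂ) * r))⁻¹ - 1 =
      (1 - Complex.exp ((n : ℂ) * r)) / Complex.exp ((n : ℂ) * r) := by
    field_simp
  have h9 : Complex.exp r - 1 = -(1 - Complex.exp r) := by ring
  rw [h7, h8, h9]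
  field_simp
  ring

/-- `a_{1-n}(-r) = 1 - a_n(r)` -/
lemma aN_flip (n : ℝ) {r : ℂ} (h : r ≠ 0 → Complex.exp r ≠ 1) :
    aN (1 - n) (-r) = 1 - aN n r := by
  by_cases h0 : r = 0
  · subst h0; simp [aN]
  rw [aN_of_ne n h0, aN_of_ne _ (neg_ne_zero.2 h0)]
  have h1 := h h0
  have h2 : Complex.exp r - 1 ≠ 0 := sub_ne_zero.2 h1
  have e1 : (((1 - n : ℝ) : ℂ)) * -r = n * r - r := by push_cast; ring
  rw [e1, Complex.exp_sub, Complex.exp_neg]
  have h4 := Complex.exp_ne_zero r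
  have h6 : 1 - Complex.exp r ≠ 0 := by
    intro h; apply h2; linear_combination -h
  field_simp
  ring

lemma aN_conj (n : ℝ) (r : ℂ) : aN n (conj r) = conj (aN n r) := by
  by_cases h : r = 0
  · subst h; simp [aN]
  · have h' : conj r ≠ 0 := by simpa using h
    rw [aN_of_ne n h, aN_of_ne n h']
    simp [← Complex.exp_conj]

lemma exp_ne_near : ∀ᶠ r in 𝓝 (0 : ℂ), r ≠ 0 → Complex.exp r ≠ 1 := by
  have h := (Complex.hasDerivAt_exp 0).eventually_ne (c := 1) (by simp)
  rwa [eventually_nhdsWithin_iff] at h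

/-- the divided difference of `exp` -/
lemma an_phi : AnalyticAt ℂ (dslope Complex.exp 0) 0 := by
  obtain ⟨p, hp⟩ : AnalyticAt ℂ Complex.exp 0 := analyticAt_cexp
  exact ⟨_, hp.has_fpower_series_dslope_fslope⟩

lemma aN_eq_phi (n : ℝ) :
    ∀ᶠ r in 𝓝 (0 : ℂ), aN n r = n * dslope Complex.exp 0 (n * r) / dslope Complex.exp 0 r := by
  filter_upwards [exp_ne_near] with r hr
  by_cases h : r = 0
  · subst h; simp [aN, dslope_same]
  rw [aN_of_ne n h, dslope_of_ne _ h]
  by_cases hn : n = 0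
  · subst hn; simp
  have h1 : (n : ℂ) * r ≠ 0 := mul_ne_zero (by exact_mod_cast hn) h
  rw [dslope_of_ne _ h1, slope_def_field, slope_def_field]
  have h2 := sub_ne_zero.2 (hr h)
  have h3 : (n : ℂ) ≠ 0 := by exact_mod_cast hn
  simp only [sub_zero, Complex.exp_zero]
  field_simp

lemma aN_an (n : ℝ) : AnalyticAt ℂ (aN n) 0 := by
  have h1 : AnalyticAt ℂ (fun r : ℂ => (n : ℂ) * dslope Complex.exp 0 (n * r) /
      dslope Complex.exp 0 r) 0 := by
    refine AnalyticAt.div (analyticAt_const.mul ?_) an_phi ?_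
    · refine AnalyticAt.fun_comp (g := dslope Complex.exp 0) (f := fun r : ℂ => (n : ℂ) * r) ?_ ?_
      · simpa using an_phi
      · fun_prop
    · simp [dslope_same]
  exact h1.congr ((aN_eq_phi n).mono fun r hr => hr.symm)

lemma aN_deriv (n : ℝ) : deriv (aN n) 0 = n * (n - 1) / 2 := by
  have h0 : HasDerivAt (aN n) (deriv (aN n) 0) 0 := (aN_an n).differentiableAt.hasDerivAt
  have h1 : HasDerivAt (fun r : ℂ => aN n (-r)) (deriv (aN n) 0 * (-1)) 0 := by
    have h0' : HasDerivAt (aN n) (deriv (aN n) 0) (-0) := by simpa using h0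
    exact h0'.comp (0 : ℂ) (hasDerivAt_neg 0)
  have h2 : HasDerivAt (fun r : ℂ => Complex.exp ((1 - n) * r) * aN n r)
      ((Complex.exp ((1 - n) * 0) * ((1 - n) * 1)) * aN n 0 +
        Complex.exp ((1 - n) * 0) * deriv (aN n) 0) 0 :=
    (((hasDerivAt_id (0 : ℂ)).const_mul (1 - (n : ℂ))).cexp).mul h0
  have h3 : (fun r : ℂ => aN n (-r)) = fun r : ℂ => Complex.exp ((1 - n) * r) * aN n r :=
    funext fun r => aN_neg n r
  rw [h3] at h1
  have h4 := h1.unique h2
  rw [aN_zero] at h4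
  simp only [mul_zero, Complex.exp_zero, one_mul, mul_one] at h4
  linear_combination (-1 / 2) * h4

/-- `log (e^w z) = w + log z` for `w` near `0` and `z` near a positive real -/
lemma log_mul {l : Filter ℂ} {w z : ℂ → ℂ} {x : ℝ} (hx : 0 < x) (hw : Tendsto w l (𝓝 0))
    (hz : Tendsto z l (𝓝 (x : ℂ))) :
    ∀ᶠ r in l, Complex.log (Complex.exp (w r) * z r) = w r + Complex.log (z r) := by
  have h1 : Tendsto (fun r => (w r + Complex.log (z r)).im) l (𝓝 0) := by
    have h2 : Tendsto (fun r => w r + Complex.log (z r)) l (𝓝 (0 + Complex.log (x : ℂ))) :=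
      hw.add (((continuousAt_clog (Or.inl (by simpa using hx))).tendsto).comp hz)
    have h3 := (Complex.continuous_im.tendsto _).comp h2
    have h4 : (0 + Complex.log (x : ℂ)).im = 0 := by
      rw [zero_add, Complex.log_im, Complex.arg_ofReal_of_nonneg hx.le]
    rw [h4] at h3
    exact h3
  have h5 : ∀ᶠ r in l, z r ≠ 0 := hz.eventually_ne (by exact_mod_cast hx.ne')
  have hpi := Real.pi_pos
  filter_upwards [h1.eventually (gt_mem_nhds hpi), h1.eventually (lt_mem_nhds (neg_lt_zero.2 hpi)), h5]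
    with r h6 h7 h8
  rw [← Complex.log_exp h7 h6.le, Complex.exp_add, Complex.exp_log h8]

/-! ### Flip -/

lemma flip {n p : ℝ} {ϱ : ℂ → ℂ} (h : HF n p ϱ) : HF (1 - n) (-p) (fun u => -ϱ u) where
  an := h.an.neg
  zero := by simp [h.zero]
  der := by
    have := h.an.differentiableAt.hasDerivAt.neg.deriv
    simp only [Pi.neg_def] at this
    simpa [h.der] using this
  odd := by filter_upwards [h.odd] with u hu; rw [hu]
  real := by filter_upwards [h.real] with u hu; rw [hu]; simp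
  law := by
    have hc : Tendsto ϱ (𝓝 0) (𝓝 0) := by
      have := h.an.continuousAt.tendsto; rwa [h.zero] at this
    have hm : Tendsto (fun u : ℂ => u / (1 + u)) (𝓝 0) (𝓝 0) := by
      have : ContinuousAt (fun u : ℂ => u / (1 + u)) 0 := by
        apply ContinuousAt.div continuousAt_id (by fun_prop) (by simp)
      simpa [ContinuousAt] using this
    have h1 : ∀ᶠ u in 𝓝 (0 : ℂ), ϱ (u / (1 + u)) ≠ 0 → Complex.exp (ϱ (u / (1 + u))) ≠ 1 :=
      (hc.comp hm).eventually exp_ne_near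
    have h2 : ∀ᶠ u in 𝓝 (0 : ℂ), -ϱ u ≠ 0 → Complex.exp (-ϱ u) ≠ 1 := by
      have : Tendsto (fun u => -ϱ u) (𝓝 0) (𝓝 0) := by simpa using hc.neg
      exact this.eventually exp_ne_near
    filter_upwards [h.law, h1, h2] with u hu h1 h2
    rw [aN_flip n h1, aN_flip n h2]
    push_cast
    linear_combination -hu

/-! ### The centred germ -/

/-- `F(t) = a_n(ϱ(t/(1+t/2))) - n` -/
def FF (n : ℝ) (ϱ : ℂ → ℂ) (t : ℂ) : ℂ := aN n (ϱ (t / (1 + t / 2))) - n

lemma hh_an (a : ℂ) : AnalyticAt ℂ (fun t : ℂ => t / (1 + a * t)) 0 := by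
  refine AnalyticAt.div analyticAt_id (by fun_prop) (by simp)

lemma hh_tendsto (a : ℂ) : Tendsto (fun t : ℂ => t / (1 + a * t)) (𝓝 0) (𝓝 0) := by
  simpa using (hh_an a).continuousAt.tendsto

lemma hh_deriv (a : ℂ) : HasDerivAt (fun t : ℂ => t / (1 + a * t)) 1 0 := by
  have h1 : HasDerivAt (fun t : ℂ => 1 + a * t) (a * 1) 0 :=
    ((hasDerivAt_id (0 : ℂ)).const_mul a).const_add 1
  have h2 := (hasDerivAt_id' (0 : ℂ)).fun_div h1 (by simp)
  simpa using h2

variable {n p : ℝ} {ϱ : ℂ → ℂ}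

lemma ff_half (h : HF n p ϱ) : AnalyticAt ℂ (fun t : ℂ => ϱ (t / (1 + t / 2))) 0 := by
  have h1 : (fun t : ℂ => ϱ (t / (1 + t / 2))) = ϱ ∘ fun t : ℂ => t / (1 + (1 / 2) * t) := by
    funext t; simp only [Function.comp]; congr 2; ring
  rw [h1]
  refine AnalyticAt.comp ?_ (hh_an _)
  simpa using h.an

lemma ff_half_tendsto (h : HF n p ϱ) : Tendsto (fun t : ℂ => ϱ (t / (1 + t / 2))) (𝓝 0) (𝓝 0) := by
  have := (ff_half h).continuousAt.tendsto
  simpa [h.zero] using this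

lemma ff_half_deriv (h : HF n p ϱ) : HasDerivAt (fun t : ℂ => ϱ (t / (1 + t / 2))) p 0 := by
  have h1 : (fun t : ℂ => ϱ (t / (1 + t / 2))) = ϱ ∘ fun t : ℂ => t / (1 + (1 / 2) * t) := by
    funext t; simp only [Function.comp]; congr 2; ring
  rw [h1]
  have h2 : HasDerivAt ϱ p (0 / (1 + (1 / 2) * 0)) := by
    have := h.an.differentiableAt.hasDerivAt
    rw [h.der] at this
    simpa using this
  have h3 := h2.comp (0 : ℂ) (hh_deriv (1 / 2))
  simpa using h3

lemma ff_an (h : HF n p ϱ) : AnalyticAt ℂ (FF n ϱ) 0 := by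
  refine AnalyticAt.sub ?_ analyticAt_const
  refine AnalyticAt.fun_comp (g := aN n) ?_ (ff_half h)
  simpa [h.zero] using aN_an n

lemma ff_deriv (h : HF n p ϱ) : deriv (FF n ϱ) 0 = n * (n - 1) / 2 * p := by
  have h1 : HasDerivAt (aN n) (n * (n - 1) / 2) (ϱ (0 / (1 + 0 / 2))) := by
    have := (aN_an n).differentiableAt.hasDerivAt
    rw [aN_deriv] at this
    simpa [h.zero] using this
  exact ((h1.comp (0 : ℂ) (ff_half_deriv h)).sub_const (n : ℂ)).deriv

lemma ff_odd (h : HF n p ϱ) : ∀ᶠ t in 𝓝 (0 : ℂ), FF n ϱ (-t) = -FF n ϱ t := by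
  have ht := hh_tendsto (-(1 / 2))
  have hs : ∀ᶠ t in 𝓝 (0 : ℂ), ‖t‖ < 1 := by
    have := Metric.ball_mem_nhds (0 : ℂ) one_pos
    filter_upwards [this] with t ht
    simpa using ht
  filter_upwards [ht.eventually h.law, ht.eventually h.odd, hs] with t h1 h2 h3
  have h4 : 1 - t / 2 ≠ 0 := by
    intro h4
    have : t = 2 := by linear_combination (-2) * h4
    rw [this] at h3; norm_num at h3
  have h5 : 1 + t / 2 ≠ 0 := by
    intro h4
    have : t = -2 := by linear_combination (2) * h4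
    rw [this] at h3; norm_num at h3
  have e1 : t / (1 + -(1 / 2) * t) / (1 + t / (1 + -(1 / 2) * t)) = t / (1 + t / 2) := by
    have h6 : 1 + -(1 / 2) * t ≠ 0 := by
      intro h6; apply h4; linear_combination h6
    rw [div_div, mul_add, mul_div_cancel₀ _ h6]
    congr 1
    ring
  have e2 : -(t / (1 + -(1 / 2) * t)) = (-t) / (1 + (-t) / 2) := by
    rw [neg_div]; congr 2; ring
  rw [e1, ← h2, e2] at h1
  unfold FF
  linear_combination h1

lemma ff_real (h : HF n p ϱ) :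
    ∀ᶠ t in 𝓝 (0 : ℂ), FF n ϱ ((starRingEnd ℂ) t) = (starRingEnd ℂ) (FF n ϱ t) := by
  have ht : Tendsto (fun t : ℂ => t / (1 + t / 2)) (𝓝 0) (𝓝 0) := by
    have := hh_tendsto (1 / 2)
    refine this.congr fun t => ?_
    congr 2; ring
  filter_upwards [ht.eventually h.real] with t h1
  unfold FF
  have e : (starRingEnd ℂ) t / (1 + (starRingEnd ℂ) t / 2) = (starRingEnd ℂ) (t / (1 + t / 2)) := by
    rw [map_div₀, map_add, map_div₀, map_one, map_ofNat]
  rw [e, h1, aN_conj]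
  simp

lemma ff_eq1 (n : ℝ) (ϱ : ℂ → ℂ) (t : ℂ) : (n : ℂ) + FF n ϱ t = aN n (ϱ (t / (1 + t / 2))) := by
  unfold FF; ring

lemma ff_eq2 (h : HF n p ϱ) :
    ∀ᶠ t in 𝓝 (0 : ℂ), (n : ℂ) - FF n ϱ (t / (1 + t)) = aN n (-ϱ (t / (1 + t / 2))) := by
  have ht : Tendsto (fun t : ℂ => t / (1 + t / 2)) (𝓝 0) (𝓝 0) := by
    have := hh_tendsto (1 / 2)
    refine this.congr fun t => ?_
    congr 2; ring
  have hs : ∀ᶠ t in 𝓝 (0 : ℂ), ‖t‖ < 1 / 2 := by
    have := Metric.ball_mem_nhds (0 : ℂ) (by norm_num : (0 : ℝ) < 1 / 2)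
    filter_upwards [this] with t ht
    simpa using ht
  filter_upwards [ht.eventually h.law, hs] with t h1 h3
  have h4 : 1 + t ≠ 0 := by
    intro h4
    have : t = -1 := by linear_combination h4
    rw [this] at h3; norm_num at h3
  have h5 : 1 + t / 2 ≠ 0 := by
    intro h4
    have : t = -2 := by linear_combination (2) * h4
    rw [this] at h3; norm_num at h3
  have e1 : t / (1 + t / 2) / (1 + t / (1 + t / 2)) = t / (1 + 3 / 2 * t) := by
    rw [div_div, mul_add, mul_div_cancel₀ _ h5]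
    congr 1
    ring
  have e2 : t / (1 + t) / (1 + t / (1 + t) / 2) = t / (1 + 3 / 2 * t) := by
    have e3 : t / (1 + t) / 2 = (t / 2) / (1 + t) := by ring
    rw [e3, div_div, mul_add, mul_div_cancel₀ _ h4]
    congr 1
    ring
  rw [e1] at h1
  unfold FF
  rw [e2]
  linear_combination -h1

/-! ### The two exclusions -/

lemma aN_tendsto (n : ℝ) : Tendsto (aN n) (𝓝 0) (𝓝 (n : ℂ)) := by
  have := (aN_an n).continuousAt.tendsto
  rwa [aN_zero] at this

lemma lin_tendsto (a : ℂ) : Tendsto (fun r : ℂ => a * r) (𝓝 0) (𝓝 0) := by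
  have : ContinuousAt (fun r : ℂ => a * r) 0 := by fun_prop
  simpa [ContinuousAt] using this

/-- `1 - a(-r) = e^{-n r} (1 - a(r))` -/
lemma one_sub (n : ℝ) {r : ℂ} (h : r ≠ 0 → Complex.exp r ≠ 1) :
    1 - aN n (-r) = Complex.exp (-n * r) * (1 - aN n r) := by
  by_cases h0 : r = 0
  · subst h0; simp [aN]
  rw [aN_of_ne n h0, aN_of_ne _ (neg_ne_zero.2 h0)]
  have h1 := h h0
  have h2 : Complex.exp r - 1 ≠ 0 := sub_ne_zero.2 h1
  have e1 : (n : ℂ) * -r = -(n * r) := by ring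
  have e2 : -(n : ℂ) * r = -(n * r) := by ring
  rw [e1, e2, Complex.exp_neg, Complex.exp_neg]
  have h4 := Complex.exp_ne_zero r
  have h5 := Complex.exp_ne_zero ((n : ℂ) * r)
  have h6 : 1 - Complex.exp r ≠ 0 := by
    intro h; apply h2; linear_combination -h
  field_simp
  ring

/-- `1 - 1/a(-r) = e^{-r} (1 - 1/a(r))` when `a(r) ≠ 0` -/
lemma one_sub_inv (n : ℝ) {r : ℂ} (h : r ≠ 0 → Complex.exp r ≠ 1) (ha : aN n r ≠ 0) :
    1 - 1 / aN n (-r) = Complex.exp (-r) * (1 - 1 / aN n r) := by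
  have h1 := one_sub n h
  have h2 := aN_neg n r
  have e1 : Complex.exp (-n * r) = Complex.exp (-r) * Complex.exp ((1 - n) * r) := by
    rw [← Complex.exp_add]; congr 1; ring
  have h3 := Complex.exp_ne_zero ((1 - n) * r)
  have h4 : aN n (-r) ≠ 0 := by rw [h2]; exact mul_ne_zero h3 ha
  rw [h2] at h4 h1 ⊢
  rw [e1] at h1
  have h5 : 1 - 1 / (Complex.exp ((1 - n) * r) * aN n r) =
      -(1 - Complex.exp ((1 - n) * r) * aN n r) / (Complex.exp ((1 - n) * r) * aN n r) := by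
    field_simp
    ring
  rw [h5, h1]
  field_simp
  ring

lemma noF_big (hn : 1 < n) (hn2 : n ≠ 2) (hp : 0 < p) : ¬ HF n p ϱ := by
  intro h
  have hN : 0 < 1 / (n - 1) := by
    apply div_pos one_pos; linarith
  have hN1 : 1 / (n - 1) ≠ 1 := by
    intro h1
    rw [div_eq_one_iff_eq (by linarith : n - 1 ≠ 0)] at h1
    apply hn2; linarith
  have hnf : Flat348.nf (1 / (n - 1)) = n := by
    unfold Flat348.nf; rw [one_div_one_div]; ring
  have hLam : ∀ᶠ r in 𝓝 (0 : ℂ),
      Flat348.Lam (1 / (n - 1)) (aN n r) = Flat348.Lam (1 / (n - 1)) (aN n (-r)) := by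
    have hn0 : 0 < n := by linarith
    have hl1 := log_mul hn0 (lin_tendsto (1 - (n : ℂ))) (aN_tendsto n)
    have hx : 0 < 1 - 1 / n := by
      have : 1 / n < 1 := by rw [div_lt_one hn0]; exact hn
      linarith
    have ht : Tendsto (fun r => 1 - 1 / aN n r) (𝓝 0) (𝓝 ((1 - 1 / n : ℝ) : ℂ)) := by
      have : Tendsto (fun r => 1 - 1 / aN n r) (𝓝 0) (𝓝 (1 - 1 / (n : ℂ))) :=
        tendsto_const_nhds.sub (tendsto_const_nhds.div (aN_tendsto n) (by exact_mod_cast hn0.ne'))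
      simpa using this
    have hw : Tendsto (fun r : ℂ => -r) (𝓝 0) (𝓝 0) := by
      simpa using lin_tendsto (-1)
    have hl2 := log_mul hx hw ht
    have h0 : ∀ᶠ r in 𝓝 (0 : ℂ), aN n r ≠ 0 :=
      (aN_tendsto n).eventually_ne (by exact_mod_cast hn0.ne')
    filter_upwards [hl1, hl2, h0, exp_ne_near] with r h1 h2 h3 h4
    unfold Flat348.Lam
    rw [one_sub_inv n h4 h3, h2, aN_neg, h1]
    have h5 : (n : ℂ) - 1 ≠ 0 := by
      intro h5
      have : (n : ℂ) = 1 := by linear_combination h5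
      have : n = 1 := by exact_mod_cast this
      linarith
    push_cast
    field_simp
    ring
  refine Flat348.flat hN hN1 (ff_an h) (ff_odd h) (ff_real h) (κ := n * (n - 1) / 2 * p) ?_ ?_ ?_
  · have : 0 < n * (n - 1) := mul_pos (by linarith) (by linarith)
    positivity
  · rw [ff_deriv h]; push_cast; ring
  · rw [hnf]
    filter_upwards [ff_eq2 h, (ff_half_tendsto h).eventually hLam] with t h1 h2
    rw [ff_eq1, h1, h2]

lemma noF_mid (h4 : H4.H4Stmt) (hn : 1 / 2 < n) (hn1 : n < 1) (hp : 0 < p) : ¬ HF n p ϱ := by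
  intro h
  have hN : 1 < n / (1 - n) := by
    rw [lt_div_iff₀ (by linarith)]; linarith
  have hnn : H4.nn (n / (1 - n)) = n := by
    unfold H4.nn
    have : 1 - n ≠ 0 := by linarith
    field_simp
    ring
  have hL : ∀ᶠ r in 𝓝 (0 : ℂ),
      H4.L (n / (1 - n)) (aN n r) = H4.L (n / (1 - n)) (aN n (-r)) := by
    have hn0 : 0 < n := by linarith
    have hl1 := log_mul hn0 (lin_tendsto (1 - (n : ℂ))) (aN_tendsto n)
    have hx : 0 < 1 - n := by linarith
    have ht : Tendsto (fun r => 1 - aN n r) (𝓝 0) (𝓝 ((1 - n : ℝ) : ℂ)) := by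
      have : Tendsto (fun r => 1 - aN n r) (𝓝 0) (𝓝 (1 - (n : ℂ))) :=
        tendsto_const_nhds.sub (aN_tendsto n)
      simpa using this
    have hl2 := log_mul hx (lin_tendsto (-(n : ℂ))) ht
    filter_upwards [hl1, hl2, exp_ne_near] with r h1 h2 h4
    unfold H4.L
    rw [one_sub n h4, h2, aN_neg, h1]
    have h5 : 1 - (n : ℂ) ≠ 0 := by
      intro h5
      have : (n : ℂ) = 1 := by linear_combination -h5
      have : n = 1 := by exact_mod_cast this
      linarith
    push_cast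
    field_simp
    ring
  refine h4 (n / (1 - n)) (FF n ϱ) ⟨hN, ff_an h, ff_odd h, ff_real h, ?_, ?_⟩
  · refine ⟨n * (1 - n) / 2 * p, ?_, ?_⟩
    · have : 0 < n * (1 - n) := mul_pos (by linarith) (by linarith)
      positivity
    · rw [ff_deriv h]; push_cast; ring
  · rw [hnn]
    filter_upwards [ff_eq2 h, (ff_half_tendsto h).eventually hL] with t h1 h2
    rw [ff_eq1, h1, h2]

/-- `NoF` from `H4` -/
theorem noF_of (h4 : H4.H4Stmt) : NoF := by
  intro c ϱ hc h0 h1 h12 h2 h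
  rcases lt_or_gt_of_ne h12 with hlt | hgt
  · have hd : 0 < 1 - 2 * c := by linarith
    refine noF_big ?_ ?_ hd h
    · rw [lt_div_iff₀ hd]; linarith
    · intro h3
      rw [div_eq_iff hd.ne'] at h3
      apply h0; linarith
  · have hd : 0 < 2 * c - 1 := by linarith
    have hf := flip h
    have e1 : 1 - (2 - c) / (1 - 2 * c) = (1 + c) / (2 * c - 1) := by
      have h3 : 1 - 2 * c ≠ 0 := by linarith
      have h4 : 2 * c - 1 ≠ 0 := hd.ne'
      field_simp
      ring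
    have e2 : -(1 - 2 * c) = 2 * c - 1 := by ring
    rw [e1, e2] at hf
    rcases lt_or_gt_of_ne h2 with hlt2 | hgt2
    · refine noF_big ?_ ?_ hd hf
      · rw [lt_div_iff₀ hd]; linarith
      · intro h3
        rw [div_eq_iff hd.ne'] at h3
        apply h1; linarith
    · refine noF_mid h4 ?_ ?_ hd hf
      · rw [lt_div_iff₀ hd]; linarith
      · rw [div_lt_iff₀ hd]; linarith

/-- **L6F** -/
theorem noF : NoF := noF_of H4.h4

end Crest.Agent.R102.T5L6F836
end
end

-- ▼ part R102/IsoNeg1_486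
section

/-!
# Row 102, part (C), T5: the isotropic end at a circular point (`m > 3`, `n = -N < -1`), part 1
(helper486; paper: helper160 #24389).

`J z = (e^z - 1)/z`; uniformisation of the correspondence `h(x) = h(p)`,
`h(x) = N/(N+1) x - log(1 + N e^x)`: `x = Ap τ`, `p = - Am τ`, `Ap τ = N τ + μ τ`,
`Am τ = τ - μ τ`, `μ τ = log J(-Nτ) - log J(-τ)`.
-/

open Complex Set Filter Topology

noncomputable section

namespace Crest.Agent.R102.IsoNeg486

/-- `LJ N y = N/(N+1) log y - log (1+y)` -/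
def LJ (N : ℝ) (y : ℂ) : ℂ := ((N / (N + 1) : ℝ) : ℂ) * Complex.log y - Complex.log (1 + y)

/-- the input germ -/
structure GermJ (N : ℝ) (F : ℂ → ℂ) : Prop where
  hN : 1 < N
  an : AnalyticAt ℂ F 0
  odd : ∀ᶠ t in 𝓝 (0 : ℂ), F (-t) = -F t
  real : ∀ᶠ t in 𝓝 (0 : ℂ), F ((starRingEnd ℂ) t) = (starRingEnd ℂ) (F t)
  der : ∃ g : ℝ, 0 < g ∧ deriv F 0 = (g : ℂ)
  eq : ∀ᶠ t in 𝓝 (0 : ℂ),
    LJ N ((N : ℂ) * Complex.exp (F t)) = LJ N ((N : ℂ) * Complex.exp (-F (t / (1 + t))))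

/-- `(e^z - 1)/z` -/
def J (z : ℂ) : ℂ := dslope Complex.exp 0 z

theorem J_zero : J 0 = 1 := by
  unfold J
  rw [dslope_same, Complex.deriv_exp, Complex.exp_zero]

theorem mul_J (z : ℂ) : z * J z = Complex.exp z - 1 := by
  have h := sub_smul_dslope Complex.exp 0 z
  simpa [J, smul_eq_mul] using h

theorem J_of_ne {z : ℂ} (hz : z ≠ 0) : J z = (Complex.exp z - 1) / z := by
  rw [eq_div_iff hz, mul_comm, mul_J]

theorem J_diff : Differentiable ℂ J := by
  have h := (Complex.differentiableOn_dslope (f := Complex.exp) (c := (0 : ℂ)) (s := univ)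
    univ_mem).2 Complex.differentiable_exp.differentiableOn
  exact differentiableOn_univ.1 h

theorem J_cont : Continuous J := J_diff.continuous

theorem J_an (z : ℂ) : AnalyticAt ℂ J z := J_diff.analyticAt z

theorem J_conj (z : ℂ) : J ((starRingEnd ℂ) z) = (starRingEnd ℂ) (J z) := by
  by_cases hz : z = 0
  · subst hz
    rw [map_zero, J_zero, map_one]
  · have hz' : (starRingEnd ℂ) z ≠ 0 := by simpa using hz
    rw [J_of_ne hz, J_of_ne hz', map_div₀, map_sub, map_one, Complex.exp_conj]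

/-- positivity of the imaginary part in the left half strip -/
theorem J_im_pos {z : ℂ} (hr : z.re ≤ 0) (h0 : 0 < z.im) (h1 : z.im < 2 * Real.pi) :
    0 < (J z).im := by
  have hz : z ≠ 0 := by
    rintro rfl; simp at h0
  have hn : 0 < normSq z := normSq_pos.2 hz
  rw [J_of_ne hz, div_im, ← sub_div]
  refine div_pos ?_ hn
  rw [sub_re, sub_im, one_re, one_im, sub_zero, exp_re, exp_im]
  set x := z.re with hx
  set y := z.im with hy
  have hcos : Real.cos y < 1 := by
    rcases eq_or_lt_of_le (Real.cos_le_one y) with h | h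
    · exfalso
      rw [Real.cos_eq_one_iff_of_lt_of_lt (by linarith [Real.pi_pos]) h1] at h
      exact h0.ne' h
    · exact h
  have hsin : -x * Real.sin y ≤ -x * y :=
    mul_le_mul_of_nonneg_left (Real.sin_le h0.le) (by linarith)
  have h2 : y * Real.cos y - x * Real.sin y < y * (1 - x) := by
    have : y * Real.cos y < y * 1 := mul_lt_mul_of_pos_left hcos h0
    nlinarith
  have h3 : 1 - x ≤ Real.exp (-x) := by linarith [Real.add_one_le_exp (-x)]
  have h4 : Real.exp x * (y * Real.cos y - x * Real.sin y) < y := by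
    calc Real.exp x * (y * Real.cos y - x * Real.sin y)
        < Real.exp x * (y * (1 - x)) := mul_lt_mul_of_pos_left h2 (Real.exp_pos _)
      _ ≤ Real.exp x * (y * Real.exp (-x)) :=
          mul_le_mul_of_nonneg_left (mul_le_mul_of_nonneg_left h3 h0.le) (Real.exp_pos _).le
      _ = y := by rw [mul_left_comm, ← Real.exp_add]; simp
  nlinarith

theorem J_slit {z : ℂ} (hr : z.re ≤ 0) (h1 : |z.im| < 2 * Real.pi) : J z ∈ slitPlane := by
  rcases lt_trichotomy z.im 0 with h | h | h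
  · right
    have := J_im_pos (z := (starRingEnd ℂ) z) (by simpa using hr) (by simpa using h)
      (by rw [conj_im]; linarith [(abs_lt.1 h1).1])
    rw [J_conj, conj_im] at this
    intro h0
    rw [h0] at this
    simp at this
  · left
    have hz : z = (z.re : ℂ) := by
      apply Complex.ext <;> simp [h]
    rcases eq_or_lt_of_le hr with h2 | h2
    · rw [hz, h2, ofReal_zero, J_zero, one_re]; exact one_pos
    · have hne : z ≠ 0 := by
        intro h3; rw [h3] at h2; simp at h2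
      rw [J_of_ne hne, hz, ← ofReal_exp, ← ofReal_one, ← ofReal_sub, ← ofReal_div, ofReal_re]
      have : Real.exp z.re - 1 < 0 := by
        have := Real.exp_lt_exp.2 h2
        rw [Real.exp_zero] at this
        linarith
      exact div_pos_of_neg_of_neg this h2
  · right
    exact (J_im_pos hr h (abs_lt.1 h1).2).ne'

/-- `log J` -/
def lam (z : ℂ) : ℂ := Complex.log (J z)

theorem lam_an {z : ℂ} (h : J z ∈ slitPlane) : AnalyticAt ℂ lam z := (J_an z).clog h

theorem exp_lam {z : ℂ} (h : J z ∈ slitPlane) : Complex.exp (lam z) = J z :=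
  Complex.exp_log (slitPlane_ne_zero h)


theorem lam_conj {z : ℂ} (h : J z ∈ slitPlane) :
    lam ((starRingEnd ℂ) z) = (starRingEnd ℂ) (lam z) := by
  rw [lam, J_conj, Complex.log_conj _ (slitPlane_arg_ne_pi h)]
  rfl

theorem lam_hasDerivAt {z : ℂ} (hz : z ≠ 0) (h : J z ∈ slitPlane) :
    HasDerivAt lam (Complex.exp z / (Complex.exp z - 1) - 1 / z) z := by
  have h1 : Complex.exp z - 1 ≠ 0 := by
    rw [← mul_J]
    exact mul_ne_zero hz (slitPlane_ne_zero h)
  have e1 : HasDerivAt (fun z : ℂ => (Complex.exp z - 1) / z)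
      ((Complex.exp z * z - (Complex.exp z - 1) * 1) / z ^ 2) z :=
    ((Complex.hasDerivAt_exp z).sub_const 1).div (hasDerivAt_id z) hz
  have e2 : HasDerivAt J ((Complex.exp z * z - (Complex.exp z - 1) * 1) / z ^ 2) z := by
    refine e1.congr_of_eventuallyEq ?_
    filter_upwards [isOpen_ne.mem_nhds hz] with w hw
    exact J_of_ne hw
  have e3 := e2.clog h
  refine e3.congr_deriv ?_
  rw [J_of_ne hz]
  field_simp

/-! ### the two maps -/

/-- the domain on which everything is defined -/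
def D0 (N : ℝ) : Set ℂ := {τ | J (-((N : ℂ) * τ)) ∈ slitPlane ∧ J (-τ) ∈ slitPlane}

/-- `x = Ap τ` -/
def Ap (N : ℝ) (τ : ℂ) : ℂ := (N : ℂ) * τ + (lam (-((N : ℂ) * τ)) - lam (-τ))

/-- `T x = Am τ` -/
def Am (N : ℝ) (τ : ℂ) : ℂ := τ - (lam (-((N : ℂ) * τ)) - lam (-τ))

/-- closed right half strip, without the corners -/
def Tc (N : ℝ) : Set ℂ := {τ | 0 ≤ τ.re ∧ |τ.im| < 2 * Real.pi / N}

/-- open right half strip -/
def To (N : ℝ) : Set ℂ := {τ | 0 < τ.re ∧ |τ.im| < 2 * Real.pi / N}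

variable {N : ℝ}


theorem isOpen_D0 : IsOpen (D0 N) := by
  have h1 : Continuous fun τ : ℂ => J (-((N : ℂ) * τ)) := J_cont.comp (by fun_prop)
  have h2 : Continuous fun τ : ℂ => J (-τ) := J_cont.comp (by fun_prop)
  exact (isOpen_slitPlane.preimage h1).inter (isOpen_slitPlane.preimage h2)

theorem Tc_sub (hN : 1 < N) : Tc N ⊆ D0 N := by
  intro τ h
  have hN0 : 0 < N := by linarith
  have h1 : |τ.im| * N < 2 * Real.pi := (lt_div_iff₀ hN0).1 h.2
  refine ⟨J_slit ?_ ?_, J_slit ?_ ?_⟩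
  · simp only [neg_re, mul_re, ofReal_re, ofReal_im, zero_mul, sub_zero]
    have := mul_nonneg hN0.le h.1
    linarith
  · simp only [neg_im, mul_im, ofReal_re, ofReal_im, zero_mul, add_zero]
    rw [abs_neg, abs_mul, abs_of_pos hN0]
    linarith [mul_comm N |τ.im|]
  · simp only [neg_re]
    linarith [h.1]
  · rw [neg_im, abs_neg]
    have : |τ.im| * 1 ≤ |τ.im| * N := mul_le_mul_of_nonneg_left hN.le (abs_nonneg _)
    linarith

theorem Ap_add_Am (τ : ℂ) : Ap N τ + Am N τ = ((N : ℂ) + 1) * τ := by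
  unfold Ap Am; ring

theorem Ap_zero : Ap N 0 = 0 := by simp [Ap]

theorem Am_zero : Am N 0 = 0 := by simp [Am]

theorem Ap_an {τ : ℂ} (h : τ ∈ D0 N) : AnalyticAt ℂ (Ap N) τ := by
  have h1 : AnalyticAt ℂ (fun τ : ℂ => -((N : ℂ) * τ)) τ := by fun_prop
  have h2 : AnalyticAt ℂ (fun τ : ℂ => -τ) τ := by fun_prop
  have h3 : AnalyticAt ℂ (fun τ : ℂ => (N : ℂ) * τ) τ := by fun_prop
  have h4 : AnalyticAt ℂ (fun τ : ℂ => lam (-((N : ℂ) * τ))) τ :=
    AnalyticAt.comp (g := lam) (f := fun τ : ℂ => -((N : ℂ) * τ)) (lam_an h.1) h1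
  have h5 : AnalyticAt ℂ (fun τ : ℂ => lam (-τ)) τ :=
    AnalyticAt.comp (g := lam) (f := fun τ : ℂ => -τ) (lam_an h.2) h2
  exact h3.add (h4.sub h5)

theorem Am_an {τ : ℂ} (h : τ ∈ D0 N) : AnalyticAt ℂ (Am N) τ := by
  have h1 : AnalyticAt ℂ (fun τ : ℂ => -((N : ℂ) * τ)) τ := by fun_prop
  have h2 : AnalyticAt ℂ (fun τ : ℂ => -τ) τ := by fun_prop
  have h4 : AnalyticAt ℂ (fun τ : ℂ => lam (-((N : ℂ) * τ))) τ :=
    AnalyticAt.comp (g := lam) (f := fun τ : ℂ => -((N : ℂ) * τ)) (lam_an h.1) h1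
  have h5 : AnalyticAt ℂ (fun τ : ℂ => lam (-τ)) τ :=
    AnalyticAt.comp (g := lam) (f := fun τ : ℂ => -τ) (lam_an h.2) h2
  exact analyticAt_id.sub (h4.sub h5)


theorem Ap_conj {τ : ℂ} (h : τ ∈ D0 N) :
    Ap N ((starRingEnd ℂ) τ) = (starRingEnd ℂ) (Ap N τ) := by
  have h1 := lam_conj h.1
  have h2 := lam_conj h.2
  rw [map_neg, map_mul, conj_ofReal] at h1
  rw [map_neg] at h2
  unfold Ap
  rw [h1, h2, map_add, map_sub, map_mul, conj_ofReal]

theorem Am_conj {τ : ℂ} (h : τ ∈ D0 N) :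
    Am N ((starRingEnd ℂ) τ) = (starRingEnd ℂ) (Am N τ) := by
  have h1 := lam_conj h.1
  have h2 := lam_conj h.2
  rw [map_neg, map_mul, conj_ofReal] at h1
  rw [map_neg] at h2
  unfold Am
  rw [h1, h2, map_sub, map_sub]

theorem exp_Ap {τ : ℂ} (h : τ ∈ D0 N) :
    Complex.exp (Ap N τ) = Complex.exp ((N : ℂ) * τ) * (J (-((N : ℂ) * τ)) / J (-τ)) := by
  unfold Ap
  rw [Complex.exp_add, Complex.exp_sub, exp_lam h.1, exp_lam h.2]

theorem exp_neg_Am {τ : ℂ} (h : τ ∈ D0 N) :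
    Complex.exp (-(Am N τ)) = Complex.exp (-τ) * (J (-((N : ℂ) * τ)) / J (-τ)) := by
  unfold Am
  rw [show -(τ - (lam (-((N : ℂ) * τ)) - lam (-τ))) = -τ + (lam (-((N : ℂ) * τ)) - lam (-τ)) by
    ring, Complex.exp_add, Complex.exp_sub, exp_lam h.1, exp_lam h.2]

theorem exp_ne_one {τ : ℂ} (h0 : τ ≠ 0) (h : J (-τ) ∈ slitPlane) : Complex.exp τ - 1 ≠ 0 := by
  have h1 := mul_J (-τ)
  have h2 : Complex.exp (-τ) - 1 ≠ 0 := by
    rw [← h1]
    exact mul_ne_zero (neg_ne_zero.2 h0) (slitPlane_ne_zero h)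
  intro h3
  apply h2
  rw [Complex.exp_neg, sub_eq_zero.1 h3]
  simp

/-- derivative of `Ap` -/
theorem Ap_hasDerivAt (hN : 1 < N) {τ : ℂ} (h0 : τ ≠ 0) (h : τ ∈ D0 N) :
    HasDerivAt (Ap N) ((N : ℂ) + ((N : ℂ) / (Complex.exp ((N : ℂ) * τ) - 1)
      - 1 / (Complex.exp τ - 1))) τ := by
  have hN0 : (N : ℂ) ≠ 0 := by
    have : N ≠ 0 := by linarith
    exact_mod_cast this
  have e1 : HasDerivAt (fun τ : ℂ => (N : ℂ) * τ) (N : ℂ) τ := by
    simpa using (hasDerivAt_id τ).const_mul (N : ℂ)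
  have e1' : HasDerivAt (fun τ : ℂ => -((N : ℂ) * τ)) (-(N : ℂ)) τ := e1.neg
  have e2' : HasDerivAt (fun τ : ℂ => -τ) (-1) τ := hasDerivAt_neg τ
  have n1 : -((N : ℂ) * τ) ≠ 0 := neg_ne_zero.2 (mul_ne_zero hN0 h0)
  have n2 : -τ ≠ 0 := neg_ne_zero.2 h0
  have e3 := (lam_hasDerivAt n1 h.1).comp τ e1'
  have e4 := (lam_hasDerivAt n2 h.2).comp τ e2'
  have e5 := e1.add (e3.sub e4)
  have m1 : Complex.exp ((N : ℂ) * τ) - 1 ≠ 0 := exp_ne_one (mul_ne_zero hN0 h0) h.1
  have m2 : Complex.exp τ - 1 ≠ 0 := exp_ne_one h0 h.2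
  refine e5.congr_deriv ?_
  have k1 : Complex.exp (-((N : ℂ) * τ)) / (Complex.exp (-((N : ℂ) * τ)) - 1)
      = -(1 / (Complex.exp ((N : ℂ) * τ) - 1)) := by
    have h3 := Complex.exp_ne_zero ((N : ℂ) * τ)
    rw [Complex.exp_neg]
    have h4 : (Complex.exp ((N : ℂ) * τ))⁻¹ - 1 ≠ 0 := by
      intro h5
      apply m1
      have : (Complex.exp ((N : ℂ) * τ))⁻¹ = 1 := sub_eq_zero.1 h5
      rw [inv_eq_one.1 this, sub_self]
    rw [div_eq_iff h4]
    field_simp
    ring
  have k2 : Complex.exp (-τ) / (Complex.exp (-τ) - 1) = -(1 / (Complex.exp τ - 1)) := by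
    have h3 := Complex.exp_ne_zero τ
    rw [Complex.exp_neg]
    have h4 : (Complex.exp τ)⁻¹ - 1 ≠ 0 := by
      intro h5
      apply m2
      have : (Complex.exp τ)⁻¹ = 1 := sub_eq_zero.1 h5
      rw [inv_eq_one.1 this, sub_self]
    rw [div_eq_iff h4]
    field_simp
    ring
  rw [k1, k2]
  field_simp
  ring

end Crest.Agent.R102.IsoNeg486
end
end

-- ▼ part R102/IsoNeg2_486
section

/-!
# Row 102, part (C), T5: the isotropic end at a circular point, part 2: estimates (helper486)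
-/

open Complex Set Filter Topology

noncomputable section

namespace Crest.Agent.R102.IsoNeg486

variable {N : ℝ}

/-! ### real inequalities -/

theorem sin_lt' (hN : 1 < N) {x : ℝ} (h0 : 0 < x) (h1 : N * x ≤ Real.pi) :
    Real.sin (N * x) < N * Real.sin x := by
  have hN0 : 0 < N := by linarith
  have hNx : 0 < N * x := mul_pos hN0 h0
  have h := strictConcaveOn_sin_Icc.2 (show (0 : ℝ) ∈ Icc 0 Real.pi from ⟨le_refl _, Real.pi_pos.le⟩)
    (show N * x ∈ Icc 0 Real.pi from ⟨hNx.le, h1⟩) hNx.ne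
    (show 0 < 1 - 1 / N by rw [sub_pos, div_lt_one hN0]; exact hN)
    (show 0 < 1 / N by positivity) (by ring)
  simp only [smul_eq_mul, Real.sin_zero, mul_zero, zero_add] at h
  rw [show 1 / N * (N * x) = x by field_simp] at h
  have h2 : N * (1 / N * Real.sin (N * x)) < N * Real.sin x := mul_lt_mul_of_pos_left h hN0
  rwa [← mul_assoc, mul_one_div_cancel hN0.ne', one_mul] at h2

/-- squares -/
theorem sin_sq_lt (hN : 1 < N) {x : ℝ} (h0 : x ≠ 0) (h1 : N * |x| ≤ Real.pi) :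
    Real.sin (N * x) ^ 2 < N ^ 2 * Real.sin x ^ 2 := by
  have hN0 : 0 < N := by linarith
  have key : ∀ y : ℝ, 0 < y → N * y ≤ Real.pi → Real.sin (N * y) ^ 2 < N ^ 2 * Real.sin y ^ 2 := by
    intro y hy hy1
    have h2 := sin_lt' hN hy hy1
    have h3 : 0 ≤ Real.sin (N * y) :=
      Real.sin_nonneg_of_nonneg_of_le_pi (mul_pos hN0 hy).le hy1
    nlinarith
  rcases lt_or_gt_of_ne h0 with h | h
  · have := key (-x) (by linarith) (by rwa [abs_of_neg h] at h1)
    rw [show N * -x = -(N * x) by ring, Real.sin_neg, Real.sin_neg, neg_sq, neg_sq] at this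
    exact this
  · exact key x h (by rwa [abs_of_pos h] at h1)

theorem sin_sq_le (hN : 1 < N) {x : ℝ} (h1 : N * |x| ≤ Real.pi) :
    Real.sin (N * x) ^ 2 ≤ N ^ 2 * Real.sin x ^ 2 := by
  by_cases h0 : x = 0
  · subst h0; simp
  · exact (sin_sq_lt hN h0 h1).le

theorem sinh_ge (hN : 1 < N) {y : ℝ} (hy : 0 ≤ y) : N * Real.sinh y ≤ Real.sinh (N * y) := by
  have hd : ∀ y : ℝ, HasDerivAt (fun y => Real.sinh (N * y) - N * Real.sinh y)
      (Real.cosh (N * y) * N - N * Real.cosh y) y := by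
    intro y
    have e1 : HasDerivAt (fun y : ℝ => N * y) N y := by
      simpa using (hasDerivAt_id y).const_mul N
    exact e1.sinh.sub ((Real.hasDerivAt_sinh y).const_mul N)
  have hm : MonotoneOn (fun y => Real.sinh (N * y) - N * Real.sinh y) (Ici 0) := by
    refine monotoneOn_of_deriv_nonneg (convex_Ici 0)
      (fun y _ => (hd y).continuousAt.continuousWithinAt)
      (fun y _ => (hd y).differentiableAt.differentiableWithinAt) ?_
    intro y hy
    rw [interior_Ici, mem_Ioi] at hy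
    rw [(hd y).deriv]
    have : Real.cosh y ≤ Real.cosh (N * y) := by
      rw [Real.cosh_le_cosh, abs_of_pos hy, abs_of_pos (by positivity)]
      nlinarith
    nlinarith
  have := hm (show (0 : ℝ) ∈ Ici 0 from self_mem_Ici) (show y ∈ Ici 0 from hy) hy
  simp only [mul_zero, Real.sinh_zero, sub_zero] at this
  linarith

theorem tanh_le (hN : 1 < N) {y : ℝ} (hy : 0 ≤ y) :
    Real.sinh (N * y) * Real.cosh y ≤ N * (Real.cosh (N * y) * Real.sinh y) := by
  have hd : ∀ y : ℝ, HasDerivAt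
      (fun y => N * (Real.cosh (N * y) * Real.sinh y) - Real.sinh (N * y) * Real.cosh y)
      (N * ((Real.sinh (N * y) * N) * Real.sinh y + Real.cosh (N * y) * Real.cosh y) -
        ((Real.cosh (N * y) * N) * Real.cosh y + Real.sinh (N * y) * Real.sinh y)) y := by
    intro y
    have e1 : HasDerivAt (fun y : ℝ => N * y) N y := by
      simpa using (hasDerivAt_id y).const_mul N
    exact ((e1.cosh.mul (Real.hasDerivAt_sinh y)).const_mul N).sub
      (e1.sinh.mul (Real.hasDerivAt_cosh y))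
  have hm : MonotoneOn
      (fun y => N * (Real.cosh (N * y) * Real.sinh y) - Real.sinh (N * y) * Real.cosh y)
      (Ici 0) := by
    refine monotoneOn_of_deriv_nonneg (convex_Ici 0)
      (fun y _ => (hd y).continuousAt.continuousWithinAt)
      (fun y _ => (hd y).differentiableAt.differentiableWithinAt) ?_
    intro y hy
    rw [interior_Ici, mem_Ioi] at hy
    rw [(hd y).deriv]
    have h1 : 0 < Real.sinh y := Real.sinh_pos_iff.2 hy
    have h2 : 0 < Real.sinh (N * y) := Real.sinh_pos_iff.2 (by positivity)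
    have h3 : 0 < Real.sinh (N * y) * Real.sinh y := mul_pos h2 h1
    have h4 : 0 ≤ N ^ 2 - 1 := by nlinarith
    have h5 := mul_nonneg h4 h3.le
    nlinarith
  have := hm (show (0 : ℝ) ∈ Ici 0 from self_mem_Ici) (show y ∈ Ici 0 from hy) hy
  simp only [mul_zero, Real.sinh_zero, Real.cosh_zero, zero_mul, sub_zero] at this
  linarith

/-- the main real inequality -/
theorem real_main (hN : 1 < N) {s θ : ℝ} (hs : 0 < s) (hθ : N * |θ| ≤ 2 * Real.pi) :
    Real.sinh s * (Real.cosh (N * s) - Real.cos (N * θ)) ≤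
      N * Real.sinh (N * s) * (Real.cosh s - Real.cos θ) := by
  have c1 : ∀ x : ℝ, Real.cosh x = 1 + 2 * Real.sinh (x / 2) ^ 2 := by
    intro x
    have := Real.cosh_two_mul (x / 2)
    rw [show 2 * (x / 2) = x by ring] at this
    rw [this, Real.cosh_sq]; ring
  have s1 : ∀ x : ℝ, Real.sinh x = 2 * Real.sinh (x / 2) * Real.cosh (x / 2) := by
    intro x
    have := Real.sinh_two_mul (x / 2)
    rwa [show 2 * (x / 2) = x by ring] at this
  have k1 : ∀ x : ℝ, Real.cos x = 1 - 2 * Real.sin (x / 2) ^ 2 := by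
    intro x
    have := Real.cos_two_mul (x / 2)
    rw [show 2 * (x / 2) = x by ring] at this
    rw [this]
    have := Real.sin_sq_add_cos_sq (x / 2)
    linarith
  have h1 : Real.sin (N * θ / 2) ^ 2 ≤ N ^ 2 * Real.sin (θ / 2) ^ 2 := by
    rw [show N * θ / 2 = N * (θ / 2) by ring]
    refine sin_sq_le hN ?_
    rw [abs_div, abs_of_pos (show (0 : ℝ) < 2 by norm_num)]
    linarith
  have h2 := sinh_ge hN hs.le
  have h3 := tanh_le hN (show 0 ≤ s / 2 by linarith)
  have h4 : 0 < Real.sinh s := Real.sinh_pos_iff.2 hs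
  have hN0 : 0 < N := by linarith
  have h5 : 0 < Real.sinh (N * s / 2) := Real.sinh_pos_iff.2 (by positivity)
  have h6 : 0 < Real.sinh (s / 2) := Real.sinh_pos_iff.2 (by positivity)
  rw [show N * (s / 2) = N * s / 2 by ring] at h3
  -- first half
  have A : Real.sinh s * (Real.cosh (N * s) - 1) ≤
      N * Real.sinh (N * s) * (Real.cosh s - 1) := by
    rw [c1 (N * s), c1 s, s1 s, s1 (N * s)]
    have := mul_le_mul_of_nonneg_left h3 (mul_pos h5 h6).le
    nlinarith
  -- second half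
  have B : Real.sinh s * (1 - Real.cos (N * θ)) ≤ N * Real.sinh (N * s) * (1 - Real.cos θ) := by
    rw [k1 (N * θ), k1 θ]
    have h7 : 0 ≤ Real.sin (θ / 2) ^ 2 := sq_nonneg _
    have h8 : Real.sinh s * Real.sin (N * θ / 2) ^ 2 ≤
        Real.sinh s * (N ^ 2 * Real.sin (θ / 2) ^ 2) := mul_le_mul_of_nonneg_left h1 h4.le
    have h9 : N * (N * Real.sinh s) * Real.sin (θ / 2) ^ 2 ≤
        N * Real.sinh (N * s) * Real.sin (θ / 2) ^ 2 :=
      mul_le_mul_of_nonneg_right (mul_le_mul_of_nonneg_left h2 hN0.le) h7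
    nlinarith
  linarith

/-- real part of `1/(e^z-1)` -/
theorem re_inv {z : ℂ} (hx : 0 < z.re) :
    (1 / (Complex.exp z - 1)).re =
      Real.sinh z.re / (2 * (Real.cosh z.re - Real.cos z.im)) - 1 / 2 := by
  have hc : 1 < Real.cosh z.re := Real.one_lt_cosh.2 hx.ne'
  have hd : 0 < Real.cosh z.re - Real.cos z.im := by
    have := Real.cos_le_one z.im
    linarith
  rw [one_div, inv_re, normSq_apply, sub_re, sub_im, one_re, one_im, sub_zero, exp_re, exp_im]
  rw [Real.cosh_eq, Real.sinh_eq] at *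
  have hab : Real.exp z.re * Real.exp (-z.re) = 1 := by rw [← Real.exp_add]; simp
  have hsc := Real.sin_sq_add_cos_sq z.im
  set a := Real.exp z.re
  set b := Real.exp (-z.re)
  set c := Real.cos z.im
  set s := Real.sin z.im
  have ha : 0 < a := Real.exp_pos _
  have hden : (a * c - 1) * (a * c - 1) + a * s * (a * s) = 2 * a * ((a + b) / 2 - c) := by
    linear_combination a ^ 2 * hsc - hab
  rw [hden]
  obtain ⟨D, hD⟩ : ∃ D, D = (a + b) / 2 - c := ⟨_, rfl⟩
  rw [← hD] at hd ⊢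
  have h2 : D ≠ 0 := hd.ne'
  have h3 : (a - b) / 2 / (2 * D) - 1 / 2 = (c - b) / (2 * D) := by
    rw [div_sub_div _ _ (by positivity) (by norm_num), div_eq_div_iff (by positivity)
      (by positivity), hD]
    ring
  rw [h3, div_eq_div_iff (by positivity) (by positivity)]
  linear_combination (2 * D) * hab

/-! ### the derivative -/

/-- the value of the derivative of `Ap` -/
def dAp (N : ℝ) (τ : ℂ) : ℂ := (N : ℂ) + ((N : ℂ) / (Complex.exp ((N : ℂ) * τ) - 1)
      - 1 / (Complex.exp τ - 1))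

theorem dAp_re (hN : 1 < N) {τ : ℂ} (h0 : 0 < τ.re) (h1 : N * |τ.im| ≤ 2 * Real.pi) :
    (N + 1) / 2 ≤ (dAp N τ).re := by
  have hN0 : 0 < N := by linarith
  have h2 : 0 < ((N : ℂ) * τ).re := by
    rw [re_ofReal_mul]; positivity
  have e1 := re_inv h0
  have e2 := re_inv h2
  rw [re_ofReal_mul, im_ofReal_mul] at e2
  unfold dAp
  rw [div_eq_mul_one_div (N : ℂ), add_re, sub_re, re_ofReal_mul, ofReal_re, e1, e2]
  have h3 := real_main hN h0 h1
  have hc : 1 < Real.cosh τ.re := Real.one_lt_cosh.2 h0.ne'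
  have hd : 0 < Real.cosh τ.re - Real.cos τ.im := by
    have := Real.cos_le_one τ.im
    linarith
  have hc' : 1 < Real.cosh (N * τ.re) := Real.one_lt_cosh.2 (by positivity)
  have hd' : 0 < Real.cosh (N * τ.re) - Real.cos (N * τ.im) := by
    have := Real.cos_le_one (N * τ.im)
    linarith
  have h4 : Real.sinh τ.re / (2 * (Real.cosh τ.re - Real.cos τ.im)) ≤
      N * (Real.sinh (N * τ.re) / (2 * (Real.cosh (N * τ.re) - Real.cos (N * τ.im)))) := by
    rw [← mul_div_assoc, div_le_div_iff₀ (by positivity) (by positivity)]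
    nlinarith
  nlinarith

theorem slit_div {a b : ℂ} (ha : 0 < a.re) (hb : 0 < b.re) : a / b ∈ slitPlane := by
  by_contra h
  rw [mem_slitPlane_iff, not_or, not_lt, not_not] at h
  have hb0 : b ≠ 0 := by rintro rfl; simp at hb
  have h1 : a = a / b * b := by field_simp
  have h2 : a.re = (a / b).re * b.re := by
    conv_lhs => rw [h1]
    rw [mul_re, h.2, zero_mul, sub_zero]
  have h3 := mul_nonpos_of_nonpos_of_nonneg h.1 hb.le
  linarith

theorem one_sub_exp_re {w : ℂ} (h : 0 < w.re) : 0 < (1 - Complex.exp (-w)).re := by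
  rw [sub_re, one_re, exp_re, neg_re, neg_im]
  have h1 : Real.exp (-w.re) < 1 := by
    have := Real.exp_lt_exp.2 (show -w.re < 0 by linarith)
    rwa [Real.exp_zero] at this
  have h2 : Real.exp (-w.re) * Real.cos (-w.im) ≤ Real.exp (-w.re) * 1 :=
    mul_le_mul_of_nonneg_left (Real.cos_le_one _) (Real.exp_pos _).le
  linarith

theorem J_neg {w : ℂ} (h : w ≠ 0) : J (-w) = (1 - Complex.exp (-w)) / w := by
  rw [J_of_ne (neg_ne_zero.2 h)]
  field_simp
  ring

theorem ne_of_re {w : ℂ} (h : 0 < w.re) : w ≠ 0 := by rintro rfl; simp at h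

theorem J_neg_slit {w : ℂ} (h : 0 < w.re) : J (-w) ∈ slitPlane := by
  rw [J_neg (ne_of_re h)]
  exact slit_div (one_sub_exp_re h) h

theorem mul_re_pos (hN : 1 < N) {τ : ℂ} (h : 0 < τ.re) : 0 < ((N : ℂ) * τ).re := by
  rw [re_ofReal_mul]
  have : 0 < N := by linarith
  positivity

theorem D0_of_pos (hN : 1 < N) {τ : ℂ} (h : 0 < τ.re) : τ ∈ D0 N :=
  ⟨J_neg_slit (mul_re_pos hN h), J_neg_slit h⟩

theorem lam_neg {w : ℂ} (h : 0 < w.re) :
    lam (-w) = Complex.log (1 - Complex.exp (-w)) - Complex.log w := by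
  have h1 := one_sub_exp_re h
  have a1 : |(1 - Complex.exp (-w)).arg| < Real.pi / 2 :=
    Complex.abs_arg_lt_pi_div_two_iff.2 (Or.inl h1)
  have a2 : |w.arg| < Real.pi / 2 := Complex.abs_arg_lt_pi_div_two_iff.2 (Or.inl h)
  rw [abs_lt] at a1 a2
  have e : J (-w) = Complex.exp (Complex.log (1 - Complex.exp (-w)) - Complex.log w) := by
    rw [Complex.exp_sub, Complex.exp_log (ne_of_re h1), Complex.exp_log (ne_of_re h),
      J_neg (ne_of_re h)]
  rw [lam, e, Complex.log_exp]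
  · rw [sub_im, log_im, log_im]; linarith
  · rw [sub_im, log_im, log_im]; linarith

theorem mu_formula (hN : 1 < N) {τ : ℂ} (h : 0 < τ.re) :
    lam (-((N : ℂ) * τ)) - lam (-τ) =
      Complex.log (1 - Complex.exp (-((N : ℂ) * τ))) - Complex.log (1 - Complex.exp (-τ))
        - (Real.log N : ℂ) := by
  rw [lam_neg (mul_re_pos hN h), lam_neg h,
    Complex.log_ofReal_mul (show 0 < N by linarith) (ne_of_re h)]
  ring

theorem mu_im_lt (hN : 1 < N) {τ : ℂ} (h : 0 < τ.re) :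
    |(lam (-((N : ℂ) * τ)) - lam (-τ)).im| < Real.pi := by
  rw [mu_formula hN h, sub_im, sub_im, log_im, log_im, ofReal_im, sub_zero]
  have a1 : |(1 - Complex.exp (-((N : ℂ) * τ))).arg| < Real.pi / 2 :=
    Complex.abs_arg_lt_pi_div_two_iff.2 (Or.inl (one_sub_exp_re (mul_re_pos hN h)))
  have a2 : |(1 - Complex.exp (-τ)).arg| < Real.pi / 2 :=
    Complex.abs_arg_lt_pi_div_two_iff.2 (Or.inl (one_sub_exp_re h))
  rw [abs_lt] at a1 a2 ⊢
  constructor <;> linarith

/-- lower bound of the imaginary part of `Ap` -/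
theorem Im_Ap_ge (hN : 1 < N) {s θ : ℝ} (hs : 0 < s) (h0 : 0 ≤ θ) (h1 : N * θ ≤ 2 * Real.pi) :
    (N + 1) / 2 * θ ≤ (Ap N (s + θ * I)).im := by
  have hre : ∀ x : ℝ, ((s : ℂ) + x * I).re = s := by intro x; simp
  have him : ∀ x : ℝ, ((s : ℂ) + x * I).im = x := by intro x; simp
  have hr : (Ap N (s : ℂ)).im = 0 := by
    have := Ap_conj (D0_of_pos hN (show 0 < (s : ℂ).re by simpa using hs))
    rw [conj_ofReal] at this
    exact Complex.conj_eq_iff_im.1 this.symm
  rcases eq_or_lt_of_le h0 with h | h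
  · rw [← h]; simp [hr]
  set g : ℝ → ℝ := fun x => (Ap N (s + x * I)).im with hg
  have hder : ∀ x : ℝ, HasDerivAt g (dAp N (s + x * I)).re x := by
    intro x
    have hx : 0 < ((s : ℂ) + x * I).re := by rw [hre]; exact hs
    have e1 : HasDerivAt (fun x : ℝ => (s : ℂ) + x * I) I x := by
      have := ((hasDerivAt_id x).ofReal_comp.mul_const I).const_add (s : ℂ)
      simpa using this
    have e2 := (Ap_hasDerivAt hN (ne_of_re hx) (D0_of_pos hN hx)).comp x e1
    have e3 := imCLM.hasFDerivAt.comp_hasDerivAt x e2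
    refine e3.congr_deriv ?_
    change (dAp N (s + x * I) * I).im = _
    simp
  obtain ⟨ξ, hξ, hslope⟩ := exists_hasDerivAt_eq_slope g _ h
    (fun t _ => (hder t).continuousAt.continuousWithinAt) (fun t _ => hder t)
  have h2 := dAp_re hN (τ := s + ξ * I) (by rw [hre]; exact hs) (by
    rw [him, abs_of_pos hξ.1]
    have : N * ξ ≤ N * θ := mul_le_mul_of_nonneg_left hξ.2.le (by linarith)
    linarith)
  rw [hslope, le_div_iff₀ (by linarith), sub_zero] at h2
  have h3 : g 0 = 0 := by simp [hg, hr]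
  rw [h3, sub_zero] at h2
  exact h2

/-! ### the norm inequality -/

theorem normSq_one_sub (w : ℂ) : normSq (1 - Complex.exp (-w)) =
    (1 - Real.exp (-w.re)) ^ 2 + 4 * Real.exp (-w.re) * Real.sin (w.im / 2) ^ 2 := by
  rw [normSq_apply, sub_re, sub_im, one_re, one_im, exp_re, exp_im, neg_re, neg_im, Real.cos_neg,
    Real.sin_neg]
  have h := Real.cos_two_mul (w.im / 2)
  rw [show 2 * (w.im / 2) = w.im by ring] at h
  have h1 := Real.sin_sq_add_cos_sq (w.im / 2)
  have h2 := Real.sin_sq_add_cos_sq w.im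
  have h3 : Real.cos w.im = 1 - 2 * Real.sin (w.im / 2) ^ 2 := by linarith
  set e := Real.exp (-w.re)
  have h4 : Real.sin w.im ^ 2 = 1 - Real.cos w.im ^ 2 := by linarith
  have : (1 - e * Real.cos w.im) * (1 - e * Real.cos w.im) +
      (0 - e * -Real.sin w.im) * (0 - e * -Real.sin w.im) =
      1 - 2 * e * Real.cos w.im + e ^ 2 * (Real.cos w.im ^ 2 + Real.sin w.im ^ 2) := by ring
  rw [this, h4, h3]
  ring

theorem normSq_exp_sub (w : ℂ) : normSq (Complex.exp w - 1) =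
    (Real.exp w.re - 1) ^ 2 + 4 * Real.exp w.re * Real.sin (w.im / 2) ^ 2 := by
  have h := normSq_one_sub (-w)
  rw [neg_neg, neg_re, neg_im, neg_neg, neg_div, Real.sin_neg, neg_sq] at h
  rw [← normSq_neg, neg_sub, h]
  ring

theorem norm_lt (hN : 1 < N) {τ : ℂ} (h0 : 0 ≤ τ.re) (h1 : N * |τ.im| ≤ 2 * Real.pi)
    (hne : τ ≠ 0) : ‖1 - Complex.exp (-((N : ℂ) * τ))‖ < N * ‖Complex.exp τ - 1‖ := by
  have hN0 : 0 < N := by linarith
  refine lt_of_pow_lt_pow_left₀ 2 (by positivity) ?_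
  rw [mul_pow, ← Complex.normSq_eq_norm_sq, ← Complex.normSq_eq_norm_sq, normSq_one_sub,
    normSq_exp_sub, re_ofReal_mul, im_ofReal_mul]
  have hs : Real.sin (N * τ.im / 2) ^ 2 ≤ N ^ 2 * Real.sin (τ.im / 2) ^ 2 := by
    rw [show N * τ.im / 2 = N * (τ.im / 2) by ring]
    refine sin_sq_le hN ?_
    rw [abs_div, abs_of_pos (show (0 : ℝ) < 2 by norm_num)]
    linarith
  have e1 : Real.exp (-(N * τ.re)) ≤ 1 := by
    rw [Real.exp_le_one_iff]; nlinarith
  have e2 : 1 ≤ Real.exp τ.re := Real.one_le_exp h0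
  have e0 : 0 < Real.exp (-(N * τ.re)) := Real.exp_pos _
  have hsn : 0 ≤ Real.sin (τ.im / 2) ^ 2 := sq_nonneg _
  have g1 : 1 - Real.exp (-(N * τ.re)) ≤ N * τ.re := by
    linarith [Real.add_one_le_exp (-(N * τ.re))]
  have g2 : τ.re ≤ Real.exp τ.re - 1 := by linarith [Real.add_one_le_exp τ.re]
  have B : 4 * Real.exp (-(N * τ.re)) * Real.sin (N * τ.im / 2) ^ 2 ≤
      N ^ 2 * (4 * Real.exp τ.re * Real.sin (τ.im / 2) ^ 2) := by
    calc 4 * Real.exp (-(N * τ.re)) * Real.sin (N * τ.im / 2) ^ 2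
        ≤ 4 * Real.exp τ.re * (N ^ 2 * Real.sin (τ.im / 2) ^ 2) := by
          refine mul_le_mul (by linarith) hs (sq_nonneg _) (by positivity)
      _ = _ := by ring
  rcases eq_or_lt_of_le h0 with h | h
  · rw [← h] at B ⊢
    have hi : τ.im ≠ 0 := by
      intro hi
      exact hne (Complex.ext h.symm hi)
    have hs' : Real.sin (N * τ.im / 2) ^ 2 < N ^ 2 * Real.sin (τ.im / 2) ^ 2 := by
      rw [show N * τ.im / 2 = N * (τ.im / 2) by ring]
      refine sin_sq_lt hN (by simpa using hi) ?_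
      rw [abs_div, abs_of_pos (show (0 : ℝ) < 2 by norm_num)]
      linarith
    simp only [mul_zero, neg_zero, Real.exp_zero, sub_self, ne_eq, OfNat.ofNat_ne_zero,
      not_false_eq_true, zero_pow, mul_one, zero_add]
    linarith
  · have g3 : τ.re < Real.exp τ.re - 1 := by
      have := Real.add_one_lt_exp h.ne'
      linarith
    have g4 : 0 ≤ 1 - Real.exp (-(N * τ.re)) := by linarith
    have g5 : 1 - Real.exp (-(N * τ.re)) < N * (Real.exp τ.re - 1) := by nlinarith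
    have A : (1 - Real.exp (-(N * τ.re))) ^ 2 < N ^ 2 * (Real.exp τ.re - 1) ^ 2 := by
      rw [← mul_pow]
      exact pow_lt_pow_left₀ g5 g4 two_ne_zero
    linarith

/-- the function `exp (Ap τ)`, which is continuous on the closed half strip -/
def EA (N : ℝ) (τ : ℂ) : ℂ := Complex.exp ((N : ℂ) * τ) * (J (-((N : ℂ) * τ)) / J (-τ))

theorem exp_ne_one' {τ : ℂ} (h0 : 0 ≤ τ.re) (h1 : |τ.im| < 2 * Real.pi) (hne : τ ≠ 0) :
    Complex.exp τ - 1 ≠ 0 := by
  refine exp_ne_one hne (J_slit ?_ ?_)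
  · rw [neg_re]; linarith
  · rw [neg_im, abs_neg]; exact h1

theorem im_lt_two_pi (hN : 1 < N) {τ : ℂ} (h1 : N * |τ.im| ≤ 2 * Real.pi) :
    |τ.im| < 2 * Real.pi := by
  by_contra h
  rw [not_lt] at h
  have := Real.pi_pos
  nlinarith

theorem exp_neg_Am_formula (hN : 1 < N) {τ : ℂ} (h : τ ∈ D0 N) (hne : τ ≠ 0) :
    Complex.exp (-(Am N τ)) = (1 - Complex.exp (-((N : ℂ) * τ))) / (N * (Complex.exp τ - 1)) := by
  have hN0 : (N : ℂ) ≠ 0 := by
    have : N ≠ 0 := by linarith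
    exact_mod_cast this
  have h1 := exp_ne_one hne h.2
  rw [exp_neg_Am h, J_neg (mul_ne_zero hN0 hne), J_neg hne, Complex.exp_neg τ]
  have h2 := Complex.exp_ne_zero τ
  have h3 : 1 - (Complex.exp τ)⁻¹ ≠ 0 := by
    intro h5
    apply h1
    have : (Complex.exp τ)⁻¹ = 1 := (sub_eq_zero.1 h5).symm
    rw [inv_eq_one.1 this, sub_self]
  rw [div_div_div_eq, ← mul_div_assoc, div_eq_div_iff (by positivity) (by positivity)]
  field_simp

theorem Am_re_pos (hN : 1 < N) {τ : ℂ} (h0 : 0 ≤ τ.re) (h1 : N * |τ.im| ≤ 2 * Real.pi)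
    (h : τ ∈ D0 N) (hne : τ ≠ 0) : 0 < (Am N τ).re := by
  have hN0 : 0 < N := by linarith
  have h2 := norm_lt hN h0 h1 hne
  have h3 : 0 < ‖Complex.exp τ - 1‖ := norm_pos_iff.2 (exp_ne_one hne h.2)
  have h4 : ‖Complex.exp (-(Am N τ))‖ < 1 := by
    rw [exp_neg_Am_formula hN h hne, norm_div, norm_mul, Complex.norm_real,
      Real.norm_of_nonneg hN0.le, div_lt_one (by positivity)]
    exact h2
  rw [Complex.norm_exp, neg_re, Real.exp_lt_one_iff] at h4
  linarith

theorem EA_norm_le (hN : 1 < N) {τ : ℂ} (h0 : τ.re = 0) (h1 : N * |τ.im| ≤ 2 * Real.pi) :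
    ‖EA N τ‖ ≤ 1 := by
  have hN0 : 0 < N := by linarith
  have hN0' : (N : ℂ) ≠ 0 := by exact_mod_cast hN0.ne'
  by_cases hne : τ = 0
  · rw [hne]; simp [EA, J_zero]
  have h2 := norm_lt hN h0.ge h1 hne
  have h3 : 0 < ‖Complex.exp τ - 1‖ :=
    norm_pos_iff.2 (exp_ne_one' h0.ge (im_lt_two_pi hN h1) hne)
  unfold EA
  have e1 : ‖Complex.exp ((N : ℂ) * τ)‖ = 1 := by
    rw [Complex.norm_exp, re_ofReal_mul, h0]; simp
  have e2 : ‖1 - Complex.exp (-τ)‖ = ‖Complex.exp τ - 1‖ := by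
    have : 1 - Complex.exp (-τ) = Complex.exp (-τ) * (Complex.exp τ - 1) := by
      rw [mul_sub, ← Complex.exp_add]; simp
    rw [this, norm_mul, Complex.norm_exp, neg_re, h0]; simp
  rw [norm_mul, e1, one_mul, J_neg (mul_ne_zero hN0' hne), J_neg hne, div_div_div_eq, norm_div,
    norm_mul, norm_mul, norm_mul, e2, Complex.norm_real, Real.norm_of_nonneg hN0.le]
  have h5 : 0 < ‖τ‖ := norm_pos_iff.2 hne
  rw [div_le_one (by positivity)]
  nlinarith

theorem EA_cont (hN : 1 < N) {τ : ℂ} (h0 : 0 ≤ τ.re) (h1 : N * |τ.im| ≤ 2 * Real.pi) :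
    ContinuousAt (EA N) τ := by
  have h2 : J (-τ) ≠ 0 := slitPlane_ne_zero (J_slit (by rw [neg_re]; linarith)
    (by rw [neg_im, abs_neg]; exact im_lt_two_pi hN h1))
  have h3 : ContinuousAt (fun τ : ℂ => J (-((N : ℂ) * τ))) τ :=
    (J_cont.comp (by fun_prop)).continuousAt
  have h4 : ContinuousAt (fun τ : ℂ => J (-τ)) τ := (J_cont.comp (by fun_prop)).continuousAt
  have h5 : ContinuousAt (fun τ : ℂ => Complex.exp ((N : ℂ) * τ)) τ := by fun_prop
  exact h5.mul (h3.div h4 h2)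

end Crest.Agent.R102.IsoNeg486
end
end

-- ▼ part R102/IsoNeg3_486
section

/-!
# Row 102, part (C), T5: the isotropic end at a circular point, part 3: the dynamics `T` on the
half strip `HH` (helper486)
-/

open Complex Set Filter Topology

noncomputable section

namespace Crest.Agent.R102.IsoNeg486

variable {N : ℝ}

/-- the half strip in the `x`-plane -/
def HH (N : ℝ) : Set ℂ := {x | 0 < x.re ∧ |x.im| < (N + 1) / N * Real.pi}

theorem convex_strip (c : ℝ) : Convex ℝ {x : ℂ | 0 < x.re ∧ |x.im| < c} := by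
  have h1 : Convex ℝ {x : ℂ | 0 < x.re} := by
    have : {x : ℂ | 0 < x.re} = Complex.reLm ⁻¹' Ioi 0 := by ext z; rfl
    rw [this]; exact (convex_Ioi 0).linear_preimage _
  have h2 : Convex ℝ {x : ℂ | |x.im| < c} := by
    have : {x : ℂ | |x.im| < c} = Complex.imLm ⁻¹' Ioo (-c) c := by
      ext z
      change |z.im| < c ↔ -c < z.im ∧ z.im < c
      exact abs_lt
    rw [this]; exact (convex_Ioo _ _).linear_preimage _
  exact h1.inter h2

theorem isOpen_strip (c : ℝ) : IsOpen {x : ℂ | 0 < x.re ∧ |x.im| < c} :=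
  (isOpen_lt continuous_const continuous_re).inter (isOpen_lt continuous_im.abs continuous_const)

theorem convex_To : Convex ℝ (To N) := convex_strip _
theorem convex_HH : Convex ℝ (HH N) := convex_strip _
theorem isOpen_To : IsOpen (To N) := isOpen_strip _
theorem isOpen_HH : IsOpen (HH N) := isOpen_strip _

theorem To_bd (hN : 1 < N) {τ : ℂ} (h : τ ∈ To N) : N * |τ.im| < 2 * Real.pi := by
  have := (lt_div_iff₀ (show 0 < N by linarith)).1 h.2
  linarith

theorem mem_To (hN : 1 < N) {τ : ℂ} (h : 0 < τ.re) (h1 : N * |τ.im| < 2 * Real.pi) : τ ∈ To N :=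
  ⟨h, by rw [lt_div_iff₀ (show 0 < N by linarith)]; linarith⟩

/-- expansion from the real part of the derivative -/
theorem expand {f : ℂ → ℂ} {f' : ℂ → ℂ} {s : Set ℂ} {α : ℝ} (hs : Convex ℝ s)
    (hf : ∀ z ∈ s, HasDerivAt f (f' z) z) (hp : ∀ z ∈ s, α ≤ (f' z).re) {z1 z2 : ℂ}
    (h1 : z1 ∈ s) (h2 : z2 ∈ s) : α * ‖z2 - z1‖ ≤ ‖f z2 - f z1‖ := by
  by_cases hne : z1 = z2
  · rw [hne]; simp
  have hd : z2 - z1 ≠ 0 := sub_ne_zero.2 (Ne.symm hne)
  have hseg : ∀ t : ℝ, t ∈ Icc (0 : ℝ) 1 → z1 + (t : ℂ) * (z2 - z1) ∈ s := by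
    intro t ht
    have := hs h1 h2 (show 0 ≤ 1 - t by linarith [ht.2]) ht.1 (by ring)
    have e : z1 + (t : ℂ) * (z2 - z1) = (1 - t) • z1 + t • z2 := by
      rw [real_smul, real_smul]; push_cast; ring
    rw [e]; exact this
  set g : ℝ → ℝ := fun t => (f (z1 + (t : ℂ) * (z2 - z1)) / (z2 - z1)).re with hg
  have hder : ∀ t ∈ Icc (0 : ℝ) 1, HasDerivAt g ((f' (z1 + (t : ℂ) * (z2 - z1))).re) t := by
    intro t ht
    have e1 : HasDerivAt (fun t : ℝ => z1 + (t : ℂ) * (z2 - z1)) (z2 - z1) t := by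
      have := ((hasDerivAt_id t).ofReal_comp.mul_const (z2 - z1)).const_add z1
      simpa using this
    have e2 := ((hf _ (hseg t ht)).comp t e1).div_const (z2 - z1)
    have e4 := reCLM.hasFDerivAt.comp_hasDerivAt t e2
    refine e4.congr_deriv ?_
    rw [mul_div_cancel_right₀ _ hd]
    rfl
  obtain ⟨ξ, hξ, hslope⟩ := exists_hasDerivAt_eq_slope g _ (zero_lt_one)
    (fun t ht => (hder t ht).continuousAt.continuousWithinAt)
    (fun t ht => hder t (Ioo_subset_Icc_self ht))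
  have h5 := hp _ (hseg ξ (Ioo_subset_Icc_self hξ))
  rw [hslope] at h5
  have h6 : g 1 - g 0 = ((f z2 - f z1) / (z2 - z1)).re := by
    simp only [hg]
    rw [← sub_re, ← sub_div]
    simp
  rw [h6, sub_zero, div_one] at h5
  have h7 := h5.trans (Complex.re_le_norm _)
  rw [norm_div, le_div_iff₀ (norm_pos_iff.2 hd)] at h7
  exact h7

theorem Ap_expand (hN : 1 < N) {z1 z2 : ℂ} (h1 : z1 ∈ To N) (h2 : z2 ∈ To N) :
    (N + 1) / 2 * ‖z2 - z1‖ ≤ ‖Ap N z2 - Ap N z1‖ :=
  expand convex_To (f' := dAp N)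
    (fun _ hz => Ap_hasDerivAt hN (ne_of_re hz.1) (D0_of_pos hN hz.1))
    (fun _ hz => dAp_re hN hz.1 (To_bd hN hz).le) h1 h2

theorem Ap_inj (hN : 1 < N) : InjOn (Ap N) (To N) := by
  intro z1 h1 z2 h2 h
  have := Ap_expand hN h1 h2
  rw [h, sub_self, norm_zero] at this
  have h3 : 0 < (N + 1) / 2 := by linarith
  have h4 : ‖z2 - z1‖ ≤ 0 := by
    by_contra h5
    rw [not_le] at h5
    have := mul_pos h3 h5
    linarith
  exact (sub_eq_zero.1 (norm_le_zero_iff.1 h4)).symm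

theorem dAp_ne (hN : 1 < N) {τ : ℂ} (h : τ ∈ To N) : deriv (Ap N) τ ≠ 0 := by
  rw [(Ap_hasDerivAt hN (ne_of_re h.1) (D0_of_pos hN h.1)).deriv]
  intro h0
  have := dAp_re hN h.1 (To_bd hN h).le
  unfold dAp at this
  rw [h0, zero_re] at this
  linarith

theorem isOpen_image (hN : 1 < N) : IsOpen (Ap N '' To N) := by
  rw [isOpen_iff_mem_nhds]
  rintro _ ⟨τ, hτ, rfl⟩
  have h1 := (Ap_an (N := N) (D0_of_pos hN hτ.1)).hasStrictDerivAt
  rw [← h1.map_nhds_eq (dAp_ne hN hτ)]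
  exact image_mem_map (isOpen_To.mem_nhds hτ)

/-- asymptotics of `μ` at infinity -/
theorem mu_asymp (hN : 1 < N) {ε : ℝ} (hε : 0 < ε) : ∃ s0 : ℝ, 0 < s0 ∧ ∀ τ : ℂ, s0 ≤ τ.re →
    ‖lam (-((N : ℂ) * τ)) - lam (-τ) + (Real.log N : ℂ)‖ ≤ ε := by
  have hc : ContinuousAt (fun z : ℂ => Complex.log (1 - z)) 0 := by
    refine ContinuousAt.clog (by fun_prop) ?_
    simp
  have h1 := (Metric.continuousAt_iff.1 hc) (ε / 2) (by linarith)
  obtain ⟨δ, hδ, h2⟩ := h1
  simp only [dist_eq_norm, sub_zero, Complex.log_one] at h2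
  refine ⟨max 1 (-Real.log δ + 1), by positivity, ?_⟩
  intro τ hτ
  have h3 : 0 < τ.re := lt_of_lt_of_le (by positivity) hτ
  have h4 : -Real.log δ < τ.re := by
    have := (le_max_right 1 (-Real.log δ + 1)).trans hτ
    linarith
  rw [mu_formula hN h3, sub_add_cancel]
  have e1 : ‖Complex.exp (-τ)‖ < δ := by
    rw [Complex.norm_exp, neg_re, ← Real.lt_log_iff_exp_lt hδ]
    linarith
  have e2 : ‖Complex.exp (-((N : ℂ) * τ))‖ < δ := by
    rw [Complex.norm_exp, neg_re, re_ofReal_mul, ← Real.lt_log_iff_exp_lt hδ]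
    nlinarith
  have g1 := h2 e1
  have g2 := h2 e2
  calc _ ≤ ‖Complex.log (1 - Complex.exp (-((N : ℂ) * τ)))‖ + ‖Complex.log (1 - Complex.exp (-τ))‖ :=
        norm_sub_le _ _
    _ ≤ ε := by linarith

theorem im_Ap_bd (hN : 1 < N) {τ : ℂ} (h : 0 < τ.re) (h1 : N * |τ.im| ≤ 2 * Real.pi) :
    (N + 1) / 2 * |τ.im| ≤ |(Ap N τ).im| := by
  rcases le_total 0 τ.im with h2 | h2
  · rw [abs_of_nonneg h2] at h1 ⊢
    have := Im_Ap_ge hN h h2 h1
    rw [re_add_im] at this
    exact this.trans (le_abs_self _)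
  · rw [abs_of_nonpos h2] at h1 ⊢
    have h3 : 0 ≤ -τ.im := by linarith
    have := Im_Ap_ge hN h h3 h1
    have e : (τ.re : ℂ) + ((-τ.im : ℝ) : ℂ) * I = (starRingEnd ℂ) τ := by
      apply Complex.ext <;> simp
    rw [e, Ap_conj (D0_of_pos hN h), conj_im] at this
    exact this.trans (neg_le_abs _)

theorem HH_sub (hN : 1 < N) : HH N ⊆ Ap N '' To N := by
  have hN0 : 0 < N := by linarith
  refine convex_HH.isPreconnected.subset_of_closure_inter_subset (isOpen_image hN) ?_ ?_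
  · obtain ⟨s0, hs0, h1⟩ := mu_asymp hN one_pos
    set s : ℝ := s0 + (Real.log N + 2) / N with hs
    have hlog : 0 < Real.log N := Real.log_pos hN
    have hs1 : 0 < s := by positivity
    have hsre : 0 < (s : ℂ).re := by simpa using hs1
    have h2 := h1 (s : ℂ) (by rw [ofReal_re, hs]; have : 0 < (Real.log N + 2) / N := by positivity
                              linarith)
    have him : (Ap N (s : ℂ)).im = 0 := by
      have := Ap_conj (D0_of_pos hN hsre)
      rw [conj_ofReal] at this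
      exact Complex.conj_eq_iff_im.1 this.symm
    refine ⟨Ap N (s : ℂ), ⟨?_, ?_⟩, ⟨(s : ℂ), mem_To hN hsre (by simp; positivity), rfl⟩⟩
    · have h3 := (abs_le.1 ((Complex.abs_re_le_norm _).trans h2)).1
      unfold Ap
      rw [add_re, re_ofReal_mul, ofReal_re]
      rw [add_re, ofReal_re] at h3
      have h4 : N * s = N * s0 + (Real.log N + 2) := by
        rw [hs, mul_add, mul_div_cancel₀ _ hN0.ne']
      have h5 : 0 < N * s0 := by positivity
      linarith
    · rw [him, abs_zero]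
      have := Real.pi_pos
      positivity
  · rintro x ⟨hx, hxH⟩
    obtain ⟨y, hy, hlim⟩ := mem_closure_iff_seq_limit.1 hx
    choose τ hτ hyτ using hy
    have hbdd : ∃ B : ℝ, ∀ n, ‖τ n‖ ≤ B := by
      obtain ⟨C, hC⟩ := (Metric.isBounded_range_of_tendsto _ hlim).exists_norm_le
      refine ⟨‖τ 0‖ + (C + ‖y 0‖) / ((N + 1) / 2), fun n => ?_⟩
      have h1 := Ap_expand hN (hτ 0) (hτ n)
      rw [hyτ, hyτ] at h1
      have h2 : ‖y n - y 0‖ ≤ C + ‖y 0‖ := (norm_sub_le _ _).trans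
        (add_le_add_left (hC _ (mem_range_self n)) _)
      have h3 : ‖τ n - τ 0‖ ≤ (C + ‖y 0‖) / ((N + 1) / 2) := by
        rw [le_div_iff₀ (by linarith), mul_comm]
        exact h1.trans h2
      calc ‖τ n‖ = ‖τ 0 + (τ n - τ 0)‖ := by rw [add_sub_cancel]
        _ ≤ ‖τ 0‖ + ‖τ n - τ 0‖ := norm_add_le _ _
        _ ≤ _ := by linarith
    obtain ⟨B, hB⟩ := hbdd
    have hcomp : IsCompact (Metric.closedBall (0 : ℂ) B) := isCompact_closedBall _ _
    obtain ⟨t, -, φ, hφ, ht⟩ := hcomp.tendsto_subseq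
      (fun n => by rw [mem_closedBall_zero_iff]; exact hB n)
    have hre : 0 ≤ t.re := ge_of_tendsto' ((continuous_re.tendsto t).comp ht)
      (fun n => (hτ (φ n)).1.le)
    have him : N * |t.im| ≤ 2 * Real.pi :=
      le_of_tendsto' (((continuous_const.mul continuous_im.abs).tendsto t).comp ht)
        (fun n => (To_bd hN (hτ (φ n))).le)
    have hyφ : Tendsto (fun n => y (φ n)) atTop (𝓝 x) := hlim.comp hφ.tendsto_atTop
    have hexp : Complex.exp x = EA N t := by
      have h1 : Tendsto (fun n => EA N (τ (φ n))) atTop (𝓝 (EA N t)) :=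
        (EA_cont hN hre him).tendsto.comp ht
      have h2 : Tendsto (fun n => Complex.exp (y (φ n))) atTop (𝓝 (Complex.exp x)) :=
        (Complex.continuous_exp.tendsto x).comp hyφ
      refine tendsto_nhds_unique h2 (h1.congr fun n => ?_)
      rw [← hyτ, exp_Ap (D0_of_pos hN (hτ (φ n)).1)]
      rfl
    have hre0 : 0 < t.re := by
      rcases eq_or_lt_of_le hre with h | h
      · exfalso
        have h1 := EA_norm_le hN h.symm him
        rw [← hexp, Complex.norm_exp, Real.exp_le_one_iff] at h1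
        exact absurd hxH.1 (not_lt.2 h1)
      · exact h
    have hx' : x = Ap N t := by
      have h1 : Tendsto (fun n => Ap N (τ (φ n))) atTop (𝓝 (Ap N t)) :=
        ((Ap_an (D0_of_pos hN hre0)).continuousAt.tendsto).comp ht
      refine tendsto_nhds_unique hyφ (h1.congr fun n => ?_)
      rw [hyτ]
    refine ⟨t, mem_To hN hre0 ?_, hx'.symm⟩
    rcases eq_or_lt_of_le him with h | h
    · exfalso
      have h1 := im_Ap_bd hN hre0 him
      rw [← hx'] at h1
      have h2 := hxH.2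
      have h3 : (N + 1) / 2 * |t.im| = (N + 1) / N * Real.pi := by
        have : |t.im| = 2 * Real.pi / N := by
          rw [eq_div_iff hN0.ne']; linarith
        rw [this]; field_simp
      rw [h3] at h1
      exact absurd h2 (not_lt.2 h1)
    · exact h

/-! ### the inverse of `Ap` and the dynamics -/

/-- inverse of `Ap` on `To` -/
def KK (N : ℝ) : ℂ → ℂ := Function.invFunOn (Ap N) (To N)

theorem KK_spec (hN : 1 < N) {x : ℂ} (hx : x ∈ HH N) : KK N x ∈ To N ∧ Ap N (KK N x) = x := by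
  obtain ⟨b, hb, hLb⟩ := HH_sub hN hx
  exact ⟨Function.invFunOn_mem ⟨b, hb, hLb⟩, Function.invFunOn_eq ⟨b, hb, hLb⟩⟩

theorem KK_eq (hN : 1 < N) {τ : ℂ} (hτ : τ ∈ To N) : KK N (Ap N τ) = τ := by
  have h1 : KK N (Ap N τ) ∈ To N := Function.invFunOn_mem ⟨τ, hτ, rfl⟩
  have h2 : Ap N (KK N (Ap N τ)) = Ap N τ := Function.invFunOn_eq ⟨τ, hτ, rfl⟩
  exact Ap_inj hN h1 hτ h2

theorem KK_an (hN : 1 < N) {x : ℂ} (hx : x ∈ HH N) :
    AnalyticAt ℂ (KK N) x ∧ deriv (KK N) x ≠ 0 := by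
  obtain ⟨h1, h2⟩ := KK_spec hN hx
  have hL := Ap_an (N := N) (D0_of_pos hN h1.1)
  have hd : deriv (Ap N) (KK N x) ≠ 0 := dAp_ne hN h1
  set J := hL.hasStrictDerivAt.localInverse _ _ _ hd with hJ
  have hJa : AnalyticAt ℂ J (Ap N (KK N x)) := hL.analyticAt_localInverse hd
  have hJv : J (Ap N (KK N x)) = KK N x := HasStrictFDerivAt.localInverse_apply_image ..
  have hJr : ∀ᶠ y in 𝓝 (Ap N (KK N x)), Ap N (J y) = y :=
    HasStrictDerivAt.eventually_right_inverse ..
  have hJd : deriv J (Ap N (KK N x)) ≠ 0 := by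
    rw [hJ, (hL.hasStrictDerivAt.to_localInverse hd).hasDerivAt.deriv]
    exact inv_ne_zero hd
  rw [h2] at hJa hJv hJr hJd
  have hev : ∀ᶠ y in 𝓝 x, J y ∈ To N := by
    refine hJa.continuousAt.eventually_mem ?_
    rw [hJv]
    exact isOpen_To.mem_nhds h1
  have heq : KK N =ᶠ[𝓝 x] J := by
    filter_upwards [hJr, hev] with y g1 g2
    have := KK_eq hN g2
    rwa [g1] at this
  exact ⟨hJa.congr heq.symm, by rw [heq.deriv_eq]; exact hJd⟩

/-- the dynamics -/
def TT (N : ℝ) (x : ℂ) : ℂ := Am N (KK N x)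

theorem TT_Ap (hN : 1 < N) {τ : ℂ} (hτ : τ ∈ To N) : TT N (Ap N τ) = Am N τ := by
  unfold TT; rw [KK_eq hN hτ]

theorem Am_eq (τ : ℂ) : Am N τ = ((N : ℂ) + 1) * τ - Ap N τ := by
  rw [← Ap_add_Am]; ring

theorem Am_im_bd (hN : 1 < N) {τ : ℂ} (h : τ ∈ To N) : |(Am N τ).im| < (N + 1) / N * Real.pi := by
  have hN0 : 0 < N := by linarith
  have hπ := Real.pi_pos
  have key : ∀ τ : ℂ, τ ∈ To N → 0 ≤ τ.im → |(Am N τ).im| < (N + 1) / N * Real.pi := by
    intro τ h h0
    have h1 := To_bd hN h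
    rw [abs_of_nonneg h0] at h1
    have h2 := Im_Ap_ge hN h.1 h0 h1.le
    rw [re_add_im] at h2
    have h3 : (Am N τ).im = (N + 1) * τ.im - (Ap N τ).im := by
      rw [Am_eq, sub_im]
      congr 1
      rw [mul_im]; simp
    have h4 := (abs_lt.1 (mu_im_lt hN h.1))
    have h5 : (Am N τ).im = τ.im - (lam (-((N : ℂ) * τ)) - lam (-τ)).im := by
      unfold Am; rw [sub_im]
    have h6 : Real.pi < (N + 1) / N * Real.pi := by
      have : 1 < (N + 1) / N := by rw [lt_div_iff₀ hN0]; linarith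
      nlinarith
    have h7 : (N + 1) / 2 * τ.im < (N + 1) / N * Real.pi := by
      have : τ.im < 2 * Real.pi / N := by rw [lt_div_iff₀ hN0]; linarith
      calc (N + 1) / 2 * τ.im < (N + 1) / 2 * (2 * Real.pi / N) :=
            mul_lt_mul_of_pos_left this (by linarith)
        _ = _ := by field_simp
    rw [abs_lt]
    constructor
    · rw [h5]; linarith
    · rw [h3]; linarith
  rcases le_total 0 τ.im with h0 | h0
  · exact key τ h h0
  · have h1 : (starRingEnd ℂ) τ ∈ To N := ⟨by simpa using h.1, by rw [conj_im, abs_neg]; exact h.2⟩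
    have h2 := key _ h1 (by rw [conj_im]; linarith)
    rwa [Am_conj (D0_of_pos hN h.1), conj_im, abs_neg] at h2

theorem Am_mem (hN : 1 < N) {τ : ℂ} (h : τ ∈ To N) : Am N τ ∈ HH N :=
  ⟨Am_re_pos hN h.1.le (To_bd hN h).le (D0_of_pos hN h.1) (ne_of_re h.1), Am_im_bd hN h⟩

theorem TT_mem (hN : 1 < N) {x : ℂ} (hx : x ∈ HH N) : TT N x ∈ HH N :=
  Am_mem hN (KK_spec hN hx).1

/-- the identity behind the uniformisation -/
theorem ident (hN : 1 < N) {τ : ℂ} (h : τ ∈ D0 N) (hne : τ ≠ 0) :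
    Complex.exp ((N : ℂ) * τ) * (1 + N * Complex.exp (-(Am N τ))) =
      1 + N * Complex.exp (Ap N τ) := by
  have hN0 : (N : ℂ) ≠ 0 := by
    have : N ≠ 0 := by linarith
    exact_mod_cast this
  have e1 : Complex.exp (Ap N τ) = Complex.exp ((N : ℂ) * τ) * Complex.exp τ *
      Complex.exp (-(Am N τ)) := by
    rw [← Complex.exp_add, ← Complex.exp_add]
    congr 1
    rw [Am_eq]; ring
  rw [e1, exp_neg_Am_formula hN h hne, Complex.exp_neg]
  have h1 := exp_ne_one hne h.2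
  have h2 := Complex.exp_ne_zero ((N : ℂ) * τ)
  field_simp
  ring

theorem dAm_ne (hN : 1 < N) {τ : ℂ} (h : τ ∈ To N) (hre : 0 < (Ap N τ).re) :
    deriv (Am N) τ ≠ 0 := by
  intro h0
  have hN0 : (N : ℂ) ≠ 0 := by
    have : N ≠ 0 := by linarith
    exact_mod_cast this
  have hD := D0_of_pos (N := N) hN h.1
  have dP := (Ap_an hD).differentiableAt.hasDerivAt
  have dM := (Am_an hD).differentiableAt.hasDerivAt
  rw [h0] at dM
  have e1 : HasDerivAt (fun τ : ℂ => (N : ℂ) * τ) (N : ℂ) τ := by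
    simpa using (hasDerivAt_id τ).const_mul (N : ℂ)
  have dL := e1.cexp.mul (((dM.neg).cexp.const_mul (N : ℂ)).const_add 1)
  have dR := (dP.cexp.const_mul (N : ℂ)).const_add 1
  have hS : (fun τ => Complex.exp ((N : ℂ) * τ) * (1 + N * Complex.exp (-(Am N τ)))) =ᶠ[𝓝 τ]
      fun τ => 1 + N * Complex.exp (Ap N τ) := by
    filter_upwards [isOpen_To.mem_nhds h] with z hz
    exact ident hN (D0_of_pos hN hz.1) (ne_of_re hz.1)
  have hE := (dL.congr_of_eventuallyEq hS.symm).unique dR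
  have hAp' : deriv (Ap N) τ = (N : ℂ) + 1 := by
    have h2 : HasDerivAt (fun τ : ℂ => ((N : ℂ) + 1) * τ - Ap N τ)
        (((N : ℂ) + 1) - deriv (Ap N) τ) τ := by
      have e2 : HasDerivAt (fun τ : ℂ => ((N : ℂ) + 1) * τ) ((N : ℂ) + 1) τ := by
        simpa using (hasDerivAt_id τ).const_mul ((N : ℂ) + 1)
      exact e2.sub dP
    have h3 : HasDerivAt (fun τ : ℂ => ((N : ℂ) + 1) * τ - Ap N τ) 0 τ := by
      refine dM.congr_of_eventuallyEq (Eventually.of_forall fun z => ?_)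
      rw [Am_eq]
    have := h2.unique h3
    linear_combination -this
  rw [hAp'] at hE
  have hid := ident hN hD (ne_of_re h.1)
  have hk : (N : ℂ) * Complex.exp (Ap N τ) = (N : ℂ) * 1 := by
    have : Complex.exp ((N : ℂ) * τ) * (N : ℂ) * (1 + N * Complex.exp (-(Am N τ))) =
        N * (Complex.exp (Ap N τ) * ((N : ℂ) + 1)) := by
      rw [← hE]; simp
    have h5 : (N : ℂ) * (1 + N * Complex.exp (Ap N τ)) =
        N * (Complex.exp (Ap N τ) * ((N : ℂ) + 1)) := by
      rw [← this, ← hid]; ring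
    linear_combination -h5
  have h6 := mul_left_cancel₀ hN0 hk
  have h7 : ‖Complex.exp (Ap N τ)‖ = 1 := by rw [h6, norm_one]
  rw [Complex.norm_exp, Real.exp_eq_one_iff] at h7
  linarith

theorem TT_an (hN : 1 < N) {x : ℂ} (hx : x ∈ HH N) :
    AnalyticAt ℂ (TT N) x ∧ deriv (TT N) x ≠ 0 := by
  obtain ⟨h1, h2⟩ := KK_an hN hx
  obtain ⟨h3, h4⟩ := KK_spec hN hx
  have h5 := Am_an (N := N) (D0_of_pos hN h3.1)
  refine ⟨AnalyticAt.comp (g := Am N) (f := KK N) h5 h1, ?_⟩
  have h6 : HasDerivAt (TT N) (deriv (Am N) (KK N x) * deriv (KK N) x) x :=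
    h5.differentiableAt.hasDerivAt.comp x h1.differentiableAt.hasDerivAt
  rw [h6.deriv]
  exact mul_ne_zero (dAm_ne hN h3 (by rw [h4]; exact hx.1)) h2

theorem TT_formula (hN : 1 < N) {x : ℂ} (hx : x ∈ HH N) :
    TT N x = x / N - ((N : ℂ) + 1) / N *
      (lam (-((N : ℂ) * KK N x)) - lam (-(KK N x))) := by
  have hN0 : (N : ℂ) ≠ 0 := by
    have : N ≠ 0 := by linarith
    exact_mod_cast this
  obtain ⟨h3, h4⟩ := KK_spec hN hx
  unfold TT
  nth_rewrite 2 [← h4]
  unfold Am Ap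
  field_simp
  ring

end Crest.Agent.R102.IsoNeg486
end
end

-- ▼ part R102/IsoNeg4_486
section

/-!
# Row 102, part (C), T5: the isotropic end at a circular point, part 4: the germ, end asymptotics,
`GermJ N F → False` (helper486; paper: helper160 #24389)
-/

open Complex Set Filter Topology

noncomputable section

namespace Crest.Agent.R102.IsoNeg486

variable {N : ℝ}

/-! ### the imaginary axis -/

theorem lam_I {y : ℝ} (h0 : y ≠ 0) (h1 : |y| < 2 * Real.pi) : (lam ((y : ℂ) * I)).im = y / 2 := by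
  have hy : (y : ℂ) * I ≠ 0 := by simpa using h0
  have hs : 0 < Real.sin (y / 2) / (y / 2) := by
    rw [abs_lt] at h1
    rcases lt_or_gt_of_ne h0 with h | h
    · refine div_pos_of_neg_of_neg ?_ (by linarith)
      exact Real.sin_neg_of_neg_of_neg_pi_lt (by linarith) (by linarith)
    · refine div_pos ?_ (by linarith)
      exact Real.sin_pos_of_pos_of_lt_pi (by linarith) (by linarith)
  have e : J ((y : ℂ) * I) =
      ((Real.sin (y / 2) / (y / 2) : ℝ) : ℂ) * Complex.exp (((y / 2 : ℝ) : ℂ) * I) := by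
    rw [J_of_ne hy, div_eq_iff hy]
    have h2 : Complex.exp ((y : ℂ) * I) =
        Complex.exp (((y / 2 : ℝ) : ℂ) * I) * Complex.exp (((y / 2 : ℝ) : ℂ) * I) := by
      rw [← Complex.exp_add]; congr 1; push_cast; ring
    have h3 : Complex.sin ((y / 2 : ℝ) : ℂ) = (Complex.exp (-(((y / 2 : ℝ) : ℂ)) * I) -
        Complex.exp (((y / 2 : ℝ) : ℂ) * I)) * I / 2 := rfl
    have h4 : Complex.exp (-(((y / 2 : ℝ) : ℂ)) * I) * Complex.exp (((y / 2 : ℝ) : ℂ) * I) = 1 := by
      rw [← Complex.exp_add]; simp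
    have hyc : (y : ℂ) ≠ 0 := by exact_mod_cast h0
    rw [h2]
    push_cast [Complex.ofReal_sin]
    rw [show Complex.sin ((y : ℂ) / 2) = Complex.sin ((y / 2 : ℝ) : ℂ) by push_cast; rfl, h3]
    push_cast at h4 ⊢
    field_simp
    have hI : I ^ 2 = -1 := I_sq
    ring_nf
    ring_nf at h4
    rw [hI]
    linear_combination h4
  rw [lam, e, Complex.log_ofReal_mul hs (Complex.exp_ne_zero _), Complex.log_exp]
  · simp
  · rw [abs_lt] at h1
    simp; linarith
  · rw [abs_lt] at h1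
    simp; linarith

theorem Am_I_im (hN : 1 < N) {θ : ℝ} (h0 : 0 < θ) (h1 : N * θ < 2 * Real.pi) :
    (Am N ((θ : ℂ) * I)).im = (N + 1) / 2 * θ := by
  have hN0 : 0 < N := by linarith
  have e1 : -((N : ℂ) * ((θ : ℂ) * I)) = ((-(N * θ) : ℝ) : ℂ) * I := by push_cast; ring
  have e2 : -((θ : ℂ) * I) = ((-θ : ℝ) : ℂ) * I := by push_cast; ring
  have hNθ : 0 < N * θ := mul_pos hN0 h0
  have hlt : θ < 2 * Real.pi := by nlinarith
  have l1 : (lam (-((N : ℂ) * ((θ : ℂ) * I)))).im = -(N * θ) / 2 := by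
    rw [e1]
    exact lam_I (by linarith) (by rw [abs_neg, abs_of_pos hNθ]; exact h1)
  have l2 : (lam (-((θ : ℂ) * I))).im = -θ / 2 := by
    rw [e2]
    exact lam_I (by linarith) (by rw [abs_neg, abs_of_pos h0]; exact hlt)
  unfold Am
  rw [sub_im, sub_im, l1, l2]
  simp
  ring

theorem I_mem (hN : 1 < N) {θ : ℝ} (h0 : 0 < θ) (h1 : N * θ < 2 * Real.pi) :
    ((θ : ℂ) * I) ∈ Tc N := by
  refine ⟨by simp, ?_⟩
  have : ((θ : ℂ) * I).im = θ := by simp
  rw [this, abs_of_pos h0, lt_div_iff₀ (by linarith)]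
  linarith

theorem I_ne {θ : ℝ} (h0 : 0 < θ) : ((θ : ℂ) * I) ≠ 0 := by simpa using h0.ne'

theorem Am_I_re (hN : 1 < N) {θ : ℝ} (h0 : 0 < θ) (h1 : N * θ < 2 * Real.pi) :
    0 < (Am N ((θ : ℂ) * I)).re := by
  refine Am_re_pos hN (by simp) ?_ (Tc_sub hN (I_mem hN h0 h1)) (I_ne h0)
  have : ((θ : ℂ) * I).im = θ := by simp
  rw [this, abs_of_pos h0]; exact h1.le

theorem Am_I_mem (hN : 1 < N) {θ : ℝ} (h0 : 0 < θ) (h1 : N * θ < 2 * Real.pi) :
    Am N ((θ : ℂ) * I) ∈ HH N := by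
  refine ⟨Am_I_re hN h0 h1, ?_⟩
  rw [Am_I_im hN h0 h1, abs_of_pos (mul_pos (by linarith) h0)]
  have hN0 : 0 < N := by linarith
  have : θ < 2 * Real.pi / N := by rw [lt_div_iff₀ hN0]; linarith
  calc (N + 1) / 2 * θ < (N + 1) / 2 * (2 * Real.pi / N) :=
        mul_lt_mul_of_pos_left this (by linarith)
    _ = _ := by field_simp

theorem Ap_I (hN : 1 < N) {θ : ℝ} (h0 : 0 < θ) (h1 : N * θ < 2 * Real.pi) :
    Ap N ((θ : ℂ) * I) = -(starRingEnd ℂ) (Am N ((θ : ℂ) * I)) := by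
  have h2 := Am_I_im hN h0 h1
  have h3 := Ap_add_Am (N := N) ((θ : ℂ) * I)
  have h4 : ((N : ℂ) + 1) * ((θ : ℂ) * I) = (((N + 1) * θ : ℝ) : ℂ) * I := by push_cast; ring
  rw [h4] at h3
  have h5 := congrArg Complex.re h3
  have h6 := congrArg Complex.im h3
  rw [add_re] at h5
  rw [add_im] at h6
  simp only [mul_re, mul_im, ofReal_re, ofReal_im, I_re, I_im, mul_zero, mul_one,
    sub_zero, add_zero] at h5 h6
  apply Complex.ext
  · rw [neg_re, conj_re]; linarith
  · rw [neg_im, conj_im, neg_neg]; linarith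

/-- `Re Am (iθ) → ∞` at the corner -/
theorem Am_I_large (hN : 1 < N) (L : ℝ) : ∃ θ : ℝ, 0 < θ ∧ N * θ < 2 * Real.pi ∧
    L ≤ (Am N ((θ : ℂ) * I)).re := by
  have hN0 : 0 < N := by linarith
  have hN0' : (N : ℂ) ≠ 0 := by exact_mod_cast hN0.ne'
  set θ1 : ℝ := 2 * Real.pi / N with hθ1
  have hθ1p : 0 < θ1 := by have := Real.pi_pos; positivity
  have hNθ1 : N * θ1 = 2 * Real.pi := by rw [hθ1]; field_simp
  have hne : Complex.exp ((θ1 : ℂ) * I) - 1 ≠ 0 := by
    refine exp_ne_one' (by simp) ?_ (I_ne hθ1p)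
    refine im_lt_two_pi hN ?_
    have : ((θ1 : ℂ) * I).im = θ1 := by simp
    rw [this, abs_of_pos hθ1p]; exact hNθ1.le
  have hcont : ContinuousAt (fun θ : ℝ => ‖(1 - Complex.exp (-((N : ℂ) * ((θ : ℂ) * I)))) /
      (N * (Complex.exp ((θ : ℂ) * I) - 1))‖) θ1 := by
    refine ContinuousAt.norm (ContinuousAt.div (by fun_prop) (by fun_prop) ?_)
    exact mul_ne_zero hN0' hne
  have hval : ‖(1 - Complex.exp (-((N : ℂ) * ((θ1 : ℂ) * I)))) /
      (N * (Complex.exp ((θ1 : ℂ) * I) - 1))‖ = 0 := by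
    have : Complex.exp (-((N : ℂ) * ((θ1 : ℂ) * I))) = 1 := by
      rw [show -((N : ℂ) * ((θ1 : ℂ) * I)) = -(((N * θ1 : ℝ) : ℂ) * I) by push_cast; ring, hNθ1,
        Complex.exp_neg]
      push_cast
      rw [Complex.exp_two_pi_mul_I, inv_one]
    rw [this]; simp
  have hev : ∀ᶠ θ : ℝ in 𝓝 θ1, ‖(1 - Complex.exp (-((N : ℂ) * ((θ : ℂ) * I)))) /
      (N * (Complex.exp ((θ : ℂ) * I) - 1))‖ < Real.exp (-L) := by
    have h := hcont.tendsto
    rw [hval] at h
    exact h.eventually (gt_mem_nhds (Real.exp_pos _))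
  have hev2 : ∀ᶠ θ : ℝ in 𝓝[<] θ1, 0 < θ ∧ θ < θ1 := by
    have h1 : ∀ᶠ θ : ℝ in 𝓝[<] θ1, 0 < θ := nhdsWithin_le_nhds (lt_mem_nhds hθ1p)
    filter_upwards [h1, self_mem_nhdsWithin] with θ g1 g2
    exact ⟨g1, g2⟩
  obtain ⟨θ, g1, g2, g3⟩ := ((hev.filter_mono nhdsWithin_le_nhds).and hev2).exists
  have g4 : N * θ < 2 * Real.pi := by
    rw [← hNθ1]; exact mul_lt_mul_of_pos_left g3 hN0
  refine ⟨θ, g2, g4, ?_⟩
  rw [← exp_neg_Am_formula hN (Tc_sub hN (I_mem hN g2 g4)) (I_ne g2), Complex.norm_exp, neg_re,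
    Real.exp_lt_exp] at g1
  linarith

/-! ### asymptotics of the dynamics -/

theorem KK_large (hN : 1 < N) (s0 : ℝ) : ∃ L : ℝ, ∀ x ∈ HH N, L ≤ x.re → s0 ≤ (KK N x).re := by
  have hN0 : 0 < N := by linarith
  have hK : IsCompact {τ : ℂ | τ.re ∈ Icc 0 s0 ∧ τ.im ∈ Icc (-(2 * Real.pi / N)) (2 * Real.pi / N)} :=
    isCompact_Icc.reProdIm isCompact_Icc
  have hc : ContinuousOn (EA N)
      {τ : ℂ | τ.re ∈ Icc 0 s0 ∧ τ.im ∈ Icc (-(2 * Real.pi / N)) (2 * Real.pi / N)} := by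
    intro τ hτ
    refine (EA_cont hN hτ.1.1 ?_).continuousWithinAt
    have : |τ.im| ≤ 2 * Real.pi / N := abs_le.2 hτ.2
    rw [le_div_iff₀ hN0] at this
    linarith
  obtain ⟨B, hB⟩ := hK.exists_bound_of_continuousOn hc
  refine ⟨B, fun x hx hxB => ?_⟩
  by_contra h
  rw [not_le] at h
  obtain ⟨h1, h2⟩ := KK_spec hN hx
  have h3 := hB (KK N x) ⟨⟨h1.1.le, h.le⟩, abs_le.1 h1.2.le⟩
  have h4 : EA N (KK N x) = Complex.exp x := by
    conv_rhs => rw [← h2]
    rw [exp_Ap (D0_of_pos hN h1.1)]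
    rfl
  rw [h4, Complex.norm_exp] at h3
  have := Real.add_one_le_exp x.re
  linarith

theorem TT_asymp (hN : 1 < N) : ∃ L0 ψ : ℝ, 0 < L0 ∧ ψ < (N + 1) / N * Real.pi ∧
    ∀ x ∈ HH N, L0 ≤ x.re → x.re / N ≤ (TT N x).re ∧ |(TT N x).im| ≤ ψ := by
  have hN0 : 0 < N := by linarith
  have hlog : 0 < Real.log N := Real.log_pos hN
  have hN1 : 0 < (N - 1) / N := div_pos (by linarith) hN0
  obtain ⟨s0, hs0, hμ⟩ := mu_asymp hN (lt_min hlog hN1)
  obtain ⟨L, hL⟩ := KK_large hN s0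
  refine ⟨max L 1, (N + 1) / N * Real.pi / N + (N + 1) / N * ((N - 1) / N), by positivity, ?_, ?_⟩
  · have h1 : (N + 1) / N * Real.pi - ((N + 1) / N * Real.pi / N + (N + 1) / N * ((N - 1) / N)) =
        (N + 1) / N * ((N - 1) / N) * (Real.pi - 1) := by field_simp; ring
    have h2 : 0 < (N + 1) / N * ((N - 1) / N) * (Real.pi - 1) := by
      have := Real.pi_gt_three
      have h3 : 0 < Real.pi - 1 := by linarith
      positivity
    linarith
  · intro x hx hxL
    have h1 := hμ _ (hL x hx ((le_max_left _ _).trans hxL))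
    set e : ℂ := lam (-((N : ℂ) * KK N x)) - lam (-(KK N x)) + (Real.log N : ℂ) with he
    have hT : TT N x = ((1 / N : ℝ) : ℂ) * x + (((N + 1) / N : ℝ) : ℂ) * ((Real.log N : ℂ) - e) := by
      rw [TT_formula hN hx, he]
      push_cast
      ring
    have g1 : |e.re| ≤ Real.log N := (Complex.abs_re_le_norm _).trans (h1.trans (min_le_left _ _))
    have g2 : |e.im| ≤ (N - 1) / N :=
      (Complex.abs_im_le_norm _).trans (h1.trans (min_le_right _ _))
    have hc : 0 < (N + 1) / N := by positivity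
    constructor
    · rw [hT, add_re, re_ofReal_mul, re_ofReal_mul, sub_re, ofReal_re]
      have : 0 ≤ (N + 1) / N * (Real.log N - e.re) :=
        mul_nonneg hc.le (by linarith [(abs_le.1 g1).2])
      rw [one_div, inv_mul_eq_div]
      linarith
    · rw [hT, add_im, im_ofReal_mul, im_ofReal_mul, sub_im, ofReal_im]
      refine (abs_add_le _ _).trans ?_
      rw [abs_mul, abs_mul, abs_of_pos hc, zero_sub, abs_neg, abs_of_pos (show 0 < 1 / N by
        positivity)]
      have h5 : 1 / N * |x.im| ≤ (N + 1) / N * Real.pi / N := by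
        rw [one_div, inv_mul_eq_div]
        exact div_le_div_of_nonneg_right hx.2.le hN0.le
      have h6 : (N + 1) / N * |e.im| ≤ (N + 1) / N * ((N - 1) / N) :=
        mul_le_mul_of_nonneg_left g2 hc.le
      linarith

/-- **the end**: `Re S → -∞` -/
theorem S_end (hN : 1 < N) {S : ℂ → ℂ} (hSa : ∀ z ∈ HH N, AnalyticAt ℂ S z)
    (hST : ∀ z ∈ HH N, S (TT N z) = S z + 1)
    (hconv : ∀ z ∈ HH N, Tendsto (fun k : ℕ => (TT N)^[k] z) atTop (𝓝 0)) :
    ∃ (C L0 : ℝ), ∀ (m : ℕ) (x : ℂ), x ∈ HH N → N ^ m * L0 ≤ x.re → (S x).re ≤ C - m := by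
  have hN0 : 0 < N := by linarith
  obtain ⟨L0, ψ, hL0, hψ, hT⟩ := TT_asymp hN
  have hK : IsCompact {τ : ℂ | τ.re ∈ Icc (L0 / N) L0 ∧ τ.im ∈ Icc (-ψ) ψ} :=
    isCompact_Icc.reProdIm isCompact_Icc
  have hc : ContinuousOn S {τ : ℂ | τ.re ∈ Icc (L0 / N) L0 ∧ τ.im ∈ Icc (-ψ) ψ} := by
    intro τ hτ
    refine (hSa τ ⟨?_, ?_⟩).continuousAt.continuousWithinAt
    · exact lt_of_lt_of_le (by positivity) hτ.1.1
    · exact lt_of_le_of_lt (abs_le.2 hτ.2) hψ
  obtain ⟨C, hC⟩ := hK.exists_bound_of_continuousOn hc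
  refine ⟨C, L0, fun m x hx hxm => ?_⟩
  have hmem : ∀ k : ℕ, (TT N)^[k] x ∈ HH N := Petal297.iter_mem (fun z hz => TT_mem hN hz) hx
  have hSk : ∀ k : ℕ, S ((TT N)^[k] x) = S x + k := by
    intro k
    induction k with
    | zero => simp
    | succ k ih =>
      rw [Function.iterate_succ_apply', hST _ (hmem k), ih]
      push_cast; ring
  have hex : ∃ k : ℕ, ((TT N)^[k] x).re < L0 := by
    have h1 := (continuous_re.tendsto (0 : ℂ)).comp (hconv x hx)
    rw [zero_re] at h1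
    exact (h1.eventually (gt_mem_nhds hL0)).exists
  classical
  set k := Nat.find hex with hk
  have hk1 : ((TT N)^[k] x).re < L0 := Nat.find_spec hex
  have hk2 : ∀ j, j < k → L0 ≤ ((TT N)^[j] x).re := by
    intro j hj
    have := Nat.find_min hex hj
    exact not_lt.1 this
  have hlow : ∀ j, j ≤ k → x.re ≤ N ^ j * ((TT N)^[j] x).re := by
    intro j
    induction j with
    | zero => intro _; simp
    | succ j ih =>
      intro hj
      have h1 := ih (by omega)
      have h2 := (hT _ (hmem j) (hk2 j (by omega))).1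
      rw [div_le_iff₀ hN0] at h2
      rw [Function.iterate_succ_apply', pow_succ]
      have h3 : N ^ j * ((TT N)^[j] x).re ≤ N ^ j * ((TT N ((TT N)^[j] x)).re * N) :=
        mul_le_mul_of_nonneg_left h2 (by positivity)
      linarith
  have hmk : m < k := by
    by_contra h
    rw [not_lt] at h
    have h1 := hlow k le_rfl
    have h2 : N ^ k * ((TT N)^[k] x).re < N ^ k * L0 := mul_lt_mul_of_pos_left hk1 (by positivity)
    have h3 : N ^ k * L0 ≤ N ^ m * L0 :=
      mul_le_mul_of_nonneg_right (pow_le_pow_right₀ hN.le h) hL0.le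
    linarith
  obtain ⟨j, hj⟩ : ∃ j, k = j + 1 := ⟨k - 1, by omega⟩
  have h4 := hT _ (hmem j) (hk2 j (by omega))
  have e4 : TT N ((TT N)^[j] x) = (TT N)^[k] x := by rw [hj, Function.iterate_succ_apply']
  rw [e4] at h4
  have h5 : L0 / N ≤ ((TT N)^[k] x).re := by
    refine le_trans ?_ h4.1
    exact div_le_div_of_nonneg_right (hk2 j (by omega)) hN0.le
  have h6 := hC ((TT N)^[k] x) ⟨⟨h5, hk1.le⟩, abs_le.1 h4.2⟩
  have h7 := (Complex.re_le_norm _).trans h6
  rw [hSk k, add_re, natCast_re] at h7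
  have h8 : (m : ℝ) < k := by exact_mod_cast hmk
  linarith

end Crest.Agent.R102.IsoNeg486
end
end

-- ▼ part R102/IsoNeg5_486

/-!
# Row 102, part (C), T5: the isotropic end at a circular point, part 5: the germ and the
contradiction (helper486; paper: helper160 #24389)
-/

open Complex Set Filter Topology

noncomputable section

namespace Crest.Agent.R102.IsoNeg486

variable {N : ℝ}

theorem zero_mem (hN : 1 < N) : (0 : ℂ) ∈ D0 N := by
  refine Tc_sub hN ⟨by simp, ?_⟩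
  rw [zero_im, abs_zero]
  have := Real.pi_pos
  positivity

theorem dAp_zero (hN : 1 < N) : (N + 1) / 2 ≤ (deriv (Ap N) 0).re := by
  have hc : ContinuousAt (deriv (Ap N)) 0 := (Ap_an (zero_mem hN)).deriv.continuousAt
  have ht : Tendsto (fun s : ℝ => (deriv (Ap N) (s : ℂ)).re) (𝓝[>] 0)
      (𝓝 (deriv (Ap N) 0).re) := by
    have h1 : Tendsto (fun s : ℝ => (s : ℂ)) (𝓝[>] 0) (𝓝 (0 : ℂ)) := by
      have := (continuous_ofReal.tendsto (0 : ℝ))
      rw [ofReal_zero] at this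
      exact this.mono_left nhdsWithin_le_nhds
    exact (continuous_re.tendsto _).comp (hc.tendsto.comp h1)
  refine ge_of_tendsto ht ?_
  filter_upwards [self_mem_nhdsWithin] with s hs
  have hs' : 0 < (s : ℂ).re := by simpa using hs
  rw [(Ap_hasDerivAt hN (ne_of_re hs') (D0_of_pos hN hs')).deriv]
  refine dAp_re hN hs' ?_
  rw [ofReal_im, abs_zero, mul_zero]
  have := Real.pi_pos
  positivity

/-- monotonicity of the real part in the horizontal direction -/
theorem re_mono {f : ℂ → ℂ} {f' : ℂ → ℂ} {s : Set ℂ} (hs : Convex ℝ s)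
    (hf : ∀ z ∈ s, HasDerivAt f (f' z) z) (hp : ∀ z ∈ s, 0 ≤ (f' z).re) {z1 z2 : ℂ}
    (h1 : z1 ∈ s) (h2 : z2 ∈ s) (him : z1.im = z2.im) (hre : z1.re ≤ z2.re) :
    (f z1).re ≤ (f z2).re := by
  have hd : z2 - z1 = ((z2.re - z1.re : ℝ) : ℂ) := by
    apply Complex.ext
    · simp
    · simp [him]
  have hseg : ∀ t : ℝ, t ∈ Icc (0 : ℝ) 1 → z1 + (t : ℂ) * (z2 - z1) ∈ s := by
    intro t ht
    have := hs h1 h2 (show 0 ≤ 1 - t by linarith [ht.2]) ht.1 (by ring)
    have e : z1 + (t : ℂ) * (z2 - z1) = (1 - t) • z1 + t • z2 := by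
      rw [real_smul, real_smul]; push_cast; ring
    rw [e]; exact this
  set g : ℝ → ℝ := fun t => (f (z1 + (t : ℂ) * (z2 - z1))).re with hg
  have hder : ∀ t ∈ Icc (0 : ℝ) 1,
      HasDerivAt g ((f' (z1 + (t : ℂ) * (z2 - z1)) * (z2 - z1)).re) t := by
    intro t ht
    have e1 : HasDerivAt (fun t : ℝ => z1 + (t : ℂ) * (z2 - z1)) (z2 - z1) t := by
      have := ((hasDerivAt_id t).ofReal_comp.mul_const (z2 - z1)).const_add z1
      simpa using this
    have e2 := (hf _ (hseg t ht)).comp t e1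
    exact reCLM.hasFDerivAt.comp_hasDerivAt t e2
  obtain ⟨ξ, hξ, hslope⟩ := exists_hasDerivAt_eq_slope g _ (zero_lt_one)
    (fun t ht => (hder t ht).continuousAt.continuousWithinAt)
    (fun t ht => hder t (Ioo_subset_Icc_self ht))
  have h5 := hp _ (hseg ξ (Ioo_subset_Icc_self hξ))
  have h6 : 0 ≤ (f' (z1 + (ξ : ℂ) * (z2 - z1)) * (z2 - z1)).re := by
    rw [hd, mul_comm, re_ofReal_mul]
    exact mul_nonneg (by linarith) (by rw [hd] at h5; exact h5)
  rw [hslope] at h6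
  have h7 : g 1 = (f z2).re := by simp [hg]
  have h8 : g 0 = (f z1).re := by simp [hg]
  rw [h7, h8] at h6
  simp at h6
  linarith

/-- small `τ` in the left half plane go to the left half plane -/
theorem half (hN : 1 < N) : ∃ ρ : ℝ, 0 < ρ ∧ ∀ τ : ℂ, ‖τ‖ < ρ → τ.re ≤ 0 → (Ap N τ).re ≤ 0 := by
  have hN0 : 0 < N := by linarith
  have hc : ContinuousAt (deriv (Ap N)) 0 := (Ap_an (zero_mem hN)).deriv.continuousAt
  have h1 : ∀ᶠ τ in 𝓝 (0 : ℂ), 0 < (deriv (Ap N) τ).re :=
    (continuous_re.continuousAt.comp hc).eventually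
      (lt_mem_nhds (lt_of_lt_of_le (by linarith) (dAp_zero hN)))
  have h2 : ∀ᶠ τ in 𝓝 (0 : ℂ), τ ∈ D0 N := isOpen_D0.mem_nhds (zero_mem hN)
  have h3 : ∀ᶠ τ in 𝓝 (0 : ℂ), N * |τ.im| < 2 * Real.pi := by
    have hc2 : ContinuousAt (fun τ : ℂ => N * |τ.im|) 0 := by fun_prop
    refine hc2.eventually (gt_mem_nhds ?_)
    simp
    exact Real.pi_pos
  obtain ⟨ρ, hρ, hball⟩ := Metric.eventually_nhds_iff_ball.1 (h1.and (h2.and h3))
  refine ⟨ρ, hρ, fun τ hτ hre => ?_⟩
  have hτb : τ ∈ Metric.ball (0 : ℂ) ρ := by simpa using hτ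
  set z2 : ℂ := (τ.im : ℂ) * I with hz2
  have hz2re : z2.re = 0 := by simp [hz2]
  have hz2im : z2.im = τ.im := by simp [hz2]
  have hz2b : z2 ∈ Metric.ball (0 : ℂ) ρ := by
    rw [mem_ball_zero_iff, hz2, norm_mul, norm_I, mul_one, Complex.norm_real, Real.norm_eq_abs]
    exact lt_of_le_of_lt (abs_im_le_norm τ) hτ
  have h4 : (Ap N τ).re ≤ (Ap N z2).re := by
    refine re_mono (convex_ball (0 : ℂ) ρ) (f' := deriv (Ap N))
      (fun z hz => (Ap_an (hball z hz).2.1).differentiableAt.hasDerivAt)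
      (fun z hz => (hball z hz).1.le) hτb hz2b hz2im.symm ?_
    rw [hz2re]; exact hre
  refine h4.trans ?_
  by_cases hne : z2 = 0
  · rw [hne, Ap_zero, zero_re]
  · have h5 := Am_re_pos hN hz2re.ge (hball z2 hz2b).2.2.le (hball z2 hz2b).2.1 hne
    have h6 := congrArg Complex.re (Ap_add_Am (N := N) z2)
    rw [add_re] at h6
    have h7 : (((N : ℂ) + 1) * z2).re = 0 := by
      rw [mul_re, hz2re]; simp
    linarith

theorem log_exp_mul (hN : 1 < N) {x : ℂ} (hx : |x.im| < Real.pi) :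
    Complex.log ((N : ℂ) * Complex.exp x) = (Real.log N : ℂ) + x := by
  rw [Complex.log_ofReal_mul (by linarith) (Complex.exp_ne_zero _),
    Complex.log_exp (abs_lt.1 hx).1 (abs_lt.1 hx).2.le]

/-- the correspondence, pointwise -/
theorem cor_pt (hN : 1 < N) {x p τ : ℂ} (hxp : x - p = ((N : ℂ) + 1) * τ) (hτ : τ ∈ D0 N)
    (hτ0 : τ ≠ 0) (hx : |x.im| < Real.pi) (hp : |p.im| < Real.pi)
    (hAm : |(Am N τ).im| < Real.pi) (n1 : 1 + (N : ℂ) * Complex.exp x ≠ 0)
    (n2 : 1 + (N : ℂ) * Complex.exp p ≠ 0)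
    (heq : LJ N ((N : ℂ) * Complex.exp x) = LJ N ((N : ℂ) * Complex.exp p)) :
    x = Ap N τ ∧ -p = Am N τ := by
  have hN0 : (N : ℂ) ≠ 0 := by
    have : N ≠ 0 := by linarith
    exact_mod_cast this
  have hN1 : (N : ℂ) + 1 ≠ 0 := by
    have : N + 1 ≠ 0 := by linarith
    exact_mod_cast this
  unfold LJ at heq
  rw [log_exp_mul hN hx, log_exp_mul hN hp] at heq
  have e1 : (N : ℂ) * τ = Complex.log (1 + (N : ℂ) * Complex.exp x) -
      Complex.log (1 + (N : ℂ) * Complex.exp p) := by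
    have : ((N / (N + 1) : ℝ) : ℂ) * (x - p) = (N : ℂ) * τ := by
      rw [hxp]; push_cast; field_simp
    linear_combination heq - this
  have e2 : Complex.exp ((N : ℂ) * τ) * (1 + (N : ℂ) * Complex.exp p) =
      1 + (N : ℂ) * Complex.exp x := by
    rw [e1, Complex.exp_sub, Complex.exp_log n1, Complex.exp_log n2]
    field_simp
  have e3 := ident hN hτ hτ0
  have e4 : Complex.exp x = Complex.exp p * Complex.exp (((N : ℂ) + 1) * τ) := by
    rw [← Complex.exp_add]; congr 1; linear_combination hxp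
  have e5 : Complex.exp (Ap N τ) = Complex.exp (-(Am N τ)) * Complex.exp (((N : ℂ) + 1) * τ) := by
    rw [← Complex.exp_add]; congr 1; linear_combination Ap_add_Am (N := N) τ
  have e6 : Complex.exp (((N : ℂ) + 1) * τ) = Complex.exp ((N : ℂ) * τ) * Complex.exp τ := by
    rw [← Complex.exp_add]; congr 1; ring
  have e7 : (Complex.exp p - Complex.exp (-(Am N τ))) *
      ((N : ℂ) * Complex.exp ((N : ℂ) * τ) * (Complex.exp τ - 1)) = 0 := by
    rw [e4, e6] at e2
    rw [e5, e6] at e3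
    linear_combination e3 - e2
  have e8 : Complex.exp p = Complex.exp (-(Am N τ)) := by
    rcases mul_eq_zero.1 e7 with h | h
    · exact sub_eq_zero.1 h
    · exact absurd h (mul_ne_zero (mul_ne_zero hN0 (Complex.exp_ne_zero _))
        (exp_ne_one hτ0 hτ.2))
  have e9 : p = -(Am N τ) := by
    rw [abs_lt] at hp hAm
    refine Complex.exp_inj_of_neg_pi_lt_of_le_pi hp.1 hp.2.le ?_ ?_ e8
    · rw [neg_im]; linarith
    · rw [neg_im]; linarith
  constructor
  · have := Ap_add_Am (N := N) τ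
    linear_combination hxp + e9 - this
  · rw [e9, neg_neg]

/-- **the isotropic end at a circular point does not exist** -/
theorem not_germJ {F : ℂ → ℂ} (h : GermJ N F) : False := by
  have hN := h.hN
  have hN0 : 0 < N := by linarith
  have hπ := Real.pi_pos
  have hN1 : (N : ℂ) + 1 ≠ 0 := by
    have : N + 1 ≠ 0 := by linarith
    exact_mod_cast this
  obtain ⟨g, hg, hgd⟩ := h.der
  have hgc : (g : ℂ) ≠ 0 := by exact_mod_cast hg.ne'
  have hF0 : F 0 = 0 := by
    have h1 := h.odd.self_of_nhds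
    rw [neg_zero] at h1
    have h2 : (2 : ℂ) * F 0 = 0 := by linear_combination h1
    simpa using h2
  have hFd : HasDerivAt F (g : ℂ) 0 := by
    rw [← hgd]; exact h.an.differentiableAt.hasDerivAt
  -- the map `σ`
  set σ : ℂ → ℂ := fun t => t / (1 + t) with hσ
  have hσan : AnalyticAt ℂ σ 0 :=
    analyticAt_id.div (analyticAt_const.add analyticAt_id) (by simp)
  have hσ0 : σ 0 = 0 := by simp [hσ]
  have hσd : HasDerivAt σ 1 0 := by
    have h1 : HasDerivAt (fun t : ℂ => 1 + t) 1 0 := by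
      simpa using (hasDerivAt_id (0 : ℂ)).const_add (1 : ℂ)
    have h2 := (hasDerivAt_id (0 : ℂ)).div h1 (by simp)
    refine h2.congr_deriv ?_
    simp
  have hFσan : AnalyticAt ℂ (fun t => F (σ t)) 0 :=
    AnalyticAt.comp (g := F) (f := σ) (by rw [hσ0]; exact h.an) hσan
  have hFσd : HasDerivAt (fun t => F (σ t)) (g : ℂ) 0 := by
    have h1 : HasDerivAt (F ∘ σ) ((g : ℂ) * 1) 0 :=
      HasDerivAt.comp (0 : ℂ) (by rw [hσ0]; exact hFd) hσd
    rw [mul_one] at h1
    exact h1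
  have hFσ0 : F (σ 0) = 0 := by rw [hσ0, hF0]
  -- the map `τ`
  set τf : ℂ → ℂ := fun t => (F t + F (σ t)) / ((N : ℂ) + 1) with hτf
  have hτan : AnalyticAt ℂ τf 0 := (h.an.add hFσan).div analyticAt_const hN1
  have hτd : HasDerivAt τf (((g : ℂ) + g) / ((N : ℂ) + 1)) 0 := (hFd.add hFσd).div_const _
  have hτ0 : τf 0 = 0 := by simp only [hτf]; rw [hF0, hFσ0]; simp
  have hτne : ((g : ℂ) + g) / ((N : ℂ) + 1) ≠ 0 := by
    refine div_ne_zero ?_ hN1
    rw [← two_mul]
    exact mul_ne_zero two_ne_zero hgc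
  have hτt : Tendsto τf (𝓝 0) (𝓝 0) := by
    have := hτan.continuousAt.tendsto
    rwa [hτ0] at this
  have hFt : Tendsto F (𝓝 0) (𝓝 0) := by
    have := h.an.continuousAt.tendsto
    rwa [hF0] at this
  have hFσt : Tendsto (fun t => F (σ t)) (𝓝 0) (𝓝 0) := by
    have := hFσan.continuousAt.tendsto
    rwa [hFσ0] at this
  -- small things
  have hsm : ∀ᶠ x : ℂ in 𝓝 0, |x.im| < Real.pi ∧ 1 + (N : ℂ) * Complex.exp x ≠ 0 := by
    have h1 : ContinuousAt (fun x : ℂ => |x.im|) 0 := by fun_prop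
    have h2 : ContinuousAt (fun x : ℂ => 1 + (N : ℂ) * Complex.exp x) 0 := by fun_prop
    refine (h1.eventually (gt_mem_nhds (by simp; exact hπ))).and (h2.eventually_ne ?_)
    rw [Complex.exp_zero, mul_one, add_comm]
    exact hN1
  have hcor : ∀ᶠ t in 𝓝 (0 : ℂ), F t = Ap N (τf t) ∧ F (σ t) = Am N (τf t) := by
    have c1 : ∀ᶠ t in 𝓝 (0 : ℂ), τf t ∈ D0 N := hτt.eventually (isOpen_D0.mem_nhds (zero_mem hN))
    have c2 := hFt.eventually hsm
    have hneg : Tendsto (fun t => -F (σ t)) (𝓝 0) (𝓝 0) := by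
      have := hFσt.neg
      rwa [neg_zero] at this
    have c3 := hneg.eventually hsm
    have hAmt : Tendsto (fun t => Am N (τf t)) (𝓝 0) (𝓝 0) := by
      have h1 := (Am_an (zero_mem hN)).continuousAt.tendsto
      rw [Am_zero] at h1
      exact h1.comp hτt
    have c4 := hAmt.eventually hsm
    have c7 : ∀ᶠ t in 𝓝 (0 : ℂ), t ≠ 0 → τf t ≠ 0 :=
      eventually_nhdsWithin_iff.1 (hτd.eventually_ne hτne)
    filter_upwards [c1, c2, c3, c4, c7, h.eq] with t g1 g2 g3 g4 g7 g8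
    by_cases ht : t = 0
    · rw [ht, hτ0, hF0, hFσ0, Ap_zero, Am_zero]
      exact ⟨rfl, rfl⟩
    · have h1 : F t - -F (σ t) = ((N : ℂ) + 1) * τf t := by
        simp only [hτf]; field_simp; ring
      obtain ⟨h2, h3⟩ := cor_pt hN h1 g1 (g7 ht) g2.1 g3.1 g4.1 g2.2 g3.2 g8
      rw [neg_neg] at h3
      exact ⟨h2, h3⟩
  -- conjugation
  obtain ⟨ρ, hρ, hhalf⟩ := half hN
  have hconj : ∀ᶠ t in 𝓝 (0 : ℂ), F t ∈ HH N → TT N (F t) = F (t / (1 + t)) := by
    have c1 : ∀ᶠ t in 𝓝 (0 : ℂ), ‖τf t‖ < ρ := by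
      have h1 := hτt.norm
      rw [norm_zero] at h1
      exact h1.eventually (gt_mem_nhds hρ)
    have c2 : ∀ᶠ t in 𝓝 (0 : ℂ), N * |(τf t).im| < 2 * Real.pi := by
      have h1 : ContinuousAt (fun τ : ℂ => N * |τ.im|) 0 := by fun_prop
      have h2 := h1.tendsto.comp hτt
      refine h2.eventually (gt_mem_nhds ?_)
      simp; exact hπ
    filter_upwards [c1, c2, hcor] with t g1 g2 g3 g4
    have g5 : 0 < (τf t).re := by
      by_contra h1
      rw [not_lt] at h1
      have h2 := hhalf _ g1 h1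
      rw [← g3.1] at h2
      exact absurd g4.1 (not_lt.2 h2)
    have g6 := TT_Ap hN (mem_To hN g5 g2)
    rw [← g3.1, ← g3.2] at g6
    exact g6
  have hmem : ∀ᶠ x : ℝ in 𝓝[>] (0 : ℝ), F (x : ℂ) ∈ HH N := by
    have hxt : Tendsto (fun x : ℝ => (x : ℂ)) (𝓝 0) (𝓝 (0 : ℂ)) := by
      have := (continuous_ofReal.tendsto (0 : ℝ))
      rwa [ofReal_zero] at this
    have c1 : ∀ᶠ x : ℝ in 𝓝 (0 : ℝ), (F (x : ℂ)).im = 0 := by
      filter_upwards [hxt.eventually h.real] with x hx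
      rw [conj_ofReal] at hx
      exact Complex.conj_eq_iff_im.1 hx.symm
    have hd : HasDerivAt (fun x : ℝ => (F (x : ℂ)).re) g 0 := by
      have h1 : HasDerivAt (fun x : ℝ => F (x : ℂ)) (g : ℂ) 0 :=
        HasDerivAt.comp_ofReal (by rw [ofReal_zero]; exact hFd)
      have h2 : HasDerivAt (fun x : ℝ => (F (x : ℂ)).re) (reCLM (g : ℂ)) 0 :=
        reCLM.hasFDerivAt.comp_hasDerivAt (0 : ℝ) h1
      have h3 : reCLM (g : ℂ) = g := by rw [reCLM_apply, ofReal_re]
      rwa [h3] at h2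
    have c2 : ∀ᶠ x : ℝ in 𝓝[>] (0 : ℝ), 0 < (F (x : ℂ)).re := by
      have h1 := hasDerivAt_iff_tendsto_slope.1 hd
      have h2 : ∀ᶠ x : ℝ in 𝓝[≠] (0 : ℝ), 0 < slope (fun x : ℝ => (F (x : ℂ)).re) 0 x :=
        h1.eventually (lt_mem_nhds hg)
      have h3 : ∀ᶠ x : ℝ in 𝓝[>] (0 : ℝ), 0 < slope (fun x : ℝ => (F (x : ℂ)).re) 0 x :=
        h2.filter_mono (nhdsWithin_mono _ (fun x hx => ne_of_gt hx))
      filter_upwards [h3, self_mem_nhdsWithin] with x g1 g2
      have g2' : (0 : ℝ) < x := g2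
      rw [slope_def_field, sub_zero, ofReal_zero, hF0, zero_re, sub_zero] at g1
      exact (div_pos_iff_of_pos_right g2').1 g1
    filter_upwards [c1.filter_mono nhdsWithin_le_nhds, c2] with x g1 g2
    refine ⟨g2, ?_⟩
    rw [g1, abs_zero]
    positivity
  -- the petal
  have hP : Petal297.Petal (HH N) (TT N) F 0 (-1) (-2) :=
    { isOpen := isOpen_HH
      conn := convex_HH.isPreconnected
      maps := fun z hz => TT_mem hN hz
      an := fun z hz => (TT_an hN hz).1
      der := fun z hz => (TT_an hN hz).2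
      ab := by norm_num
      a_not := by
        intro h1
        have := h1.1
        simp at this
        linarith
      b_not := by
        intro h1
        have := h1.1
        simp at this
        linarith
      c_not := by
        intro h1
        have := h1.1
        simp at this
      H_an := h.an
      H_zero := hF0
      H_der := by rw [hgd]; exact hgc
      conj := hconj
      mem := hmem }
  obtain ⟨S, r, hr, hSa, -, hST, hSH, -⟩ := hP.fatou
  have hconv : ∀ z ∈ HH N, Tendsto (fun k : ℕ => (TT N)^[k] z) atTop (𝓝 0) :=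
    fun z hz => hP.conv.tendsto_at hz
  obtain ⟨C, L0, hend⟩ := S_end hN hSa hST hconv
  -- the curve
  have hcurve : ∀ θ : ℝ, 0 < θ → θ < 2 * Real.pi / N →
      (S ((fun w : ℂ => Am N (w * I)) θ)).re = 1 / 2 := by
    refine Petal297.curve (Ω := HH N) (H := F) (z := fun w : ℂ => Am N (w * I))
      (θ1 := 2 * Real.pi / N) hSa hSH (fun θ h0 h1 => ?_) ?_
    · have h1' : N * θ < 2 * Real.pi := by
        rw [lt_div_iff₀ hN0] at h1; linarith
      refine ⟨?_, Am_I_mem hN h0 h1'⟩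
      have e1 : AnalyticAt ℂ (fun w : ℂ => w * I) (θ : ℂ) := by fun_prop
      exact AnalyticAt.comp (g := Am N) (f := fun w : ℂ => w * I)
        (Am_an (Tc_sub hN (I_mem hN h0 h1'))) e1
    · -- local inverses
      have hτne' : deriv τf 0 ≠ 0 := by rw [hτd.deriv]; exact hτne
      set L := hτan.hasStrictDerivAt.localInverse _ _ _ hτne' with hL
      have hLa : AnalyticAt ℂ L (τf 0) := hτan.analyticAt_localInverse hτne'
      have hLv : L (τf 0) = 0 := HasStrictFDerivAt.localInverse_apply_image ..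
      have hLr : ∀ᶠ y in 𝓝 (τf 0), τf (L y) = y := HasStrictDerivAt.eventually_right_inverse ..
      rw [hτ0] at hLa hLv hLr
      have hFne : deriv F 0 ≠ 0 := by rw [hgd]; exact hgc
      set Φ := h.an.hasStrictDerivAt.localInverse _ _ _ hFne with hΦ
      have hΦl : ∀ᶠ t in 𝓝 (0 : ℂ), Φ (F t) = t := HasStrictDerivAt.eventually_left_inverse ..
      have hw : Tendsto (fun θ : ℝ => (θ : ℂ) * I) (𝓝[>] 0) (𝓝 0) := by
        have h1 : Continuous fun θ : ℝ => (θ : ℂ) * I := by fun_prop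
        have h2 := h1.tendsto 0
        rw [ofReal_zero, zero_mul] at h2
        exact h2.mono_left nhdsWithin_le_nhds
      have ht1 : Tendsto (fun θ : ℝ => L ((θ : ℂ) * I)) (𝓝[>] 0) (𝓝 0) := by
        have h1 := hLa.continuousAt.tendsto
        rw [hLv] at h1
        exact h1.comp hw
      have hσt : Tendsto σ (𝓝 0) (𝓝 0) := by
        have := hσan.continuousAt.tendsto
        rwa [hσ0] at this
      have ht : Tendsto (fun θ : ℝ => σ (L ((θ : ℂ) * I))) (𝓝[>] 0) (𝓝 0) := hσt.comp ht1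
      have hcj : Tendsto (fun t : ℂ => (starRingEnd ℂ) t) (𝓝 0) (𝓝 0) := by
        have := Complex.continuous_conj.tendsto (0 : ℂ)
        rwa [map_zero] at this
      have hncj : Tendsto (fun t : ℂ => -(starRingEnd ℂ) t) (𝓝 0) (𝓝 0) := by
        have := hcj.neg
        rwa [neg_zero] at this
      have k1 := hw.eventually hLr
      have k2 := ht1.eventually hcor
      have k3 := ht.eventually (h.real.and (hcj.eventually h.odd))
      have k4 := (ht.eventually (hncj.eventually hΦl)).and (ht1.eventually hΦl)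
      have k5 : ∀ᶠ θ : ℝ in 𝓝[>] (0 : ℝ), ‖σ (L ((θ : ℂ) * I))‖ < r := by
        have h1 := ht.norm
        rw [norm_zero] at h1
        exact h1.eventually (gt_mem_nhds hr)
      have k6 : ∀ᶠ θ : ℝ in 𝓝[>] (0 : ℝ), N * θ < 2 * Real.pi := by
        have h1 : ContinuousAt (fun θ : ℝ => N * θ) 0 := by fun_prop
        have h2 : N * (0 : ℝ) < 2 * Real.pi := by rw [mul_zero]; positivity
        exact (h1.eventually (gt_mem_nhds h2)).filter_mono nhdsWithin_le_nhds
      have k7 : ∀ᶠ θ : ℝ in 𝓝[>] (0 : ℝ), 1 + L ((θ : ℂ) * I) ≠ 0 := by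
        have h1 : Tendsto (fun θ : ℝ => 1 + L ((θ : ℂ) * I)) (𝓝[>] 0) (𝓝 (1 + 0)) :=
          tendsto_const_nhds.add ht1
        exact h1.eventually_ne (by simp)
      filter_upwards [k1, k2, k3, k4, k5, k6, k7, self_mem_nhdsWithin] with θ g1 g2 g3 g4 g5 g6 g7 g8
      have g8' : 0 < θ := g8
      set w : ℂ := (θ : ℂ) * I with hwd
      set t1 : ℂ := L w with ht1d
      set t : ℂ := σ t1 with htd
      rw [g1] at g2
      have hFt' : F t = Am N w := g2.2
      have e1 : F (-(starRingEnd ℂ) t) = F t1 := by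
        rw [g3.2, g3.1, hFt', g2.1, Ap_I hN g8' g6]
      have e2 : -(starRingEnd ℂ) t = t1 := by
        rw [← g4.1, e1, g4.2]
      have hwne : w ≠ 0 := I_ne g8'
      have ht1ne : t1 ≠ 0 := by
        intro h0
        apply hwne
        rw [← g1, h0, hτ0]
      have htne : t ≠ 0 := by
        intro h0
        apply ht1ne
        rw [← e2, h0, map_zero, neg_zero]
      have e3 : 1 / t = 1 + 1 / t1 := by
        have : t = t1 / (1 + t1) := rfl
        rw [this]
        field_simp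
        ring
      have e4 : 1 / t1 = -(starRingEnd ℂ) (1 / t) := by
        rw [← e2, map_div₀ (starRingEnd ℂ) 1 t, map_one, div_neg]
      have e5 : (1 / t).re = 1 / 2 := by
        have h1 := congrArg Complex.re e3
        rw [e4, add_re, one_re, neg_re, conj_re] at h1
        linarith
      refine ⟨t, g5, ?_, hFt', e5⟩
      rw [one_div, inv_re] at e5
      have h2 : 0 < normSq t := normSq_pos.2 htne
      rw [div_eq_iff h2.ne'] at e5
      rw [e5]; positivity
  -- contradiction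
  obtain ⟨m, hm⟩ := exists_nat_gt C
  obtain ⟨θ, h0, h1, h2⟩ := Am_I_large hN (N ^ m * L0)
  have h3 := hend m _ (Am_I_mem hN h0 h1) h2
  have h4 := hcurve θ h0 (by rw [lt_div_iff₀ hN0]; linarith)
  rw [h4] at h3
  linarith

/-- raw form used by `T5L6I_496` -/
theorem isoNeg : Crest.Agent.R102.T5L6I496.IsoNeg := by
  intro N F h1 h2 h3 h4 h5 h6
  exact not_germJ (N := N) (F := F) ⟨h1, h2, h3, h4, h5, h6⟩

end Crest.Agent.R102.IsoNeg486
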