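import Crest.Agent.R102.T5DefsN_160
import Crest.Agent.R102.SpineDefs_478

/-!
# Row 102, [T5]: glue `T5S` from T5-RED and MEL (helper160)

* `EndS`: the end data at a top line point on the sheet below (slit disc), scaled;
* `P1`: `PuisB` => end data with the possible exponents;
* `P2`: C1 => the family near the end (`FamN`);
* `MelS`: the three cases with vanishing leading coefficient of `K` (helper490);
* `t5S_of`.
-/

set_option autoImplicit false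

open Set Filter Topology Metric
open scoped ComplexConjugate

noncomputable section

namespace Crest.Agent.R102.T5R

open Crest.Agent.R102.Spine Crest.Agent.R102.C0 Crest.Agent.R102.C1

/-- the slit disc (slit upwards) at `s` -/
def VS (s : ℂ) (ε : ℝ) : Set ℂ := {z | ‖z - s‖ < ε ∧ Complex.I * (z - s) ∈ Complex.slitPlane}

/-- end data at the boundary point `s` of `Str h0`: `(Θ, Hh)` is the continuation of `(θ, H)` to the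
slit disc `VS s ε`, `q(τ) = log (ε Θ'(s + ε τ))`, `q' = c/τ + O(‖τ‖^(β-1))`. -/
structure EndS (h0 : ℝ) (θ H : ℂ → ℂ) (s : ℂ) (ε : ℝ) (Θ Hh q : ℂ → ℂ) (c β C : ℝ) : Prop where
  ε_pos : 0 < ε
  ε_lt : ε < h0
  Θ_diff : DifferentiableOn ℂ Θ (VS s ε)
  H_diff : DifferentiableOn ℂ Hh (VS s ε)
  Θ_eq : ∀ z ∈ VS s ε, |z.im| < h0 → Θ z = θ z
  H_eq : ∀ z ∈ VS s ε, |z.im| < h0 → Hh z = H z
  q_diff : DifferentiableOn ℂ q (VS 0 1)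
  q_exp : ∀ τ ∈ VS 0 1, Complex.exp (q τ) = ε * deriv Θ (s + ε * τ)
  β_pos : 0 < β
  asym : ∀ τ ∈ VS 0 1, ‖deriv q τ - c / τ‖ ≤ C * ‖τ‖ ^ (β - 1)

/-- isotropic leading behaviour `τ exp q → ± i m` -/
def IsoLead (q : ℂ → ℂ) (m : ℝ) : Prop :=
  ∃ j : ℂ, (j = 1 ∨ j = -1) ∧
    Tendsto (fun τ => τ * Complex.exp (q τ)) (𝓝[VS 0 1] 0) (𝓝 (j * Complex.I * m))

/-- **P1** -/
def P1 : Prop :=
  ∀ (q₀ : C(ℂ, ℂ)) (η ρ r B : ℝ) (b φ p : ℂ × ℂ → ℂ) (m₀ : ℂ → ℂ) (θ H : ℂ → ℂ) (h0 : ℝ) (s : ℂ),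
    DataS q₀ η ρ r B b φ p m₀ θ H h0 → s.im = h0 → PuisB h0 θ H s →
    ∃ (ε : ℝ) (Θ Hh q : ℂ → ℂ) (c β C : ℝ), EndS h0 θ H s ε Θ Hh q c β C ∧
      ((-1 < c ∧ c ≠ 1 / 2 ∧ c ≠ 2) ∨ (c = -1 ∧ ∃ m : ℝ, 0 < m ∧ m ≠ 3 ∧ IsoLead q m))

/-- rescaling of `q` -/
def scq (l : ℝ) (q : ℂ → ℂ) (τ : ℂ) : ℂ := q (l * τ) + Real.log l

/-- **P2** (the family near the end, after shrinking the disc) -/
def P2 : Prop :=
  ∀ (q₀ : C(ℂ, ℂ)) (η ρ r B : ℝ) (b φ p : ℂ × ℂ → ℂ) (m₀ : ℂ → ℂ) (θ H : ℂ → ℂ) (h0 : ℝ) (s : ℂ)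
    (ε : ℝ) (Θ Hh q : ℂ → ℂ) (c β C : ℝ),
    DataS q₀ η ρ r B b φ p m₀ θ H h0 → s.im = h0 → EndS h0 θ H s ε Θ Hh q c β C →
    ∃ (l κ' : ℝ) (r' B' : ℝ → ℝ) (X : ℂ × ℂ → ℂ), 0 < l ∧ l ≤ 1 ∧ 0 < κ' ∧ κ' < 1 ∧
      FamN κ' (PsiQ (scq l q)) r' B' X


theorem Sg_sub_VS {κ : ℝ} (hκ : κ < 1) : Sg κ ⊆ VS 0 1 := by
  intro τ hτ
  obtain ⟨h0, h1, h2⟩ := hτ
  refine ⟨by simpa using h1, ?_⟩
  rw [Complex.mem_slitPlane_iff]
  simp only [sub_zero, Complex.mul_re, Complex.I_re, zero_mul, Complex.I_im, one_mul, zero_sub,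
    Complex.mul_im, zero_add]
  by_contra hcon
  push Not at hcon
  obtain ⟨h3, h4⟩ := hcon
  have him : 0 ≤ τ.im := by linarith
  have hn : ‖τ‖ = τ.im := by
    have e : τ = (τ.im : ℂ) * Complex.I := by
      apply Complex.ext
      · simp only [Complex.mul_re, Complex.ofReal_re, Complex.I_re, mul_zero, Complex.ofReal_im,
          Complex.I_im, mul_one, sub_self]
        simpa using h4
      · simp
    rw [e, norm_mul, Complex.norm_I, mul_one, Complex.norm_real, Real.norm_of_nonneg him]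
    simp
  have hpos : 0 < ‖τ‖ := norm_pos_iff.2 h0
  rw [hn] at h2 hpos
  nlinarith

theorem EndS.endQ {h0 : ℝ} {θ H : ℂ → ℂ} {s : ℂ} {ε : ℝ} {Θ Hh q : ℂ → ℂ} {c β C : ℝ}
    (h : EndS h0 θ H s ε Θ Hh q c β C) {κ : ℝ} (hκ : 0 < κ) (hκ1 : κ < 1) : EndQ κ c β C q :=
  ⟨hκ, hκ1, h.β_pos, h.q_diff.mono (Sg_sub_VS hκ1), fun τ hτ => h.asym τ (Sg_sub_VS hκ1 hτ)⟩





end Crest.Agent.R102.T5R
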