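import Mathlib
import Crest.Agent.R102.EndA_416
import Crest.Agent.R102.T5End_160
import Crest.Agent.R102.C1G_821

-- ▼ part R102/EndZ_416
section

/-!
Row 102, part (C), T5 (P1), part Z: the isotropic coordinates in the `σ`-chart and the excluded
exponents.
-/

set_option autoImplicit false

namespace Crest.Agent.R102.End416

open Set Filter Topology Metric
open Crest.Agent.R102.Pain416 (HD bl bl_basis HD_mem HD_mono isOpen_HD convex_HD path_mem)

noncomputable section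

variable {θ H : ℂ → ℂ} {s : ℂ} {n : ℕ} {r : ℝ} {a k : ℤ} {e g f : ℂ → ℂ}

/-- `Z₊ = e^{iθ}(i H - H'/θ')` in the chart -/
def Zp (n : ℕ) (a k : ℤ) (e g f : ℂ → ℂ) (σ : ℂ) : ℂ :=
  Es a e σ * (Complex.I * f σ - Hd n f σ / Es k g σ)

/-- `Z₋ = e^{-iθ}(-i H - H'/θ')` in the chart -/
def Zm (n : ℕ) (a k : ℤ) (e g f : ℂ → ℂ) (σ : ℂ) : ℂ :=
  (Es a e σ)⁻¹ * (-Complex.I * f σ - Hd n f σ / Es k g σ)

namespace EndS

lemma Es_anE (D : EndS θ H s n r a k e g f) {σ : ℂ} (h : σ ∈ ball (0 : ℂ) r) (h0 : σ ≠ 0) :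
    AnalyticAt ℂ (Es a e) σ := by
  unfold Es
  exact (analyticAt_id.zpow h0).mul (D.e_an σ h)

lemma Es_anY (D : EndS θ H s n r a k e g f) {σ : ℂ} (h : σ ∈ ball (0 : ℂ) r) (h0 : σ ≠ 0) :
    AnalyticAt ℂ (Es k g) σ := by
  unfold Es
  exact (analyticAt_id.zpow h0).mul (D.g_an σ h)

lemma Dz_an (D : EndS θ H s n r a k e g f) {σ : ℂ} (h0 : σ ≠ 0) : AnalyticAt ℂ (Dz n) σ := by
  unfold Dz
  have hn : (n : ℂ) ≠ 0 := by exact_mod_cast D.n_pos.ne'
  exact analyticAt_const.div (analyticAt_const.mul (analyticAt_id.pow _))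
    (mul_ne_zero hn (pow_ne_zero _ h0))

lemma Hd_an (D : EndS θ H s n r a k e g f) {σ : ℂ} (h : σ ∈ ball (0 : ℂ) r) (h0 : σ ≠ 0) :
    AnalyticAt ℂ (Hd n f) σ := by
  unfold Hd
  exact (D.f_an σ h h0).deriv.mul (D.Dz_an h0)

lemma E_ne (D : EndS θ H s n r a k e g f) {σ : ℂ} (h : σ ∈ ball (0 : ℂ) r) (h0 : σ ≠ 0) :
    Es a e σ ≠ 0 := Es_ne h0 (D.e_ne σ h)

lemma Y_ne (D : EndS θ H s n r a k e g f) {σ : ℂ} (h : σ ∈ ball (0 : ℂ) r) (h0 : σ ≠ 0) :
    Es k g σ ≠ 0 := Es_ne h0 (D.g_ne σ h)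

lemma dZp (D : EndS θ H s n r a k e g f) {σ : ℂ} (h : σ ∈ ball (0 : ℂ) r) (h0 : σ ≠ 0) :
    HasDerivAt (Zp n a k e g f) (-Complex.I * n * σ ^ (n - 1) * Es a e σ / Es k g σ ^ 2) σ := by
  have hE := (D.Es_anE h h0).differentiableAt.hasDerivAt
  have hY := (D.Es_anY h h0).differentiableAt.hasDerivAt
  have hf := (D.f_an σ h h0).differentiableAt.hasDerivAt
  have hH := (D.Hd_an h h0).differentiableAt.hasDerivAt
  have hEn := D.E_ne h h0
  have hYn := D.Y_ne h h0
  have hn : (n : ℂ) ≠ 0 := by exact_mod_cast D.n_pos.ne'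
  have hp : σ ^ (n - 1) ≠ 0 := pow_ne_zero _ h0
  have h1 := hE.mul ((hf.const_mul Complex.I).sub (hH.div hY hYn))
  refine h1.congr_deriv ?_
  have hlz := D.lz σ h h0
  have hdE := D.dE σ h h0
  have hI := Complex.I_ne_zero
  have hdf : deriv f σ = -Complex.I * (n * σ ^ (n - 1)) * Hd n f σ := by
    unfold Hd Dz
    field_simp
    rw [Complex.I_sq]
    ring
  rw [hdE, hdf]
  simp only [Dz] at hlz
  have hlz' : Es k g σ * deriv (Hd n f) σ - deriv (Es k g) σ * Hd n f σ =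
      Complex.I * (n * σ ^ (n - 1)) * (1 + Es k g σ ^ 3 * f σ) := by
    field_simp at hlz
    linear_combination (-Complex.I) * hlz + (Es k g σ * deriv (Hd n f) σ -
      deriv (Es k g) σ * Hd n f σ) * Complex.I_sq
  have hmain : deriv (Hd n f) σ * Es k g σ - Hd n f σ * deriv (Es k g) σ =
      Complex.I * (n * σ ^ (n - 1)) * (1 + Es k g σ ^ 3 * f σ) := by
    linear_combination hlz'
  rw [hmain]
  simp only [Pi.sub_apply, Pi.div_apply]
  field_simp
  linear_combination (-(Es k g σ ^ 2 * Hd n f σ)) * Complex.I_sq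

lemma dZm (D : EndS θ H s n r a k e g f) {σ : ℂ} (h : σ ∈ ball (0 : ℂ) r) (h0 : σ ≠ 0) :
    HasDerivAt (Zm n a k e g f) (-Complex.I * n * σ ^ (n - 1) * (Es a e σ)⁻¹ / Es k g σ ^ 2) σ := by
  have hE := (D.Es_anE h h0).differentiableAt.hasDerivAt
  have hY := (D.Es_anY h h0).differentiableAt.hasDerivAt
  have hf := (D.f_an σ h h0).differentiableAt.hasDerivAt
  have hH := (D.Hd_an h h0).differentiableAt.hasDerivAt
  have hEn := D.E_ne h h0
  have hYn := D.Y_ne h h0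
  have hn : (n : ℂ) ≠ 0 := by exact_mod_cast D.n_pos.ne'
  have hp : σ ^ (n - 1) ≠ 0 := pow_ne_zero _ h0
  have h1 := (hE.inv hEn).mul ((hf.const_mul (-Complex.I)).sub (hH.div hY hYn))
  refine h1.congr_deriv ?_
  have hlz := D.lz σ h h0
  have hdE := D.dE σ h h0
  have hI := Complex.I_ne_zero
  have hdf : deriv f σ = -Complex.I * (n * σ ^ (n - 1)) * Hd n f σ := by
    unfold Hd Dz
    field_simp
    rw [Complex.I_sq]
    ring
  rw [hdE, hdf]
  simp only [Dz] at hlz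
  have hlz' : Es k g σ * deriv (Hd n f) σ - deriv (Es k g) σ * Hd n f σ =
      Complex.I * (n * σ ^ (n - 1)) * (1 + Es k g σ ^ 3 * f σ) := by
    field_simp at hlz
    linear_combination (-Complex.I) * hlz + (Es k g σ * deriv (Hd n f) σ -
      deriv (Es k g) σ * Hd n f σ) * Complex.I_sq
  have hmain : deriv (Hd n f) σ * Es k g σ - Hd n f σ * deriv (Es k g) σ =
      Complex.I * (n * σ ^ (n - 1)) * (1 + Es k g σ ^ 3 * f σ) := by
    linear_combination hlz'
  rw [hmain]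
  simp only [Pi.inv_apply, Pi.sub_apply, Pi.div_apply]
  field_simp
  linear_combination (Es k g σ ^ 2 * Hd n f σ) * Complex.I_sq

end EndS

/-- a derivative has no residue -/
lemma no_residue {P u : ℂ → ℂ} (hP : MeromorphicAt P 0) (hu : ContinuousAt u 0)
    (h : ∀ᶠ σ in 𝓝[≠] (0 : ℂ), deriv P σ = σ⁻¹ * u σ) : u 0 = 0 := by
  have hut : Tendsto u (𝓝[≠] 0) (𝓝 (u 0)) := hu.tendsto.mono_left nhdsWithin_le_nhds
  have hid : Tendsto (fun σ : ℂ => σ) (𝓝[≠] 0) (𝓝 0) := tendsto_id.mono_left nhdsWithin_le_nhds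
  have hne : ∀ᶠ σ in 𝓝[≠] (0 : ℂ), σ ≠ 0 := self_mem_nhdsWithin
  rcases hP.eventually_eq_zero_or_eventually_ne_zero with h1 | h1
  · have h2 : ∀ᶠ σ in 𝓝[≠] (0 : ℂ), u σ = 0 := by
      have h3 : ∀ᶠ σ in 𝓝[≠] (0 : ℂ), ∀ᶠ τ in 𝓝 σ, P τ = 0 := by
        have := (eventually_eventually_nhdsWithin (s := {(0 : ℂ)}ᶜ)).2 h1
        filter_upwards [this, hne] with σ h4 h5
        rwa [IsOpen.nhdsWithin_eq isOpen_compl_singleton (by simpa using h5)] at h4
      filter_upwards [h3, h, hne] with σ h4 h5 h6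
      have h7 : P =ᶠ[𝓝 σ] fun _ => 0 := h4
      rw [h7.deriv_eq] at h5
      simp only [deriv_const'] at h5
      rcases mul_eq_zero.1 h5.symm with h8 | h8
      · exact absurd (inv_eq_zero.1 h8) h6
      · exact h8
    exact tendsto_nhds_unique (hut.congr' h2) tendsto_const_nhds
  · obtain ⟨N, v, van, v0, hv⟩ := factor hP h1.frequently
    have h3 : ∀ᶠ σ in 𝓝[≠] (0 : ℂ), P =ᶠ[𝓝 σ] Es N v := by
      have := (eventually_eventually_nhdsWithin (s := {(0 : ℂ)}ᶜ)).2 hv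
      filter_upwards [this, hne] with σ h4 h5
      rwa [IsOpen.nhdsWithin_eq isOpen_compl_singleton (by simpa using h5)] at h4
    have h4 : ∀ᶠ σ in 𝓝[≠] (0 : ℂ), u σ = σ ^ N * (N * v σ + σ * deriv v σ) := by
      filter_upwards [h3, h, hne,
        eventually_nhdsWithin_of_eventually_nhds van.eventually_analyticAt] with σ h5 h6 h7 h8
      have h9 : HasDerivAt (Es N v) (N * σ ^ (N - 1) * v σ + σ ^ N * deriv v σ) σ :=
        (hasDerivAt_zpow N σ (Or.inl h7)).mul h8.differentiableAt.hasDerivAt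
      rw [h5.deriv_eq, h9.deriv] at h6
      have h10 : u σ = σ * (N * σ ^ (N - 1) * v σ + σ ^ N * deriv v σ) := by
        rw [h6]
        field_simp
      rw [h10, zpow_sub_one₀ h7]
      field_simp
    have hbr : Tendsto (fun σ => (N : ℂ) * v σ + σ * deriv v σ) (𝓝[≠] 0) (𝓝 (N * v 0)) := by
      have h5 : ContinuousAt (fun σ => (N : ℂ) * v σ + σ * deriv v σ) 0 :=
        ((analyticAt_const.mul van).add (analyticAt_id.mul van.deriv)).continuousAt
      have h6 := h5.tendsto.mono_left (nhdsWithin_le_nhds (s := {(0 : ℂ)}ᶜ))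
      simpa using h6
    rcases lt_trichotomy N 0 with hN | hN | hN
    · exfalso
      obtain ⟨m, hm⟩ : ∃ m : ℕ, N = -((m : ℤ) + 1) := ⟨(-N - 1).toNat, by omega⟩
      have h5 : Tendsto (fun σ : ℂ => σ ^ (m + 1) * u σ) (𝓝[≠] 0) (𝓝 (0 * u 0)) := by
        refine Tendsto.mul ?_ hut
        have := hid.pow (m + 1)
        simpa using this
      have h6 : Tendsto (fun σ : ℂ => σ ^ (m + 1) * u σ) (𝓝[≠] 0) (𝓝 (N * v 0)) := by
        refine hbr.congr' ?_
        filter_upwards [h4, hne] with σ h7 h8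
        rw [h7, hm, zpow_neg]
        have h9 : σ ^ ((m : ℤ) + 1) = σ ^ (m + 1) := by
          rw [← zpow_natCast]
          push_cast
          rfl
        rw [h9]
        have h10 : σ ^ (m + 1) ≠ 0 := pow_ne_zero _ h8
        field_simp
      have h7 := tendsto_nhds_unique h5 h6
      rw [zero_mul] at h7
      have hNC : (N : ℂ) ≠ 0 := by exact_mod_cast hN.ne
      exact mul_ne_zero hNC v0 h7.symm
    · subst hN
      have h5 : Tendsto u (𝓝[≠] 0) (𝓝 (((0 : ℤ) : ℂ) * v 0)) := by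
        refine hbr.congr' ?_
        filter_upwards [h4] with σ h6
        rw [h6, zpow_zero, one_mul]
      have := tendsto_nhds_unique hut h5
      simpa using this
    · obtain ⟨m, hm⟩ : ∃ m : ℕ, N = (m : ℤ) + 1 := ⟨(N - 1).toNat, by omega⟩
      have h5 : Tendsto u (𝓝[≠] 0) (𝓝 (0 * (N * v 0))) := by
        have h7 : Tendsto (fun σ : ℂ => σ ^ (m + 1)) (𝓝[≠] 0) (𝓝 0) := by
          have := hid.pow (m + 1)
          simpa using this
        refine (h7.mul hbr).congr' ?_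
        filter_upwards [h4] with σ h6
        rw [h6]
        congr 1
        rw [hm, ← zpow_natCast]
        push_cast
        rfl
      rw [zero_mul] at h5
      exact tendsto_nhds_unique hut h5

/-- `σ^N v → c ≠ 0`, `v → v₀ ≠ 0`: then `N = 0` -/
lemma zpow_lim {N : ℤ} {v w : ℂ → ℂ} {v0 w0 : ℂ} (hv : Tendsto v (𝓝[≠] 0) (𝓝 v0))
    (hw : Tendsto w (𝓝[≠] 0) (𝓝 w0)) (hv0 : v0 ≠ 0) (hw0 : w0 ≠ 0)
    (h : ∀ᶠ σ in 𝓝[≠] (0 : ℂ), σ ^ N * v σ = w σ) : N = 0 ∧ v0 = w0 := by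
  have hid : Tendsto (fun σ : ℂ => σ) (𝓝[≠] 0) (𝓝 0) := tendsto_id.mono_left nhdsWithin_le_nhds
  have hne : ∀ᶠ σ in 𝓝[≠] (0 : ℂ), σ ≠ 0 := self_mem_nhdsWithin
  rcases lt_trichotomy N 0 with hN | hN | hN
  · exfalso
    obtain ⟨m, hm⟩ : ∃ m : ℕ, N = -((m : ℤ) + 1) := ⟨(-N - 1).toNat, by omega⟩
    have h7 : Tendsto (fun σ : ℂ => σ ^ (m + 1)) (𝓝[≠] 0) (𝓝 0) := by
      have := hid.pow (m + 1)
      simpa using this
    have h8 : Tendsto v (𝓝[≠] 0) (𝓝 (0 * w0)) := by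
      refine (h7.mul hw).congr' ?_
      filter_upwards [h, hne] with σ h9 h10
      rw [← h9, hm, zpow_neg]
      have h11 : σ ^ ((m : ℤ) + 1) = σ ^ (m + 1) := by
        rw [← zpow_natCast]
        push_cast
        rfl
      rw [h11]
      have h12 : σ ^ (m + 1) ≠ 0 := pow_ne_zero _ h10
      field_simp
    rw [zero_mul] at h8
    exact hv0 (tendsto_nhds_unique hv h8)
  · subst hN
    refine ⟨rfl, tendsto_nhds_unique (hv.congr' ?_) hw⟩
    filter_upwards [h] with σ h9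
    rw [← h9, zpow_zero, one_mul]
  · exfalso
    obtain ⟨m, hm⟩ : ∃ m : ℕ, N = (m : ℤ) + 1 := ⟨(N - 1).toNat, by omega⟩
    have h7 : Tendsto (fun σ : ℂ => σ ^ (m + 1)) (𝓝[≠] 0) (𝓝 0) := by
      have := hid.pow (m + 1)
      simpa using this
    have h8 : Tendsto w (𝓝[≠] 0) (𝓝 (0 * v0)) := by
      refine (h7.mul hv).congr' ?_
      filter_upwards [h] with σ h9
      rw [← h9, hm, ← zpow_natCast]
      push_cast
      rfl
    rw [zero_mul] at h8
    exact hw0 (tendsto_nhds_unique hw h8)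

namespace EndS

lemma zero_mem (D : EndS θ H s n r a k e g f) : (0 : ℂ) ∈ ball (0 : ℂ) r := by
  simpa using D.r_pos

lemma ev (D : EndS θ H s n r a k e g f) : ∀ᶠ σ in 𝓝[≠] (0 : ℂ), σ ∈ ball (0 : ℂ) r ∧ σ ≠ 0 := by
  filter_upwards [self_mem_nhdsWithin,
    mem_nhdsWithin_of_mem_nhds (ball_mem_nhds (0 : ℂ) D.r_pos)] with σ h1 h2 using ⟨h2, h1⟩

/-- `a e + σ e' = n σ^{n+k} g e` -/
lemma ode (D : EndS θ H s n r a k e g f) {σ : ℂ} (h : σ ∈ ball (0 : ℂ) r) (h0 : σ ≠ 0) :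
    σ ^ ((n : ℤ) + k) * (n * g σ * e σ) = a * e σ + σ * deriv e σ := by
  have h1 := D.dE σ h h0
  have h2 : HasDerivAt (Es a e) (a * σ ^ (a - 1) * e σ + σ ^ a * deriv e σ) σ :=
    (hasDerivAt_zpow a σ (Or.inl h0)).mul (D.e_an σ h).differentiableAt.hasDerivAt
  rw [h2.deriv] at h1
  unfold Es at h1
  have h3 : σ ^ a ≠ 0 := zpow_ne_zero _ h0
  obtain ⟨m, hm⟩ : ∃ m, n = m + 1 := ⟨n - 1, by have := D.n_pos; omega⟩
  have h4 : σ ^ ((n : ℤ) + k) = σ ^ (n - 1) * σ * σ ^ k := by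
    rw [zpow_add₀ h0, zpow_natCast]
    congr 1
    rw [hm, pow_succ, Nat.add_sub_cancel]
  rw [h4]
  rw [zpow_sub_one₀ h0] at h1
  have h5 : σ ^ a * (σ ^ (n - 1) * σ * σ ^ k * (n * g σ * e σ)) =
      σ ^ a * (a * e σ + σ * deriv e σ) := by
    field_simp at h1
    rw [h1]
    ring
  exact mul_left_cancel₀ h3 h5

lemma e_lim (D : EndS θ H s n r a k e g f) : Tendsto e (𝓝[≠] 0) (𝓝 (e 0)) :=
  (D.e_an 0 D.zero_mem).continuousAt.tendsto.mono_left nhdsWithin_le_nhds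

lemma g_lim (D : EndS θ H s n r a k e g f) : Tendsto g (𝓝[≠] 0) (𝓝 (g 0)) :=
  (D.g_an 0 D.zero_mem).continuousAt.tendsto.mono_left nhdsWithin_le_nhds

lemma ode_lim (D : EndS θ H s n r a k e g f) :
    Tendsto (fun σ => (a : ℂ) * e σ + σ * deriv e σ) (𝓝[≠] 0) (𝓝 (a * e 0)) := by
  have van := D.e_an 0 D.zero_mem
  have h5 : ContinuousAt (fun σ => (a : ℂ) * e σ + σ * deriv e σ) 0 :=
    ((analyticAt_const.mul van).add (analyticAt_id.mul van.deriv)).continuousAt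
  have h6 := h5.tendsto.mono_left (nhdsWithin_le_nhds (s := {(0 : ℂ)}ᶜ))
  simpa using h6

/-- isotropic end -/
lemma iso (D : EndS θ H s n r a k e g f) (ha : a ≠ 0) : k = -n ∧ g 0 = a / n := by
  have hn : (n : ℂ) ≠ 0 := by exact_mod_cast D.n_pos.ne'
  have haC : (a : ℂ) ≠ 0 := by exact_mod_cast ha
  have he0 := D.e_ne 0 D.zero_mem
  have hg0 := D.g_ne 0 D.zero_mem
  obtain ⟨h1, h2⟩ := zpow_lim (N := (n : ℤ) + k) (v := fun σ => n * g σ * e σ)
    (w := fun σ => (a : ℂ) * e σ + σ * deriv e σ) (v0 := n * g 0 * e 0) (w0 := a * e 0)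
    ((tendsto_const_nhds.mul D.g_lim).mul D.e_lim) D.ode_lim
    (mul_ne_zero (mul_ne_zero hn hg0) he0) (mul_ne_zero haC he0)
    (by filter_upwards [D.ev] with σ h using D.ode h.1 h.2)
  refine ⟨by omega, ?_⟩
  rw [eq_div_iff hn]
  have := mul_right_cancel₀ he0 h2
  linear_combination this

/-- flat end -/
lemma flat (D : EndS θ H s n r a k e g f) (ha : a = 0) : -(n : ℤ) < k := by
  by_contra hk
  have hid : Tendsto (fun σ : ℂ => σ) (𝓝[≠] 0) (𝓝 0) := tendsto_id.mono_left nhdsWithin_le_nhds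
  have hn : (n : ℂ) ≠ 0 := by exact_mod_cast D.n_pos.ne'
  have he0 := D.e_ne 0 D.zero_mem
  have hg0 := D.g_ne 0 D.zero_mem
  obtain ⟨m, hm⟩ : ∃ m : ℕ, (n : ℤ) + k = -(m : ℤ) := ⟨(-((n : ℤ) + k)).toNat, by omega⟩
  have van := D.e_an 0 D.zero_mem
  have h1 : Tendsto (fun σ => σ ^ m * ((a : ℂ) * e σ + σ * deriv e σ)) (𝓝[≠] 0) (𝓝 0) := by
    have h5 : ContinuousAt (fun σ : ℂ => σ ^ m * ((a : ℂ) * e σ + σ * deriv e σ)) 0 :=
      ((analyticAt_id.pow m).mul
        ((analyticAt_const.mul van).add (analyticAt_id.mul van.deriv))).continuousAt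
    have h6 := h5.tendsto.mono_left (nhdsWithin_le_nhds (s := {(0 : ℂ)}ᶜ))
    simpa [ha] using h6
  have h2 : Tendsto (fun σ => n * g σ * e σ) (𝓝[≠] 0) (𝓝 0) := by
    refine h1.congr' ?_
    filter_upwards [D.ev] with σ h
    rw [← D.ode h.1 h.2, hm, zpow_neg, zpow_natCast]
    have := pow_ne_zero m h.2
    field_simp
  exact mul_ne_zero (mul_ne_zero hn hg0) he0
    (tendsto_nhds_unique ((tendsto_const_nhds.mul D.g_lim).mul D.e_lim) h2)

lemma f_mer' (D : EndS θ H s n r a k e g f) : MeromorphicAt (Hd n f) 0 :=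
  D.f_mer.deriv.mul Dz_mer

lemma Zp_mer (D : EndS θ H s n r a k e g f) : MeromorphicAt (Zp n a k e g f) 0 :=
  (Es_mer (D.e_an 0 D.zero_mem)).mul (((MeromorphicAt.const _ _).mul D.f_mer).sub
    (D.f_mer'.div (Es_mer (D.g_an 0 D.zero_mem))))

lemma Zm_mer (D : EndS θ H s n r a k e g f) : MeromorphicAt (Zm n a k e g f) 0 :=
  (Es_mer (D.e_an 0 D.zero_mem)).inv.mul (((MeromorphicAt.const _ _).mul D.f_mer).sub
    (D.f_mer'.div (Es_mer (D.g_an 0 D.zero_mem))))

lemma pow_zpow (D : EndS θ H s n r a k e g f) {σ : ℂ} (_h0 : σ ≠ 0) :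
    σ ^ (n - 1) = σ ^ ((n : ℤ) - 1) := by
  obtain ⟨m, hm⟩ : ∃ m, n = m + 1 := ⟨n - 1, by have := D.n_pos; omega⟩
  rw [hm, Nat.add_sub_cancel, ← zpow_natCast]
  congr 1
  push_cast
  ring

/-- `m ≠ 3` -/
lemma iso3 (D : EndS θ H s n r a k e g f) (ha : a ≠ 0) : a ≠ 3 * n ∧ a ≠ -(3 * n) := by
  have hn : (n : ℂ) ≠ 0 := by exact_mod_cast D.n_pos.ne'
  have he0 := D.e_ne 0 D.zero_mem
  have hg0 := D.g_ne 0 D.zero_mem
  have hk := (D.iso ha).1
  have hec := (D.e_an 0 D.zero_mem).continuousAt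
  have hgc := (D.g_an 0 D.zero_mem).continuousAt
  constructor
  · intro h
    have h1 := no_residue (u := fun σ => -Complex.I * n * (e σ)⁻¹ / g σ ^ 2) D.Zm_mer
      ((continuousAt_const.mul (hec.inv₀ he0)).div (hgc.pow 2) (pow_ne_zero _ hg0)) (by
        filter_upwards [D.ev] with σ hσ
        have hE := D.e_ne σ hσ.1
        have hG := D.g_ne σ hσ.1
        rw [(D.dZm hσ.1 hσ.2).deriv]
        simp only [Es]
        rw [mul_pow, ← zpow_natCast (σ ^ k) 2, ← zpow_mul, D.pow_zpow hσ.2]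
        have h2 : σ ^ ((n : ℤ) - 1) = σ⁻¹ * (σ ^ a * σ ^ (k * ((2 : ℕ) : ℤ))) := by
          rw [← zpow_neg_one, ← zpow_add₀ hσ.2, ← zpow_add₀ hσ.2]
          congr 1
          rw [h, hk]
          push_cast
          ring
        rw [h2]
        have h3 : σ ^ a ≠ 0 := zpow_ne_zero _ hσ.2
        have h4 : σ ^ (k * ((2 : ℕ) : ℤ)) ≠ 0 := zpow_ne_zero _ hσ.2
        have h5 := hσ.2
        field_simp)
    refine absurd h1 ?_
    exact div_ne_zero (mul_ne_zero (mul_ne_zero (neg_ne_zero.2 Complex.I_ne_zero) hn)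
      (inv_ne_zero he0)) (pow_ne_zero _ hg0)
  · intro h
    have h1 := no_residue (u := fun σ => -Complex.I * n * (e σ) / g σ ^ 2) D.Zp_mer
      ((continuousAt_const.mul hec).div (hgc.pow 2) (pow_ne_zero _ hg0)) (by
        filter_upwards [D.ev] with σ hσ
        have hE := D.e_ne σ hσ.1
        have hG := D.g_ne σ hσ.1
        rw [(D.dZp hσ.1 hσ.2).deriv]
        simp only [Es]
        rw [mul_pow, ← zpow_natCast (σ ^ k) 2, ← zpow_mul, D.pow_zpow hσ.2]
        have h2 : σ ^ ((n : ℤ) - 1) * σ ^ a = σ⁻¹ * σ ^ (k * ((2 : ℕ) : ℤ)) := by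
          rw [← zpow_neg_one, ← zpow_add₀ hσ.2, ← zpow_add₀ hσ.2]
          congr 1
          rw [h, hk]
          push_cast
          ring
        have h4 : σ ^ (k * ((2 : ℕ) : ℤ)) ≠ 0 := zpow_ne_zero _ hσ.2
        have h5 := hσ.2
        have h6 : -Complex.I * n * σ ^ ((n : ℤ) - 1) * (σ ^ a * e σ) =
            -Complex.I * n * e σ * (σ⁻¹ * σ ^ (k * ((2 : ℕ) : ℤ))) := by
          rw [← h2]
          ring
        rw [h6]
        field_simp)
    refine absurd h1 ?_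
    exact div_ne_zero (mul_ne_zero (mul_ne_zero (neg_ne_zero.2 Complex.I_ne_zero) hn)
      he0) (pow_ne_zero _ hg0)

/-- `c ≠ 1/2` -/
lemma flat1 (D : EndS θ H s n r a k e g f) (ha : a = 0) : 2 * k ≠ n := by
  intro hk
  have hn : (n : ℂ) ≠ 0 := by exact_mod_cast D.n_pos.ne'
  have he0 := D.e_ne 0 D.zero_mem
  have hg0 := D.g_ne 0 D.zero_mem
  have hec := (D.e_an 0 D.zero_mem).continuousAt
  have hgc := (D.g_an 0 D.zero_mem).continuousAt
  have h1 := no_residue (u := fun σ => -Complex.I * n * (e σ) / g σ ^ 2) D.Zp_mer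
    ((continuousAt_const.mul hec).div (hgc.pow 2) (pow_ne_zero _ hg0)) (by
      filter_upwards [D.ev] with σ hσ
      have hE := D.e_ne σ hσ.1
      have hG := D.g_ne σ hσ.1
      rw [(D.dZp hσ.1 hσ.2).deriv]
      simp only [Es]
      rw [mul_pow, ← zpow_natCast (σ ^ k) 2, ← zpow_mul, D.pow_zpow hσ.2, ha, zpow_zero, one_mul]
      have h2 : σ ^ ((n : ℤ) - 1) = σ⁻¹ * σ ^ (k * ((2 : ℕ) : ℤ)) := by
        rw [← zpow_neg_one, ← zpow_add₀ hσ.2]
        congr 1
        push_cast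
        omega
      have h4 : σ ^ (k * ((2 : ℕ) : ℤ)) ≠ 0 := zpow_ne_zero _ hσ.2
      have h5 := hσ.2
      rw [h2]
      field_simp)
  refine absurd h1 ?_
  exact div_ne_zero (mul_ne_zero (mul_ne_zero (neg_ne_zero.2 Complex.I_ne_zero) hn)
    he0) (pow_ne_zero _ hg0)

/-- `c ≠ 2` -/
lemma flat2 (D : EndS θ H s n r a k e g f) (ha : a = 0) : k ≠ 2 * n := by
  intro hk
  have hid : Tendsto (fun σ : ℂ => σ) (𝓝[≠] 0) (𝓝 0) := tendsto_id.mono_left nhdsWithin_le_nhds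
  have hn : (n : ℂ) ≠ 0 := by exact_mod_cast D.n_pos.ne'
  have he0 := D.e_ne 0 D.zero_mem
  have hg0 := D.g_ne 0 D.zero_mem
  have hean := D.e_an 0 D.zero_mem
  have hec := (D.e_an 0 D.zero_mem).continuousAt
  have hgc := (D.g_an 0 D.zero_mem).continuousAt
  -- `e - e 0 = σ^N h`
  have hd0 : ∀ σ ∈ ball (0 : ℂ) r, σ ≠ 0 →
      σ ^ (3 * (n : ℤ)) * (n * g σ * e σ) = σ * deriv e σ := by
    intro σ h1 h2
    have h3 := D.ode h1 h2
    rw [ha] at h3
    rw [Int.cast_zero, zero_mul, zero_add, hk] at h3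
    rw [← h3]
    congr 2
    ring
  have hPm : MeromorphicAt (fun σ => e σ - e 0) 0 := (hean.sub analyticAt_const).meromorphicAt
  have hfr : ∃ᶠ σ in 𝓝[≠] (0 : ℂ), e σ - e 0 ≠ 0 := by
    rw [Filter.Frequently]
    intro hcon
    have h1 : ∀ᶠ σ in 𝓝[≠] (0 : ℂ), e σ = e 0 := by
      filter_upwards [hcon] with σ h2
      exact sub_eq_zero.1 (not_not.1 h2)
    have h3 : ∀ᶠ σ in 𝓝[≠] (0 : ℂ), ∀ᶠ τ in 𝓝 σ, e τ = e 0 := by
      have := (eventually_eventually_nhdsWithin (s := {(0 : ℂ)}ᶜ)).2 h1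
      filter_upwards [this, D.ev] with σ h4 h5
      rwa [IsOpen.nhdsWithin_eq isOpen_compl_singleton (by simpa using h5.2)] at h4
    obtain ⟨σ, h4, h5⟩ := (h3.and D.ev).exists
    have h6 := hd0 σ h5.1 h5.2
    have h7 : e =ᶠ[𝓝 σ] fun _ => e 0 := h4
    rw [h7.deriv_eq] at h6
    simp only [deriv_const', mul_zero] at h6
    exact mul_ne_zero (zpow_ne_zero _ h5.2) (mul_ne_zero (mul_ne_zero hn (D.g_ne σ h5.1))
      (D.e_ne σ h5.1)) h6
  obtain ⟨N, v, van, v0, hv⟩ := factor hPm hfr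
  have h3 : ∀ᶠ σ in 𝓝[≠] (0 : ℂ), (fun σ => e σ - e 0) =ᶠ[𝓝 σ] Es N v := by
    have := (eventually_eventually_nhdsWithin (s := {(0 : ℂ)}ᶜ)).2 hv
    filter_upwards [this, D.ev] with σ h4 h5
    rwa [IsOpen.nhdsWithin_eq isOpen_compl_singleton (by simpa using h5.2)] at h4
  have h4 : ∀ᶠ σ in 𝓝[≠] (0 : ℂ),
      σ ^ (3 * (n : ℤ)) * (n * g σ * e σ) = σ ^ N * (N * v σ + σ * deriv v σ) := by
    filter_upwards [h3, D.ev,
      eventually_nhdsWithin_of_eventually_nhds van.eventually_analyticAt] with σ h5 h7 h8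
    have h9 : HasDerivAt (Es N v) (N * σ ^ (N - 1) * v σ + σ ^ N * deriv v σ) σ :=
      (hasDerivAt_zpow N σ (Or.inl h7.2)).mul h8.differentiableAt.hasDerivAt
    have h10 := h5.deriv_eq
    rw [h9.deriv, deriv_sub_const] at h10
    rw [hd0 σ h7.1 h7.2, h10, zpow_sub_one₀ h7.2]
    have := h7.2
    field_simp
  have hN0 : N ≠ 0 := by
    rintro rfl
    have h5 : Tendsto (fun σ => e σ - e 0) (𝓝[≠] 0) (𝓝 (v 0)) := by
      have h6 : Tendsto v (𝓝[≠] 0) (𝓝 (v 0)) :=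
        van.continuousAt.tendsto.mono_left nhdsWithin_le_nhds
      refine h6.congr' ?_
      filter_upwards [hv] with σ h7
      rw [h7, Es, zpow_zero, one_mul]
    have h6 : Tendsto (fun σ => e σ - e 0) (𝓝[≠] 0) (𝓝 (e 0 - e 0)) :=
      D.e_lim.sub tendsto_const_nhds
    rw [sub_self] at h6
    exact v0 (tendsto_nhds_unique h5 h6)
  have hNC : (N : ℂ) ≠ 0 := by exact_mod_cast hN0
  have hbr : Tendsto (fun σ => (N : ℂ) * v σ + σ * deriv v σ) (𝓝[≠] 0) (𝓝 (N * v 0)) := by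
    have h5 : ContinuousAt (fun σ => (N : ℂ) * v σ + σ * deriv v σ) 0 :=
      ((analyticAt_const.mul van).add (analyticAt_id.mul van.deriv)).continuousAt
    have h6 := h5.tendsto.mono_left (nhdsWithin_le_nhds (s := {(0 : ℂ)}ᶜ))
    simpa using h6
  have hN : N = 3 * n := by
    have h5 := zpow_lim (N := 3 * (n : ℤ) - N) (v := fun σ => n * g σ * e σ)
      (w := fun σ => (N : ℂ) * v σ + σ * deriv v σ)
      ((tendsto_const_nhds.mul D.g_lim).mul D.e_lim) hbr
      (mul_ne_zero (mul_ne_zero hn hg0) he0) (mul_ne_zero hNC v0) (by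
        filter_upwards [h4, D.ev] with σ h6 h7
        rw [zpow_sub₀ h7.2, div_mul_eq_mul_div, h6]
        have := zpow_ne_zero N h7.2
        field_simp)
    omega
  -- the residue of `Z₊/e₀ - e₀ Z₋`
  have hW : MeromorphicAt (fun σ => (e 0)⁻¹ * Zp n a k e g f σ - e 0 * Zm n a k e g f σ) 0 :=
    ((MeromorphicAt.const _ _).mul D.Zp_mer).sub ((MeromorphicAt.const _ _).mul D.Zm_mer)
  have h1 := no_residue (u := fun σ => -Complex.I * n * (v σ * (e σ + e 0)) /
      (e 0 * e σ * g σ ^ 2)) hW ?_ ?_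
  · refine absurd h1 ?_
    refine div_ne_zero (mul_ne_zero (mul_ne_zero (neg_ne_zero.2 Complex.I_ne_zero) hn)
      (mul_ne_zero v0 ?_)) (mul_ne_zero (mul_ne_zero he0 he0) (pow_ne_zero _ hg0))
    rw [← two_mul]
    exact mul_ne_zero two_ne_zero he0
  · exact (continuousAt_const.mul (van.continuousAt.mul (hec.add continuousAt_const))).div
      ((continuousAt_const.mul hec).mul (hgc.pow 2))
      (mul_ne_zero (mul_ne_zero he0 he0) (pow_ne_zero _ hg0))
  · filter_upwards [D.ev, hv] with σ hσ hvσ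
    have hE := D.e_ne σ hσ.1
    have hG := D.g_ne σ hσ.1
    have hdW : HasDerivAt (fun σ => (e 0)⁻¹ * Zp n a k e g f σ - e 0 * Zm n a k e g f σ) _ σ :=
      ((D.dZp hσ.1 hσ.2).const_mul (e 0)⁻¹).sub ((D.dZm hσ.1 hσ.2).const_mul (e 0))
    rw [hdW.deriv]
    rw [Es, hN] at hvσ
    simp only [Es]
    rw [mul_pow, ← zpow_natCast (σ ^ k) 2, ← zpow_mul, D.pow_zpow hσ.2, ha, zpow_zero, one_mul]
    have h2 : σ ^ (k * ((2 : ℕ) : ℤ)) = σ ^ ((n : ℤ) - 1) * (σ * σ ^ (3 * (n : ℤ))) := by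
      have h5 : σ * σ ^ (3 * (n : ℤ)) = σ ^ (3 * (n : ℤ) + 1) := by
        rw [zpow_add_one₀ hσ.2, mul_comm]
      rw [h5, ← zpow_add₀ hσ.2]
      congr 1
      push_cast
      omega
    rw [h2]
    have h4 : σ ^ (3 * (n : ℤ)) ≠ 0 := zpow_ne_zero _ hσ.2
    have h4' : σ ^ ((n : ℤ) - 1) ≠ 0 := zpow_ne_zero _ hσ.2
    have h5 := hσ.2
    have h6 : v σ = (e σ - e 0) / σ ^ (3 * (n : ℤ)) := by
      rw [eq_div_iff h4, hvσ]
      ring
    rw [h6]
    field_simp
    ring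

end EndS

end

end Crest.Agent.R102.End416
end

-- ▼ part R102/P1_416

/-!
Row 102, part (C), T5: **P1** (literal of `T5End_160`): a Puiseux end of the top line gives the end
data on the slit disc, with the possible exponents.
-/

set_option autoImplicit false

namespace Crest.Agent.R102.End416

open Set Filter Topology Metric
open Crest.Agent.R102.Pain416 (HD bl bl_basis HD_mem HD_mono isOpen_HD convex_HD path_mem)
open Crest.Agent.R102.T5R (VS IsoLead)

noncomputable section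

lemma log_ball {e : ℂ → ℂ} {r : ℝ} (hr : 0 < r) (he : ∀ σ ∈ ball (0 : ℂ) r, AnalyticAt ℂ e σ)
    (h0 : ∀ σ ∈ ball (0 : ℂ) r, e σ ≠ 0) :
    ∃ L : ℂ → ℂ, (∀ σ ∈ ball (0 : ℂ) r, HasDerivAt L (deriv e σ / e σ) σ) ∧
      ∀ σ ∈ ball (0 : ℂ) r, Complex.exp (L σ) = e σ := by
  have h1 : DifferentiableOn ℂ (fun z => deriv e z / e z) (ball 0 r) := fun z hz =>
    ((he z hz).deriv.differentiableAt.div (he z hz).differentiableAt (h0 z hz)).differentiableWithinAt
  obtain ⟨g, hg0, hg⟩ := h1.isExactOn_ball.with_val_at 0 (Complex.log (e 0))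
  have ha : (0 : ℂ) ∈ ball (0 : ℂ) r := mem_ball_self hr
  refine ⟨g, hg, ?_⟩
  have hd : ∀ z ∈ ball (0 : ℂ) r, HasDerivAt (fun z => e z * Complex.exp (-g z)) 0 z := by
    intro z hz
    have h2 := ((he z hz).differentiableAt.hasDerivAt).mul ((hg z hz).neg.cexp)
    have h3 : e z * (deriv e z / e z) = deriv e z := mul_div_cancel₀ _ (h0 z hz)
    have h4 : deriv e z * Complex.exp (-g z) +
        e z * (Complex.exp (-g z) * -(deriv e z / e z)) = 0 := by
      linear_combination (-Complex.exp (-g z)) * h3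
    exact h2.congr_deriv h4
  intro z hz
  have hconst : e z * Complex.exp (-g z) = e 0 * Complex.exp (-g 0) := by
    exact (convex_ball (0 : ℂ) r).is_const_of_fderivWithin_eq_zero (𝕜 := ℂ)
      (f := fun z => e z * Complex.exp (-g z))
      (fun z hz => (hd z hz).differentiableAt.differentiableWithinAt) (fun z hz => by
        rw [fderivWithin_of_isOpen isOpen_ball hz]
        have := (hd z hz).hasFDerivAt.fderiv
        rw [this]
        ext; simp) hz ha
  rw [hg0, Complex.exp_neg, Complex.exp_neg, Complex.exp_log (h0 0 ha),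
    mul_inv_cancel₀ (h0 0 ha)] at hconst
  have h4 := Complex.exp_ne_zero (g z)
  field_simp at hconst
  exact hconst.symm

variable {θ H : ℂ → ℂ} {s : ℂ} {n : ℕ} {r : ℝ} {a k : ℤ} {e g f : ℂ → ℂ}

lemma isOpen_VS (s : ℂ) (ε : ℝ) : IsOpen (VS s ε) := by
  have h1 : IsOpen {z : ℂ | ‖z - s‖ < ε} := isOpen_lt (by fun_prop) continuous_const
  have h2 : IsOpen {z : ℂ | Complex.I * (z - s) ∈ Complex.slitPlane} :=
    Complex.isOpen_slitPlane.preimage (by fun_prop)
  exact h1.inter h2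

lemma sgS_ne (hn : 0 < n) {z : ℂ} (h : Complex.I * (z - s) ∈ Complex.slitPlane) :
    sg n s z ≠ 0 := by
  intro h0
  have := sg_pow (s := s) hn z
  rw [h0, zero_pow hn.ne'] at this
  exact Complex.slitPlane_ne_zero h this.symm

lemma sgS_deriv (hn : 0 < n) {z : ℂ} (h : Complex.I * (z - s) ∈ Complex.slitPlane) :
    HasDerivAt (sg n s) (Complex.I / (n * sg n s z ^ (n - 1))) z := by
  have h1 : HasDerivAt (fun z : ℂ => Complex.I * (z - s)) Complex.I z := by
    simpa using ((hasDerivAt_id z).sub_const s).const_mul Complex.I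
  have h2 := h1.cpow_const (c := 1 / (n : ℂ)) h
  have hne := Complex.slitPlane_ne_zero h
  have hnC : (n : ℂ) ≠ 0 := by exact_mod_cast hn.ne'
  have hs := sgS_ne hn h
  refine h2.congr_deriv ?_
  rw [Complex.cpow_sub _ _ hne, Complex.cpow_one]
  have h3 : (Complex.I * (z - s)) ^ (1 / (n : ℂ)) = sg n s z := rfl
  rw [h3, ← sg_pow (s := s) hn z]
  obtain ⟨m, rfl⟩ : ∃ m, n = m + 1 := ⟨n - 1, by omega⟩
  simp only [Nat.add_sub_cancel]
  rw [pow_succ]
  field_simp

/-- `σ^a = exp ((a/n) log (i (z - s)))` -/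
lemma sg_zpow (a : ℤ) {z : ℂ} (h : Complex.I * (z - s) ∈ Complex.slitPlane) :
    sg n s z ^ a = Complex.exp ((a / n : ℂ) * Complex.log (Complex.I * (z - s))) := by
  unfold sg
  rw [Complex.cpow_def_of_ne_zero (Complex.slitPlane_ne_zero h), ← Complex.exp_int_mul]
  congr 1
  ring

namespace EndS

lemma mem_of_VS (D : EndS θ H s n r a k e g f) {z : ℂ} (h : z ∈ VS s (r ^ n)) :
    sg n s z ∈ ball (0 : ℂ) r ∧ sg n s z ≠ 0 := by
  refine ⟨?_, sgS_ne D.n_pos h.2⟩
  rw [mem_ball_zero_iff]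
  exact sg_lt D.n_pos D.r_pos h.1

/-- continuation of `θ` to the slit disc -/
theorem cont (D : EndS θ H s n r a k e g f) (hθ : DifferentiableOn ℂ θ (HD s (r ^ n))) :
    ∃ Θ : ℂ → ℂ, (∀ z ∈ VS s (r ^ n), HasDerivAt Θ (Es k g (sg n s z)) z) ∧
      (∀ z ∈ VS s (r ^ n), Complex.exp (Complex.I * Θ z) = Es a e (sg n s z)) ∧
      ∀ z ∈ HD s (r ^ n), Θ z = θ z := by
  obtain ⟨L, hL, hLe⟩ := log_ball D.r_pos D.e_an D.e_ne
  have hn := D.n_pos
  have hnC : (n : ℂ) ≠ 0 := by exact_mod_cast hn.ne'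
  set Θ0 : ℂ → ℂ := fun z => -Complex.I * ((a / n : ℂ) * Complex.log (Complex.I * (z - s)) +
    L (sg n s z)) with hΘ0
  have hexp : ∀ z ∈ VS s (r ^ n), Complex.exp (Complex.I * Θ0 z) = Es a e (sg n s z) := by
    intro z hz
    have h1 : Complex.I * Θ0 z = (a / n : ℂ) * Complex.log (Complex.I * (z - s)) +
        L (sg n s z) := by
      simp only [hΘ0]
      linear_combination (-((a / n : ℂ) * Complex.log (Complex.I * (z - s)) + L (sg n s z))) *
        Complex.I_sq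
    rw [h1, Complex.exp_add, hLe _ (D.mem_of_VS hz).1, Es, sg_zpow a hz.2]
  have hdiff : ∀ z ∈ VS s (r ^ n), DifferentiableAt ℂ Θ0 z := by
    intro z hz
    have h1 : HasDerivAt (fun z : ℂ => Complex.I * (z - s)) Complex.I z := by
      simpa using ((hasDerivAt_id z).sub_const s).const_mul Complex.I
    have h2 := (h1.clog hz.2).differentiableAt
    have h3 := ((hL _ (D.mem_of_VS hz).1).comp z (sgS_deriv hn hz.2)).differentiableAt
    exact ((h2.const_mul _).add h3).const_mul _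
  have hder : ∀ z ∈ VS s (r ^ n), HasDerivAt Θ0 (Es k g (sg n s z)) z := by
    intro z hz
    have h1 := (hdiff z hz).hasDerivAt
    have h2 := (h1.const_mul Complex.I).cexp
    have h3 : (fun z => Complex.exp (Complex.I * Θ0 z)) =ᶠ[𝓝 z] fun z => Es a e (sg n s z) := by
      filter_upwards [(isOpen_VS s (r ^ n)).mem_nhds hz] with z' hz' using hexp z' hz'
    obtain ⟨hm1, hm2⟩ := D.mem_of_VS hz
    have h4 := ((D.Es_anE hm1 hm2).differentiableAt.hasDerivAt).comp z (sgS_deriv hn hz.2)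
    have h5 := h2.unique (h4.congr_of_eventuallyEq h3)
    rw [hexp z hz, D.dE _ hm1 hm2] at h5
    have h6 := D.E_ne hm1 hm2
    have h7 : sg n s z ^ (n - 1) ≠ 0 := pow_ne_zero _ hm2
    have hI := Complex.I_ne_zero
    have h8 : deriv Θ0 z = Es k g (sg n s z) := by
      field_simp at h5
      exact h5
    rw [← h8]
    exact h1
  have hsub : ∀ z ∈ HD s (r ^ n), z ∈ VS s (r ^ n) := by
    intro z hz
    refine ⟨?_, slit_of hz.2⟩
    have := hz.1
    rwa [mem_ball, dist_eq_norm] at this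
  -- the constant
  have hrn : 0 < r ^ n := pow_pos D.r_pos n
  have hz1 : s + (r ^ n / 2 : ℝ) * (-Complex.I) ∈ HD s (r ^ n) :=
    path_mem (by simp) (by simp) (by linarith) (by linarith)
  set z1 := s + (r ^ n / 2 : ℝ) * (-Complex.I) with hz1d
  have hconst : ∀ z ∈ HD s (r ^ n), θ z - Θ0 z = θ z1 - Θ0 z1 := by
    intro z hz
    have hd : ∀ z ∈ HD s (r ^ n), HasDerivAt (fun z => θ z - Θ0 z) 0 z := by
      intro z hz
      have h1 := ((hθ z hz).differentiableAt ((isOpen_HD _ _).mem_nhds hz)).hasDerivAt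
      rw [D.y_eq z hz] at h1
      have h2 := h1.sub (hder z (hsub z hz))
      rw [sub_self] at h2
      exact h2
    exact (convex_HD s (r ^ n)).is_const_of_fderivWithin_eq_zero (𝕜 := ℂ)
      (f := fun z => θ z - Θ0 z)
      (fun z hz => (hd z hz).differentiableAt.differentiableWithinAt) (fun z hz => by
        rw [fderivWithin_of_isOpen (isOpen_HD _ _) hz]
        have := (hd z hz).hasFDerivAt.fderiv
        rw [this]
        ext; simp) hz hz1
  have hc : Complex.exp (Complex.I * (θ z1 - Θ0 z1)) = 1 := by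
    rw [mul_sub, Complex.exp_sub, D.E_eq z1 hz1, hexp z1 (hsub z1 hz1)]
    obtain ⟨hm1, hm2⟩ := D.mem_of_VS (hsub z1 hz1)
    exact div_self (D.E_ne hm1 hm2)
  refine ⟨fun z => Θ0 z + (θ z1 - Θ0 z1), fun z hz => (hder z hz).add_const _, fun z hz => ?_,
    fun z hz => ?_⟩
  · rw [mul_add, Complex.exp_add, hc, mul_one, hexp z hz]
  · rw [← hconst z hz]
    ring

/-- the logarithm `q` -/
theorem logq (D : EndS θ H s n r a k e g f) {ε : ℝ} (hε : 0 < ε) (hεr : ε < r ^ n) :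
    ∃ (q : ℂ → ℂ) (C : ℝ), DifferentiableOn ℂ q (VS 0 1) ∧
      (∀ τ ∈ VS 0 1, Complex.exp (q τ) = ε * Es k g (sg n s (s + ε * τ))) ∧
      ∀ τ ∈ VS 0 1, ‖deriv q τ - (((k / n : ℝ)) : ℂ) / τ‖ ≤ C * ‖τ‖ ^ ((n : ℝ)⁻¹ - 1) := by
  obtain ⟨L, hL, hLe⟩ := log_ball D.r_pos D.g_an D.g_ne
  have hn := D.n_pos
  have hnC : (n : ℂ) ≠ 0 := by exact_mod_cast hn.ne'
  have hnR : (0 : ℝ) < n := by exact_mod_cast hn
  have hεC : (ε : ℂ) ≠ 0 := by exact_mod_cast hε.ne'
  -- points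
  have hmem : ∀ τ ∈ VS 0 1, s + ε * τ ∈ VS s (r ^ n) := by
    intro τ hτ
    obtain ⟨h1, h2⟩ := hτ
    refine ⟨?_, ?_⟩
    · rw [add_sub_cancel_left, norm_mul, Complex.norm_real, Real.norm_of_nonneg hε.le]
      rw [sub_zero] at h1
      nlinarith [norm_nonneg τ]
    · rw [add_sub_cancel_left]
      rw [sub_zero] at h2
      have h3 : Complex.I * (ε * τ) = ε * (Complex.I * τ) := by ring
      rw [h3, Complex.mem_slitPlane_iff] at *
      rcases h2 with h2 | h2
      · left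
        rw [Complex.re_ofReal_mul]
        positivity
      · right
        rw [Complex.im_ofReal_mul]
        exact mul_ne_zero hε.ne' h2
  -- the radius in `σ`
  set r' : ℝ := ε ^ ((n : ℝ)⁻¹) with hr'
  have hr'n : r' ^ n = ε := Real.rpow_inv_natCast_pow hε.le hn.ne'
  have hr'p : 0 < r' := Real.rpow_pos_of_pos hε _
  have hr'r : r' < r := lt_of_pow_lt_pow_left₀ n D.r_pos.le (by rw [hr'n]; exact hεr)
  obtain ⟨M, hM⟩ := (isCompact_closedBall (0 : ℂ) r').exists_bound_of_continuousOn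
    (f := fun σ => deriv g σ / g σ) (fun σ hσ => by
      have hσ' : σ ∈ ball (0 : ℂ) r := closedBall_subset_ball hr'r hσ
      exact ((D.g_an σ hσ').deriv.continuousAt.div (D.g_an σ hσ').continuousAt
        (D.g_ne σ hσ')).continuousWithinAt)
  have hM0 : 0 ≤ M := (norm_nonneg _).trans (hM 0 (mem_closedBall_self hr'p.le))
  have hder : ∀ τ ∈ VS 0 1, HasDerivAt (fun τ : ℂ => (Real.log ε : ℂ) +
      (k / n : ℂ) * Complex.log (Complex.I * ((s + ε * τ) - s)) + L (sg n s (s + ε * τ)))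
      ((k / n : ℂ) / τ + deriv g (sg n s (s + ε * τ)) / g (sg n s (s + ε * τ)) *
        (Complex.I / (n * sg n s (s + ε * τ) ^ (n - 1)) * ε)) τ := by
    intro τ hτ
    have hm := hmem τ hτ
    have h0 : HasDerivAt (fun τ : ℂ => s + ε * τ) (ε : ℂ) τ := by
      simpa using ((hasDerivAt_id τ).const_mul (ε : ℂ)).const_add s
    have h1 : HasDerivAt (fun τ : ℂ => Complex.I * ((s + ε * τ) - s)) (Complex.I * ε) τ :=
      (h0.sub_const s).const_mul Complex.I
    have h2 := (h1.clog hm.2).const_mul (k / n : ℂ)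
    have h3 := (hL _ (D.mem_of_VS hm).1).comp τ ((sgS_deriv hn hm.2).comp τ h0)
    have h4 := (h2.const_add (Real.log ε : ℂ)).add h3
    refine h4.congr_deriv ?_
    have hτ0 : τ ≠ 0 := by
      rintro rfl
      have := hτ.2
      simp at this
    have hI := Complex.I_ne_zero
    congr 1
    rw [add_sub_cancel_left]
    field_simp
  refine ⟨fun τ => (Real.log ε : ℂ) +
    (k / n : ℂ) * Complex.log (Complex.I * ((s + ε * τ) - s)) + L (sg n s (s + ε * τ)),
    M / n * r', fun τ hτ => (hder τ hτ).differentiableAt.differentiableWithinAt, ?_, ?_⟩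
  · intro τ hτ
    have hm := hmem τ hτ
    rw [Complex.exp_add, Complex.exp_add, hLe _ (D.mem_of_VS hm).1, ← Complex.ofReal_exp,
      Real.exp_log hε, Es, sg_zpow k hm.2]
    ring
  · intro τ hτ
    have hm := hmem τ hτ
    have hτ0 : τ ≠ 0 := by
      rintro rfl
      have := hτ.2
      simp at this
    have hτn : 0 < ‖τ‖ := norm_pos_iff.2 hτ0
    have hτ1 : ‖τ‖ < 1 := by simpa using hτ.1
    rw [(hder τ hτ).deriv]
    have h1 : (((k / n : ℝ)) : ℂ) = (k / n : ℂ) := by push_cast; rfl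
    rw [h1, add_sub_cancel_left, norm_mul, norm_mul, norm_div Complex.I, norm_mul, norm_pow,
      Complex.norm_I, Complex.norm_natCast, Complex.norm_real, Real.norm_of_nonneg hε.le]
    set σ := sg n s (s + ε * τ) with hσ
    have hσn : ‖σ‖ ^ n = ε * ‖τ‖ := by
      rw [hσ, sg_norm hn, add_sub_cancel_left, norm_mul, Complex.norm_real,
        Real.norm_of_nonneg hε.le]
    have hσ0 : 0 < ‖σ‖ := norm_pos_iff.2 (D.mem_of_VS hm).2
    have hσr : ‖σ‖ ≤ r' := by
      refine le_of_pow_le_pow_left₀ hn.ne' hr'p.le ?_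
      rw [hσn, hr'n]
      nlinarith
    have hMσ := hM σ (by rwa [mem_closedBall_zero_iff])
    have hσe : ‖σ‖ = r' * ‖τ‖ ^ ((n : ℝ)⁻¹) := by
      rw [hr', ← Real.mul_rpow hε.le hτn.le, ← hσn, Real.pow_rpow_inv_natCast hσ0.le hn.ne']
    have h2 : 1 / (n * ‖σ‖ ^ (n - 1)) * ε = ‖σ‖ / (n * ‖τ‖) := by
      have h3 : ‖σ‖ ^ n = ‖σ‖ ^ (n - 1) * ‖σ‖ := by
        obtain ⟨m, hm'⟩ : ∃ m, n = m + 1 := ⟨n - 1, by omega⟩
        rw [hm', Nat.add_sub_cancel, pow_succ]
      rw [h3] at hσn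
      have h4 : 0 < ‖σ‖ ^ (n - 1) := pow_pos hσ0 _
      field_simp
      linear_combination (-1) * hσn
    rw [h2]
    have h5 : ‖τ‖ ^ ((n : ℝ)⁻¹ - 1) = ‖τ‖ ^ ((n : ℝ)⁻¹) / ‖τ‖ := by
      rw [Real.rpow_sub hτn, Real.rpow_one]
    rw [h5, hσe]
    calc ‖deriv g σ / g σ‖ * (r' * ‖τ‖ ^ ((n : ℝ)⁻¹) / (n * ‖τ‖))
        ≤ M * (r' * ‖τ‖ ^ ((n : ℝ)⁻¹) / (n * ‖τ‖)) := by
          refine mul_le_mul_of_nonneg_right hMσ ?_
          positivity
      _ = M / n * r' * (‖τ‖ ^ ((n : ℝ)⁻¹) / ‖τ‖) := by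
          field_simp

end EndS

open Crest.Agent.R102.T5 Crest.Agent.R102.G576 Crest.Agent.R102.A929 Crest.Agent.R102.B821
open Crest.Agent.R102.C0 Crest.Agent.R102.C1 Crest.Agent.R102.Spine

/-- the `σ`-chart of a Puiseux point of the top line -/
theorem endS_of_puisB {q₀ : C(ℂ, ℂ)} {η : ℝ} {θ H : ℂ → ℂ} {h0 : ℝ} {s : ℂ} (hD : Datum q₀ η)
    (hle : η ≤ h0) (hV : VExt q₀ η (Str h0) θ H) (hs : s.im = h0) (hP : PuisB h0 θ H s) :
    ∃ (n : ℕ) (r : ℝ) (a k : ℤ) (e g f : ℂ → ℂ), r ^ n ≤ h0 ∧ EndS θ H s n r a k e g f ∧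
      DifferentiableOn ℂ θ (HD s (r ^ n)) ∧ DifferentiableOn ℂ H (HD s (r ^ n)) := by
  have hh0 : 0 < h0 := lt_of_lt_of_le hD.η_pos hle
  obtain ⟨n, hn, E, F, hE, hF, hEF⟩ := hP
  have hLZ := (zeroY q₀ η (Str h0) θ H hD hV).1
  have hsub : ∀ z ∈ HD s h0, z ∈ Str h0 := by
    intro z hz
    have h1 := hz.1
    have h2 : z.im < s.im := hz.2
    rw [mem_ball, dist_eq_norm] at h1
    have h3 := (Complex.abs_im_le_norm (z - s)).trans_lt h1
    rw [Complex.sub_im, abs_lt] at h3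
    change |z.im| < h0
    rw [abs_lt]
    constructor
    · linarith [h3.1]
    · linarith
  have hHDm : HD s h0 ∈ bl s := HD_mem hh0
  obtain ⟨r, a, k, e, g, f, hr, D⟩ := exists_endS (s := s) (n := n) (θ := θ) (H := H)
    (by filter_upwards [hHDm] with z hz using
          hV.θ_diff.differentiableAt (hV.open'.mem_nhds (hsub z hz)))
    (by filter_upwards [hHDm] with z hz using hLZ z (hsub z hz)) hn hE hF
    (by
      have h1 : ∀ᶠ z in bl s, |z.im| < h0 → _ := nhdsWithin_le_nhds hEF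
      filter_upwards [h1, hHDm] with z h2 h3 using h2 (hsub z h3)) hh0
  exact ⟨n, r, a, k, e, g, f, hr, D,
    hV.θ_diff.mono fun z hz => hsub z (HD_mono hr hz),
    hV.H_diff.mono fun z hz => hsub z (HD_mono hr hz)⟩

/-- **P1** -/
theorem p1 : Crest.Agent.R102.T5R.P1 := by
  intro q₀ η ρ r₀ B b φ p m₀ θ H h0 s hD hs hP
  obtain ⟨n, r, a, k, e, g, f, hr, D, hθ, hH⟩ := endS_of_puisB hD.fam.dat hD.le hD.ext hs hP
  have hn := D.n_pos
  have hnR : (0 : ℝ) < n := by exact_mod_cast hn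
  have hrp := D.r_pos
  set ε : ℝ := (r / 2) ^ n with hε
  have hεp : 0 < ε := by positivity
  have hεr : ε < r ^ n := pow_lt_pow_left₀ (by linarith) (by positivity) hn.ne'
  have hVS : VS s ε ⊆ VS s (r ^ n) := fun z hz => ⟨hz.1.trans hεr, hz.2⟩
  obtain ⟨Θ, hΘ1, hΘ2, hΘ3⟩ := D.cont hθ
  obtain ⟨q, C, hq1, hq2, hq3⟩ := D.logq hεp hεr
  have hHD : ∀ z ∈ VS s ε, |z.im| < h0 → z ∈ HD s (r ^ n) := by
    intro z hz h1
    refine ⟨?_, ?_⟩
    · rw [mem_ball, dist_eq_norm]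
      exact (hVS hz).1
    · change z.im < s.im
      rw [hs]
      exact (abs_lt.1 h1).2
  have hmem : ∀ τ ∈ VS 0 1, s + ε * τ ∈ VS s ε := by
    intro τ hτ
    obtain ⟨h1, h2⟩ := hτ
    refine ⟨?_, ?_⟩
    · rw [add_sub_cancel_left, norm_mul, Complex.norm_real, Real.norm_of_nonneg hεp.le]
      rw [sub_zero] at h1
      nlinarith [norm_nonneg τ]
    · rw [add_sub_cancel_left]
      rw [sub_zero] at h2
      have h3 : Complex.I * (ε * τ) = ε * (Complex.I * τ) := by ring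
      rw [h3, Complex.mem_slitPlane_iff] at *
      rcases h2 with h2 | h2
      · left
        rw [Complex.re_ofReal_mul]
        positivity
      · right
        rw [Complex.im_ofReal_mul]
        exact mul_ne_zero hεp.ne' h2
  refine ⟨ε, Θ, fun z => f (sg n s z), q, (k / n : ℝ), (n : ℝ)⁻¹, C, ⟨hεp, hεr.trans_le hr,
    fun z hz => (hΘ1 z (hVS hz)).differentiableAt.differentiableWithinAt, ?_, ?_, ?_, hq1, ?_,
    by positivity, hq3⟩, ?_⟩
  · intro z hz
    obtain ⟨h1, h2⟩ := D.mem_of_VS (hVS hz)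
    exact ((D.f_an _ h1 h2).differentiableAt.comp z
      (sgS_deriv hn hz.2).differentiableAt).differentiableWithinAt
  · exact fun z hz h1 => hΘ3 z (hHD z hz h1)
  · exact fun z hz h1 => (D.H_eq z (hHD z hz h1)).symm
  · intro τ hτ
    rw [hq2 τ hτ, (hΘ1 _ (hVS (hmem τ hτ))).deriv]
  · by_cases ha : a = 0
    · left
      have h1 := D.flat ha
      have h2 := D.flat1 ha
      have h3 := D.flat2 ha
      refine ⟨?_, ?_, ?_⟩
      · rw [lt_div_iff₀ hnR]
        have : -(n : ℝ) < k := by exact_mod_cast h1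
        linarith
      · intro h4
        apply h2
        have : (2 * k : ℝ) = n := by
          field_simp at h4
          linarith
        exact_mod_cast this
      · intro h4
        apply h3
        rw [div_eq_iff hnR.ne'] at h4
        exact_mod_cast h4
    · right
      obtain ⟨h1, h2⟩ := D.iso ha
      obtain ⟨h3, h4⟩ := D.iso3 ha
      have haR : (a : ℝ) ≠ 0 := by exact_mod_cast ha
      refine ⟨?_, |(a : ℝ)| / n, by positivity, ?_, ?_⟩
      · rw [h1]
        push_cast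
        field_simp
      · intro h5
        rw [div_eq_iff hnR.ne'] at h5
        rcases abs_eq_abs.1 (show |(a : ℝ)| = |(3 * n : ℝ)| by
          rw [h5, abs_of_pos (by positivity)]) with h6 | h6
        · exact h3 (by exact_mod_cast h6)
        · exact h4 (by exact_mod_cast h6)
      · have hlim : Tendsto (fun τ => τ * Complex.exp (q τ)) (𝓝[VS 0 1] 0)
            (𝓝 (-Complex.I * g 0)) := by
          have hsg : Tendsto (fun τ : ℂ => sg n s (s + ε * τ)) (𝓝[VS 0 1] 0) (𝓝 0) := by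
            rw [Metric.tendsto_nhds]
            intro δ hδ
            have h5 : ball (0 : ℂ) (δ ^ n / ε) ∈ 𝓝[VS 0 1] (0 : ℂ) :=
              mem_nhdsWithin_of_mem_nhds (ball_mem_nhds 0 (by positivity))
            filter_upwards [h5] with τ h6
            rw [dist_zero_right]
            refine sg_lt hn hδ ?_
            rw [add_sub_cancel_left, norm_mul, Complex.norm_real, Real.norm_of_nonneg hεp.le]
            rw [mem_ball_zero_iff, lt_div_iff₀ hεp] at h6
            linarith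
          have hg : Tendsto (fun τ : ℂ => -Complex.I * g (sg n s (s + ε * τ))) (𝓝[VS 0 1] 0)
              (𝓝 (-Complex.I * g 0)) :=
            ((D.g_an 0 D.zero_mem).continuousAt.tendsto.comp hsg).const_mul _
          refine hg.congr' ?_
          filter_upwards [self_mem_nhdsWithin] with τ hτ
          rw [hq2 τ hτ, Es, h1, zpow_neg, zpow_natCast, sg_pow hn, add_sub_cancel_left]
          have hτ0 : τ ≠ 0 := by
            rintro rfl
            have := hτ.2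
            simp at this
          have hεC : (ε : ℂ) ≠ 0 := by exact_mod_cast hεp.ne'
          have hI := Complex.I_ne_zero
          field_simp
          linear_combination (-(g (sg n s (s + ε * τ)))) * Complex.I_sq
        have hnC : (n : ℂ) ≠ 0 := by exact_mod_cast hn.ne'
        rcases lt_or_gt_of_ne ha with h5 | h5
        · refine ⟨1, Or.inl rfl, ?_⟩
          have h6 : (1 : ℂ) * Complex.I * ((|(a : ℝ)| / n : ℝ) : ℂ) = -Complex.I * g 0 := by
            have h7 : (a : ℝ) < 0 := by exact_mod_cast h5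
            rw [h2, abs_of_neg h7]
            push_cast
            ring
          rw [h6]
          exact hlim
        · refine ⟨-1, Or.inr rfl, ?_⟩
          have h6 : (-1 : ℂ) * Complex.I * ((|(a : ℝ)| / n : ℝ) : ℂ) = -Complex.I * g 0 := by
            have h7 : (0 : ℝ) < (a : ℝ) := by exact_mod_cast h5
            rw [h2, abs_of_pos h7]
            push_cast
            ring
          rw [h6]
          exact hlim

end

end Crest.Agent.R102.End416
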