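import Mathlib
import Crest.Agent.R102.MelDefs_490
import Crest.Agent.R102.C1SecB_963
import Crest.Agent.R102.C1L_821
import Crest.Agent.R102.P1_416
import Crest.Agent.R102.T5End_160

/-!
# Row 102, part (C), [T5]/MEL: data of the two sides at a Puiseux end (helper490)

* `SgZ s a ε κ` : slit sector at `s` in the `z` plane, `a = 1` side `A` (below `s`), `a = -1` side `B`;
* `SideZ`       : `(θ, H)` with the Lazutkin relation and the leaf function on one side;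
* `KPsi`        : transfer of one side to `T5R.Fam (PsiQ q)`;
* `SecAB`       : both sides exist and agree on the right (from 416's sigma chart `End416.EndS`);
* `FlatEnd`, `IsoEnd` : the two ends of ML-Z (519).
-/

set_option autoImplicit false

open Set Filter Topology Metric
open scoped ComplexConjugate

noncomputable section

namespace Crest.Agent.R102.Mel

open Crest.Agent.R102.T5R Crest.Agent.R102.C1 Crest.Agent.R102.C1Sec963 Crest.Agent.R102.Spine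
open Crest.Agent.R102.End416 (Es sg)

/-- slit sector at `s`: `z = s + a ε τ`, `τ ∈ Sg κ` (`a = 1` or `a = -1`) -/
def SgZ (s a : ℂ) (ε κ : ℝ) : Set ℂ :=
  {z | z ≠ s ∧ ‖z - s‖ < ε ∧ ((z - s) / a).im < κ * ‖z - s‖}

/-- `(θ, H)` and the leaf function on one side of the end `s` -/
structure SideZ (s a : ℂ) (ε κ : ℝ) (θ H : ℂ → ℂ) (X : ℂ × ℂ → ℂ) : Prop where
  ha : a = 1 ∨ a = -1
  ε_pos : 0 < ε
  κ_pos : 0 < κ
  κ_lt : κ < 1
  lz : LZ (SgZ s a ε κ) θ H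
  ne : ∀ z ∈ SgZ s a ε κ, deriv θ z ≠ 0
  leaf : LeafLoc (kk θ H) (SgZ s a ε κ) X
  even : ∀ t ∈ SgZ s a ε κ, ∀ᶠ p in 𝓝 ((t, 0) : ℂ × ℂ), X (p.1, -p.2) = X p

/-- **(K→PSI)** one side in the scaled variable `τ`, `z = s + a (l ε₁) τ`; `q` is given on the
larger disc (`ε₁`), the family lives on the smaller one (`l ε₁`, `scq l q`, `T5End_160`) -/
def KPsi : Prop :=
  ∀ (s a : ℂ) (ε κ : ℝ) (θ H : ℂ → ℂ) (X : ℂ × ℂ → ℂ), SideZ s a ε κ θ H X →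
    ∀ (ε₁ l κ' : ℝ) (q : ℂ → ℂ), 0 < ε₁ → ε₁ ≤ ε → 0 < l → l < 1 → 0 < κ' → κ' < κ →
      DifferentiableOn ℂ q (Sg κ) →
      (∀ τ ∈ Sg κ, Complex.exp (q τ) = ε₁ * deriv θ (s + a * ε₁ * τ)) →
      ∃ r B : ℝ → ℝ, Fam κ' (PsiQ (scq l q)) r B
        (fun p => (X (s + a * (l * ε₁) * p.1, a * (l * ε₁) * p.2) - s) / (a * (l * ε₁)))

/-- coordinate of sheet `B`: `σ = e^{iπ/n} (i (s - z))^(1/n)` (sheet `A`: `End416.sg n s`) -/
def sgB (n : ℕ) (s z : ℂ) : ℂ :=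
  Complex.exp (Real.pi * Complex.I / n) * (Complex.I * (s - z)) ^ (1 / (n : ℂ))

/-- the sheet `(θ, H)` over `V` in the coordinate `σ = c z` -/
structure Sheet (c : ℂ → ℂ) (V : Set ℂ) (a k : ℤ) (e g f : ℂ → ℂ) (θ H : ℂ → ℂ) : Prop where
  E : ∀ z ∈ V, Complex.exp (Complex.I * θ z) = Es a e (c z)
  y : ∀ z ∈ V, HasDerivAt θ (Es k g (c z)) z
  H : ∀ z ∈ V, H z = f (c z)

/-- **(SEC-AB)** both sides of a Puiseux end -/
def SecAB : Prop :=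
  ∀ (q : C(ℂ, ℂ)) (η ρ r B : ℝ) (b φ p : ℂ × ℂ → ℂ) (m₀ : ℂ → ℂ) (θ H : ℂ → ℂ) (h0 : ℝ),
    DataS q η ρ r B b φ p m₀ θ H h0 → ∀ (s : ℂ) (n : ℕ) (r₁ : ℝ) (a k : ℤ) (e g f : ℂ → ℂ),
      s.im = h0 → r₁ ^ n ≤ h0 → End416.EndS θ H s n r₁ a k e g f →
      ∃ (ε κ : ℝ) (θA HA θB HB : ℂ → ℂ) (XA XB : ℂ × ℂ → ℂ), ε < r₁ ^ n ∧ κ < 1 / 10 ∧
        SideZ s 1 ε κ θA HA XA ∧ SideZ s (-1) ε κ θB HB XB ∧
        Sheet (sg n s) (SgZ s 1 ε κ) a k e g f θA HA ∧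
        Sheet (sgB n s) (SgZ s (-1) ε κ) a k e g f θB HB ∧
        (∀ z ∈ SgZ s 1 ε κ, z.im < h0 → θA z = θ z ∧ HA z = H z) ∧
        (∀ z ∈ SgZ s 1 ε κ, z ∈ SgZ s (-1) ε κ → 0 < (z - s).re → θB z = θA z ∧ HB z = HA z ∧
          ∀ᶠ x in 𝓝 ((z, 0) : ℂ × ℂ), XB x = XA x)

/-! ### the two ends of ML-Z (519) -/



end Crest.Agent.R102.Mel
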