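import Mathlib
import Crest.Agent.R102.P1_416
import Crest.Agent.R102.MelDefs_490
import Crest.Agent.R102.MelData_490

-- ▼ part R102/MelC_416
section

/-!
Row 102, part (C), T5-MEL: curve half of MEL-DATA.  The sheets of the `σ`-chart.

A sheet is given by `ω = ± 1`, `ζ^n = ω`: `σ = ζ (ω i (z - s))^(1/n)` on
`VW s ω ε = {‖z - s‖ < ε, ω i (z - s) ∉ (-∞, 0]}`; scaled variable `z = s + ω ε τ`, `τ ∈ VS 0 1`.
Side `A`: `ζ = ω = 1`; side `B`: `ζ = e^{iπ/n}`, `ω = -1`.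
-/

set_option autoImplicit false

namespace Crest.Agent.R102.End416

open Set Filter Topology Metric
open Crest.Agent.R102.Pain416 (HD bl bl_basis HD_mem HD_mono isOpen_HD convex_HD path_mem)
open Crest.Agent.R102.T5R (VS IsoLead Sg EndQ Sg_sub_VS)
open Crest.Agent.R102.Mel (Slope Pos OvR)

noncomputable section

/-- a sheet -/
structure Sht (n : ℕ) (ζ ω : ℂ) : Prop where
  hω : ω = 1 ∨ ω = -1
  hζ : ζ ^ n = ω

/-- the chart of a sheet -/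
def sgw (n : ℕ) (s ζ ω z : ℂ) : ℂ := ζ * (ω * (Complex.I * (z - s))) ^ (1 / (n : ℂ))

/-- slit disc of a sheet -/
def VW (s ω : ℂ) (ε : ℝ) : Set ℂ := {z | ‖z - s‖ < ε ∧ ω * (Complex.I * (z - s)) ∈ Complex.slitPlane}

/-- scaled chart of a sheet -/
def st (n : ℕ) (s ζ ω : ℂ) (ε : ℝ) (τ : ℂ) : ℂ := sgw n s ζ ω (s + ω * (ε * τ))

variable {θ H : ℂ → ℂ} {s : ℂ} {n : ℕ} {r : ℝ} {a k : ℤ} {e g f : ℂ → ℂ} {ζ ω : ℂ}

namespace Sht

lemma sq (S : Sht n ζ ω) : ω * ω = 1 := by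
  rcases S.hω with h | h <;> rw [h] <;> norm_num

lemma norm_ω (S : Sht n ζ ω) : ‖ω‖ = 1 := by
  rcases S.hω with h | h <;> rw [h] <;> simp

lemma ω_ne (S : Sht n ζ ω) : ω ≠ 0 := by
  intro h
  have := S.norm_ω
  rw [h] at this
  simp at this

lemma ζ_ne (S : Sht n ζ ω) (hn : 0 < n) : ζ ≠ 0 := by
  intro h
  have := S.hζ
  rw [h, zero_pow hn.ne'] at this
  exact S.ω_ne this.symm

end Sht

lemma isOpen_VW (s ω : ℂ) (ε : ℝ) : IsOpen (VW s ω ε) := by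
  have h1 : IsOpen {z : ℂ | ‖z - s‖ < ε} := isOpen_lt (by fun_prop) continuous_const
  have h2 : IsOpen {z : ℂ | ω * (Complex.I * (z - s)) ∈ Complex.slitPlane} :=
    Complex.isOpen_slitPlane.preimage (by fun_prop)
  exact h1.inter h2

lemma sgw_pow (S : Sht n ζ ω) (hn : 0 < n) (z : ℂ) : sgw n s ζ ω z ^ n = Complex.I * (z - s) := by
  unfold sgw
  rw [mul_pow, one_div, Complex.cpow_nat_inv_pow _ hn.ne', S.hζ, ← mul_assoc, S.sq, one_mul]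

lemma sgw_ne (S : Sht n ζ ω) (hn : 0 < n) {z : ℂ}
    (h : ω * (Complex.I * (z - s)) ∈ Complex.slitPlane) : sgw n s ζ ω z ≠ 0 := by
  intro h0
  have := sgw_pow (s := s) S hn z
  rw [h0, zero_pow hn.ne'] at this
  refine Complex.slitPlane_ne_zero h ?_
  rw [← this, mul_zero]

lemma sgw_norm (S : Sht n ζ ω) (hn : 0 < n) (z : ℂ) : ‖sgw n s ζ ω z‖ ^ n = ‖z - s‖ := by
  rw [← norm_pow, sgw_pow S hn, norm_mul, Complex.norm_I, one_mul]

lemma sgw_lt (S : Sht n ζ ω) (hn : 0 < n) {r : ℝ} (hr : 0 < r) {z : ℂ} (h : ‖z - s‖ < r ^ n) :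
    ‖sgw n s ζ ω z‖ < r := by
  refine lt_of_pow_lt_pow_left₀ n hr.le ?_
  rw [sgw_norm S hn]
  exact h

lemma sgw_deriv (S : Sht n ζ ω) (hn : 0 < n) {z : ℂ}
    (h : ω * (Complex.I * (z - s)) ∈ Complex.slitPlane) :
    HasDerivAt (sgw n s ζ ω) (Complex.I / (n * sgw n s ζ ω z ^ (n - 1))) z := by
  have h1 : HasDerivAt (fun z : ℂ => ω * (Complex.I * (z - s))) (ω * Complex.I) z := by
    simpa using (((hasDerivAt_id z).sub_const s).const_mul Complex.I).const_mul ω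
  have h2 := (h1.cpow_const (c := 1 / (n : ℂ)) h).const_mul ζ
  have hne := Complex.slitPlane_ne_zero h
  have hnC : (n : ℂ) ≠ 0 := by exact_mod_cast hn.ne'
  have hs := sgw_ne S hn h
  refine h2.congr_deriv ?_
  rw [Complex.cpow_sub _ _ hne, Complex.cpow_one]
  set u := (ω * (Complex.I * (z - s))) ^ (1 / (n : ℂ)) with hu
  have hun : u ^ n = ω * (Complex.I * (z - s)) := by
    rw [hu, one_div, Complex.cpow_nat_inv_pow _ hn.ne']
  have hσ : sgw n s ζ ω z = ζ * u := rfl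
  have hσn := sgw_pow (s := s) S hn z
  rw [hσ] at hs hσn ⊢
  have hI := Complex.I_ne_zero
  have hzs : z - s ≠ 0 := by
    intro h0
    rw [h0] at hne
    simp at hne
  have hω := S.ω_ne
  obtain ⟨m, rfl⟩ : ∃ m, n = m + 1 := ⟨n - 1, by omega⟩
  simp only [Nat.add_sub_cancel]
  have h5 : (ζ * u) ^ m * (ζ * u) = Complex.I * (z - s) := by rw [← pow_succ, hσn]
  have h6 : (ζ * u) ^ m ≠ 0 := pow_ne_zero _ hs
  have hζ0 : ζ ≠ 0 := left_ne_zero_of_mul hs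
  have hu0 : u ≠ 0 := right_ne_zero_of_mul hs
  rw [← h5]
  field_simp

namespace EndS

lemma mem_of_VW (D : EndS θ H s n r a k e g f) (S : Sht n ζ ω) {z : ℂ} (h : z ∈ VW s ω (r ^ n)) :
    sgw n s ζ ω z ∈ ball (0 : ℂ) r ∧ sgw n s ζ ω z ≠ 0 := by
  refine ⟨?_, sgw_ne S D.n_pos h.2⟩
  rw [mem_ball_zero_iff]
  exact sgw_lt S D.n_pos D.r_pos h.1

/-- continuation of `θ` to a sheet; `T ⊆ HD` convex open, where the sheet is the principal one -/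
theorem contW (D : EndS θ H s n r a k e g f) (S : Sht n ζ ω)
    (hθ : DifferentiableOn ℂ θ (HD s (r ^ n))) {T : Set ℂ} (hTo : IsOpen T) (hTc : Convex ℝ T)
    (hT1 : T ⊆ HD s (r ^ n)) (hT2 : T ⊆ VW s ω (r ^ n)) (hT3 : ∀ z ∈ T, sgw n s ζ ω z = sg n s z)
    (hTn : T.Nonempty) :
    ∃ Θ : ℂ → ℂ, (∀ z ∈ VW s ω (r ^ n), HasDerivAt Θ (Es k g (sgw n s ζ ω z)) z) ∧
      (∀ z ∈ VW s ω (r ^ n), Complex.exp (Complex.I * Θ z) = Es a e (sgw n s ζ ω z)) ∧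
      ∀ z ∈ T, Θ z = θ z := by
  obtain ⟨L, hL, hLe⟩ := log_ball D.r_pos D.e_an D.e_ne
  have hn := D.n_pos
  have hnC : (n : ℂ) ≠ 0 := by exact_mod_cast hn.ne'
  have hζa : ζ ^ a ≠ 0 := zpow_ne_zero _ (S.ζ_ne hn)
  set Θ0 : ℂ → ℂ := fun z => -Complex.I * (Complex.log (ζ ^ a) +
    (a / n : ℂ) * Complex.log (ω * (Complex.I * (z - s))) + L (sgw n s ζ ω z)) with hΘ0
  have hexp : ∀ z ∈ VW s ω (r ^ n), Complex.exp (Complex.I * Θ0 z) = Es a e (sgw n s ζ ω z) := by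
    intro z hz
    have h1 : Complex.I * Θ0 z = Complex.log (ζ ^ a) +
        (a / n : ℂ) * Complex.log (ω * (Complex.I * (z - s))) + L (sgw n s ζ ω z) := by
      simp only [hΘ0]
      linear_combination (-(Complex.log (ζ ^ a) +
        (a / n : ℂ) * Complex.log (ω * (Complex.I * (z - s))) + L (sgw n s ζ ω z))) *
        Complex.I_sq
    rw [h1, Complex.exp_add, Complex.exp_add, hLe _ (D.mem_of_VW S hz).1, Complex.exp_log hζa, Es]
    congr 1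
    unfold sgw
    rw [mul_zpow, Complex.cpow_def_of_ne_zero (Complex.slitPlane_ne_zero hz.2),
      ← Complex.exp_int_mul]
    congr 2
    ring
  have hdiff : ∀ z ∈ VW s ω (r ^ n), DifferentiableAt ℂ Θ0 z := by
    intro z hz
    have h1 : HasDerivAt (fun z : ℂ => ω * (Complex.I * (z - s))) (ω * Complex.I) z := by
      simpa using (((hasDerivAt_id z).sub_const s).const_mul Complex.I).const_mul ω
    have h2 := (h1.clog hz.2).differentiableAt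
    have h3 := ((hL _ (D.mem_of_VW S hz).1).comp z (sgw_deriv S hn hz.2)).differentiableAt
    exact (((h2.const_mul _).const_add _).add h3).const_mul _
  have hder : ∀ z ∈ VW s ω (r ^ n), HasDerivAt Θ0 (Es k g (sgw n s ζ ω z)) z := by
    intro z hz
    have h1 := (hdiff z hz).hasDerivAt
    have h2 := (h1.const_mul Complex.I).cexp
    have h3 : (fun z => Complex.exp (Complex.I * Θ0 z)) =ᶠ[𝓝 z] fun z => Es a e (sgw n s ζ ω z) := by
      filter_upwards [(isOpen_VW s ω (r ^ n)).mem_nhds hz] with z' hz' using hexp z' hz'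
    obtain ⟨hm1, hm2⟩ := D.mem_of_VW S hz
    have h4 := ((D.Es_anE hm1 hm2).differentiableAt.hasDerivAt).comp z (sgw_deriv S hn hz.2)
    have h5 := h2.unique (h4.congr_of_eventuallyEq h3)
    rw [hexp z hz, D.dE _ hm1 hm2] at h5
    have h6 := D.E_ne hm1 hm2
    have h7 : sgw n s ζ ω z ^ (n - 1) ≠ 0 := pow_ne_zero _ hm2
    have hI := Complex.I_ne_zero
    have h8 : deriv Θ0 z = Es k g (sgw n s ζ ω z) := by
      field_simp at h5
      exact h5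
    rw [← h8]
    exact h1
  -- the constant
  obtain ⟨z1, hz1⟩ := hTn
  have hconst : ∀ z ∈ T, θ z - Θ0 z = θ z1 - Θ0 z1 := by
    intro z hz
    have hd : ∀ z ∈ T, HasDerivAt (fun z => θ z - Θ0 z) 0 z := by
      intro z hz
      have h1 := ((hθ z (hT1 hz)).differentiableAt ((isOpen_HD _ _).mem_nhds (hT1 hz))).hasDerivAt
      rw [D.y_eq z (hT1 hz), ← hT3 z hz] at h1
      have h2 := h1.sub (hder z (hT2 hz))
      rw [sub_self] at h2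
      exact h2
    exact hTc.is_const_of_fderivWithin_eq_zero (𝕜 := ℂ)
      (f := fun z => θ z - Θ0 z)
      (fun z hz => (hd z hz).differentiableAt.differentiableWithinAt) (fun z hz => by
        rw [fderivWithin_of_isOpen hTo hz]
        have := (hd z hz).hasFDerivAt.fderiv
        rw [this]
        ext; simp) hz hz1
  have hc : Complex.exp (Complex.I * (θ z1 - Θ0 z1)) = 1 := by
    rw [mul_sub, Complex.exp_sub, D.E_eq z1 (hT1 hz1), hexp z1 (hT2 hz1), hT3 z1 hz1]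
    obtain ⟨hm1, hm2⟩ := D.mem_of_VW S (hT2 hz1)
    rw [hT3 z1 hz1] at hm1 hm2
    exact div_self (D.E_ne hm1 hm2)
  refine ⟨fun z => Θ0 z + (θ z1 - Θ0 z1), fun z hz => (hder z hz).add_const _, fun z hz => ?_,
    fun z hz => ?_⟩
  · rw [mul_add, Complex.exp_add, hc, mul_one, hexp z hz]
  · rw [← hconst z hz]
    ring

end EndS

/-! ### scaled variable -/

lemma st_mem (S : Sht n ζ ω) {ε δ : ℝ} (hε : 0 < ε) (hεδ : ε ≤ δ) {τ : ℂ} (hτ : τ ∈ VS 0 1) :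
    s + ω * (ε * τ) ∈ VW s ω δ := by
  obtain ⟨h1, h2⟩ := hτ
  rw [sub_zero] at h1 h2
  refine ⟨?_, ?_⟩
  · rw [add_sub_cancel_left, norm_mul, norm_mul, S.norm_ω, one_mul, Complex.norm_real,
      Real.norm_of_nonneg hε.le]
    nlinarith [norm_nonneg τ]
  · rw [add_sub_cancel_left]
    have h3 : ω * (Complex.I * (ω * (ε * τ))) = ε * (Complex.I * τ) := by
      linear_combination (Complex.I * ε * τ) * S.sq
    rw [h3, Complex.mem_slitPlane_iff] at *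
    rcases h2 with h2 | h2
    · left
      rw [Complex.re_ofReal_mul]
      positivity
    · right
      rw [Complex.im_ofReal_mul]
      exact mul_ne_zero hε.ne' h2

lemma st_pow (S : Sht n ζ ω) (hn : 0 < n) {ε : ℝ} (τ : ℂ) :
    st n s ζ ω ε τ ^ n = ω * (Complex.I * (ε * τ)) := by
  unfold st
  rw [sgw_pow S hn, add_sub_cancel_left]
  ring

lemma st_norm (S : Sht n ζ ω) (hn : 0 < n) {ε : ℝ} (hε : 0 < ε) (τ : ℂ) :
    ‖st n s ζ ω ε τ‖ ^ n = ε * ‖τ‖ := by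
  rw [← norm_pow, st_pow S hn, norm_mul, norm_mul, norm_mul, S.norm_ω, Complex.norm_I,
    Complex.norm_real, Real.norm_of_nonneg hε.le, one_mul, one_mul]

lemma ne_of_VS {τ : ℂ} (hτ : τ ∈ VS 0 1) : τ ≠ 0 := by
  rintro rfl
  have := hτ.2
  simp at this

lemma st_ne (S : Sht n ζ ω) (hn : 0 < n) {ε : ℝ} (hε : 0 < ε) {τ : ℂ} (hτ : τ ∈ VS 0 1) :
    st n s ζ ω ε τ ≠ 0 := by
  unfold st
  exact sgw_ne S hn (st_mem (s := s) S hε le_rfl hτ).2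

lemma st_deriv (S : Sht n ζ ω) (hn : 0 < n) {ε : ℝ} (hε : 0 < ε) {τ : ℂ} (hτ : τ ∈ VS 0 1) :
    HasDerivAt (st n s ζ ω ε) (Complex.I / (n * st n s ζ ω ε τ ^ (n - 1)) * (ω * ε)) τ := by
  have h0 : HasDerivAt (fun τ : ℂ => s + ω * (ε * τ)) (ω * ε) τ := by
    simpa using (((hasDerivAt_id τ).const_mul (ε : ℂ)).const_mul ω).const_add s
  exact (sgw_deriv S hn (st_mem (s := s) S hε le_rfl hτ).2).comp τ h0

lemma st_tendsto (S : Sht n ζ ω) (hn : 0 < n) {ε : ℝ} (hε : 0 < ε) :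
    Tendsto (st n s ζ ω ε) (𝓝[VS 0 1] 0) (𝓝[≠] 0) := by
  refine tendsto_nhdsWithin_iff.2 ⟨?_, ?_⟩
  · rw [Metric.tendsto_nhds]
    intro δ hδ
    have h5 : ball (0 : ℂ) (δ ^ n / ε) ∈ 𝓝[VS 0 1] (0 : ℂ) :=
      mem_nhdsWithin_of_mem_nhds (ball_mem_nhds 0 (by positivity))
    filter_upwards [h5] with τ h6
    rw [dist_zero_right]
    refine lt_of_pow_lt_pow_left₀ n hδ.le ?_
    rw [st_norm S hn hε]
    rw [mem_ball_zero_iff, lt_div_iff₀ hε] at h6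
    linarith
  · filter_upwards [self_mem_nhdsWithin] with τ hτ using st_ne S hn hε hτ

namespace EndS

lemma st_ball (D : EndS θ H s n r a k e g f) (S : Sht n ζ ω) {ε : ℝ} (hε : 0 < ε)
    (hεr : ε < r ^ n) {τ : ℂ} (hτ : τ ∈ VS 0 1) : st n s ζ ω ε τ ∈ ball (0 : ℂ) r :=
  (D.mem_of_VW S (st_mem (s := s) S hε hεr.le hτ)).1

/-- the logarithm `q` on a sheet -/
theorem logW (D : EndS θ H s n r a k e g f) (S : Sht n ζ ω) {ε : ℝ} (hε : 0 < ε)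
    (hεr : ε < r ^ n) :
    ∃ (q : ℂ → ℂ) (C : ℝ), DifferentiableOn ℂ q (VS 0 1) ∧
      (∀ τ ∈ VS 0 1, Complex.exp (q τ) = ε * Es k g (st n s ζ ω ε τ)) ∧
      ∀ τ ∈ VS 0 1, ‖deriv q τ - (((k / n : ℝ)) : ℂ) / τ‖ ≤ C * ‖τ‖ ^ ((n : ℝ)⁻¹ - 1) := by
  obtain ⟨L, hL, hLe⟩ := log_ball D.r_pos D.g_an D.g_ne
  have hn := D.n_pos
  have hnC : (n : ℂ) ≠ 0 := by exact_mod_cast hn.ne'
  have hnR : (0 : ℝ) < n := by exact_mod_cast hn
  have hεC : (ε : ℂ) ≠ 0 := by exact_mod_cast hε.ne'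
  have hζk : ζ ^ k ≠ 0 := zpow_ne_zero _ (S.ζ_ne hn)
  -- the radius in `σ`
  set r' : ℝ := ε ^ ((n : ℝ)⁻¹) with hr'
  have hr'n : r' ^ n = ε := Real.rpow_inv_natCast_pow hε.le hn.ne'
  have hr'p : 0 < r' := Real.rpow_pos_of_pos hε _
  have hr'r : r' < r := lt_of_pow_lt_pow_left₀ n D.r_pos.le (by rw [hr'n]; exact hεr)
  obtain ⟨M, hM⟩ := (isCompact_closedBall (0 : ℂ) r').exists_bound_of_continuousOn
    (f := fun σ => deriv g σ / g σ) (fun σ hσ => by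
      have hσ' : σ ∈ ball (0 : ℂ) r := closedBall_subset_ball hr'r hσ
      exact ((D.g_an σ hσ').deriv.continuousAt.div (D.g_an σ hσ').continuousAt
        (D.g_ne σ hσ')).continuousWithinAt)
  have hM0 : 0 ≤ M := (norm_nonneg _).trans (hM 0 (mem_closedBall_self hr'p.le))
  have hder : ∀ τ ∈ VS 0 1, HasDerivAt (fun τ : ℂ => (Real.log ε : ℂ) + (Complex.log (ζ ^ k) +
      (k / n : ℂ) * Complex.log (ω * (Complex.I * ((s + ω * (ε * τ)) - s)))) +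
        L (st n s ζ ω ε τ))
      ((k / n : ℂ) / τ + deriv g (st n s ζ ω ε τ) / g (st n s ζ ω ε τ) *
        (Complex.I / (n * st n s ζ ω ε τ ^ (n - 1)) * (ω * ε))) τ := by
    intro τ hτ
    have hm := st_mem (s := s) S hε hεr.le hτ
    have h0 : HasDerivAt (fun τ : ℂ => s + ω * (ε * τ)) (ω * ε) τ := by
      simpa using (((hasDerivAt_id τ).const_mul (ε : ℂ)).const_mul ω).const_add s
    have h1 : HasDerivAt (fun τ : ℂ => ω * (Complex.I * ((s + ω * (ε * τ)) - s)))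
        (ω * (Complex.I * (ω * ε))) τ := ((h0.sub_const s).const_mul Complex.I).const_mul ω
    have h2 := ((h1.clog hm.2).const_mul (k / n : ℂ)).const_add (Complex.log (ζ ^ k))
    have h3 := (hL _ (D.mem_of_VW S hm).1).comp τ (st_deriv S hn hε hτ)
    have h4 := (h2.const_add (Real.log ε : ℂ)).add h3
    refine h4.congr_deriv ?_
    have hτ0 := ne_of_VS hτ
    have hI := Complex.I_ne_zero
    have hω := S.ω_ne
    congr 1
    rw [add_sub_cancel_left]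
    field_simp
  refine ⟨fun τ => (Real.log ε : ℂ) + (Complex.log (ζ ^ k) +
      (k / n : ℂ) * Complex.log (ω * (Complex.I * ((s + ω * (ε * τ)) - s)))) +
        L (st n s ζ ω ε τ),
    M / n * r', fun τ hτ => (hder τ hτ).differentiableAt.differentiableWithinAt, ?_, ?_⟩
  · intro τ hτ
    have hm := st_mem (s := s) S hε hεr.le hτ
    rw [Complex.exp_add, Complex.exp_add, Complex.exp_add, hLe _ (D.st_ball S hε hεr hτ),
      ← Complex.ofReal_exp, Real.exp_log hε, Complex.exp_log hζk, Es]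
    have h1 : st n s ζ ω ε τ ^ k = ζ ^ k * Complex.exp ((k / n : ℂ) *
        Complex.log (ω * (Complex.I * ((s + ω * (ε * τ)) - s)))) := by
      unfold st sgw
      rw [mul_zpow, Complex.cpow_def_of_ne_zero (Complex.slitPlane_ne_zero hm.2),
        ← Complex.exp_int_mul]
      congr 2
      ring
    rw [h1]
    ring
  · intro τ hτ
    have hτ0 : τ ≠ 0 := ne_of_VS hτ
    have hτn : 0 < ‖τ‖ := norm_pos_iff.2 hτ0
    have hτ1 : ‖τ‖ < 1 := by simpa using hτ.1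
    rw [(hder τ hτ).deriv]
    have h1 : (((k / n : ℝ)) : ℂ) = (k / n : ℂ) := by push_cast; rfl
    rw [h1, add_sub_cancel_left, norm_mul, norm_mul, norm_div Complex.I, norm_mul, norm_pow,
      norm_mul ω, S.norm_ω, one_mul,
      Complex.norm_I, Complex.norm_natCast, Complex.norm_real, Real.norm_of_nonneg hε.le]
    have hσn := st_norm (s := s) S hn hε τ
    have hσ0 : 0 < ‖st n s ζ ω ε τ‖ := norm_pos_iff.2 (st_ne S hn hε hτ)
    set σ := st n s ζ ω ε τ with hσ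
    have hσr : ‖σ‖ ≤ r' := by
      refine le_of_pow_le_pow_left₀ hn.ne' hr'p.le ?_
      rw [hσn, hr'n]
      nlinarith
    have hMσ := hM σ (by rwa [mem_closedBall_zero_iff])
    have hσe : ‖σ‖ = r' * ‖τ‖ ^ ((n : ℝ)⁻¹) := by
      rw [hr', ← Real.mul_rpow hε.le hτn.le, ← hσn, Real.pow_rpow_inv_natCast hσ0.le hn.ne']
    have h2 : 1 / (n * ‖σ‖ ^ (n - 1)) * ε = ‖σ‖ / (n * ‖τ‖) := by
      have h3 : ‖σ‖ ^ n = ‖σ‖ ^ (n - 1) * ‖σ‖ := by
        obtain ⟨m, hm'⟩ : ∃ m, n = m + 1 := ⟨n - 1, by omega⟩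
        rw [hm', Nat.add_sub_cancel, pow_succ]
      rw [h3] at hσn
      have h4 : 0 < ‖σ‖ ^ (n - 1) := pow_pos hσ0 _
      field_simp
      linear_combination (-1) * hσn
    rw [h2]
    have h5 : ‖τ‖ ^ ((n : ℝ)⁻¹ - 1) = ‖τ‖ ^ ((n : ℝ)⁻¹) / ‖τ‖ := by
      rw [Real.rpow_sub hτn, Real.rpow_one]
    rw [h5, hσe]
    calc ‖deriv g σ / g σ‖ * (r' * ‖τ‖ ^ ((n : ℝ)⁻¹) / (n * ‖τ‖))
        ≤ M * (r' * ‖τ‖ ^ ((n : ℝ)⁻¹) / (n * ‖τ‖)) := by
          refine mul_le_mul_of_nonneg_right hMσ ?_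
          positivity
      _ = M / n * r' * (‖τ‖ ^ ((n : ℝ)⁻¹) / ‖τ‖) := by
          field_simp

/-- derivative of `e^{iθ}` on a sheet, scaled variable -/
lemma stE (D : EndS θ H s n r a k e g f) (S : Sht n ζ ω) {ε : ℝ} (hε : 0 < ε)
    (hεr : ε < r ^ n) {q : ℂ → ℂ} {τ : ℂ} (hτ : τ ∈ VS 0 1)
    (hq : Complex.exp (q τ) = ε * Es k g (st n s ζ ω ε τ)) :
    HasDerivAt (fun τ => Es a e (st n s ζ ω ε τ))
      (ω * Complex.I * Complex.exp (q τ) * Es a e (st n s ζ ω ε τ)) τ := by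
  have hn := D.n_pos
  have h1 := D.st_ball S hε hεr hτ
  have h2 := st_ne (s := s) S hn hε hτ
  have h3 := ((D.Es_anE h1 h2).differentiableAt.hasDerivAt).comp τ (st_deriv S hn hε hτ)
  refine h3.congr_deriv ?_
  rw [D.dE _ h1 h2, hq]
  have hnC : (n : ℂ) ≠ 0 := by exact_mod_cast hn.ne'
  have h4 : st n s ζ ω ε τ ^ (n - 1) ≠ 0 := pow_ne_zero _ h2
  field_simp

lemma stZp (D : EndS θ H s n r a k e g f) (S : Sht n ζ ω) {ε : ℝ} (hε : 0 < ε)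
    (hεr : ε < r ^ n) {q : ℂ → ℂ} {τ : ℂ} (hτ : τ ∈ VS 0 1)
    (hq : Complex.exp (q τ) = ε * Es k g (st n s ζ ω ε τ)) :
    HasDerivAt (fun τ => Zp n a k e g f (st n s ζ ω ε τ))
      (ω * ε ^ 3 * Complex.exp (-2 * q τ) * Es a e (st n s ζ ω ε τ)) τ := by
  have hn := D.n_pos
  have h1 := D.st_ball S hε hεr hτ
  have h2 := st_ne (s := s) S hn hε hτ
  have h3 := (D.dZp h1 h2).comp τ (st_deriv S hn hε hτ)
  refine h3.congr_deriv ?_
  have hnC : (n : ℂ) ≠ 0 := by exact_mod_cast hn.ne'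
  have h4 : st n s ζ ω ε τ ^ (n - 1) ≠ 0 := pow_ne_zero _ h2
  have h5 := D.Y_ne h1 h2
  have h6 := D.E_ne h1 h2
  have hεC : (ε : ℂ) ≠ 0 := by exact_mod_cast hε.ne'
  have h7 : Complex.exp (-2 * q τ) = ((ε * Es k g (st n s ζ ω ε τ)) ^ 2)⁻¹ := by
    rw [← hq, ← Complex.exp_nat_mul, ← Complex.exp_neg]
    congr 1
    push_cast
    ring
  rw [h7]
  field_simp
  linear_combination (-ω) * Complex.I_sq

lemma stZm (D : EndS θ H s n r a k e g f) (S : Sht n ζ ω) {ε : ℝ} (hε : 0 < ε)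
    (hεr : ε < r ^ n) {q : ℂ → ℂ} {τ : ℂ} (hτ : τ ∈ VS 0 1)
    (hq : Complex.exp (q τ) = ε * Es k g (st n s ζ ω ε τ)) :
    HasDerivAt (fun τ => Zm n a k e g f (st n s ζ ω ε τ))
      (ω * ε ^ 3 * Complex.exp (-2 * q τ) / Es a e (st n s ζ ω ε τ)) τ := by
  have hn := D.n_pos
  have h1 := D.st_ball S hε hεr hτ
  have h2 := st_ne (s := s) S hn hε hτ
  have h3 := (D.dZm h1 h2).comp τ (st_deriv S hn hε hτ)
  refine h3.congr_deriv ?_
  have hnC : (n : ℂ) ≠ 0 := by exact_mod_cast hn.ne'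
  have h4 : st n s ζ ω ε τ ^ (n - 1) ≠ 0 := pow_ne_zero _ h2
  have h5 := D.Y_ne h1 h2
  have h6 := D.E_ne h1 h2
  have hεC : (ε : ℂ) ≠ 0 := by exact_mod_cast hε.ne'
  have h7 : Complex.exp (-2 * q τ) = ((ε * Es k g (st n s ζ ω ε τ)) ^ 2)⁻¹ := by
    rw [← hq, ← Complex.exp_nat_mul, ← Complex.exp_neg]
    congr 1
    push_cast
    ring
  rw [h7]
  field_simp
  linear_combination (-ω) * Complex.I_sq

lemma endQ (D : EndS θ H s n r a k e g f) {q : ℂ → ℂ} {C κ : ℝ} (hκ : 0 < κ) (hκ1 : κ < 1)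
    (hq1 : DifferentiableOn ℂ q (VS 0 1))
    (hq3 : ∀ τ ∈ VS 0 1, ‖deriv q τ - (((k / n : ℝ)) : ℂ) / τ‖ ≤ C * ‖τ‖ ^ ((n : ℝ)⁻¹ - 1)) :
    EndQ κ (k / n : ℝ) (n : ℝ)⁻¹ C q := by
  have hnR : (0 : ℝ) < n := by exact_mod_cast D.n_pos
  exact ⟨hκ, hκ1, by positivity, hq1.mono (Sg_sub_VS hκ1), fun τ hτ => hq3 τ (Sg_sub_VS hκ1 hτ)⟩

/-- `EndQ` for any logarithm -/
lemma endQ_of (D : EndS θ H s n r a k e g f) (S : Sht n ζ ω) {ε : ℝ} (hε : 0 < ε)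
    (hεr : ε < r ^ n) {q : ℂ → ℂ} {κ : ℝ} (hκ : 0 < κ) (hκ1 : κ < 1)
    (hqd : DifferentiableOn ℂ q (Sg κ))
    (hq : ∀ τ ∈ Sg κ, Complex.exp (q τ) = ε * Es k g (st n s ζ ω ε τ)) :
    ∃ C : ℝ, EndQ κ (k / n : ℝ) (n : ℝ)⁻¹ C q := by
  obtain ⟨q1, C, h1, h2, h3⟩ := D.logW S hε hεr
  have hop : IsOpen (Sg κ) := by
    have h4 : IsOpen {τ : ℂ | τ ≠ 0} := isOpen_ne
    have h5 : IsOpen {τ : ℂ | ‖τ‖ < 1} := isOpen_lt continuous_norm continuous_const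
    have h6 : IsOpen {τ : ℂ | τ.im < κ * ‖τ‖} :=
      isOpen_lt Complex.continuous_im (continuous_const.mul continuous_norm)
    exact h4.inter (h5.inter h6)
  have hE := D.endQ hκ hκ1 h1 h3
  refine ⟨C, hκ, hκ1, hE.β_pos, hqd, fun τ hτ => ?_⟩
  have h4 : (fun τ => Complex.exp (q τ)) =ᶠ[𝓝 τ] fun τ => Complex.exp (q1 τ) := by
    filter_upwards [hop.mem_nhds hτ] with τ' hτ'
    rw [hq τ' hτ', h2 τ' (Sg_sub_VS hκ1 hτ')]
  have h5 := ((hqd.differentiableAt (hop.mem_nhds hτ)).hasDerivAt.cexp)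
  have h6 := ((hE.diff.differentiableAt (hop.mem_nhds hτ)).hasDerivAt.cexp)
  have h7 := h5.unique (h6.congr_of_eventuallyEq h4)
  rw [h4.eq_of_nhds] at h7
  have h8 := mul_left_cancel₀ (Complex.exp_ne_zero _) h7
  rw [h8]
  exact hE.asym τ hτ

/-- `Slope`, `j = ω I` -/
lemma slopeP (D : EndS θ H s n r a k e g f) (S : Sht n ζ ω) {ε : ℝ} (hε : 0 < ε)
    (hεr : ε < r ^ n) {q : ℂ → ℂ} {κ : ℝ} (hκ1 : κ < 1)
    (hq : ∀ τ ∈ Sg κ, Complex.exp (q τ) = ε * Es k g (st n s ζ ω ε τ)) :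
    Slope κ q (ω * Complex.I) (fun τ => Es a e (st n s ζ ω ε τ) ^ 2) := by
  have hd : ∀ τ ∈ Sg κ, HasDerivAt (fun τ => Es a e (st n s ζ ω ε τ) ^ 2)
      (2 * (ω * Complex.I) * Complex.exp (q τ) * Es a e (st n s ζ ω ε τ) ^ 2) τ := by
    intro τ hτ
    refine ((D.stE S hε hεr (Sg_sub_VS hκ1 hτ) (hq τ hτ)).pow 2).congr_deriv ?_
    push_cast
    ring
  refine ⟨fun τ hτ => (hd τ hτ).differentiableAt.differentiableWithinAt, fun τ hτ => ?_,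
    fun τ hτ => (hd τ hτ).deriv⟩
  have hv := Sg_sub_VS hκ1 hτ
  exact pow_ne_zero _ (D.E_ne (D.st_ball S hε hεr hv) (st_ne S D.n_pos hε hv))

/-- `Slope`, `j = - ω I` -/
lemma slopeM (D : EndS θ H s n r a k e g f) (S : Sht n ζ ω) {ε : ℝ} (hε : 0 < ε)
    (hεr : ε < r ^ n) {q : ℂ → ℂ} {κ : ℝ} (hκ1 : κ < 1)
    (hq : ∀ τ ∈ Sg κ, Complex.exp (q τ) = ε * Es k g (st n s ζ ω ε τ)) :
    Slope κ q (-(ω * Complex.I)) (fun τ => (Es a e (st n s ζ ω ε τ))⁻¹ ^ 2) := by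
  have hd : ∀ τ ∈ Sg κ, HasDerivAt (fun τ => (Es a e (st n s ζ ω ε τ))⁻¹ ^ 2)
      (2 * (-(ω * Complex.I)) * Complex.exp (q τ) * (Es a e (st n s ζ ω ε τ))⁻¹ ^ 2) τ := by
    intro τ hτ
    have hv := Sg_sub_VS hκ1 hτ
    have hne := D.E_ne (D.st_ball S hε hεr hv) (st_ne S D.n_pos hε hv)
    refine (((D.stE S hε hεr hv (hq τ hτ)).fun_inv hne).pow 2).congr_deriv ?_
    push_cast
    field_simp
  refine ⟨fun τ hτ => (hd τ hτ).differentiableAt.differentiableWithinAt, fun τ hτ => ?_,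
    fun τ hτ => (hd τ hτ).deriv⟩
  have hv := Sg_sub_VS hκ1 hτ
  exact pow_ne_zero _ (inv_ne_zero (D.E_ne (D.st_ball S hε hεr hv) (st_ne S D.n_pos hε hv)))

end EndS

/-- a meromorphic function with bounded derivative has a limit -/
lemma mero_lim {P u : ℂ → ℂ} (hP : MeromorphicAt P 0) (hu : ContinuousAt u 0)
    (h : ∀ᶠ σ in 𝓝[≠] (0 : ℂ), deriv P σ = u σ) : ∃ c, Tendsto P (𝓝[≠] 0) (𝓝 c) := by
  have hut : Tendsto u (𝓝[≠] 0) (𝓝 (u 0)) := hu.tendsto.mono_left nhdsWithin_le_nhds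
  have hid : Tendsto (fun σ : ℂ => σ) (𝓝[≠] 0) (𝓝 0) := tendsto_id.mono_left nhdsWithin_le_nhds
  have hne : ∀ᶠ σ in 𝓝[≠] (0 : ℂ), σ ≠ 0 := self_mem_nhdsWithin
  rcases hP.eventually_eq_zero_or_eventually_ne_zero with h1 | h1
  · exact ⟨0, tendsto_const_nhds.congr' (h1.mono fun _ h => h.symm)⟩
  · obtain ⟨N, v, van, v0, hv⟩ := factor hP h1.frequently
    have hvt : Tendsto v (𝓝[≠] 0) (𝓝 (v 0)) :=
      van.continuousAt.tendsto.mono_left nhdsWithin_le_nhds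
    rcases lt_or_ge N 0 with hN | hN
    · exfalso
      have h3 : ∀ᶠ σ in 𝓝[≠] (0 : ℂ), P =ᶠ[𝓝 σ] Es N v := by
        have := (eventually_eventually_nhdsWithin (s := {(0 : ℂ)}ᶜ)).2 hv
        filter_upwards [this, hne] with σ h4 h5
        rwa [IsOpen.nhdsWithin_eq isOpen_compl_singleton (by simpa using h5)] at h4
      obtain ⟨m, hm⟩ : ∃ m : ℕ, N = -((m : ℤ) + 1) := ⟨(-N - 1).toNat, by omega⟩
      have h5 : Tendsto (fun σ : ℂ => σ ^ (m + 2) * u σ) (𝓝[≠] 0) (𝓝 (0 * u 0)) := by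
        refine Tendsto.mul ?_ hut
        have := hid.pow (m + 2)
        simpa using this
      have hbr : Tendsto (fun σ => (N : ℂ) * v σ + σ * deriv v σ) (𝓝[≠] 0) (𝓝 (N * v 0)) := by
        have h5 : ContinuousAt (fun σ => (N : ℂ) * v σ + σ * deriv v σ) 0 :=
          ((analyticAt_const.mul van).add (analyticAt_id.mul van.deriv)).continuousAt
        have h6 := h5.tendsto.mono_left (nhdsWithin_le_nhds (s := {(0 : ℂ)}ᶜ))
        simpa using h6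
      have h6 : Tendsto (fun σ : ℂ => σ ^ (m + 2) * u σ) (𝓝[≠] 0) (𝓝 (N * v 0)) := by
        refine hbr.congr' ?_
        filter_upwards [h3, h, hne,
          eventually_nhdsWithin_of_eventually_nhds van.eventually_analyticAt] with σ h5 h6 h7 h8
        have h9 : HasDerivAt (Es N v) (N * σ ^ (N - 1) * v σ + σ ^ N * deriv v σ) σ :=
          (hasDerivAt_zpow N σ (Or.inl h7)).mul h8.differentiableAt.hasDerivAt
        rw [← h6, h5.deriv_eq, h9.deriv, zpow_sub_one₀ h7]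
        have h10 : σ ^ (m + 2) = (σ ^ N)⁻¹ * σ := by
          rw [hm, zpow_neg, inv_inv, ← zpow_natCast, ← zpow_add_one₀ h7]
          congr 1
        have h11 := zpow_ne_zero N h7
        rw [h10]
        field_simp
      have h7 := tendsto_nhds_unique h5 h6
      rw [zero_mul] at h7
      have hNC : (N : ℂ) ≠ 0 := by exact_mod_cast hN.ne
      exact mul_ne_zero hNC v0 h7.symm
    · obtain ⟨m, hm⟩ := Int.eq_ofNat_of_zero_le hN
      refine ⟨0 ^ m * v 0, ?_⟩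
      refine ((hid.pow m).mul hvt).congr' ?_
      filter_upwards [hv] with σ h6
      rw [h6, Es, hm, zpow_natCast]

namespace EndS

/-- for `m = 1` the end is a point of the complex plane -/
lemma lims (D : EndS θ H s n r a k e g f) (ha : a = n ∨ a = -n) :
    ∃ zp zm : ℂ, Tendsto (Zp n a k e g f) (𝓝[≠] 0) (𝓝 zp) ∧
      Tendsto (Zm n a k e g f) (𝓝[≠] 0) (𝓝 zm) := by
  have hn := D.n_pos
  have ha0 : a ≠ 0 := by rcases ha with h | h <;> rw [h] <;> omega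
  have hk := (D.iso ha0).1
  have he0 := D.e_ne 0 D.zero_mem
  have hg0 := D.g_ne 0 D.zero_mem
  have hec := (D.e_an 0 D.zero_mem).continuousAt
  have hgc := (D.g_an 0 D.zero_mem).continuousAt
  obtain ⟨N, hN⟩ : ∃ N : ℕ, (N : ℤ) = 3 * n - 1 + a := ⟨(3 * (n : ℤ) - 1 + a).toNat, by
    rcases ha with h | h <;> rw [h] <;> omega⟩
  obtain ⟨M, hM⟩ : ∃ M : ℕ, (M : ℤ) = 3 * n - 1 - a := ⟨(3 * (n : ℤ) - 1 - a).toNat, by
    rcases ha with h | h <;> rw [h] <;> omega⟩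
  obtain ⟨zp, hzp⟩ := mero_lim (u := fun σ => -Complex.I * n * σ ^ N * e σ / g σ ^ 2) D.Zp_mer
    (((continuousAt_const.mul (continuousAt_id.pow N)).mul hec).div (hgc.pow 2)
      (pow_ne_zero _ hg0)) (by
      filter_upwards [D.ev] with σ hσ
      have hE := D.e_ne σ hσ.1
      have hG := D.g_ne σ hσ.1
      rw [(D.dZp hσ.1 hσ.2).deriv]
      simp only [Es]
      rw [mul_pow, ← zpow_natCast (σ ^ k) 2, ← zpow_mul, D.pow_zpow hσ.2, ← zpow_natCast σ N, hN]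
      have h2 : σ ^ (3 * (n : ℤ) - 1 + a) * σ ^ (k * ((2 : ℕ) : ℤ)) =
          σ ^ ((n : ℤ) - 1) * σ ^ a := by
        rw [← zpow_add₀ hσ.2, ← zpow_add₀ hσ.2]
        congr 1
        rw [hk]
        push_cast
        ring
      have h4 : σ ^ (k * ((2 : ℕ) : ℤ)) ≠ 0 := zpow_ne_zero _ hσ.2
      rw [div_eq_div_iff (mul_ne_zero h4 (pow_ne_zero _ hG)) (pow_ne_zero _ hG)]
      linear_combination (Complex.I * n * e σ * g σ ^ 2) * h2)
  obtain ⟨zm, hzm⟩ := mero_lim (u := fun σ => -Complex.I * n * σ ^ M * (e σ)⁻¹ / g σ ^ 2) D.Zm_mer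
    (((continuousAt_const.mul (continuousAt_id.pow M)).mul (hec.inv₀ he0)).div (hgc.pow 2)
      (pow_ne_zero _ hg0)) (by
      filter_upwards [D.ev] with σ hσ
      have hE := D.e_ne σ hσ.1
      have hG := D.g_ne σ hσ.1
      rw [(D.dZm hσ.1 hσ.2).deriv]
      simp only [Es]
      rw [mul_pow, ← zpow_natCast (σ ^ k) 2, ← zpow_mul, D.pow_zpow hσ.2, ← zpow_natCast σ M, hM,
        mul_inv, ← zpow_neg]
      have h2 : σ ^ (3 * (n : ℤ) - 1 - a) * σ ^ (k * ((2 : ℕ) : ℤ)) =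
          σ ^ ((n : ℤ) - 1) * σ ^ (-a) := by
        rw [← zpow_add₀ hσ.2, ← zpow_add₀ hσ.2]
        congr 1
        rw [hk]
        push_cast
        ring
      have h4 : σ ^ (k * ((2 : ℕ) : ℤ)) ≠ 0 := zpow_ne_zero _ hσ.2
      rw [div_eq_div_iff (mul_ne_zero h4 (pow_ne_zero _ hG)) (pow_ne_zero _ hG)]
      linear_combination (Complex.I * n * (e σ)⁻¹ * g σ ^ 2) * h2)
  exact ⟨zp, zm, hzp, hzm⟩

/-- `Pos`, `j = ω I` -/
lemma posP (D : EndS θ H s n r a k e g f) (S : Sht n ζ ω) {ε : ℝ} (hε : 0 < ε)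
    (hεr : ε < r ^ n) {q : ℂ → ℂ} {κ : ℝ} (hκ1 : κ < 1)
    (hq : ∀ τ ∈ Sg κ, Complex.exp (q τ) = ε * Es k g (st n s ζ ω ε τ)) {zp zm : ℂ}
    (hzp : Tendsto (Zp n a k e g f) (𝓝[≠] 0) (𝓝 zp))
    (hzm : Tendsto (Zm n a k e g f) (𝓝[≠] 0) (𝓝 zm)) :
    Pos κ q (ω * Complex.I) ω (fun τ => Es a e (st n s ζ ω ε τ) ^ 2)
      (fun τ => Es a e (st n s ζ ω ε τ))
      (fun τ => ((ε : ℂ) ^ 3)⁻¹ * (Zp n a k e g f (st n s ζ ω ε τ) - zp))
      (fun τ => ((ε : ℂ) ^ 3)⁻¹ * (Zm n a k e g f (st n s ζ ω ε τ) - zm)) := by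
  have hεC : (ε : ℂ) ≠ 0 := by exact_mod_cast hε.ne'
  have hst : Tendsto (st n s ζ ω ε) (𝓝[Sg κ] 0) (𝓝[≠] 0) :=
    (st_tendsto S D.n_pos hε).mono_left (nhdsWithin_mono _ (Sg_sub_VS hκ1))
  have hd1 : ∀ τ ∈ Sg κ, HasDerivAt
      (fun τ => ((ε : ℂ) ^ 3)⁻¹ * (Zp n a k e g f (st n s ζ ω ε τ) - zp))
      (ω * Complex.exp (-2 * q τ) * Es a e (st n s ζ ω ε τ)) τ := by
    intro τ hτ
    refine (((D.stZp S hε hεr (Sg_sub_VS hκ1 hτ) (hq τ hτ)).sub_const zp).const_mul _).congr_deriv ?_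
    field_simp
  have hd2 : ∀ τ ∈ Sg κ, HasDerivAt
      (fun τ => ((ε : ℂ) ^ 3)⁻¹ * (Zm n a k e g f (st n s ζ ω ε τ) - zm))
      (ω * Complex.exp (-2 * q τ) / Es a e (st n s ζ ω ε τ)) τ := by
    intro τ hτ
    refine (((D.stZm S hε hεr (Sg_sub_VS hκ1 hτ) (hq τ hτ)).sub_const zm).const_mul _).congr_deriv ?_
    field_simp
  refine ⟨S.hω, fun τ hτ =>
    (D.stE S hε hεr (Sg_sub_VS hκ1 hτ) (hq τ hτ)).differentiableAt.differentiableWithinAt,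
    fun τ _ => rfl, fun τ hτ => (hd1 τ hτ).differentiableAt.differentiableWithinAt,
    fun τ hτ => (hd2 τ hτ).differentiableAt.differentiableWithinAt, fun τ hτ => (hd1 τ hτ).deriv,
    fun τ hτ => (hd2 τ hτ).deriv, ?_, ?_⟩
  · have := ((hzp.comp hst).sub_const zp).const_mul ((ε : ℂ) ^ 3)⁻¹
    rw [sub_self, mul_zero] at this
    exact this
  · have := ((hzm.comp hst).sub_const zm).const_mul ((ε : ℂ) ^ 3)⁻¹
    rw [sub_self, mul_zero] at this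
    exact this

/-- `Pos`, `j = - ω I` -/
lemma posM (D : EndS θ H s n r a k e g f) (S : Sht n ζ ω) {ε : ℝ} (hε : 0 < ε)
    (hεr : ε < r ^ n) {q : ℂ → ℂ} {κ : ℝ} (hκ1 : κ < 1)
    (hq : ∀ τ ∈ Sg κ, Complex.exp (q τ) = ε * Es k g (st n s ζ ω ε τ)) {zp zm : ℂ}
    (hzp : Tendsto (Zp n a k e g f) (𝓝[≠] 0) (𝓝 zp))
    (hzm : Tendsto (Zm n a k e g f) (𝓝[≠] 0) (𝓝 zm)) :
    Pos κ q (-(ω * Complex.I)) ω (fun τ => (Es a e (st n s ζ ω ε τ))⁻¹ ^ 2)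
      (fun τ => (Es a e (st n s ζ ω ε τ))⁻¹)
      (fun τ => ((ε : ℂ) ^ 3)⁻¹ * (Zm n a k e g f (st n s ζ ω ε τ) - zm))
      (fun τ => ((ε : ℂ) ^ 3)⁻¹ * (Zp n a k e g f (st n s ζ ω ε τ) - zp)) := by
  have hP := D.posP S hε hεr hκ1 hq hzp hzm
  refine ⟨S.hω, fun τ hτ => ?_, fun τ _ => rfl, hP.Zc_diff, hP.Z_diff, fun τ hτ => ?_,
    fun τ hτ => ?_, hP.Zc_lim, hP.Z_lim⟩
  · have hv := Sg_sub_VS hκ1 hτ
    have hne := D.E_ne (D.st_ball S hε hεr hv) (st_ne S D.n_pos hε hv)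
    exact ((D.stE S hε hεr hv (hq τ hτ)).fun_inv hne).differentiableAt.differentiableWithinAt
  · rw [hP.Zc_der τ hτ, div_eq_mul_inv]
  · rw [hP.Z_der τ hτ, div_inv_eq_mul]

/-- limit of `τ y` at an isotropic end -/
lemma ylim (D : EndS θ H s n r a k e g f) (S : Sht n ζ ω) {ε : ℝ} (hε : 0 < ε)
    (ha : a ≠ 0) {q : ℂ → ℂ} {κ : ℝ} (hκ1 : κ < 1)
    (hq : ∀ τ ∈ Sg κ, Complex.exp (q τ) = ε * Es k g (st n s ζ ω ε τ)) :
    Tendsto (fun τ => τ * Complex.exp (q τ)) (𝓝[Sg κ] 0) (𝓝 (-(ω * Complex.I) * (a / n))) := by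
  have hn := D.n_pos
  obtain ⟨hk, hg0⟩ := D.iso ha
  have hg : Tendsto (fun τ : ℂ => -(ω * Complex.I) * g (st n s ζ ω ε τ)) (𝓝[Sg κ] 0)
      (𝓝 (-(ω * Complex.I) * g 0)) :=
    (D.g_lim.comp ((st_tendsto S hn hε).mono_left (nhdsWithin_mono _ (Sg_sub_VS hκ1)))).const_mul _
  rw [hg0] at hg
  refine hg.congr' ?_
  filter_upwards [self_mem_nhdsWithin] with τ hτ
  rw [hq τ hτ, Es, hk, zpow_neg, zpow_natCast, st_pow S hn]
  have hτ0 : τ ≠ 0 := hτ.1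
  have hεC : (ε : ℂ) ≠ 0 := by exact_mod_cast hε.ne'
  have hI := Complex.I_ne_zero
  have hω := S.ω_ne
  field_simp
  linear_combination (-(g (st n s ζ ω ε τ) * ω ^ 2)) * Complex.I_sq +
    g (st n s ζ ω ε τ) * S.sq

end EndS

/-! ### sides `A` and `B` -/

/-- `e^{iπ/n}` -/
def zB (n : ℕ) : ℂ := Complex.exp (Real.pi * Complex.I / n)

lemma shtA (n : ℕ) : Sht n 1 1 := ⟨Or.inl rfl, one_pow n⟩

lemma shtB (hn : 0 < n) : Sht n (zB n) (-1) := by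
  refine ⟨Or.inr rfl, ?_⟩
  unfold zB
  have hnC : (n : ℂ) ≠ 0 := by exact_mod_cast hn.ne'
  rw [← Complex.exp_nat_mul, mul_div_cancel₀ _ hnC, Complex.exp_pi_mul_I]

/-- to the right of `s` the sheet `B` is the principal one -/
lemma sgwB_eq {z : ℂ} (hz : s.re < z.re) : sgw n s (zB n) (-1) z = sgw n s 1 1 z := by
  have him : 0 < (Complex.I * (z - s)).im := by simp; linarith
  set w := Complex.I * (z - s) with hw
  have hw0 : w ≠ 0 := by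
    rintro h
    rw [h] at him
    simp at him
  unfold sgw zB
  rw [← hw, one_mul, one_mul, neg_one_mul, Complex.cpow_def_of_ne_zero (neg_ne_zero.2 hw0),
    Complex.cpow_def_of_ne_zero hw0, ← Complex.exp_add]
  congr 1
  have h1 : Complex.log (-w) = Complex.log w - Real.pi * Complex.I := by
    unfold Complex.log
    rw [norm_neg, Complex.arg_neg_eq_arg_sub_pi_of_im_pos him]
    push_cast
    ring
  rw [h1]
  ring

lemma stB_eq {ε : ℝ} (hε : 0 < ε) {τ : ℂ} (hτ : 0 < τ.re) :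
    st n s (zB n) (-1) ε (-τ) = st n s 1 1 ε τ := by
  unfold st
  have h1 : s + -1 * (ε * -τ) = s + 1 * (ε * τ) := by ring
  rw [h1]
  apply sgwB_eq
  simp
  positivity

lemma sgwA_eq (z : ℂ) : sgw n s 1 1 z = sg n s z := by
  unfold sgw sg
  rw [one_mul, one_mul]

namespace EndS

/-- the continuation of `θ` on sheet `A` -/
theorem contA (D : EndS θ H s n r a k e g f) (hθ : DifferentiableOn ℂ θ (HD s (r ^ n))) :
    ∃ Θ : ℂ → ℂ, (∀ z ∈ VW s 1 (r ^ n), HasDerivAt Θ (Es k g (sgw n s 1 1 z)) z) ∧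
      (∀ z ∈ VW s 1 (r ^ n), Complex.exp (Complex.I * Θ z) = Es a e (sgw n s 1 1 z)) ∧
      ∀ z ∈ HD s (r ^ n), Θ z = θ z := by
  have hrn : 0 < r ^ n := pow_pos D.r_pos n
  refine D.contW (shtA n) hθ (isOpen_HD _ _) (convex_HD _ _) subset_rfl ?_
    (fun z _ => sgwA_eq z) ⟨s + (r ^ n / 2 : ℝ) * (-Complex.I),
      path_mem (by simp) (by simp) (by linarith) (by linarith)⟩
  intro z hz
  refine ⟨by simpa [dist_eq_norm] using hz.1, ?_⟩
  rw [one_mul]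
  exact slit_of hz.2

/-- the continuation of `θ` on sheet `B` -/
theorem contB (D : EndS θ H s n r a k e g f) (hθ : DifferentiableOn ℂ θ (HD s (r ^ n))) :
    ∃ Θ : ℂ → ℂ, (∀ z ∈ VW s (-1) (r ^ n), HasDerivAt Θ (Es k g (sgw n s (zB n) (-1) z)) z) ∧
      (∀ z ∈ VW s (-1) (r ^ n),
        Complex.exp (Complex.I * Θ z) = Es a e (sgw n s (zB n) (-1) z)) ∧
      ∀ z ∈ HD s (r ^ n), s.re < z.re → Θ z = θ z := by
  have hrn : 0 < r ^ n := pow_pos D.r_pos n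
  have hcv : Convex ℝ {z : ℂ | s.re < z.re} := convex_halfSpace_re_gt s.re
  have hT2 : HD s (r ^ n) ∩ {z | s.re < z.re} ⊆ VW s (-1) (r ^ n) := by
    intro z hz
    have hz2 : s.re < z.re := hz.2
    refine ⟨by simpa [dist_eq_norm] using hz.1.1, ?_⟩
    rw [Complex.mem_slitPlane_iff]
    right
    have h3 : (-1 * (Complex.I * (z - s))).im = -(z.re - s.re) := by simp
    rw [h3]
    have : 0 < z.re - s.re := by linarith
    exact (neg_neg_of_pos this).ne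
  have hT3 : ∀ z ∈ HD s (r ^ n) ∩ {z | s.re < z.re}, sgw n s (zB n) (-1) z = sg n s z := by
    intro z hz
    rw [sgwB_eq hz.2, sgwA_eq]
  have hTn : (HD s (r ^ n) ∩ {z | s.re < z.re}).Nonempty := by
    have h2 : (1 : ℂ) - Complex.I ≠ 0 := by
      intro h
      have := congrArg Complex.re h
      simp at this
    refine ⟨s + (r ^ n / 2 : ℝ) * ((1 - Complex.I) / (‖(1 : ℂ) - Complex.I‖ : ℂ)), path_mem ?_ ?_
      (by linarith) (by linarith), ?_⟩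
    · rw [norm_div, Complex.norm_real, norm_norm, div_self (norm_ne_zero_iff.2 h2)]
    · have h3 : ((1 - Complex.I) / (‖(1 : ℂ) - Complex.I‖ : ℂ)).im = -1 / ‖(1 : ℂ) - Complex.I‖ := by
        rw [Complex.div_ofReal_im]
        simp
      rw [h3]
      exact div_neg_of_neg_of_pos (by norm_num) (norm_pos_iff.2 h2)
    · have h3 : ((1 - Complex.I) / (‖(1 : ℂ) - Complex.I‖ : ℂ)).re = 1 / ‖(1 : ℂ) - Complex.I‖ := by
        rw [Complex.div_ofReal_re]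
        simp
      change s.re < (s + (r ^ n / 2 : ℝ) * ((1 - Complex.I) / (‖(1 : ℂ) - Complex.I‖ : ℂ))).re
      rw [Complex.add_re, Complex.re_ofReal_mul, h3]
      have h4 : 0 < 1 / ‖(1 : ℂ) - Complex.I‖ := div_pos one_pos (norm_pos_iff.2 h2)
      have h5 : 0 < r ^ n / 2 := by linarith
      have := mul_pos h5 h4
      linarith
  obtain ⟨Θ, h1, h2, h3⟩ := D.contW (shtB D.n_pos) hθ
    (T := HD s (r ^ n) ∩ {z | s.re < z.re})
    ((isOpen_HD _ _).inter (isOpen_lt continuous_const Complex.continuous_re))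
    ((convex_HD _ _).inter hcv) inter_subset_left hT2 hT3 hTn
  exact ⟨Θ, h1, h2, fun z hz hz' => h3 z ⟨hz, hz'⟩⟩

end EndS

end

end Crest.Agent.R102.End416
end

-- ▼ part R102/MelCurve_416

/-!
Row 102, part (C), T5-MEL: **curve half of MEL-DATA** in the notation of `MelData_490`.
-/

set_option autoImplicit false

namespace Crest.Agent.R102.End416

open Set Filter Topology Metric
open Crest.Agent.R102.Pain416 (HD bl bl_basis HD_mem HD_mono isOpen_HD convex_HD path_mem)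
open Crest.Agent.R102.T5R (VS IsoLead Sg EndQ Sg_sub_VS)
open Crest.Agent.R102.Mel (Slope Pos OvR sgB)

noncomputable section

variable {θ H : ℂ → ℂ} {s : ℂ} {n : ℕ} {r : ℝ} {a k : ℤ} {e g f : ℂ → ℂ}

lemma sgB_eq (z : ℂ) : sgB n s z = sgw n s (zB n) (-1) z := by
  unfold sgB sgw zB
  congr 2
  ring

lemma stA_sg (ε : ℝ) (τ : ℂ) : st n s 1 1 ε τ = sg n s (s + 1 * ε * τ) := by
  unfold st
  rw [sgwA_eq]
  congr 1
  ring

lemma stB_sgB (ε : ℝ) (τ : ℂ) : st n s (zB n) (-1) ε τ = sgB n s (s + (-1) * ε * τ) := by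
  unfold st
  rw [sgB_eq]
  congr 1
  ring

lemma endQ_mono {κ c β C C' : ℝ} {q : ℂ → ℂ} (h : EndQ κ c β C q) (hC : C ≤ C') :
    EndQ κ c β C' q :=
  ⟨h.κ_pos, h.κ_lt, h.β_pos, h.diff, fun τ hτ => (h.asym τ hτ).trans
    (mul_le_mul_of_nonneg_right hC (Real.rpow_nonneg (norm_nonneg _) _))⟩

lemma neg_mem_of_OvR {κ : ℝ} {τ : ℂ} (h : τ ∈ OvR κ) : -τ ∈ Sg κ ∧ τ ∈ Sg κ := by
  obtain ⟨h1, h2, h3, h4⟩ := h
  rw [abs_lt] at h3
  refine ⟨⟨neg_ne_zero.2 h1, by rwa [norm_neg], ?_⟩, h1, h2, h3.2⟩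
  rw [Complex.neg_im, norm_neg]
  linarith [h3.1]

namespace EndS

/-- **curve half, common part**: the two logarithms -/
theorem curveQ (D : EndS θ H s n r a k e g f) {ε κ : ℝ} (hε : 0 < ε) (hεr : ε < r ^ n)
    (hκ : 0 < κ) (hκ1 : κ < 1) :
    ∃ (C : ℝ) (qA qB : ℂ → ℂ),
      EndQ κ (k / n : ℝ) (n : ℝ)⁻¹ C qA ∧ EndQ κ (k / n : ℝ) (n : ℝ)⁻¹ C qB ∧
      (∀ τ ∈ VS 0 1, Complex.exp (qA τ) = ε * Es k g (st n s 1 1 ε τ)) ∧
      (∀ τ ∈ VS 0 1, Complex.exp (qB τ) = ε * Es k g (st n s (zB n) (-1) ε τ)) ∧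
      (∀ τ ∈ Sg κ, Complex.exp (qA τ) = ε * Es k g (sg n s (s + 1 * ε * τ))) ∧
      (∀ τ ∈ Sg κ, Complex.exp (qB τ) = ε * Es k g (sgB n s (s + (-1) * ε * τ))) ∧
      (∀ τ ∈ OvR κ, Complex.exp (qB (-τ)) = Complex.exp (qA τ)) := by
  obtain ⟨qA, CA, hA1, hA2, hA3⟩ := D.logW (shtA n) hε hεr
  obtain ⟨qB, CB, hB1, hB2, hB3⟩ := D.logW (shtB D.n_pos) hε hεr
  refine ⟨max CA CB, qA, qB, endQ_mono (D.endQ hκ hκ1 hA1 hA3) (le_max_left _ _),
    endQ_mono (D.endQ hκ hκ1 hB1 hB3) (le_max_right _ _), hA2, hB2, ?_, ?_, ?_⟩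
  · intro τ hτ
    rw [hA2 τ (Sg_sub_VS hκ1 hτ), stA_sg]
  · intro τ hτ
    rw [hB2 τ (Sg_sub_VS hκ1 hτ), stB_sgB]
  · intro τ hτ
    obtain ⟨h1, h2⟩ := neg_mem_of_OvR hτ
    rw [hB2 _ (Sg_sub_VS hκ1 h1), hA2 _ (Sg_sub_VS hκ1 h2), stB_eq hε hτ.2.2.2]

/-- **curve half of MEL-DATA**, any end (`j = I`), any logarithms `qA`, `qB` -/
theorem flat_of (D : EndS θ H s n r a k e g f) {ε κ : ℝ} (hε : 0 < ε) (hεr : ε < r ^ n)
    (hκ : 0 < κ) (hκ1 : κ < 1) {qA qB : ℂ → ℂ}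
    (hAd : DifferentiableOn ℂ qA (Sg κ)) (hBd : DifferentiableOn ℂ qB (Sg κ))
    (hA : ∀ τ ∈ Sg κ, Complex.exp (qA τ) = ε * Es k g (sg n s (s + 1 * ε * τ)))
    (hB : ∀ τ ∈ Sg κ, Complex.exp (qB τ) = ε * Es k g (sgB n s (s + (-1) * ε * τ))) :
    (∃ C : ℝ, EndQ κ (k / n : ℝ) (n : ℝ)⁻¹ C qA ∧ EndQ κ (k / n : ℝ) (n : ℝ)⁻¹ C qB) ∧
      (∀ τ ∈ OvR κ, Complex.exp (qB (-τ)) = Complex.exp (qA τ)) ∧
      Slope κ qA Complex.I (fun τ => Es a e (sg n s (s + 1 * ε * τ)) ^ 2) ∧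
      Slope κ qB (-Complex.I) (fun τ => Es a e (sgB n s (s + (-1) * ε * τ)) ^ 2) ∧
      (∀ τ ∈ OvR κ, Es a e (sgB n s (s + (-1) * ε * (-τ))) ^ 2 =
        Es a e (sg n s (s + 1 * ε * τ)) ^ 2) := by
  have hA' : ∀ τ ∈ Sg κ, Complex.exp (qA τ) = ε * Es k g (st n s 1 1 ε τ) := fun τ hτ => by
    rw [hA τ hτ, stA_sg]
  have hB' : ∀ τ ∈ Sg κ, Complex.exp (qB τ) = ε * Es k g (st n s (zB n) (-1) ε τ) := fun τ hτ => by
    rw [hB τ hτ, stB_sgB]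
  obtain ⟨CA, h1⟩ := D.endQ_of (shtA n) hε hεr hκ hκ1 hAd hA'
  obtain ⟨CB, h2⟩ := D.endQ_of (shtB D.n_pos) hε hεr hκ hκ1 hBd hB'
  refine ⟨⟨max CA CB, endQ_mono h1 (le_max_left _ _), endQ_mono h2 (le_max_right _ _)⟩,
    ?_, ?_, ?_, ?_⟩
  · intro τ hτ
    obtain ⟨h3, h4⟩ := neg_mem_of_OvR hτ
    rw [hB' _ h3, hA' _ h4, stB_eq hε hτ.2.2.2]
  · have := D.slopeP (shtA n) hε hεr hκ1 hA'
    rw [one_mul] at this
    simp only [stA_sg] at this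
    exact this
  · have := D.slopeP (shtB D.n_pos) hε hεr hκ1 hB'
    rw [neg_one_mul] at this
    simp only [stB_sgB] at this
    exact this
  · intro τ hτ
    rw [← stB_sgB, ← stA_sg, stB_eq hε hτ.2.2.2]

/-- **curve half of MEL-DATA**, any end (`j = I`) -/
theorem curve_flat (D : EndS θ H s n r a k e g f) {ε κ : ℝ} (hε : 0 < ε) (hεr : ε < r ^ n)
    (hκ : 0 < κ) (hκ1 : κ < 1) :
    ∃ (C : ℝ) (qA qB MA MB : ℂ → ℂ),
      EndQ κ (k / n : ℝ) (n : ℝ)⁻¹ C qA ∧ EndQ κ (k / n : ℝ) (n : ℝ)⁻¹ C qB ∧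
      (∀ τ ∈ Sg κ, Complex.exp (qA τ) = ε * Es k g (sg n s (s + 1 * ε * τ))) ∧
      (∀ τ ∈ Sg κ, Complex.exp (qB τ) = ε * Es k g (sgB n s (s + (-1) * ε * τ))) ∧
      (∀ τ ∈ OvR κ, Complex.exp (qB (-τ)) = Complex.exp (qA τ)) ∧
      Slope κ qA Complex.I MA ∧ Slope κ qB (-Complex.I) MB ∧
      (∀ τ, MA τ = Es a e (sg n s (s + 1 * ε * τ)) ^ 2) ∧
      (∀ τ, MB τ = Es a e (sgB n s (s + (-1) * ε * τ)) ^ 2) ∧
      (∀ τ ∈ OvR κ, MB (-τ) = MA τ) := by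
  obtain ⟨C, qA, qB, h1, h2, h3, h4, h5, h6, h7⟩ := D.curveQ hε hεr hκ hκ1
  obtain ⟨h8, h9, h10, h11, h12⟩ := D.flat_of hε hεr hκ hκ1 h1.diff h2.diff h5 h6
  exact ⟨C, qA, qB, _, _, h1, h2, h5, h6, h7, h10, h11, fun _ => rfl, fun _ => rfl, h12⟩

/-- **curve half of MEL-DATA**, isotropic end with `m = 1`, any logarithms `qA`, `qB` -/
theorem iso_of (D : EndS θ H s n r a k e g f) (ha : a = n ∨ a = -n) {ε κ : ℝ} (hε : 0 < ε)
    (hεr : ε < r ^ n) (hκ : 0 < κ) (hκ1 : κ < 1) {qA qB : ℂ → ℂ}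
    (hAd : DifferentiableOn ℂ qA (Sg κ)) (hBd : DifferentiableOn ℂ qB (Sg κ))
    (hA : ∀ τ ∈ Sg κ, Complex.exp (qA τ) = ε * Es k g (sg n s (s + 1 * ε * τ)))
    (hB : ∀ τ ∈ Sg κ, Complex.exp (qB τ) = ε * Es k g (sgB n s (s + (-1) * ε * τ))) :
    (∃ C : ℝ, EndQ κ (-1) (n : ℝ)⁻¹ C qA ∧ EndQ κ (-1) (n : ℝ)⁻¹ C qB) ∧
      (∀ τ ∈ OvR κ, Complex.exp (qB (-τ)) = Complex.exp (qA τ)) ∧
      ∃ (j : ℂ) (MA MB EA ZA ZcA EB ZB ZcB : ℂ → ℂ),
      (j = Complex.I ∨ j = -Complex.I) ∧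
      Slope κ qA j MA ∧ Slope κ qB (-j) MB ∧ (∀ τ ∈ OvR κ, MB (-τ) = MA τ) ∧
      Tendsto (fun τ => τ * (j * Complex.exp (qA τ))) (𝓝[Sg κ] 0) (𝓝 1) ∧
      Tendsto (fun τ => τ * (-j * Complex.exp (qB τ))) (𝓝[Sg κ] 0) (𝓝 1) ∧
      Pos κ qA j 1 MA EA ZA ZcA ∧ Pos κ qB (-j) (-1) MB EB ZB ZcB ∧
      (∀ τ ∈ OvR κ, EB (-τ) = EA τ ∧ ZB (-τ) = ZA τ ∧ ZcB (-τ) = ZcA τ) := by
  have hn := D.n_pos
  have hnC : (n : ℂ) ≠ 0 := by exact_mod_cast hn.ne'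
  have hnR : (n : ℝ) ≠ 0 := by exact_mod_cast hn.ne'
  have ha0 : a ≠ 0 := by rcases ha with h | h <;> rw [h] <;> omega
  obtain ⟨⟨C, h1, h2⟩, h7, _⟩ := D.flat_of hε hεr hκ hκ1 hAd hBd hA hB
  have h3 : ∀ τ ∈ Sg κ, Complex.exp (qA τ) = ε * Es k g (st n s 1 1 ε τ) := fun τ hτ => by
    rw [hA τ hτ, stA_sg]
  have h4 : ∀ τ ∈ Sg κ, Complex.exp (qB τ) = ε * Es k g (st n s (zB n) (-1) ε τ) := fun τ hτ => by
    rw [hB τ hτ, stB_sgB]
  obtain ⟨zp, zm, hzp, hzm⟩ := D.lims ha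
  have hk : (k / n : ℝ) = -1 := by
    rw [(D.iso ha0).1]
    push_cast
    field_simp
  rw [hk] at h1 h2
  have hyA := D.ylim (shtA n) hε ha0 hκ1 h3
  have hyB := D.ylim (shtB hn) hε ha0 hκ1 h4
  refine ⟨⟨C, h1, h2⟩, h7, ?_⟩
  rcases ha with ha | ha
  · refine ⟨Complex.I, fun τ => Es a e (st n s 1 1 ε τ) ^ 2,
      fun τ => Es a e (st n s (zB n) (-1) ε τ) ^ 2, _, _, _, _, _, _,
      Or.inl rfl, ?_, ?_, ?_, ?_, ?_,
      (one_mul Complex.I) ▸ D.posP (shtA n) hε hεr hκ1 h3 hzp hzm,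
      (neg_one_mul Complex.I) ▸ D.posP (shtB hn) hε hεr hκ1 h4 hzp hzm, ?_⟩
    · have := D.slopeP (shtA n) hε hεr hκ1 h3
      rwa [one_mul] at this
    · have := D.slopeP (shtB hn) hε hεr hκ1 h4
      rwa [neg_one_mul] at this
    · intro τ hτ
      simp only
      rw [stB_eq hε hτ.2.2.2]
    · have := hyA.const_mul Complex.I
      have h8 : Complex.I * (-(1 * Complex.I) * (a / n : ℂ)) = 1 := by
        rw [ha]
        push_cast
        field_simp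
        linear_combination (-1 : ℂ) * Complex.I_sq
      rw [h8] at this
      refine this.congr fun τ => ?_
      ring
    · have := hyB.const_mul (-Complex.I)
      have h8 : -Complex.I * (-(-1 * Complex.I) * (a / n : ℂ)) = 1 := by
        rw [ha]
        push_cast
        field_simp
        linear_combination (-1 : ℂ) * Complex.I_sq
      rw [h8] at this
      refine this.congr fun τ => ?_
      ring
    · intro τ hτ
      rw [stB_eq hε hτ.2.2.2]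
      exact ⟨rfl, rfl, rfl⟩
  · refine ⟨-Complex.I, fun τ => (Es a e (st n s 1 1 ε τ))⁻¹ ^ 2,
      fun τ => (Es a e (st n s (zB n) (-1) ε τ))⁻¹ ^ 2, _, _, _, _, _, _,
      Or.inr rfl, ?_, ?_, ?_, ?_, ?_,
      (one_mul Complex.I) ▸ D.posM (shtA n) hε hεr hκ1 h3 hzp hzm,
      (neg_one_mul Complex.I) ▸ D.posM (shtB hn) hε hεr hκ1 h4 hzp hzm, ?_⟩
    · have := D.slopeM (shtA n) hε hεr hκ1 h3
      rwa [one_mul] at this
    · have := D.slopeM (shtB hn) hε hεr hκ1 h4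
      rwa [neg_one_mul] at this
    · intro τ hτ
      simp only
      rw [stB_eq hε hτ.2.2.2]
    · have := hyA.const_mul (-Complex.I)
      have h8 : -Complex.I * (-(1 * Complex.I) * (a / n : ℂ)) = 1 := by
        rw [ha]
        push_cast
        field_simp
        linear_combination (-1 : ℂ) * Complex.I_sq
      rw [h8] at this
      refine this.congr fun τ => ?_
      ring
    · have := hyB.const_mul (-(-Complex.I))
      have h8 : -(-Complex.I) * (-(-1 * Complex.I) * (a / n : ℂ)) = 1 := by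
        rw [ha]
        push_cast
        field_simp
        linear_combination (-1 : ℂ) * Complex.I_sq
      rw [h8] at this
      refine this.congr fun τ => ?_
      ring
    · intro τ hτ
      rw [stB_eq hε hτ.2.2.2]
      exact ⟨rfl, rfl, rfl⟩

/-- **curve half of MEL-DATA**, isotropic end with `m = 1` -/
theorem curve_iso (D : EndS θ H s n r a k e g f) (ha : a = n ∨ a = -n) {ε κ : ℝ} (hε : 0 < ε)
    (hεr : ε < r ^ n) (hκ : 0 < κ) (hκ1 : κ < 1) :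
    ∃ (j : ℂ) (C : ℝ) (qA qB MA MB EA ZA ZcA EB ZB ZcB : ℂ → ℂ),
      (j = Complex.I ∨ j = -Complex.I) ∧
      EndQ κ (-1) (n : ℝ)⁻¹ C qA ∧ EndQ κ (-1) (n : ℝ)⁻¹ C qB ∧
      (∀ τ ∈ Sg κ, Complex.exp (qA τ) = ε * Es k g (sg n s (s + 1 * ε * τ))) ∧
      (∀ τ ∈ Sg κ, Complex.exp (qB τ) = ε * Es k g (sgB n s (s + (-1) * ε * τ))) ∧
      (∀ τ ∈ OvR κ, Complex.exp (qB (-τ)) = Complex.exp (qA τ)) ∧
      Slope κ qA j MA ∧ Slope κ qB (-j) MB ∧ (∀ τ ∈ OvR κ, MB (-τ) = MA τ) ∧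
      Tendsto (fun τ => τ * (j * Complex.exp (qA τ))) (𝓝[Sg κ] 0) (𝓝 1) ∧
      Tendsto (fun τ => τ * (-j * Complex.exp (qB τ))) (𝓝[Sg κ] 0) (𝓝 1) ∧
      Pos κ qA j 1 MA EA ZA ZcA ∧ Pos κ qB (-j) (-1) MB EB ZB ZcB ∧
      (∀ τ ∈ OvR κ, EB (-τ) = EA τ ∧ ZB (-τ) = ZA τ ∧ ZcB (-τ) = ZcA τ) := by
  obtain ⟨C0, qA, qB, h1, h2, h3, h4, h5, h6, h7⟩ := D.curveQ hε hεr hκ hκ1
  obtain ⟨⟨C, h8, h9⟩, h10, j, MA, MB, EA, ZA, ZcA, EB, ZB, ZcB, hj, h11, h12, h13, h14, h15, h16,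
    h17, h18⟩ := D.iso_of ha hε hεr hκ hκ1 h1.diff h2.diff h5 h6
  exact ⟨j, C, qA, qB, MA, MB, EA, ZA, ZcA, EB, ZB, ZcB, hj, h8, h9, h5, h6, h10, h11, h12, h13,
    h14, h15, h16, h17, h18⟩

end EndS

end

end Crest.Agent.R102.End416
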