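import Crest.Agent.R102.MelA_231

-- ▼ part R102/RLimA_231
section

/-!
# T5 MEL: limits of the chord slope, common part (helper231)
-/

set_option autoImplicit false

open Set Filter Topology Metric MeasureTheory
open scoped ComplexConjugate

noncomputable section

namespace Crest.Agent.R102.Mel

open Crest.Agent.R102.T5R Crest.Agent.R102.Mel231 Crest.Agent.R102.T5R.L4346

variable {κ c β C : ℝ} {q : ℂ → ℂ}

/-- arc bound -/
theorem arc_bound (h : EndQ κ c β C q) {e : ℂ} (he : ‖e‖ = 1) (hei : e.im < κ) :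
    ‖q (((1 / 2 : ℝ) : ℂ) * e) - q (((1 / 2 : ℝ) : ℂ) * (-Complex.I))‖ ≤ Real.pi * (|c| + C) := by
  have hC := C_nonneg h
  set φ : ℝ := Complex.arg (Complex.I * e) with hφ
  have hφ1 : |φ| ≤ Real.pi := Complex.abs_arg_le_pi _
  set f : ℝ → ℂ := fun s => ((1 / 2 : ℝ) : ℂ) * (-Complex.I * Complex.exp (s * (φ * Complex.I)))
    with hf
  have hexp1 : Complex.exp (φ * Complex.I) = Complex.I * e := by
    have h1 := Complex.norm_mul_exp_arg_mul_I (Complex.I * e)
    rw [norm_mul, Complex.norm_I, he] at h1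
    simpa using h1
  have hcos1 : Real.cos φ = -e.im := by
    have h1 := congrArg Complex.re hexp1
    rw [Complex.exp_ofReal_mul_I_re] at h1
    rw [h1]; simp
  have hf1 : f 1 = ((1 / 2 : ℝ) : ℂ) * e := by
    simp only [hf, Complex.ofReal_one, one_mul]
    rw [hexp1]
    congr 1
    linear_combination (-e) * Complex.I_mul_I
  have hf0 : f 0 = ((1 / 2 : ℝ) : ℂ) * (-Complex.I) := by
    simp [hf]
  have hnorm : ∀ s : ℝ, ‖f s‖ = 1 / 2 := by
    intro s
    have h1 : (s : ℂ) * (φ * Complex.I) = ((s * φ : ℝ) : ℂ) * Complex.I := by push_cast; ring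
    simp only [hf]
    rw [norm_mul, norm_mul, norm_neg, Complex.norm_I, h1, Complex.norm_exp_ofReal_mul_I,
      Complex.norm_real]
    norm_num
  have him : ∀ s : ℝ, (f s).im = -(1 / 2) * Real.cos (s * φ) := by
    intro s
    have h1 : (s : ℂ) * (φ * Complex.I) = ((s * φ : ℝ) : ℂ) * Complex.I := by push_cast; ring
    simp only [hf]
    rw [h1, Complex.im_ofReal_mul, neg_mul, Complex.neg_im, Complex.I_mul_im,
      Complex.exp_ofReal_mul_I_re]
    ring
  have hmem : ∀ s ∈ Icc (0 : ℝ) 1, f s ∈ Sg κ := by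
    intro s hs
    refine ⟨?_, ?_, ?_⟩
    · intro h0
      have := hnorm s
      rw [h0] at this
      norm_num at this
    · rw [hnorm]; norm_num
    · rw [hnorm, him]
      have h1 : Real.cos φ ≤ Real.cos (s * φ) := by
        rw [← Real.cos_abs φ, ← Real.cos_abs (s * φ)]
        apply Real.cos_le_cos_of_nonneg_of_le_pi (abs_nonneg _) hφ1
        rw [abs_mul, abs_of_nonneg hs.1]
        exact mul_le_of_le_one_left (abs_nonneg _) hs.2
      rw [hcos1] at h1
      linarith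
  have hder : ∀ s : ℝ, HasDerivAt f (f s * (φ * Complex.I)) s := by
    intro s
    have h1 : HasDerivAt (fun s : ℝ => (s : ℂ) * (φ * Complex.I)) (φ * Complex.I) s := by
      simpa using ((hasDerivAt_id s).ofReal_comp).mul_const (φ * Complex.I)
    refine ((h1.cexp.const_mul (-Complex.I)).const_mul (((1 / 2 : ℝ) : ℂ))).congr_deriv ?_
    simp only [hf]
    ring
  have key := norm_image_sub_le_of_norm_deriv_le_segment_01' (f := fun s : ℝ => q (f s))
    (f' := fun s => deriv q (f s) * (f s * (φ * Complex.I))) (C := Real.pi * (|c| + C))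
    (fun s hs => ?_) (fun s hs => ?_)
  · simp only [hf1, hf0] at key
    exact key
  · have h1 : HasDerivAt q (deriv q (f s)) (f s) :=
      (h.diff.differentiableAt ((isOpen_Sg κ).mem_nhds (hmem s hs))).hasDerivAt
    exact (HasDerivAt.comp s h1 (hder s)).hasDerivWithinAt
  · have h1 := norm_deriv_le h (hmem s ⟨hs.1, hs.2.le⟩)
    rw [hnorm] at h1
    rw [norm_mul, norm_mul (f s), norm_mul (φ : ℂ), Complex.norm_I, Complex.norm_real, hnorm,
      mul_one, Real.norm_eq_abs]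
    calc ‖deriv q (f s)‖ * (1 / 2 * |φ|) ≤ ((|c| + C) / (1 / 2)) * (1 / 2 * Real.pi) := by
          have : 0 ≤ (|c| + C) / (1 / 2) := by positivity
          gcongr
      _ = Real.pi * (|c| + C) := by ring

/-- growth of `exp q` on the whole sector -/
theorem exp_q_bound (h : EndQ κ c β C q) :
    ∃ K : ℝ, 0 < K ∧ ∀ x ∈ Sg κ, ‖x‖ ≤ 1 / 2 → ‖Complex.exp (q x)‖ ≤ K * ‖x‖ ^ c := by
  have hC := C_nonneg h
  set K0 : ℝ := (q (((1 / 2 : ℝ) : ℂ) * (-Complex.I))).re + Real.pi * (|c| + C) -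
    c * Real.log (1 / 2) + C / β * (1 / 2) ^ β with hK0
  refine ⟨Real.exp K0, Real.exp_pos _, fun x hx hx2 => ?_⟩
  have hx0 : 0 < ‖x‖ := norm_pos_iff.2 hx.1
  have hxc : (‖x‖ : ℂ) ≠ 0 := by exact_mod_cast hx0.ne'
  set e : ℂ := x / ‖x‖ with he
  have hen : ‖e‖ = 1 := by
    rw [he, norm_div, Complex.norm_real, norm_norm, div_self hx0.ne']
  have hei : e.im < κ := by
    rw [he, Complex.div_ofReal_im, div_lt_iff₀ hx0]
    exact hx.2.2
  have hxe : (‖x‖ : ℂ) * e = x := by rw [he]; field_simp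
  have h1 := radial h hen hei hx0 hx2 (by norm_num)
  have h2 := arc_bound h hen hei
  rw [hxe] at h1
  have h3 := (abs_le.1 ((Complex.abs_re_le_norm _).trans h1)).1
  have h4 := (abs_le.1 ((Complex.abs_re_le_norm _).trans h2)).2
  simp only [Complex.sub_re, Complex.re_ofReal_mul, Complex.ofReal_re] at h3 h4
  have h5 : (q x).re ≤ K0 + c * Real.log ‖x‖ := by
    rw [hK0]
    linarith
  rw [Complex.norm_exp]
  calc Real.exp (q x).re ≤ Real.exp (K0 + c * Real.log ‖x‖) := Real.exp_le_exp.2 h5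
    _ = Real.exp K0 * ‖x‖ ^ c := by
        rw [Real.exp_add, Real.rpow_def_of_pos hx0, mul_comm c]

/-! ### The segment -/

theorem pow_bound' (β : ℝ) {r1 r2 t : ℝ} (h1 : 0 < r1) (h2 : r1 ≤ t) (h3 : t ≤ r2) :
    t ^ (β - 1) ≤ r1 ^ (β - 1) + r2 ^ (β - 1) := by
  have hr2 : 0 < r2 := h1.trans_le (h2.trans h3)
  rcases le_or_gt 0 (β - 1) with h | h
  · have := Real.rpow_le_rpow (h1.trans_le h2).le h3 h
    have h4 := Real.rpow_nonneg h1.le (β - 1)
    linarith
  · have := Real.rpow_le_rpow_of_nonpos h1 h2 h.le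
    have h4 := Real.rpow_nonneg hr2.le (β - 1)
    linarith

theorem seg_slit {x y : ℂ} (hx : x ≠ 0) (h : ∀ u ∈ Icc (0 : ℝ) 1, x + u * (y - x) ≠ 0) :
    ∀ u ∈ Icc (0 : ℝ) 1, (x + u * (y - x)) / x ∈ Complex.slitPlane := by
  intro u hu
  by_contra hn
  rw [Complex.mem_slitPlane_iff, not_or, not_lt, not_not] at hn
  obtain ⟨h1, h2⟩ := hn
  set r : ℝ := -((x + u * (y - x)) / x).re with hr
  have hr0 : 0 ≤ r := by rw [hr]; linarith
  have h3 : (x + u * (y - x)) / x = -(r : ℂ) := by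
    apply Complex.ext
    · simp [hr]
    · simp [h2]
  have h4 : x + u * (y - x) = -(r : ℂ) * x := by rw [← h3]; field_simp
  have hr1 : (1 + (r : ℂ)) ≠ 0 := by
    have : (1 + r : ℝ) ≠ 0 := by positivity
    exact_mod_cast this
  apply h (u / (1 + r)) ⟨div_nonneg hu.1 (by linarith), by
    rw [div_le_one (by linarith)]; linarith [hu.2]⟩
  push_cast
  have h5 : (u : ℂ) * (y - x) = -((1 + r) * x) := by linear_combination h4
  field_simp
  linear_combination h5

/-- the data of a chord: `q z_u - q x = c Λ u + L u` -/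
structure Chord (κ c : ℝ) (q : ℂ → ℂ) (N l : ℝ) (x y : ℂ) (Λ L : ℝ → ℂ) : Prop where
  Λ_exp : ∀ u ∈ Icc (0 : ℝ) 1, Complex.exp (Λ u) = (x + u * (y - x)) / x
  Λ_zero : Λ 0 = 0
  Λ_der : ∀ u ∈ Icc (0 : ℝ) 1, HasDerivAt Λ ((y - x) / (x + u * (y - x))) u
  L_bd : ∀ u ∈ Icc (0 : ℝ) 1, ‖L u‖ ≤ l
  dec : ∀ u ∈ Icc (0 : ℝ) 1, q (x + u * (y - x)) - q x = c * Λ u + L u
  contQ : ContinuousOn (fun u : ℝ => q (x + u * (y - x))) (Icc 0 1)
  contL : ContinuousOn L (Icc 0 1)

theorem exists_chord (h : EndQ κ c β C q) {N : ℝ} (hN : 1 ≤ N) {x y : ℂ} (hA : Adm κ N x y) :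
    ∃ Λ L : ℝ → ℂ, Chord κ c q N
      (C * ((1 / N) ^ (β - 1) + N ^ (β - 1)) * (N + 1) * ‖x‖ ^ β) x y Λ L := by
  have hC := C_nonneg h
  have hseg : ∀ u ∈ Icc (0 : ℝ) 1, x + u * (y - x) ∈ Sg κ := fun u hu => (hA u hu).1
  have hx : x ∈ Sg κ := by
    have := hseg 0 ⟨le_rfl, zero_le_one⟩
    simpa using this
  have hx0 : 0 < ‖x‖ := norm_pos_iff.2 hx.1
  have hy : ‖y‖ ≤ N * ‖x‖ := by
    have := (hA 1 ⟨zero_le_one, le_rfl⟩).2.2
    simpa using this
  have hyx : ‖y - x‖ ≤ (N + 1) * ‖x‖ := by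
    have := norm_sub_le y x
    linarith
  have hslit := seg_slit hx.1 (fun u hu => (hseg u hu).1)
  set Λ : ℝ → ℂ := fun u => Complex.log ((x + u * (y - x)) / x) with hΛ
  have hΛd : ∀ u ∈ Icc (0 : ℝ) 1, HasDerivAt Λ ((y - x) / (x + u * (y - x))) u := by
    intro u hu
    have h1 : HasDerivAt (fun u : ℝ => (x + u * (y - x)) / x) ((y - x) / x) u := by
      have h2 : HasDerivAt (fun u : ℝ => (u : ℂ) * (y - x)) (y - x) u := by
        simpa using ((hasDerivAt_id u).ofReal_comp).mul_const (y - x)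
      exact (h2.const_add x).div_const x
    refine (h1.clog_real (hslit u hu)).congr_deriv ?_
    have := (hseg u hu).1
    have := hx.1
    field_simp
  set L : ℝ → ℂ := fun u => q (x + u * (y - x)) - q x - c * Λ u with hL
  have hqc := exp_gg_cont h.diff hseg
  have hLd : ∀ u ∈ Icc (0 : ℝ) 1, HasDerivAt L
      ((deriv q (x + u * (y - x)) - c / (x + u * (y - x))) * (y - x)) u := by
    intro u hu
    have h1 : HasDerivAt q (deriv q (x + u * (y - x))) (x + u * (y - x)) :=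
      (h.diff.differentiableAt ((isOpen_Sg κ).mem_nhds (hseg u hu))).hasDerivAt
    have h2 : HasDerivAt (fun u : ℝ => x + (u : ℂ) * (y - x)) (y - x) u := by
      have h2 : HasDerivAt (fun u : ℝ => (u : ℂ) * (y - x)) (y - x) u := by
        simpa using ((hasDerivAt_id u).ofReal_comp).mul_const (y - x)
      exact h2.const_add x
    have h3 : HasDerivAt (fun u : ℝ => q (x + u * (y - x))) (deriv q (x + u * (y - x)) * (y - x)) u :=
      HasDerivAt.comp_of_eq u h1 h2 rfl
    refine ((h3.sub_const (q x)).sub ((hΛd u hu).const_mul (c : ℂ))).congr_deriv ?_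
    ring
  have hL0 : L 0 = 0 := by
    simp [hL, hΛ, hx.1]
  have hbd : ∀ u ∈ Icc (0 : ℝ) 1, ‖(deriv q (x + u * (y - x)) - c / (x + u * (y - x))) * (y - x)‖ ≤
      C * ((1 / N) ^ (β - 1) + N ^ (β - 1)) * (N + 1) * ‖x‖ ^ β := by
    intro u hu
    have h1 := h.asym _ (hseg u hu)
    obtain ⟨_, h2, h3⟩ := hA u hu
    have h4 : ‖x‖ / N ≤ ‖x + u * (y - x)‖ := by
      rw [div_le_iff₀ (by linarith)]; linarith
    have h5 := pow_bound' β (show 0 < ‖x‖ / N by positivity) h4 h3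
    have h6 : (‖x‖ / N) ^ (β - 1) + (N * ‖x‖) ^ (β - 1) =
        ((1 / N) ^ (β - 1) + N ^ (β - 1)) * ‖x‖ ^ (β - 1) := by
      rw [show ‖x‖ / N = (1 / N) * ‖x‖ by ring, Real.mul_rpow (by positivity) hx0.le,
        Real.mul_rpow (by positivity) hx0.le]
      ring
    have h7 : ‖x‖ ^ (β - 1) * ‖x‖ = ‖x‖ ^ β := by
      rw [Real.rpow_sub_one hx0.ne']; field_simp
    have h8 : 0 ≤ ‖x‖ ^ (β - 1) := Real.rpow_nonneg hx0.le _
    have h9 : 0 ≤ (1 / N) ^ (β - 1) + N ^ (β - 1) :=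
      add_nonneg (Real.rpow_nonneg (by positivity) _) (Real.rpow_nonneg (by positivity) _)
    rw [norm_mul]
    calc ‖deriv q (x + u * (y - x)) - c / (x + u * (y - x))‖ * ‖y - x‖
        ≤ (C * ‖x + u * (y - x)‖ ^ (β - 1)) * ((N + 1) * ‖x‖) := by gcongr
      _ ≤ (C * (((1 / N) ^ (β - 1) + N ^ (β - 1)) * ‖x‖ ^ (β - 1))) * ((N + 1) * ‖x‖) := by
          rw [h6] at h5
          gcongr
      _ = C * ((1 / N) ^ (β - 1) + N ^ (β - 1)) * (N + 1) * (‖x‖ ^ (β - 1) * ‖x‖) := by ring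
      _ = _ := by rw [h7]
  refine ⟨Λ, L, ?_, ?_, hΛd, ?_, ?_, hqc, ?_⟩
  · intro u hu
    simp only [hΛ]
    rw [Complex.exp_log (Complex.slitPlane_ne_zero (hslit u hu))]
  · simp [hΛ, hx.1]
  · intro u hu
    have key := norm_image_sub_le_of_norm_deriv_le_segment' (f := L)
      (f' := fun u : ℝ => (deriv q (x + u * (y - x)) - c / (x + u * (y - x))) * (y - x)) (a := 0)
      (b := 1) (C := C * ((1 / N) ^ (β - 1) + N ^ (β - 1)) * (N + 1) * ‖x‖ ^ β)
      (fun s hs => (hLd s hs).hasDerivWithinAt) (fun s hs => hbd s ⟨hs.1, hs.2.le⟩) u hu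
    rw [hL0, sub_zero, sub_zero] at key
    refine key.trans ?_
    have h0 : 0 ≤ C * ((1 / N) ^ (β - 1) + N ^ (β - 1)) * (N + 1) * ‖x‖ ^ β :=
      (norm_nonneg _).trans (hbd u hu)
    exact mul_le_of_le_one_right h0 hu.2
  · intro u hu
    simp only [hL]
    ring
  · exact fun u hu => (hLd u hu).continuousAt.continuousWithinAt

end Crest.Agent.R102.Mel
end
end

-- ▼ part R102/RLimI_231

/-!
# T5 MEL: leaf ML-LI (`RLimI`) (helper231)
-/

set_option autoImplicit false

open Set Filter Topology Metric MeasureTheory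
open scoped ComplexConjugate

noncomputable section

namespace Crest.Agent.R102.Mel

open Crest.Agent.R102.T5R Crest.Agent.R102.Mel231 Crest.Agent.R102.T5R.L4346

theorem hasDeriv_prim {f : ℝ → ℂ} (hf : ContinuousOn f (Icc (0 : ℝ) 1)) :
    ∀ s ∈ Icc (0 : ℝ) 1, HasDerivWithinAt (fun s => ∫ r in (0 : ℝ)..s, f r) (f s) (Icc 0 1) s := by
  intro s hs
  have hI : IntervalIntegrable f volume 0 s :=
    (hf.mono (by rw [uIcc_of_le hs.1]; exact Icc_subset_Icc_right hs.2)).intervalIntegrable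
  have : Fact (s ∈ Icc (0 : ℝ) 1) := ⟨hs⟩
  exact intervalIntegral.integral_hasDerivWithinAt_right hI
    (hf.stronglyMeasurableAtFilter_nhdsWithin measurableSet_Icc s) (hf s hs)

theorem int_V3 {x y : ℂ} (hx : x ≠ 0) :
    (∫ u in (0 : ℝ)..1, ((x + u * (y - x)) / x) ^ 3) =
      (x ^ 2 + y ^ 2) * (x + y) / (4 * x ^ 3) := by
  have hd : ∀ u ∈ uIcc (0 : ℝ) 1, HasDerivAt (fun u : ℝ => (x ^ 3 * (u : ℂ) +
      3 * x ^ 2 * (y - x) * (u : ℂ) ^ 2 / 2 + x * (y - x) ^ 2 * (u : ℂ) ^ 3 +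
      (y - x) ^ 3 * (u : ℂ) ^ 4 / 4) / x ^ 3) (((x + u * (y - x)) / x) ^ 3) u := by
    intro u _
    have h1 : HasDerivAt (fun r : ℝ => (r : ℂ)) 1 u := by
      simpa using (hasDerivAt_id u).ofReal_comp
    refine (((((h1.const_mul (x ^ 3)).add (((h1.pow 2).const_mul
      (3 * x ^ 2 * (y - x))).div_const 2)).add ((h1.pow 3).const_mul (x * (y - x) ^ 2))).add
      (((h1.pow 4).const_mul ((y - x) ^ 3)).div_const 4)).div_const (x ^ 3)).congr_deriv ?_
    push_cast
    field_simp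
    ring
  rw [intervalIntegral.integral_eq_sub_of_hasDerivAt hd (by
    apply Continuous.intervalIntegrable; fun_prop)]
  simp only [Complex.ofReal_one, Complex.ofReal_zero]
  field_simp
  ring

theorem int_V1 {x y : ℂ} (hx : x ≠ 0) :
    (∫ u in (0 : ℝ)..1, ((x + u * (y - x)) / x)) = (x + y) / (2 * x) := by
  have hd : ∀ u ∈ uIcc (0 : ℝ) 1, HasDerivAt (fun u : ℝ => (x * (u : ℂ) +
      (y - x) * (u : ℂ) ^ 2 / 2) / x) ((x + u * (y - x)) / x) u := by
    intro u _
    have h1 : HasDerivAt (fun r : ℝ => (r : ℂ)) 1 u := by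
      simpa using (hasDerivAt_id u).ofReal_comp
    refine (((h1.const_mul x).add (((h1.pow 2).const_mul (y - x)).div_const 2)).div_const
      x).congr_deriv ?_
    push_cast
    field_simp
  rw [intervalIntegral.integral_eq_sub_of_hasDerivAt hd (by
    apply Continuous.intervalIntegrable; fun_prop)]
  simp only [Complex.ofReal_one, Complex.ofReal_zero]
  field_simp
  ring

/-- comparison of integrals -/
theorem int_near {f g : ℝ → ℂ} {B : ℝ} (hf : ContinuousOn f (Icc (0 : ℝ) 1))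
    (hg : ContinuousOn g (Icc (0 : ℝ) 1)) (h : ∀ s ∈ Icc (0 : ℝ) 1, ‖f s - g s‖ ≤ B) :
    ‖(∫ s in (0 : ℝ)..1, f s) - ∫ s in (0 : ℝ)..1, g s‖ ≤ B := by
  have hI : uIcc (0 : ℝ) 1 = Icc 0 1 := uIcc_of_le zero_le_one
  rw [← intervalIntegral.integral_sub (ContinuousOn.intervalIntegrable (by rwa [hI]))
    (ContinuousOn.intervalIntegrable (by rwa [hI]))]
  have := intervalIntegral.norm_integral_le_of_norm_le_const (f := fun s => f s - g s) (a := 0)
    (b := 1) (C := B) (fun s hs => by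
      rw [uIoc_of_le zero_le_one] at hs
      exact h s ⟨hs.1.le, hs.2⟩)
  simpa using this

/-- integrand of `Pj` -/
theorem Pj_cont {q : ℂ → ℂ} {x y : ℂ} (hqc : ContinuousOn (fun u : ℝ => q (x + u * (y - x)))
    (Icc (0 : ℝ) 1)) (j : ℂ) :
    ContinuousOn (fun s : ℝ => Complex.exp (-2 * (q (x + s * (y - x)) - q x)) *
    Complex.exp (j * ((y - x) * ∫ s' in (0 : ℝ)..s, Complex.exp (q (x + s' * (y - x))))))
    (Icc 0 1) := by
  have hec : ContinuousOn (fun s : ℝ => Complex.exp (q (x + s * (y - x)))) (Icc (0 : ℝ) 1) :=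
    Complex.continuous_exp.comp_continuousOn hqc
  have hT : ContinuousOn (fun s : ℝ => ∫ s' in (0 : ℝ)..s, Complex.exp (q (x + s' * (y - x))))
      (Icc 0 1) := fun s hs => (hasDeriv_prim hec s hs).continuousWithinAt
  exact (Complex.continuous_exp.comp_continuousOn (continuousOn_const.mul
    (hqc.sub continuousOn_const))).mul (Complex.continuous_exp.comp_continuousOn
    (continuousOn_const.mul (continuousOn_const.mul hT)))

/-- **ML-LI** -/
theorem rLimI : RLimI := by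
  intro κ β C q j hj h hlim N ε hN hε
  have hC := C_nonneg h
  have hN0 : 0 < N := by linarith
  set K : ℝ := C * ((1 / N) ^ (β - 1) + N ^ (β - 1)) * (N + 1) with hK
  set t0 : ℝ := min 1 (ε / (2 * N ^ 3)) with ht0
  have ht0pos : 0 < t0 := by positivity
  have ht01 : t0 ≤ 1 := min_le_left _ _
  have ht02 : N ^ 3 * (2 * t0) ≤ ε := by
    have h1 : t0 ≤ ε / (2 * N ^ 3) := min_le_right _ _
    rw [le_div_iff₀ (by positivity)] at h1
    linarith
  set δ' : ℝ := t0 / (2 * (N * (N + 1))) with hδ'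
  have hδ'pos : 0 < δ' := by positivity
  -- radius for the limit
  obtain ⟨r, hr, hlr⟩ : ∃ r > 0, ∀ τ ∈ Sg κ, ‖τ‖ < r →
      ‖τ * (j * Complex.exp (q τ)) - 1‖ ≤ δ' := by
    have h1 := (Metric.tendsto_nhdsWithin_nhds.1 hlim) δ' hδ'pos
    obtain ⟨r, hr, h2⟩ := h1
    refine ⟨r, hr, fun τ hτ hτr => ?_⟩
    have h3 := h2 hτ (by simpa using hτr)
    rw [dist_eq_norm] at h3
    exact h3.le
  -- radius for the power
  obtain ⟨r2, hr2, hpow⟩ : ∃ r2 > 0, ∀ t : ℝ, 0 < t → t < r2 → K * t ^ β ≤ t0 / 4 := by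
    have h1 : ContinuousAt (fun t : ℝ => K * t ^ β) 0 :=
      continuousAt_const.mul (Real.continuousAt_rpow_const 0 β (Or.inr h.β_pos.le))
    have h2 := h1.tendsto
    simp only [Real.zero_rpow h.β_pos.ne', mul_zero] at h2
    have h3 : ∀ᶠ t : ℝ in 𝓝 0, K * t ^ β < t0 / 4 := h2.eventually (gt_mem_nhds (by positivity))
    obtain ⟨r2, hr2, h4⟩ := Metric.eventually_nhds_iff.1 h3
    refine ⟨r2, hr2, fun t ht htr => (h4 ?_).le⟩
    rw [Real.dist_eq, sub_zero, abs_of_pos ht]; exact htr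
  refine ⟨min (r / N) r2, by positivity, fun x y hA hxδ => ?_⟩
  obtain ⟨Λ, L, hch⟩ := exists_chord h hN hA
  have hseg : ∀ u ∈ Icc (0 : ℝ) 1, x + u * (y - x) ∈ Sg κ := fun u hu => (hA u hu).1
  have hx : x ∈ Sg κ := by
    have := hseg 0 ⟨le_rfl, zero_le_one⟩
    simpa using this
  have hx0 : 0 < ‖x‖ := norm_pos_iff.2 hx.1
  have hy : ‖y‖ ≤ N * ‖x‖ := by
    have := (hA 1 ⟨zero_le_one, le_rfl⟩).2.2
    simpa using this
  have hyx : ‖y - x‖ ≤ (N + 1) * ‖x‖ := by
    have := norm_sub_le y x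
    linarith
  have hLs : ∀ u ∈ Icc (0 : ℝ) 1, ‖L u‖ ≤ t0 / 4 := fun u hu =>
    (hch.L_bd u hu).trans (hpow _ hx0 (hxδ.trans_le (min_le_right _ _)))
  have hec : ContinuousOn (fun s : ℝ => Complex.exp (q (x + s * (y - x)))) (Icc (0 : ℝ) 1) :=
    Complex.continuous_exp.comp_continuousOn hch.contQ
  set T : ℝ → ℂ := fun s => ∫ s' in (0 : ℝ)..s, Complex.exp (q (x + s' * (y - x))) with hT
  set E : ℝ → ℂ := fun s => j * ((y - x) * T s) - Λ s with hE
  have hEs : ∀ s ∈ Icc (0 : ℝ) 1, ‖E s‖ ≤ t0 / 2 := by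
    intro s hs
    have key := norm_image_sub_le_of_norm_deriv_le_segment' (f := E)
      (f' := fun u : ℝ => j * ((y - x) * Complex.exp (q (x + u * (y - x)))) -
        (y - x) / (x + u * (y - x))) (a := 0) (b := 1) (C := t0 / 2)
      (fun u hu => (((hasDeriv_prim hec u hu).const_mul (y - x)).const_mul j).sub
        (hch.Λ_der u hu).hasDerivWithinAt) (fun u hu => ?_) s hs
    · have hE0 : E 0 = 0 := by simp [hE, hT, hch.Λ_zero]
      rw [hE0, sub_zero, sub_zero] at key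
      refine key.trans ?_
      exact mul_le_of_le_one_right (by positivity) hs.2
    · have hu' : u ∈ Icc (0 : ℝ) 1 := ⟨hu.1, hu.2.le⟩
      obtain ⟨h1, h2, h3⟩ := hA u hu'
      have h0 := h1.1
      have h0n : 0 < ‖x + u * (y - x)‖ := norm_pos_iff.2 h0
      have e1 : j * ((y - x) * Complex.exp (q (x + u * (y - x)))) - (y - x) / (x + u * (y - x)) =
          (y - x) / (x + u * (y - x)) * ((x + u * (y - x)) *
            (j * Complex.exp (q (x + u * (y - x)))) - 1) := by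
        have e0 : ∀ a z E : ℂ, z ≠ 0 → j * (a * E) - a / z = a / z * (z * (j * E) - 1) := by
          intro a z E hz; field_simp
        exact e0 _ _ _ h0
      rw [e1, norm_mul, norm_div]
      have h4 : ‖y - x‖ / ‖x + u * (y - x)‖ ≤ N * (N + 1) := by
        rw [div_le_iff₀ h0n]
        calc ‖y - x‖ ≤ (N + 1) * ‖x‖ := hyx
          _ ≤ (N + 1) * (N * ‖x + u * (y - x)‖) := by gcongr
          _ = _ := by ring
      have h5 := hlr _ h1 (by
        have h6 := hxδ.trans_le (min_le_left _ _)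
        rw [lt_div_iff₀ hN0] at h6
        linarith)
      calc ‖y - x‖ / ‖x + u * (y - x)‖ * _ ≤ (N * (N + 1)) * δ' := by gcongr
        _ = t0 / 2 := by rw [hδ']; field_simp
  have hVn : ∀ u ∈ Icc (0 : ℝ) 1, ‖(x + u * (y - x)) / x‖ ≤ N := by
    intro u hu
    rw [norm_div, div_le_iff₀ hx0]
    exact (hA u hu).2.2
  have hexp : ∀ a : ℂ, ‖a‖ ≤ t0 → ‖Complex.exp a - 1‖ ≤ 2 * t0 := by
    intro a ha
    have := Complex.norm_exp_sub_one_le (ha.trans ht01)
    linarith
  have hcV : Continuous fun u : ℝ => (x + u * (y - x)) / x := by fun_prop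
  have hPc := fun i : ℂ => Pj_cont (q := q) (x := x) (y := y) hch.contQ i
  constructor
  · rw [← int_V3 hx.1]
    unfold Pj
    refine (int_near (hPc j) (g := fun u : ℝ => ((x + u * (y - x)) / x) ^ 3)
      (by fun_prop) (B := N ^ 3 * (2 * t0)) ?_).trans ht02
    intro s hs
    have e1 : Complex.exp (-2 * (q (x + s * (y - x)) - q x)) * Complex.exp (j * ((y - x) *
        ∫ s' in (0 : ℝ)..s, Complex.exp (q (x + s' * (y - x))))) =
        ((x + s * (y - x)) / x) ^ 3 * Complex.exp (E s - 2 * L s) := by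
      rw [hch.dec s hs, ← hch.Λ_exp s hs, ← Complex.exp_nat_mul, ← Complex.exp_add,
        ← Complex.exp_add]
      congr 1
      simp only [hE, hT]
      push_cast
      ring
    rw [e1, ← mul_sub_one, norm_mul, norm_pow]
    have h2 : ‖E s - 2 * L s‖ ≤ t0 := by
      have h3 := norm_sub_le (E s) (2 * L s)
      rw [norm_mul, Complex.norm_ofNat] at h3
      have := hEs s hs
      have := hLs s hs
      linarith
    have h4 := hexp _ h2
    have h5 := hVn s hs
    gcongr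
  · rw [← int_V1 hx.1]
    unfold Pj
    refine (int_near (hPc (-j)) hcV.continuousOn (B := N * (2 * t0)) ?_).trans ?_
    · intro s hs
      have e1 : Complex.exp (-2 * (q (x + s * (y - x)) - q x)) * Complex.exp (-j * ((y - x) *
          ∫ s' in (0 : ℝ)..s, Complex.exp (q (x + s' * (y - x))))) =
          ((x + s * (y - x)) / x) * Complex.exp (-E s - 2 * L s) := by
        rw [hch.dec s hs, ← hch.Λ_exp s hs, ← Complex.exp_add, ← Complex.exp_add]
        congr 1
        simp only [hE, hT]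
        push_cast
        ring
      rw [e1, ← mul_sub_one, norm_mul]
      have h2 : ‖-E s - 2 * L s‖ ≤ t0 := by
        have h3 := norm_sub_le (-E s) (2 * L s)
        rw [norm_mul, norm_neg, Complex.norm_ofNat] at h3
        have := hEs s hs
        have := hLs s hs
        linarith
      have h4 := hexp _ h2
      have h5 := hVn s hs
      gcongr
    · have h1 : N ≤ N ^ 3 := by nlinarith [mul_pos hN0 hN0]
      have h2 : N * (2 * t0) ≤ N ^ 3 * (2 * t0) := by gcongr
      linarith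

end Crest.Agent.R102.Mel
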