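import Mathlib
import Crest.Agent.R102.MelIDefs_963
import Crest.Agent.R102.ExtF_39
import Crest.Agent.R102.MelA_231
import Crest.Agent.R102.RLimI_231

-- ▼ part R102/MelI4a_963
section

/-!
# Row 102, part (C), [T5]/MEL, **MEL-I**, (I4) part a (helper963)

The model `Y0`, one family `Y l` for all `ε`, the slope `ms` on the strip and its limit.
-/

set_option autoImplicit false

open Set Filter Topology Metric
open scoped ComplexConjugate

noncomputable section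

namespace Crest.Agent.R102.MelI963

open Crest.Agent.R102.T5R Crest.Agent.R102.Mel Crest.Agent.R102.ExtF39

/-! ### square roots -/

lemma half_sq (z : ℂ) : (z ^ (1 / 2 : ℂ)) ^ 2 = z := by
  have := Complex.cpow_nat_inv_pow z (n := 2) (by norm_num)
  rw [one_div]
  exact_mod_cast this

lemma quarter_pow (z : ℂ) : (z ^ (1 / 4 : ℂ)) ^ 4 = z := by
  have := Complex.cpow_nat_inv_pow z (n := 4) (by norm_num)
  rw [one_div]
  exact_mod_cast this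

lemma half_re (z : ℂ) : 0 ≤ (z ^ (1 / 2 : ℂ)).re := by
  by_cases hz : z = 0
  · subst hz
    rw [Complex.zero_cpow (by norm_num)]
    simp
  rw [Complex.cpow_def_of_ne_zero hz, Complex.exp_re]
  refine mul_nonneg (Real.exp_pos _).le (Real.cos_nonneg_of_neg_pi_div_two_le_of_le ?_ ?_)
  · have h := Complex.neg_pi_lt_arg z
    have e : (Complex.log z * (1 / 2 : ℂ)).im = Complex.arg z / 2 := by
      have : Complex.log z * (1 / 2 : ℂ) = Complex.log z * ((1 / 2 : ℝ) : ℂ) := by norm_num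
      rw [this, Complex.im_mul_ofReal, Complex.log_im]
      ring
    rw [e]; linarith
  · have h := Complex.arg_le_pi z
    have e : (Complex.log z * (1 / 2 : ℂ)).im = Complex.arg z / 2 := by
      have : Complex.log z * (1 / 2 : ℂ) = Complex.log z * ((1 / 2 : ℝ) : ℂ) := by norm_num
      rw [this, Complex.im_mul_ofReal, Complex.log_im]
      ring
    rw [e]; linarith

/-! ### the model label -/

lemma Y0_sq {s : ℂ} (hs : s ≠ 0) : Y0 s ^ 2 = s ^ 2 - 1 / 4 := by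
  unfold Y0
  rw [mul_pow, half_sq]
  field_simp

lemma Y0_near {s : ℂ} (hs : 5 / 8 < s.re) : ‖Y0 s - s‖ ≤ 2 / 5 := by
  have h0 : s ≠ 0 := by
    rintro rfl
    simp at hs
    linarith
  have hn : 5 / 8 < ‖s‖ := hs.trans_le (Complex.re_le_norm s)
  have e1 : (Y0 s - s) * (s * (1 + (1 - 1 / (4 * s ^ 2)) ^ (1 / 2 : ℂ))) = -(1 / 4) := by
    have : s * (1 + (1 - 1 / (4 * s ^ 2)) ^ (1 / 2 : ℂ)) = Y0 s + s := by unfold Y0; ring
    rw [this]
    linear_combination Y0_sq h0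
  have e2 : ‖Y0 s - s‖ * (‖s‖ * ‖1 + (1 - 1 / (4 * s ^ 2)) ^ (1 / 2 : ℂ)‖) = 1 / 4 := by
    rw [← norm_mul, ← norm_mul, e1]
    norm_num
  have e3 : 1 ≤ ‖1 + (1 - 1 / (4 * s ^ 2)) ^ (1 / 2 : ℂ)‖ := by
    refine le_trans ?_ (Complex.re_le_norm _)
    rw [Complex.add_re, Complex.one_re]
    linarith [half_re (1 - 1 / (4 * s ^ 2))]
  have e4 : 5 / 8 ≤ ‖s‖ * ‖1 + (1 - 1 / (4 * s ^ 2)) ^ (1 / 2 : ℂ)‖ := by nlinarith
  nlinarith [norm_nonneg (Y0 s - s)]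

lemma Y0_re {s : ℂ} (hs : 5 / 8 < s.re) : 1 / 5 < (Y0 s).re := by
  have h1 := Y0_near hs
  have h2 := (Complex.abs_re_le_norm (Y0 s - s)).trans h1
  rw [Complex.sub_re] at h2
  have := (abs_le.1 h2).1
  linarith

lemma Y0_norm {s : ℂ} (hs : 5 / 8 < s.re) : ‖Y0 s‖ ≤ ‖s‖ + 2 / 5 := by
  have h1 := Y0_near hs
  have : ‖Y0 s‖ ≤ ‖Y0 s - s‖ + ‖s‖ := by simpa using norm_add_le (Y0 s - s) s
  linarith

/-! ### one family for all `ε` -/

/-- domain of the extension -/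
def DI (R : ℝ) : Set ℂ := {s | 5 / 8 < s.re ∧ ‖s‖ < 4 * R}

lemma DI_open (R : ℝ) : IsOpen (DI R) :=
  (isOpen_lt continuous_const Complex.continuous_re).inter
    (isOpen_lt continuous_norm continuous_const)

lemma DI_convex (R : ℝ) : Convex ℝ (DI R) := by
  have h1 : Convex ℝ {s : ℂ | 5 / 8 < s.re} := convex_halfSpace_re_gt _
  have h2 : Convex ℝ {s : ℂ | ‖s‖ < 4 * R} := by
    have : {s : ℂ | ‖s‖ < 4 * R} = ball 0 (4 * R) := by
      ext s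
      rw [mem_ball_zero_iff]
      rfl
    rw [this]
    exact convex_ball 0 _
  exact h1.inter h2

/-- the extended labels -/
structure YF (x : ℝ → ℂ → ℂ) (R : ℝ) (Y : ℝ → ℂ → ℂ) : Prop where
  close : ∀ ε : ℝ, 0 < ε → ∀ᶠ l in 𝓝[>] (0 : ℝ), ∀ s ∈ DI R, ‖Y l s - lam l * Y0 s‖ ≤ ε * l
  diff : ∀ᶠ l in 𝓝[>] (0 : ℝ), DifferentiableOn ℂ (Y l) (DI R)
  eq : ∀ᶠ l in 𝓝[>] (0 : ℝ), ∀ s ∈ DI R, R < ‖s‖ → Y l s = x l (lam l * s)

lemma exists_YF (h : ExtI) {κ κ' β C cc CC l₀ : ℝ} {q : ℂ → ℂ} {j : ℂ} {M : ℂ → ℂ}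
    {x : ℝ → ℂ → ℂ} (hS : Side κ κ' (-1) β C cc CC l₀ q j M x)
    (hlim : Tendsto (fun τ => τ * (j * Complex.exp (q τ))) (𝓝[Sg κ] 0) (𝓝 1)) :
    ∃ R₀ : ℝ, 8 ≤ R₀ ∧ 8 ≤ cc * R₀ ∧ 8 ≤ κ' * R₀ ∧ ∀ R : ℝ, R₀ ≤ R → ∃ Y, YF x R Y := by
  obtain ⟨R₀, h1, h2, h3, H⟩ := h κ κ' β C cc CC l₀ q j M x hS hlim
  refine ⟨R₀, h1, h2, h3, fun R hR => ?_⟩
  obtain ⟨la, la0, la1, la2, Ha⟩ := H R 1 hR one_pos
  classical
  choose Y hYd hYn hYe using Ha
  let Y' : ℝ → ℂ → ℂ := fun l => if hl : 0 < l ∧ l < la then Y l hl.1 hl.2 else 0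
  have hY' : ∀ l (hl : 0 < l) (hl' : l < la), Y' l = Y l hl hl' := fun l hl hl' => by
    simp only [Y', dif_pos (And.intro hl hl')]
  have ev : ∀ b : ℝ, 0 < b → ∀ᶠ l in 𝓝[>] (0 : ℝ), 0 < l ∧ l < b := fun b hb =>
    Ioo_mem_nhdsGT hb
  have hz0 : ((2 * R : ℝ) : ℂ) ∈ DI R ∧ R < ‖((2 * R : ℝ) : ℂ)‖ := by
    have hR8 : 8 ≤ R := h1.trans hR
    rw [Complex.norm_real, Real.norm_eq_abs, abs_of_pos (by linarith)]
    refine ⟨⟨?_, ?_⟩, by linarith⟩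
    · rw [Complex.ofReal_re]; linarith
    · rw [Complex.norm_real, Real.norm_eq_abs, abs_of_pos (by linarith)]; linarith
  refine ⟨Y', ?_, ?_, ?_⟩
  · intro ε hε
    obtain ⟨lb, lb0, lb1, lb2, Hb⟩ := H R ε hR hε
    filter_upwards [ev (min la lb) (lt_min la0 lb0)] with l hl s hs
    have hla := hl.2.trans_le (min_le_left _ _)
    have hlb := hl.2.trans_le (min_le_right _ _)
    obtain ⟨Yb, b1, b2, b3⟩ := Hb l hl.1 hlb
    have heq : EqOn (Y' l) Yb (DI R) := by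
      rw [hY' l hl.1 hla]
      have a1 : AnalyticOnNhd ℂ (Y l hl.1 hla) (DI R) :=
        (hYd l hl.1 hla).analyticOnNhd (DI_open R)
      have a2 : AnalyticOnNhd ℂ Yb (DI R) := DifferentiableOn.analyticOnNhd b1 (DI_open R)
      refine a1.eqOn_of_preconnected_of_eventuallyEq a2 (DI_convex R).isPreconnected hz0.1 ?_
      have o1 : IsOpen {s : ℂ | R < ‖s‖} := isOpen_lt continuous_const continuous_norm
      filter_upwards [(DI_open R).mem_nhds hz0.1, o1.mem_nhds hz0.2] with s hs1 hs2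
      have hs1' : 5 / 8 < s.re ∧ ‖s‖ < 4 * R := hs1
      have hs2' : R < ‖s‖ := hs2
      rw [hYe l hl.1 hla s hs1'.1 hs2' hs1'.2, b3 s hs1'.1 hs2' hs1'.2]
    rw [heq hs]
    exact b2 s hs.1 hs.2
  · filter_upwards [ev la la0] with l hl
    rw [hY' l hl.1 hl.2]
    exact hYd l hl.1 hl.2
  · filter_upwards [ev la la0] with l hl s hs hsR
    rw [hY' l hl.1 hl.2]
    exact hYe l hl.1 hl.2 s hs.1 hsR hs.2

end Crest.Agent.R102.MelI963
end
end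

-- ▼ part R102/MelI4b_963
section

/-!
# Row 102, part (C), [T5]/MEL, **MEL-I**, (I4) part b (helper963)

The slope `ms` on the strip, its limit and its holomorphy.
-/

set_option autoImplicit false

open Set Filter Topology Metric
open scoped ComplexConjugate

noncomputable section

namespace Crest.Agent.R102.MelI963

open Crest.Agent.R102.T5R Crest.Agent.R102.Mel Crest.Agent.R102.ExtF39

/-! ### relative limits -/

lemma tendsto_div_zero {ι : Type*} {F : Filter ι} {f g : ι → ℂ} {c : ℝ} (hc : 0 < c)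
    (hg : ∀ᶠ p in F, c ≤ ‖g p‖) (hf : Tendsto f F (𝓝 0)) :
    Tendsto (fun p => f p / g p) F (𝓝 0) := by
  rw [tendsto_zero_iff_norm_tendsto_zero] at hf ⊢
  have h1 : Tendsto (fun p => ‖f p‖ / c) F (𝓝 0) := by simpa using hf.div_const c
  refine squeeze_zero' (Eventually.of_forall fun p => norm_nonneg _) ?_ h1
  filter_upwards [hg] with p hp
  rw [norm_div]
  exact div_le_div_of_nonneg_left (norm_nonneg _) hc hp

lemma tendsto_div_one {ι : Type*} {F : Filter ι} {f g : ι → ℂ} {c : ℝ} (hc : 0 < c)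
    (hg : ∀ᶠ p in F, c ≤ ‖g p‖) (hf : Tendsto (fun p => f p - g p) F (𝓝 0)) :
    Tendsto (fun p => f p / g p) F (𝓝 1) := by
  have h1 := tendsto_div_zero hc hg hf
  have h2 : Tendsto (fun p => (f p - g p) / g p + 1) F (𝓝 (0 + 1)) := h1.add_const 1
  rw [zero_add] at h2
  refine h2.congr' ?_
  filter_upwards [hg] with p hp
  have : g p ≠ 0 := norm_pos_iff.1 (hc.trans_le hp)
  field_simp
  ring

lemma tendsto_sq_sub {ι : Type*} {F : Filter ι} {f g : ι → ℂ} {N : ℝ}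
    (hg : ∀ᶠ p in F, ‖g p‖ ≤ N) (hf : Tendsto (fun p => f p - g p) F (𝓝 0)) :
    Tendsto (fun p => f p ^ 2 - g p ^ 2) F (𝓝 0) := by
  have h1 : Tendsto (fun p => (f p - g p) * g p) F (𝓝 0) := by
    rw [tendsto_zero_iff_norm_tendsto_zero] at hf ⊢
    have h1 : Tendsto (fun p => ‖f p - g p‖ * N) F (𝓝 0) := by simpa using hf.mul_const N
    refine squeeze_zero' (Eventually.of_forall fun p => norm_nonneg _) ?_ h1
    filter_upwards [hg] with p hp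
    rw [norm_mul]
    exact mul_le_mul_of_nonneg_left hp (norm_nonneg _)
  have h2 : Tendsto (fun p => (f p - g p) * (f p - g p) + 2 * ((f p - g p) * g p)) F
      (𝓝 (0 * 0 + 2 * 0)) := (hf.mul hf).add (h1.const_mul 2)
  simp only [mul_zero, add_zero] at h2
  refine h2.congr fun p => ?_
  ring

/-! ### the strip -/

/-- the strip -/
def St (a R : ℝ) : Set ℂ := {s | |s.re| < a ∧ |s.im| < 2 * R}

lemma St_open (a R : ℝ) : IsOpen (St a R) :=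
  (isOpen_lt (continuous_abs.comp Complex.continuous_re) continuous_const).inter
    (isOpen_lt (continuous_abs.comp Complex.continuous_im) continuous_const)

lemma St_neg {a R : ℝ} {s : ℂ} (hs : s ∈ St a R) : -s ∈ St a R := by
  obtain ⟨h1, h2⟩ := hs
  exact ⟨by simpa using h1, by simpa using h2⟩

lemma St_DI {R : ℝ} (hR : 8 ≤ R) {s : ℂ} (hs : s ∈ St (1 / 8) R) {k : ℝ} (hk1 : 1 ≤ k)
    (hk2 : k ≤ 2) : s + k ∈ DI R := by
  obtain ⟨h1, h2⟩ := hs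
  have h3 := (abs_lt.1 h1).1
  refine ⟨?_, ?_⟩
  · rw [Complex.add_re, Complex.ofReal_re]; linarith
  · have h4 : ‖s + (k : ℂ)‖ ≤ |s.re| + |s.im| + k := by
      refine (norm_add_le _ _).trans ?_
      rw [Complex.norm_real, Real.norm_eq_abs, abs_of_pos (by linarith : (0 : ℝ) < k)]
      linarith [Complex.norm_le_abs_re_add_abs_im s]
    linarith

/-- the slope of the chord `s, s + 1` from the extended labels at `s + 1`, `s + 2` -/
def ms (q : ℂ → ℂ) (j : ℂ) (M : ℂ → ℂ) (Y : ℝ → ℂ → ℂ) (l : ℝ) (s : ℂ) : ℂ :=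
  M (Y l (s + 1)) * Rj q (-j) (Y l (s + 1)) (Y l (s + 2))

/-- the scaled labels are in the half disc -/
lemma YF_Hp {x : ℝ → ℂ → ℂ} {R : ℝ} {Y : ℝ → ℂ → ℂ} (hY : YF x R Y) :
    ∀ᶠ l in 𝓝[>] (0 : ℝ), 0 < l ∧ l * (4 * R + 1) < 1 ∧
      ∀ s ∈ DI R, Y l s = lam l * (Y l s / lam l) ∧ Y l s / lam l ∈ Hp (4 * R + 1) := by
  have h2 : Tendsto (fun l : ℝ => l * (4 * R + 1)) (𝓝[>] 0) (𝓝 0) := by
    have : Tendsto (fun l : ℝ => l * (4 * R + 1)) (𝓝 0) (𝓝 (0 * (4 * R + 1))) :=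
      tendsto_id.mul_const _
    rw [zero_mul] at this
    exact this.mono_left nhdsWithin_le_nhds
  filter_upwards [hY.close (1 / 40) (by norm_num), self_mem_nhdsWithin,
    h2.eventually (gt_mem_nhds one_pos)] with l h1 hl h3
  have hl : 0 < l := hl
  refine ⟨hl, h3, fun s hs => ?_⟩
  have hlam := lam_ne hl
  refine ⟨by field_simp, ?_⟩
  have h4 : ‖Y l s / lam l - Y0 s‖ ≤ 1 / 40 := by
    have e : Y l s / lam l - Y0 s = (Y l s - lam l * Y0 s) / lam l := by field_simp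
    rw [e, norm_div, norm_lam hl, div_le_iff₀ hl]
    exact h1 s hs
  constructor
  · have h5 := (Complex.abs_re_le_norm (Y l s / lam l - Y0 s)).trans h4
    rw [Complex.sub_re] at h5
    have h6 := (abs_le.1 h5).1
    have h7 := Y0_re hs.1
    show 1 / 16 < (Y l s / lam l).re
    linarith
  · have h5 : ‖Y l s / lam l‖ ≤ ‖Y l s / lam l - Y0 s‖ + ‖Y0 s‖ := by
      simpa using norm_add_le (Y l s / lam l - Y0 s) (Y0 s)
    have h6 := Y0_norm hs.1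
    have h7 := hs.2
    show ‖Y l s / lam l‖ < 4 * R + 1
    linarith

section

variable {κ κ' β C cc CC l₀ : ℝ} {q : ℂ → ℂ} {j : ℂ} {M E Z Zc : ℂ → ℂ} {σ : ℂ}
  {x : ℝ → ℂ → ℂ} {C₀ : ℂ} {R : ℝ} {Y : ℝ → ℂ → ℂ}

lemma ms_limit (hS : Side κ κ' (-1) β C cc CC l₀ q j M x)
    (hlim : Tendsto (fun τ => τ * (j * Complex.exp (q τ))) (𝓝[Sg κ] 0) (𝓝 1))
    (hP : Pos κ q j σ M E Z Zc) (hC : C₀ ≠ 0)
    (hE : Tendsto (fun τ => E τ / τ) (𝓝[Sg κ] 0) (𝓝 C₀)) (hR : 8 ≤ R) (hY : YF x R Y) :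
    Tendsto (fun p : ℝ × ℂ => ms q j M Y p.1 p.2 / (C₀ * lam p.1 * (p.2 + 1 / 2)) ^ 2)
      (𝓝[>] (0 : ℝ) ×ˢ 𝓟 (St (1 / 8) R)) (𝓝 1) ∧
    ∀ᶠ l in 𝓝[>] (0 : ℝ), ∀ s ∈ St (1 / 8) R, Y l (s + 1) ∈ Sg κ ∧
      Adm κ (16 * (4 * R + 1)) (Y l (s + 1)) (Y l (s + 2)) ∧
      Pj q j (Y l (s + 1)) (Y l (s + 2)) ≠ 0 ∧ Pj q (-j) (Y l (s + 1)) (Y l (s + 2)) ≠ 0 := by
  have hκ : 0 < κ := hS.endq.κ_pos
  set F : Filter (ℝ × ℂ) := 𝓝[>] (0 : ℝ) ×ˢ 𝓟 (St (1 / 8) R) with hF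
  set N : ℝ := 4 * R + 1 with hN
  have hN1 : 33 ≤ N := by rw [hN]; linarith
  have hfst : Tendsto (fun p : ℝ × ℂ => p.1) F (𝓝[>] 0) := tendsto_fst
  have hin : ∀ᶠ p : ℝ × ℂ in F, p.2 ∈ St (1 / 8) R := by
    have : Tendsto (fun p : ℝ × ℂ => p.2) F (𝓟 (St (1 / 8) R)) := tendsto_snd
    exact this.eventually (mem_principal_self _)
  have hD1 : ∀ s ∈ St (1 / 8) R, s + 1 ∈ DI R := fun s hs => by
    simpa using St_DI hR hs le_rfl one_le_two
  have hD2 : ∀ s ∈ St (1 / 8) R, s + 2 ∈ DI R := fun s hs => by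
    simpa using St_DI hR hs one_le_two le_rfl
  have hHp := hfst.eventually (YF_Hp hY)
  set a : ℝ × ℂ → ℂ := fun p => Y0 (p.2 + 1) with ha
  set b : ℝ × ℂ → ℂ := fun p => Y0 (p.2 + 2) with hb
  set ξ : ℝ × ℂ → ℂ := fun p => Y p.1 (p.2 + 1) / lam p.1 with hξ
  set η : ℝ × ℂ → ℂ := fun p => Y p.1 (p.2 + 2) / lam p.1 with hη
  -- differences
  have hdiff : ∀ (k : ℂ), (∀ s ∈ St (1 / 8) R, s + k ∈ DI R) →
      Tendsto (fun p : ℝ × ℂ => Y p.1 (p.2 + k) / lam p.1 - Y0 (p.2 + k)) F (𝓝 0) := by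
    intro k hk
    rw [Metric.tendsto_nhds]
    intro ε hε
    filter_upwards [hfst.eventually (hY.close (ε / 2) (by positivity)), hin,
      hfst.eventually self_mem_nhdsWithin] with p h1 h2 h3
    have hl : 0 < p.1 := h3
    rw [dist_zero_right]
    have e : Y p.1 (p.2 + k) / lam p.1 - Y0 (p.2 + k) =
        (Y p.1 (p.2 + k) - lam p.1 * Y0 (p.2 + k)) / lam p.1 := by
      have := lam_ne hl
      field_simp
    rw [e, norm_div, norm_lam hl, div_lt_iff₀ hl]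
    have := h1 _ (hk _ h2)
    nlinarith
  have hξa : Tendsto (fun p => ξ p - a p) F (𝓝 0) := hdiff 1 hD1
  have hηb : Tendsto (fun p => η p - b p) F (𝓝 0) := hdiff 2 hD2
  -- bounds for the model
  have hare : ∀ᶠ p in F, 1 / 5 < (a p).re ∧ ‖a p‖ ≤ N := by
    filter_upwards [hin] with p hp
    have h1 := hD1 _ hp
    refine ⟨Y0_re h1.1, (Y0_norm h1.1).trans ?_⟩
    have := h1.2
    rw [hN]; linarith
  have hbre : ∀ᶠ p in F, 1 / 5 < (b p).re ∧ ‖b p‖ ≤ N := by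
    filter_upwards [hin] with p hp
    have h1 := hD2 _ hp
    refine ⟨Y0_re h1.1, (Y0_norm h1.1).trans ?_⟩
    have := h1.2
    rw [hN]; linarith
  have ha5 : ∀ᶠ p in F, 1 / 5 ≤ ‖a p‖ := by
    filter_upwards [hare] with p hp using hp.1.le.trans (Complex.re_le_norm _)
  have hab : ∀ᶠ p in F, 2 / 5 ≤ ‖a p + b p‖ := by
    filter_upwards [hare, hbre] with p h1 h2
    refine le_trans ?_ (Complex.re_le_norm _)
    rw [Complex.add_re]
    linarith [h1.1, h2.1]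
  have ha2 : ∀ᶠ p in F, a p ^ 2 = (p.2 + 1 / 2) * (p.2 + 3 / 2) := by
    filter_upwards [hin] with p hp
    have h1 := hD1 _ hp
    have h0 : p.2 + 1 ≠ 0 := by
      intro h
      have := h1.1
      rw [h] at this
      simp at this
      linarith
    simp only [ha]
    rw [Y0_sq h0]
    ring
  have hb2 : ∀ᶠ p in F, b p ^ 2 = (p.2 + 5 / 2) * (p.2 + 3 / 2) := by
    filter_upwards [hin] with p hp
    have h1 := hD2 _ hp
    have h0 : p.2 + 2 ≠ 0 := by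
      intro h
      have := h1.1
      rw [h] at this
      simp at this
      linarith
    simp only [hb]
    rw [Y0_sq h0]
    ring
  have hs3 : ∀ᶠ p : ℝ × ℂ in F, 1 ≤ ‖p.2 + 3 / 2‖ ∧ 3 / 8 ≤ ‖p.2 + 1 / 2‖ := by
    filter_upwards [hin] with p hp
    have h1 := (abs_lt.1 hp.1).1
    constructor
    · refine le_trans ?_ (Complex.re_le_norm _)
      rw [Complex.add_re]
      norm_num
      linarith
    · refine le_trans ?_ (Complex.re_le_norm _)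
      rw [Complex.add_re]
      norm_num
      linarith
  have hsum2 : ∀ᶠ p in F, a p ^ 2 + b p ^ 2 = 2 * (p.2 + 3 / 2) ^ 2 := by
    filter_upwards [ha2, hb2] with p h1 h2
    rw [h1, h2]
    ring
  have hsq : ∀ᶠ p in F, 2 ≤ ‖a p ^ 2 + b p ^ 2‖ := by
    filter_upwards [hsum2, hs3] with p h1 h2
    rw [h1, norm_mul, norm_pow]
    norm_num
    nlinarith [h2.1]
  -- ratios
  have r1 : Tendsto (fun p => ξ p / a p) F (𝓝 1) := tendsto_div_one (by norm_num) ha5 hξa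
  have r2 : Tendsto (fun p => (ξ p + η p) / (a p + b p)) F (𝓝 1) := by
    refine tendsto_div_one (c := 2 / 5) (by norm_num) hab ?_
    have h := hξa.add hηb
    rw [add_zero] at h
    refine h.congr fun p => ?_
    ring
  have r3 : Tendsto (fun p => (ξ p ^ 2 + η p ^ 2) / (a p ^ 2 + b p ^ 2)) F (𝓝 1) := by
    refine tendsto_div_one (c := 2) (by norm_num) hsq ?_
    have h := (tendsto_sq_sub (hare.mono fun p hp => hp.2) hξa).add
      (tendsto_sq_sub (hbre.mono fun p hp => hp.2) hηb)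
    rw [add_zero] at h
    refine h.congr fun p => ?_
    ring
  -- admissibility
  have hadm : ∀ᶠ p in F, Adm κ (16 * N) (Y p.1 (p.2 + 1)) (Y p.1 (p.2 + 2)) ∧
      Y p.1 (p.2 + 1) ∈ Sg κ ∧ ‖Y p.1 (p.2 + 1)‖ ≤ p.1 * N ∧ 0 < p.1 ∧ 
      Y p.1 (p.2 + 1) = lam p.1 * ξ p ∧ Y p.1 (p.2 + 2) = lam p.1 * η p ∧ ξ p ≠ 0 := by
    filter_upwards [hHp, hin] with p ⟨hl, hlN, h1⟩ h2
    obtain ⟨e1, m1⟩ := h1 _ (hD1 _ h2)
    obtain ⟨e2, m2⟩ := h1 _ (hD2 _ h2)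
    refine ⟨?_, ?_, ?_, hl, e1, e2, ?_⟩
    · rw [e1, e2]
      exact adm_of hκ hl hlN m1 m2
    · rw [e1]
      exact lam_mem hκ hl hlN (by linarith [m1.1]) m1.2.le
    · rw [e1, norm_mul, norm_lam hl]
      exact mul_le_mul_of_nonneg_left m1.2.le hl.le
    · exact re_pos_ne (by linarith [m1.1])
  have hx0 : Tendsto (fun p : ℝ × ℂ => Y p.1 (p.2 + 1)) F (𝓝[Sg κ] 0) := by
    rw [tendsto_nhdsWithin_iff]
    refine ⟨?_, hadm.mono fun p hp => hp.2.1⟩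
    rw [tendsto_zero_iff_norm_tendsto_zero]
    have h1 : Tendsto (fun p : ℝ × ℂ => p.1 * N) F (𝓝 0) := by
      have h2 : Tendsto (fun p : ℝ × ℂ => p.1) F (𝓝 0) := hfst.mono_right nhdsWithin_le_nhds
      simpa using h2.mul_const N
    exact squeeze_zero' (Eventually.of_forall fun p => norm_nonneg _)
      (hadm.mono fun p hp => hp.2.2.1) h1
  -- limits of the integrals
  have hN16 : (1 : ℝ) ≤ 16 * N := by linarith
  have p1 : Tendsto (fun p : ℝ × ℂ => Pj q j (Y p.1 (p.2 + 1)) (Y p.1 (p.2 + 2)) -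
      (ξ p ^ 2 + η p ^ 2) * (ξ p + η p) / (4 * ξ p ^ 3)) F (𝓝 0) := by
    rw [Metric.tendsto_nhds]
    intro ε hε
    obtain ⟨δ, hδ, H⟩ := rLimI κ β C q j hS.hj hS.endq hlim (16 * N) (ε / 2) hN16 (by positivity)
    have hsm := (hx0.mono_right nhdsWithin_le_nhds).eventually (ball_mem_nhds (0 : ℂ) hδ)
    filter_upwards [hadm, hsm] with p h1 h2
    have h2 : ‖Y p.1 (p.2 + 1)‖ < δ := by rw [← dist_zero_right]; exact h2
    have h3 := (H _ _ h1.1 h2).1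
    rw [dist_zero_right]
    obtain ⟨-, -, -, hl, e1, e2, hξ0⟩ := h1
    have e3 : (Y p.1 (p.2 + 1) ^ 2 + Y p.1 (p.2 + 2) ^ 2) * (Y p.1 (p.2 + 1) + Y p.1 (p.2 + 2)) /
        (4 * Y p.1 (p.2 + 1) ^ 3) = (ξ p ^ 2 + η p ^ 2) * (ξ p + η p) / (4 * ξ p ^ 3) := by
      rw [e1, e2]
      have := lam_ne hl
      field_simp
    rw [e3] at h3
    linarith
  have p2 : Tendsto (fun p : ℝ × ℂ => Pj q (-j) (Y p.1 (p.2 + 1)) (Y p.1 (p.2 + 2)) -
      (ξ p + η p) / (2 * ξ p)) F (𝓝 0) := by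
    rw [Metric.tendsto_nhds]
    intro ε hε
    obtain ⟨δ, hδ, H⟩ := rLimI κ β C q j hS.hj hS.endq hlim (16 * N) (ε / 2) hN16 (by positivity)
    have hsm := (hx0.mono_right nhdsWithin_le_nhds).eventually (ball_mem_nhds (0 : ℂ) hδ)
    filter_upwards [hadm, hsm] with p h1 h2
    have h2 : ‖Y p.1 (p.2 + 1)‖ < δ := by rw [← dist_zero_right]; exact h2
    have h3 := (H _ _ h1.1 h2).2
    rw [dist_zero_right]
    obtain ⟨-, -, -, hl, e1, e2, hξ0⟩ := h1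
    have e3 : (Y p.1 (p.2 + 1) + Y p.1 (p.2 + 2)) /
        (2 * Y p.1 (p.2 + 1)) = (ξ p + η p) / (2 * ξ p) := by
      rw [e1, e2]
      have := lam_ne hl
      field_simp
    rw [e3] at h3
    linarith
  have hNpos : 0 < N := by linarith
  have q1 : Tendsto (fun p : ℝ × ℂ => Pj q j (Y p.1 (p.2 + 1)) (Y p.1 (p.2 + 2)) /
      ((a p ^ 2 + b p ^ 2) * (a p + b p) / (4 * a p ^ 3))) F (𝓝 1) := by
    have hlow : ∀ᶠ p in F, 2 * (2 / 5) / (4 * N ^ 3) ≤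
        ‖(a p ^ 2 + b p ^ 2) * (a p + b p) / (4 * a p ^ 3)‖ := by
      filter_upwards [hsq, hab, hare, ha5] with p h1 h2 h3 h4
      rw [norm_div, norm_mul, norm_mul, norm_pow]
      have e4 : ‖(4 : ℂ)‖ = 4 := by norm_num
      rw [e4]
      have hap : 0 < ‖a p‖ := by linarith
      gcongr
      exact h3.2
    have h1 := tendsto_div_zero (c := 2 * (2 / 5) / (4 * N ^ 3)) (by positivity) hlow p1
    have h2 := h1.add ((r3.mul r2).div (r1.pow 3) (by norm_num))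
    have e5 : (0 : ℂ) + 1 * 1 / 1 ^ 3 = 1 := by norm_num
    rw [e5] at h2
    refine h2.congr' ?_
    filter_upwards [hsq, hab, ha5, hadm] with p h3 h4 h5 h6
    have n1 : a p ≠ 0 := norm_pos_iff.1 (by linarith)
    have n2 : a p + b p ≠ 0 := norm_pos_iff.1 (by linarith)
    have n3 : a p ^ 2 + b p ^ 2 ≠ 0 := norm_pos_iff.1 (by linarith)
    have n4 : ξ p ≠ 0 := h6.2.2.2.2.2.2
    simp only [Pi.div_apply]
    field_simp
    ring
  have q2 : Tendsto (fun p : ℝ × ℂ => Pj q (-j) (Y p.1 (p.2 + 1)) (Y p.1 (p.2 + 2)) /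
      ((a p + b p) / (2 * a p))) F (𝓝 1) := by
    have hlow : ∀ᶠ p in F, (2 / 5) / (2 * N) ≤ ‖(a p + b p) / (2 * a p)‖ := by
      filter_upwards [hsq, hab, hare, ha5] with p h1 h2 h3 h4
      rw [norm_div, norm_mul]
      have e4 : ‖(2 : ℂ)‖ = 2 := by norm_num
      rw [e4]
      have hap : 0 < ‖a p‖ := by linarith
      gcongr
      exact h3.2
    have h1 := tendsto_div_zero (c := (2 / 5) / (2 * N)) (by positivity) hlow p2
    have h2 := h1.add (r2.div r1 one_ne_zero)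
    have e5 : (0 : ℂ) + 1 / 1 = 1 := by norm_num
    rw [e5] at h2
    refine h2.congr' ?_
    filter_upwards [hsq, hab, ha5, hadm] with p h3 h4 h5 h6
    have n1 : a p ≠ 0 := norm_pos_iff.1 (by linarith)
    have n2 : a p + b p ≠ 0 := norm_pos_iff.1 (by linarith)
    have n4 : ξ p ≠ 0 := h6.2.2.2.2.2.2
    simp only [Pi.div_apply]
    field_simp
    ring
  -- the slope of the tangent
  have q3 : Tendsto (fun p : ℝ × ℂ => M (Y p.1 (p.2 + 1)) / (C₀ * lam p.1 * a p) ^ 2) F (𝓝 1) := by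
    have h1 : Tendsto (fun p : ℝ × ℂ => E (Y p.1 (p.2 + 1)) / Y p.1 (p.2 + 1)) F (𝓝 C₀) :=
      hE.comp hx0
    have h2 : Tendsto (fun p : ℝ × ℂ => (E (Y p.1 (p.2 + 1)) / Y p.1 (p.2 + 1)) ^ 2 / C₀ ^ 2 *
        (ξ p / a p) ^ 2) F (𝓝 (C₀ ^ 2 / C₀ ^ 2 * 1 ^ 2)) :=
      ((h1.pow 2).div_const _).mul (r1.pow 2)
    have e5 : C₀ ^ 2 / C₀ ^ 2 * 1 ^ 2 = 1 := by field_simp
    rw [e5] at h2
    refine h2.congr' ?_
    filter_upwards [ha5, hadm] with p h5 h6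
    obtain ⟨-, hmem, -, hl, e1, e2, hξ0⟩ := h6
    have n1 : a p ≠ 0 := norm_pos_iff.1 (by linarith)
    have n2 := lam_ne hl
    rw [← hP.E_sq _ hmem]
    have e6 : (E (Y p.1 (p.2 + 1)) / Y p.1 (p.2 + 1)) ^ 2 / C₀ ^ 2 * (ξ p / a p) ^ 2 =
        E (Y p.1 (p.2 + 1)) ^ 2 / (lam p.1 * ξ p) ^ 2 / C₀ ^ 2 * (ξ p / a p) ^ 2 := by
      rw [div_pow, e1]
    rw [e6]
    field_simp
  have hN1' : ∀ᶠ p in F, Pj q j (Y p.1 (p.2 + 1)) (Y p.1 (p.2 + 2)) ≠ 0 ∧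
      Pj q (-j) (Y p.1 (p.2 + 1)) (Y p.1 (p.2 + 2)) ≠ 0 := by
    filter_upwards [q1.eventually_ne one_ne_zero, q2.eventually_ne one_ne_zero] with p h1 h2
    exact ⟨fun h => h1 (by rw [h, zero_div]), fun h => h2 (by rw [h, zero_div])⟩
  refine ⟨?_, ?_⟩
  · have h1 := (q3.mul q2).div q1 one_ne_zero
    have e5 : (1 : ℂ) * 1 / 1 = 1 := by norm_num
    rw [e5] at h1
    refine h1.congr' ?_
    filter_upwards [hN1', ha5, hab, hsq, hadm, hsum2, ha2, hs3] with p h2 h3 h4 h5 h6 h7 h8 h9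
    obtain ⟨-, hmem, -, hl, e1, e2, hξ0⟩ := h6
    have n1 : a p ≠ 0 := norm_pos_iff.1 (by linarith)
    have n2 : a p + b p ≠ 0 := norm_pos_iff.1 (by linarith)
    have n3 : a p ^ 2 + b p ^ 2 ≠ 0 := norm_pos_iff.1 (by linarith)
    have n4 := lam_ne hl
    have n5 : p.2 + 1 / 2 ≠ 0 := norm_pos_iff.1 (by linarith [h9.2])
    have n6 : p.2 + 3 / 2 ≠ 0 := norm_pos_iff.1 (by linarith [h9.1])
    simp only [ms, Rj, neg_neg]
    obtain ⟨n7, n8⟩ := h2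
    have key : (a p ^ 2) ^ 2 * 2 = (a p ^ 2 + b p ^ 2) * (p.2 + 1 / 2) ^ 2 := by
      rw [h7, h8]; ring
    have key2 : (C₀ * lam p.1 * a p) ^ 2 * ((a p + b p) / (2 * a p)) /
        ((a p ^ 2 + b p ^ 2) * (a p + b p) / (4 * a p ^ 3)) =
        (C₀ * lam p.1 * (p.2 + 1 / 2)) ^ 2 := by
      have e8 : (C₀ * lam p.1 * a p) ^ 2 * ((a p + b p) / (2 * a p)) /
        ((a p ^ 2 + b p ^ 2) * (a p + b p) / (4 * a p ^ 3)) =
        (C₀ * lam p.1) ^ 2 * (2 * a p ^ 4) / (a p ^ 2 + b p ^ 2) := by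
        field_simp
        ring
      have e9 : 2 * a p ^ 4 = (a p ^ 2 + b p ^ 2) * (p.2 + 1 / 2) ^ 2 := by
        linear_combination key
      rw [e8, e9]
      field_simp
    rw [← key2]
    simp only [Pi.div_apply]
    field_simp
  · have := hN1'.and hadm
    rw [hF, eventually_prod_principal_iff] at this
    filter_upwards [this] with l hl s hs
    obtain ⟨⟨h1, h2⟩, h3⟩ := hl s hs
    exact ⟨h3.2.1, h3.1, h1, h2⟩

end

end Crest.Agent.R102.MelI963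
end
end

-- ▼ part R102/MelI4c_963
section

/-!
# Row 102, part (C), [T5]/MEL, **MEL-I**, (I4) part c (helper963)

Far chords: `x l t, x l (t - i l)` with `R₁ l ≤ ‖t‖`; the slope `mc` and its limit; `ms = mc`.
-/

set_option autoImplicit false

open Set Filter Topology Metric
open scoped ComplexConjugate

noncomputable section

namespace Crest.Agent.R102.MelI963

open Crest.Agent.R102.T5R Crest.Agent.R102.Mel Crest.Agent.R102.ExtF39

variable {κ κ' β C cc CC l₀ : ℝ} {q : ℂ → ℂ} {j : ℂ} {M E Z Zc : ℂ → ℂ} {σ : ℂ}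
  {x : ℝ → ℂ → ℂ} {C₀ : ℂ}

/-- the labels are close to the times -/
lemma x_near (hS : Side κ κ' (-1) β C cc CC l₀ q j M x) {l : ℝ} (hl : 0 < l) (hl0 : l < l₀)
    {t : ℂ} (ht : t ∈ Dl κ' cc l) : ‖x l t - t‖ ≤ l / 8 := by
  have h1 := hS.cone.near l hl hl0 t ht
  have h2 := hS.cone.Cc
  obtain ⟨h3, -, -, h4⟩ := ht
  have hn : 0 < ‖t‖ := norm_pos_iff.2 h3
  refine h1.trans ?_
  rw [div_le_iff₀ hn]
  by_cases hC : 0 ≤ CC
  · have h5 : CC * l ≤ CC * (cc * ‖t‖) := mul_le_mul_of_nonneg_left h4.le hC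
    have h6 : CC * l * l ≤ CC * (cc * ‖t‖) * l := mul_le_mul_of_nonneg_right h5 hl.le
    have h7 : CC * cc * (‖t‖ * l) ≤ 1 / 8 * (‖t‖ * l) :=
      mul_le_mul_of_nonneg_right h2 (by positivity)
    nlinarith
  · push Not at hC
    have : CC * l ^ 2 ≤ 0 := by nlinarith [sq_nonneg l]
    have : 0 ≤ l / 8 * ‖t‖ := by positivity
    linarith

/-- geometry of a far chord -/
lemma far_chord (hS : Side κ κ' (-1) β C cc CC l₀ q j M x) {l : ℝ} (hl : 0 < l) (hl0 : l < l₀)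
    {t t' : ℂ} (ht : t ∈ Dl κ' cc l) (ht' : t' ∈ Dl κ' cc l) (htt : ‖t' - t‖ ≤ l) {R₁ : ℝ}
    (hR : 8 ≤ R₁) (hRκ : 4 ≤ (κ - κ') * R₁) (hRl : R₁ * l ≤ ‖t‖) :
    Adm κ 2 (x l t) (x l t') ∧ ‖x l t' - x l t‖ ≤ 5 / 4 * l ∧ ‖x l t - t‖ ≤ l / 8 ∧
      7 * l ≤ ‖x l t‖ ∧ ‖x l t‖ ≤ 2 * ‖t‖ := by
  have hκ1 : κ < 1 := hS.endq.κ_lt
  have hκ0 : 0 < κ := hS.endq.κ_pos
  have hκκ := hS.κ'_lt
  have hκ' := hS.κ'_pos
  have a1 := x_near hS hl hl0 ht
  have a2 := x_near hS hl hl0 ht'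
  have a3 : ‖x l t' - x l t‖ ≤ 5 / 4 * l := by
    have e : x l t' - x l t = (x l t' - t') + (t' - t) - (x l t - t) := by ring
    rw [e]
    refine (norm_sub_le _ _).trans ?_
    have := norm_add_le (x l t' - t') (t' - t)
    linarith
  have hRl' : 8 * l ≤ ‖t‖ := by nlinarith
  have a4 : ‖t‖ ≤ ‖x l t‖ + l / 8 := by
    have : ‖t‖ ≤ ‖x l t‖ + ‖x l t - t‖ := by
      have := norm_sub_le (x l t) (x l t - t)
      simpa using this
    linarith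
  have a5 : ‖x l t‖ ≤ ‖t‖ + l / 8 := by
    have : ‖x l t‖ ≤ ‖x l t - t‖ + ‖t‖ := by simpa using norm_add_le (x l t - t) t
    linarith
  refine ⟨?_, a3, a1, by linarith, by linarith⟩
  intro u hu
  set z : ℂ := x l t + u * (x l t' - x l t) with hz
  have hzt : ‖z - t‖ ≤ 3 / 2 * l := by
    have e : z - t = (x l t - t) + u * (x l t' - x l t) := by rw [hz]; ring
    rw [e]
    refine (norm_add_le _ _).trans ?_
    rw [norm_mul, Complex.norm_real, Real.norm_eq_abs, abs_of_nonneg hu.1]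
    have : u * ‖x l t' - x l t‖ ≤ 1 * (5 / 4 * l) :=
      mul_le_mul hu.2 a3 (norm_nonneg _) zero_le_one
    linarith
  have b1 : ‖t‖ ≤ ‖z‖ + 3 / 2 * l := by
    have := norm_sub_le z (z - t)
    simp only [sub_sub_cancel] at this
    linarith
  have b2 : ‖z‖ ≤ ‖t‖ + 3 / 2 * l := by
    have : ‖z‖ ≤ ‖z - t‖ + ‖t‖ := by simpa using norm_add_le (z - t) t
    linarith
  have b3 : |z.im - t.im| ≤ 3 / 2 * l := by
    have := Complex.abs_im_le_norm (z - t)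
    rw [Complex.sub_im] at this
    linarith
  refine ⟨⟨?_, ?_, ?_⟩, ?_, ?_⟩
  · exact norm_pos_iff.1 (by linarith)
  · have := ht.2.1
    linarith
  · have c1 := (abs_le.1 b3).2
    have c2 := ht.2.2.1
    have c3 : 4 * l ≤ (κ - κ') * ‖t‖ := by
      have : (κ - κ') * (R₁ * l) ≤ (κ - κ') * ‖t‖ :=
        mul_le_mul_of_nonneg_left hRl (by linarith)
      nlinarith
    have c4 : κ * ‖t‖ ≤ κ * ‖z‖ + κ * (3 / 2 * l) := by nlinarith
    have c5 : κ * (3 / 2 * l) ≤ 3 / 2 * l := by nlinarith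
    nlinarith
  · linarith
  · linarith

/-- convergence of the integrals on far chords -/
lemma far_Pj (hS : Side κ κ' (-1) β C cc CC l₀ q j M x)
    (hlim : Tendsto (fun τ => τ * (j * Complex.exp (q τ))) (𝓝[Sg κ] 0) (𝓝 1)) {ε : ℝ}
    (hε : 0 < ε) : ∃ δ > 0, ∀ x y : ℂ, Adm κ 2 x y → ‖x‖ < δ →
      ‖Pj q j x y - (x ^ 2 + y ^ 2) * (x + y) / (4 * x ^ 3)‖ ≤ ε ∧
      ‖Pj q (-j) x y - (x + y) / (2 * x)‖ ≤ ε :=
  rLimI κ β C q j hS.hj hS.endq hlim 2 ε (by norm_num) hε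

/-- the filter: `l / ‖t‖ → 0`, `‖t‖ → 0` -/
def Fc (κ' cc l₀ : ℝ) : Filter (ℝ × ℂ) :=
  comap (fun p : ℝ × ℂ => (p.1 / ‖p.2‖, ‖p.2‖)) (𝓝 ((0, 0) : ℝ × ℝ)) ⊓
    𝓟 {p | 0 < p.1 ∧ p.1 < l₀ ∧ p.2 ∈ Dl κ' cc p.1 ∧ p.2 - Complex.I * p.1 ∈ Dl κ' cc p.1}

lemma Fc_iff {P : ℝ × ℂ → Prop} :
    (∀ᶠ p in Fc κ' cc l₀, P p) → ∃ R₁ ρ : ℝ, 0 < R₁ ∧ 0 < ρ ∧ ∀ (l : ℝ) (t : ℂ), 0 < l → l < l₀ →
      t ∈ Dl κ' cc l → t - Complex.I * l ∈ Dl κ' cc l → R₁ * l < ‖t‖ → ‖t‖ < ρ → P (l, t) := by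
  intro h
  have hb := ((Metric.nhds_basis_ball (x := ((0, 0) : ℝ × ℝ))).comap
    (fun p : ℝ × ℂ => (p.1 / ‖p.2‖, ‖p.2‖))).inf_principal
    {p | 0 < p.1 ∧ p.1 < l₀ ∧ p.2 ∈ Dl κ' cc p.1 ∧ p.2 - Complex.I * p.1 ∈ Dl κ' cc p.1}
  obtain ⟨r, hr, H⟩ := hb.eventually_iff.1 h
  refine ⟨1 / r, r, by positivity, hr, fun l t h1 h2 h3 h4 h5 h6 => ?_⟩
  apply H
  refine ⟨?_, h1, h2, h3, h4⟩
  have ht : 0 < ‖t‖ := norm_pos_iff.2 h3.1
  simp only [mem_preimage, mem_ball]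
  have e : ((0, 0) : ℝ × ℝ) = 0 := rfl
  rw [e, dist_zero_right, Prod.norm_def, max_lt_iff]
  constructor
  · simp only [Real.norm_eq_abs]
    rw [abs_of_pos (by positivity), div_lt_iff₀ ht]
    rw [div_mul_eq_mul_div, one_mul, div_lt_iff₀ hr] at h5
    linarith
  · simpa using h6

lemma Fc_tendsto : Tendsto (fun p : ℝ × ℂ => p.1 / ‖p.2‖) (Fc κ' cc l₀) (𝓝 0) ∧
    Tendsto (fun p : ℝ × ℂ => ‖p.2‖) (Fc κ' cc l₀) (𝓝 0) ∧
    ∀ᶠ p in Fc κ' cc l₀, 0 < p.1 ∧ p.1 < l₀ ∧ p.2 ∈ Dl κ' cc p.1 ∧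
      p.2 - Complex.I * p.1 ∈ Dl κ' cc p.1 := by
  have h0 : Tendsto (fun p : ℝ × ℂ => (p.1 / ‖p.2‖, ‖p.2‖)) (Fc κ' cc l₀) (𝓝 (0, 0)) :=
    tendsto_comap.mono_left inf_le_left
  refine ⟨?_, ?_, ?_⟩
  · exact (continuous_fst.tendsto ((0, 0) : ℝ × ℝ)).comp h0
  · exact (continuous_snd.tendsto ((0, 0) : ℝ × ℝ)).comp h0
  · exact mem_inf_of_right (mem_principal_self _)

lemma mc_tendsto (hS : Side κ κ' (-1) β C cc CC l₀ q j M x)
    (hlim : Tendsto (fun τ => τ * (j * Complex.exp (q τ))) (𝓝[Sg κ] 0) (𝓝 1))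
    (hP : Pos κ q j σ M E Z Zc) (hC : C₀ ≠ 0)
    (hE : Tendsto (fun τ => E τ / τ) (𝓝[Sg κ] 0) (𝓝 C₀)) :
    Tendsto (fun p : ℝ × ℂ => mc q j M x p.1 p.2 / (C₀ * p.2) ^ 2) (Fc κ' cc l₀) (𝓝 1) ∧
    ∀ᶠ p in Fc κ' cc l₀, Pj q j (x p.1 p.2) (x p.1 (p.2 - Complex.I * p.1)) ≠ 0 ∧
      Pj q (-j) (x p.1 p.2) (x p.1 (p.2 - Complex.I * p.1)) ≠ 0 := by
  obtain ⟨f1, f2, f3⟩ := Fc_tendsto (κ' := κ') (cc := cc) (l₀ := l₀)
  have hκκ := hS.κ'_lt
  set R₁ : ℝ := max 8 (4 / (κ - κ')) with hR₁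
  have hR8 : 8 ≤ R₁ := le_max_left _ _
  have hRκ : 4 ≤ (κ - κ') * R₁ := by
    have h1 : 4 / (κ - κ') ≤ R₁ := le_max_right _ _
    rw [div_le_iff₀ (by linarith)] at h1
    linarith
  have hR0 : 0 < R₁ := by linarith
  set F := Fc κ' cc l₀ with hF
  have far : ∀ᶠ p : ℝ × ℂ in F, 0 < p.1 ∧ 0 < ‖p.2‖ ∧ 8 * p.1 ≤ ‖p.2‖ ∧
      Adm κ 2 (x p.1 p.2) (x p.1 (p.2 - Complex.I * p.1)) ∧
      ‖x p.1 (p.2 - Complex.I * p.1) - x p.1 p.2‖ ≤ 5 / 4 * p.1 ∧ ‖x p.1 p.2 - p.2‖ ≤ p.1 / 8 ∧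
      7 * p.1 ≤ ‖x p.1 p.2‖ ∧ ‖x p.1 p.2‖ ≤ 2 * ‖p.2‖ := by
    have h1 := f1.eventually (gt_mem_nhds (show (0 : ℝ) < 1 / R₁ by positivity))
    filter_upwards [h1, f3] with p h2 ⟨h3, h4, h5, h6⟩
    have ht : 0 < ‖p.2‖ := norm_pos_iff.2 h5.1
    rw [div_lt_div_iff₀ ht hR0] at h2
    have h7 : ‖p.2 - Complex.I * p.1 - p.2‖ ≤ p.1 := by
      have : p.2 - Complex.I * p.1 - p.2 = -(Complex.I * p.1) := by ring
      rw [this, norm_neg, norm_mul, Complex.norm_I, one_mul, Complex.norm_real, Real.norm_eq_abs,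
        abs_of_pos h3]
    have := far_chord hS h3 h4 h5 h6 h7 hR8 hRκ (by linarith)
    exact ⟨h3, ht, by nlinarith, this⟩
  -- ratios
  have r1 : Tendsto (fun p : ℝ × ℂ => x p.1 p.2 / p.2) F (𝓝 1) := by
    rw [tendsto_iff_norm_sub_tendsto_zero]
    have h1 : Tendsto (fun p : ℝ × ℂ => p.1 / ‖p.2‖ / 8) F (𝓝 0) := by simpa using f1.div_const 8
    refine squeeze_zero' (Eventually.of_forall fun p => norm_nonneg _) ?_ h1
    filter_upwards [far] with p hp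
    have hne : p.2 ≠ 0 := norm_pos_iff.1 hp.2.1
    have e : x p.1 p.2 / p.2 - 1 = (x p.1 p.2 - p.2) / p.2 := by field_simp
    rw [e, norm_div, div_right_comm]
    exact div_le_div_of_nonneg_right hp.2.2.2.2.2.1 hp.2.1.le
  have r2 : Tendsto (fun p : ℝ × ℂ => x p.1 (p.2 - Complex.I * p.1) / x p.1 p.2) F (𝓝 1) := by
    rw [tendsto_iff_norm_sub_tendsto_zero]
    have h1 : Tendsto (fun p : ℝ × ℂ => 2 * (p.1 / ‖p.2‖)) F (𝓝 0) := by simpa using f1.const_mul 2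
    refine squeeze_zero' (Eventually.of_forall fun p => norm_nonneg _) ?_ h1
    filter_upwards [far] with p ⟨h1, h2, h3, h4, h5, h6, h7, h8⟩
    have hne : x p.1 p.2 ≠ 0 := norm_pos_iff.1 (by linarith)
    have e : x p.1 (p.2 - Complex.I * p.1) / x p.1 p.2 - 1 =
        (x p.1 (p.2 - Complex.I * p.1) - x p.1 p.2) / x p.1 p.2 := by field_simp
    rw [e, norm_div, ← mul_div_assoc, div_le_div_iff₀ (by linarith) h2]
    have h9 : ‖p.2‖ ≤ ‖x p.1 p.2‖ + p.1 / 8 := by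
      have := norm_sub_le (x p.1 p.2) (x p.1 p.2 - p.2)
      simp only [sub_sub_cancel] at this
      linarith
    nlinarith [norm_nonneg (x p.1 (p.2 - Complex.I * p.1) - x p.1 p.2)]
  have hx0 : Tendsto (fun p : ℝ × ℂ => x p.1 p.2) F (𝓝[Sg κ] 0) := by
    rw [tendsto_nhdsWithin_iff]
    constructor
    · rw [tendsto_zero_iff_norm_tendsto_zero]
      have h1 : Tendsto (fun p : ℝ × ℂ => 2 * ‖p.2‖) F (𝓝 0) := by simpa using f2.const_mul 2
      exact squeeze_zero' (Eventually.of_forall fun p => norm_nonneg _)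
        (far.mono fun p hp => hp.2.2.2.2.2.2.2) h1
    · filter_upwards [far] with p hp
      have := (hp.2.2.2.1 0 ⟨le_rfl, zero_le_one⟩).1
      simpa using this
  have p1 : Tendsto (fun p : ℝ × ℂ => Pj q j (x p.1 p.2) (x p.1 (p.2 - Complex.I * p.1))) F
      (𝓝 1) := by
    have h1 : Tendsto (fun p : ℝ × ℂ => Pj q j (x p.1 p.2) (x p.1 (p.2 - Complex.I * p.1)) -
        (x p.1 p.2 ^ 2 + x p.1 (p.2 - Complex.I * p.1) ^ 2) *
          (x p.1 p.2 + x p.1 (p.2 - Complex.I * p.1)) / (4 * x p.1 p.2 ^ 3)) F (𝓝 0) := by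
      rw [Metric.tendsto_nhds]
      intro ε hε
      obtain ⟨δ, hδ, H⟩ := far_Pj hS hlim (ε := ε / 2) (by positivity)
      have hsm := (hx0.mono_right nhdsWithin_le_nhds).eventually (ball_mem_nhds (0 : ℂ) hδ)
      filter_upwards [far, hsm] with p h1 h2
      have h2 : ‖x p.1 p.2‖ < δ := by rw [← dist_zero_right]; exact h2
      have := (H _ _ h1.2.2.2.1 h2).1
      rw [dist_zero_right]
      linarith
    have h2 : Tendsto (fun p : ℝ × ℂ =>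
        (1 + (x p.1 (p.2 - Complex.I * p.1) / x p.1 p.2) ^ 2) *
          (1 + x p.1 (p.2 - Complex.I * p.1) / x p.1 p.2) / 4) F
        (𝓝 ((1 + 1 ^ 2) * (1 + 1) / 4)) :=
      (((r2.pow 2).const_add 1).mul (r2.const_add 1)).div_const 4
    have h3 := h1.add h2
    have e : (0 : ℂ) + (1 + 1 ^ 2) * (1 + 1) / 4 = 1 := by norm_num
    rw [e] at h3
    refine h3.congr' ?_
    filter_upwards [far] with p ⟨h1, h2, h3, h4, h5, h6, h7, h8⟩
    have hne : x p.1 p.2 ≠ 0 := norm_pos_iff.1 (by linarith)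
    field_simp
    ring
  have p2 : Tendsto (fun p : ℝ × ℂ => Pj q (-j) (x p.1 p.2) (x p.1 (p.2 - Complex.I * p.1))) F
      (𝓝 1) := by
    have h1 : Tendsto (fun p : ℝ × ℂ => Pj q (-j) (x p.1 p.2) (x p.1 (p.2 - Complex.I * p.1)) -
        (x p.1 p.2 + x p.1 (p.2 - Complex.I * p.1)) / (2 * x p.1 p.2)) F (𝓝 0) := by
      rw [Metric.tendsto_nhds]
      intro ε hε
      obtain ⟨δ, hδ, H⟩ := far_Pj hS hlim (ε := ε / 2) (by positivity)
      have hsm := (hx0.mono_right nhdsWithin_le_nhds).eventually (ball_mem_nhds (0 : ℂ) hδ)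
      filter_upwards [far, hsm] with p h1 h2
      have h2 : ‖x p.1 p.2‖ < δ := by rw [← dist_zero_right]; exact h2
      have := (H _ _ h1.2.2.2.1 h2).2
      rw [dist_zero_right]
      linarith
    have h2 : Tendsto (fun p : ℝ × ℂ =>
          (1 + x p.1 (p.2 - Complex.I * p.1) / x p.1 p.2) / 2) F
        (𝓝 ((1 + 1) / 2)) := (r2.const_add 1).div_const 2
    have h3 := h1.add h2
    have e : (0 : ℂ) + (1 + 1) / 2 = 1 := by norm_num
    rw [e] at h3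
    refine h3.congr' ?_
    filter_upwards [far] with p ⟨h1, h2, h3, h4, h5, h6, h7, h8⟩
    have hne : x p.1 p.2 ≠ 0 := norm_pos_iff.1 (by linarith)
    field_simp
    ring
  refine ⟨?_, ?_⟩
  · have q3 : Tendsto (fun p : ℝ × ℂ => M (x p.1 p.2) / (C₀ * p.2) ^ 2) F (𝓝 1) := by
      have h1 : Tendsto (fun p : ℝ × ℂ => E (x p.1 p.2) / x p.1 p.2) F (𝓝 C₀) := hE.comp hx0
      have h2 : Tendsto (fun p : ℝ × ℂ => (E (x p.1 p.2) / x p.1 p.2) ^ 2 / C₀ ^ 2 *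
          (x p.1 p.2 / p.2) ^ 2) F (𝓝 (C₀ ^ 2 / C₀ ^ 2 * 1 ^ 2)) :=
        ((h1.pow 2).div_const _).mul (r1.pow 2)
      have e5 : C₀ ^ 2 / C₀ ^ 2 * 1 ^ 2 = 1 := by field_simp
      rw [e5] at h2
      refine h2.congr' ?_
      filter_upwards [far] with p ⟨h1, h2, h3, h4, h5, h6, h7, h8⟩
      have hne : x p.1 p.2 ≠ 0 := norm_pos_iff.1 (by linarith)
      have hne2 : p.2 ≠ 0 := norm_pos_iff.1 h2
      have hmem : x p.1 p.2 ∈ Sg κ := by
        have := (h4 0 ⟨le_rfl, zero_le_one⟩).1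
        simpa using this
      rw [← hP.E_sq _ hmem]
      field_simp
    have h1 := q3.mul (p1.div p2 one_ne_zero)
    have e : (1 : ℂ) * (1 / 1) = 1 := by norm_num
    rw [e] at h1
    refine h1.congr fun p => ?_
    simp only [mc, Rj, Pi.div_apply]
    ring
  · filter_upwards [p1.eventually_ne one_ne_zero, p2.eventually_ne one_ne_zero] with p h1 h2
    exact ⟨h1, h2⟩

end Crest.Agent.R102.MelI963
end
end

-- ▼ part R102/MelI4d_963

/-!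
# Row 102, part (C), [T5]/MEL, **MEL-I**, (I4) part d (helper963)

Chord conversion, `ms = mc`, holomorphy, the slope formula, the top of the strip.
-/

set_option autoImplicit false

open Set Filter Topology Metric
open scoped ComplexConjugate

noncomputable section

namespace Crest.Agent.R102.MelI963

open Crest.Agent.R102.T5R Crest.Agent.R102.Mel Crest.Agent.R102.ExtF39

variable {κ κ' β C cc CC l₀ : ℝ} {q : ℂ → ℂ} {j : ℂ} {M E Z Zc : ℂ → ℂ} {σ : ℂ}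
  {x : ℝ → ℂ → ℂ} {C₀ : ℂ}

lemma rlaw_j (hS : Side κ κ' (-1) β C cc CC l₀ q j M x) {l : ℝ} (hl : 0 < l) (hl0 : l < l₀)
    {t : ℂ} (h0 : t + Complex.I * l ∈ Dl κ' cc l) (h1 : t ∈ Dl κ' cc l)
    (h2 : t - Complex.I * l ∈ Dl κ' cc l) :
    Rj q j (x l t) (x l (t + Complex.I * l)) * Rj q j (x l t) (x l (t - Complex.I * l)) = 1 := by
  have h := hS.rlaw l hl hl0 t h0 h1 h2
  rcases hS.hj with hj | hj
  · rw [hj]; exact h
  · rw [hj, rRot.1, rRot.1, ← mul_inv, h, inv_one]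

/-- chord conversion -/
lemma chord_conv (hS : Side κ κ' (-1) β C cc CC l₀ q j M x) {l : ℝ} (hl : 0 < l) (hl0 : l < l₀)
    {t : ℂ} (h0 : t ∈ Dl κ' cc l) (h1 : t - Complex.I * l ∈ Dl κ' cc l)
    (h2 : t - Complex.I * l - Complex.I * l ∈ Dl κ' cc l)
    (hseg : ∀ u ∈ Icc (0 : ℝ) 1, x l t + u * (x l (t - Complex.I * l) - x l t) ∈ Sg κ)
    (hp : Pj q j (x l t) (x l (t - Complex.I * l)) ≠ 0)
    (hm : Pj q (-j) (x l t) (x l (t - Complex.I * l)) ≠ 0) :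
    M (x l (t - Complex.I * l)) *
      Rj q (-j) (x l (t - Complex.I * l)) (x l (t - Complex.I * l - Complex.I * l)) =
      mc q j M x l t := by
  have e : t - Complex.I * l + Complex.I * l = t := by ring
  have hr := rlaw_j hS hl hl0 (t := t - Complex.I * l) (by rw [e]; exact h0) h1 h2
  rw [e] at hr
  rw [mc, rSym κ q j M _ _ hS.endq.diff hS.slope hseg hp hm, rRot.1]
  rw [eq_inv_of_mul_eq_one_left hr]

/-- slope formula -/
lemma slope_pos (hPF : PosF) (hq : DifferentiableOn ℂ q (Sg κ)) (hsl : Slope κ q j M)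
    (hP : Pos κ q j σ M E Z Zc) {a b : ℂ} (hseg : ∀ u ∈ Icc (0 : ℝ) 1, a + u * (b - a) ∈ Sg κ)
    (hm : Pj q (-j) a b ≠ 0) : Z b - Z a = M a * Rj q j a b * (Zc b - Zc a) := by
  obtain ⟨h1, h2⟩ := hPF κ q j σ M E Z Zc a b hq hsl hP hseg
  have ha : a ∈ Sg κ := by simpa using hseg 0 ⟨le_rfl, zero_le_one⟩
  have hE : E a ≠ 0 := by
    intro h
    have := hP.E_sq a ha
    rw [h] at this
    exact hsl.ne a ha (by rw [← this]; ring)
  rw [h1, h2, ← hP.E_sq a ha, Rj]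
  field_simp

/-- holomorphy of a slope -/
lemma slope_diff (hκ : DifferentiableOn ℂ q (Sg κ)) (hsl : Slope κ q j M) {k : ℂ} {f g : ℂ → ℂ}
    {s : ℂ} (hf : DifferentiableAt ℂ f s) (hg : DifferentiableAt ℂ g s)
    (hseg : ∀ u ∈ Icc (0 : ℝ) 1, f s + u * (g s - f s) ∈ Sg κ) (hm : Pj q (-k) (f s) (g s) ≠ 0) :
    DifferentiableAt ℂ (fun s => M (f s) * Rj q k (f s) (g s)) s := by
  have ha : f s ∈ Sg κ := by simpa using hseg 0 ⟨le_rfl, zero_le_one⟩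
  have h1 : DifferentiableAt ℂ (fun s => M (f s)) s :=
    DifferentiableAt.comp (g := M) (f := f) s
      (hsl.diff.differentiableAt ((isOpen_Sg κ).mem_nhds ha)) hf
  have hfg : DifferentiableAt ℂ (fun s => (f s, g s)) s := hf.prodMk hg
  have h2 : ∀ i : ℂ, DifferentiableAt ℂ (fun s => Pj q i (f s) (g s)) s := by
    intro i
    have h3 : DifferentiableAt ℂ (fun p : ℂ × ℂ => Pj q i p.1 p.2) ((fun s => (f s, g s)) s) :=
      (pAn κ q i (f s) (g s) hκ (isOpen_Sg κ) hseg).differentiableAt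
    exact DifferentiableAt.comp (g := fun p : ℂ × ℂ => Pj q i p.1 p.2)
      (f := fun s => (f s, g s)) s h3 hfg
  exact h1.mul (dAt_div (h2 k) (h2 (-k)) hm)

/-- far chords are good -/
structure FG (κ' cc l₀ : ℝ) (q : ℂ → ℂ) (j : ℂ) (M : ℂ → ℂ) (x : ℝ → ℂ → ℂ) (C₀ : ℂ)
    (R₁ ρ η : ℝ) : Prop where
  good : ∀ (l : ℝ) (t : ℂ), 0 < l → l < l₀ →
      t ∈ Dl κ' cc l → t - Complex.I * l ∈ Dl κ' cc l → R₁ * l < ‖t‖ → ‖t‖ < ρ →
      Pj q j (x l t) (x l (t - Complex.I * l)) ≠ 0 ∧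
      Pj q (-j) (x l t) (x l (t - Complex.I * l)) ≠ 0 ∧
      ‖mc q j M x l t / (C₀ * t) ^ 2 - 1‖ ≤ η

lemma FG.mono {κ' cc l₀ : ℝ} {q : ℂ → ℂ} {j : ℂ} {M : ℂ → ℂ} {x : ℝ → ℂ → ℂ} {C₀ : ℂ}
    {R₁ R₂ ρ ρ' η : ℝ} (h : FG κ' cc l₀ q j M x C₀ R₁ ρ η) (hR : R₁ ≤ R₂) (hρ : ρ' ≤ ρ) :
    FG κ' cc l₀ q j M x C₀ R₂ ρ' η :=
  ⟨fun l t h1 h2 h3 h4 h5 h6 => h.good l t h1 h2 h3 h4
    ((mul_le_mul_of_nonneg_right hR h1.le).trans_lt h5) (h6.trans_le hρ)⟩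

lemma exists_FG (hS : Side κ κ' (-1) β C cc CC l₀ q j M x)
    (hlim : Tendsto (fun τ => τ * (j * Complex.exp (q τ))) (𝓝[Sg κ] 0) (𝓝 1))
    (hP : Pos κ q j σ M E Z Zc) (hC : C₀ ≠ 0)
    (hE : Tendsto (fun τ => E τ / τ) (𝓝[Sg κ] 0) (𝓝 C₀)) {η : ℝ} (hη : 0 < η) :
    ∃ R₁ ρ : ℝ, 0 < R₁ ∧ 0 < ρ ∧ FG κ' cc l₀ q j M x C₀ R₁ ρ η := by
  obtain ⟨h1, h2⟩ := mc_tendsto hS hlim hP hC hE
  have h3 := h1.eventually (Metric.closedBall_mem_nhds (1 : ℂ) hη)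
  obtain ⟨R₁, ρ, h4, h5, h6⟩ := Fc_iff (h2.and h3)
  refine ⟨R₁, ρ, h4, h5, ⟨fun l t a1 a2 a3 a4 a5 a6 => ?_⟩⟩
  obtain ⟨⟨b1, b2⟩, b3⟩ := h6 l t a1 a2 a3 a4 a5 a6
  refine ⟨b1, b2, ?_⟩
  have b3' : dist (mc q j M x l t / (C₀ * t) ^ 2) 1 ≤ η := b3
  rwa [dist_eq_norm] at b3'

lemma lam_re (l : ℝ) (s : ℂ) : (lam l * s).re = l * s.im := by
  simp [lam, Complex.mul_re]

lemma lam_sub (l : ℝ) (s : ℂ) : lam l * s - Complex.I * l = lam l * (s + 1) := by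
  rw [lam]; ring

lemma lam_add (l : ℝ) (s : ℂ) : lam l * s + Complex.I * l = lam l * (s - 1) := by
  rw [lam]; ring

/-- times on the strip, away from the middle, are in the directional cone -/
lemma lamS_Dl {R : ℝ} (hcR : 8 ≤ cc * R) (hκR : 8 ≤ κ' * R) (hcc : 0 < cc) (hκ' : 0 < κ')
    (hR : 8 ≤ R) {l : ℝ} (hl : 0 < l) (hlR : l * (100 * R) < 1) {s : ℂ} (h1 : |s.re| ≤ 3)
    (h2 : R ≤ ‖s‖) (h3 : ‖s‖ ≤ 4 * R) : lam l * s ∈ Dl κ' cc l := by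
  have hs : s ≠ 0 := norm_pos_iff.1 (by linarith)
  refine ⟨mul_ne_zero (lam_ne hl) hs, ?_, ?_, ?_⟩
  · rw [norm_mul, norm_lam hl]
    nlinarith
  · rw [lam_im, norm_mul, norm_lam hl]
    have a1 : -s.re ≤ 3 := by linarith [(abs_le.1 h1).1]
    have a2 : 8 ≤ κ' * ‖s‖ := by nlinarith
    nlinarith
  · rw [norm_mul, norm_lam hl]
    have a2 : 8 ≤ cc * ‖s‖ := by nlinarith
    nlinarith

lemma norm_strip {R : ℝ} (hR : 8 ≤ R) {s : ℂ} (h1 : |s.re| ≤ 3) (h2 : R < |s.im|)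
    (h3 : |s.im| ≤ 2 * R) : R < ‖s‖ ∧ ‖s‖ ≤ 4 * R := by
  refine ⟨h2.trans_le (Complex.abs_im_le_norm s), ?_⟩
  have := Complex.norm_le_abs_re_add_abs_im s
  linarith

/-- **the extended slope is the true slope away from the middle** -/
lemma ms_eq_mc (hS : Side κ κ' (-1) β C cc CC l₀ q j M x) {R ρ η : ℝ} {Y : ℝ → ℂ → ℂ}
    (hG : FG κ' cc l₀ q j M x C₀ R ρ η) (hR : 8 ≤ R) (hcR : 8 ≤ cc * R) (hκR : 8 ≤ κ' * R)
    (hRκ : 4 ≤ (κ - κ') * R) (hY : YF x R Y) (hρ : 0 < ρ) :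
    ∀ᶠ l in 𝓝[>] (0 : ℝ), 0 < l ∧ l < l₀ ∧ l * (100 * R) < 1 ∧ ∀ s ∈ St (1 / 8) R, R < |s.im| →
      Y l (s + 1) = x l (lam l * (s + 1)) ∧ ms q j M Y l s = mc q j M x l (lam l * s) ∧
      lam l * s ∈ Dl κ' cc l ∧ lam l * (s + 1) ∈ Dl κ' cc l ∧ lam l * (s - 1) ∈ Dl κ' cc l ∧
      Adm κ 2 (x l (lam l * s)) (x l (lam l * (s + 1))) ∧
      Adm κ 2 (x l (lam l * s)) (x l (lam l * (s - 1))) ∧
      ‖x l (lam l * s) - lam l * s‖ ≤ l / 8 ∧
      ‖x l (lam l * (s + 1)) - lam l * (s + 1)‖ ≤ l / 8 ∧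
      ‖x l (lam l * (s - 1)) - lam l * (s - 1)‖ ≤ l / 8 ∧
      Pj q j (x l (lam l * s)) (x l (lam l * (s + 1))) ≠ 0 ∧
      Pj q (-j) (x l (lam l * s)) (x l (lam l * (s + 1))) ≠ 0 := by
  have hcc := hS.cone.c_pos
  have hκ' := hS.κ'_pos
  have ev : ∀ b : ℝ, 0 < b → ∀ᶠ l in 𝓝[>] (0 : ℝ), 0 < l ∧ l < b := fun b hb =>
    Ioo_mem_nhdsGT hb
  filter_upwards [ev l₀ hS.cone.l₀_pos, ev (1 / (100 * R)) (by positivity),
    ev (ρ / (4 * R)) (by positivity), hY.eq] with l h1 h2 h3 h4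
  have hl := h1.1
  have hlR : l * (100 * R) < 1 := by
    have := h2.2
    rwa [lt_div_iff₀ (by positivity)] at this
  have hlρ : l * (4 * R) < ρ := by
    have := h3.2
    rwa [lt_div_iff₀ (by positivity)] at this
  refine ⟨hl, h1.2, hlR, fun s hs hsR => ?_⟩
  have hre : |s.re| < 1 / 8 := hs.1
  have him : |s.im| < 2 * R := hs.2
  have k0 : |s.re| ≤ 3 := by linarith
  have k1 : |(s + 1).re| ≤ 3 := by
    rw [Complex.add_re, Complex.one_re]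
    exact (abs_add_le _ _).trans (by norm_num; linarith)
  have k2 : |(s + 1 + 1).re| ≤ 3 := by
    rw [Complex.add_re, Complex.add_re, Complex.one_re]
    refine (abs_add_le _ _).trans ?_
    have := abs_add_le s.re 1
    norm_num at this ⊢
    linarith
  have k3 : |(s - 1).re| ≤ 3 := by
    rw [Complex.sub_re, Complex.one_re]
    exact (abs_sub _ _).trans (by norm_num; linarith)
  have i1 : (s + 1).im = s.im := by simp
  have i2 : (s + 1 + 1).im = s.im := by simp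
  have i3 : (s - 1).im = s.im := by simp
  have n0 := norm_strip hR k0 hsR him.le
  have n1 := norm_strip hR k1 (by rw [i1]; exact hsR) (by rw [i1]; exact him.le)
  have n2 := norm_strip hR k2 (by rw [i2]; exact hsR) (by rw [i2]; exact him.le)
  have n3 := norm_strip hR k3 (by rw [i3]; exact hsR) (by rw [i3]; exact him.le)
  have d0 := lamS_Dl hcR hκR hcc hκ' hR hl hlR k0 n0.1.le n0.2
  have d1 := lamS_Dl hcR hκR hcc hκ' hR hl hlR k1 n1.1.le n1.2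
  have d2 := lamS_Dl hcR hκR hcc hκ' hR hl hlR k2 n2.1.le n2.2
  have d3 := lamS_Dl hcR hκR hcc hκ' hR hl hlR k3 n3.1.le n3.2
  have D1 : s + 1 ∈ DI R := by simpa using St_DI hR hs le_rfl one_le_two
  have D2 : s + 2 ∈ DI R := by simpa using St_DI hR hs one_le_two le_rfl
  have e2 : s + 1 + 1 = s + 2 := by ring
  have y1 := h4 _ D1 n1.1
  have y2 := h4 _ D2 (by rw [← e2]; exact n2.1)
  have g0 : ‖lam l * s‖ = l * ‖s‖ := by rw [norm_mul, norm_lam hl]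
  have f1 : R * l ≤ ‖lam l * s‖ := by rw [g0]; nlinarith [n0.1]
  have f1' : R * l < ‖lam l * s‖ := by rw [g0]; nlinarith [n0.1]
  have f2 : ‖lam l * (s + 1) - lam l * s‖ ≤ l := by
    have : lam l * (s + 1) - lam l * s = lam l := by ring
    rw [this, norm_lam hl]
  have f3 : ‖lam l * (s - 1) - lam l * s‖ ≤ l := by
    have : lam l * (s - 1) - lam l * s = -lam l := by ring
    rw [this, norm_neg, norm_lam hl]
  have far1 := far_chord hS hl h1.2 d0 d1 f2 hR hRκ f1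
  have far3 := far_chord hS hl h1.2 d0 d3 f3 hR hRκ f1
  have gd := hG.good l (lam l * s) hl h1.2 d0 (by rw [lam_sub]; exact d1) f1'
    (by rw [g0]; nlinarith [n0.2])
  rw [lam_sub] at gd
  refine ⟨y1, ?_, d0, d1, d3, far1.1, far3.1, far1.2.2.1, x_near hS hl h1.2 d1,
    x_near hS hl h1.2 d3, gd.1, gd.2.1⟩
  have hc := chord_conv hS hl h1.2 (t := lam l * s) d0 (by rw [lam_sub]; exact d1)
    (by rw [lam_sub, lam_sub]; exact d2)
    (by rw [lam_sub]; exact fun u hu => (far1.1 u hu).1) (by rw [lam_sub]; exact gd.1)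
    (by rw [lam_sub]; exact gd.2.1)
  rw [lam_sub, lam_sub] at hc
  rw [← hc, ms, y1, y2, e2]

/-- holomorphy of the extended slope -/
lemma ms_diff (hS : Side κ κ' (-1) β C cc CC l₀ q j M x)
    (hlim : Tendsto (fun τ => τ * (j * Complex.exp (q τ))) (𝓝[Sg κ] 0) (𝓝 1))
    (hP : Pos κ q j σ M E Z Zc) (hC : C₀ ≠ 0)
    (hE : Tendsto (fun τ => E τ / τ) (𝓝[Sg κ] 0) (𝓝 C₀)) {R : ℝ} {Y : ℝ → ℂ → ℂ}
    (hR : 8 ≤ R) (hY : YF x R Y) :
    ∀ᶠ l in 𝓝[>] (0 : ℝ), DifferentiableOn ℂ (ms q j M Y l) (St (1 / 8) R) ∧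
      DifferentiableOn ℂ (fun s => Y l (s + 1)) (St (1 / 8) R) ∧
      ∀ s ∈ St (1 / 8) R, Y l (s + 1) ∈ Sg κ := by
  filter_upwards [(ms_limit hS hlim hP hC hE hR hY).2, hY.diff] with l h1 h2
  have hd : ∀ k : ℝ, 1 ≤ k → k ≤ 2 → ∀ s ∈ St (1 / 8) R,
      DifferentiableAt ℂ (fun s : ℂ => Y l (s + k)) s := by
    intro k hk1 hk2 s hs
    have h3 := h2.differentiableAt ((DI_open R).mem_nhds (St_DI hR hs hk1 hk2))
    have h4 : DifferentiableAt ℂ (fun s : ℂ => s + (k : ℂ)) s := by fun_prop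
    exact DifferentiableAt.comp s (g := Y l) h3 h4
  refine ⟨fun s hs => ?_, fun s hs => ?_, fun s hs => (h1 s hs).1⟩
  · have h3 := hd 1 le_rfl one_le_two s hs
    have h4 := hd 2 one_le_two le_rfl s hs
    simp only [Complex.ofReal_one, Complex.ofReal_ofNat] at h3 h4
    obtain ⟨-, a2, a3, a4⟩ := h1 s hs
    have := slope_diff hS.endq.diff hS.slope (k := -j) h3 h4 (fun u hu => (a2 u hu).1)
      (by rw [neg_neg]; exact a3)
    exact this.differentiableWithinAt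
  · have h3 := hd 1 le_rfl one_le_two s hs
    simp only [Complex.ofReal_one] at h3
    exact h3.differentiableWithinAt

end Crest.Agent.R102.MelI963
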