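import Mathlib
import Crest.Agent.R102.MelI4d_963

-- ▼ part R102/MelI4e_963
section

/-!
# Row 102, part (C), [T5]/MEL, **MEL-I**, (I4) part e (helper963)

Fourth roots, the model on the strip, the top of the strip.
-/

set_option autoImplicit false

open Set Filter Topology Metric
open scoped ComplexConjugate

noncomputable section

namespace Crest.Agent.R102.MelI963

open Crest.Agent.R102.T5R Crest.Agent.R102.Mel Crest.Agent.R102.ExtF39

/-! ### fourth roots -/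

lemma quarter_re (z : ℂ) : 0 ≤ (z ^ (1 / 4 : ℂ)).re := by
  by_cases hz : z = 0
  · subst hz
    rw [Complex.zero_cpow (by norm_num)]
    simp
  rw [Complex.cpow_def_of_ne_zero hz, Complex.exp_re]
  have e : (Complex.log z * (1 / 4 : ℂ)).im = Complex.arg z / 4 := by
    have : Complex.log z * (1 / 4 : ℂ) = Complex.log z * ((1 / 4 : ℝ) : ℂ) := by norm_num
    rw [this, Complex.im_mul_ofReal, Complex.log_im]
    ring
  have hp := Real.pi_pos
  refine mul_nonneg (Real.exp_pos _).le (Real.cos_nonneg_of_neg_pi_div_two_le_of_le ?_ ?_)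
  · have h := Complex.neg_pi_lt_arg z
    rw [e]; linarith
  · have h := Complex.arg_le_pi z
    rw [e]; linarith

lemma quarter_sq (z : ℂ) : (z ^ (1 / 4 : ℂ)) ^ 2 = z ^ (1 / 2 : ℂ) := by
  rw [← Complex.cpow_nat_mul]
  congr 1
  norm_num

lemma quarter_near (z : ℂ) : ‖z ^ (1 / 4 : ℂ) - 1‖ ≤ ‖z - 1‖ := by
  set r := z ^ (1 / 4 : ℂ) with hr
  have h1 : z - 1 = (r - 1) * ((1 + r) * (1 + r ^ 2)) := by
    have : z = r ^ 4 := (quarter_pow z).symm
    rw [this]; ring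
  have h2 : 1 ≤ ‖1 + r‖ := by
    refine le_trans ?_ (Complex.re_le_norm _)
    rw [Complex.add_re, Complex.one_re]
    linarith [quarter_re z]
  have h3 : 1 ≤ ‖1 + r ^ 2‖ := by
    refine le_trans ?_ (Complex.re_le_norm _)
    rw [Complex.add_re, Complex.one_re, hr, quarter_sq]
    linarith [half_re z]
  rw [h1, norm_mul, norm_mul]
  have h4 : 1 ≤ ‖1 + r‖ * ‖1 + r ^ 2‖ := by nlinarith
  nlinarith [norm_nonneg (r - 1)]

lemma root4 {a b : ℂ} (h : a ^ 4 = b ^ 4) (hb : ‖a - b‖ < ‖b‖) : a = b := by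
  by_contra hne
  have hb0 : b ≠ 0 := by
    rintro rfl
    simp at hb
    linarith [norm_nonneg a]
  set z := a / b with hz
  have hz4 : (z - 1) * ((z + 1) * (z ^ 2 + 1)) = 0 := by
    have : z ^ 4 = 1 := by rw [hz, div_pow, h, div_self (pow_ne_zero _ hb0)]
    linear_combination this
  have hz1 : ‖z - 1‖ < 1 := by
    have e : z - 1 = (a - b) / b := by rw [hz]; field_simp
    rw [e, norm_div, div_lt_one (norm_pos_iff.2 hb0)]
    exact hb
  have hre : 0 < z.re := by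
    have := (Complex.abs_re_le_norm (z - 1)).trans_lt hz1
    rw [Complex.sub_re, Complex.one_re] at this
    linarith [(abs_lt.1 this).1]
  have hz0 : z - 1 ≠ 0 := by
    intro h0
    apply hne
    have : a / b = 1 := by rw [← hz]; linear_combination h0
    rwa [div_eq_one_iff_eq hb0] at this
  have h5 := (mul_eq_zero.1 hz4).resolve_left hz0
  rcases mul_eq_zero.1 h5 with h6 | h6
  · have h7 : z = -1 := by linear_combination h6
    rw [h7] at hre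
    simp at hre
    linarith
  · have h7 : (z ^ 2).re = -1 := by
      have : z ^ 2 = -1 := by linear_combination h6
      rw [this]; simp
    have h8 : (z ^ 2).im = 0 := by
      have : z ^ 2 = -1 := by linear_combination h6
      rw [this]; simp
    rw [sq, Complex.mul_im] at h8
    rw [sq, Complex.mul_re] at h7
    have h9 : z.im = 0 := by
      have : z.re * z.im = 0 := by linarith
      exact (mul_eq_zero.1 this).resolve_left hre.ne'
    rw [h9] at h7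
    nlinarith

/-- perturbation inside the sector about the positive real axis -/
lemma ovR_pert {k : ℝ} (hk : 0 < k) (hk1 : k < 1) {v r : ℂ} (hv : 0 < v.re)
    (hi : |v.im| ≤ k / 2 * ‖v‖) (hr : ‖r - 1‖ ≤ k / 10) (h1 : ‖v‖ ≤ 1 / 2) :
    v * r ∈ OvR k ∧ ‖v * r‖ ≤ 11 / 10 * ‖v‖ := by
  have hn : 0 < ‖v‖ := norm_pos_iff.2 (by rintro rfl; simp at hv)
  have e : v * r = v + v * (r - 1) := by ring
  have h2 : ‖v * (r - 1)‖ ≤ k / 10 * ‖v‖ := by
    rw [norm_mul, mul_comm]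
    exact mul_le_mul_of_nonneg_right hr hn.le
  have h3 : ‖v‖ ≤ v.re + |v.im| := by
    have := Complex.norm_le_abs_re_add_abs_im v
    rwa [abs_of_pos hv] at this
  have h4 := (Complex.abs_re_le_norm (v * (r - 1))).trans h2
  have h5 := (Complex.abs_im_le_norm (v * (r - 1))).trans h2
  have h6 : ‖v * r‖ ≤ ‖v‖ + k / 10 * ‖v‖ := by
    rw [e]; exact (norm_add_le _ _).trans (by linarith)
  have h7 : ‖v‖ - k / 10 * ‖v‖ ≤ ‖v * r‖ := by
    have := norm_sub_norm_le v (-(v * (r - 1)))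
    rw [sub_neg_eq_add, norm_neg, ← e] at this
    linarith
  have hkv : k * ‖v‖ < ‖v‖ := by nlinarith
  have hkv0 : 0 < k * ‖v‖ := by positivity
  have hre : 0 < (v * r).re := by
    rw [e, Complex.add_re]
    linarith [(abs_le.1 h4).1]
  refine ⟨⟨?_, ?_, ?_, hre⟩, by linarith⟩
  · intro h
    rw [h] at hre
    simp at hre
  · linarith
  · have h8 : |(v * r).im| ≤ |v.im| + k / 10 * ‖v‖ := by
      rw [e, Complex.add_im]
      exact (abs_add_le _ _).trans (by linarith)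
    nlinarith

/-! ### the model on the strip -/

/-- `√(1/4 - s²)` -/
def Y1 (s : ℂ) : ℂ := (1 / 4 - s ^ 2) ^ (1 / 2 : ℂ)

lemma Y1_sq (s : ℂ) : Y1 s ^ 2 = 1 / 4 - s ^ 2 := half_sq _

lemma sre (s : ℂ) : (1 / 4 - s ^ 2).re = 1 / 4 - s.re ^ 2 + s.im ^ 2 := by
  rw [Complex.sub_re, sq, Complex.mul_re]
  norm_num
  ring

lemma sim (s : ℂ) : (1 / 4 - s ^ 2).im = -(2 * s.re * s.im) := by
  rw [Complex.sub_im, sq, Complex.mul_im]
  norm_num
  ring

lemma Y1_slit {s : ℂ} (h : |s.re| < 1 / 8) : (1 / 4 - s ^ 2) ∈ Complex.slitPlane := by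
  left
  rw [sre]
  have := abs_lt.1 h
  nlinarith [sq_nonneg s.im]

lemma Y1_pos {s : ℂ} (h : |s.re| < 1 / 8) : 0 < (Y1 s).re := by
  have h1 : 0 ≤ (Y1 s).re := half_re _
  rcases h1.eq_or_lt with h2 | h2
  · exfalso
    have h3 : (Y1 s ^ 2).re = (1 / 4 - s ^ 2).re := by rw [Y1_sq]
    rw [sre, sq, Complex.mul_re, ← h2] at h3
    have := abs_lt.1 h
    nlinarith [sq_nonneg s.im, sq_nonneg (Y1 s).im]
  · exact h2

/-- the model label is near the positive real axis -/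
lemma Y1_im {s : ℂ} {k : ℝ} (hk : 0 < k) (hk1 : k < 1) (h : |s.re| < k / 8) :
    |(Y1 s).im| ≤ k / 2 * ‖Y1 s‖ := by
  have h8 : |s.re| < 1 / 8 := by linarith
  have hp := Y1_pos h8
  have h1 : (Y1 s ^ 2).re = (1 / 4 - s ^ 2).re := by rw [Y1_sq]
  have h2 : (Y1 s ^ 2).im = (1 / 4 - s ^ 2).im := by rw [Y1_sq]
  rw [sre, sq, Complex.mul_re] at h1
  rw [sim, sq, Complex.mul_im] at h2
  set a := (Y1 s).re
  set b := (Y1 s).im
  have hab := abs_lt.1 h8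
  have h3 : s.re ^ 2 ≤ 1 / 64 := by nlinarith
  have h4 : |a * b| = |s.re| * |s.im| := by
    have : a * b = -(s.re * s.im) := by linarith
    rw [this, abs_neg, abs_mul]
  rw [abs_mul, abs_of_pos hp] at h4
  have h5 : 2 * |s.im| / 5 ≤ a ^ 2 := by
    have : 15 / 64 + s.im ^ 2 ≤ a ^ 2 - b ^ 2 := by nlinarith
    have h6 : s.im ^ 2 = |s.im| ^ 2 := (sq_abs _).symm
    nlinarith [sq_nonneg b, sq_nonneg (|s.im| - 1 / 5)]
  have h6 : |b| ≤ k / 2 * a := by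
    by_contra hcon
    push Not at hcon
    have h7 : k / 2 * a ^ 2 < a * |b| := by nlinarith
    have h8 : |s.re| * |s.im| ≤ k / 8 * |s.im| :=
      mul_le_mul_of_nonneg_right h.le (abs_nonneg _)
    nlinarith [abs_nonneg s.im]
  have h7 : a ≤ ‖Y1 s‖ := Complex.re_le_norm _
  nlinarith

lemma Y1_norm {s : ℂ} {R : ℝ} (hR : 8 ≤ R) (h : s ∈ St (1 / 8) R) : ‖Y1 s‖ ≤ 4 * R ∧
    1 / 4 ≤ ‖Y1 s‖ := by
  have h0 : ‖Y1 s‖ ^ 2 = ‖1 / 4 - s ^ 2‖ := by rw [← norm_pow, Y1_sq]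
  have h1 : ‖s‖ ≤ 1 / 8 + 2 * R := by
    have := Complex.norm_le_abs_re_add_abs_im s
    linarith [h.1, h.2]
  have h2 : ‖1 / 4 - s ^ 2‖ ≤ 1 / 4 + ‖s‖ ^ 2 := by
    refine (norm_sub_le _ _).trans ?_
    rw [norm_pow]
    norm_num
  constructor
  · by_contra hcon
    push Not at hcon
    nlinarith [norm_nonneg s, norm_nonneg (Y1 s)]
  · have h3 : 15 / 64 ≤ ‖1 / 4 - s ^ 2‖ := by
      refine le_trans ?_ (Complex.re_le_norm _)
      rw [sre]
      have := abs_lt.1 h.1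
      nlinarith [sq_nonneg s.im]
    by_contra hcon
    push Not at hcon
    nlinarith [norm_nonneg (Y1 s)]

lemma Y1_diff {R : ℝ} : DifferentiableOn ℂ Y1 (St (1 / 8) R) := by
  intro s hs
  have h1 : DifferentiableAt ℂ (fun s : ℂ => 1 / 4 - s ^ 2) s := by fun_prop
  have h2 : DifferentiableAt ℂ (fun s : ℂ => (1 / 4 - s ^ 2) ^ (1 / 2 : ℂ)) s :=
    h1.cpow (differentiableAt_const _) (Y1_slit hs.1)
  exact h2.differentiableWithinAt

/-- comparison with the time, top (`ς = 1`) and bottom (`ς = -1`) -/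
lemma Y1_time {s : ℂ} {R l : ℝ} (hR : 8 ≤ R) (hl : 0 < l) (h8 : |s.re| < 1 / 8) :
    (R < s.im → ‖(l : ℂ) * Y1 s - lam l * s‖ ≤ l / 32) ∧
    (s.im < -R → ‖(l : ℂ) * Y1 s + lam l * s‖ ≤ l / 32) := by
  have e : ((l : ℂ) * Y1 s - lam l * s) * ((l : ℂ) * Y1 s + lam l * s) = (l : ℂ) ^ 2 / 4 := by
    have h1 := Y1_sq s
    rw [lam]
    linear_combination (l : ℂ) ^ 2 * h1 - (l : ℂ) ^ 2 * s ^ 2 * Complex.I_sq
  have en : ‖(l : ℂ) * Y1 s - lam l * s‖ * ‖(l : ℂ) * Y1 s + lam l * s‖ = l ^ 2 / 4 := by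
    rw [← norm_mul, e, norm_div, norm_pow, Complex.norm_real, Real.norm_eq_abs, abs_of_pos hl]
    norm_num
  have hp := Y1_pos h8
  constructor
  · intro h
    have h1 : l * 8 ≤ ‖(l : ℂ) * Y1 s + lam l * s‖ := by
      refine le_trans ?_ (Complex.re_le_norm _)
      rw [Complex.add_re, lam_re, Complex.re_ofReal_mul]
      nlinarith
    by_contra hcon
    push Not at hcon
    nlinarith [norm_nonneg ((l : ℂ) * Y1 s + lam l * s)]
  · intro h
    have h1 : l * 8 ≤ ‖(l : ℂ) * Y1 s - lam l * s‖ := by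
      refine le_trans ?_ (Complex.re_le_norm _)
      rw [Complex.sub_re, lam_re, Complex.re_ofReal_mul]
      nlinarith
    by_contra hcon
    push Not at hcon
    nlinarith [norm_nonneg ((l : ℂ) * Y1 s - lam l * s)]

end Crest.Agent.R102.MelI963
end
end

-- ▼ part R102/MelI4f_963
section

/-!
# Row 102, part (C), [T5]/MEL, **MEL-I**, (I4) part f (helper963)

The top of the strip.
-/

set_option autoImplicit false

open Set Filter Topology Metric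
open scoped ComplexConjugate

noncomputable section

namespace Crest.Agent.R102.MelI963

open Crest.Agent.R102.T5R Crest.Agent.R102.Mel Crest.Agent.R102.ExtF39

variable {κ κ' β C cc CC l₀ : ℝ} {qA : ℂ → ℂ} {jA : ℂ} {MA EA ZA ZcA : ℂ → ℂ}
  {xA : ℝ → ℂ → ℂ} {qB : ℂ → ℂ} {jB : ℂ} {MB EB ZB ZcB : ℂ → ℂ} {xB : ℝ → ℂ → ℂ}
  {C₀ : ℂ} {δ : ℝ} {G : ℂ → ℂ}

/-- the facts of `ms_eq_mc` at one point -/
structure PtF (κ κ' cc : ℝ) (q : ℂ → ℂ) (j : ℂ) (M : ℂ → ℂ) (x : ℝ → ℂ → ℂ)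
    (Y : ℝ → ℂ → ℂ) (l : ℝ) (s : ℂ) : Prop where
  y1 : Y l (s + 1) = x l (lam l * (s + 1))
  m : ms q j M Y l s = mc q j M x l (lam l * s)
  d0 : lam l * s ∈ Dl κ' cc l
  d1 : lam l * (s + 1) ∈ Dl κ' cc l
  d3 : lam l * (s - 1) ∈ Dl κ' cc l
  a1 : Adm κ 2 (x l (lam l * s)) (x l (lam l * (s + 1)))
  a3 : Adm κ 2 (x l (lam l * s)) (x l (lam l * (s - 1)))
  n0 : ‖x l (lam l * s) - lam l * s‖ ≤ l / 8
  n1 : ‖x l (lam l * (s + 1)) - lam l * (s + 1)‖ ≤ l / 8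
  n3 : ‖x l (lam l * (s - 1)) - lam l * (s - 1)‖ ≤ l / 8
  p : Pj q j (x l (lam l * s)) (x l (lam l * (s + 1))) ≠ 0
  pm : Pj q (-j) (x l (lam l * s)) (x l (lam l * (s + 1))) ≠ 0

lemma exists_PtF {q : ℂ → ℂ} {j : ℂ} {M : ℂ → ℂ} {x : ℝ → ℂ → ℂ} {c₀ : ℂ}
    (hS : Side κ κ' (-1) β C cc CC l₀ q j M x) {R ρ η : ℝ} {Y : ℝ → ℂ → ℂ}
    (hG : FG κ' cc l₀ q j M x c₀ R ρ η) (hR : 8 ≤ R) (hcR : 8 ≤ cc * R) (hκR : 8 ≤ κ' * R)
    (hRκ : 4 ≤ (κ - κ') * R) (hY : YF x R Y) (hρ : 0 < ρ) :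
    ∀ᶠ l in 𝓝[>] (0 : ℝ), 0 < l ∧ l < l₀ ∧ l * (100 * R) < 1 ∧ ∀ s ∈ St (1 / 8) R, R < |s.im| →
      PtF κ κ' cc q j M x Y l s := by
  filter_upwards [ms_eq_mc hS hG hR hcR hκR hRκ hY hρ] with l ⟨h1, h2, h3, h4⟩
  refine ⟨h1, h2, h3, fun s hs hsR => ?_⟩
  obtain ⟨a, b, c, d, e, f, g, h, i, k, m, n⟩ := h4 s hs hsR
  exact ⟨a, b, c, d, e, f, g, h, i, k, m, n⟩

/-- membership in the overlap near the positive real axis -/
lemma mem_OvR {R l : ℝ} (hR : 8 ≤ R) (hκ : 0 < κ) (hκ1 : κ < 1) (hκR : 8 ≤ κ * R) (hl : 0 < l)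
    (hlR : l * (100 * R) < 1) {s z : ℂ} (h1 : |s.re| ≤ 9 / 8) (h2 : R ≤ s.im) (h3 : s.im ≤ 2 * R)
    (hz : ‖z - lam l * s‖ ≤ l / 8) : z ∈ OvR κ ∧ 7 * l ≤ ‖z‖ ∧ ‖z‖ ≤ l * (4 * R) := by
  have hre := (Complex.abs_re_le_norm (z - lam l * s)).trans hz
  have him := (Complex.abs_im_le_norm (z - lam l * s)).trans hz
  rw [Complex.sub_re, lam_re] at hre
  rw [Complex.sub_im, lam_im] at him
  have a1 := (abs_le.1 hre).1
  have a2 : l * R ≤ l * s.im := mul_le_mul_of_nonneg_left h2 hl.le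
  have a3 : l * R - l / 8 ≤ z.re := by linarith
  have a4 : l * 8 ≤ l * R := mul_le_mul_of_nonneg_left hR hl.le
  have a5 : 7 * l ≤ ‖z‖ := by linarith [Complex.re_le_norm z]
  have a6 : ‖z‖ ≤ l * (4 * R) := by
    have b1 : ‖z‖ ≤ ‖z - lam l * s‖ + ‖lam l * s‖ := by
      simpa using norm_add_le (z - lam l * s) (lam l * s)
    have b2 : ‖lam l * s‖ = l * ‖s‖ := by rw [norm_mul, norm_lam hl]
    have b3 := Complex.norm_le_abs_re_add_abs_im s
    have b4 : |s.im| = s.im := abs_of_nonneg (by linarith)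
    have b5 : ‖s‖ ≤ 9 / 8 + 2 * R := by linarith
    nlinarith
  have a7 : |z.im| ≤ 5 / 4 * l := by
    have b1 := abs_le.1 him
    have b2 := abs_le.1 h1
    rw [abs_le]
    constructor <;> nlinarith
  refine ⟨⟨norm_pos_iff.1 (by linarith), by nlinarith, ?_, by linarith⟩, a5, a6⟩
  have b1 : κ * z.re ≤ κ * ‖z‖ := mul_le_mul_of_nonneg_left (Complex.re_le_norm z) hκ.le
  have b2 : κ * (l * R - l / 8) ≤ κ * z.re := mul_le_mul_of_nonneg_left a3 hκ.le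
  have b3 : l * 8 ≤ l * (κ * R) := mul_le_mul_of_nonneg_left hκR hl.le
  have b4 : κ * l ≤ l := by nlinarith
  nlinarith

/-- **the top of the strip** -/
lemma top_strip (hPF : PosF)
    (hD : DatI κ κ' β C cc CC l₀ qA jA MA EA ZA ZcA xA qB jB MB EB ZB ZcB xB C₀ δ G)
    {R l : ℝ} {YA YB : ℝ → ℂ → ℂ} (hR : 8 ≤ R) (hκR : 8 ≤ κ' * R) (hl : 0 < l) (hl0 : l < l₀)
    (hlR : l * (100 * R) < 1) {s : ℂ} (hs : s ∈ St (1 / 8) R) (hsR : R < s.im)
    (hA : PtF κ κ' cc qA jA MA xA YA l s) (hB : PtF κ κ' cc qB jB MB xB YB l (-s)) :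
    mc qA jA MA xA l (lam l * s) * mc qB jB MB xB l (lam l * (-s)) =
        MA (xA l (lam l * s)) ^ 2 ∧
      ZA (xA l (lam l * s)) - ZB (xB l (lam l * (-s + 1))) =
        mc qB jB MB xB l (lam l * (-s)) *
          (ZcA (xA l (lam l * s)) - ZcB (xB l (lam l * (-s + 1)))) ∧
      xA l (lam l * s) ∈ OvR κ ∧ 7 * l ≤ ‖xA l (lam l * s)‖ ∧
      ‖xA l (lam l * s)‖ ≤ l * (4 * R) := by
  have hκ0 : 0 < κ := hD.sA.endq.κ_pos
  have hκ1 : κ < 1 := hD.sA.endq.κ_lt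
  have hκκ := hD.sA.κ'_lt
  have hκR' : 8 ≤ κ * R := by nlinarith
  have hre : |s.re| < 1 / 8 := hs.1
  have him : |s.im| < 2 * R := hs.2
  have him' : s.im ≤ 2 * R := (le_abs_self _).trans him.le
  set y := xA l (lam l * s) with hy
  set y' := xA l (lam l * (s - 1)) with hy'
  have hx0 : xB l (lam l * (-s)) = -y := by
    have h := hD.mt.X l hl hl0 (lam l * s) hA.d0
      (by rw [← mul_neg]; exact hB.d0) (by rw [lam_re]; nlinarith)
    rw [← mul_neg] at h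
    exact h
  have e1 : lam l * (-s + 1) = -(lam l * (s - 1)) := by ring
  have hx1 : xB l (lam l * (-s + 1)) = -y' := by
    have h := hD.mt.X l hl hl0 (lam l * (s - 1)) hA.d3
      (by rw [← e1]; exact hB.d1) (by rw [lam_re]; simp; nlinarith)
    rw [← e1] at h
    exact h
  have hyO := mem_OvR hR hκ0 hκ1 hκR' hl hlR (by linarith) hsR.le him' hA.n0
  have hseg : ∀ u ∈ Icc (0 : ℝ) 1, y + u * (y' - y) ∈ OvR κ := by
    intro u hu
    have h1 : ‖y + u * (y' - y) - lam l * (s - u)‖ ≤ l / 8 := by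
      have e : y + u * (y' - y) - lam l * (s - u) =
          (1 - u) * (y - lam l * s) + u * (y' - lam l * (s - 1)) := by ring
      rw [e]
      refine (norm_add_le _ _).trans ?_
      rw [norm_mul, norm_mul]
      have e2 : ‖(1 - u : ℂ)‖ = 1 - u := by
        have : (1 - u : ℂ) = ((1 - u : ℝ) : ℂ) := by push_cast; ring
        rw [this, Complex.norm_real, Real.norm_eq_abs, abs_of_nonneg (by linarith [hu.2])]
      have e3 : ‖(u : ℂ)‖ = u := by
        rw [Complex.norm_real, Real.norm_eq_abs, abs_of_nonneg hu.1]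
      rw [e2, e3]
      have b1 : (1 - u) * ‖y - lam l * s‖ ≤ (1 - u) * (l / 8) :=
        mul_le_mul_of_nonneg_left hA.n0 (by linarith [hu.2])
      have b2 : u * ‖y' - lam l * (s - 1)‖ ≤ u * (l / 8) :=
        mul_le_mul_of_nonneg_left hA.n3 hu.1
      linarith
    refine (mem_OvR hR hκ0 hκ1 hκR' hl hlR ?_ ?_ ?_ h1).1
    · rw [Complex.sub_re, Complex.ofReal_re]
      have := abs_lt.1 hre
      rw [abs_le]
      constructor <;> linarith [hu.1, hu.2]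
    · simpa using hsR.le
    · simpa using him'
  have hj : -jB = jA := by rw [hD.mt.j, neg_neg]
  -- the slope on side `B`
  have hmB : mc qB jB MB xB l (lam l * (-s)) = MA y * Rj qA jA y y' := by
    rw [mc, lam_sub, hx0, hx1, hD.mt.M y hyO.1]
    rw [rRot.2 κ qA qB jB y y' hD.sA.endq.diff hD.sB.endq.diff hD.mt.q hseg, hj]
  have hmA : mc qA jA MA xA l (lam l * s) = MA y * Rj qA jA y (xA l (lam l * (s + 1))) := by
    rw [mc, lam_sub]
  have hlaw := rlaw_j hD.sA hl hl0 (t := lam l * s) (by rw [lam_add]; exact hA.d3) hA.d0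
    (by rw [lam_sub]; exact hA.d1)
  rw [lam_add, lam_sub] at hlaw
  refine ⟨?_, ?_, hyO.1, hyO.2.1, hyO.2.2⟩
  · rw [hmA, hmB]
    linear_combination MA y ^ 2 * hlaw
  · have hsl := slope_pos hPF hD.sB.endq.diff hD.sB.slope hD.pB
      (a := xB l (lam l * (-s))) (b := xB l (lam l * (-s + 1)))
      (fun u hu => (hB.a1 u hu).1) hB.pm
    have h1 := (hD.mp y hyO.1).2
    have h2 : mc qB jB MB xB l (lam l * (-s)) =
        MB (xB l (lam l * (-s))) * Rj qB jB (xB l (lam l * (-s))) (xB l (lam l * (-s + 1))) := by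
      rw [mc, lam_sub]
    rw [← h2] at hsl
    rw [hx0, h1.1, h1.2] at hsl
    rw [hx0] at h2
    linear_combination -hsl

end Crest.Agent.R102.MelI963
end
end

-- ▼ part R102/MelI4g_963

/-!
# Row 102, part (C), [T5]/MEL, **MEL-I**, (I4) part g (helper963)

The incidence relation on the strip.
-/

set_option autoImplicit false

open Set Filter Topology Metric
open scoped ComplexConjugate

noncomputable section

namespace Crest.Agent.R102.MelI963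

open Crest.Agent.R102.T5R Crest.Agent.R102.Mel Crest.Agent.R102.ExtF39

variable {κ κ' β C cc CC l₀ : ℝ} {qA : ℂ → ℂ} {jA : ℂ} {MA EA ZA ZcA : ℂ → ℂ}
  {xA : ℝ → ℂ → ℂ} {qB : ℂ → ℂ} {jB : ℂ} {MB EB ZB ZcB : ℂ → ℂ} {xB : ℝ → ℂ → ℂ}
  {C₀ : ℂ} {δ : ℝ} {G : ℂ → ℂ}

lemma St_convex (a R : ℝ) : Convex ℝ (St a R) := by
  have h1 : Convex ℝ {s : ℂ | -a < s.re} := convex_halfSpace_re_gt _
  have h2 : Convex ℝ {s : ℂ | s.re < a} := convex_halfSpace_re_lt _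
  have h3 : Convex ℝ {s : ℂ | -(2 * R) < s.im} := convex_halfSpace_im_gt _
  have h4 : Convex ℝ {s : ℂ | s.im < 2 * R} := convex_halfSpace_im_lt _
  have : St a R = ({s : ℂ | -a < s.re} ∩ {s : ℂ | s.re < a}) ∩
      ({s : ℂ | -(2 * R) < s.im} ∩ {s : ℂ | s.im < 2 * R}) := by
    ext s
    constructor
    · rintro ⟨h1, h2⟩
      exact ⟨abs_lt.1 h1, abs_lt.1 h2⟩
    · rintro ⟨h1, h2⟩
      exact ⟨abs_lt.2 h1, abs_lt.2 h2⟩
  rw [this]
  exact (h1.inter h2).inter (h3.inter h4)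

/-- the ratio to the model -/
def Pq (C₀ : ℂ) (qA : ℂ → ℂ) (jA : ℂ) (MA : ℂ → ℂ) (YA : ℝ → ℂ → ℂ) (qB : ℂ → ℂ) (jB : ℂ)
    (MB : ℂ → ℂ) (YB : ℝ → ℂ → ℂ) (l : ℝ) (s : ℂ) : ℂ :=
  ms qA jA MA YA l s * ms qB jB MB YB l (-s) / (C₀ * (l * Y1 s)) ^ 4

lemma Pq_limit
    (hD : DatI κ κ' β C cc CC l₀ qA jA MA EA ZA ZcA xA qB jB MB EB ZB ZcB xB C₀ δ G)
    {R : ℝ} {YA YB : ℝ → ℂ → ℂ} (hR : 8 ≤ R) (hYA : YF xA R YA) (hYB : YF xB R YB) {η : ℝ}
    (hη : 0 < η) :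
    ∀ᶠ l in 𝓝[>] (0 : ℝ), ∀ s ∈ St (1 / 8) R,
      ‖Pq C₀ qA jA MA YA qB jB MB YB l s - 1‖ ≤ η := by
  have hCB : -C₀ ≠ 0 := neg_ne_zero.2 hD.C_ne
  have h1 := (ms_limit hD.sA hD.limA hD.pA hD.C_ne hD.EA_lim hR hYA).1
  have h2 := (ms_limit hD.sB hD.limB hD.pB hCB hD.EB_lim hR hYB).1
  have h3 : Tendsto (fun p : ℝ × ℂ => (p.1, -p.2)) (𝓝[>] (0 : ℝ) ×ˢ 𝓟 (St (1 / 8) R))
      (𝓝[>] (0 : ℝ) ×ˢ 𝓟 (St (1 / 8) R)) := by
    refine Tendsto.prodMk tendsto_fst ?_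
    have h4 : Tendsto (fun s : ℂ => -s) (𝓟 (St (1 / 8) R)) (𝓟 (St (1 / 8) R)) :=
      tendsto_principal_principal.2 fun s hs => St_neg hs
    exact h4.comp tendsto_snd
  have h5 := h1.mul (h2.comp h3)
  rw [mul_one] at h5
  have h6 := h5.eventually (Metric.closedBall_mem_nhds (1 : ℂ) hη)
  rw [eventually_prod_principal_iff] at h6
  filter_upwards [h6, self_mem_nhdsWithin] with l h7 hl s hs
  have hl : 0 < l := hl
  have h8 : dist (ms qA jA MA YA l s / (C₀ * lam l * (s + 1 / 2)) ^ 2 *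
      (ms qB jB MB YB l (-s) / (-C₀ * lam l * (-s + 1 / 2)) ^ 2)) 1 ≤ η := h7 s hs
  rw [dist_eq_norm] at h8
  have hI4 : Complex.I ^ 4 = 1 := Complex.I_pow_four
  have e1 : (C₀ * (l * Y1 s)) ^ 4 = (C₀ * lam l * (s + 1 / 2)) ^ 2 *
      (-C₀ * lam l * (-s + 1 / 2)) ^ 2 := by
    have e2 : (C₀ * (l * Y1 s)) ^ 4 = C₀ ^ 4 * (l : ℂ) ^ 4 * (Y1 s ^ 2) ^ 2 := by ring
    rw [e2, Y1_sq, lam]
    linear_combination (-(C₀ ^ 4 * (l : ℂ) ^ 4 * (1 / 4 - s ^ 2) ^ 2)) * hI4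
  have e3 : Pq C₀ qA jA MA YA qB jB MB YB l s =
      ms qA jA MA YA l s / (C₀ * lam l * (s + 1 / 2)) ^ 2 *
      (ms qB jB MB YB l (-s) / (-C₀ * lam l * (-s + 1 / 2)) ^ 2) := by
    rw [Pq, e1, mul_div_mul_comm]
  rw [e3]
  exact h8

lemma E_near (hD : DatI κ κ' β C cc CC l₀ qA jA MA EA ZA ZcA xA qB jB MB EB ZB ZcB xB C₀ δ G) :
    ∃ r > 0, ∀ τ ∈ Sg κ, ‖τ‖ < r → ‖EA τ / C₀ - τ‖ ≤ ‖τ‖ / 10 := by
  have hC : 0 < ‖C₀‖ := norm_pos_iff.2 hD.C_ne
  have h1 := hD.EA_lim.eventually (Metric.closedBall_mem_nhds C₀ (show 0 < ‖C₀‖ / 10 by positivity))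
  rw [eventually_nhdsWithin_iff, Metric.eventually_nhds_iff] at h1
  obtain ⟨r, hr, H⟩ := h1
  refine ⟨r, hr, fun τ hτ hn => ?_⟩
  have h2 : dist (EA τ / τ) C₀ ≤ ‖C₀‖ / 10 := H (by rwa [dist_zero_right]) hτ
  rw [dist_eq_norm] at h2
  have hτ0 : τ ≠ 0 := hτ.1
  have hτn : 0 < ‖τ‖ := norm_pos_iff.2 hτ0
  have hC0 := hD.C_ne
  have e : EA τ / C₀ - τ = (EA τ / τ - C₀) * (τ / C₀) := by field_simp
  rw [e, norm_mul, norm_div]
  calc ‖EA τ / τ - C₀‖ * (‖τ‖ / ‖C₀‖) ≤ ‖C₀‖ / 10 * (‖τ‖ / ‖C₀‖) :=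
        mul_le_mul_of_nonneg_right h2 (by positivity)
    _ = ‖τ‖ / 10 := by field_simp

lemma OvR_sub_Sg {κ : ℝ} {τ : ℂ} (h : τ ∈ OvR κ) : τ ∈ Sg κ :=
  ⟨h.1, h.2.1, (le_abs_self _).trans_lt h.2.2.1⟩

/-- **the incidence relation on the strip** -/
theorem strip_rel (hPF : PosF)
    (hD : DatI κ κ' β C cc CC l₀ qA jA MA EA ZA ZcA xA qB jB MB EB ZB ZcB xB C₀ δ G)
    {R ρA ηA ρB ηB : ℝ} {YA YB : ℝ → ℂ → ℂ} (hR : 8 ≤ R) (hcR : 8 ≤ cc * R) (hκR : 8 ≤ κ' * R)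
    (hRκ : 4 ≤ (κ - κ') * R)
    (hGA : FG κ' cc l₀ qA jA MA xA C₀ R ρA ηA) (hGB : FG κ' cc l₀ qB jB MB xB (-C₀) R ρB ηB)
    (hρA : 0 < ρA) (hρB : 0 < ρB) (hYA : YF xA R YA) (hYB : YF xB R YB) :
    ∀ᶠ l in 𝓝[>] (0 : ℝ), ∀ s ∈ St (κ' / 8) R,
      ‖Pq C₀ qA jA MA YA qB jB MB YB l s - 1‖ ≤ κ' / 10 ∧
      ZA (G (l * Y1 s * (Pq C₀ qA jA MA YA qB jB MB YB l s) ^ (1 / 4 : ℂ))) -
          ZB (YB l (-s + 1)) =
        ms qB jB MB YB l (-s) *
          (ZcA (G (l * Y1 s * (Pq C₀ qA jA MA YA qB jB MB YB l s) ^ (1 / 4 : ℂ))) -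
            ZcB (YB l (-s + 1))) := by
  have hκ0 : 0 < κ := hD.sA.endq.κ_pos
  have hκ1 : κ < 1 := hD.sA.endq.κ_lt
  have hκκ := hD.sA.κ'_lt
  have hκ' := hD.sA.κ'_pos
  have hκ'1 : κ' < 1 := by linarith
  have hδ := hD.inv.δ_pos
  obtain ⟨r, hr, hE⟩ := E_near hD
  have ev : ∀ b : ℝ, 0 < b → ∀ᶠ l in 𝓝[>] (0 : ℝ), 0 < l ∧ l < b := fun b hb =>
    Ioo_mem_nhdsGT hb
  have hCB : -C₀ ≠ 0 := neg_ne_zero.2 hD.C_ne
  have hsub : St (κ' / 8) R ⊆ St (1 / 8) R := fun s hs => ⟨by linarith [hs.1], hs.2⟩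
  filter_upwards [Pq_limit hD hR hYA hYB (show 0 < κ' / 10 by positivity),
    exists_PtF hD.sA hGA hR hcR hκR hRκ hYA hρA, exists_PtF hD.sB hGB hR hcR hκR hRκ hYB hρB,
    ms_diff hD.sA hD.limA hD.pA hD.C_ne hD.EA_lim hR hYA,
    ms_diff hD.sB hD.limB hD.pB hCB hD.EB_lim hR hYB,
    ev (min (δ / (8 * R)) (r / (4 * R))) (lt_min (by positivity) (by positivity))] with
    l hP ⟨hl, hl0, hlR, hA⟩ ⟨_, _, _, hB⟩ ⟨mA1, mA2, mA3⟩ ⟨mB1, mB2, mB3⟩ hls
  have hlδ : l * (8 * R) < δ := by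
    have := hls.2.trans_le (min_le_left _ _)
    rwa [lt_div_iff₀ (by positivity)] at this
  have hlr : l * (4 * R) < r := by
    have := hls.2.trans_le (min_le_right _ _)
    rwa [lt_div_iff₀ (by positivity)] at this
  set P : ℂ → ℂ := fun s => Pq C₀ qA jA MA YA qB jB MB YB l s with hPdef
  set u : ℂ → ℂ := fun s => l * Y1 s * (P s) ^ (1 / 4 : ℂ) with hu
  have hP' : ∀ s ∈ St (κ' / 8) R, ‖P s - 1‖ ≤ κ' / 10 := fun s hs => hP s (hsub hs)
  -- the vertex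
  have hmem : ∀ s ∈ St (κ' / 8) R, u s ∈ OvR κ' ∧ ‖u s‖ < δ := by
    intro s hs
    have hY := Y1_norm hR (hsub hs)
    have hn : ‖(l : ℂ) * Y1 s‖ = l * ‖Y1 s‖ := by
      rw [norm_mul, Complex.norm_real, Real.norm_eq_abs, abs_of_pos hl]
    have hre : ((l : ℂ) * Y1 s).re = l * (Y1 s).re := Complex.re_ofReal_mul _ _
    have him : ((l : ℂ) * Y1 s).im = l * (Y1 s).im := Complex.im_ofReal_mul _ _
    have h8 : |s.re| < 1 / 8 := (hsub hs).1
    have a1 : l * ‖Y1 s‖ ≤ l * (4 * R) := mul_le_mul_of_nonneg_left hY.1 hl.le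
    have h1 := ovR_pert (k := κ') (v := l * Y1 s) (r := (P s) ^ (1 / 4 : ℂ)) hκ' hκ'1
      (by rw [hre]; exact mul_pos hl (Y1_pos h8))
      (by
        rw [him, hn, abs_mul, abs_of_pos hl]
        have := Y1_im hκ' hκ'1 hs.1
        nlinarith)
      ((quarter_near _).trans (hP' s hs)) (by rw [hn]; nlinarith)
    refine ⟨h1.1, h1.2.trans_lt ?_⟩
    rw [hn]
    nlinarith
  -- differentiability
  have hPd : DifferentiableOn ℂ P (St (κ' / 8) R) := by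
    have h1 : DifferentiableOn ℂ (fun s => ms qB jB MB YB l (-s)) (St (κ' / 8) R) :=
      mB1.comp (f := fun s : ℂ => -s) (by fun_prop) (fun s hs => St_neg (hsub hs))
    have h2 : DifferentiableOn ℂ (fun s => (C₀ * (l * Y1 s)) ^ 4) (St (κ' / 8) R) :=
      (((Y1_diff.mono hsub).const_mul (l : ℂ)).const_mul C₀).pow 4
    refine ((mA1.mono hsub).mul h1).div h2 fun s hs => ?_
    refine pow_ne_zero _ (mul_ne_zero hD.C_ne (mul_ne_zero ?_ ?_))
    · exact_mod_cast hl.ne'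
    · exact norm_pos_iff.1 (by linarith [(Y1_norm hR (hsub hs)).2])
  have hud : DifferentiableOn ℂ u (St (κ' / 8) R) := by
    intro s hs
    have h1 := hPd s hs
    have h2 : P s ∈ Complex.slitPlane := by
      left
      have h3 := (Complex.abs_re_le_norm (P s - 1)).trans (hP' s hs)
      rw [Complex.sub_re, Complex.one_re] at h3
      linarith [(abs_le.1 h3).1]
    have h3 := h1.cpow (differentiableWithinAt_const (1 / 4 : ℂ)) h2
    exact (((Y1_diff.mono hsub) s hs).const_mul (l : ℂ)).mul h3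
  have hGd : DifferentiableOn ℂ (fun s => G (u s)) (St (κ' / 8) R) :=
    hD.inv.diff.comp hud fun s hs => hmem s hs
  have hGm : ∀ s ∈ St (κ' / 8) R, G (u s) ∈ Sg κ := fun s hs =>
    OvR_sub_Sg (hD.inv.mem _ (hmem s hs).1 (hmem s hs).2)
  have hneg : MapsTo (fun s : ℂ => -s) (St (κ' / 8) R) (St (1 / 8) R) :=
    fun s hs => St_neg (hsub hs)
  have hYBd : DifferentiableOn ℂ (fun s => YB l (-s + 1)) (St (κ' / 8) R) :=
    mB2.comp (f := fun s : ℂ => -s) (by fun_prop) hneg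
  have hmBd : DifferentiableOn ℂ (fun s => ms qB jB MB YB l (-s)) (St (κ' / 8) R) :=
    mB1.comp (f := fun s : ℂ => -s) (by fun_prop) hneg
  set f : ℂ → ℂ := fun s => ZA (G (u s)) - ZB (YB l (-s + 1)) -
    ms qB jB MB YB l (-s) * (ZcA (G (u s)) - ZcB (YB l (-s + 1))) with hf
  have hfd : DifferentiableOn ℂ f (St (κ' / 8) R) := by
    have h1 : DifferentiableOn ℂ (fun s => ZA (G (u s))) (St (κ' / 8) R) :=
      hD.pA.Z_diff.comp hGd hGm
    have h2 : DifferentiableOn ℂ (fun s => ZcA (G (u s))) (St (κ' / 8) R) :=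
      hD.pA.Zc_diff.comp hGd hGm
    have h3 : DifferentiableOn ℂ (fun s => ZB (YB l (-s + 1))) (St (κ' / 8) R) :=
      hD.pB.Z_diff.comp hYBd fun s hs => mB3 _ (hneg hs)
    have h4 : DifferentiableOn ℂ (fun s => ZcB (YB l (-s + 1))) (St (κ' / 8) R) :=
      hD.pB.Zc_diff.comp hYBd fun s hs => mB3 _ (hneg hs)
    exact (h1.sub h3).sub (hmBd.mul (h2.sub h4))
  -- the top
  have htop : ∀ s ∈ St (κ' / 8) R, R < s.im → f s = 0 := by
    intro s hs hsR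
    have habs : R < |s.im| := hsR.trans_le (le_abs_self _)
    have hpA := hA s (hsub hs) habs
    have hpB := hB (-s) (St_neg (hsub hs)) (by rwa [Complex.neg_im, abs_neg])
    obtain ⟨t1, t2, t3, t4, t5⟩ := top_strip hPF hD hR hκR hl hl0 hlR (hsub hs) hsR hpA hpB
    set y := xA l (lam l * s) with hy
    have hE1 := hE y (OvR_sub_Sg t3) (t5.trans_lt hlr)
    have h8 : |s.re| < 1 / 8 := (hsub hs).1
    have hYt := (Y1_time hR hl h8).1 hsR
    set v : ℂ := (l : ℂ) * Y1 s with hv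
    have hYn := Y1_norm hR (hsub hs)
    have hv0 : v ≠ 0 := mul_ne_zero (by exact_mod_cast hl.ne')
      (norm_pos_iff.1 (by linarith [hYn.2]))
    -- fourth powers
    have h4 : (u s) ^ 4 = (EA y / C₀) ^ 4 := by
      have e1 : (u s) ^ 4 = v ^ 4 * P s := by
        simp only [hu]
        rw [mul_pow, quarter_pow]
      have e2 : P s = MA y ^ 2 / (C₀ * v) ^ 4 := by
        simp only [hPdef, Pq]
        rw [hpA.m, hpB.m, t1]
      have hC0 := hD.C_ne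
      rw [e1, e2, ← hD.pA.E_sq y (OvR_sub_Sg t3)]
      field_simp
    have hr1 : ‖u s - v‖ ≤ ‖v‖ / 10 := by
      have e1 : u s - v = v * ((P s) ^ (1 / 4 : ℂ) - 1) := by simp only [hu]; ring
      rw [e1, norm_mul]
      have := (quarter_near (P s)).trans (hP' s hs)
      nlinarith [norm_nonneg v]
    have hyt : ‖y - lam l * s‖ ≤ l / 8 := hpA.n0
    have htn : 8 * l ≤ ‖lam l * s‖ := by
      rw [norm_mul, norm_lam hl]
      have := (Complex.im_le_norm s)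
      nlinarith
    have hvn : ‖v‖ ≤ ‖lam l * s‖ + l / 32 := by
      have : ‖v‖ ≤ ‖v - lam l * s‖ + ‖lam l * s‖ := by
        simpa using norm_add_le (v - lam l * s) (lam l * s)
      linarith
    have hyn : ‖y‖ ≤ ‖lam l * s‖ + l / 8 := by
      have : ‖y‖ ≤ ‖y - lam l * s‖ + ‖lam l * s‖ := by
        simpa using norm_add_le (y - lam l * s) (lam l * s)
      linarith
    have hyn' : ‖lam l * s‖ - l / 8 ≤ ‖y‖ := by
      have : ‖lam l * s‖ ≤ ‖y‖ + ‖y - lam l * s‖ := by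
        have := norm_sub_le y (y - lam l * s)
        simpa using this
      linarith
    have hclose : ‖u s - EA y / C₀‖ < ‖EA y / C₀‖ := by
      have b1 : ‖u s - EA y / C₀‖ ≤ ‖u s - v‖ + ‖v - lam l * s‖ + ‖y - lam l * s‖ +
          ‖EA y / C₀ - y‖ := by
        have e : u s - EA y / C₀ = (u s - v) + (v - lam l * s) - (y - lam l * s) -
            (EA y / C₀ - y) := by ring
        rw [e]
        refine (norm_sub_le _ _).trans (add_le_add_left ?_ _)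
        refine (norm_sub_le _ _).trans (add_le_add_left ?_ _)
        exact norm_add_le _ _
      have b2 : ‖y‖ ≤ ‖EA y / C₀‖ + ‖EA y / C₀ - y‖ := by
        have := norm_sub_le (EA y / C₀) (EA y / C₀ - y)
        simpa using this
      linarith
    have heq : u s = EA y / C₀ := root4 h4 hclose
    have hGu : G (u s) = y := by
      rw [heq]
      refine hD.inv.uniq y t3 ?_ ?_ ?_
      · nlinarith
      · rw [← heq]; exact (hmem s hs).1
      · rw [← heq]; exact (hmem s hs).2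
    simp only [hf]
    rw [hGu, hpB.y1, hpB.m, ← t2]
    ring
  -- identity theorem
  have hfan : AnalyticOnNhd ℂ f (St (κ' / 8) R) := hfd.analyticOnNhd (St_open _ _)
  have hz0 : (((3 / 2 * R : ℝ) : ℂ) * Complex.I) ∈ St (κ' / 8) R := by
    refine ⟨?_, ?_⟩
    · simp; positivity
    · rw [Complex.im_ofReal_mul, Complex.I_im, mul_one, abs_of_pos (by positivity)]
      linarith
  have hEq : EqOn f 0 (St (κ' / 8) R) := by
    refine hfan.eqOn_zero_of_preconnected_of_eventuallyEq_zero (St_convex _ _).isPreconnected hz0 ?_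
    have o1 : IsOpen {s : ℂ | R < s.im} := isOpen_lt continuous_const Complex.continuous_im
    filter_upwards [(St_open (κ' / 8) R).mem_nhds hz0, o1.mem_nhds (show
      R < (((3 / 2 * R : ℝ) : ℂ) * Complex.I).im by
        rw [Complex.im_ofReal_mul, Complex.I_im, mul_one]; linarith)] with s h1 h2
    exact htop s h1 h2
  intro s hs
  refine ⟨hP' s hs, ?_⟩
  have h1 : f s = 0 := hEq hs
  simp only [hf] at h1
  exact sub_eq_zero.1 h1

end Crest.Agent.R102.MelI963
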