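import Mathlib
import Crest.Agent.R102.MelI4g_963
import Crest.Agent.R102.MelIDefs_963
import Crest.Agent.R102.RLimI_231

-- ▼ part R102/MelI4_963
section

/-!
# Row 102, part (C), [T5]/MEL, **MEL-I**, (I4) (helper963)

The incidence relation on the trapezoids: `trapL : ExtI → PosF → TrapL`.
-/

set_option autoImplicit false

open Set Filter Topology Metric
open scoped ComplexConjugate

noncomputable section

namespace Crest.Agent.R102.MelI963

open Crest.Agent.R102.T5R Crest.Agent.R102.Mel Crest.Agent.R102.ExtF39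

variable {κ κ' β C cc CC l₀ : ℝ} {qA : ℂ → ℂ} {jA : ℂ} {MA EA ZA ZcA : ℂ → ℂ}
  {xA : ℝ → ℂ → ℂ} {qB : ℂ → ℂ} {jB : ℂ} {MB EB ZB ZcB : ℂ → ℂ} {xB : ℝ → ℂ → ℂ}
  {C₀ : ℂ} {δ : ℝ} {G : ℂ → ℂ}

/-- the trapezoid -/
def Tz (k ρ r : ℝ) : Set ℂ := {t | -ρ < t.re ∧ t.re < -r ∧ |t.im| < k * |t.re|}

lemma Tz_eq {k ρ r : ℝ} (hr : 0 ≤ r) : Tz k ρ r =
    ({t : ℂ | -ρ < t.re} ∩ {t : ℂ | t.re < -r}) ∩
      ({t : ℂ | t.im + k * t.re < 0} ∩ {t : ℂ | -t.im + k * t.re < 0}) := by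
  ext t
  constructor
  · rintro ⟨h1, h2, h3⟩
    have h4 : |t.re| = -t.re := abs_of_neg (by linarith)
    rw [h4, abs_lt] at h3
    exact ⟨⟨h1, h2⟩, by show t.im + k * t.re < 0; linarith [h3.2],
      by show -t.im + k * t.re < 0; linarith [h3.1]⟩
  · rintro ⟨⟨h1, h2⟩, h3, h3'⟩
    have h2' : t.re < -r := h2
    have h4 : |t.re| = -t.re := abs_of_neg (by linarith)
    refine ⟨h1, h2, ?_⟩
    have a1 : t.im + k * t.re < 0 := h3
    have a2 : -t.im + k * t.re < 0 := h3'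
    rw [h4, abs_lt]
    constructor <;> linarith

lemma Tz_convex {k ρ r : ℝ} (hr : 0 ≤ r) : Convex ℝ (Tz k ρ r) := by
  rw [Tz_eq hr]
  have h1 : Convex ℝ {t : ℂ | -ρ < t.re} := convex_halfSpace_re_gt _
  have h2 : Convex ℝ {t : ℂ | t.re < -r} := convex_halfSpace_re_lt _
  have h3 : Convex ℝ {t : ℂ | t.im + k * t.re < 0} := by
    refine convex_halfSpace_lt (f := fun t : ℂ => t.im + k * t.re) ⟨fun x y => ?_, fun c x => ?_⟩ 0
    · simp only [Complex.add_im, Complex.add_re]; ring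
    · simp only [Complex.real_smul, Complex.im_ofReal_mul, Complex.re_ofReal_mul, smul_eq_mul]; ring
  have h4 : Convex ℝ {t : ℂ | -t.im + k * t.re < 0} := by
    refine convex_halfSpace_lt (f := fun t : ℂ => -t.im + k * t.re) ⟨fun x y => ?_, fun c x => ?_⟩ 0
    · simp only [Complex.add_im, Complex.add_re]; ring
    · simp only [Complex.real_smul, Complex.im_ofReal_mul, Complex.re_ofReal_mul, smul_eq_mul]; ring
  exact (h1.inter h2).inter (h3.inter h4)

lemma Tz_open {k ρ r : ℝ} (hr : 0 ≤ r) : IsOpen (Tz k ρ r) := by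
  rw [Tz_eq hr]
  have h1 : IsOpen {t : ℂ | -ρ < t.re} := isOpen_lt continuous_const Complex.continuous_re
  have h2 : IsOpen {t : ℂ | t.re < -r} := isOpen_lt Complex.continuous_re continuous_const
  have h3 : IsOpen {t : ℂ | t.im + k * t.re < 0} :=
    isOpen_lt (Complex.continuous_im.add (continuous_const.mul Complex.continuous_re))
      continuous_const
  have h4 : IsOpen {t : ℂ | -t.im + k * t.re < 0} :=
    isOpen_lt (Complex.continuous_im.neg.add (continuous_const.mul Complex.continuous_re))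
      continuous_const
  exact (h1.inter h2).inter (h3.inter h4)

lemma Dl_of {l : ℝ} (hκ' : 0 < κ') (hcc : 0 < cc) (hl : 0 < l) {t : ℂ}
    (h1 : |t.im| ≤ κ' / 10 * ‖t‖) (h2 : 8 * l ≤ ‖t‖) (h3 : 8 * l ≤ cc * ‖t‖)
    (h4 : ‖t‖ ≤ 1 / 12) : t ∈ Dl κ' cc l ∧ t - Complex.I * l ∈ Dl κ' cc l := by
  have hn : 0 < ‖t‖ := by linarith
  have hI : ‖Complex.I * (l : ℂ)‖ = l := by
    rw [norm_mul, Complex.norm_I, one_mul, Complex.norm_real, Real.norm_eq_abs, abs_of_pos hl]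
  have a1 : ‖t‖ - l ≤ ‖t - Complex.I * l‖ := by
    have := norm_sub_norm_le t (Complex.I * l)
    rwa [hI] at this
  have a2 : ‖t - Complex.I * l‖ ≤ ‖t‖ + l := by
    have := norm_sub_le t (Complex.I * l)
    rwa [hI] at this
  have a3 : (t - Complex.I * l).im = t.im - l := by simp
  have a4 := le_abs_self t.im
  refine ⟨⟨norm_pos_iff.1 hn, by linarith, by nlinarith, by nlinarith⟩,
    ⟨norm_pos_iff.1 (by linarith), by linarith, ?_, ?_⟩⟩
  · rw [a3]
    have : κ' * (‖t‖ - l) ≤ κ' * ‖t - Complex.I * l‖ := mul_le_mul_of_nonneg_left a1 hκ'.le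
    nlinarith
  · have : cc * (‖t‖ - l) ≤ cc * ‖t - Complex.I * l‖ := mul_le_mul_of_nonneg_left a1 hcc.le
    have : cc * l ≤ cc * ‖t‖ / 8 := by nlinarith
    nlinarith

/-- holomorphy of the true slope -/
lemma mc_diffAt {q : ℂ → ℂ} {j : ℂ} {M : ℂ → ℂ} {x : ℝ → ℂ → ℂ} {c₀ : ℂ}
    (hS : Side κ κ' (-1) β C cc CC l₀ q j M x) {R ρ η : ℝ}
    (hG : FG κ' cc l₀ q j M x c₀ R ρ η) (hR : 8 ≤ R) (hRκ : 4 ≤ (κ - κ') * R) {l : ℝ} {t : ℂ}
    (hl : 0 < l) (hl0 : l < l₀) (h0 : t ∈ Dl κ' cc l) (h1 : t - Complex.I * l ∈ Dl κ' cc l)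
    (h2 : R * l < ‖t‖) (h3 : ‖t‖ < ρ) :
    DifferentiableAt ℂ (mc q j M x l) t ∧ DifferentiableAt ℂ (fun t => x l (t - Complex.I * l)) t ∧
      x l (t - Complex.I * l) ∈ Sg κ := by
  have hI : ‖t - Complex.I * l - t‖ ≤ l := by
    have : t - Complex.I * l - t = -(Complex.I * l) := by ring
    rw [this, norm_neg, norm_mul, Complex.norm_I, one_mul, Complex.norm_real, Real.norm_eq_abs,
      abs_of_pos hl]
  have far := far_chord hS hl hl0 h0 h1 hI hR hRκ h2.le
  have g := hG.good l t hl hl0 h0 h1 h2 h3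
  have d1 : DifferentiableAt ℂ (x l) t :=
    (hS.cone.diff l hl hl0).differentiableAt ((isOpen_Dl κ' cc l).mem_nhds h0)
  have d2 : DifferentiableAt ℂ (fun t => x l (t - Complex.I * l)) t := by
    have h4 : DifferentiableAt ℂ (x l) (t - Complex.I * l) :=
      (hS.cone.diff l hl hl0).differentiableAt ((isOpen_Dl κ' cc l).mem_nhds h1)
    have h5 : DifferentiableAt ℂ (fun t : ℂ => t - Complex.I * l) t := by fun_prop
    exact DifferentiableAt.comp (g := x l) (f := fun t : ℂ => t - Complex.I * l) t h4 h5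
  refine ⟨?_, d2, ?_⟩
  · exact slope_diff hS.endq.diff hS.slope (k := j) d1 d2 (fun u hu => (far.1 u hu).1) g.2.1
  · have := (far.1 1 ⟨zero_le_one, le_rfl⟩).1
    simpa using this

/-- comparison of the two fourth roots -/
lemma root_cmp {c v t a b P P' : ℂ} {l : ℝ} (hl : 0 < l) (hC : c ≠ 0) (hv0 : v ≠ 0) (ht0 : t ≠ 0)
    (hP' : P' = a * b / (c * v) ^ 4) (hP : P = a * b / (c * t) ^ 4) (h1 : ‖P' - 1‖ ≤ 1 / 10)
    (h2 : ‖P - 1‖ ≤ 1 / 10) (hvt : ‖v + t‖ ≤ l / 32) (htl : 8 * l ≤ ‖t‖) :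
    v * P' ^ (1 / 4 : ℂ) = -t * P ^ (1 / 4 : ℂ) := by
  have h4 : (v * P' ^ (1 / 4 : ℂ)) ^ 4 = (-t * P ^ (1 / 4 : ℂ)) ^ 4 := by
    rw [mul_pow, mul_pow, quarter_pow, quarter_pow, hP', hP]
    field_simp
  have hr1 : ‖v * P' ^ (1 / 4 : ℂ) - v‖ ≤ ‖v‖ / 10 := by
    have e1 : v * P' ^ (1 / 4 : ℂ) - v = v * (P' ^ (1 / 4 : ℂ) - 1) := by ring
    rw [e1, norm_mul]
    have := (quarter_near P').trans h1
    nlinarith [norm_nonneg v]
  have hr2 : ‖-t * P ^ (1 / 4 : ℂ) + t‖ ≤ ‖t‖ / 10 := by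
    have e1 : -t * P ^ (1 / 4 : ℂ) + t = -(t * (P ^ (1 / 4 : ℂ) - 1)) := by ring
    rw [e1, norm_neg, norm_mul]
    have := (quarter_near P).trans h2
    nlinarith [norm_nonneg t]
  have hvn : ‖v‖ ≤ ‖t‖ + l / 32 := by
    have : ‖v‖ ≤ ‖v + t‖ + ‖t‖ := by
      have := norm_sub_le (v + t) t
      simpa using this
    linarith
  refine root4 h4 ?_
  set A := v * P' ^ (1 / 4 : ℂ)
  set B := -t * P ^ (1 / 4 : ℂ)
  have b1 : ‖A - B‖ ≤ ‖A - v‖ + ‖v + t‖ + ‖B + t‖ := by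
    have e : A - B = (A - v) + (v + t) - (B + t) := by ring
    rw [e]
    refine (norm_sub_le _ _).trans (add_le_add_left ?_ _)
    exact norm_add_le _ _
  have b2 : ‖t‖ ≤ ‖B‖ + ‖B + t‖ := by
    have := norm_sub_le (B + t) B
    simp only [add_sub_cancel_left] at this
    linarith
  linarith

set_option maxHeartbeats 1000000 in
/-- **the incidence relation on the trapezoid** -/
theorem trap_rel (hPF : PosF)
    (hD : DatI κ κ' β C cc CC l₀ qA jA MA EA ZA ZcA xA qB jB MB EB ZB ZcB xB C₀ δ G)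
    {R ρA ρB : ℝ} {YA YB : ℝ → ℂ → ℂ} (hR : 8 ≤ R) (hcR : 8 ≤ cc * R) (hκR : 8 ≤ κ' * R)
    (hRκ : 4 ≤ (κ - κ') * R)
    (hGA : FG κ' cc l₀ qA jA MA xA C₀ R ρA (κ' / 40))
    (hGB : FG κ' cc l₀ qB jB MB xB (-C₀) R ρB (κ' / 40))
    (hρA : 0 < ρA) (hρB : 0 < ρB) (hYA : YF xA R YA) (hYB : YF xB R YB) :
    ∃ ρ l₂ : ℝ, Trap κ' ρ R l₂ qA jA MA ZA ZcA xA qB jB MB ZB ZcB xB C₀ δ G := by
  have hκ0 : 0 < κ := hD.sA.endq.κ_pos
  have hκ1 : κ < 1 := hD.sA.endq.κ_lt
  have hκκ := hD.sA.κ'_lt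
  have hκ' := hD.sA.κ'_pos
  have hκ'1 : κ' < 1 := by linarith
  have hδ := hD.inv.δ_pos
  have hcc := hD.sA.cone.c_pos
  have hC0 := hD.C_ne
  set ρ : ℝ := min (1 / 16) (min (ρA / 2) (min (ρB / 2) (δ / 4))) with hρdef
  have r1 : ρ ≤ 1 / 16 := min_le_left _ _
  have r2 : ρ ≤ ρA / 2 := (min_le_right _ _).trans (min_le_left _ _)
  have r3 : ρ ≤ ρB / 2 := (min_le_right _ _).trans ((min_le_right _ _).trans (min_le_left _ _))
  have r4 : ρ ≤ δ / 4 := (min_le_right _ _).trans ((min_le_right _ _).trans (min_le_right _ _))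
  have hρ : 0 < ρ := lt_min (by norm_num) (lt_min (by positivity) (lt_min (by positivity)
    (by positivity)))
  have ev : ∀ b : ℝ, 0 < b → ∀ᶠ l in 𝓝[>] (0 : ℝ), 0 < l ∧ l < b := fun b hb =>
    Ioo_mem_nhdsGT hb
  have hsub : St (κ' / 8) R ⊆ St (1 / 8) R := fun s hs => ⟨by linarith [hs.1], hs.2⟩
  have main : ∀ᶠ l in 𝓝[>] (0 : ℝ), ∀ t ∈ Tz (κ' / 10) ρ (R * l),
      ‖mc qA jA MA xA l t * mc qB jB MB xB l (-t) / (C₀ * t) ^ 4 - 1‖ ≤ κ' / 10 ∧
      ZA (yv C₀ G t (mc qA jA MA xA l t) (mc qB jB MB xB l (-t))) -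
          ZB (xB l (-t - Complex.I * l)) =
        mc qB jB MB xB l (-t) *
        (ZcA (yv C₀ G t (mc qA jA MA xA l t) (mc qB jB MB xB l (-t))) -
          ZcB (xB l (-t - Complex.I * l))) := by
    filter_upwards [strip_rel hPF hD hR hcR hκR hRκ hGA hGB hρA hρB hYA hYB,
      exists_PtF hD.sA hGA hR hcR hκR hRκ hYA hρA, exists_PtF hD.sB hGB hR hcR hκR hRκ hYB hρB,
      ev (ρ / (2 * R)) (by positivity)] with
      l hstrip ⟨hl, hl0, hlR, hA⟩ ⟨_, _, _, hB⟩ hls
    have hlρ : l * (2 * R) < ρ := by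
      have := hls.2
      rwa [lt_div_iff₀ (by positivity)] at this
    have hRl : 0 ≤ R * l := by positivity
    -- geometry
    have geo : ∀ t ∈ Tz (κ' / 10) ρ (R * l), 0 < (-t).re ∧ R * l < ‖t‖ ∧ ‖t‖ ≤ 11 / 10 * ρ ∧
        |t.im| ≤ κ' / 10 * ‖t‖ := by
      rintro t ⟨h1, h2, h3⟩
      have h4 : |t.re| = -t.re := abs_of_neg (by linarith)
      have h5 : |t.re| ≤ ‖t‖ := Complex.abs_re_le_norm t
      have h6 := Complex.norm_le_abs_re_add_abs_im t
      refine ⟨by rw [Complex.neg_re]; linarith, by linarith, ?_, ?_⟩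
      · have : κ' / 10 * |t.re| ≤ 1 / 10 * |t.re| :=
          mul_le_mul_of_nonneg_right (by linarith) (abs_nonneg _)
        linarith
      · have : κ' / 10 * |t.re| ≤ κ' / 10 * ‖t‖ := mul_le_mul_of_nonneg_left h5 (by positivity)
        linarith
    have h8l : 8 * l ≤ R * l := mul_le_mul_of_nonneg_right hR hl.le
    have h8c : ∀ {t : ℂ}, R * l < ‖t‖ → 8 * l ≤ cc * ‖t‖ := by
      intro t ht
      have h1 : cc * (R * l) ≤ cc * ‖t‖ := mul_le_mul_of_nonneg_left ht.le hcc.le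
      have h2 : 8 * l ≤ cc * R * l := mul_le_mul_of_nonneg_right hcR hl.le
      nlinarith
    have hDl : ∀ t ∈ Tz (κ' / 10) ρ (R * l), (t ∈ Dl κ' cc l ∧ t - Complex.I * l ∈ Dl κ' cc l) ∧
        (-t ∈ Dl κ' cc l ∧ -t - Complex.I * l ∈ Dl κ' cc l) := by
      intro t ht
      obtain ⟨g1, g2, g3, g4⟩ := geo t ht
      refine ⟨Dl_of hκ' hcc hl g4 (by linarith) (h8c g2) (by linarith),
        Dl_of hκ' hcc hl ?_ ?_ ?_ ?_⟩
      · rw [Complex.neg_im, abs_neg, norm_neg]; exact g4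
      · rw [norm_neg]; linarith
      · rw [norm_neg]; exact h8c g2
      · rw [norm_neg]; linarith
    -- the near bound
    have hnear : ∀ t ∈ Tz (κ' / 10) ρ (R * l),
        ‖mc qA jA MA xA l t * mc qB jB MB xB l (-t) / (C₀ * t) ^ 4 - 1‖ ≤ κ' / 10 := by
      intro t ht
      obtain ⟨g1, g2, g3, g4⟩ := geo t ht
      obtain ⟨⟨d1, d2⟩, d3, d4⟩ := hDl t ht
      have b1 := (hGA.good l t hl hl0 d1 d2 g2 (by linarith)).2.2
      have b2 := (hGB.good l (-t) hl hl0 d3 d4 (by rwa [norm_neg]) (by rw [norm_neg]; linarith)).2.2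
      set a := mc qA jA MA xA l t / (C₀ * t) ^ 2 - 1 with ha
      set b := mc qB jB MB xB l (-t) / (-C₀ * -t) ^ 2 - 1 with hb
      have e : mc qA jA MA xA l t * mc qB jB MB xB l (-t) / (C₀ * t) ^ 4 - 1 = a + b + a * b := by
        have e1 : mc qA jA MA xA l t * mc qB jB MB xB l (-t) / (C₀ * t) ^ 4 =
            (a + 1) * (b + 1) := by
          rw [ha, hb, sub_add_cancel, sub_add_cancel, ← mul_div_mul_comm]
          congr 1
          ring
        rw [e1]; ring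
      rw [e]
      refine (norm_add_le _ _).trans ?_
      rw [norm_mul]
      have := norm_add_le a b
      have : ‖a‖ * ‖b‖ ≤ κ' / 40 * (κ' / 40) := mul_le_mul b1 b2 (norm_nonneg _) (by positivity)
      nlinarith
    set P : ℂ → ℂ := fun t => mc qA jA MA xA l t * mc qB jB MB xB l (-t) / (C₀ * t) ^ 4 with hPdef
    set u : ℂ → ℂ := fun t => -t * (P t) ^ (1 / 4 : ℂ) with hu
    have hmem : ∀ t ∈ Tz (κ' / 10) ρ (R * l), u t ∈ OvR κ' ∧ ‖u t‖ < δ := by
      intro t ht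
      obtain ⟨g1, g2, g3, g4⟩ := geo t ht
      have h1 := ovR_pert (k := κ') (v := -t) (r := (P t) ^ (1 / 4 : ℂ)) hκ' hκ'1 g1
        (by rw [Complex.neg_im, abs_neg, norm_neg]; nlinarith [norm_nonneg t])
        ((quarter_near _).trans (hnear t ht)) (by rw [norm_neg]; linarith)
      refine ⟨h1.1, h1.2.trans_lt ?_⟩
      rw [norm_neg]
      linarith
    have hmd : ∀ t ∈ Tz (κ' / 10) ρ (R * l), DifferentiableAt ℂ (mc qA jA MA xA l) t ∧
        DifferentiableAt ℂ (fun t => mc qB jB MB xB l (-t)) t ∧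
        DifferentiableAt ℂ (fun t => xB l (-t - Complex.I * l)) t ∧
        xB l (-t - Complex.I * l) ∈ Sg κ := by
      intro t ht
      obtain ⟨g1, g2, g3, g4⟩ := geo t ht
      obtain ⟨⟨d1, d2⟩, d3, d4⟩ := hDl t ht
      have b1 := mc_diffAt hD.sA hGA hR hRκ hl hl0 d1 d2 g2 (by linarith)
      have b2 := mc_diffAt hD.sB hGB hR hRκ hl hl0 d3 d4 (by rwa [norm_neg])
        (by rw [norm_neg]; linarith)
      have hn : DifferentiableAt ℂ (fun t : ℂ => -t) t := by fun_prop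
      refine ⟨b1.1, ?_, ?_, b2.2.2⟩
      · exact DifferentiableAt.comp (g := mc qB jB MB xB l) (f := fun t : ℂ => -t) t b2.1 hn
      · exact DifferentiableAt.comp (g := fun t => xB l (t - Complex.I * l))
          (f := fun t : ℂ => -t) t b2.2.1 hn
    have ht0 : ∀ t ∈ Tz (κ' / 10) ρ (R * l), t ≠ 0 := by
      intro t ht h
      have := (geo t ht).1
      rw [h] at this
      simp at this
    have hPd : ∀ t ∈ Tz (κ' / 10) ρ (R * l), DifferentiableAt ℂ P t := by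
      intro t ht
      have h1 : DifferentiableAt ℂ (fun t : ℂ => (C₀ * t) ^ 4) t := by fun_prop
      exact dAt_div ((hmd t ht).1.mul (hmd t ht).2.1) h1
        (pow_ne_zero _ (mul_ne_zero hC0 (ht0 t ht)))
    have hud : DifferentiableOn ℂ u (Tz (κ' / 10) ρ (R * l)) := by
      intro t ht
      have h2 : P t ∈ Complex.slitPlane := by
        left
        have h3 := (Complex.abs_re_le_norm (P t - 1)).trans (hnear t ht)
        rw [Complex.sub_re, Complex.one_re] at h3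
        linarith [(abs_le.1 h3).1]
      have h3 := (hPd t ht).cpow (differentiableAt_const (1 / 4 : ℂ)) h2
      have h4 : DifferentiableAt ℂ (fun t : ℂ => -t) t := by fun_prop
      exact (h4.mul h3).differentiableWithinAt
    have hGd : DifferentiableOn ℂ (fun t => G (u t)) (Tz (κ' / 10) ρ (R * l)) :=
      hD.inv.diff.comp hud fun t ht => hmem t ht
    have hGm : ∀ t ∈ Tz (κ' / 10) ρ (R * l), G (u t) ∈ Sg κ := fun t ht =>
      OvR_sub_Sg (hD.inv.mem _ (hmem t ht).1 (hmem t ht).2)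
    set f : ℂ → ℂ := fun t => ZA (G (u t)) - ZB (xB l (-t - Complex.I * l)) -
      mc qB jB MB xB l (-t) * (ZcA (G (u t)) - ZcB (xB l (-t - Complex.I * l))) with hf
    have hfd : DifferentiableOn ℂ f (Tz (κ' / 10) ρ (R * l)) := by
      have h1 : DifferentiableOn ℂ (fun t => ZA (G (u t))) (Tz (κ' / 10) ρ (R * l)) :=
        hD.pA.Z_diff.comp hGd hGm
      have h2 : DifferentiableOn ℂ (fun t => ZcA (G (u t))) (Tz (κ' / 10) ρ (R * l)) :=
        hD.pA.Zc_diff.comp hGd hGm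
      have h0 : DifferentiableOn ℂ (fun t => xB l (-t - Complex.I * l))
          (Tz (κ' / 10) ρ (R * l)) := fun t ht => (hmd t ht).2.2.1.differentiableWithinAt
      have h3 : DifferentiableOn ℂ (fun t => ZB (xB l (-t - Complex.I * l)))
          (Tz (κ' / 10) ρ (R * l)) := hD.pB.Z_diff.comp h0 fun t ht => (hmd t ht).2.2.2
      have h4 : DifferentiableOn ℂ (fun t => ZcB (xB l (-t - Complex.I * l)))
          (Tz (κ' / 10) ρ (R * l)) := hD.pB.Zc_diff.comp h0 fun t ht => (hmd t ht).2.2.2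
      have h5 : DifferentiableOn ℂ (fun t => mc qB jB MB xB l (-t)) (Tz (κ' / 10) ρ (R * l)) :=
        fun t ht => (hmd t ht).2.1.differentiableWithinAt
      exact (h1.sub h3).sub (h5.mul (h2.sub h4))
    -- the overlap with the strip
    have hov : ∀ t ∈ Tz (κ' / 10) ρ (R * l), |t.im| < κ' / 8 * l → -(2 * R * l) < t.re →
        f t = 0 := by
      intro t ht h1 h2
      obtain ⟨g1, g2, g3, g4⟩ := geo t ht
      obtain ⟨h3, h4, h5⟩ := ht
      set s : ℂ := t / lam l with hs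
      have hts : lam l * s = t := by rw [hs]; field_simp [lam_ne hl]
      have hre : t.re = l * s.im := by rw [← hts, lam_re]
      have him : t.im = -(l * s.re) := by rw [← hts, lam_im]
      have hsSt : s ∈ St (κ' / 8) R := by
        constructor
        · have : |t.im| = l * |s.re| := by rw [him, abs_neg, abs_mul, abs_of_pos hl]
          rw [this] at h1
          have : l * |s.re| < l * (κ' / 8) := by linarith
          exact lt_of_mul_lt_mul_left this hl.le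
        · rw [abs_lt]
          constructor
          · have : l * (-(2 * R)) < l * s.im := by linarith
            exact lt_of_mul_lt_mul_left this hl.le
          · have : l * s.im < l * 0 := by linarith
            have := lt_of_mul_lt_mul_left this hl.le
            linarith
      have hsR : s.im < -R := by
        have : l * s.im < l * (-R) := by linarith
        exact lt_of_mul_lt_mul_left this hl.le
      have habs : R < |s.im| := by rw [abs_of_neg (by linarith)]; linarith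
      have hpA := hA s (hsub hsSt) habs
      have hpB := hB (-s) (St_neg (hsub hsSt)) (by rwa [Complex.neg_im, abs_neg])
      obtain ⟨k1, k2⟩ := hstrip s hsSt
      have e1 : lam l * (-s) = -t := by rw [mul_neg, hts]
      have e2 : lam l * (-s + 1) = -t - Complex.I * l := by rw [← lam_sub, e1]
      have m1 : ms qA jA MA YA l s = mc qA jA MA xA l t := by rw [hpA.m, hts]
      have m2 : ms qB jB MB YB l (-s) = mc qB jB MB xB l (-t) := by rw [hpB.m, e1]
      have m3 : YB l (-s + 1) = xB l (-t - Complex.I * l) := by rw [hpB.y1, e2]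
      have h8 : |s.re| < 1 / 8 := (hsub hsSt).1
      set v : ℂ := (l : ℂ) * Y1 s with hv
      have hYt := (Y1_time hR hl h8).2 hsR
      rw [hts] at hYt
      have hYn := Y1_norm hR (hsub hsSt)
      have hv0 : v ≠ 0 := mul_ne_zero (by exact_mod_cast hl.ne')
        (norm_pos_iff.1 (by linarith [hYn.2]))
      have ht0' : t ≠ 0 := norm_pos_iff.1 (by linarith)
      set P' := Pq C₀ qA jA MA YA qB jB MB YB l s with hP'
      have heq : v * P' ^ (1 / 4 : ℂ) = u t :=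
        root_cmp hl hC0 hv0 ht0' (by rw [hP', Pq, m1, m2]) rfl (k1.trans (by linarith))
          ((hnear t ⟨h3, by linarith, h5⟩).trans (by linarith)) hYt (by linarith)
      rw [m2, m3, heq] at k2
      simp only [hf]
      rw [k2]
      ring
    -- identity theorem
    have hfan : AnalyticOnNhd ℂ f (Tz (κ' / 10) ρ (R * l)) := hfd.analyticOnNhd (Tz_open hRl)
    have hz0 : ((-(3 / 2 * R * l) : ℝ) : ℂ) ∈ Tz (κ' / 10) ρ (R * l) ∧
        |((-(3 / 2 * R * l) : ℝ) : ℂ).im| < κ' / 8 * l ∧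
        -(2 * R * l) < ((-(3 / 2 * R * l) : ℝ) : ℂ).re := by
      have hRl' : 0 < R * l := by positivity
      refine ⟨⟨?_, ?_, ?_⟩, ?_, ?_⟩
      · rw [Complex.ofReal_re]; linarith
      · rw [Complex.ofReal_re]; linarith
      · rw [Complex.ofReal_im, Complex.ofReal_re, abs_zero, abs_neg]
        have : 0 < |3 / 2 * R * l| := abs_pos.2 (by positivity)
        positivity
      · rw [Complex.ofReal_im, abs_zero]; positivity
      · rw [Complex.ofReal_re]; linarith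
    have hEq : EqOn f 0 (Tz (κ' / 10) ρ (R * l)) := by
      refine hfan.eqOn_zero_of_preconnected_of_eventuallyEq_zero
        (Tz_convex hRl).isPreconnected hz0.1 ?_
      have o1 : IsOpen {t : ℂ | |t.im| < κ' / 8 * l} :=
        isOpen_lt (continuous_abs.comp Complex.continuous_im) continuous_const
      have o2 : IsOpen {t : ℂ | -(2 * R * l) < t.re} :=
        isOpen_lt continuous_const Complex.continuous_re
      filter_upwards [(Tz_open hRl).mem_nhds hz0.1, o1.mem_nhds hz0.2.1,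
        o2.mem_nhds hz0.2.2] with t h1 h2 h3
      exact hov t h1 h2 h3
    intro t ht
    refine ⟨hnear t ht, ?_⟩
    have h1 : f t = 0 := hEq ht
    simp only [hf] at h1
    exact sub_eq_zero.1 h1
  obtain ⟨l₂, hl₂, hsub2⟩ := (mem_nhdsGT_iff_exists_Ioo_subset).1 main
  refine ⟨ρ, l₂, hρ, by linarith, hl₂, ?_, ?_⟩
  · intro l h1 h2 t h3 h4 h5
    exact (hsub2 ⟨h1, h2⟩ t ⟨h3, by linarith, h5⟩).1
  · intro l h1 h2 t h3 h4 h5
    exact (hsub2 ⟨h1, h2⟩ t ⟨h3, by linarith, h5⟩).2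

/-- **(I4)** -/
theorem trapL (hE : ExtI) (hPF : PosF) : TrapL := by
  intro κ κ' β C cc CC l₀ qA jA MA EA ZA ZcA xA qB jB MB EB ZB ZcB xB C₀ δ G hD
  have hκκ := hD.sA.κ'_lt
  have hκ' := hD.sA.κ'_pos
  have hcc := hD.sA.cone.c_pos
  have hCB : -C₀ ≠ 0 := neg_ne_zero.2 hD.C_ne
  obtain ⟨Ra, a1, a2, a3, Ya⟩ := exists_YF hE hD.sA hD.limA
  obtain ⟨Rb, b1, b2, b3, Yb⟩ := exists_YF hE hD.sB hD.limB
  obtain ⟨Rc, ρA, c1, c2, hGA⟩ := exists_FG hD.sA hD.limA hD.pA hD.C_ne hD.EA_lim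
    (show 0 < κ' / 40 by positivity)
  obtain ⟨Rd, ρB, d1, d2, hGB⟩ := exists_FG hD.sB hD.limB hD.pB hCB hD.EB_lim
    (show 0 < κ' / 40 by positivity)
  set R : ℝ := max Ra (max Rb (max Rc (max Rd (4 / (κ - κ'))))) with hR
  have r1 : Ra ≤ R := le_max_left _ _
  have r2 : Rb ≤ R := (le_max_left _ _).trans (le_max_right _ _)
  have r3 : Rc ≤ R := (le_max_left _ _).trans ((le_max_right _ _).trans (le_max_right _ _))
  have r4 : Rd ≤ R := (le_max_left _ _).trans ((le_max_right _ _).trans ((le_max_right _ _).trans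
    (le_max_right _ _)))
  have r5 : 4 / (κ - κ') ≤ R := (le_max_right _ _).trans ((le_max_right _ _).trans
    ((le_max_right _ _).trans (le_max_right _ _)))
  obtain ⟨YA, hYA⟩ := Ya R r1
  obtain ⟨YB, hYB⟩ := Yb R r2
  have hRκ : 4 ≤ (κ - κ') * R := by
    rw [div_le_iff₀ (by linarith)] at r5
    linarith
  obtain ⟨ρ, l₂, h⟩ := trap_rel hPF hD (a1.trans r1)
    (a2.trans (mul_le_mul_of_nonneg_left r1 hcc.le))
    (a3.trans (mul_le_mul_of_nonneg_left r1 hκ'.le)) hRκ (hGA.mono r3 le_rfl)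
    (hGB.mono r4 le_rfl) c2 d2 hYA hYB
  exact ⟨ρ, R, l₂, h⟩

end Crest.Agent.R102.MelI963
end
end

-- ▼ part R102/MelI1_231

/-!
# T5 MEL-I: leaf (I1) `ELim` (helper231)
-/

set_option autoImplicit false

open Set Filter Topology Metric MeasureTheory
open scoped ComplexConjugate

noncomputable section

namespace Crest.Agent.R102.MelI963

open Crest.Agent.R102.T5R Crest.Agent.R102.Mel Crest.Agent.R102.T5R.L4346

namespace I1

variable {κ β C : ℝ} {q : ℂ → ℂ} {j : ℂ}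

theorem mem_ray {e : ℂ} (he : ‖e‖ = 1) (hei : e.im < κ) {r : ℝ} (hr : 0 < r) (hr1 : r < 1) :
    (r : ℂ) * e ∈ Sg κ := by
  have hn : ‖(r : ℂ) * e‖ = r := by
    rw [norm_mul, Complex.norm_real, he, mul_one, Real.norm_eq_abs, abs_of_pos hr]
  refine ⟨norm_pos_iff.1 (by rw [hn]; exact hr), by rw [hn]; exact hr1, ?_⟩
  rw [hn, Complex.im_ofReal_mul]
  nlinarith

/-- `|v - 1| ≤ K |τ|^β` -/
theorem v_bound (h : EndQ κ (-1) β C q)
    (hlim : Tendsto (fun τ => τ * (j * Complex.exp (q τ))) (𝓝[Sg κ] 0) (𝓝 1)) {τ : ℂ}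
    (hτ : τ ∈ Sg κ) (hs : C / β * ‖τ‖ ^ β ≤ 1) :
    ‖τ * (j * Complex.exp (q τ)) - 1‖ ≤ 2 * (C / β * ‖τ‖ ^ β) := by
  have hτ0 : 0 < ‖τ‖ := norm_pos_iff.2 hτ.1
  set b : ℝ := ‖τ‖ with hb
  set e : ℂ := τ / (b : ℂ) with he
  have hbc : (b : ℂ) ≠ 0 := by exact_mod_cast hτ0.ne'
  have hen : ‖e‖ = 1 := by
    rw [he, norm_div, Complex.norm_real, Real.norm_of_nonneg hτ0.le, ← hb, div_self hτ0.ne']
  have hei : e.im < κ := by
    rw [he, Complex.div_ofReal_im, div_lt_iff₀ hτ0]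
    exact hτ.2.2
  have hbe : (b : ℂ) * e = τ := by rw [he]; field_simp
  set D : ℝ := C / β * b ^ β with hD
  have hb1 : b < 1 := hτ.2.1
  -- for every `a ≤ b`
  have key : ∀ a : ℝ, 0 < a → a ≤ b →
      ‖τ * (j * Complex.exp (q τ)) - (a * e) * (j * Complex.exp (q (a * e)))‖ ≤
        ‖(a * e) * (j * Complex.exp (q (a * e)))‖ * (2 * D) := by
    intro a ha hab
    have h1 := radial h hen hei ha hab hb1
    rw [hbe] at h1
    set δ : ℂ := (q τ - ((-1 : ℝ) : ℂ) * Real.log b) - (q (a * e) - ((-1 : ℝ) : ℂ) * Real.log a)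
      with hδ
    have hac : (a : ℂ) ≠ 0 := by exact_mod_cast ha.ne'
    have e1 : τ * (j * Complex.exp (q τ)) =
        (a * e) * (j * Complex.exp (q (a * e))) * Complex.exp δ := by
      have e2 : Complex.exp δ = Complex.exp (q τ) / Complex.exp (q (a * e)) * (b / a) := by
        rw [hδ]
        have e3 : (q τ - ((-1 : ℝ) : ℂ) * Real.log b) -
            (q (a * e) - ((-1 : ℝ) : ℂ) * Real.log a) =
            q τ - q (a * e) + (Real.log b - Real.log a : ℝ) := by push_cast; ring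
        rw [e3, Complex.exp_add, Complex.exp_sub, ← Real.log_div hτ0.ne' ha.ne',
          ← Complex.ofReal_exp, Real.exp_log (by positivity)]
        push_cast
        ring
      rw [e2]
      have := Complex.exp_ne_zero (q (a * e))
      rw [← hbe]
      field_simp
    rw [e1, ← mul_sub_one, norm_mul]
    have h2 := Complex.norm_exp_sub_one_le (h1.trans hs)
    gcongr
    linarith
  -- `a → 0`
  have hray : Tendsto (fun a : ℝ => (a : ℂ) * e) (𝓝[>] 0) (𝓝[Sg κ] 0) := by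
    rw [tendsto_nhdsWithin_iff]
    constructor
    · have h1 : Continuous (fun l : ℝ => (l : ℂ) * e) := by fun_prop
      have h2 := h1.tendsto 0
      simp only [Complex.ofReal_zero, zero_mul] at h2
      exact h2.mono_left nhdsWithin_le_nhds
    · filter_upwards [Ioo_mem_nhdsGT one_pos] with a ha
      exact mem_ray hen hei ha.1 ha.2
  have hlim2 := hlim.comp hray
  have h3 : Tendsto (fun a : ℝ => ‖τ * (j * Complex.exp (q τ)) -
      (a * e) * (j * Complex.exp (q (a * e)))‖) (𝓝[>] 0)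
      (𝓝 ‖τ * (j * Complex.exp (q τ)) - 1‖) := (tendsto_const_nhds.sub hlim2).norm
  have h4 : Tendsto (fun a : ℝ => ‖(a * e) * (j * Complex.exp (q (a * e)))‖ * (2 * D)) (𝓝[>] 0)
      (𝓝 (‖(1 : ℂ)‖ * (2 * D))) := hlim2.norm.mul_const _
  rw [norm_one, one_mul] at h4
  refine le_of_tendsto_of_tendsto h3 h4 ?_
  filter_upwards [Ioc_mem_nhdsGT hτ0] with a ha
  exact key a ha.1 ha.2

variable {σ : ℂ} {M E Z Zc : ℂ → ℂ}

theorem E_ne (hM : Slope κ q j M) (hP : Pos κ q j σ M E Z Zc) {τ : ℂ} (hτ : τ ∈ Sg κ) :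
    E τ ≠ 0 := by
  intro h0
  have := hP.E_sq τ hτ
  rw [h0] at this
  exact hM.ne τ hτ (by rw [← this]; simp)

/-- `E' = j e^q E` -/
theorem E_der (hM : Slope κ q j M) (hP : Pos κ q j σ M E Z Zc) {τ : ℂ} (hτ : τ ∈ Sg κ) :
    HasDerivAt E (j * Complex.exp (q τ) * E τ) τ := by
  have hopen := isOpen_Sg κ
  have hE : HasDerivAt E (deriv E τ) τ :=
    (hP.E_diff.differentiableAt (hopen.mem_nhds hτ)).hasDerivAt
  have h1 : HasDerivAt (fun t => E t ^ 2) (2 * E τ * deriv E τ) τ := by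
    have := hE.fun_pow 2
    simpa using this
  have h2 : HasDerivAt M (2 * j * Complex.exp (q τ) * M τ) τ := by
    rw [← hM.der τ hτ]
    exact (hM.diff.differentiableAt (hopen.mem_nhds hτ)).hasDerivAt
  have h3 : (fun t => E t ^ 2) =ᶠ[𝓝 τ] M := by
    filter_upwards [hopen.mem_nhds hτ] with t ht
    exact hP.E_sq t ht
  have h4 := h1.congr_of_eventuallyEq h3.symm
  have h5 := h4.unique h2
  have h6 := hP.E_sq τ hτ
  have h7 := E_ne hM hP hτ
  have h8 : deriv E τ = j * Complex.exp (q τ) * E τ := by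
    have : 2 * E τ * (deriv E τ - j * Complex.exp (q τ) * E τ) = 0 := by
      rw [← h6] at h5
      linear_combination h5
    rcases mul_eq_zero.1 this with h | h
    · exact absurd (mul_eq_zero.1 h) (by simp [h7])
    · exact sub_eq_zero.1 h
  rw [← h8]
  exact hE

/-- the ratio formula along a segment -/
theorem seg_ratio (h : EndQ κ (-1) β C q) (hM : Slope κ q j M) (hP : Pos κ q j σ M E Z Zc)
    {x y : ℂ} (hseg : ∀ u ∈ Icc (0 : ℝ) 1, x + u * (y - x) ∈ Sg κ) :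
    ∃ Er : ℝ → ℂ, Er 0 = 0 ∧
      (∀ u ∈ Icc (0 : ℝ) 1, E (x + u * (y - x)) / (x + u * (y - x)) =
        E x / x * Complex.exp (Er u)) ∧
      ∀ u ∈ Icc (0 : ℝ) 1, HasDerivWithinAt Er ((y - x) / (x + u * (y - x)) *
        ((x + u * (y - x)) * (j * Complex.exp (q (x + u * (y - x)))) - 1)) (Icc 0 1) u := by
  have hx : x ∈ Sg κ := by
    have := hseg 0 ⟨le_rfl, zero_le_one⟩
    simpa using this
  have hopen := isOpen_Sg κ
  have hec : ContinuousOn (fun s : ℝ => Complex.exp (q (x + s * (y - x)))) (Icc (0 : ℝ) 1) :=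
    Complex.continuous_exp.comp_continuousOn (exp_gg_cont h.diff hseg)
  have hslit := seg_slit hx.1 (fun u hu => (hseg u hu).1)
  set Λ : ℝ → ℂ := fun u => Complex.log ((x + u * (y - x)) / x) with hΛ
  have hzd : ∀ u : ℝ, HasDerivAt (fun u : ℝ => x + (u : ℂ) * (y - x)) (y - x) u := by
    intro u
    have h2 : HasDerivAt (fun u : ℝ => (u : ℂ) * (y - x)) (y - x) u := by
      simpa using ((hasDerivAt_id u).ofReal_comp).mul_const (y - x)
    exact h2.const_add x
  have hΛd : ∀ u ∈ Icc (0 : ℝ) 1, HasDerivAt Λ ((y - x) / (x + u * (y - x))) u := by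
    intro u hu
    refine (((hzd u).div_const x).clog_real (hslit u hu)).congr_deriv ?_
    have := (hseg u hu).1
    have := hx.1
    field_simp
  set T : ℝ → ℂ := fun s => ∫ r in (0 : ℝ)..s, Complex.exp (q (x + r * (y - x))) with hT
  have hTd := hasDeriv_prim hec
  set Er : ℝ → ℂ := fun u => j * ((y - x) * T u) - Λ u with hEr
  have hErd : ∀ u ∈ Icc (0 : ℝ) 1, HasDerivWithinAt Er ((y - x) / (x + u * (y - x)) *
        ((x + u * (y - x)) * (j * Complex.exp (q (x + u * (y - x)))) - 1)) (Icc 0 1) u := by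
    intro u hu
    refine ((((hTd u hu).const_mul (y - x)).const_mul j).sub
      (hΛd u hu).hasDerivWithinAt).congr_deriv ?_
    have e0 : ∀ a z E : ℂ, z ≠ 0 → j * (a * E) - a / z = a / z * (z * (j * E) - 1) := by
      intro a z E hz; field_simp
    exact e0 _ _ _ (hseg u hu).1
  have hEr0 : Er 0 = 0 := by simp [hEr, hT, hΛ, hx.1]
  refine ⟨Er, hEr0, ?_, hErd⟩
  -- constancy
  set F : ℝ → ℂ := fun u => E (x + u * (y - x)) / (x + u * (y - x)) * Complex.exp (-(Er u)) with hF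
  have hFd : ∀ u ∈ Icc (0 : ℝ) 1, HasDerivWithinAt F 0 (Icc 0 1) u := by
    intro u hu
    have hz := hseg u hu
    have h1 : HasDerivAt (fun u : ℝ => E (x + u * (y - x)))
        (j * Complex.exp (q (x + u * (y - x))) * E (x + u * (y - x)) * (y - x)) u :=
      HasDerivAt.comp_of_eq u (E_der hM hP hz) (hzd u) rfl
    have h2 := (h1.div (hzd u) hz.1).hasDerivWithinAt (s := Icc 0 1)
    have h3 := (hErd u hu).neg.cexp
    refine (h2.mul h3).congr_deriv ?_
    simp only [Pi.neg_apply]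
    have := hz.1
    have e0 : ∀ z a e E x : ℂ, z ≠ 0 → (j * e * E * a * z - E * a) / z ^ 2 * x +
        E / z * (x * -(a / z * (z * (j * e) - 1))) = 0 := by
      intro z a e E x hz; field_simp; ring
    exact e0 _ _ _ _ _ this
  have hconst : ∀ s ∈ Icc (0 : ℝ) 1, F s = F 0 := by
    have hFc : ContinuousOn F (Icc 0 1) := fun s hs => (hFd s hs).continuousWithinAt
    intro s hs
    refine constant_of_has_deriv_right_zero hFc (fun t ht => ?_) s hs
    exact (hFd t ⟨ht.1, ht.2.le⟩).mono_of_mem_nhdsWithin (Icc_mem_nhdsGE_of_mem ht)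
  intro u hu
  have h1 := hconst u hu
  simp only [hF, hEr0, Complex.ofReal_zero, zero_mul, add_zero, neg_zero, Complex.exp_zero,
    mul_one] at h1
  rw [← h1, mul_assoc, ← Complex.exp_add, neg_add_cancel, Complex.exp_zero, mul_one]

/-- radial ratio -/
theorem radial_ratio (h : EndQ κ (-1) β C q)
    (hlim : Tendsto (fun τ => τ * (j * Complex.exp (q τ))) (𝓝[Sg κ] 0) (𝓝 1))
    (hM : Slope κ q j M) (hP : Pos κ q j σ M E Z Zc) {e : ℂ} (he : ‖e‖ = 1) (hei : e.im < κ)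
    {a b : ℝ} (ha : 0 < a) (hab : a ≤ b) (hb : b < 1) (hs : C / β * b ^ β ≤ 1) :
    ∃ δ : ℂ, ‖δ‖ ≤ 2 * (C / β) / β * b ^ β ∧
      E (b * e) / (b * e) = E (a * e) / (a * e) * Complex.exp δ := by
  have hC := C_nonneg h
  have hβ := h.β_pos
  have hz : ∀ u : ℝ, (a : ℂ) * e + u * (b * e - a * e) = ((a + u * (b - a) : ℝ) : ℂ) * e := by
    intro u; push_cast; ring
  have hr : ∀ u ∈ Icc (0 : ℝ) 1, a ≤ a + u * (b - a) ∧ a + u * (b - a) ≤ b := by
    intro u hu
    have h1 : 0 ≤ u * (b - a) := mul_nonneg hu.1 (by linarith)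
    have h2 : u * (b - a) ≤ b - a := mul_le_of_le_one_left (by linarith) hu.2
    constructor <;> linarith
  have hseg : ∀ u ∈ Icc (0 : ℝ) 1, (a : ℂ) * e + u * (b * e - a * e) ∈ Sg κ := by
    intro u hu
    rw [hz]
    obtain ⟨h1, h2⟩ := hr u hu
    exact mem_ray he hei (by linarith) (by linarith)
  obtain ⟨Er, h0, hfo, hd⟩ := seg_ratio h hM hP hseg
  refine ⟨Er 1, ?_, ?_⟩
  · have key := image_norm_le_of_norm_deriv_right_le_deriv_boundary' (f := Er)
      (f' := fun u : ℝ => (b * e - a * e) / ((a : ℂ) * e + u * (b * e - a * e)) *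
        (((a : ℂ) * e + u * (b * e - a * e)) *
          (j * Complex.exp (q ((a : ℂ) * e + u * (b * e - a * e)))) - 1))
      (a := 0) (b := 1) (B := fun u => 2 * (C / β) / β * (a + u * (b - a)) ^ β)
      (B' := fun u => 2 * (C / β) * ((a + u * (b - a)) ^ (β - 1) * (b - a)))
      (fun u hu => (hd u hu).continuousWithinAt)
      (fun u hu => (hd u ⟨hu.1, hu.2.le⟩).mono_of_mem_nhdsWithin (Icc_mem_nhdsGE_of_mem hu))
      (by
        rw [h0, norm_zero]
        have : 0 ≤ (a + 0 * (b - a)) ^ β := Real.rpow_nonneg (by linarith) _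
        positivity)
      (by
        intro u hu
        obtain ⟨h1, h2⟩ := hr u hu
        have h3 : ContinuousAt (fun u : ℝ => (a + u * (b - a)) ^ β) u :=
          ContinuousAt.rpow_const (by fun_prop) (Or.inl (by linarith))
        exact (h3.const_mul _).continuousWithinAt)
      (by
        intro u hu
        obtain ⟨h1, h2⟩ := hr u ⟨hu.1, hu.2.le⟩
        have h3 : HasDerivAt (fun u : ℝ => a + u * (b - a)) (b - a) u := by
          simpa using ((hasDerivAt_id u).mul_const (b - a)).const_add a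
        have h4 := (h3.rpow_const (p := β) (Or.inl (by linarith))).const_mul (2 * (C / β) / β)
        refine (h4.congr_deriv ?_).hasDerivWithinAt
        field_simp)
      (by
        intro u hu
        have hu' : u ∈ Icc (0 : ℝ) 1 := ⟨hu.1, hu.2.le⟩
        obtain ⟨h1, h2⟩ := hr u hu'
        have hpos : 0 < a + u * (b - a) := by linarith
        have hm := hseg u hu'
        have hn : ‖(a : ℂ) * e + u * (b * e - a * e)‖ = a + u * (b - a) := by
          rw [hz, norm_mul, Complex.norm_real, he, mul_one, Real.norm_of_nonneg hpos.le]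
        have hmono : (a + u * (b - a)) ^ β ≤ b ^ β := Real.rpow_le_rpow hpos.le h2 hβ.le
        have hv := v_bound h hlim hm (by
          rw [hn]
          refine le_trans ?_ hs
          have : 0 ≤ C / β := by positivity
          gcongr)
        rw [hn] at hv
        have hba : ‖(b * e - a * e : ℂ)‖ = b - a := by
          have : (b * e - a * e : ℂ) = ((b - a : ℝ) : ℂ) * e := by push_cast; ring
          rw [this, norm_mul, Complex.norm_real, he, mul_one, Real.norm_of_nonneg (by linarith)]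
        rw [norm_mul, norm_div, hn, hba]
        have h5 : (a + u * (b - a)) ^ (β - 1) = (a + u * (b - a)) ^ β / (a + u * (b - a)) :=
          Real.rpow_sub_one hpos.ne' β
        rw [h5]
        have h6 : 0 ≤ (b - a) / (a + u * (b - a)) := div_nonneg (by linarith) hpos.le
        calc (b - a) / (a + u * (b - a)) * _ ≤
            (b - a) / (a + u * (b - a)) * (2 * (C / β * (a + u * (b - a)) ^ β)) := by gcongr
          _ = _ := by field_simp)
    have h1 := key (right_mem_Icc.2 zero_le_one)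
    rw [show a + 1 * (b - a) = b by ring] at h1
    exact h1
  · have h1 := hfo 1 ⟨zero_le_one, le_rfl⟩
    rw [Complex.ofReal_one, one_mul] at h1
    rw [show (a : ℂ) * e + (b * e - a * e) = b * e by ring] at h1
    exact h1

/-- the segment from `-i r` to a point of norm `r` -/
theorem chord_mem (hκ : 0 < κ) (hκ1 : κ < 1) {x : ℂ} (hx : x ∈ Sg κ) {u : ℝ}
    (hu : u ∈ Icc (0 : ℝ) 1) :
    -Complex.I * (‖x‖ : ℂ) + u * (x - -Complex.I * (‖x‖ : ℂ)) ∈ Sg κ ∧
      (1 - κ) / 2 * ‖x‖ ≤ ‖-Complex.I * (‖x‖ : ℂ) + u * (x - -Complex.I * (‖x‖ : ℂ))‖ ∧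
      ‖-Complex.I * (‖x‖ : ℂ) + u * (x - -Complex.I * (‖x‖ : ℂ))‖ ≤ ‖x‖ := by
  have hx0 : 0 < ‖x‖ := norm_pos_iff.2 hx.1
  set r : ℝ := ‖x‖ with hr
  set z : ℂ := -Complex.I * (r : ℂ) + u * (x - -Complex.I * (r : ℂ)) with hz
  have hzre : z.re = u * x.re := by rw [hz]; simp
  have hzim : z.im = u * x.im - (1 - u) * r := by rw [hz]; simp; ring
  have hxim : x.im < κ * r := hx.2.2
  have hr2 : r ^ 2 = x.re ^ 2 + x.im ^ 2 := by
    rw [hr, Complex.sq_norm, Complex.normSq_apply]; ring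
  have hzn : ‖z‖ ^ 2 = z.re ^ 2 + z.im ^ 2 := by
    rw [Complex.sq_norm, Complex.normSq_apply]; ring
  have hu0 := hu.1
  have hu1 : 0 ≤ 1 - u := by linarith [hu.2]
  have hlow : ((1 - κ) / 2 * r) ^ 2 ≤ ‖z‖ ^ 2 := by
    rw [hzn, hzre, hzim]
    have e1 : (u * x.re) ^ 2 + (u * x.im - (1 - u) * r) ^ 2 =
        u ^ 2 * r ^ 2 + (1 - u) ^ 2 * r ^ 2 - 2 * (u * (1 - u)) * (x.im * r) := by
      rw [hr2]; ring_nf; rw [hr2]; ring
    rw [e1]
    have h1 : x.im * r ≤ κ * r * r := by nlinarith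
    have h2 : 0 ≤ u * (1 - u) := mul_nonneg hu0 hu1
    have h3 : (u * (1 - u)) * (x.im * r) ≤ (u * (1 - u)) * (κ * r * r) := by gcongr
    have h4 : u * (1 - u) ≤ 1 / 4 := by nlinarith [sq_nonneg (2 * u - 1)]
    have h5 : 0 ≤ r ^ 2 := sq_nonneg _
    have h6 : (u * (1 - u)) * ((1 + κ) * r ^ 2) ≤ 1 / 4 * ((1 + κ) * r ^ 2) := by gcongr
    have h7 : (1 - κ) ^ 2 / 4 * r ^ 2 ≤ (1 - κ) / 2 * r ^ 2 := by
      have : (1 - κ) ^ 2 / 4 ≤ (1 - κ) / 2 := by nlinarith
      gcongr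
    nlinarith
  have hlow' : (1 - κ) / 2 * r ≤ ‖z‖ :=
    (pow_le_pow_iff_left₀ (by
      have : 0 < 1 - κ := by linarith
      positivity) (norm_nonneg _) two_ne_zero).1 hlow
  have hzpos : 0 < ‖z‖ := lt_of_lt_of_le (by
    have : 0 < 1 - κ := by linarith
    positivity) hlow'
  have hup : ‖z‖ ≤ r := by
    have e1 : z = ((1 - u : ℝ) : ℂ) * (-Complex.I * (r : ℂ)) + (u : ℂ) * x := by
      rw [hz]; push_cast; ring
    rw [e1]
    refine (norm_add_le _ _).trans ?_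
    rw [norm_mul, norm_mul, norm_mul, norm_neg, Complex.norm_I, Complex.norm_real,
      Complex.norm_real, Complex.norm_real, Real.norm_of_nonneg hu1, Real.norm_of_nonneg hu0,
      Real.norm_of_nonneg hx0.le, ← hr]
    linarith
  refine ⟨⟨norm_pos_iff.1 hzpos, hup.trans_lt hx.2.1, ?_⟩, hlow', hup⟩
  -- the sector condition
  by_cases hneg : x.im ≤ 0
  · have h1 : z.im ≤ 0 := by
      rw [hzim]
      nlinarith [mul_nonneg hu1 hx0.le]
    have : 0 < κ * ‖z‖ := by positivity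
    linarith
  · push Not at hneg
    have h1 : z.im ≤ u * x.im := by
      rw [hzim]; nlinarith [mul_nonneg hu1 hx0.le]
    by_cases hz0 : z.im ≤ 0
    · have : 0 < κ * ‖z‖ := by positivity
      linarith
    push Not at hz0
    -- `x.im ^ 2 (1 - κ²) < κ² x.re²`
    have h2 : x.im ^ 2 * (1 - κ ^ 2) < κ ^ 2 * x.re ^ 2 := by
      have : x.im ^ 2 < (κ * r) ^ 2 := by
        apply pow_lt_pow_left₀ hxim hneg.le two_ne_zero
      nlinarith
    have hu0' : 0 < u := by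
      rcases hu0.lt_or_eq with h | h
      · exact h
      · rw [hzim, ← h] at hz0; linarith
    have h3 : z.im ^ 2 * (1 - κ ^ 2) < κ ^ 2 * z.re ^ 2 := by
      have h4 : z.im ^ 2 ≤ (u * x.im) ^ 2 := pow_le_pow_left₀ hz0.le h1 2
      have h5 : 0 < 1 - κ ^ 2 := by nlinarith
      calc z.im ^ 2 * (1 - κ ^ 2) ≤ (u * x.im) ^ 2 * (1 - κ ^ 2) := by gcongr
        _ = u ^ 2 * (x.im ^ 2 * (1 - κ ^ 2)) := by ring
        _ < u ^ 2 * (κ ^ 2 * x.re ^ 2) := by gcongr
        _ = κ ^ 2 * z.re ^ 2 := by rw [hzre]; ring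
    have h6 : z.im ^ 2 < (κ * ‖z‖) ^ 2 := by
      rw [mul_pow, hzn]; nlinarith
    exact lt_of_pow_lt_pow_left₀ 2 (by positivity) h6

/-- chord ratio -/
theorem chord_ratio (h : EndQ κ (-1) β C q)
    (hlim : Tendsto (fun τ => τ * (j * Complex.exp (q τ))) (𝓝[Sg κ] 0) (𝓝 1))
    (hM : Slope κ q j M) (hP : Pos κ q j σ M E Z Zc) {x : ℂ} (hx : x ∈ Sg κ)
    (hs : C / β * ‖x‖ ^ β ≤ 1) :
    ∃ δ : ℂ, ‖δ‖ ≤ 8 / (1 - κ) * (C / β) * ‖x‖ ^ β ∧
      E x / x = E (-Complex.I * (‖x‖ : ℂ)) / (-Complex.I * (‖x‖ : ℂ)) * Complex.exp δ := by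
  have hC := C_nonneg h
  have hβ := h.β_pos
  have hκ := h.κ_pos
  have hκ1 : 0 < 1 - κ := by linarith [h.κ_lt]
  have hx0 : 0 < ‖x‖ := norm_pos_iff.2 hx.1
  have hmem := fun (u : ℝ) (hu : u ∈ Icc (0 : ℝ) 1) => chord_mem hκ h.κ_lt hx hu
  obtain ⟨Er, h0, hfo, hd⟩ := seg_ratio h hM hP (fun u hu => (hmem u hu).1)
  refine ⟨Er 1, ?_, ?_⟩
  · have key := norm_image_sub_le_of_norm_deriv_le_segment_01' (f := Er)
      (C := 8 / (1 - κ) * (C / β) * ‖x‖ ^ β) (fun u hu => hd u hu) (fun u hu => ?_)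
    · rwa [h0, sub_zero] at key
    · obtain ⟨m1, m2, m3⟩ := hmem u ⟨hu.1, hu.2.le⟩
      set z : ℂ := -Complex.I * (‖x‖ : ℂ) + u * (x - -Complex.I * (‖x‖ : ℂ)) with hz
      have hzpos : 0 < ‖z‖ := norm_pos_iff.2 m1.1
      have hmono : ‖z‖ ^ β ≤ ‖x‖ ^ β := Real.rpow_le_rpow hzpos.le m3 hβ.le
      have hv := v_bound h hlim m1 (by
        refine le_trans ?_ hs
        have : 0 ≤ C / β := by positivity
        gcongr)
      have hnum : ‖x - -Complex.I * (‖x‖ : ℂ)‖ ≤ 2 * ‖x‖ := by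
        refine (norm_sub_le _ _).trans ?_
        rw [norm_mul, norm_neg, Complex.norm_I, one_mul, Complex.norm_real, norm_norm]
        linarith
      rw [norm_mul, norm_div]
      have h4 : ‖x - -Complex.I * (‖x‖ : ℂ)‖ / ‖z‖ ≤ 4 / (1 - κ) := by
        rw [div_le_div_iff₀ hzpos hκ1]
        nlinarith
      have hCβ : 0 ≤ C / β := by positivity
      calc ‖x - -Complex.I * (‖x‖ : ℂ)‖ / ‖z‖ * ‖z * (j * Complex.exp (q z)) - 1‖
          ≤ 4 / (1 - κ) * (2 * (C / β * ‖z‖ ^ β)) := by gcongr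
        _ ≤ 4 / (1 - κ) * (2 * (C / β * ‖x‖ ^ β)) := by gcongr
        _ = _ := by ring
  · have h1 := hfo 1 ⟨zero_le_one, le_rfl⟩
    rw [Complex.ofReal_one, one_mul] at h1
    rw [show -Complex.I * (‖x‖ : ℂ) + (x - -Complex.I * (‖x‖ : ℂ)) = x by ring] at h1
    exact h1

end I1

open I1 in
/-- **(I1)** -/
theorem eLim : ELim := by
  intro κ β C q j σ M E Z Zc hj h hlim hM hP
  have hC := C_nonneg h
  have hβ := h.β_pos
  have hκ := h.κ_pos
  have hκ1 : 0 < 1 - κ := by linarith [h.κ_lt]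
  have hCβ : 0 ≤ C / β := by positivity
  set A1 : ℝ := 2 * (C / β) / β with hA1
  set A2 : ℝ := 8 / (1 - κ) * (C / β) with hA2
  have hA10 : 0 ≤ A1 := by positivity
  have hA20 : 0 ≤ A2 := by positivity
  -- powers tend to zero
  have hpow : Tendsto (fun r : ℝ => r ^ β) (𝓝[>] 0) (𝓝 0) := by
    have h1 : ContinuousAt (fun t : ℝ => t ^ β) 0 := Real.continuousAt_rpow_const 0 β (Or.inr hβ.le)
    have h2 := h1.tendsto
    simp only [Real.zero_rpow hβ.ne'] at h2
    exact h2.mono_left nhdsWithin_le_nhds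
  have hpowc : ∀ A ε : ℝ, 0 < ε → ∀ᶠ r : ℝ in 𝓝[>] 0, A * r ^ β < ε := by
    intro A ε hε
    have h1 := hpow.const_mul A
    rw [mul_zero] at h1
    exact h1.eventually (gt_mem_nhds hε)
  obtain ⟨r1, ⟨⟨hs1, hs2⟩, hs3⟩, hr12⟩ := ((((hpowc (C / β) 1 one_pos).and
    (hpowc A1 1 one_pos)).and (hpowc A2 1 one_pos)).and
    (Ioo_mem_nhdsGT (show (0 : ℝ) < 1 / 2 by norm_num))).exists
  have hr1pos : 0 < r1 := hr12.1
  have hr1h : r1 < 1 / 2 := hr12.2
  have hmono : ∀ a b : ℝ, 0 < a → a ≤ b → a ^ β ≤ b ^ β := fun a b ha hab =>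
    Real.rpow_le_rpow ha.le hab hβ.le
  set e0 : ℂ := -Complex.I with he0
  have he0n : ‖e0‖ = 1 := by rw [he0, norm_neg, Complex.norm_I]
  have he0i : e0.im < κ := by rw [he0]; simp; linarith
  set φ : ℝ → ℂ := fun r => E (r * e0) / (r * e0) with hφ
  have hrad : ∀ a b : ℝ, 0 < a → a ≤ b → b ≤ r1 →
      ∃ δ : ℂ, ‖δ‖ ≤ A1 * b ^ β ∧ ‖δ‖ ≤ 1 ∧ φ b = φ a * Complex.exp δ := by
    intro a b ha hab hb
    have hb0 : 0 < b := by linarith
    have m1 := hmono b r1 hb0 hb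
    obtain ⟨δ, hδ, hδe⟩ := radial_ratio h hlim hM hP he0n he0i ha hab (by linarith)
      (by nlinarith)
    refine ⟨δ, hδ, ?_, hδe⟩
    refine hδ.trans ?_
    nlinarith
  have hexp1 : Real.exp 1 ≤ 3 := by
    have := Real.exp_one_lt_d9
    linarith
  set m0 : ℝ := ‖φ r1‖ with hm0
  have hm0pos : 0 < m0 := by
    rw [hm0, norm_pos_iff]
    have hmem : (r1 : ℂ) * e0 ∈ Sg κ := mem_ray he0n he0i hr1pos (by linarith)
    exact div_ne_zero (E_ne hM hP hmem) hmem.1
  have hbds : ∀ a : ℝ, 0 < a → a ≤ r1 → ‖φ a‖ ≤ 3 * m0 ∧ m0 / 3 ≤ ‖φ a‖ := by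
    intro a ha har
    obtain ⟨δ, -, hδ, hδe⟩ := hrad a r1 ha har le_rfl
    have h1 : m0 = ‖φ a‖ * ‖Complex.exp δ‖ := by rw [hm0, hδe, norm_mul]
    have h2 : ‖Complex.exp δ‖ ≤ 3 := by
      rw [Complex.norm_exp]
      refine (Real.exp_le_exp.2 ((Complex.re_le_norm δ).trans hδ)).trans hexp1
    have h3 : 1 / 3 ≤ ‖Complex.exp δ‖ := by
      rw [Complex.norm_exp]
      have h4 : -1 ≤ δ.re := by
        have := (abs_le.1 (Complex.abs_re_le_norm δ)).1
        linarith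
      have h5 : Real.exp (-1) ≤ Real.exp δ.re := Real.exp_le_exp.2 h4
      refine le_trans ?_ h5
      rw [Real.exp_neg, ← one_div]
      exact one_div_le_one_div_of_le (Real.exp_pos _) hexp1
    have h0 := norm_nonneg (φ a)
    constructor
    · nlinarith
    · nlinarith
  have hdiff : ∀ a b : ℝ, 0 < a → a ≤ b → b ≤ r1 → ‖φ b - φ a‖ ≤ 6 * m0 * A1 * b ^ β := by
    intro a b ha hab hb
    obtain ⟨δ, hδ, hδ1, hδe⟩ := hrad a b ha hab hb
    rw [hδe, ← mul_sub_one, norm_mul]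
    have h1 := Complex.norm_exp_sub_one_le hδ1
    have h2 := (hbds a ha (hab.trans hb)).1
    calc ‖φ a‖ * ‖Complex.exp δ - 1‖ ≤ (3 * m0) * (2 * (A1 * b ^ β)) := by
          gcongr
          linarith
      _ = _ := by ring
  -- the limit
  obtain ⟨C₀, hC₀⟩ : ∃ C₀ : ℂ, Tendsto φ (𝓝[>] 0) (𝓝 C₀) := by
    rw [← cauchy_map_iff_exists_tendsto, Metric.cauchy_iff]
    refine ⟨inferInstance, fun ε hε => ?_⟩
    obtain ⟨b, hb⟩ := ((hpowc (6 * m0 * A1) ε hε).and
      (Ioo_mem_nhdsGT hr1pos)).exists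
    refine ⟨φ '' Ioo 0 b, image_mem_map (Ioo_mem_nhdsGT hb.2.1), ?_⟩
    have hsym : ∀ x ∈ Ioo (0 : ℝ) b, ∀ y ∈ Ioo (0 : ℝ) b, x ≤ y → ‖φ y - φ x‖ < ε := by
      intro x hx y hy hxy
      have h1 := hdiff x y hx.1 hxy (by linarith [hy.2, hb.2.2])
      have h2 := hmono y b hy.1 hy.2.le
      have h3 : 6 * m0 * A1 * y ^ β ≤ 6 * m0 * A1 * b ^ β := by gcongr
      linarith [hb.1]
    rintro _ ⟨x, hx, rfl⟩ _ ⟨y, hy, rfl⟩
    rcases le_total x y with hxy | hxy
    · rw [dist_comm, dist_eq_norm]; exact hsym x hx y hy hxy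
    · rw [dist_eq_norm]; exact hsym y hy x hx hxy
  have hC₀ne : C₀ ≠ 0 := by
    have h1 : m0 / 3 ≤ ‖C₀‖ := by
      refine ge_of_tendsto hC₀.norm ?_
      filter_upwards [Ioc_mem_nhdsGT hr1pos] with a ha
      exact (hbds a ha.1 ha.2).2
    exact norm_pos_iff.1 (by linarith)
  -- full limit
  have hnorm : Tendsto (fun τ : ℂ => ‖τ‖) (𝓝[Sg κ] 0) (𝓝[>] 0) := by
    rw [tendsto_nhdsWithin_iff]
    constructor
    · have h2 := (continuous_norm (E := ℂ)).tendsto 0
      rw [norm_zero] at h2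
      exact h2.mono_left nhdsWithin_le_nhds
    · filter_upwards [self_mem_nhdsWithin] with τ hτ
      exact norm_pos_iff.2 hτ.1
  have hfull : Tendsto (fun τ => E τ / τ) (𝓝[Sg κ] 0) (𝓝 C₀) := by
    have h1 := hC₀.comp hnorm
    have h2 : Tendsto (fun τ : ℂ => E τ / τ - φ ‖τ‖) (𝓝[Sg κ] 0) (𝓝 0) := by
      have h3 := ((hpow.const_mul (6 * m0 * A2)).comp hnorm)
      rw [mul_zero] at h3
      refine squeeze_zero_norm' ?_ h3
      filter_upwards [self_mem_nhdsWithin, hnorm (Ioc_mem_nhdsGT hr1pos)] with τ hτ hτr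
      simp only [mem_preimage] at hτr
      have m1 := hmono ‖τ‖ r1 hτr.1 hτr.2
      obtain ⟨δ, hδ, hδe⟩ := chord_ratio h hlim hM hP hτ (by nlinarith)
      have hδ' : ‖δ‖ ≤ A2 * ‖τ‖ ^ β := hδ
      have hδ1 : ‖δ‖ ≤ 1 := by nlinarith
      have e1 : φ ‖τ‖ = E (-Complex.I * (‖τ‖ : ℂ)) / (-Complex.I * (‖τ‖ : ℂ)) := by
        simp only [hφ, he0]
        rw [mul_comm (‖τ‖ : ℂ)]
      simp only [Function.comp]
      rw [hδe, ← e1, ← mul_sub_one, norm_mul]
      have h4 := Complex.norm_exp_sub_one_le hδ1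
      have h5 := (hbds ‖τ‖ hτr.1 hτr.2).1
      calc ‖φ ‖τ‖‖ * ‖Complex.exp δ - 1‖ ≤ (3 * m0) * (2 * (A2 * ‖τ‖ ^ β)) := by
            gcongr
            linarith
        _ = _ := by ring
    have h3 := h2.add h1
    simp only [zero_add, Function.comp, sub_add_cancel] at h3
    exact h3
  refine ⟨C₀, hC₀ne, hfull, ?_⟩
  have h1 := hlim.mul hfull
  rw [one_mul] at h1
  refine h1.congr' ?_
  filter_upwards [self_mem_nhdsWithin] with τ hτ
  rw [(E_der hM hP hτ).deriv]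
  have := hτ.1
  field_simp

end Crest.Agent.R102.MelI963
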