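import Mathlib
import Crest.Agent.R102.MelIDefs_963
import Crest.Agent.R102.MelA_231

-- ▼ part R102/MelI2_519
section

/-!
# Row 102, T5-MEL-I, (I2) `PosF`: the position formulas (helper519)
-/

set_option autoImplicit false

open Complex Metric Set Filter Topology

namespace Crest.Agent.R102.MelI519

open Crest.Agent.R102.T5R Crest.Agent.R102.Mel Crest.Agent.R102.MelI963

/-- `E = sqrt M` solves `E' = j e^q E` -/
lemma E_slope {κ : ℝ} {q : ℂ → ℂ} {j σ : ℂ} {M E Z Zc : ℂ → ℂ} (hM : Slope κ q j M)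
    (hP : Pos κ q j σ M E Z Zc) : Slope κ q (j / 2) E := by
  have hopen := L4346.isOpen_Sg κ
  have hne : ∀ τ ∈ Sg κ, E τ ≠ 0 := by
    intro τ hτ h0
    have := hP.E_sq τ hτ
    rw [h0, zero_pow two_ne_zero] at this
    exact hM.ne τ hτ this.symm
  refine ⟨hP.E_diff, hne, fun τ hτ => ?_⟩
  have hd := hP.E_diff.differentiableAt (hopen.mem_nhds hτ)
  have h1 : HasDerivAt (fun τ => E τ ^ 2) (2 * E τ * deriv E τ) τ := by
    have := hd.hasDerivAt.fun_pow 2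
    simpa using this
  have h2 : (fun τ => E τ ^ 2) =ᶠ[𝓝 τ] M := by
    filter_upwards [hopen.mem_nhds hτ] with τ' h using hP.E_sq τ' h
  have h3 := h2.deriv_eq
  rw [h1.deriv, hM.der τ hτ, ← hP.E_sq τ hτ] at h3
  have h4 : 2 * E τ ≠ 0 := mul_ne_zero two_ne_zero (hne τ hτ)
  apply mul_left_cancel₀ h4
  rw [h3]; ring

/-- `E` along a segment -/
lemma E_seg {κ : ℝ} {q : ℂ → ℂ} {c : ℂ} {E : ℂ → ℂ} {x y : ℂ}
    (hq : DifferentiableOn ℂ q (Sg κ)) (hE : Slope κ q (c / 2) E)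
    (hseg : ∀ u ∈ Icc (0 : ℝ) 1, x + u * (y - x) ∈ Sg κ) {s : ℝ} (hs : s ∈ Icc (0 : ℝ) 1) :
    E (x + s * (y - x)) = E x * exp (c * ((y - x) * ∫ r in (0 : ℝ)..s,
      exp (q (x + r * (y - x))))) := by
  have h1 := slope_seg (x := x) (y := x + s * (y - x)) hq hE (fun u hu => by
    have := hseg (u * s) ⟨mul_nonneg hu.1 hs.1, mul_le_one₀ hu.2 hs.1 hs.2⟩
    rw [show x + (u : ℂ) * (x + s * (y - x) - x) = x + ((u * s : ℝ) : ℂ) * (y - x) by
      push_cast; ring]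
    exact this)
  rw [h1]
  congr 2
  have h2 := intervalIntegral.smul_integral_comp_mul_left (a := 0) (b := 1)
    (fun r : ℝ => exp (q (x + r * (y - x)))) s
  simp only [mul_zero, mul_one] at h2
  rw [← h2, Complex.real_smul]
  have h3 : (∫ s_1 in (0 : ℝ)..1, exp (q (x + (s_1 : ℂ) * (x + s * (y - x) - x)))) =
      ∫ x_1 in (0 : ℝ)..1, exp (q (x + ((s * x_1 : ℝ) : ℂ) * (y - x))) := by
    refine intervalIntegral.integral_congr fun u _ => ?_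
    congr 3
    push_cast; ring
  rw [h3]; ring

/-- position along a segment -/
lemma Z_seg {κ : ℝ} {q : ℂ → ℂ} {c σ : ℂ} {E Z : ℂ → ℂ} {x y : ℂ}
    (hq : DifferentiableOn ℂ q (Sg κ)) (hE : Slope κ q (c / 2) E)
    (hZ : DifferentiableOn ℂ Z (Sg κ))
    (hZd : ∀ τ ∈ Sg κ, deriv Z τ = σ * exp (-2 * q τ) * E τ)
    (hseg : ∀ u ∈ Icc (0 : ℝ) 1, x + u * (y - x) ∈ Sg κ) :
    Z y - Z x = σ * exp (-2 * q x) * E x * (y - x) * Pj q c x y := by
  have hopen := L4346.isOpen_Sg κ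
  have hline : ∀ s : ℝ, HasDerivAt (fun s : ℝ => x + s * (y - x)) (y - x) s := by
    intro s
    have h1 : HasDerivAt (fun s : ℝ => (s : ℂ) * (y - x)) (y - x) s := by
      simpa using ((hasDerivAt_id s).ofReal_comp).mul_const (y - x)
    exact h1.const_add x
  have hcont : ∀ F : ℂ → ℂ, DifferentiableOn ℂ F (Sg κ) →
      ContinuousOn (fun s : ℝ => F (x + s * (y - x))) (uIcc 0 1) := by
    intro F hF
    rw [uIcc_of_le zero_le_one]
    exact hF.continuousOn.comp (by fun_prop) fun s hs => hseg s hs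
  have hc : ContinuousOn (fun s : ℝ => σ * exp (-2 * q (x + s * (y - x))) *
      E (x + s * (y - x))) (uIcc 0 1) :=
    (continuousOn_const.mul (Complex.continuous_exp.comp_continuousOn
      (continuousOn_const.mul (hcont q hq)))).mul (hcont E hE.diff)
  have h1 := intervalIntegral.integral_eq_sub_of_hasDerivAt (a := 0) (b := 1)
    (f := fun s : ℝ => Z (x + s * (y - x)))
    (f' := fun s : ℝ => σ * exp (-2 * q (x + s * (y - x))) * E (x + s * (y - x)) * (y - x))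
    (fun s hs => by
      rw [uIcc_of_le zero_le_one] at hs
      refine HasDerivAt.comp_of_eq s ?_ (hline s) rfl
      have := (hZ.differentiableAt (hopen.mem_nhds (hseg s hs))).hasDerivAt
      rwa [hZd _ (hseg s hs)] at this)
    ((hc.mul continuousOn_const).intervalIntegrable)
  have e2 : x + ((1 : ℝ) : ℂ) * (y - x) = y := by push_cast; ring
  have e3 : x + ((0 : ℝ) : ℂ) * (y - x) = x := by push_cast; ring
  simp only [e2, e3] at h1
  rw [← h1]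
  unfold Pj
  rw [← intervalIntegral.integral_const_mul]
  refine intervalIntegral.integral_congr fun s hs => ?_
  rw [uIcc_of_le zero_le_one] at hs
  rw [E_seg hq hE hseg hs]
  have e4 : exp (-2 * q (x + s * (y - x))) =
      exp (-2 * q x) * exp (-2 * (q (x + s * (y - x)) - q x)) := by
    rw [← Complex.exp_add]; congr 1; ring
  rw [e4]; ring

/-- **(I2)** -/
theorem posF : PosF := by
  intro κ q j σ M E Z Zc x y hq hM hP hseg
  have hE := E_slope hM hP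
  have hopen := L4346.isOpen_Sg κ
  refine ⟨Z_seg hq hE hP.Z_diff hP.Z_der hseg, ?_⟩
  have hEi : Slope κ q (-j / 2) (fun τ => (E τ)⁻¹) := by
    refine ⟨hP.E_diff.inv hE.ne, fun τ hτ => inv_ne_zero (hE.ne τ hτ), fun τ hτ => ?_⟩
    have hd := hP.E_diff.differentiableAt (hopen.mem_nhds hτ)
    have h1 : deriv (fun τ => (E τ)⁻¹) τ = -deriv E τ / E τ ^ 2 :=
      (hd.hasDerivAt.inv (hE.ne τ hτ)).deriv
    rw [h1, hE.der τ hτ]
    have := hE.ne τ hτ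
    field_simp
  have h2 := Z_seg (c := -j) (σ := σ) hq hEi hP.Zc_diff (fun τ hτ => by
    rw [hP.Zc_der τ hτ, div_eq_mul_inv]) hseg
  rw [h2, div_eq_mul_inv]

end Crest.Agent.R102.MelI519
end

-- ▼ part R102/MelN_963
section

/-!
# Row 102, part (C), [T5] MEL, (ML-N) (helper963)

Isotropic coordinates: a line is `a = m b + k`, the mirror `C` is `a = G b`, reflection
`m m' = G'(b)^2`.  If the lines `l_B (t, w)` reflected in `C` are the lines `l_A (t + w, w)`, both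
families even in `w`, then `l_B (t, 0)` is tangent to `C` (`tangent_of_even`); hence the curve
enveloped by `l_B (·, 0)` is `C` (`same_curve`).
-/

set_option autoImplicit false

open Set Filter Topology Metric

noncomputable section

namespace Crest.Agent.R102.MelN963

/-- if `G b₁ - G b₂ = m (b₁ - b₂)` with `b₁, b₂` near `b₀` and `m` near `m₀ ≠ G' b₀` then `b₁ = b₂` -/
lemma inj_of_strict {G : ℂ → ℂ} {b₀ m₀ : ℂ} (hG : AnalyticAt ℂ G b₀) (hm : m₀ ≠ deriv G b₀) :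
    ∀ᶠ x in 𝓝 ((b₀, b₀, m₀) : ℂ × ℂ × ℂ), G x.1 - G x.2.1 = x.2.2 * (x.1 - x.2.1) →
      x.1 = x.2.1 := by
  have hs := hG.hasStrictDerivAt
  set c : ℝ := ‖deriv G b₀ - m₀‖ with hc
  have hc0 : 0 < c := norm_pos_iff.2 (sub_ne_zero.2 (Ne.symm hm))
  have h1 : ∀ᶠ x in 𝓝 ((b₀, b₀) : ℂ × ℂ),
      ‖G x.1 - G x.2 - (x.1 - x.2) * deriv G b₀‖ ≤ c / 3 * ‖x.1 - x.2‖ := by
    have := (hasStrictDerivAt_iff_hasStrictFDerivAt.1 hs).isLittleO.def (c := c / 3) (by positivity)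
    filter_upwards [this] with x hx
    simpa using hx
  have h2 : Tendsto (fun x : ℂ × ℂ × ℂ => (x.1, x.2.1)) (𝓝 (b₀, b₀, m₀)) (𝓝 (b₀, b₀)) := by
    have : Continuous (fun x : ℂ × ℂ × ℂ => (x.1, x.2.1)) := by fun_prop
    exact this.tendsto (b₀, b₀, m₀)
  have h3 : ∀ᶠ x in 𝓝 ((b₀, b₀, m₀) : ℂ × ℂ × ℂ), ‖x.2.2 - m₀‖ < c / 3 := by
    have : Continuous (fun x : ℂ × ℂ × ℂ => ‖x.2.2 - m₀‖) := by fun_prop
    have h := this.tendsto (b₀, b₀, m₀)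
    simp only [sub_self, norm_zero] at h
    exact h.eventually (gt_mem_nhds (by positivity))
  filter_upwards [h2.eventually h1, h3] with x a1 a2 heq
  by_contra hne
  have hp : 0 < ‖x.1 - x.2.1‖ := norm_pos_iff.2 (sub_ne_zero.2 hne)
  rw [heq] at a1
  have e1 : x.2.2 * (x.1 - x.2.1) - (x.1 - x.2.1) * deriv G b₀ =
      (x.1 - x.2.1) * ((x.2.2 - m₀) - (deriv G b₀ - m₀)) := by ring
  rw [e1, norm_mul] at a1
  have e2 : c - c / 3 ≤ ‖(x.2.2 - m₀) - (deriv G b₀ - m₀)‖ := by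
    have h4 := norm_sub_norm_le (deriv G b₀ - m₀) (x.2.2 - m₀)
    have h5 : ‖(deriv G b₀ - m₀) - (x.2.2 - m₀)‖ = ‖(x.2.2 - m₀) - (deriv G b₀ - m₀)‖ :=
      norm_sub_rev _ _
    rw [h5] at h4
    linarith
  have e3 : ‖x.1 - x.2.1‖ * (c - c / 3) ≤ c / 3 * ‖x.1 - x.2.1‖ :=
    (mul_le_mul_of_nonneg_left e2 hp.le).trans a1
  nlinarith

/-- **(ML-N)** -/
theorem tangent_of_even {G : ℂ → ℂ} {mA mB kB b : ℂ × ℂ → ℂ} {t₀ : ℂ}
    (hmA : AnalyticAt ℂ mA (t₀, 0)) (hmB : ContinuousAt mB (t₀, 0))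
    (hb : ContinuousAt b (t₀, 0)) (hG : AnalyticAt ℂ G (b (t₀, 0)))
    (eA : ∀ᶠ p in 𝓝 ((t₀, 0) : ℂ × ℂ), mA (p.1, -p.2) = mA p)
    (eB : ∀ᶠ p in 𝓝 ((t₀, 0) : ℂ × ℂ), mB (p.1, -p.2) = mB p ∧ kB (p.1, -p.2) = kB p)
    (on : ∀ᶠ p in 𝓝 ((t₀, 0) : ℂ × ℂ), mB p * b p + kB p = G (b p))
    (law : ∀ᶠ p in 𝓝 ((t₀, 0) : ℂ × ℂ), mA (p.1 + p.2, p.2) * mB p = deriv G (b p) ^ 2)
    (h0 : mB (t₀, 0) ≠ 0) (hne : deriv (fun t => mA (t, 0)) t₀ ≠ 0) :
    mB (t₀, 0) = deriv G (b (t₀, 0)) := by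
  by_contra hcon
  have hinj := inj_of_strict hG hcon
  have hnegc : Continuous (fun p : ℂ × ℂ => (p.1, -p.2)) := by fun_prop
  have hneg : Tendsto (fun p : ℂ × ℂ => (p.1, -p.2)) (𝓝 (t₀, 0)) (𝓝 (t₀, 0)) := by
    simpa using hnegc.tendsto (t₀, 0)
  -- `b` is even
  have hbe : ∀ᶠ p in 𝓝 ((t₀, 0) : ℂ × ℂ), b p = b (p.1, -p.2) := by
    have h1 : Tendsto (fun p : ℂ × ℂ => (b p, b (p.1, -p.2), mB p)) (𝓝 (t₀, 0))
        (𝓝 (b (t₀, 0), b (t₀, 0), mB (t₀, 0))) :=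
      hb.tendsto.prodMk_nhds ((hb.tendsto.comp hneg).prodMk_nhds hmB.tendsto)
    filter_upwards [h1.eventually hinj, on, hneg.eventually on, eB] with p a1 a2 a3 a4
    apply a1
    rw [a4.1, a4.2] at a3
    rw [← a2, ← a3]
    ring
  -- `mA (t + w, w)` is even in `w`
  have hme : ∀ᶠ p in 𝓝 ((t₀, 0) : ℂ × ℂ), mA (p.1 + p.2, p.2) = mA (p.1 - p.2, p.2) := by
    have hsh : Tendsto (fun p : ℂ × ℂ => (p.1 - p.2, p.2)) (𝓝 (t₀, 0)) (𝓝 (t₀, 0)) := by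
      have : Continuous (fun p : ℂ × ℂ => (p.1 - p.2, p.2)) := by fun_prop
      simpa using this.tendsto (t₀, 0)
    have hBne : ∀ᶠ p in 𝓝 ((t₀, 0) : ℂ × ℂ), mB p ≠ 0 := hmB.eventually_ne h0
    filter_upwards [hbe, law, hneg.eventually law, eB, hsh.eventually eA, hBne] with
      p a1 a2 a3 a4 a5 a6
    rw [← a1, ← a2, a4.1] at a3
    have a7 := mul_right_cancel₀ a6 a3
    rw [← sub_eq_add_neg, a5] at a7
    exact a7.symm
  -- derivative at `w = 0`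
  apply hne
  have hd := hmA.differentiableAt.hasFDerivAt
  have hmap1 : HasDerivAt (fun w : ℂ => ((t₀ + w, w) : ℂ × ℂ)) (1, 1) 0 := by
    have h1 : HasDerivAt (fun w : ℂ => t₀ + w) 1 0 := (hasDerivAt_id (0 : ℂ)).const_add t₀
    exact h1.prodMk (hasDerivAt_id (0 : ℂ))
  have hmap2 : HasDerivAt (fun w : ℂ => ((t₀ - w, w) : ℂ × ℂ)) (-1, 1) 0 := by
    have h1 : HasDerivAt (fun w : ℂ => t₀ - w) (-1) 0 := (hasDerivAt_id (0 : ℂ)).const_sub t₀
    exact h1.prodMk (hasDerivAt_id (0 : ℂ))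
  have hmap3 : HasDerivAt (fun t : ℂ => ((t, 0) : ℂ × ℂ)) (1, 0) t₀ :=
    (hasDerivAt_id t₀).prodMk (hasDerivAt_const t₀ (0 : ℂ))
  have hd1 : HasFDerivAt mA (fderiv ℂ mA (t₀, 0)) ((fun w : ℂ => ((t₀ + w, w) : ℂ × ℂ)) 0) := by
    simpa using hd
  have hd2 : HasFDerivAt mA (fderiv ℂ mA (t₀, 0)) ((fun w : ℂ => ((t₀ - w, w) : ℂ × ℂ)) 0) := by
    simpa using hd
  have e1 : HasDerivAt (fun w : ℂ => mA (t₀ + w, w)) (fderiv ℂ mA (t₀, 0) (1, 1)) 0 :=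
    HasFDerivAt.comp_hasDerivAt (f := fun w : ℂ => ((t₀ + w, w) : ℂ × ℂ)) (0 : ℂ) hd1 hmap1
  have e2 : HasDerivAt (fun w : ℂ => mA (t₀ - w, w)) (fderiv ℂ mA (t₀, 0) (-1, 1)) 0 :=
    HasFDerivAt.comp_hasDerivAt (f := fun w : ℂ => ((t₀ - w, w) : ℂ × ℂ)) (0 : ℂ) hd2 hmap2
  have e3 : HasDerivAt (fun t : ℂ => mA (t, 0)) (fderiv ℂ mA (t₀, 0) (1, 0)) t₀ :=
    hd.comp_hasDerivAt t₀ hmap3
  have hev : (fun w : ℂ => mA (t₀ + w, w)) =ᶠ[𝓝 0] fun w => mA (t₀ - w, w) := by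
    have hc : Tendsto (fun w : ℂ => ((t₀, w) : ℂ × ℂ)) (𝓝 0) (𝓝 (t₀, 0)) := by
      have : Continuous (fun w : ℂ => ((t₀, w) : ℂ × ℂ)) := by fun_prop
      exact this.tendsto 0
    exact hc.eventually hme
  have e4 := e1.unique (e2.congr_of_eventuallyEq hev)
  rw [e3.deriv]
  have e5 : ((1, 1) : ℂ × ℂ) - (-1, 1) = (2 : ℂ) • (1, 0) := by ext <;> norm_num
  have e6 : fderiv ℂ mA (t₀, 0) ((2 : ℂ) • ((1, 0) : ℂ × ℂ)) = 0 := by
    rw [← e5, map_sub, e4, sub_self]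
  rw [map_smul, smul_eq_mul] at e6
  exact (mul_eq_zero.1 e6).resolve_left two_ne_zero

/-- the envelope: `C` is the curve enveloped by `l_B (·, 0)` -/
theorem same_curve {G gB : ℂ → ℂ} {mA mB kB b : ℂ × ℂ → ℂ} {β : ℂ → ℂ} {t₀ : ℂ}
    (hmA : AnalyticAt ℂ mA (t₀, 0)) (hmB : AnalyticAt ℂ mB (t₀, 0)) (hkB : AnalyticAt ℂ kB (t₀, 0))
    (hb : AnalyticAt ℂ b (t₀, 0)) (hG : AnalyticAt ℂ G (b (t₀, 0)))
    (hβ : AnalyticAt ℂ β t₀) (hgB : AnalyticAt ℂ gB (β t₀))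
    (eA : ∀ᶠ p in 𝓝 ((t₀, 0) : ℂ × ℂ), mA (p.1, -p.2) = mA p)
    (eB : ∀ᶠ p in 𝓝 ((t₀, 0) : ℂ × ℂ), mB (p.1, -p.2) = mB p ∧ kB (p.1, -p.2) = kB p)
    (on : ∀ᶠ p in 𝓝 ((t₀, 0) : ℂ × ℂ), mB p * b p + kB p = G (b p))
    (law : ∀ᶠ p in 𝓝 ((t₀, 0) : ℂ × ℂ), mA (p.1 + p.2, p.2) * mB p = deriv G (b p) ^ 2)
    (h0 : mB (t₀, 0) ≠ 0) (hne : deriv (fun t => mA (t, 0)) t₀ ≠ 0)
    (hneB : deriv (fun t => mB (t, 0)) t₀ ≠ 0)
    (tan : ∀ᶠ t in 𝓝 t₀, mB (t, 0) = deriv gB (β t) ∧ mB (t, 0) * β t + kB (t, 0) = gB (β t)) :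
    ∀ᶠ t in 𝓝 t₀, b (t, 0) = β t ∧ gB (β t) = G (β t) ∧ mB (t, 0) = deriv G (β t) := by
  have hc : Tendsto (fun t : ℂ => ((t, 0) : ℂ × ℂ)) (𝓝 t₀) (𝓝 (t₀, 0)) := by
    have : Continuous (fun t : ℂ => ((t, 0) : ℂ × ℂ)) := by fun_prop
    exact this.tendsto t₀
  -- tangency for all `t` near `t₀`
  have hmA' : AnalyticAt ℂ (fun t : ℂ => mA (t, 0)) t₀ := by
    have h1 : AnalyticAt ℂ (fun t : ℂ => ((t, 0) : ℂ × ℂ)) t₀ := by fun_prop
    exact AnalyticAt.fun_comp (f := fun t : ℂ => ((t, 0) : ℂ × ℂ)) hmA h1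
  have hmB' : AnalyticAt ℂ (fun t : ℂ => mB (t, 0)) t₀ := by
    have h1 : AnalyticAt ℂ (fun t : ℂ => ((t, 0) : ℂ × ℂ)) t₀ := by fun_prop
    exact AnalyticAt.fun_comp (f := fun t : ℂ => ((t, 0) : ℂ × ℂ)) hmB h1
  have hkB' : AnalyticAt ℂ (fun t : ℂ => kB (t, 0)) t₀ := by
    have h1 : AnalyticAt ℂ (fun t : ℂ => ((t, 0) : ℂ × ℂ)) t₀ := by fun_prop
    exact AnalyticAt.fun_comp (f := fun t : ℂ => ((t, 0) : ℂ × ℂ)) hkB h1
  have hb' : AnalyticAt ℂ (fun t : ℂ => b (t, 0)) t₀ := by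
    have h1 : AnalyticAt ℂ (fun t : ℂ => ((t, 0) : ℂ × ℂ)) t₀ := by fun_prop
    exact AnalyticAt.fun_comp (f := fun t : ℂ => ((t, 0) : ℂ × ℂ)) hb h1
  have hT : ∀ᶠ t in 𝓝 t₀, mB (t, 0) = deriv G (b (t, 0)) := by
    filter_upwards [hc.eventually hmA.eventually_analyticAt,
      hc.eventually hmB.eventually_analyticAt, hc.eventually hb.eventually_analyticAt,
      hc.eventually (hb.continuousAt.eventually hG.eventually_analyticAt),
      hc.eventually eA.eventually_nhds, hc.eventually eB.eventually_nhds,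
      hc.eventually on.eventually_nhds, hc.eventually law.eventually_nhds,
      hmB'.continuousAt.eventually_ne h0, hmA'.deriv.continuousAt.eventually_ne hne]
      with t a1 a2 a3 a4 a5 a6 a7 a8 a9 a10
    exact tangent_of_even a1 a2.continuousAt a3.continuousAt a4 a5 a6 a7 a8 a9 a10
  -- derivative of `kB` in two ways
  have hneB' : ∀ᶠ t in 𝓝 t₀, deriv (fun t => mB (t, 0)) t ≠ 0 :=
    hmB'.deriv.continuousAt.eventually_ne hneB
  have hGan : ∀ᶠ t in 𝓝 t₀, AnalyticAt ℂ G (b (t, 0)) :=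
    hb'.continuousAt.eventually hG.eventually_analyticAt
  have hgan : ∀ᶠ t in 𝓝 t₀, AnalyticAt ℂ gB (β t) :=
    hβ.continuousAt.eventually hgB.eventually_analyticAt
  filter_upwards [hT, hT.eventually_nhds, (hc.eventually on).eventually_nhds, tan,
    tan.eventually_nhds, hneB', hGan, hgan, hmB'.eventually_analyticAt,
    hkB'.eventually_analyticAt, hb'.eventually_analyticAt, hβ.eventually_analyticAt] with
    t a1 a2 a3 a4 a5 a6 a7 a8 a9 a10 a11 a12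
  have d1 := a9.differentiableAt.hasDerivAt
  have d2 := a10.differentiableAt.hasDerivAt
  have d3 := a11.differentiableAt.hasDerivAt
  have d4 := a12.differentiableAt.hasDerivAt
  have d5 : HasDerivAt (fun t => G (b (t, 0))) (deriv G (b (t, 0)) * deriv (fun t => b (t, 0)) t) t :=
    a7.differentiableAt.hasDerivAt.comp t d3
  have d6 : HasDerivAt (fun t => gB (β t)) (deriv gB (β t) * deriv β t) t :=
    a8.differentiableAt.hasDerivAt.comp t d4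
  have f1 := ((d1.mul d3).add d2).unique (d5.congr_of_eventuallyEq (by
    filter_upwards [a3] with x hx using hx))
  have f2 := ((d1.mul d4).add d2).unique (d6.congr_of_eventuallyEq (by
    filter_upwards [a5] with x hx using hx.2))
  have f3 : deriv (fun t => mB (t, 0)) t * (b (t, 0) - β t) = 0 := by
    rw [← a1] at f1
    rw [← a4.1] at f2
    linear_combination f1 - f2
  have f4 : b (t, 0) = β t := by
    have := (mul_eq_zero.1 f3).resolve_left a6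
    exact sub_eq_zero.1 this
  have f5 : mB (t, 0) * b (t, 0) + kB (t, 0) = G (b (t, 0)) := a3.self_of_nhds
  refine ⟨f4, ?_, ?_⟩
  · rw [← a4.2, ← f4, f5]
  · rw [a1, f4]

end Crest.Agent.R102.MelN963
end
end

-- ▼ part R102/MelI5_519
section

/-!
# Row 102, T5-MEL-I, (I5) `JointL` (helper519)

At a point `t₀` of the narrow sector about the negative real axis: the incidence relation of `Trap`
holds jointly near `(t₀, 0)` (identity theorem in `w`), and `MelN963.same_curve` gives the relations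
at `w = 0`.
-/

set_option autoImplicit false

open Complex Metric Set Filter Topology

namespace Crest.Agent.R102.MelI519

open Crest.Agent.R102.T5R Crest.Agent.R102.Mel Crest.Agent.R102.MelI963

lemma Pj_diag (q : ℂ → ℂ) (j x : ℂ) : Pj q j x x = 1 := by
  unfold Pj
  simp

lemma Rj_diag (q : ℂ → ℂ) (j x : ℂ) : Rj q j x x = 1 := by
  unfold Rj
  rw [Pj_diag, Pj_diag, div_one]

lemma pj_an {κ : ℝ} {q : ℂ → ℂ} (hq : DifferentiableOn ℂ q (Sg κ)) (j : ℂ) {x0 : ℂ}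
    (hx0 : x0 ∈ Sg κ) : AnalyticAt ℂ (fun p : ℂ × ℂ => Pj q j p.1 p.2) (x0, x0) := by
  refine pAn κ q j x0 x0 hq (L4346.isOpen_Sg κ) fun u _ => ?_
  rw [sub_self, mul_zero, add_zero]
  exact hx0

lemma rj_an {κ : ℝ} {q : ℂ → ℂ} (hq : DifferentiableOn ℂ q (Sg κ)) (j : ℂ) {x0 : ℂ}
    (hx0 : x0 ∈ Sg κ) : AnalyticAt ℂ (fun p : ℂ × ℂ => Rj q j p.1 p.2) (x0, x0) := by
  have h1 := pj_an hq j hx0
  have h2 := pj_an hq (-j) hx0
  exact h1.div h2 (by simp [Pj_diag])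

/-- near the diagonal -/
lemma near_diag {κ : ℝ} {q : ℂ → ℂ} (hq : DifferentiableOn ℂ q (Sg κ)) (j : ℂ) {x0 : ℂ}
    (hx0 : x0 ∈ Sg κ) : ∀ᶠ p in 𝓝 ((x0, x0) : ℂ × ℂ),
      (∀ u ∈ Icc (0 : ℝ) 1, p.1 + (u : ℂ) * (p.2 - p.1) ∈ Sg κ) ∧ Pj q j p.1 p.2 ≠ 0 ∧
        Pj q (-j) p.1 p.2 ≠ 0 := by
  have h1 : ∀ᶠ p in 𝓝 ((x0, x0) : ℂ × ℂ), Pj q j p.1 p.2 ≠ 0 :=
    (pj_an hq j hx0).continuousAt.eventually_ne (by simp [Pj_diag])
  have h2 : ∀ᶠ p in 𝓝 ((x0, x0) : ℂ × ℂ), Pj q (-j) p.1 p.2 ≠ 0 :=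
    (pj_an hq (-j) hx0).continuousAt.eventually_ne (by simp [Pj_diag])
  obtain ⟨r, hr, hb⟩ := Metric.isOpen_iff.1 (L4346.isOpen_Sg κ) x0 hx0
  have h3 : ball x0 r ×ˢ ball x0 r ∈ 𝓝 ((x0, x0) : ℂ × ℂ) :=
    prod_mem_nhds (ball_mem_nhds x0 hr) (ball_mem_nhds x0 hr)
  filter_upwards [h1, h2, h3] with p a1 a2 a3
  refine ⟨fun u hu => hb ?_, a1, a2⟩
  have h4 := (convex_ball x0 r).add_smul_sub_mem a3.1 a3.2 hu
  simpa using h4

/-- slope of the chord with midpoint time `p.1` -/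
noncomputable def mu (q : ℂ → ℂ) (j : ℂ) (M : ℂ → ℂ) (X : ℂ × ℂ → ℂ) (p : ℂ × ℂ) : ℂ :=
  M (X (p.1 - p.2 / 2, p.2)) * Rj q j (X (p.1 - p.2 / 2, p.2)) (X (p.1 + p.2 / 2, p.2))

/-- offset of the chord -/
noncomputable def ku (q : ℂ → ℂ) (j : ℂ) (M Z Zc : ℂ → ℂ) (X : ℂ × ℂ → ℂ) (p : ℂ × ℂ) : ℂ :=
  Z (X (p.1 + p.2 / 2, p.2)) - mu q j M X p * Zc (X (p.1 + p.2 / 2, p.2))

/-- both ends of a chord are on the line with slope `M x * Rj x y` -/
lemma chord_eq {κ : ℝ} {q : ℂ → ℂ} {j σ : ℂ} {M E Z Zc : ℂ → ℂ}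
    (hq : DifferentiableOn ℂ q (Sg κ)) (hM : Slope κ q j M) (hP : Pos κ q j σ M E Z Zc) {x y : ℂ}
    (hseg : ∀ u ∈ Icc (0 : ℝ) 1, x + (u : ℂ) * (y - x) ∈ Sg κ) (hne : Pj q (-j) x y ≠ 0) :
    Z y - Z x = M x * Rj q j x y * (Zc y - Zc x) := by
  obtain ⟨h4, h5⟩ := posF κ q j σ M E Z Zc x y hq hM hP hseg
  have hx : x ∈ Sg κ := by
    have := hseg 0 ⟨le_rfl, zero_le_one⟩
    simpa using this
  have hE : E x ≠ 0 := (E_slope hM hP).ne x hx
  rw [h4, h5]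
  unfold Rj
  rw [← hP.E_sq x hx]
  field_simp

section Fam

variable {κ : ℝ} {q : ℂ → ℂ} {j : ℂ} {M : ℂ → ℂ} {X : ℂ × ℂ → ℂ} {t₀ : ℂ}

lemma shift_an (hX : AnalyticAt ℂ X (t₀, 0)) (c : ℂ) :
    AnalyticAt ℂ (fun p : ℂ × ℂ => X (p.1 + c * p.2, p.2)) (t₀, 0) := by
  have h1 : AnalyticAt ℂ (fun p : ℂ × ℂ => ((p.1 + c * p.2, p.2) : ℂ × ℂ)) (t₀, 0) :=
    (analyticAt_fst.add (analyticAt_const.mul analyticAt_snd)).prod analyticAt_snd
  exact AnalyticAt.comp_of_eq (f := fun p : ℂ × ℂ => ((p.1 + c * p.2, p.2) : ℂ × ℂ)) hX h1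
    (by simp)

lemma minus_an (hX : AnalyticAt ℂ X (t₀, 0)) :
    AnalyticAt ℂ (fun p : ℂ × ℂ => X (p.1 - p.2 / 2, p.2)) (t₀, 0) := by
  have := shift_an hX (-1 / 2)
  refine this.congr (Eventually.of_forall fun p => ?_)
  simp only
  congr 2
  ring

lemma plus_an (hX : AnalyticAt ℂ X (t₀, 0)) :
    AnalyticAt ℂ (fun p : ℂ × ℂ => X (p.1 + p.2 / 2, p.2)) (t₀, 0) := by
  have := shift_an hX (1 / 2)
  refine this.congr (Eventually.of_forall fun p => ?_)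
  simp only
  congr 2
  ring

lemma mu_an (hq : DifferentiableOn ℂ q (Sg κ)) (hM : DifferentiableOn ℂ M (Sg κ))
    (hX : AnalyticAt ℂ X (t₀, 0)) (hX0 : X (t₀, 0) = t₀) (ht : t₀ ∈ Sg κ) :
    AnalyticAt ℂ (mu q j M X) (t₀, 0) := by
  have h1 := minus_an hX
  have h2 := plus_an hX
  have hMa : AnalyticAt ℂ M t₀ := hM.analyticAt ((L4346.isOpen_Sg κ).mem_nhds ht)
  have h3 : AnalyticAt ℂ (fun p : ℂ × ℂ => M (X (p.1 - p.2 / 2, p.2))) (t₀, 0) :=
    AnalyticAt.comp_of_eq (g := M) (f := fun p : ℂ × ℂ => X (p.1 - p.2 / 2, p.2)) hMa h1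
      (by simp [hX0])
  have h4 : AnalyticAt ℂ (fun p : ℂ × ℂ =>
      Rj q j (X (p.1 - p.2 / 2, p.2)) (X (p.1 + p.2 / 2, p.2))) (t₀, 0) :=
    AnalyticAt.comp_of_eq (g := fun p : ℂ × ℂ => Rj q j p.1 p.2)
      (f := fun p : ℂ × ℂ => (X (p.1 - p.2 / 2, p.2), X (p.1 + p.2 / 2, p.2)))
      (rj_an hq j ht) (h1.prod h2) (by simp [hX0])
  exact h3.mul h4

lemma mu_zero {t : ℂ} (h : X (t, 0) = t) : mu q j M X (t, 0) = M t := by
  unfold mu
  simp [h, Rj_diag]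

/-- eventually near `(t₀, 0)` the chord is near the diagonal -/
lemma chord_near (hX : AnalyticAt ℂ X (t₀, 0)) (hX0 : X (t₀, 0) = t₀) {P : ℂ × ℂ → Prop}
    (hP : ∀ᶠ x in 𝓝 ((t₀, t₀) : ℂ × ℂ), P x) :
    ∀ᶠ p in 𝓝 ((t₀, 0) : ℂ × ℂ), P (X (p.1 - p.2 / 2, p.2), X (p.1 + p.2 / 2, p.2)) := by
  have h1 := ((minus_an hX).continuousAt.prodMk (plus_an hX).continuousAt)
  have h2 : Tendsto (fun p : ℂ × ℂ => (X (p.1 - p.2 / 2, p.2), X (p.1 + p.2 / 2, p.2)))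
      (𝓝 (t₀, 0)) (𝓝 (t₀, t₀)) := by
    have := h1.tendsto
    simpa [hX0] using this
  exact h2.eventually hP


lemma even_shift (he : ∀ᶠ p in 𝓝 ((t₀, 0) : ℂ × ℂ), X (p.1, -p.2) = X p) (c : ℂ) :
    ∀ᶠ p in 𝓝 ((t₀, 0) : ℂ × ℂ), X (p.1 + c * p.2, -p.2) = X (p.1 + c * p.2, p.2) := by
  have : Continuous (fun p : ℂ × ℂ => ((p.1 + c * p.2, p.2) : ℂ × ℂ)) := by fun_prop
  have h1 : Tendsto (fun p : ℂ × ℂ => ((p.1 + c * p.2, p.2) : ℂ × ℂ)) (𝓝 (t₀, 0))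
      (𝓝 (t₀, 0)) := by
    simpa using this.tendsto (t₀, 0)
  exact h1.eventually he

lemma even_pm (he : ∀ᶠ p in 𝓝 ((t₀, 0) : ℂ × ℂ), X (p.1, -p.2) = X p) :
    ∀ᶠ p in 𝓝 ((t₀, 0) : ℂ × ℂ), X (p.1 - (-p.2) / 2, -p.2) = X (p.1 + p.2 / 2, p.2) ∧
      X (p.1 + (-p.2) / 2, -p.2) = X (p.1 - p.2 / 2, p.2) := by
  filter_upwards [even_shift he (1 / 2), even_shift he (-1 / 2)] with p h1 h2
  constructor
  · rw [show p.1 - (-p.2) / 2 = p.1 + 1 / 2 * p.2 by ring, h1]; congr 2; ring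
  · rw [show p.1 + (-p.2) / 2 = p.1 + -1 / 2 * p.2 by ring, h2]; congr 2; ring

/-- the slope is even -/
lemma mu_even (hq : DifferentiableOn ℂ q (Sg κ)) (hM : Slope κ q j M)
    (hX : AnalyticAt ℂ X (t₀, 0)) (hX0 : X (t₀, 0) = t₀) (ht : t₀ ∈ Sg κ)
    (he : ∀ᶠ p in 𝓝 ((t₀, 0) : ℂ × ℂ), X (p.1, -p.2) = X p) :
    ∀ᶠ p in 𝓝 ((t₀, 0) : ℂ × ℂ), mu q j M X (p.1, -p.2) = mu q j M X p := by
  filter_upwards [even_pm he, chord_near hX hX0 (near_diag hq j ht)] with p h1 h2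
  have h3 := rSym κ q j M _ _ hq hM h2.1 h2.2.1 h2.2.2
  unfold mu
  simp only at h3 ⊢
  rw [h1.1, h1.2]
  exact h3.symm

/-- the offset is even -/
lemma ku_even {σ : ℂ} {E Z Zc : ℂ → ℂ} (hq : DifferentiableOn ℂ q (Sg κ)) (hM : Slope κ q j M)
    (hP : Pos κ q j σ M E Z Zc) (hX : AnalyticAt ℂ X (t₀, 0)) (hX0 : X (t₀, 0) = t₀)
    (ht : t₀ ∈ Sg κ) (he : ∀ᶠ p in 𝓝 ((t₀, 0) : ℂ × ℂ), X (p.1, -p.2) = X p) :
    ∀ᶠ p in 𝓝 ((t₀, 0) : ℂ × ℂ), ku q j M Z Zc X (p.1, -p.2) = ku q j M Z Zc X p := by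
  filter_upwards [even_pm he, chord_near hX hX0 (near_diag hq j ht),
    mu_even hq hM hX hX0 ht he] with p h1 h2 h3
  have h6 := chord_eq hq hM hP h2.1 h2.2.2
  unfold ku
  rw [h3, h1.2]
  unfold mu
  linear_combination -h6

end Fam

/-- the slope of a curve as a function of `Zc` -/
lemma curve_fun {Z Zc : ℂ → ℂ} {y₀ : ℂ} (hZ : AnalyticAt ℂ Z y₀) (hZc : AnalyticAt ℂ Zc y₀)
    (h0 : deriv Zc y₀ ≠ 0) : ∃ G : ℂ → ℂ, AnalyticAt ℂ G (Zc y₀) ∧
      ∀ᶠ y in 𝓝 y₀, G (Zc y) = Z y ∧ deriv G (Zc y) * deriv Zc y = deriv Z y := by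
  set r := hZc.hasStrictDerivAt.localInverse _ _ _ h0 with hr
  have hra : AnalyticAt ℂ r (Zc y₀) := hZc.analyticAt_localInverse h0
  have hl : ∀ᶠ y in 𝓝 y₀, r (Zc y) = y := hZc.hasStrictDerivAt.eventually_left_inverse h0
  have hr0 : r (Zc y₀) = y₀ := hl.self_of_nhds
  have hG : AnalyticAt ℂ (fun b => Z (r b)) (Zc y₀) :=
    AnalyticAt.comp_of_eq (g := Z) (f := r) hZ hra hr0
  refine ⟨fun b => Z (r b), hG, ?_⟩
  have h1 : ∀ᶠ y in 𝓝 y₀, AnalyticAt ℂ (fun b => Z (r b)) (Zc y) :=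
    hZc.continuousAt.eventually hG.eventually_analyticAt
  filter_upwards [hl, hl.eventually_nhds, h1, hZc.eventually_analyticAt,
    hZ.eventually_analyticAt] with y a1 a2 a3 a4 a5
  refine ⟨by simp only [a1], ?_⟩
  have e1 : HasDerivAt (fun y => Z (r (Zc y))) (deriv (fun b => Z (r b)) (Zc y) * deriv Zc y) y :=
    a3.differentiableAt.hasDerivAt.comp y a4.differentiableAt.hasDerivAt
  have e2 : (fun y => Z (r (Zc y))) =ᶠ[𝓝 y] Z := by
    filter_upwards [a2] with y' hy'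
    rw [hy']
  have e3 := e2.deriv_eq
  rw [e1.deriv] at e3
  exact e3

/-- identity theorem in `w` -/
lemma slice_zero {F : ℂ × ℂ → ℂ} {t₀ : ℂ} (hF : AnalyticAt ℂ F (t₀, 0))
    (h : ∃ e > 0, ∀ t ∈ ball t₀ e, ∀ l : ℝ, 0 < l → l < e → F (t, -I * l) = 0) :
    ∀ᶠ p in 𝓝 ((t₀, 0) : ℂ × ℂ), F p = 0 := by
  obtain ⟨e, he, h⟩ := h
  obtain ⟨r, hr, hb⟩ := Metric.eventually_nhds_iff_ball.1 hF.eventually_analyticAt
  have hm : (0 : ℝ) < min e r := lt_min he hr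
  have hball : ball t₀ (min e r) ×ˢ ball (0 : ℂ) (min e r) ∈ 𝓝 ((t₀, 0) : ℂ × ℂ) :=
    prod_mem_nhds (ball_mem_nhds _ hm) (ball_mem_nhds _ hm)
  filter_upwards [hball] with p hp
  obtain ⟨t, w⟩ := p
  have ht : t ∈ ball t₀ (min e r) := hp.1
  have hw : w ∈ ball (0 : ℂ) (min e r) := hp.2
  have han : AnalyticOnNhd ℂ (fun w => F (t, w)) (ball (0 : ℂ) (min e r)) := by
    intro w' hw'
    have h1 : ((t, w') : ℂ × ℂ) ∈ ball ((t₀, 0) : ℂ × ℂ) r := by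
      rw [← ball_prod_same]
      exact ⟨ball_subset_ball (min_le_right _ _) ht, ball_subset_ball (min_le_right _ _) hw'⟩
    exact AnalyticAt.comp_of_eq (g := F) (f := fun w : ℂ => ((t, w) : ℂ × ℂ)) (hb _ h1)
      (analyticAt_const.prod analyticAt_id) rfl
  have hfreq : ∃ᶠ w in 𝓝[≠] (0 : ℂ), F (t, w) = 0 := by
    have hl : Tendsto (fun l : ℝ => -I * (l : ℂ)) (𝓝[>] 0) (𝓝[≠] 0) := by
      refine tendsto_nhdsWithin_iff.2 ⟨?_, ?_⟩
      · have : Tendsto (fun l : ℝ => -I * (l : ℂ)) (𝓝 0) (𝓝 (-I * ((0 : ℝ) : ℂ))) := by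
          apply Continuous.tendsto
          fun_prop
        rw [ofReal_zero, mul_zero] at this
        exact this.mono_left nhdsWithin_le_nhds
      · filter_upwards [self_mem_nhdsWithin] with l hl
        have : (l : ℂ) ≠ 0 := by exact_mod_cast (ne_of_gt hl : l ≠ 0)
        exact mul_ne_zero (neg_ne_zero.2 I_ne_zero) this
    refine hl.frequently (Eventually.frequently ?_)
    filter_upwards [Ioo_mem_nhdsGT he] with l hl
    exact h t (ball_subset_ball (min_le_left _ _) ht) l hl.1 hl.2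
  exact han.eqOn_zero_of_preconnected_of_frequently_eq_zero
    (convex_ball _ _).isPreconnected (mem_ball_self hm) hfreq hw

lemma root4 {P : ℂ} (hP : ‖P - 1‖ ≤ 1 / 10) :
    (P ^ (1 / 4 : ℂ)) ^ 4 = P ∧ ‖P ^ (1 / 4 : ℂ) - 1‖ ≤ ‖P - 1‖ ∧ P ∈ slitPlane := by
  have hre : 9 / 10 ≤ P.re := by
    have h1 := (Complex.abs_re_le_norm (P - 1)).trans hP
    rw [Complex.sub_re, Complex.one_re, abs_le] at h1
    linarith [h1.1]
  have hP0 : P ≠ 0 := by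
    rintro rfl
    simp at hre
    linarith
  have hsl : P ∈ slitPlane := Or.inl (by linarith)
  have h4 : (P ^ (1 / 4 : ℂ)) ^ 4 = P := by
    have := Complex.cpow_nat_inv_pow P (n := 4) (by norm_num)
    rwa [show (((4 : ℕ) : ℂ))⁻¹ = 1 / 4 by norm_num] at this
  have harg : |P.arg| < Real.pi / 2 := Complex.abs_arg_lt_pi_div_two_iff.2 (Or.inl (by linarith))
  have hk : ∀ k : ℝ, 0 < k → k ≤ 1 → 0 < (exp (Complex.log P * k)).re := by
    intro k hk0 hk1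
    rw [Complex.exp_re]
    refine mul_pos (Real.exp_pos _) (Real.cos_pos_of_mem_Ioo ?_)
    have e1 : (Complex.log P * k).im = P.arg * k := by
      rw [Complex.mul_im]
      simp [Complex.log_im]
    rw [e1]
    have e2 : |P.arg * k| < Real.pi / 2 := by
      rw [abs_mul, abs_of_pos hk0]
      calc |P.arg| * k ≤ |P.arg| * 1 := by gcongr
        _ < Real.pi / 2 := by rw [mul_one]; exact harg
    exact abs_lt.1 e2
  set r := P ^ (1 / 4 : ℂ) with hr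
  have hr1 : 0 < r.re := by
    have := hk (1 / 4) (by norm_num) (by norm_num)
    rw [hr, Complex.cpow_def_of_ne_zero hP0]
    push_cast at this
    exact this
  have hr2 : 0 < (r ^ 2).re := by
    have := hk (1 / 2) (by norm_num) (by norm_num)
    rw [hr, Complex.cpow_def_of_ne_zero hP0, ← Complex.exp_nat_mul]
    have e : ((2 : ℕ) : ℂ) * (Complex.log P * (1 / 4)) = Complex.log P * ((1 / 2 : ℝ) : ℂ) := by
      push_cast; ring
    rw [e]
    exact this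
  refine ⟨h4, ?_, hsl⟩
  have h5 : (r - 1) * ((r + 1) * (r ^ 2 + 1)) = P - 1 := by rw [← h4]; ring
  have h6 : 1 ≤ ‖r + 1‖ := by
    have := Complex.re_le_norm (r + 1)
    rw [Complex.add_re, Complex.one_re] at this
    linarith
  have h7 : 1 ≤ ‖r ^ 2 + 1‖ := by
    have := Complex.re_le_norm (r ^ 2 + 1)
    rw [Complex.add_re, Complex.one_re] at this
    linarith
  rw [← h5, norm_mul, norm_mul]
  have h8 : 1 ≤ ‖r + 1‖ * ‖r ^ 2 + 1‖ := one_le_mul_of_one_le_of_one_le h6 h7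
  exact le_mul_of_one_le_right (norm_nonneg _) h8

lemma isOpen_OvR (κ : ℝ) : IsOpen (OvR κ) := by
  unfold OvR
  have h1 : IsOpen {τ : ℂ | τ ≠ 0} := isOpen_ne
  have h2 : IsOpen {τ : ℂ | ‖τ‖ < 1} := isOpen_lt continuous_norm continuous_const
  have h3 : IsOpen {τ : ℂ | |τ.im| < κ * ‖τ‖} :=
    isOpen_lt (continuous_abs.comp Complex.continuous_im) (continuous_const.mul continuous_norm)
  have h4 : IsOpen {τ : ℂ | 0 < τ.re} := isOpen_lt continuous_const Complex.continuous_re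
  exact h1.inter (h2.inter (h3.inter h4))

lemma OvR_Sg {κ κ' : ℝ} (h : κ' ≤ κ) {τ : ℂ} (hτ : τ ∈ OvR κ') : τ ∈ Sg κ := by
  refine ⟨hτ.1, hτ.2.1, ?_⟩
  calc τ.im ≤ |τ.im| := le_abs_self _
    _ < κ' * ‖τ‖ := hτ.2.2.1
    _ ≤ κ * ‖τ‖ := by gcongr

lemma OvL_Sg {κ κ' : ℝ} (h : κ' ≤ κ) {τ : ℂ} (hτ : τ ∈ OvL κ') : τ ∈ Sg κ := by
  refine ⟨hτ.1, hτ.2.1, ?_⟩
  calc τ.im ≤ |τ.im| := le_abs_self _
    _ < κ' * ‖τ‖ := hτ.2.2.1
    _ ≤ κ * ‖τ‖ := by gcongr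

/-- the narrow sector is in `OvR κ'`, also after a small rotation -/
lemma narrow {κ' ρ : ℝ} (hκ' : 0 < κ') (hκ1 : κ' < 1) {τ r : ℂ} (h0 : 0 < τ.re) (h1 : τ.re < ρ)
    (h2 : |τ.im| < κ' / 10 * τ.re) (hr : ‖r - 1‖ ≤ κ' / 10) (hρ : ρ < 1 / 8) :
    τ * r ∈ OvR κ' ∧ ‖τ * r‖ < 5 / 4 * ρ ∧ ‖τ‖ < 11 / 10 * ρ := by
  have hn : ‖τ‖ ≤ 11 / 10 * τ.re := by
    have e1 := Complex.norm_le_abs_re_add_abs_im τ
    rw [abs_of_pos h0] at e1
    nlinarith
  have hre : τ.re ≤ ‖τ‖ := Complex.re_le_norm τ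
  have hn0 : 0 < ‖τ‖ := lt_of_lt_of_le h0 hre
  have hd : ‖τ * r - τ‖ ≤ κ' / 10 * ‖τ‖ := by
    have : τ * r - τ = τ * (r - 1) := by ring
    rw [this, norm_mul, mul_comm]
    gcongr
  have e1 : ‖τ‖ - κ' / 10 * ‖τ‖ ≤ ‖τ * r‖ := by
    have := norm_sub_norm_le τ (τ - τ * r)
    rw [sub_sub_cancel, norm_sub_rev τ (τ * r)] at this
    linarith
  have e2 : ‖τ * r‖ ≤ ‖τ‖ + κ' / 10 * ‖τ‖ := by
    have := norm_add_le (τ * r - τ) τ
    rw [sub_add_cancel] at this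
    linarith
  have e3 : |(τ * r).im - τ.im| ≤ κ' / 10 * ‖τ‖ := by
    have := (Complex.abs_im_le_norm (τ * r - τ)).trans hd
    rwa [Complex.sub_im] at this
  have e4 : |(τ * r).re - τ.re| ≤ κ' / 10 * ‖τ‖ := by
    have := (Complex.abs_re_le_norm (τ * r - τ)).trans hd
    rwa [Complex.sub_re] at this
  have e5 : 0 < ‖τ * r‖ := by nlinarith
  refine ⟨⟨norm_pos_iff.1 e5, ?_, ?_, ?_⟩, ?_, by nlinarith⟩
  · nlinarith
  · have e6 : |(τ * r).im| ≤ |(τ * r).im - τ.im| + |τ.im| := by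
      have := abs_add_le ((τ * r).im - τ.im) τ.im
      rwa [sub_add_cancel] at this
    have e7 : κ' / 10 * τ.re ≤ κ' / 10 * ‖τ‖ := by gcongr
    have e8 : |(τ * r).im| < κ' / 5 * ‖τ‖ := by linarith
    have e9 : κ' * (‖τ‖ - κ' / 10 * ‖τ‖) ≤ κ' * ‖τ * r‖ := by gcongr
    nlinarith [mul_pos hκ' hn0]
  · have e6 := (abs_le.1 e4).1
    nlinarith [mul_pos hκ' hn0]
  · nlinarith [mul_pos hκ' hn0]

/-- the links at one point -/
lemma links {S : Set ℂ} {κ' cc l₀ : ℝ} {x : ℝ → ℂ → ℂ} {X : ℂ × ℂ → ℂ}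
    (hN : Near0 S κ' cc l₀ x X) {t₀ : ℂ} (ht : t₀ ∈ S) (h8 : ‖t₀‖ < 1 / 8) :
    ∃ e > 0, ∀ t ∈ ball t₀ e, ∀ l : ℝ, 0 < l → l < e → X (t, -I * l) = x l t := by
  obtain ⟨e, he, h⟩ := hN.link t₀ ht h8
  exact ⟨e, he, fun t ht l h0 h1 => (h t ht l h0 h1).2.2⟩

/-- all relations at one point of the narrow sector -/
lemma joint_pt {κ κ' β C cc CC l₀ : ℝ} {qA : ℂ → ℂ} {jA : ℂ} {MA EA ZA ZcA : ℂ → ℂ}
    {xA : ℝ → ℂ → ℂ} {XA : ℂ × ℂ → ℂ} {qB : ℂ → ℂ} {jB : ℂ} {MB EB ZB ZcB : ℂ → ℂ}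
    {xB : ℝ → ℂ → ℂ} {XB : ℂ × ℂ → ℂ} {C₀ : ℂ} {δ : ℝ} {G : ℂ → ℂ} {ρ R₁ l₂ : ℝ}
    (D : DatI κ κ' β C cc CC l₀ qA jA MA EA ZA ZcA xA qB jB MB EB ZB ZcB xB C₀ δ G)
    (hNA : Near0 (OvL κ') κ' cc l₀ xA XA) (hNB : Near0 (OvR κ') κ' cc l₀ xB XB)
    (hT : Trap κ' ρ R₁ l₂ qA jA MA ZA ZcA xA qB jB MB ZB ZcB xB C₀ δ G) {τ : ℂ}
    (h0 : 0 < τ.re) (h1 : τ.re < ρ / 2) (h2 : |τ.im| < κ' / 10 * τ.re) :
    ‖MA (-τ) * MB τ / (C₀ * τ) ^ 4 - 1‖ ≤ κ' / 10 ∧ MA (-τ) = MB τ ∧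
      MA (MelI963.sg MA MB C₀ G τ) = MB τ ∧ ZcA (MelI963.sg MA MB C₀ G τ) = ZcB τ := by
  have hκ' := D.sA.κ'_pos
  have hκκ := D.sA.κ'_lt
  have hκ1 := D.sA.endq.κ_lt
  have hqA := D.sA.endq.diff
  have hqB := D.sB.endq.diff
  have hMA := D.sA.slope
  have hMB := D.sB.slope
  have hδ4 := D.inv.δ_lt
  have hρδ := hT.ρ_lt
  have hopen := L4346.isOpen_Sg κ
  -- the point `t₀ = -τ`
  set t₀ : ℂ := -τ with ht₀
  have hτ : τ = -t₀ := by rw [ht₀, neg_neg]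
  have hn0 := narrow (κ' := κ') (r := 1) hκ' (by linarith) h0 h1 h2
    (by rw [sub_self, norm_zero]; positivity) (by linarith)
  rw [mul_one] at hn0
  have hτR : τ ∈ OvR κ' := hn0.1
  have hτ8 : ‖τ‖ < 1 / 8 := by linarith [hn0.2.2]
  have htL : t₀ ∈ OvL κ' := by
    refine ⟨neg_ne_zero.2 hτR.1, by rw [ht₀, norm_neg]; exact hτR.2.1, ?_, ?_⟩
    · rw [ht₀, Complex.neg_im, abs_neg, norm_neg]; exact hτR.2.2.1
    · rw [ht₀, Complex.neg_re]; linarith [hτR.2.2.2]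
  have ht8 : ‖t₀‖ < 1 / 8 := by rw [ht₀, norm_neg]; exact hτ8
  have htS : t₀ ∈ Sg κ := OvL_Sg hκκ.le htL
  have hτS : τ ∈ Sg κ := OvR_Sg hκκ.le hτR
  have ht0 : t₀ ≠ 0 := htL.1
  have hXA := hNA.an t₀ htL
  have hXA0 := hNA.zero t₀ htL
  have hXAe := hNA.even t₀ htL
  have hXB := hNB.an τ hτR
  have hXB0 := hNB.zero τ hτR
  have hXBe := hNB.even τ hτR
  obtain ⟨eA, heA, hlA⟩ := links hNA htL ht8
  obtain ⟨eB, heB, hlB⟩ := links hNB hτR hτ8
  -- the maps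
  let mA : ℂ × ℂ → ℂ := mu qA jA MA XA
  let mB : ℂ × ℂ → ℂ := fun p => mu qB jB MB XB (-p.1, p.2)
  let kB : ℂ × ℂ → ℂ := fun p => ku qB jB MB ZB ZcB XB (-p.1, p.2)
  let tt : ℂ × ℂ → ℂ := fun p => p.1 + p.2 / 2
  let P : ℂ × ℂ → ℂ := fun p => mA (p.1 + p.2, p.2) * mB p / (C₀ * tt p) ^ 4
  let u : ℂ × ℂ → ℂ := fun p => -tt p * P p ^ (1 / 4 : ℂ)
  let Y : ℂ × ℂ → ℂ := fun p => G (u p)
  have hnegan : AnalyticAt ℂ (fun p : ℂ × ℂ => ((-p.1, p.2) : ℂ × ℂ)) (t₀, 0) :=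
    analyticAt_fst.neg.prod analyticAt_snd
  have hnegv : (fun p : ℂ × ℂ => ((-p.1, p.2) : ℂ × ℂ)) (t₀, 0) = (τ, 0) := by simp [ht₀]
  have hnegt : Tendsto (fun p : ℂ × ℂ => ((-p.1, p.2) : ℂ × ℂ)) (𝓝 (t₀, 0)) (𝓝 (τ, 0)) := by
    have h := hnegan.continuousAt.tendsto
    have e : ((-((t₀, (0 : ℂ)) : ℂ × ℂ).1, ((t₀, (0 : ℂ)) : ℂ × ℂ).2) : ℂ × ℂ) = (τ, 0) := hnegv
    rw [← e]
    exact h
  have hmA : AnalyticAt ℂ mA (t₀, 0) := mu_an hqA hMA.diff hXA hXA0 htS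
  have hmB : AnalyticAt ℂ mB (t₀, 0) :=
    AnalyticAt.comp_of_eq (g := mu qB jB MB XB) (f := fun p : ℂ × ℂ => ((-p.1, p.2) : ℂ × ℂ))
      (mu_an hqB hMB.diff hXB hXB0 hτS) hnegan hnegv
  have hXBp : AnalyticAt ℂ (fun p : ℂ × ℂ => XB (p.1 + p.2 / 2, p.2)) (τ, 0) := plus_an hXB
  have hXBp' : AnalyticAt ℂ (fun p : ℂ × ℂ => XB (-p.1 + p.2 / 2, p.2)) (t₀, 0) :=
    AnalyticAt.comp_of_eq (g := fun p : ℂ × ℂ => XB (p.1 + p.2 / 2, p.2))
      (f := fun p : ℂ × ℂ => ((-p.1, p.2) : ℂ × ℂ)) hXBp hnegan hnegv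
  have hXBv : XB (-t₀ + 0 / 2, 0) = τ := by simp [ht₀, hXB0]
  have hZBa : AnalyticAt ℂ ZB τ := D.pB.Z_diff.analyticAt (hopen.mem_nhds hτS)
  have hZcBa : AnalyticAt ℂ ZcB τ := D.pB.Zc_diff.analyticAt (hopen.mem_nhds hτS)
  have hZBv : AnalyticAt ℂ (fun p : ℂ × ℂ => ZB (XB (-p.1 + p.2 / 2, p.2))) (t₀, 0) :=
    AnalyticAt.comp_of_eq (g := ZB) (f := fun p : ℂ × ℂ => XB (-p.1 + p.2 / 2, p.2))
      hZBa hXBp' hXBv
  have hZcBv : AnalyticAt ℂ (fun p : ℂ × ℂ => ZcB (XB (-p.1 + p.2 / 2, p.2))) (t₀, 0) :=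
    AnalyticAt.comp_of_eq (g := ZcB) (f := fun p : ℂ × ℂ => XB (-p.1 + p.2 / 2, p.2))
      hZcBa hXBp' hXBv
  have hkB : AnalyticAt ℂ kB (t₀, 0) := by
    have : kB = fun p : ℂ × ℂ => ZB (XB (-p.1 + p.2 / 2, p.2)) -
        mB p * ZcB (XB (-p.1 + p.2 / 2, p.2)) := rfl
    rw [this]
    exact hZBv.sub (hmB.mul hZcBv)
  have htt : AnalyticAt ℂ tt (t₀, 0) :=
    analyticAt_fst.add (analyticAt_snd.div_const)
  have htt0 : tt (t₀, 0) = t₀ := by simp [tt]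
  have hshan : AnalyticAt ℂ (fun p : ℂ × ℂ => ((p.1 + p.2, p.2) : ℂ × ℂ)) (t₀, 0) :=
    (analyticAt_fst.add analyticAt_snd).prod analyticAt_snd
  have hmAs : AnalyticAt ℂ (fun p : ℂ × ℂ => mA (p.1 + p.2, p.2)) (t₀, 0) :=
    AnalyticAt.comp_of_eq (g := mA) (f := fun p : ℂ × ℂ => ((p.1 + p.2, p.2) : ℂ × ℂ))
      hmA hshan (by simp)
  have hC0 := D.C_ne
  have hPa : AnalyticAt ℂ P (t₀, 0) := by
    refine (hmAs.mul hmB).div ((analyticAt_const.mul htt).pow 4) ?_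
    rw [htt0]
    exact pow_ne_zero 4 (mul_ne_zero hC0 ht0)
  have hmA0 : mA (t₀, 0) = MA t₀ := mu_zero hXA0
  have hmB0 : mB (t₀, 0) = MB τ := by
    have : mB (t₀, 0) = mu qB jB MB XB (-t₀, 0) := rfl
    rw [this, ← hτ]
    exact mu_zero hXB0
  have hP0 : P (t₀, 0) = MA t₀ * MB τ / (C₀ * t₀) ^ 4 := by
    simp only [P, htt0, add_zero, hmA0, hmB0]
  -- the trapezoid near `t₀`
  have hreg : ∃ e > 0, ∀ t ∈ ball t₀ e, ∀ l : ℝ, 0 < l → l < e →
      l < l₂ ∧ -ρ < (t - I * l / 2).re ∧ (t - I * l / 2).re < -R₁ * l ∧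
        |(t - I * l / 2).im| < κ' / 10 * |(t - I * l / 2).re| := by
    have hcont : Continuous (fun p : ℂ × ℝ => p.1 - I * (p.2 : ℂ) / 2) := by fun_prop
    have hv : (fun p : ℂ × ℝ => p.1 - I * (p.2 : ℂ) / 2) (t₀, 0) = t₀ := by simp
    have c1 : ∀ᶠ p in 𝓝 ((t₀, 0) : ℂ × ℝ), p.2 < l₂ :=
      (continuous_snd.tendsto (t₀, (0 : ℝ))).eventually (gt_mem_nhds hT.l₂_pos)
    have c2 : ∀ᶠ p in 𝓝 ((t₀, 0) : ℂ × ℝ), -ρ < (p.1 - I * (p.2 : ℂ) / 2).re := by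
      have : ContinuousAt (fun p : ℂ × ℝ => (p.1 - I * (p.2 : ℂ) / 2).re) (t₀, 0) :=
        (Complex.continuous_re.comp hcont).continuousAt
      refine this.eventually (lt_mem_nhds ?_)
      simp [ht₀]
      linarith
    have c3 : ∀ᶠ p in 𝓝 ((t₀, 0) : ℂ × ℝ), (p.1 - I * (p.2 : ℂ) / 2).re < -R₁ * p.2 := by
      have e1 : ContinuousAt (fun p : ℂ × ℝ => (p.1 - I * (p.2 : ℂ) / 2).re) (t₀, 0) :=
        (Complex.continuous_re.comp hcont).continuousAt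
      have e2 : ContinuousAt (fun p : ℂ × ℝ => -R₁ * p.2) (t₀, 0) := by fun_prop
      refine e1.eventually_lt e2 ?_
      simp [ht₀]
      linarith
    have c4 : ∀ᶠ p in 𝓝 ((t₀, 0) : ℂ × ℝ), |(p.1 - I * (p.2 : ℂ) / 2).im| <
        κ' / 10 * |(p.1 - I * (p.2 : ℂ) / 2).re| := by
      have e1 : ContinuousAt (fun p : ℂ × ℝ => |(p.1 - I * (p.2 : ℂ) / 2).im|) (t₀, 0) :=
        (continuous_abs.comp (Complex.continuous_im.comp hcont)).continuousAt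
      have e2 : ContinuousAt (fun p : ℂ × ℝ => κ' / 10 * |(p.1 - I * (p.2 : ℂ) / 2).re|)
          (t₀, 0) :=
        (continuous_const.mul (continuous_abs.comp
          (Complex.continuous_re.comp hcont))).continuousAt
      refine e1.eventually_lt e2 ?_
      simp [ht₀]
      rwa [abs_of_pos h0]
    obtain ⟨e, he, hb⟩ := Metric.eventually_nhds_iff_ball.1 ((c1.and c2).and (c3.and c4))
    refine ⟨e, he, fun t ht l hl0 hle => ?_⟩
    have hmem : ((t, l) : ℂ × ℝ) ∈ ball ((t₀, 0) : ℂ × ℝ) e := by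
      rw [← ball_prod_same]
      refine ⟨ht, ?_⟩
      rw [mem_ball, dist_zero_right, Real.norm_eq_abs, abs_of_pos hl0]
      exact hle
    have := hb _ hmem
    exact ⟨this.1.1, this.1.2, this.2.1, this.2.2⟩
  -- the discrete objects
  have hdisc : ∃ e > 0, ∀ t ∈ ball t₀ e, ∀ l : ℝ, 0 < l → l < e →
      mA (t + -I * l, -I * l) = mc qA jA MA xA l (t - I * l / 2) ∧
      mB (t, -I * l) = mc qB jB MB xB l (-(t - I * l / 2)) ∧
      XB (-t + -I * l / 2, -I * l) = xB l (-(t - I * l / 2) - I * l) := by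
    refine ⟨min eA eB / 4, by positivity, fun t ht l hl0 hle => ?_⟩
    have hm1 : min eA eB ≤ eA := min_le_left _ _
    have hm2 : min eA eB ≤ eB := min_le_right _ _
    have hlA' : l < eA := by linarith
    have hlB' : l < eB := by linarith
    rw [mem_ball, dist_eq_norm] at ht
    have hIl : ∀ c : ℂ, ‖c * (I * (l : ℂ))‖ = ‖c‖ * l := by
      intro c
      rw [norm_mul, norm_mul, Complex.norm_I, one_mul, Complex.norm_real, Real.norm_eq_abs,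
        abs_of_pos hl0]
    have hin : ∀ c : ℂ, ‖c‖ ≤ 2 → t + c * (I * l) ∈ ball t₀ eA ∧
        -t + c * (I * l) ∈ ball τ eB := by
      intro c hc
      constructor
      · rw [mem_ball, dist_eq_norm]
        have : t + c * (I * l) - t₀ = (t - t₀) + c * (I * l) := by ring
        rw [this]
        refine (norm_add_le _ _).trans_lt ?_
        rw [hIl]
        nlinarith
      · rw [mem_ball, dist_eq_norm]
        have : -t + c * (I * l) - τ = -(t - t₀) + c * (I * l) := by rw [hτ]; ring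
        rw [this]
        refine (norm_add_le _ _).trans_lt ?_
        rw [hIl, norm_neg]
        nlinarith
    have kA : ∀ c : ℂ, ‖c‖ ≤ 2 → XA (t + c * (I * l), -I * l) = xA l (t + c * (I * l)) :=
      fun c hc => hlA _ (hin c hc).1 l hl0 hlA'
    have kB' : ∀ c : ℂ, ‖c‖ ≤ 2 → XB (-t + c * (I * l), -I * l) = xB l (-t + c * (I * l)) :=
      fun c hc => hlB _ (hin c hc).2 l hl0 hlB'
    have n1 : ‖(-1 / 2 : ℂ)‖ ≤ 2 := by norm_num
    have n2 : ‖(-3 / 2 : ℂ)‖ ≤ 2 := by norm_num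
    have n3 : ‖(1 / 2 : ℂ)‖ ≤ 2 := by norm_num
    refine ⟨?_, ?_, ?_⟩
    · simp only [mA, mu, mc]
      have a1 : t + -I * (l : ℂ) - -I * l / 2 = t + (-1 / 2) * (I * l) := by ring
      have a2 : t + -I * (l : ℂ) + -I * l / 2 = t + (-3 / 2) * (I * l) := by ring
      have a3 : t - I * (l : ℂ) / 2 = t + (-1 / 2) * (I * l) := by ring
      have a4 : t - I * (l : ℂ) / 2 - I * l = t + (-3 / 2) * (I * l) := by ring
      rw [a4, a1, a2, a3, kA _ n1, kA _ n2]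
    · simp only [mB, mu, mc]
      have a1 : -t - -I * (l : ℂ) / 2 = -t + (1 / 2) * (I * l) := by ring
      have a2 : -t + -I * (l : ℂ) / 2 = -t + (-1 / 2) * (I * l) := by ring
      have a3 : -(t - I * (l : ℂ) / 2) = -t + (1 / 2) * (I * l) := by ring
      have a4 : -t + (1 / 2) * (I * (l : ℂ)) - I * l = -t + (-1 / 2) * (I * l) := by ring
      rw [a1, a2, a3, a4, kB' _ n3, kB' _ n1]
    · have a2 : -t + -I * (l : ℂ) / 2 = -t + (-1 / 2) * (I * l) := by ring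
      have a3 : -(t - I * (l : ℂ) / 2) - I * l = -t + (-1 / 2) * (I * l) := by ring
      rw [a2, a3, kB' _ n1]
  obtain ⟨e1, he1, hreg⟩ := hreg
  obtain ⟨e2, he2, hdisc⟩ := hdisc
  have httl : ∀ (t : ℂ) (l : ℝ), tt (t, -I * l) = t - I * l / 2 := by
    intro t l; simp only [tt]; ring
  have hPl : ∀ t ∈ ball t₀ (min e1 e2), ∀ l : ℝ, 0 < l → l < min e1 e2 →
      P (t, -I * l) = mc qA jA MA xA l (t - I * l / 2) *
        mc qB jB MB xB l (-(t - I * l / 2)) / (C₀ * (t - I * l / 2)) ^ 4 := by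
    intro t ht l h3 h4
    obtain ⟨a1, a2, a3⟩ := hdisc t (ball_subset_ball (min_le_right _ _) ht) l h3
      (h4.trans_le (min_le_right _ _))
    simp only [P]
    rw [httl, a1, a2]
  have hm12 : 0 < min e1 e2 := lt_min he1 he2
  -- the bound at `w = 0`
  have hPb : ‖P (t₀, 0) - 1‖ ≤ κ' / 10 := by
    have hl : Tendsto (fun l : ℝ => P (t₀, -I * (l : ℂ))) (𝓝[>] 0) (𝓝 (P (t₀, 0))) := by
      have e3 : Tendsto (fun l : ℝ => ((t₀, -I * (l : ℂ)) : ℂ × ℂ)) (𝓝[>] 0) (𝓝 (t₀, 0)) := by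
        have : Continuous (fun l : ℝ => ((t₀, -I * (l : ℂ)) : ℂ × ℂ)) := by fun_prop
        have h3 := this.tendsto 0
        simp only [ofReal_zero, mul_zero] at h3
        exact h3.mono_left nhdsWithin_le_nhds
      exact hPa.continuousAt.tendsto.comp e3
    refine le_of_tendsto ((hl.sub_const 1).norm) ?_
    filter_upwards [Ioo_mem_nhdsGT hm12] with l hl
    rw [hPl t₀ (mem_ball_self hm12) l hl.1 hl.2]
    obtain ⟨a1, a2, a3, a4⟩ := hreg t₀ (mem_ball_self he1) l hl.1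
      (hl.2.trans_le (min_le_left _ _))
    exact hT.near l hl.1 a1 _ a2 a3 a4
  have hPb' : ‖P (t₀, 0) - 1‖ ≤ 1 / 10 := hPb.trans (by linarith)
  obtain ⟨hr4, hr1, hPsl⟩ := root4 hPb'
  -- the point `u₀`
  have hu0 : u (t₀, 0) = τ * P (t₀, 0) ^ (1 / 4 : ℂ) := by
    simp only [u, htt0]
    rw [hτ]
  obtain ⟨huR, huδ, -⟩ := narrow (κ' := κ') hκ' (by linarith) h0 h1 h2 (hr1.trans hPb)
    (by linarith)
  rw [← hu0] at huR huδ
  have huδ' : ‖u (t₀, 0)‖ < δ := by linarith [hT.ρ_pos]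
  have hua : AnalyticAt ℂ u (t₀, 0) := by
    have h3 : AnalyticAt ℂ (fun p => P p ^ (1 / 4 : ℂ)) (t₀, 0) :=
      hPa.cpow analyticAt_const hPsl
    exact htt.neg.mul h3
  set U : Set ℂ := {v | v ∈ OvR κ' ∧ ‖v‖ < δ} with hU
  have hUo : IsOpen U := (isOpen_OvR κ').inter (isOpen_lt continuous_norm continuous_const)
  have huU : u (t₀, 0) ∈ U := ⟨huR, huδ'⟩
  have hGa : AnalyticAt ℂ G (u (t₀, 0)) := D.inv.diff.analyticAt (hUo.mem_nhds huU)
  have hYa : AnalyticAt ℂ Y (t₀, 0) := AnalyticAt.comp (g := G) (f := u) hGa hua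
  have hY0R : Y (t₀, 0) ∈ OvR κ := D.inv.mem _ huR huδ'
  have hY0 : Y (t₀, 0) ∈ Sg κ := OvR_Sg le_rfl hY0R
  have hZAa : AnalyticAt ℂ ZA (Y (t₀, 0)) := D.pA.Z_diff.analyticAt (hopen.mem_nhds hY0)
  have hZcAa : AnalyticAt ℂ ZcA (Y (t₀, 0)) := D.pA.Zc_diff.analyticAt (hopen.mem_nhds hY0)
  have hEA := E_slope hMA D.pA
  have hEB := E_slope hMB D.pB
  have hdZcA : ∀ y ∈ Sg κ, deriv ZcA y ≠ 0 := by
    intro y hy
    rw [D.pA.Zc_der y hy, one_mul]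
    exact div_ne_zero (exp_ne_zero _) (hEA.ne y hy)
  have hdZcB : ∀ y ∈ Sg κ, deriv ZcB y ≠ 0 := by
    intro y hy
    rw [D.pB.Zc_der y hy]
    exact div_ne_zero (mul_ne_zero (by norm_num) (exp_ne_zero _)) (hEB.ne y hy)
  obtain ⟨GA, hGAa, hGA⟩ := curve_fun hZAa hZcAa (hdZcA _ hY0)
  obtain ⟨GB, hGBa, hGB⟩ := curve_fun hZBa hZcBa (hdZcB _ hτS)
  -- slope of the curves
  have slA : ∀ y ∈ Sg κ, deriv ZA y = MA y * deriv ZcA y := by
    intro y hy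
    rw [D.pA.Z_der y hy, D.pA.Zc_der y hy, ← D.pA.E_sq y hy]
    have := hEA.ne y hy
    field_simp
  have slB : ∀ y ∈ Sg κ, deriv ZB y = MB y * deriv ZcB y := by
    intro y hy
    rw [D.pB.Z_der y hy, D.pB.Zc_der y hy, ← D.pB.E_sq y hy]
    have := hEB.ne y hy
    field_simp
  have hYt : Tendsto Y (𝓝 (t₀, 0)) (𝓝 (Y (t₀, 0))) := hYa.continuousAt.tendsto
  have hYev : ∀ᶠ p in 𝓝 ((t₀, 0) : ℂ × ℂ), u p ∈ U ∧ Y p ∈ Sg κ ∧ P p ≠ 0 ∧ tt p ≠ 0 ∧
      GA (ZcA (Y p)) = ZA (Y p) ∧ deriv GA (ZcA (Y p)) = MA (Y p) := by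
    filter_upwards [hua.continuousAt.eventually (hUo.mem_nhds huU),
      hYt.eventually (hopen.mem_nhds hY0), hYt.eventually hGA,
      hPa.continuousAt.eventually_ne (slitPlane_ne_zero hPsl),
      htt.continuousAt.eventually_ne (by rw [htt0]; exact ht0)] with p a1 a2 a3 a4 a5
    refine ⟨a1, a2, a4, a5, a3.1, ?_⟩
    have := a3.2
    rw [slA _ a2] at this
    exact mul_right_cancel₀ (hdZcA _ a2) this
  -- incidence
  have hF : ∀ᶠ p in 𝓝 ((t₀, 0) : ℂ × ℂ), ZA (Y p) - ZB (XB (-p.1 + p.2 / 2, p.2)) -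
      mB p * (ZcA (Y p) - ZcB (XB (-p.1 + p.2 / 2, p.2))) = 0 := by
    apply slice_zero
    · have f1 : AnalyticAt ℂ (fun p => ZA (Y p)) (t₀, 0) :=
        AnalyticAt.comp (g := ZA) (f := Y) hZAa hYa
      have f2 : AnalyticAt ℂ (fun p => ZcA (Y p)) (t₀, 0) :=
        AnalyticAt.comp (g := ZcA) (f := Y) hZcAa hYa
      exact (f1.sub hZBv).sub (hmB.mul (f2.sub hZcBv))
    · refine ⟨min e1 e2, hm12, fun t ht l hl0 hle => ?_⟩
      obtain ⟨a1, a2, a3, a4⟩ := hreg t (ball_subset_ball (min_le_left _ _) ht) l hl0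
        (hle.trans_le (min_le_left _ _))
      obtain ⟨b1, b2, b3⟩ := hdisc t (ball_subset_ball (min_le_right _ _) ht) l hl0
        (hle.trans_le (min_le_right _ _))
      have hinc := hT.inc l hl0 a1 _ a2 a3 a4
      have hYl : Y (t, -I * l) = yv C₀ G (t - I * l / 2)
          (mc qA jA MA xA l (t - I * l / 2)) (mc qB jB MB xB l (-(t - I * l / 2))) := by
        simp only [Y, u, yv]
        rw [hPl t ht l hl0 hle, httl]
      rw [hYl, b2, b3]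
      linear_combination hinc
  have hsame := MelN963.same_curve (G := GA) (gB := GB) (mA := mA) (mB := mB) (kB := kB)
    (b := fun p => ZcA (Y p)) (β := fun t => ZcB (-t)) (t₀ := t₀) hmA hmB hkB
    (AnalyticAt.comp (g := ZcA) (f := Y) hZcAa hYa) hGAa
    (AnalyticAt.comp_of_eq (g := ZcB) (f := fun t : ℂ => -t) hZcBa analyticAt_id.neg hτ.symm)
    (by rw [← hτ]; exact hGBa)
    (mu_even hqA hMA hXA hXA0 htS hXAe)
    (by
      have f1 := hnegt.eventually (mu_even hqB hMB hXB hXB0 hτS hXBe)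
      have f2 := hnegt.eventually (ku_even hqB hMB D.pB hXB hXB0 hτS hXBe)
      filter_upwards [f1, f2] with p g1 g2
      exact ⟨g1, g2⟩)
    (by
      filter_upwards [hF, hYev] with p g1 g2
      rw [g2.2.2.2.2.1]
      have : kB p = ZB (XB (-p.1 + p.2 / 2, p.2)) - mB p * ZcB (XB (-p.1 + p.2 / 2, p.2)) := rfl
      rw [this]
      linear_combination -g1)
    (by
      filter_upwards [hYev] with p g1
      obtain ⟨g2, g3, g4, g5, g6, g7⟩ := g1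
      rw [g7, ← D.pA.E_sq _ g3]
      have h5 : EA (Y p) = C₀ * u p := D.inv.eq _ g2.1 g2.2
      rw [h5]
      have h6 : (P p ^ (1 / 4 : ℂ)) ^ 4 = P p := by
        have := Complex.cpow_nat_inv_pow (P p) (n := 4) (by norm_num)
        rwa [show (((4 : ℕ) : ℂ))⁻¹ = 1 / 4 by norm_num] at this
      have h7 : ((C₀ * u p) ^ 2) ^ 2 = (C₀ * tt p) ^ 4 * (P p ^ (1 / 4 : ℂ)) ^ 4 := by
        simp only [u]; ring
      rw [h7, h6]
      simp only [P]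
      have : C₀ * tt p ≠ 0 := mul_ne_zero hC0 g5
      field_simp)
    (by rw [hmB0]; exact hMB.ne τ hτS)
    (by
      have f1 : (fun t : ℂ => mA (t, 0)) =ᶠ[𝓝 t₀] MA := by
        have : ∀ᶠ t in 𝓝 t₀, t ∈ OvL κ' := by
          have ho : IsOpen (OvL κ') := by
            unfold OvL
            have h1 : IsOpen {τ : ℂ | τ ≠ 0} := isOpen_ne
            have h2 : IsOpen {τ : ℂ | ‖τ‖ < 1} := isOpen_lt continuous_norm continuous_const
            have h3 : IsOpen {τ : ℂ | |τ.im| < κ' * ‖τ‖} :=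
              isOpen_lt (continuous_abs.comp Complex.continuous_im)
                (continuous_const.mul continuous_norm)
            have h4 : IsOpen {τ : ℂ | τ.re < 0} :=
              isOpen_lt Complex.continuous_re continuous_const
            exact h1.inter (h2.inter (h3.inter h4))
          exact ho.mem_nhds htL
        filter_upwards [this] with t g1
        exact mu_zero (hNA.zero t g1)
      rw [f1.deriv_eq, hMA.der _ htS]
      have hj : jA ≠ 0 := by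
        rcases D.sA.hj with h | h <;> rw [h]
        · exact I_ne_zero
        · exact neg_ne_zero.2 I_ne_zero
      exact mul_ne_zero (mul_ne_zero (mul_ne_zero two_ne_zero hj) (exp_ne_zero _))
        (hMA.ne _ htS))
    (by
      have f1 : (fun t : ℂ => mB (t, 0)) =ᶠ[𝓝 t₀] fun t => MB (-t) := by
        have : ∀ᶠ t in 𝓝 t₀, -t ∈ OvR κ' := by
          have hc : ContinuousAt (fun t : ℂ => -t) t₀ := continuous_neg.continuousAt
          exact hc.eventually ((isOpen_OvR κ').mem_nhds (by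
            change -t₀ ∈ OvR κ'
            rw [← hτ]; exact hτR))
        filter_upwards [this] with t g1
        have : mB (t, 0) = mu qB jB MB XB (-t, 0) := rfl
        rw [this]
        exact mu_zero (hNB.zero (-t) g1)
      rw [f1.deriv_eq]
      have f2 : HasDerivAt (fun t : ℂ => MB (-t)) (deriv MB τ * (-1)) t₀ := by
        have g1 : HasDerivAt MB (deriv MB τ) (-t₀) := by
          rw [← hτ]
          exact (hMB.diff.differentiableAt (hopen.mem_nhds hτS)).hasDerivAt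
        exact g1.comp t₀ (hasDerivAt_neg t₀)
      rw [f2.deriv, hMB.der _ hτS]
      have hj : jB ≠ 0 := by
        rcases D.sB.hj with h | h <;> rw [h]
        · exact I_ne_zero
        · exact neg_ne_zero.2 I_ne_zero
      exact mul_ne_zero (mul_ne_zero (mul_ne_zero (mul_ne_zero two_ne_zero hj)
        (exp_ne_zero _)) (hMB.ne _ hτS)) (by norm_num))
    (by
      have hc : ContinuousAt (fun t : ℂ => -t) t₀ := continuous_neg.continuousAt
      have f1 : ∀ᶠ t in 𝓝 t₀, -t ∈ OvR κ' :=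
        hc.eventually ((isOpen_OvR κ').mem_nhds (by
            change -t₀ ∈ OvR κ'
            rw [← hτ]; exact hτR))
      have f2 : ∀ᶠ t in 𝓝 t₀, GB (ZcB (-t)) = ZB (-t) ∧
          deriv GB (ZcB (-t)) * deriv ZcB (-t) = deriv ZB (-t) := by
        have : Tendsto (fun t : ℂ => -t) (𝓝 t₀) (𝓝 τ) := by
          have := hc.tendsto
          rwa [← hτ] at this
        exact this.eventually hGB
      filter_upwards [f1, f2] with t g1 g2
      have g3 := OvR_Sg hκκ.le g1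
      have g4 : mB (t, 0) = MB (-t) := mu_zero (hNB.zero (-t) g1)
      have g5 : kB (t, 0) = ZB (-t) - MB (-t) * ZcB (-t) := by
        have : kB (t, 0) = ZB (XB (-t + 0 / 2, 0)) - mB (t, 0) * ZcB (XB (-t + 0 / 2, 0)) := rfl
        rw [this, g4, zero_div, add_zero, hNB.zero (-t) g1]
      refine ⟨?_, ?_⟩
      · rw [g4]
        have := g2.2
        rw [slB _ g3] at this
        exact (mul_right_cancel₀ (hdZcB _ g3) this).symm
      · rw [g4, g5, g2.1]; ring)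
  obtain ⟨r1, r2, r3⟩ := hsame.self_of_nhds
  have hsg : MelI963.sg MA MB C₀ G τ = Y (t₀, 0) := by
    simp only [MelI963.sg, Y, u, htt0]
    rw [hP0, ← hτ]
    congr 3
    rw [hτ]
    ring
  have hMBY : MA (Y (t₀, 0)) = MB τ := by
    rw [← hmB0, r3, ← r1]
    exact (hYev.self_of_nhds.2.2.2.2.2).symm
  refine ⟨?_, ?_, by rw [hsg]; exact hMBY, ?_⟩
  · rw [hP0] at hPb
    have : (C₀ * τ) ^ 4 = (C₀ * t₀) ^ 4 := by rw [hτ]; ring
    rw [this]
    exact hPb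
  · -- `MA t₀ * MB τ = MA (Y)^2`
    have h5 : EA (Y (t₀, 0)) = C₀ * u (t₀, 0) := D.inv.eq _ huR huδ'
    have h6 : MA (Y (t₀, 0)) ^ 2 = MA t₀ * MB τ := by
      rw [← D.pA.E_sq _ hY0, h5, hu0]
      have h7 : ((C₀ * (τ * P (t₀, 0) ^ (1 / 4 : ℂ))) ^ 2) ^ 2 =
          (C₀ * t₀) ^ 4 * (P (t₀, 0) ^ (1 / 4 : ℂ)) ^ 4 := by
        rw [hτ]; ring
      rw [h7, hr4, hP0]
      have : C₀ * t₀ ≠ 0 := mul_ne_zero hC0 ht0
      field_simp
    rw [hMBY] at h6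
    have h8 := hMB.ne τ hτS
    apply mul_right_cancel₀ h8
    rw [← h6]; ring
  · rw [hsg, r1, ← hτ]

/-- **(I5)** -/
theorem jointL : JointL := by
  intro κ κ' β C cc CC l₀ qA jA MA EA ZA ZcA xA XA qB jB MB EB ZB ZcB xB XB C₀ δ G ρ R₁ l₂ D hNA
    hNB hT
  refine ⟨ρ / 2, by linarith [hT.ρ_pos], by linarith [hT.ρ_lt, hT.ρ_pos], ?_, ?_, ?_, ?_⟩
  · intro τ h0 h1 h2
    exact (joint_pt D hNA hNB hT h0 h1 h2).1
  · intro τ h0 h1 h2
    exact (joint_pt D hNA hNB hT h0 h1 h2).2.1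
  · intro τ h0 h1 h2
    exact (joint_pt D hNA hNB hT h0 h1 h2).2.2.1
  · intro τ h0 h1 h2
    exact (joint_pt D hNA hNB hT h0 h1 h2).2.2.2

end Crest.Agent.R102.MelI519
end

-- ▼ part R102/MelI6_217

/-!
# Row 102, part (C), [T5]/MEL-I: (I6) `FinL` (helper217)

From the relations at `w = 0` on a narrow sector to the conclusion of `MelI`.
-/

set_option autoImplicit false

open Set Filter Topology Metric
open scoped ComplexConjugate

noncomputable section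

namespace Crest.Agent.R102.MelI6217

open Crest.Agent.R102.T5R Crest.Agent.R102.Mel Crest.Agent.R102.MelI963

/-- the narrow sector -/
def Sn (κ' ρ : ℝ) : Set ℂ := {τ | 0 < τ.re ∧ τ.re < ρ ∧ |τ.im| < κ' / 10 * τ.re}

lemma isOpen_Sn (κ' ρ : ℝ) : IsOpen (Sn κ' ρ) := by
  have h1 : IsOpen {τ : ℂ | 0 < τ.re} := isOpen_lt continuous_const Complex.continuous_re
  have h2 : IsOpen {τ : ℂ | τ.re < ρ} := isOpen_lt Complex.continuous_re continuous_const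
  have h3 : IsOpen {τ : ℂ | |τ.im| < κ' / 10 * τ.re} :=
    isOpen_lt (continuous_abs.comp Complex.continuous_im) (continuous_const.mul Complex.continuous_re)
  have : Sn κ' ρ = {τ : ℂ | 0 < τ.re} ∩ {τ : ℂ | τ.re < ρ} ∩ {τ : ℂ | |τ.im| < κ' / 10 * τ.re} := by
    ext τ
    simp only [Sn, mem_setOf_eq, mem_inter_iff]
    tauto
  rw [this]
  exact (h1.inter h2).inter h3

lemma convex_Sn (κ' ρ : ℝ) : Convex ℝ (Sn κ' ρ) := by
  intro x hx y hy a b ha hb hab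
  obtain ⟨h1, h2, h3⟩ := hx
  obtain ⟨h4, h5, h6⟩ := hy
  rw [abs_lt] at h3 h6
  have hre : (a • x + b • y).re = a * x.re + b * y.re := by simp
  have him : (a • x + b • y).im = a * x.im + b * y.im := by simp
  refine ⟨?_, ?_, ?_⟩
  · rw [hre]
    rcases ha.eq_or_lt with rfl | ha'
    · have : b = 1 := by linarith
      subst this
      simpa using h4
    · have := mul_pos ha' h1
      have := mul_nonneg hb h4.le
      linarith
  · rw [hre]
    rcases ha.eq_or_lt with rfl | ha'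
    · have : b = 1 := by linarith
      subst this
      simpa using h5
    · have e1 := mul_lt_mul_of_pos_left h2 ha'
      have e2 := mul_le_mul_of_nonneg_left h5.le hb
      have : a * ρ + b * ρ = ρ := by rw [← add_mul, hab, one_mul]
      linarith
  · rw [hre, him, abs_lt]
    rcases ha.eq_or_lt with rfl | ha'
    · have : b = 1 := by linarith
      subst this
      constructor
      · simpa using h6.1
      · simpa using h6.2
    · have e1 := mul_lt_mul_of_pos_left h3.1 ha'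
      have e2 := mul_le_mul_of_nonneg_left h6.1.le hb
      have e3 := mul_lt_mul_of_pos_left h3.2 ha'
      have e4 := mul_le_mul_of_nonneg_left h6.2.le hb
      constructor <;> nlinarith

/-- `OvR` in linear form -/
lemma OvR_eq {κ : ℝ} (hκ : 0 < κ) (hκ1 : κ < 1) :
    OvR κ = {τ : ℂ | ‖τ‖ < 1 ∧ 0 < τ.re ∧ √(1 - κ ^ 2) * |τ.im| < κ * τ.re} := by
  have hc : 0 < 1 - κ ^ 2 := by nlinarith
  have hs : √(1 - κ ^ 2) ^ 2 = 1 - κ ^ 2 := Real.sq_sqrt hc.le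
  have hs0 : 0 < √(1 - κ ^ 2) := Real.sqrt_pos.2 hc
  ext τ
  have hn : ‖τ‖ ^ 2 = τ.re ^ 2 + τ.im ^ 2 := by
    rw [← Complex.normSq_eq_norm_sq, Complex.normSq_apply]; ring
  simp only [OvR, mem_setOf_eq]
  constructor
  · rintro ⟨h0, h1, h2, h3⟩
    refine ⟨h1, h3, ?_⟩
    have h4 : |τ.im| ^ 2 < (κ * ‖τ‖) ^ 2 := pow_lt_pow_left₀ h2 (abs_nonneg _) (by norm_num)
    rw [mul_pow, hn, sq_abs] at h4
    apply lt_of_pow_lt_pow_left₀ 2 (by positivity)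
    rw [mul_pow, mul_pow, hs, sq_abs]
    nlinarith
  · rintro ⟨h1, h3, h4⟩
    have h0 : τ ≠ 0 := by
      rintro rfl
      simp at h3
    refine ⟨h0, h1, ?_, h3⟩
    have h5 : (√(1 - κ ^ 2) * |τ.im|) ^ 2 < (κ * τ.re) ^ 2 :=
      pow_lt_pow_left₀ h4 (by positivity) (by norm_num)
    rw [mul_pow, mul_pow, hs, sq_abs] at h5
    apply lt_of_pow_lt_pow_left₀ 2 (by positivity)
    rw [mul_pow, hn, sq_abs]
    nlinarith

lemma convex_OvR {κ : ℝ} (hκ : 0 < κ) (hκ1 : κ < 1) : Convex ℝ (OvR κ) := by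
  rw [OvR_eq hκ hκ1]
  have hs0 : 0 ≤ √(1 - κ ^ 2) := Real.sqrt_nonneg _
  set c := √(1 - κ ^ 2) with hc
  have e : {τ : ℂ | ‖τ‖ < 1 ∧ 0 < τ.re ∧ c * |τ.im| < κ * τ.re} =
      ball (0 : ℂ) 1 ∩ {τ : ℂ | 0 < τ.re ∧ c * |τ.im| < κ * τ.re} := by
    ext τ
    simp [mem_ball_zero_iff]
  rw [e]
  refine (convex_ball _ _).inter ?_
  intro x hx y hy a b ha hb hab
  obtain ⟨h1, h2⟩ := hx
  obtain ⟨h4, h5⟩ := hy
  have hre : (a • x + b • y).re = a * x.re + b * y.re := by simp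
  have him : (a • x + b • y).im = a * x.im + b * y.im := by simp
  have habs : |a * x.im + b * y.im| ≤ a * |x.im| + b * |y.im| := by
    refine (abs_add_le _ _).trans ?_
    rw [abs_mul, abs_mul, abs_of_nonneg ha, abs_of_nonneg hb]
  have k1 := mul_le_mul_of_nonneg_left habs hs0
  refine ⟨?_, ?_⟩
  · show 0 < (a • x + b • y).re
    rw [hre]
    rcases ha.eq_or_lt with rfl | ha'
    · have : b = 1 := by linarith
      subst this
      simpa using h4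
    · have := mul_pos ha' h1
      have := mul_nonneg hb h4.le
      linarith
  · show c * |(a • x + b • y).im| < κ * (a • x + b • y).re
    rw [hre, him]
    rcases ha.eq_or_lt with rfl | ha'
    · have : b = 1 := by linarith
      subst this
      simpa using h5
    · have e1 := mul_lt_mul_of_pos_left h2 ha'
      have e2 := mul_le_mul_of_nonneg_left h5.le hb
      nlinarith

lemma isOpen_OvR (κ : ℝ) : IsOpen (OvR κ) := by
  have h0 : IsOpen {τ : ℂ | τ ≠ 0} := isOpen_ne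
  have h1 : IsOpen {τ : ℂ | ‖τ‖ < 1} := isOpen_lt continuous_norm continuous_const
  have h2 : IsOpen {τ : ℂ | |τ.im| < κ * ‖τ‖} :=
    isOpen_lt (continuous_abs.comp Complex.continuous_im) (continuous_const.mul continuous_norm)
  have h3 : IsOpen {τ : ℂ | 0 < τ.re} := isOpen_lt continuous_const Complex.continuous_re
  have : OvR κ = {τ : ℂ | τ ≠ 0} ∩ {τ : ℂ | ‖τ‖ < 1} ∩ {τ : ℂ | |τ.im| < κ * ‖τ‖} ∩
      {τ : ℂ | 0 < τ.re} := by
    ext τ
    simp only [OvR, mem_setOf_eq, mem_inter_iff]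
    tauto
  rw [this]
  exact ((h0.inter h1).inter h2).inter h3

lemma isOpen_Sg (κ : ℝ) : IsOpen (Sg κ) := by
  have h0 : IsOpen {τ : ℂ | τ ≠ 0} := isOpen_ne
  have h1 : IsOpen {τ : ℂ | ‖τ‖ < 1} := isOpen_lt continuous_norm continuous_const
  have h2 : IsOpen {τ : ℂ | τ.im < κ * ‖τ‖} :=
    isOpen_lt Complex.continuous_im (continuous_const.mul continuous_norm)
  have : Sg κ = {τ : ℂ | τ ≠ 0} ∩ {τ : ℂ | ‖τ‖ < 1} ∩ {τ : ℂ | τ.im < κ * ‖τ‖} := by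
    ext τ
    simp only [Sg, mem_setOf_eq, mem_inter_iff]
    tauto
  rw [this]
  exact (h0.inter h1).inter h2

lemma OvR_sub_Sg {κ' κ : ℝ} (h : κ' ≤ κ) {τ : ℂ} (hτ : τ ∈ OvR κ') : τ ∈ Sg κ := by
  obtain ⟨h0, h1, h2, h3⟩ := hτ
  refine ⟨h0, h1, ?_⟩
  have := le_abs_self τ.im
  have := mul_le_mul_of_nonneg_right h (norm_nonneg τ)
  linarith

lemma neg_OvR_sub_Sg {κ' κ : ℝ} (h : κ' ≤ κ) {τ : ℂ} (hτ : τ ∈ OvR κ') : -τ ∈ Sg κ := by
  obtain ⟨h0, h1, h2, h3⟩ := hτ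
  refine ⟨neg_ne_zero.2 h0, by simpa using h1, ?_⟩
  have := neg_abs_le τ.im
  have := mul_le_mul_of_nonneg_right h (norm_nonneg τ)
  simp only [Complex.neg_im, norm_neg]
  linarith

/-- the principal fourth root near `1` -/
lemma root_near {m : ℂ} (h : ‖m - 1‖ ≤ 1 / 10) :
    ‖m ^ (1 / 4 : ℂ) - 1‖ ≤ ‖m - 1‖ ∧ (m ^ (1 / 4 : ℂ)) ^ 4 = m := by
  have hre : 9 / 10 ≤ m.re := by
    have := Complex.abs_re_le_norm (m - 1)
    rw [Complex.sub_re, Complex.one_re, abs_le] at this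
    linarith [this.1]
  have hm0 : m ≠ 0 := by
    rintro rfl
    simp at hre
    linarith
  have harg : |m.arg| < Real.pi / 2 := by
    rw [Complex.abs_arg_lt_pi_div_two_iff]
    left
    linarith
  have h4 : (m ^ (1 / 4 : ℂ)) ^ 4 = m := by
    rw [← Complex.cpow_nat_mul]
    norm_num
  refine ⟨?_, h4⟩
  set r := m ^ (1 / 4 : ℂ) with hr
  have hr2 : r ^ 2 = Complex.exp (Complex.log m * (1 / 2)) := by
    rw [hr, Complex.cpow_def_of_ne_zero hm0, ← Complex.exp_nat_mul]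
    congr 1
    push_cast
    ring
  have hre1 : 0 ≤ r.re := by
    rw [hr, Complex.cpow_def_of_ne_zero hm0, Complex.exp_re]
    have : (Complex.log m * (1 / 4)).im = m.arg / 4 := by
      rw [Complex.mul_im, Complex.log_im]
      norm_num
      ring
    rw [this]
    apply mul_nonneg (Real.exp_pos _).le
    apply Real.cos_nonneg_of_neg_pi_div_two_le_of_le
    · rw [abs_lt] at harg; linarith [Real.pi_pos, harg.1]
    · rw [abs_lt] at harg; linarith [Real.pi_pos, harg.2]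
  have hre2 : 0 ≤ (r ^ 2).re := by
    rw [hr2, Complex.exp_re]
    have : (Complex.log m * (1 / 2)).im = m.arg / 2 := by
      rw [Complex.mul_im, Complex.log_im]
      norm_num
      ring
    rw [this]
    apply mul_nonneg (Real.exp_pos _).le
    apply Real.cos_nonneg_of_neg_pi_div_two_le_of_le
    · rw [abs_lt] at harg; linarith [Real.pi_pos, harg.1]
    · rw [abs_lt] at harg; linarith [Real.pi_pos, harg.2]
  have hf : (r - 1) * ((r + 1) * (r ^ 2 + 1)) = m - 1 := by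
    rw [← h4]; ring
  have n1 : 1 ≤ ‖r + 1‖ := by
    have := Complex.re_le_norm (r + 1)
    rw [Complex.add_re, Complex.one_re] at this
    linarith
  have n2 : 1 ≤ ‖r ^ 2 + 1‖ := by
    have := Complex.re_le_norm (r ^ 2 + 1)
    rw [Complex.add_re, Complex.one_re] at this
    linarith
  rw [← hf, norm_mul, norm_mul]
  have h12 : 1 ≤ ‖r + 1‖ * ‖r ^ 2 + 1‖ := by nlinarith
  nlinarith [norm_nonneg (r - 1)]

/-- `u = τ r` is in the wide sector -/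
lemma mul_mem {κ' ρ δ : ℝ} (hκ : 0 < κ') (hκ1 : κ' < 1) (hρ : ρ < δ / 2) (hδ : δ < 1 / 4)
    {τ r : ℂ} (hτ : τ ∈ Sn κ' ρ) (hr : ‖r - 1‖ ≤ κ' / 10) :
    τ * r ∈ OvR κ' ∧ ‖τ * r‖ < δ ∧ ‖τ * r‖ ≤ 11 / 10 * ‖τ‖ := by
  obtain ⟨h1, h2, h3⟩ := hτ
  have hτ0 : τ ≠ 0 := by rintro rfl; simp at h1
  have hτn : 0 < ‖τ‖ := norm_pos_iff.2 hτ0
  have hre : τ.re ≤ ‖τ‖ := Complex.re_le_norm τ
  have hn : ‖τ‖ ≤ τ.re + |τ.im| := by
    have := Complex.norm_le_abs_re_add_abs_im τ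
    rwa [abs_of_pos h1] at this
  have hr1 : ‖r‖ ≤ 1 + κ' / 10 := by
    calc ‖r‖ = ‖(r - 1) + 1‖ := by ring_nf
      _ ≤ ‖r - 1‖ + ‖(1 : ℂ)‖ := norm_add_le _ _
      _ ≤ _ := by rw [norm_one]; linarith
  have hr2 : 1 - κ' / 10 ≤ ‖r‖ := by
    have : ‖(1 : ℂ)‖ ≤ ‖r‖ + ‖r - 1‖ := by
      calc ‖(1 : ℂ)‖ = ‖r - (r - 1)‖ := by ring_nf
        _ ≤ _ := norm_sub_le _ _
    rw [norm_one] at this
    linarith
  have hri : |r.im| ≤ κ' / 10 := by
    have := Complex.abs_im_le_norm (r - 1)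
    rw [Complex.sub_im, Complex.one_im, sub_zero] at this
    linarith
  have hrr : |r.re - 1| ≤ κ' / 10 := by
    have := Complex.abs_re_le_norm (r - 1)
    rw [Complex.sub_re, Complex.one_re] at this
    linarith
  have hrr' := abs_le.1 hrr
  have hu : ‖τ * r‖ = ‖τ‖ * ‖r‖ := norm_mul _ _
  have hn2 : ‖τ‖ ≤ 11 / 10 * τ.re := by nlinarith
  have hle : ‖τ * r‖ ≤ 11 / 10 * ‖τ‖ := by
    rw [hu]; nlinarith
  have hlt : ‖τ * r‖ < δ := by nlinarith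
  refine ⟨⟨?_, by linarith, ?_, ?_⟩, hlt, hle⟩
  · apply mul_ne_zero hτ0
    intro h0
    rw [h0, norm_zero] at hr2
    linarith
  · rw [Complex.mul_im, hu]
    have a1 : |τ.re * r.im + τ.im * r.re| ≤ τ.re * |r.im| + |τ.im| * |r.re| := by
      refine (abs_add_le _ _).trans ?_
      rw [abs_mul, abs_mul, abs_of_pos h1]
    have a2 : |r.re| ≤ ‖r‖ := Complex.abs_re_le_norm r
    have a3 : τ.re * |r.im| ≤ ‖τ‖ * (κ' / 10) :=
      mul_le_mul hre hri (abs_nonneg _) hτn.le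
    have a4 : |τ.im| * |r.re| ≤ (κ' / 10 * ‖τ‖) * ‖r‖ := by
      apply mul_le_mul _ a2 (abs_nonneg _) (by positivity)
      nlinarith
    have a5 : 9 / 10 ≤ ‖r‖ := by linarith
    have a6 : ‖τ‖ * (κ' / 10) ≤ (κ' / 9) * (‖τ‖ * ‖r‖) := by
      have : 0 ≤ κ' * ‖τ‖ := by positivity
      nlinarith
    have a7 : 0 < κ' * (‖τ‖ * ‖r‖) := by positivity
    nlinarith
  · rw [Complex.mul_re]
    have a1 : τ.im * r.im ≤ |τ.im| * |r.im| := by
      rw [← abs_mul]; exact le_abs_self _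
    have a2 : |τ.im| * |r.im| ≤ (κ' / 10 * τ.re) * (κ' / 10) :=
      mul_le_mul h3.le hri (abs_nonneg _) (by positivity)
    have a3 : τ.re * (9 / 10) ≤ τ.re * r.re := by
      apply mul_le_mul_of_nonneg_left _ h1.le
      linarith
    have a4 : κ' / 10 * τ.re * (κ' / 10) ≤ τ.re * (1 / 100) := by
      have : κ' ^ 2 ≤ 1 := by nlinarith
      nlinarith
    linarith

/-- **(I6)** -/
theorem finL : FinL := by
  intro κ κ' β C cc CC l₀ qA jA MA EA ZA ZcA xA qB jB MB EB ZB ZcB xB C₀ δ G ρ hD hJ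
  have hκ'0 : 0 < κ' := hD.sA.κ'_pos
  have hκ'κ : κ' < κ := hD.sA.κ'_lt
  have hκ1 : κ < 1 := hD.sA.endq.κ_lt
  have hκ'1 : κ' < 1 := hκ'κ.trans hκ1
  have hρ := hJ.ρ_pos
  have hρδ := hJ.ρ_lt
  have hδ := hD.inv.δ_lt
  have hj0 : jA ≠ 0 := by
    rcases hD.sA.hj with h | h <;> rw [h] <;> simp
  have hjB : jB = -jA := hD.mt.j
  set S := Sn κ' ρ with hS
  have hSo : IsOpen S := isOpen_Sn κ' ρ
  have hSc : IsPreconnected S := (convex_Sn κ' ρ).isPreconnected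
  -- `S ⊆ OvR κ'`
  have hSO : ∀ τ ∈ S, τ ∈ OvR κ' := by
    intro τ hτ
    have := (mul_mem hκ'0 hκ'1 hρδ hδ (r := 1) hτ (by simp; positivity)).1
    simpa using this
  have hSg : ∀ τ ∈ S, τ ∈ Sg κ := fun τ hτ => OvR_sub_Sg hκ'κ.le (hSO τ hτ)
  have hSgn : ∀ τ ∈ S, -τ ∈ Sg κ := fun τ hτ => neg_OvR_sub_Sg hκ'κ.le (hSO τ hτ)
  have hτ0 : ∀ τ ∈ S, τ ≠ 0 := fun τ hτ => (hSO τ hτ).1
  -- the function `u`
  set m : ℂ → ℂ := fun τ => MA (-τ) * MB τ / (C₀ * τ) ^ 4 with hm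
  set u : ℂ → ℂ := fun τ => τ * (m τ) ^ (1 / 4 : ℂ) with hu
  have hmn : ∀ τ ∈ S, ‖m τ - 1‖ ≤ κ' / 10 := fun τ hτ => hJ.near τ hτ.1 hτ.2.1 hτ.2.2
  have hmn' : ∀ τ ∈ S, ‖m τ - 1‖ ≤ 1 / 10 := fun τ hτ => (hmn τ hτ).trans (by linarith)
  have hum : ∀ τ ∈ S, u τ ∈ OvR κ' ∧ ‖u τ‖ < δ ∧ ‖u τ‖ ≤ 11 / 10 * ‖τ‖ := fun τ hτ =>
    mul_mem hκ'0 hκ'1 hρδ hδ hτ (((root_near (hmn' τ hτ)).1).trans (hmn τ hτ))
  have hsg : ∀ τ, sg MA MB C₀ G τ = G (u τ) := fun τ => rfl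
  set s : ℂ → ℂ := fun τ => G (u τ) with hs
  -- differentiability
  have hMAd : ∀ τ ∈ Sg κ, DifferentiableAt ℂ MA τ := fun τ hτ =>
    (hD.sA.slope.diff τ hτ).differentiableAt ((isOpen_Sg κ).mem_nhds hτ)
  have hMBd : ∀ τ ∈ Sg κ, DifferentiableAt ℂ MB τ := fun τ hτ =>
    (hD.sB.slope.diff τ hτ).differentiableAt ((isOpen_Sg κ).mem_nhds hτ)
  have hqAd : ∀ τ ∈ Sg κ, DifferentiableAt ℂ qA τ := fun τ hτ =>
    (hD.sA.endq.diff τ hτ).differentiableAt ((isOpen_Sg κ).mem_nhds hτ)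
  have hqBd : ∀ τ ∈ Sg κ, DifferentiableAt ℂ qB τ := fun τ hτ =>
    (hD.sB.endq.diff τ hτ).differentiableAt ((isOpen_Sg κ).mem_nhds hτ)
  have hmd : ∀ τ ∈ S, DifferentiableAt ℂ m τ := by
    intro τ hτ
    have e1 : DifferentiableAt ℂ (fun τ => MA (-τ)) τ :=
      (hMAd (-τ) (hSgn τ hτ)).comp τ differentiableAt_id.neg
    have e2 := hMBd τ (hSg τ hτ)
    refine (e1.mul e2).div ((differentiableAt_id.const_mul C₀).pow 4) ?_
    exact pow_ne_zero _ (mul_ne_zero hD.C_ne (hτ0 τ hτ))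
  have hud : ∀ τ ∈ S, DifferentiableAt ℂ u τ := by
    intro τ hτ
    refine differentiableAt_id.mul ((hmd τ hτ).cpow_const ?_)
    left
    have := Complex.abs_re_le_norm (m τ - 1)
    rw [Complex.sub_re, Complex.one_re, abs_le] at this
    linarith [this.1, hmn' τ hτ]
  have hGo : IsOpen {v : ℂ | v ∈ OvR κ' ∧ ‖v‖ < δ} :=
    (isOpen_OvR κ').inter (isOpen_lt continuous_norm continuous_const)
  have hsd : ∀ τ ∈ S, DifferentiableAt ℂ s τ := by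
    intro τ hτ
    have hu1 := hum τ hτ
    have hG := (hD.inv.diff (u τ) ⟨hu1.1, hu1.2.1⟩).differentiableAt
      (hGo.mem_nhds ⟨hu1.1, hu1.2.1⟩)
    exact hG.comp τ (hud τ hτ)
  have hsdo : DifferentiableOn ℂ s S := fun τ hτ => (hsd τ hτ).differentiableWithinAt
  have hsm : ∀ τ ∈ S, s τ ∈ Sg κ := fun τ hτ =>
    OvR_sub_Sg le_rfl (hD.inv.mem (u τ) (hum τ hτ).1 (hum τ hτ).2.1)
  have hsn : ∀ τ ∈ S, ‖s τ - τ‖ ≤ 1 / 4 * ‖τ‖ := by
    intro τ hτ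
    have h1 := hD.inv.near (u τ) (hum τ hτ).1 (hum τ hτ).2.1
    have h2 : ‖u τ - τ‖ ≤ 1 / 10 * ‖τ‖ := by
      have : u τ - τ = τ * ((m τ) ^ (1 / 4 : ℂ) - 1) := by rw [hu]; ring
      rw [this, norm_mul]
      have := ((root_near (hmn' τ hτ)).1).trans (hmn' τ hτ)
      nlinarith [norm_nonneg τ]
    have h3 := (hum τ hτ).2.2
    calc ‖s τ - τ‖ = ‖(s τ - u τ) + (u τ - τ)‖ := by ring_nf
      _ ≤ ‖s τ - u τ‖ + ‖u τ - τ‖ := norm_add_le _ _
      _ ≤ ‖u τ‖ / 10 + 1 / 10 * ‖τ‖ := add_le_add h1 h2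
      _ ≤ 1 / 4 * ‖τ‖ := by linarith [norm_nonneg τ]
  -- differentiate `MA (s τ) = MB τ`
  have hMs : ∀ τ ∈ S, MA (s τ) = MB τ := fun τ hτ => hJ.Ms τ hτ.1 hτ.2.1 hτ.2.2
  have hAB : ∀ τ ∈ S, MA (-τ) = MB τ := fun τ hτ => hJ.AB τ hτ.1 hτ.2.1 hτ.2.2
  have hZs : ∀ τ ∈ S, ZcA (s τ) = ZcB τ := fun τ hτ => hJ.Zs τ hτ.1 hτ.2.1 hτ.2.2
  have d1 : ∀ τ ∈ S, Complex.exp (qA (s τ)) * deriv s τ = -Complex.exp (qB τ) := by
    intro τ hτ
    have e1 : HasDerivAt (fun τ => MA (s τ)) (deriv MA (s τ) * deriv s τ) τ :=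
      (hMAd (s τ) (hsm τ hτ)).hasDerivAt.comp τ (hsd τ hτ).hasDerivAt
    have e2 : HasDerivAt MB (deriv MB τ) τ := (hMBd τ (hSg τ hτ)).hasDerivAt
    have e3 : (fun τ => MA (s τ)) =ᶠ[𝓝 τ] MB := by
      filter_upwards [hSo.mem_nhds hτ] with z hz using hMs z hz
    have e4 := e1.unique (e2.congr_of_eventuallyEq e3)
    rw [hD.sA.slope.der (s τ) (hsm τ hτ), hD.sB.slope.der τ (hSg τ hτ), hMs τ hτ, hjB] at e4
    have hne := hD.sB.slope.ne τ (hSg τ hτ)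
    have e5 : 2 * jA * MB τ * (Complex.exp (qA (s τ)) * deriv s τ) =
        2 * jA * MB τ * (-Complex.exp (qB τ)) := by
      linear_combination e4
    exact mul_left_cancel₀ (mul_ne_zero (mul_ne_zero two_ne_zero hj0) hne) e5
  have hEA0 : ∀ τ ∈ Sg κ, EA τ ≠ 0 := by
    intro τ hτ h0
    have := hD.pA.E_sq τ hτ
    rw [h0] at this
    exact hD.sA.slope.ne τ hτ (by rw [← this]; ring)
  have hEB0 : ∀ τ ∈ Sg κ, EB τ ≠ 0 := by
    intro τ hτ h0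
    have := hD.pB.E_sq τ hτ
    rw [h0] at this
    exact hD.sB.slope.ne τ hτ (by rw [← this]; ring)
  have d2 : ∀ τ ∈ S, Complex.exp (-2 * qA (s τ)) / EA (s τ) * deriv s τ =
      -Complex.exp (-2 * qB τ) / EB τ := by
    intro τ hτ
    have hA : DifferentiableAt ℂ ZcA (s τ) :=
      (hD.pA.Zc_diff (s τ) (hsm τ hτ)).differentiableAt ((isOpen_Sg κ).mem_nhds (hsm τ hτ))
    have hB : DifferentiableAt ℂ ZcB τ :=
      (hD.pB.Zc_diff τ (hSg τ hτ)).differentiableAt ((isOpen_Sg κ).mem_nhds (hSg τ hτ))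
    have e1 : HasDerivAt (fun τ => ZcA (s τ)) (deriv ZcA (s τ) * deriv s τ) τ :=
      hA.hasDerivAt.comp τ (hsd τ hτ).hasDerivAt
    have e3 : (fun τ => ZcA (s τ)) =ᶠ[𝓝 τ] ZcB := by
      filter_upwards [hSo.mem_nhds hτ] with z hz using hZs z hz
    have e4 := e1.unique (hB.hasDerivAt.congr_of_eventuallyEq e3)
    rw [hD.pA.Zc_der (s τ) (hsm τ hτ), hD.pB.Zc_der τ (hSg τ hτ)] at e4
    simpa using e4
  have d6 : ∀ τ ∈ S, deriv s τ ^ 6 = 1 := by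
    intro τ hτ
    have h1 := d1 τ hτ
    have h2 := d2 τ hτ
    have hEs := hEA0 (s τ) (hsm τ hτ)
    have hEt := hEB0 τ (hSg τ hτ)
    have hsq : EA (s τ) ^ 2 = EB τ ^ 2 := by
      rw [hD.pA.E_sq _ (hsm τ hτ), hD.pB.E_sq τ (hSg τ hτ), hMs τ hτ]
    have a1 : Complex.exp (-2 * qA (s τ)) = (Complex.exp (qA (s τ)) ^ 2)⁻¹ := by
      rw [← Complex.exp_nat_mul, ← Complex.exp_neg]
      congr 1
      push_cast
      ring
    have a2 : Complex.exp (-2 * qB τ) = (Complex.exp (qB τ) ^ 2)⁻¹ := by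
      rw [← Complex.exp_nat_mul, ← Complex.exp_neg]
      congr 1
      push_cast
      ring
    have hX : Complex.exp (qA (s τ)) ≠ 0 := Complex.exp_ne_zero _
    have hY : Complex.exp (qB τ) ≠ 0 := Complex.exp_ne_zero _
    rw [a1, a2] at h2
    set X := Complex.exp (qA (s τ))
    set Y := Complex.exp (qB τ)
    set P := EA (s τ)
    set Q := EB τ
    set D := deriv s τ
    have hYD : Y = -(X * D) := by rw [h1]; ring
    have hD0 : D ≠ 0 := by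
      intro h0
      apply hY
      rw [hYD, h0]
      ring
    -- `D Q Y² = - X² P`
    have h3 : D * Q * Y ^ 2 = -(X ^ 2 * P) := by
      field_simp at h2
      linear_combination h2
    have h4 : D ^ 2 * Q ^ 2 * Y ^ 4 = X ^ 4 * P ^ 2 := by
      have : (D * Q * Y ^ 2) ^ 2 = (X ^ 2 * P) ^ 2 := by rw [h3]; ring
      linear_combination this
    rw [hsq, hYD] at h4
    have h5 : (Q ^ 2 * X ^ 4) * D ^ 6 = (Q ^ 2 * X ^ 4) * 1 := by
      linear_combination h4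
    exact mul_left_cancel₀ (mul_ne_zero (pow_ne_zero _ hEt) (pow_ne_zero _ hX)) h5
  -- `s'` is constant
  have hds : DifferentiableOn ℂ (deriv s) S := hsdo.deriv hSo
  have hdds : ∀ τ ∈ S, deriv (deriv s) τ = 0 := by
    intro τ hτ
    have hd : HasDerivAt (deriv s) (deriv (deriv s) τ) τ :=
      ((hds τ hτ).differentiableAt (hSo.mem_nhds hτ)).hasDerivAt
    have e1 : HasDerivAt (fun τ => deriv s τ ^ 6) (((6 : ℕ) : ℂ) * deriv s τ ^ (6 - 1) * deriv (deriv s) τ) τ :=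
      hd.pow 6
    have e2 : (fun τ => deriv s τ ^ 6) =ᶠ[𝓝 τ] (fun _ => (1 : ℂ)) := by
      filter_upwards [hSo.mem_nhds hτ] with z hz using d6 z hz
    have e3 := e1.unique ((hasDerivAt_const τ (1 : ℂ)).congr_of_eventuallyEq e2)
    have hne : deriv s τ ≠ 0 := by
      intro h0
      have := d6 τ hτ
      rw [h0] at this
      norm_num at this
    have h6 : ((6 : ℕ) : ℂ) * deriv s τ ^ (6 - 1) ≠ 0 :=
      mul_ne_zero (by norm_num) (pow_ne_zero _ hne)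
    exact (mul_eq_zero.1 e3).resolve_left h6
  set τ₀ : ℂ := ((ρ / 2 : ℝ) : ℂ) with hτ₀
  have hreal : ∀ x : ℝ, 0 < x → x < ρ → (x : ℂ) ∈ S := by
    intro x hx hxρ
    refine ⟨by simpa using hx, by simpa using hxρ, ?_⟩
    simp only [Complex.ofReal_im, abs_zero, Complex.ofReal_re]
    positivity
  have hτ₀S : τ₀ ∈ S := hreal _ (by linarith) (by linarith)
  have hconst : ∀ τ ∈ S, deriv s τ = deriv s τ₀ := by
    intro τ hτ
    exact hSo.is_const_of_deriv_eq_zero hSc hds hdds hτ hτ₀S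
  set ζ := deriv s τ₀ with hζ
  have haff : ∀ τ ∈ S, s τ - ζ * τ = s τ₀ - ζ * τ₀ := by
    intro τ hτ
    have hF : DifferentiableOn ℂ (fun τ => s τ - ζ * τ) S :=
      hsdo.sub (differentiableOn_id.const_mul ζ)
    have hF' : ∀ τ ∈ S, deriv (fun τ => s τ - ζ * τ) τ = 0 := by
      intro z hz
      have e := (hsd z hz).hasDerivAt.sub ((hasDerivAt_id z).const_mul ζ)
      have e' : HasDerivAt (fun τ => s τ - ζ * τ) (deriv s z - ζ * 1) z := e
      rw [e'.deriv, hconst z hz]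
      ring
    exact hSo.is_const_of_deriv_eq_zero hSc hF hF' hτ hτ₀S
  -- the constant is zero
  have hc0 : s τ₀ - ζ * τ₀ = 0 := by
    by_contra hne
    have hpos : 0 < ‖s τ₀ - ζ * τ₀‖ := norm_pos_iff.2 hne
    set c := ‖s τ₀ - ζ * τ₀‖ with hc
    set x : ℝ := min (ρ / 2) (c / (2 * (2 + ‖ζ‖))) with hx
    have hx0 : 0 < x := by
      apply lt_min (by linarith)
      have := norm_nonneg ζ
      positivity
    have hxS := hreal x hx0 (lt_of_le_of_lt (min_le_left _ _) (by linarith))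
    have e1 := haff (x : ℂ) hxS
    have e2 := hsn (x : ℂ) hxS
    have e3 : c ≤ (2 + ‖ζ‖) * x := by
      rw [hc, ← e1]
      have hxn : ‖(x : ℂ)‖ = x := by rw [Complex.norm_real, Real.norm_of_nonneg hx0.le]
      calc ‖s x - ζ * x‖ = ‖(s x - x) + (x - ζ * x)‖ := by ring_nf
        _ ≤ ‖s x - x‖ + ‖(x : ℂ) - ζ * x‖ := norm_add_le _ _
        _ ≤ 1 / 4 * ‖(x : ℂ)‖ + (‖(x : ℂ)‖ + ‖ζ * x‖) := add_le_add e2 (norm_sub_le _ _)
        _ ≤ (2 + ‖ζ‖) * x := by rw [norm_mul, hxn]; linarith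
    have e4 : x ≤ c / (2 * (2 + ‖ζ‖)) := min_le_right _ _
    have h2 : 0 < 2 + ‖ζ‖ := by have := norm_nonneg ζ; linarith
    rw [le_div_iff₀ (by positivity)] at e4
    nlinarith
  have hlin : ∀ τ ∈ S, s τ = ζ * τ := by
    intro τ hτ
    have := haff τ hτ
    rw [hc0] at this
    exact sub_eq_zero.1 this
  -- `ζ = 1`
  have hζn : ‖ζ - 1‖ ≤ 1 / 4 := by
    have e2 := hsn τ₀ hτ₀S
    rw [hlin τ₀ hτ₀S] at e2
    have e3 : ζ * τ₀ - τ₀ = (ζ - 1) * τ₀ := by ring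
    rw [e3, norm_mul] at e2
    exact le_of_mul_le_mul_right e2 (norm_pos_iff.2 (hτ0 τ₀ hτ₀S))
  have hζ6 : ζ ^ 6 = 1 := d6 τ₀ hτ₀S
  have hζ1 : ζ = 1 := by
    have hf : (ζ - 1) * (ζ ^ 5 + ζ ^ 4 + ζ ^ 3 + ζ ^ 2 + ζ + 1) = 0 := by
      linear_combination hζ6
    rcases mul_eq_zero.1 hf with h | h
    · exact sub_eq_zero.1 h
    · exfalso
      -- `ζ³ = -1` or `ζ² + ζ + 1 = 0`
      have hg : (ζ ^ 3 + 1) * (ζ ^ 2 + ζ + 1) = 0 := by linear_combination h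
      have hre : 3 / 4 ≤ ζ.re := by
        have := Complex.abs_re_le_norm (ζ - 1)
        rw [Complex.sub_re, Complex.one_re, abs_le] at this
        linarith [this.1]
      have him : |ζ.im| ≤ 1 / 4 := by
        have := Complex.abs_im_le_norm (ζ - 1)
        rw [Complex.sub_im, Complex.one_im, sub_zero] at this
        linarith
      have him2 : ζ.im ^ 2 ≤ 1 / 16 := by
        have := abs_le.1 him
        nlinarith [this.1, this.2]
      rcases mul_eq_zero.1 hg with h' | h'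
      · have hg' : (ζ + 1) * (ζ ^ 2 - ζ + 1) = 0 := by linear_combination h'
        rcases mul_eq_zero.1 hg' with h'' | h''
        · have := congrArg Complex.re h''
          simp at this
          linarith
        · -- re (ζ² - ζ + 1) = re² - im² - re + 1 > 0
          have := congrArg Complex.re h''
          simp [pow_two] at this
          nlinarith
      · have := congrArg Complex.re h'
        simp [pow_two] at this
        nlinarith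
  -- the two relations on `S`
  have r1 : ∀ τ ∈ S, Complex.exp (qB τ) = -Complex.exp (qA τ) := by
    intro τ hτ
    have h1 := d1 τ hτ
    rw [hconst τ hτ, hlin τ hτ, hζ1] at h1
    rw [one_mul, mul_one] at h1
    rw [h1]
    ring
  have r2 : ∀ τ ∈ S, Complex.exp (qA (-τ)) = Complex.exp (qB τ) := by
    intro τ hτ
    have hng : HasDerivAt (fun τ : ℂ => -τ) (-1) τ := (hasDerivAt_id τ).neg
    have e1 : HasDerivAt (fun τ => MA (-τ)) (deriv MA (-τ) * (-1)) τ :=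
      (hMAd (-τ) (hSgn τ hτ)).hasDerivAt.comp τ hng
    have e2 : HasDerivAt MB (deriv MB τ) τ := (hMBd τ (hSg τ hτ)).hasDerivAt
    have e3 : (fun τ => MA (-τ)) =ᶠ[𝓝 τ] MB := by
      filter_upwards [hSo.mem_nhds hτ] with z hz using hAB z hz
    have e4 := e1.unique (e2.congr_of_eventuallyEq e3)
    rw [hD.sA.slope.der (-τ) (hSgn τ hτ), hD.sB.slope.der τ (hSg τ hτ), hAB τ hτ, hjB] at e4
    have hne := hD.sB.slope.ne τ (hSg τ hτ)
    have e5 : 2 * jA * MB τ * Complex.exp (qA (-τ)) = 2 * jA * MB τ * Complex.exp (qB τ) := by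
      linear_combination -e4
    exact mul_left_cancel₀ (mul_ne_zero (mul_ne_zero two_ne_zero hj0) hne) e5
  -- identity theorem
  have hOo := isOpen_OvR κ'
  have hOc : IsPreconnected (OvR κ') := (convex_OvR hκ'0 hκ'1).isPreconnected
  have f1 : DifferentiableOn ℂ (fun τ => Complex.exp (qB τ)) (OvR κ') := fun τ hτ =>
    ((hqBd τ (OvR_sub_Sg hκ'κ.le hτ)).cexp).differentiableWithinAt
  have f2 : DifferentiableOn ℂ (fun τ => -Complex.exp (qA τ)) (OvR κ') := fun τ hτ =>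
    ((hqAd τ (OvR_sub_Sg hκ'κ.le hτ)).cexp.neg).differentiableWithinAt
  have f3 : DifferentiableOn ℂ (fun τ => Complex.exp (qA (-τ))) (OvR κ') := fun τ hτ => by
    have : DifferentiableAt ℂ (fun τ => qA (-τ)) τ :=
      (hqAd (-τ) (neg_OvR_sub_Sg hκ'κ.le hτ)).comp τ differentiableAt_id.neg
    exact this.cexp.differentiableWithinAt
  have g1 := (f1.analyticOnNhd hOo).eqOn_of_preconnected_of_eventuallyEq (f2.analyticOnNhd hOo) hOc
    (hSO τ₀ hτ₀S) (by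
      filter_upwards [hSo.mem_nhds hτ₀S] with z hz using r1 z hz)
  have g2 := (f3.analyticOnNhd hOo).eqOn_of_preconnected_of_eventuallyEq (f1.analyticOnNhd hOo) hOc
    (hSO τ₀ hτ₀S) (by
      filter_upwards [hSo.mem_nhds hτ₀S] with z hz using r2 z hz)
  exact ⟨1, one_pos, fun τ hτ _ => ⟨g1 hτ, g2 hτ⟩⟩

end Crest.Agent.R102.MelI6217
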