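import Crest.Agent.R102.Law_519_Mg
import Crest.Agent.R266.SCV
import Mathlib
import Crest.Agent.R102.T7K_416
import Crest.Agent.R102.SpineDefs_478
import Crest.Agent.R102.EndA_416
import Crest.Agent.R102.RLimI_231

-- ▼ part R102/MelSides_490
section

/-!
# Row 102, [T5]/MEL: from the two families to `Side`, `Match`, `Near0` (helper490)
-/

set_option autoImplicit false

open Set Filter Topology Metric
open scoped ComplexConjugate

noncomputable section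

namespace Crest.Agent.R102.Mel

open Crest.Agent.R102.T5R

/-! ### scaling -/

lemma Sg_scale {κ l : ℝ} (hl : 0 < l) (hl1 : l ≤ 1) {τ : ℂ} (h : τ ∈ Sg κ) :
    (l : ℂ) * τ ∈ Sg κ := by
  refine Wl_scale hl ⟨h.1, ?_, h.2.2⟩
  have := h.2.1
  nlinarith [norm_nonneg τ]

lemma OvR_scale {κ l : ℝ} (hl : 0 < l) (hl1 : l ≤ 1) {τ : ℂ} (h : τ ∈ OvR κ) :
    (l : ℂ) * τ ∈ OvR κ := by
  obtain ⟨h1, h2, h3, h4⟩ := h
  have hlc : (l : ℂ) ≠ 0 := by exact_mod_cast hl.ne'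
  have hn : ‖(l : ℂ) * τ‖ = l * ‖τ‖ := by
    rw [norm_mul, Complex.norm_real, Real.norm_of_nonneg hl.le]
  refine ⟨mul_ne_zero hlc h1, ?_, ?_, ?_⟩
  · rw [hn]; nlinarith [norm_nonneg τ]
  · rw [hn, Complex.im_ofReal_mul, abs_mul, abs_of_pos hl]
    nlinarith
  · rw [Complex.re_ofReal_mul]; positivity


lemma exp_scq {l : ℝ} (hl : 0 < l) (q : ℂ → ℂ) (τ : ℂ) :
    Complex.exp (scq l q τ) = l * Complex.exp (q (l * τ)) := by
  unfold scq
  rw [Complex.exp_add, ← Complex.ofReal_exp, Real.exp_log hl]; ring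

lemma Sg_isOpen (κ : ℝ) : IsOpen (Sg κ) := by
  refine IsOpen.inter isOpen_ne (IsOpen.inter ?_ ?_)
  · exact isOpen_lt continuous_norm continuous_const
  · exact isOpen_lt Complex.continuous_im (continuous_const.mul continuous_norm)

lemma deriv_scale (f : ℂ → ℂ) (l : ℝ) (τ : ℂ) :
    deriv (fun τ : ℂ => f ((l : ℂ) * τ)) τ = l * deriv f ((l : ℂ) * τ) := by
  have := deriv_comp_mul_left (l : ℂ) f τ
  simpa [smul_eq_mul] using this

lemma EndQ_scale {κ c β C l : ℝ} {q : ℂ → ℂ} (h : EndQ κ c β C q) (hl : 0 < l) (hl1 : l ≤ 1) :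
    EndQ κ c β (C * l ^ β) (scq l q) := by
  refine ⟨h.κ_pos, h.κ_lt, h.β_pos, ?_, ?_⟩
  · have h0 : DifferentiableOn ℂ (fun τ : ℂ => q ((l : ℂ) * τ)) (Sg κ) :=
      h.diff.comp (f := fun τ : ℂ => (l : ℂ) * τ) (by fun_prop) (fun τ hτ => Sg_scale hl hl1 hτ)
    exact h0.add_const ((Real.log l : ℝ) : ℂ)
  · intro τ hτ
    have hne : τ ≠ 0 := hτ.1
    have hlc : (l : ℂ) ≠ 0 := by exact_mod_cast hl.ne'
    have e1 : deriv (scq l q) τ = l * deriv q (l * τ) := by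
      unfold scq
      rw [deriv_add_const, deriv_scale]
    rw [e1]
    have e2 : (l : ℂ) * deriv q (l * τ) - c / τ = l * (deriv q (l * τ) - c / (l * τ)) := by
      field_simp
    rw [e2, norm_mul, Complex.norm_real, Real.norm_of_nonneg hl.le]
    have h3 := h.asym _ (Sg_scale hl hl1 hτ)
    rw [norm_mul, Complex.norm_real, Real.norm_of_nonneg hl.le] at h3
    calc l * ‖deriv q (l * τ) - c / (l * τ)‖ ≤ l * (C * (l * ‖τ‖) ^ (β - 1)) := by gcongr
      _ = C * l ^ β * ‖τ‖ ^ (β - 1) := by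
        rw [Real.mul_rpow hl.le (norm_nonneg _)]
        have : l ^ β = l * l ^ (β - 1) := by
          rw [← Real.rpow_one_add' hl.le (by simpa using h.β_pos.ne')]
          congr 1; ring
        rw [this]; ring

lemma diff_scale {κ l : ℝ} (hl : 0 < l) (hl1 : l ≤ 1) {f : ℂ → ℂ}
    (hf : DifferentiableOn ℂ f (Sg κ)) :
    DifferentiableOn ℂ (fun τ : ℂ => f ((l : ℂ) * τ)) (Sg κ) :=
  hf.comp (f := fun τ : ℂ => (l : ℂ) * τ) (by fun_prop) (fun τ hτ => Sg_scale hl hl1 hτ)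

lemma Slope_scale {κ l : ℝ} {q : ℂ → ℂ} {j : ℂ} {M : ℂ → ℂ} (h : Slope κ q j M) (hl : 0 < l)
    (hl1 : l ≤ 1) : Slope κ (scq l q) j (fun τ => M ((l : ℂ) * τ)) := by
  refine ⟨diff_scale hl hl1 h.diff, fun τ hτ => h.ne _ (Sg_scale hl hl1 hτ), ?_⟩
  intro τ hτ
  rw [deriv_scale, h.der _ (Sg_scale hl hl1 hτ), exp_scq hl]
  ring

lemma Pos_scale {κ l : ℝ} {q : ℂ → ℂ} {j σ : ℂ} {M E Z Zc : ℂ → ℂ} (h : Pos κ q j σ M E Z Zc)
    (hl : 0 < l) (hl1 : l ≤ 1) : Pos κ (scq l q) j σ (fun τ => M ((l : ℂ) * τ))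
      (fun τ => E ((l : ℂ) * τ)) (fun τ => Z ((l : ℂ) * τ) / l ^ 3)
      (fun τ => Zc ((l : ℂ) * τ) / l ^ 3) := by
  have hlc : (l : ℂ) ≠ 0 := by exact_mod_cast hl.ne'
  have hexp : ∀ τ : ℂ, Complex.exp (-2 * scq l q τ) =
      Complex.exp (-2 * q ((l : ℂ) * τ)) / l ^ 2 := by
    intro τ
    have e : (-2 : ℂ) * scq l q τ = -(scq l q τ + scq l q τ) := by ring
    have e' : (-2 : ℂ) * q ((l : ℂ) * τ) = -(q ((l : ℂ) * τ) + q ((l : ℂ) * τ)) := by ring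
    rw [e, e', Complex.exp_neg, Complex.exp_neg, Complex.exp_add, Complex.exp_add, exp_scq hl]
    have := Complex.exp_ne_zero (q ((l : ℂ) * τ))
    field_simp
  have hT : Tendsto (fun τ : ℂ => (l : ℂ) * τ) (𝓝[Sg κ] 0) (𝓝[Sg κ] 0) := by
    refine tendsto_nhdsWithin_iff.2 ⟨?_, ?_⟩
    · have : Tendsto (fun τ : ℂ => (l : ℂ) * τ) (𝓝 0) (𝓝 (l * 0)) :=
        (continuous_const.mul continuous_id).tendsto 0
      rw [mul_zero] at this
      exact this.mono_left nhdsWithin_le_nhds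
    · filter_upwards [self_mem_nhdsWithin] with τ hτ
      exact Sg_scale hl hl1 hτ
  refine ⟨h.hσ, diff_scale hl hl1 h.E_diff, fun τ hτ => h.E_sq _ (Sg_scale hl hl1 hτ),
    (diff_scale hl hl1 h.Z_diff).div_const _, (diff_scale hl hl1 h.Zc_diff).div_const _,
    ?_, ?_, ?_, ?_⟩
  · intro τ hτ
    rw [deriv_div_const, deriv_scale, h.Z_der _ (Sg_scale hl hl1 hτ), hexp]
    field_simp
  · intro τ hτ
    rw [deriv_div_const, deriv_scale, h.Zc_der _ (Sg_scale hl hl1 hτ), hexp]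
    field_simp
  · have := (h.Z_lim.comp hT).div_const ((l : ℂ) ^ 3)
    simpa using this
  · have := (h.Zc_lim.comp hT).div_const ((l : ℂ) ^ 3)
    simpa using this

lemma lim_scale {κ l : ℝ} (hl : 0 < l) (hl1 : l ≤ 1) {q : ℂ → ℂ} {j L : ℂ}
    (h : Tendsto (fun τ => τ * (j * Complex.exp (q τ))) (𝓝[Sg κ] 0) (𝓝 L)) :
    Tendsto (fun τ => τ * (j * Complex.exp (scq l q τ))) (𝓝[Sg κ] 0) (𝓝 L) := by
  have hT : Tendsto (fun τ : ℂ => (l : ℂ) * τ) (𝓝[Sg κ] 0) (𝓝[Sg κ] 0) := by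
    refine tendsto_nhdsWithin_iff.2 ⟨?_, ?_⟩
    · have : Tendsto (fun τ : ℂ => (l : ℂ) * τ) (𝓝 0) (𝓝 (l * 0)) :=
        (continuous_const.mul continuous_id).tendsto 0
      rw [mul_zero] at this
      exact this.mono_left nhdsWithin_le_nhds
    · filter_upwards [self_mem_nhdsWithin] with τ hτ
      exact Sg_scale hl hl1 hτ
  refine (h.comp hT).congr (fun τ => ?_)
  simp only [Function.comp_apply]
  rw [exp_scq hl]
  ring

/-! ### cones -/

lemma Dl_mono {κ c c' l : ℝ} (h : c' ≤ c) : Dl κ c' l ⊆ Dl κ c l := by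
  rintro t ⟨h1, h2, h3, h4⟩
  exact ⟨h1, h2, h3, h4.trans_le (mul_le_mul_of_nonneg_right h (norm_nonneg t))⟩

lemma DCone.mono {κ c C l₀ c' C' l₀' : ℝ} {Ψ : ℂ → ℂ → ℂ} {x : ℝ → ℂ → ℂ}
    (D : DCone κ c C l₀ Ψ x) (hc' : 0 < c') (hc : c' ≤ c) (hC : C ≤ C') (hcC : C' * c' ≤ 1 / 8)
    (hl₀' : 0 < l₀') (hl₀ : l₀' ≤ l₀) : DCone κ c' C' l₀' Ψ x := by
  refine ⟨D.κ_pos, hc', hc.trans_lt D.c_lt, hcC, hl₀', ?_, ?_, ?_⟩
  · intro l hl hl'
    exact (D.diff l hl (hl'.trans_le hl₀)).mono (Dl_mono hc)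
  · intro l hl hl' t ht
    refine (D.near l hl (hl'.trans_le hl₀) t (Dl_mono hc ht)).trans ?_
    gcongr
  · intro l hl hl' t h1 h2 h3
    exact D.el l hl (hl'.trans_le hl₀) t (Dl_mono hc h1) (Dl_mono hc h2) (Dl_mono hc h3)

lemma DCone.near8 {κ c C l₀ : ℝ} {Ψ : ℂ → ℂ → ℂ} {x : ℝ → ℂ → ℂ}
    (D : DCone κ c C l₀ Ψ x) (hC : 0 ≤ C) {l : ℝ} (hl : 0 < l) (hl' : l < l₀) {t : ℂ}
    (ht : t ∈ Dl κ c l) : ‖x l t - t‖ ≤ l / 8 := by
  refine (D.near l hl hl' t ht).trans ?_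
  have hn : 0 < ‖t‖ := norm_pos_iff.2 ht.1
  rw [div_le_iff₀ hn]
  have h1 : l < c * ‖t‖ := ht.2.2.2
  have h2 := D.Cc
  calc C * l ^ 2 = C * l * l := by ring
    _ ≤ C * l * (c * ‖t‖) := by gcongr
    _ = (C * c) * (l * ‖t‖) := by ring
    _ ≤ 1 / 8 * (l * ‖t‖) := by gcongr
    _ = l / 8 * ‖t‖ := by ring

lemma rlaw_of {κ κ' c C l₀ c₁ : ℝ} {q : ℂ → ℂ} {x : ℝ → ℂ → ℂ}
    (D : DCone κ' c C l₀ (PsiQ q) x) (hC : 0 ≤ C) (hκ' : κ' * 2 ≤ κ) (hκ1 : κ ≤ 1)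
    (hcκ : c ≤ κ') (hc1 : c ≤ c₁ / 2)
    (law : ∀ x w x₁ x₂ : ℂ, x ∈ Sg κ → ‖x‖ < 1 / 2 → w ≠ 0 → ‖w‖ < c₁ * ‖x‖ →
      ‖x₁ - (x - w)‖ ≤ ‖w‖ / 3 → ‖x₂ - (x + w)‖ ≤ ‖w‖ / 3 → EL (PsiQ q) x₁ x x₂ = 0 →
      Rj q Complex.I x x₁ * Rj q Complex.I x x₂ = 1) :
    ∀ l : ℝ, 0 < l → l < l₀ → ∀ t : ℂ, t + Complex.I * l ∈ Dl κ' c l → t ∈ Dl κ' c l →
    t - Complex.I * l ∈ Dl κ' c l →
    Rj q Complex.I (x l t) (x l (t + Complex.I * l)) *
      Rj q Complex.I (x l t) (x l (t - Complex.I * l)) = 1 := by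
  intro l hl hl' t h1 h2 h3
  have n0 := D.near8 hC hl hl' h2
  have n1 := D.near8 hC hl hl' h1
  have n2 := D.near8 hC hl hl' h3
  have hn : 0 < ‖t‖ := norm_pos_iff.2 h2.1
  have hlt : l < c * ‖t‖ := h2.2.2.2
  have ht8 : ‖t‖ < 1 / 8 := h2.2.1
  have him : t.im < κ' * ‖t‖ := h2.2.2.1
  have hc8 := D.c_lt
  have hκp := D.κ_pos
  have hxt : ‖t‖ - l / 8 ≤ ‖x l t‖ := by
    have := norm_sub_norm_le t (x l t)
    rw [norm_sub_rev] at this
    linarith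
  have hxt' : ‖x l t‖ ≤ ‖t‖ + l / 8 := by
    have := norm_sub_norm_le (x l t) t
    linarith
  have hx63 : 63 / 64 * ‖t‖ ≤ ‖x l t‖ := by nlinarith
  have hxpos : 0 < ‖x l t‖ := by nlinarith
  have hw : ‖-(Complex.I * (l : ℂ))‖ = l := by
    rw [norm_neg, norm_mul, Complex.norm_I, one_mul, Complex.norm_real, Real.norm_of_nonneg hl.le]
  have hlc : (l : ℂ) ≠ 0 := by exact_mod_cast hl.ne'
  refine law (x l t) (-(Complex.I * l)) _ _ ⟨norm_pos_iff.1 hxpos, by nlinarith, ?_⟩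
    (by nlinarith) (neg_ne_zero.2 (mul_ne_zero Complex.I_ne_zero hlc)) ?_ ?_ ?_
    (D.el l hl hl' t h1 h2 h3)
  · have h4 : (x l t).im ≤ t.im + l / 8 := by
      have := (Complex.abs_im_le_norm (x l t - t)).trans n0
      rw [Complex.sub_im] at this
      have := (abs_le.1 this).2
      linarith
    have h5 : c * ‖t‖ ≤ κ' * ‖t‖ := by gcongr
    have h6 : (x l t).im ≤ κ' * ‖t‖ * (9 / 8) := by nlinarith
    have h7 : κ' * ‖t‖ * (9 / 8) < κ * ‖x l t‖ := by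
      have h8 : κ' * 2 * ‖x l t‖ ≤ κ * ‖x l t‖ := by gcongr
      have h9 : κ' * 2 * (63 / 64 * ‖t‖) ≤ κ' * 2 * ‖x l t‖ := by gcongr
      nlinarith [mul_pos hκp hn]
    linarith
  · rw [hw]
    have h5 : c * ‖t‖ ≤ c₁ / 2 * ‖t‖ := by gcongr
    have hc₁ : 0 < c₁ := by linarith [D.c_pos]
    nlinarith [mul_pos hc₁ hn]
  · rw [hw]
    have e : x l (t + Complex.I * l) - (x l t - -(Complex.I * l)) =
        (x l (t + Complex.I * l) - (t + Complex.I * l)) - (x l t - t) := by ring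
    rw [e]
    refine (norm_sub_le _ _).trans ?_
    linarith
  · rw [hw]
    have e : x l (t - Complex.I * l) - (x l t + -(Complex.I * l)) =
        (x l (t - Complex.I * l) - (t - Complex.I * l)) - (x l t - t) := by ring
    rw [e]
    refine (norm_sub_le _ _).trans ?_
    linarith

/-! ### `Near0` -/

lemma Fam_open (κ a r : ℝ) : IsOpen {p : ℂ × ℂ | p.1 ∈ Sg κ ∧ a < ‖p.1‖ ∧ ‖p.2‖ < r} := by
  refine IsOpen.inter ((Sg_isOpen κ).preimage continuous_fst) (IsOpen.inter ?_ ?_)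
  · exact isOpen_lt continuous_const continuous_fst.norm
  · exact isOpen_lt continuous_snd.norm continuous_const

lemma near0_of {κ₁ κ' cA c l₀ l₁ : ℝ} {Ψ : ℂ → ℂ → ℂ} {r B : ℝ → ℝ} {X : ℂ × ℂ → ℂ}
    {x : ℝ → ℂ → ℂ} {S : Set ℂ} (F : Fam κ₁ Ψ r B X) (hS : S ⊆ Sg κ') (hκ : κ' ≤ κ₁)
    (hc : 0 < c) (hcA : c ≤ cA) (hl₀ : 0 < l₀) (hl₁ : l₀ ≤ l₁)
    (link : ∀ a l : ℝ, 0 < a → 0 < l → l < l₁ → l < r a → ∀ t ∈ Dl κ' cA l, a < ‖t‖ →
      x l t = X (t, -Complex.I * l)) : Near0 S κ' c l₀ x X := by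
  have hSg : ∀ t ∈ Sg κ', t ∈ Sg κ₁ := by
    rintro t ⟨h1, h2, h3⟩
    exact ⟨h1, h2, h3.trans_le (by gcongr)⟩
  have hmem : ∀ t ∈ Sg κ', ((t, (0 : ℂ)) : ℂ × ℂ) ∈
      {p : ℂ × ℂ | p.1 ∈ Sg κ₁ ∧ ‖t‖ / 2 < ‖p.1‖ ∧ ‖p.2‖ < r (‖t‖ / 2)} := by
    intro t ht
    have hn : 0 < ‖t‖ := norm_pos_iff.2 ht.1
    refine ⟨hSg t ht, ?_, ?_⟩
    · change ‖t‖ / 2 < ‖t‖
      linarith
    · change ‖(0 : ℂ)‖ < _
      rw [norm_zero]
      exact F.r_pos _ (by linarith)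
  refine ⟨?_, ?_, ?_, ?_⟩
  · intro t ht
    have hn : 0 < ‖t‖ := norm_pos_iff.2 (hS ht).1
    exact Crest.Agent.R266.SCV.analyticOnNhd_of_differentiableOn (Fam_open κ₁ (‖t‖ / 2) _)
      (F.diff (‖t‖ / 2) (by linarith)) _ (hmem t (hS ht))
  · intro t ht
    have hn : 0 < ‖t‖ := norm_pos_iff.2 (hS ht).1
    have := F.near (‖t‖ / 2) (by linarith) t 0 (hSg t (hS ht)) (by linarith)
      (by rw [norm_zero]; exact F.r_pos _ (by linarith))
    rw [norm_zero, zero_pow two_ne_zero, mul_zero] at this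
    exact sub_eq_zero.1 (norm_le_zero_iff.1 this)
  · intro t ht
    have hn : 0 < ‖t‖ := norm_pos_iff.2 (hS ht).1
    filter_upwards [(Fam_open κ₁ (‖t‖ / 2) (r (‖t‖ / 2))).mem_nhds (hmem t (hS ht))] with p hp
    exact F.even (‖t‖ / 2) (by linarith) p.1 p.2 hp.1 hp.2.1 hp.2.2
  · intro t ht ht8
    have hn : 0 < ‖t‖ := norm_pos_iff.2 (hS ht).1
    have hO : IsOpen {t' : ℂ | t' ∈ Sg κ' ∧ ‖t'‖ < 1 / 8 ∧ ‖t‖ / 2 < ‖t'‖} := by
      refine IsOpen.inter (Sg_isOpen κ') (IsOpen.inter ?_ ?_)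
      · exact isOpen_lt continuous_norm continuous_const
      · exact isOpen_lt continuous_const continuous_norm
    obtain ⟨e, he, heO⟩ := Metric.isOpen_iff.1 hO t ⟨hS ht, ht8, by linarith⟩
    refine ⟨min e (min l₀ (min (r (‖t‖ / 2)) (c * (‖t‖ / 2)))), ?_, ?_⟩
    · refine lt_min he (lt_min hl₀ (lt_min (F.r_pos _ (by linarith)) (by positivity)))
    · intro t' ht' l hl hle
      obtain ⟨h1, h2, h3⟩ := heO (ball_subset_ball (min_le_left _ _) ht')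
      have hl1 : l < l₀ := hle.trans_le ((min_le_right _ _).trans (min_le_left _ _))
      have hl2 : l < r (‖t‖ / 2) := hle.trans_le
        ((min_le_right _ _).trans ((min_le_right _ _).trans (min_le_left _ _)))
      have hl3 : l < c * (‖t‖ / 2) := hle.trans_le
        ((min_le_right _ _).trans ((min_le_right _ _).trans (min_le_right _ _)))
      have hD : t' ∈ Dl κ' c l := ⟨h1.1, h2, h1.2.2, hl3.trans (by gcongr)⟩
      exact ⟨hl1, hD, (link (‖t‖ / 2) l (by linarith) hl (hl1.trans_le hl₁) hl2 t'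
        (Dl_mono hcA hD) h3).symm⟩

/-! ### `Match` -/

lemma wext {κ₁ : ℝ} {ΨA ΨB : ℂ → ℂ → ℂ} {rA BA rB BB : ℝ → ℝ} {XA XB : ℂ × ℂ → ℂ}
    (FA : Fam κ₁ ΨA rA BA XA) (FB : Fam κ₁ ΨB rB BB XB)
    (hX : ∀ t ∈ OvR κ₁, ∀ᶠ w in 𝓝 (0 : ℂ), XB (-t, w) = -XA (t, w)) {a : ℝ} (ha : 0 < a) {t w : ℂ}
    (ht : t ∈ OvR κ₁) (hta : a < ‖t‖) (hwA : ‖w‖ < rA a) (hwB : ‖w‖ < rB a) :
    XB (-t, w) = -XA (t, w) := by
  set R : ℝ := min (rA a) (rB a) with hR
  have hR0 : 0 < R := lt_min (FA.r_pos a ha) (FB.r_pos a ha)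
  have htA : t ∈ Sg κ₁ := ⟨ht.1, ht.2.1, (le_abs_self _).trans_lt ht.2.2.1⟩
  have htB : -t ∈ Sg κ₁ := by
    refine ⟨neg_ne_zero.2 ht.1, by rw [norm_neg]; exact ht.2.1, ?_⟩
    rw [norm_neg, Complex.neg_im]
    exact (neg_le_abs _).trans_lt ht.2.2.1
  have hd1 : DifferentiableOn ℂ (fun w : ℂ => XB (-t, w)) (ball 0 R) := by
    refine (FB.diff a ha).comp (f := fun w : ℂ => ((-t, w) : ℂ × ℂ)) (by fun_prop) ?_
    intro w hw
    rw [mem_ball_zero_iff] at hw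
    exact ⟨htB, by rw [norm_neg]; exact hta, hw.trans_le (min_le_right _ _)⟩
  have hd2 : DifferentiableOn ℂ (fun w : ℂ => -XA (t, w)) (ball 0 R) := by
    refine DifferentiableOn.neg ?_
    refine (FA.diff a ha).comp (f := fun w : ℂ => ((t, w) : ℂ × ℂ)) (by fun_prop) ?_
    intro w hw
    rw [mem_ball_zero_iff] at hw
    exact ⟨htA, hta, hw.trans_le (min_le_left _ _)⟩
  have heq := (hd1.analyticOnNhd isOpen_ball).eqOn_of_preconnected_of_eventuallyEq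
    (hd2.analyticOnNhd isOpen_ball) (convex_ball (0 : ℂ) R).isPreconnected
    (mem_ball_self hR0) (hX t ht)
  exact heq (mem_ball_zero_iff.2 (lt_min hwA hwB))

lemma match_of {κ₁ κ' c C l₀ : ℝ} {ΨA ΨB : ℂ → ℂ → ℂ} {rA BA rB BB : ℝ → ℝ}
    {XA XB : ℂ × ℂ → ℂ} {xA xB : ℝ → ℂ → ℂ}
    (FA : Fam κ₁ ΨA rA BA XA) (FB : Fam κ₁ ΨB rB BB XB) (hκ : κ' ≤ κ₁)
    (hX : ∀ t ∈ OvR κ₁, ∀ᶠ w in 𝓝 (0 : ℂ), XB (-t, w) = -XA (t, w))
    (DA : DCone κ' c C l₀ ΨA xA) (DB : DCone κ' c C l₀ ΨB xB)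
    (linkA : ∀ l : ℝ, 0 < l → l < l₀ → ∀ t ∈ Dl κ' c l, 1 / 16 < ‖t‖ →
      xA l t = XA (t, -Complex.I * l))
    (linkB : ∀ l : ℝ, 0 < l → l < l₀ → ∀ t ∈ Dl κ' c l, 1 / 16 < ‖t‖ →
      xB l t = XB (t, -Complex.I * l))
    (hlA : l₀ ≤ rA (1 / 16)) (hlB : l₀ ≤ rB (1 / 16)) :
    ∀ l : ℝ, 0 < l → l < l₀ → ∀ t ∈ Dl κ' c l, -t ∈ Dl κ' c l → 0 < t.re →
      xB l (-t) = -xA l t := by
  intro l hl hl' t₀ ht hnt hre
  have hn₀ : 0 < ‖t₀‖ := norm_pos_iff.2 ht.1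
  set n₀ : ℝ := ‖t₀‖ with hn₀def
  have h8 : n₀ < 1 / 8 := ht.2.1
  have him1 : t₀.im < κ' * n₀ := ht.2.2.1
  have him2 : -t₀.im < κ' * n₀ := by
    have := hnt.2.2.1
    rwa [norm_neg, Complex.neg_im] at this
  have him : |t₀.im| < κ' * n₀ := abs_lt.2 ⟨by linarith, him1⟩
  have hlc : l < c * n₀ := ht.2.2.2
  have hc := DA.c_pos
  have hκp := DA.κ_pos
  obtain ⟨δ, hδ, hδ1, hδ2, hδ3, hδ4⟩ : ∃ δ : ℝ, 0 < δ ∧ δ < 1 ∧ n₀ * δ + |t₀.im| < κ' * n₀ ∧
      l < c * (n₀ * (1 - δ)) ∧ n₀ * δ < t₀.re := by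
    have hgap1 : 0 < κ' * n₀ - |t₀.im| := by linarith
    have hgap2 : 0 < c * n₀ - l := by linarith
    refine ⟨min (1 / 2) (min ((κ' * n₀ - |t₀.im|) / (2 * n₀)) (min ((c * n₀ - l) / (2 * c * n₀))
      (t₀.re / (2 * n₀)))), ?_, ?_, ?_, ?_, ?_⟩
    · refine lt_min (by norm_num) (lt_min (by positivity) (lt_min (by positivity) (by positivity)))
    · exact lt_of_le_of_lt (min_le_left _ _) (by norm_num)
    · have h1 : min (1 / 2) (min ((κ' * n₀ - |t₀.im|) / (2 * n₀)) (min ((c * n₀ - l) / (2 * c * n₀))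
        (t₀.re / (2 * n₀)))) ≤ (κ' * n₀ - |t₀.im|) / (2 * n₀) :=
        (min_le_right _ _).trans (min_le_left _ _)
      rw [le_div_iff₀ (by positivity)] at h1
      nlinarith
    · have h1 : min (1 / 2) (min ((κ' * n₀ - |t₀.im|) / (2 * n₀)) (min ((c * n₀ - l) / (2 * c * n₀))
        (t₀.re / (2 * n₀)))) ≤ (c * n₀ - l) / (2 * c * n₀) :=
        (min_le_right _ _).trans ((min_le_right _ _).trans (min_le_left _ _))
      rw [le_div_iff₀ (by positivity)] at h1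
      nlinarith
    · have h1 : min (1 / 2) (min ((κ' * n₀ - |t₀.im|) / (2 * n₀)) (min ((c * n₀ - l) / (2 * c * n₀))
        (t₀.re / (2 * n₀)))) ≤ t₀.re / (2 * n₀) :=
        (min_le_right _ _).trans ((min_le_right _ _).trans (min_le_right _ _))
      rw [le_div_iff₀ (by positivity)] at h1
      nlinarith
  -- the convex set
  set Z : Set ℂ := {z | 1 - δ < z.re ∧ |z.im| < δ * z.re ∧ n₀ * ‖z‖ < 1 / 8} with hZ
  have hZo : IsOpen Z := by
    refine IsOpen.inter (isOpen_lt continuous_const Complex.continuous_re)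
      (IsOpen.inter (isOpen_lt Complex.continuous_im.abs
        (continuous_const.mul Complex.continuous_re))
        (isOpen_lt (continuous_const.mul continuous_norm) continuous_const))
  have hZc : Convex ℝ Z := by
    rintro x ⟨x1, x2, x3⟩ y ⟨y1, y2, y3⟩ p q' hp hq hpq
    have e1 : (p • x + q' • y).re = p * x.re + q' * y.re := by simp
    have e2 : (p • x + q' • y).im = p * x.im + q' * y.im := by simp
    refine ⟨?_, ?_, ?_⟩
    · rw [e1]
      rcases hp.eq_or_lt with h | h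
      · have : q' = 1 := by linarith
        rw [← h, this]; linarith
      · nlinarith
    · rw [e1, e2]
      have f1 : |p * x.im + q' * y.im| ≤ p * |x.im| + q' * |y.im| := by
        refine (abs_add_le _ _).trans ?_
        rw [abs_mul, abs_mul, abs_of_nonneg hp, abs_of_nonneg hq]
      have f2 : p * |x.im| ≤ p * (δ * x.re) := by gcongr
      have f3 : q' * |y.im| ≤ q' * (δ * y.re) := by gcongr
      rcases hp.eq_or_lt with h | h
      · have hq1 : q' = 1 := by linarith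
        rw [← h, hq1] at f1 ⊢
        linarith
      · have f4 : p * |x.im| < p * (δ * x.re) := by gcongr
        linarith
    · have f1 : ‖p • x + q' • y‖ ≤ p * ‖x‖ + q' * ‖y‖ := by
        refine (norm_add_le _ _).trans ?_
        rw [norm_smul, norm_smul, Real.norm_of_nonneg hp, Real.norm_of_nonneg hq]
      have f2 : n₀ * ‖p • x + q' • y‖ ≤ n₀ * (p * ‖x‖ + q' * ‖y‖) := by gcongr
      rcases hp.eq_or_lt with h | h
      · have hq1 : q' = 1 := by linarith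
        rw [← h, hq1] at f2 ⊢
        linarith
      · have f4 : p * (n₀ * ‖x‖) < p * (1 / 8) := by gcongr
        have f5 : q' * (n₀ * ‖y‖) ≤ q' * (1 / 8) := by gcongr
        nlinarith
  -- points
  have hpt : ∀ z ∈ Z, t₀ * z ∈ Dl κ' c l ∧ -(t₀ * z) ∈ Dl κ' c l ∧ 0 < (t₀ * z).re ∧
      |(t₀ * z).im| < κ' * ‖t₀ * z‖ := by
    rintro z ⟨z1, z2, z3⟩
    have hzre : 0 < z.re := by linarith
    have hzn : z.re ≤ ‖z‖ := (le_abs_self _).trans (Complex.abs_re_le_norm z)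
    have hzn0 : 0 < ‖z‖ := by linarith
    have hnorm : ‖t₀ * z‖ = n₀ * ‖z‖ := by rw [norm_mul]
    have hre0 : |t₀.re| ≤ n₀ := Complex.abs_re_le_norm t₀
    have him0 : |t₀.im| ≤ n₀ := Complex.abs_im_le_norm t₀
    have h1 : |(t₀ * z).im| < κ' * ‖t₀ * z‖ := by
      rw [Complex.mul_im, hnorm]
      have f1 : |t₀.re * z.im + t₀.im * z.re| ≤ n₀ * (δ * z.re) + |t₀.im| * z.re := by
        refine (abs_add_le _ _).trans ?_
        rw [abs_mul, abs_mul, abs_of_pos hzre]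
        gcongr
      have f2 : n₀ * (δ * z.re) + |t₀.im| * z.re = (n₀ * δ + |t₀.im|) * z.re := by ring
      have f3 : (n₀ * δ + |t₀.im|) * z.re < κ' * n₀ * z.re := by gcongr
      have f4 : κ' * n₀ * z.re ≤ κ' * n₀ * ‖z‖ := by gcongr
      rw [f2] at f1
      calc _ ≤ _ := f1
        _ < _ := f3
        _ ≤ _ := f4
        _ = κ' * (n₀ * ‖z‖) := by ring
    have h2 : l < c * ‖t₀ * z‖ := by
      rw [hnorm]
      have : 1 - δ < ‖z‖ := by linarith
      refine hδ3.trans ?_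
      gcongr
    have hz0 : t₀ * z ≠ 0 := mul_ne_zero ht.1 (norm_pos_iff.1 hzn0)
    refine ⟨⟨hz0, by rw [hnorm]; exact z3, (le_abs_self _).trans_lt h1, h2⟩,
      ⟨neg_ne_zero.2 hz0, by rw [norm_neg, hnorm]; exact z3, ?_, by rw [norm_neg]; exact h2⟩, ?_, h1⟩
    · rw [Complex.neg_im, norm_neg]
      exact (neg_le_abs _).trans_lt h1
    · rw [Complex.mul_re]
      have f1 : t₀.im * z.im ≤ |t₀.im| * |z.im| := (le_abs_self _).trans (abs_mul _ _).le
      have f2 : |t₀.im| * |z.im| ≤ n₀ * (δ * z.re) := by gcongr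
      have f3 : n₀ * δ * z.re < t₀.re * z.re := by gcongr
      nlinarith
  have hdA : DifferentiableOn ℂ (fun z : ℂ => -xA l (t₀ * z)) Z := by
    refine DifferentiableOn.neg ?_
    exact (DA.diff l hl hl').comp (f := fun z : ℂ => t₀ * z) (by fun_prop)
      (fun z hz => (hpt z hz).1)
  have hdB : DifferentiableOn ℂ (fun z : ℂ => xB l (-(t₀ * z))) Z :=
    (DB.diff l hl hl').comp (f := fun z : ℂ => -(t₀ * z)) (by fun_prop)
      (fun z hz => (hpt z hz).2.1)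
  set z₁ : ℝ := (n₀ + 1 / 8) / (2 * n₀) with hz₁
  have hz₁n : n₀ * z₁ = (n₀ + 1 / 8) / 2 := by rw [hz₁]; field_simp
  have hz₁1 : 1 < z₁ := by
    rw [hz₁, lt_div_iff₀ (by positivity)]; linarith
  have hz₁Z : (z₁ : ℂ) ∈ Z := by
    refine ⟨?_, ?_, ?_⟩
    · rw [Complex.ofReal_re]; linarith
    · rw [Complex.ofReal_im, Complex.ofReal_re, abs_zero]; positivity
    · rw [Complex.norm_real, Real.norm_of_nonneg (by linarith), hz₁n]; linarith
  have h1Z : (1 : ℂ) ∈ Z := by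
    refine ⟨?_, ?_, ?_⟩
    · rw [Complex.one_re]; linarith
    · rw [Complex.one_im, Complex.one_re, abs_zero]; linarith
    · rw [norm_one]; linarith
  have hev : (fun z : ℂ => xB l (-(t₀ * z))) =ᶠ[𝓝 (z₁ : ℂ)] fun z => -xA l (t₀ * z) := by
    have hO : IsOpen {z : ℂ | 1 / 16 < n₀ * ‖z‖} :=
      isOpen_lt continuous_const (continuous_const.mul continuous_norm)
    have hm : (z₁ : ℂ) ∈ {z : ℂ | 1 / 16 < n₀ * ‖z‖} := by
      change 1 / 16 < n₀ * ‖(z₁ : ℂ)‖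
      rw [Complex.norm_real, Real.norm_of_nonneg (by linarith), hz₁n]; linarith
    filter_upwards [hZo.mem_nhds hz₁Z, hO.mem_nhds hm] with z hz hz16
    obtain ⟨p1, p2, p3, p4⟩ := hpt z hz
    have hn16 : 1 / 16 < ‖t₀ * z‖ := by rw [norm_mul]; exact hz16
    rw [linkA l hl hl' _ p1 hn16, linkB l hl hl' _ p2 (by rw [norm_neg]; exact hn16)]
    have hw : ‖-Complex.I * (l : ℂ)‖ = l := by
      rw [norm_mul, norm_neg, Complex.norm_I, one_mul, Complex.norm_real, Real.norm_of_nonneg hl.le]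
    refine wext FA FB hX (a := 1 / 16) (by norm_num) ⟨p1.1, by linarith [p1.2.1], ?_, p3⟩ hn16
      (by rw [hw]; linarith) (by rw [hw]; linarith)
    exact p4.trans_le (by gcongr)
  have heq := (hdB.analyticOnNhd hZo).eqOn_of_preconnected_of_eventuallyEq
    (hdA.analyticOnNhd hZo) hZc.isPreconnected hz₁Z hev
  have := heq h1Z
  simpa using this

end Crest.Agent.R102.Mel
end
end

-- ▼ part R102/MLZ_519
section

/-!
# Row 102, T5-MEL, (ML-Z): single valued + Puiseux => analytic / Nice  (helper519)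
-/

set_option autoImplicit false

open Complex Metric Set Filter Topology

namespace Crest.Agent.R102.MLZ519

/-- a function of `x` near `0` invariant under a primitive `n`-th root of unity is a function of
`x ^ n` -/
theorem inv_root {n : ℕ} (hn : 0 < n) {ζ : ℂ} (hζ : IsPrimitiveRoot ζ n) {r : ℝ} (hr : 0 < r)
    {g : ℂ → ℂ} (hg : DifferentiableOn ℂ g (ball 0 r))
    (hinv : ∀ x ∈ ball (0 : ℂ) r, g (ζ * x) = g x) :
    ∃ h : ℂ → ℂ, DifferentiableOn ℂ h (ball 0 (r ^ n)) ∧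
      ∀ x ∈ ball (0 : ℂ) r, g x = h (x ^ n) := by
  have : NeZero n := ⟨hn.ne'⟩
  have hζ1 : ‖ζ‖ = 1 := hζ.norm'_eq_one hn.ne'
  have hn0 : (n : ℂ) ≠ 0 := by exact_mod_cast hn.ne'
  -- invariance under all powers
  have hpow : ∀ j : ℕ, ∀ x ∈ ball (0 : ℂ) r, g (ζ ^ j * x) = g x := by
    intro j
    induction j with
    | zero => intro x _; simp
    | succ j ih =>
      intro x hx
      have hx' : ζ ^ j * x ∈ ball (0 : ℂ) r := by
        rw [mem_ball_zero_iff] at hx ⊢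
        rw [norm_mul, norm_pow, hζ1, one_pow, one_mul]; exact hx
      rw [pow_succ', mul_assoc, hinv _ hx', ih x hx]
  -- two roots of the same number
  have hroot : ∀ x ∈ ball (0 : ℂ) r, ∀ y : ℂ, y ^ n = x ^ n → g y = g x := by
    intro x hx y hy
    rcases eq_or_ne x 0 with rfl | hx0
    · have : y = 0 := by
        rw [zero_pow hn.ne'] at hy
        exact pow_eq_zero_iff hn.ne' |>.1 hy
      rw [this]
    · have h1 : (y / x) ^ n = 1 := by
        rw [div_pow, hy, div_self (pow_ne_zero _ hx0)]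
      obtain ⟨j, _, hj⟩ := hζ.eq_pow_of_pow_eq_one h1
      have : y = ζ ^ j * x := by
        rw [hj]; field_simp
      rw [this, hpow j x hx]
  let h : ℂ → ℂ := fun τ => g (τ ^ ((1 : ℂ) / n))
  have hpn : ∀ τ : ℂ, (τ ^ ((1 : ℂ) / n)) ^ n = τ := by
    intro τ
    rw [one_div]
    exact cpow_nat_inv_pow τ hn.ne'
  have hh : ∀ x ∈ ball (0 : ℂ) r, g x = h (x ^ n) := by
    intro x hx
    exact (hroot x hx _ (hpn _)).symm
  refine ⟨h, ?_, hh⟩
  have hnorm : ∀ τ ∈ ball (0 : ℂ) (r ^ n), τ ^ ((1 : ℂ) / n) ∈ ball (0 : ℂ) r := by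
    intro τ hτ
    rw [mem_ball_zero_iff] at hτ ⊢
    by_contra hcon
    push Not at hcon
    have : r ^ n ≤ ‖τ ^ ((1 : ℂ) / n)‖ ^ n := pow_le_pow_left₀ hr.le hcon n
    rw [← norm_pow, hpn] at this
    linarith
  rw [← Complex.differentiableOn_compl_singleton_and_continuousAt_iff
    (isOpen_ball.mem_nhds (mem_ball_self (pow_pos hr n)))]
  constructor
  · intro τ₀ hτ₀
    obtain ⟨hτb, hτ0⟩ := hτ₀
    rw [mem_singleton_iff] at hτ0
    refine DifferentiableAt.differentiableWithinAt ?_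
    set x₀ : ℂ := τ₀ ^ ((1 : ℂ) / n) with hx₀
    have hx₀b : x₀ ∈ ball (0 : ℂ) r := hnorm τ₀ hτb
    have hx₀n : x₀ ^ n = τ₀ := hpn τ₀
    have hx₀0 : x₀ ≠ 0 := by
      intro h0
      rw [h0, zero_pow hn.ne'] at hx₀n
      exact hτ0 hx₀n.symm
    -- the local inverse of `x ↦ x ^ n`
    have hsd : HasStrictDerivAt (fun x : ℂ => x ^ n) ((n : ℂ) * x₀ ^ (n - 1)) x₀ :=
      hasStrictDerivAt_pow n x₀
    have hne : (n : ℂ) * x₀ ^ (n - 1) ≠ 0 := mul_ne_zero hn0 (pow_ne_zero _ hx₀0)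
    set φ := hsd.localInverse (fun x : ℂ => x ^ n) _ x₀ hne with hφ
    have hφd : HasStrictDerivAt φ ((n : ℂ) * x₀ ^ (n - 1))⁻¹ (x₀ ^ n) := hsd.to_localInverse hne
    have hφx : φ (x₀ ^ n) = x₀ := (hsd.hasStrictFDerivAt_equiv hne).localInverse_apply_image
    have hφr : ∀ᶠ τ in 𝓝 (x₀ ^ n), (φ τ) ^ n = τ := hsd.eventually_right_inverse hne
    rw [hx₀n] at hφd hφx hφr
    have hgd : DifferentiableAt ℂ g x₀ := (hg x₀ hx₀b).differentiableAt (isOpen_ball.mem_nhds hx₀b)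
    have hcomp : DifferentiableAt ℂ (fun τ => g (φ τ)) τ₀ := by
      have h1 : DifferentiableAt ℂ g (φ τ₀) := by rw [hφx]; exact hgd
      exact h1.comp τ₀ hφd.hasDerivAt.differentiableAt
    refine hcomp.congr_of_eventuallyEq ?_
    have hφb : ∀ᶠ τ in 𝓝 τ₀, φ τ ∈ ball (0 : ℂ) r := by
      have hc : ContinuousAt φ τ₀ := hφd.hasDerivAt.continuousAt
      exact hc.eventually (by rw [hφx]; exact isOpen_ball.mem_nhds hx₀b)
    filter_upwards [hφr, hφb] with τ h1 h2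
    exact hroot _ h2 _ (by rw [hpn, h1])
  · -- continuity at `0`
    have hg0 : ContinuousAt g 0 :=
      (hg.differentiableAt (isOpen_ball.mem_nhds (mem_ball_self hr))).continuousAt
    have hr0 : Tendsto (fun τ : ℂ => τ ^ ((1 : ℂ) / n)) (𝓝 0) (𝓝 0) := by
      rw [tendsto_zero_iff_norm_tendsto_zero]
      have h1 : (fun τ : ℂ => ‖τ ^ ((1 : ℂ) / n)‖) = fun τ => ‖τ‖ ^ ((1 : ℝ) / n) := by
        funext τ
        have h2 : (‖τ ^ ((1 : ℂ) / n)‖) ^ n = ‖τ‖ := by rw [← norm_pow, hpn]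
        have h3 : (‖τ‖ ^ ((1 : ℝ) / n)) ^ n = ‖τ‖ := by
          rw [one_div]; exact Real.rpow_inv_natCast_pow (norm_nonneg _) hn.ne'
        exact (pow_left_inj₀ (norm_nonneg _) (Real.rpow_nonneg (norm_nonneg _) _) hn.ne').1
          (h2.trans h3.symm)
      rw [h1]
      have h4 : Tendsto (fun τ : ℂ => ‖τ‖) (𝓝 0) (𝓝 0) := by
        simpa using (continuous_norm (E := ℂ)).tendsto 0
      have h5 : Tendsto (fun x : ℝ => x ^ ((1 : ℝ) / n)) (𝓝 0) (𝓝 0) := by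
        have := (Real.continuous_rpow_const (q := (1 : ℝ) / n) (by positivity)).tendsto 0
        rwa [Real.zero_rpow (by positivity)] at this
      exact h5.comp h4
    have h00 : h 0 = g 0 := by
      simp only [h]
      congr 1
      exact Complex.zero_cpow (by simp [hn0])
    have : Tendsto h (𝓝 0) (𝓝 (g 0)) := hg0.tendsto.comp hr0
    rw [ContinuousAt, h00]
    exact this

/-! ### Nice from an even slope -/

open Crest.Agent.R102.T7M

/-- the slope `M = e^{2iθ}` is `τ^{±2} h(τ^2)` near the end: nice point -/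
theorem nice_of_even {h0 : ℝ} (h0p : 0 < h0) {y M : ℂ → ℂ} {s : ℂ} (hs : s.im = h0) {r : ℝ}
    (hr : 0 < r) {ε : ℤ} (hε : ε = 1 ∨ ε = -1) {h : ℂ → ℂ} (hh : AnalyticAt ℂ h 0) (hh0 : h 0 ≠ 0)
    (hM : ∀ z ∈ ball s r, |z.im| < h0 → M z = (z - s) ^ (2 * ε) * h ((z - s) ^ 2))
    (hder : ∀ z ∈ ball s r, |z.im| < h0 → deriv M z = 2 * I * y z * M z) :
    ∃ (r' : ℝ) (a : ℂ) (F : ℂ → ℂ), Nice h0 y s r' a F := by
  -- `u` with `u^2 = h^ε` near `0`
  have hlog : ∃ u : ℂ → ℂ, AnalyticAt ℂ u 0 ∧ u 0 ≠ 0 ∧ ∀ᶠ b in 𝓝 (0 : ℂ), u b ^ 2 = h b ^ ε := by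
    have h1 : AnalyticAt ℂ (fun b => h b / h 0) 0 := hh.div_const
    have h2 : h 0 / h 0 ∈ slitPlane := by rw [div_self hh0]; exact one_mem_slitPlane
    refine ⟨fun b => (h 0 ^ ((ε : ℂ) / 2)) * exp ((ε : ℂ) / 2 * log (h b / h 0)), ?_, ?_, ?_⟩
    · exact analyticAt_const.mul ((analyticAt_const.mul (h1.clog h2)).cexp)
    · exact mul_ne_zero (by simp [Complex.cpow_eq_zero_iff, hh0]) (exp_ne_zero _)
    · have h3 : ∀ᶠ b in 𝓝 (0 : ℂ), h b / h 0 ≠ 0 := by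
        refine h1.continuousAt.eventually_ne ?_
        simp [hh0]
      filter_upwards [h3] with b hb
      have e1 : (h 0 ^ ((ε : ℂ) / 2)) ^ 2 = h 0 ^ ε := by
        rw [← Complex.cpow_nat_mul]
        have : ((2 : ℕ) : ℂ) * ((ε : ℂ) / 2) = ε := by push_cast; ring
        rw [this, Complex.cpow_intCast]
      have e2 : exp ((ε : ℂ) / 2 * log (h b / h 0)) ^ 2 = (h b / h 0) ^ ε := by
        rw [← Complex.exp_nat_mul]
        have : ((2 : ℕ) : ℂ) * ((ε : ℂ) / 2 * log (h b / h 0)) = (ε : ℂ) * log (h b / h 0) := by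
          push_cast; ring
        rw [this, Complex.exp_int_mul, Complex.exp_log hb]
      rw [mul_pow, e1, e2, div_zpow]
      field_simp
  obtain ⟨u, hu, hu0, hu2⟩ := hlog
  have hhne : ∀ᶠ b in 𝓝 (0 : ℂ), h b ≠ 0 := hh.continuousAt.eventually_ne hh0
  obtain ⟨ρ, hρ, hρb⟩ := Metric.eventually_nhds_iff_ball.1
    ((hu.eventually_analyticAt.and hu2).and (hh.eventually_analyticAt.and hhne))
  -- the radius
  obtain ⟨r', hr', hr'r, hr'ρ⟩ : ∃ r' : ℝ, 0 < r' ∧ r' ≤ r ∧ r' ^ 2 ≤ ρ := by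
    refine ⟨min r (Real.sqrt ρ), lt_min hr (Real.sqrt_pos.2 hρ), min_le_left _ _, ?_⟩
    calc (min r (Real.sqrt ρ)) ^ 2 ≤ (Real.sqrt ρ) ^ 2 :=
          pow_le_pow_left₀ (le_min hr.le (Real.sqrt_nonneg _)) (min_le_right _ _) 2
      _ = ρ := Real.sq_sqrt hρ.le
  have hsq : ∀ ζ : ℂ, ‖ζ‖ < r' → ζ ^ 2 ∈ ball (0 : ℂ) ρ := by
    intro ζ hζ
    rw [mem_ball_zero_iff, norm_pow]
    calc ‖ζ‖ ^ 2 < r' ^ 2 := pow_lt_pow_left₀ hζ (norm_nonneg _) two_ne_zero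
      _ ≤ ρ := hr'ρ
  let F : ℂ → ℂ := fun z => (z - s) * u ((z - s) ^ 2)
  have hFd : ∀ z ∈ ball s r', DifferentiableAt ℂ F z := by
    intro z hz
    have hz' : ‖z - s‖ < r' := by rwa [← dist_eq_norm]
    have h1 : DifferentiableAt ℂ u ((z - s) ^ 2) := (hρb _ (hsq _ hz')).1.1.differentiableAt
    have h2 : DifferentiableAt ℂ (fun z : ℂ => (z - s) ^ 2) z :=
      (differentiableAt_id.sub_const s).pow 2
    exact (differentiableAt_id.sub_const s).mul (h1.comp z h2)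
  refine ⟨r', -I * ε, F, hr', ?_, fun z hz => (hFd z hz).differentiableWithinAt, ?_, ?_, ?_⟩
  · rcases hε with rfl | rfl <;> simp
  · intro ζ _
    simp only [F]
    ring_nf
  · have h1 : HasDerivAt (fun z : ℂ => z - s) 1 s := (hasDerivAt_id s).sub_const s
    have h2 : HasDerivAt (fun z : ℂ => (z - s) ^ 2) (2 * (s - s) ^ 1 * 1) s := by
      simpa using h1.fun_pow 2
    have h3 : HasDerivAt u (deriv u 0) ((s - s) ^ 2) := by
      simpa using hu.differentiableAt.hasDerivAt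
    have h4 := h1.mul (h3.comp s h2)
    have h5 : deriv F s = u 0 := by
      have : HasDerivAt F _ s := h4
      rw [this.deriv]; simp
    rw [h5]; exact hu0
  · intro z hz hzi
    have hz' : ‖z - s‖ < r' := by rwa [← dist_eq_norm]
    have hzs : z - s ≠ 0 := by
      intro h0'
      rw [sub_eq_zero] at h0'
      rw [h0', hs, abs_of_pos h0p] at hzi
      exact lt_irrefl _ hzi
    -- the open set
    set Ω : Set ℂ := ball s r' ∩ {z | |z.im| < h0} with hΩ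
    have hΩo : IsOpen Ω := isOpen_ball.inter
      (isOpen_lt (continuous_abs.comp continuous_im) continuous_const)
    have hzΩ : z ∈ Ω := ⟨hz, hzi⟩
    have hsub : ∀ x ∈ Ω, x ∈ ball s r := fun x hx => ball_subset_ball hr'r hx.1
    have hFM : ∀ x ∈ Ω, F x ^ 2 = M x ^ ε := by
      intro x hx
      have hx' : ‖x - s‖ < r' := by rw [← dist_eq_norm]; exact hx.1
      have e1 := (hρb _ (hsq _ hx')).1.2
      rw [hM x (hsub x hx) hx.2]
      simp only [F]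
      rw [mul_pow, e1, mul_zpow, ← zpow_mul]
      have : (2 * ε) * ε = 2 := by rcases hε with rfl | rfl <;> norm_num
      rw [this]
      norm_cast
    have hFne : F z ≠ 0 := by
      intro h0'
      simp only [F, mul_eq_zero] at h0'
      rcases h0' with h0' | h0'
      · exact hzs h0'
      · have e1 := (hρb _ (hsq _ hz')).1.2
        have e2 := (hρb _ (hsq _ hz')).2.2
        have e3 : h ((z - s) ^ 2) = 0 := by
          rw [h0'] at e1
          rcases hε with rfl | rfl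
          · simpa using e1.symm
          · simpa using e1.symm
        exact e2 e3
    have hMne : M z ≠ 0 := by
      intro h0'
      have := hFM z hzΩ
      rw [h0'] at this
      rcases hε with rfl | rfl
      · simp at this; exact hFne this
      · simp at this; exact hFne this
    -- derivative of `M`
    have hMd : HasDerivAt M (2 * I * y z * M z) z := by
      rw [← hder z (hsub z hzΩ) hzi]
      refine DifferentiableAt.hasDerivAt ?_
      have h1 : DifferentiableAt ℂ h ((z - s) ^ 2) := (hρb _ (hsq _ hz')).2.1.differentiableAt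
      have h2 : DifferentiableAt ℂ (fun z : ℂ => (z - s) ^ 2) z :=
        (differentiableAt_id.sub_const s).pow 2
      have h3 : DifferentiableAt ℂ (fun z : ℂ => (z - s) ^ (2 * ε)) z :=
        (differentiableAt_id.sub_const s).zpow (Or.inl hzs)
      refine (h3.mul (h1.comp z h2)).congr_of_eventuallyEq ?_
      filter_upwards [hΩo.mem_nhds hzΩ] with x hx
      exact hM x (hsub x hx) hx.2
    have e1 : HasDerivAt (fun x => F x ^ 2) (2 * F z * deriv F z) z := by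
      have := (hFd z hz).hasDerivAt.fun_pow 2
      simpa using this
    have e2 : HasDerivAt (fun x => M x ^ ε) ((ε : ℂ) * M z ^ (ε - 1) * (2 * I * y z * M z)) z :=
      (hasDerivAt_zpow ε (M z) (Or.inl hMne)).comp z hMd
    have e3 : (fun x => F x ^ 2) =ᶠ[𝓝 z] fun x => M x ^ ε := by
      filter_upwards [hΩo.mem_nhds hzΩ] with x hx
      exact hFM x hx
    have e4 := (e2.congr_of_eventuallyEq e3).unique e1
    have e5 : M z ^ (ε - 1) * M z = F z ^ 2 := by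
      rw [hFM z hzΩ, zpow_sub_one₀ hMne]
      field_simp
    have e6 : 2 * F z * deriv F z = (ε : ℂ) * (2 * I * y z) * F z ^ 2 := by
      rw [← e4, ← e5]; ring
    have e7 : deriv F z = (ε : ℂ) * I * y z * F z := by
      have h2F : (2 * F z) ≠ 0 := mul_ne_zero two_ne_zero hFne
      apply mul_left_cancel₀ h2F
      rw [e6]; ring
    rw [e7]
    have hεε : (ε : ℂ) * ε = 1 := by rcases hε with rfl | rfl <;> simp
    linear_combination (-(y z * F z)) * hεε + (y z * F z * ε * ε) * I_sq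

/-! ### Regular from meromorphic `H` -/

lemma der_form {Ω : Set ℂ} (hΩ : IsOpen Ω) {f g : ℂ → ℂ} {s : ℂ} {m : ℤ}
    (h : ∀ z ∈ Ω, z - s ≠ 0 ∧ AnalyticAt ℂ g (z - s) ∧ f z = (z - s) ^ m * g (z - s)) :
    ∀ z ∈ Ω, deriv f z = (z - s) ^ (m - 1) * (m * g (z - s) + (z - s) * deriv g (z - s)) := by
  intro z hz
  obtain ⟨hzs, hg, _⟩ := h z hz
  have h1 : HasDerivAt (fun z : ℂ => z - s) 1 z := (hasDerivAt_id z).sub_const s
  have h2 : HasDerivAt (fun z : ℂ => (z - s) ^ m) ((m : ℂ) * (z - s) ^ (m - 1) * 1) z := by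
    have h2' := hasDerivAt_zpow (𝕜 := ℂ) m (z - s) (Or.inl hzs)
    exact h2'.comp z h1
  have h3 : HasDerivAt (fun z : ℂ => g (z - s)) (deriv g (z - s) * 1) z :=
    (hg.differentiableAt.hasDerivAt).comp z h1
  have h4 := h2.mul h3
  have h5 : f =ᶠ[𝓝 z] fun z => (z - s) ^ m * g (z - s) := by
    filter_upwards [hΩ.mem_nhds hz] with x hx
    exact (h x hx).2.2
  rw [(h4.congr_of_eventuallyEq h5).deriv]
  have h6 : (z - s) ^ m = (z - s) ^ (m - 1) * (z - s) := by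
    rw [zpow_sub_one₀ hzs]; field_simp
  rw [h6]; ring

/-- `y` analytic with a zero of order `j ≤ 2`, `H` meromorphic: `H` is analytic -/
theorem reg_of_mero {h0 : ℝ} (h0p : 0 < h0) {y H : ℂ → ℂ} {c : ℂ} {s : ℂ}
    (hs : s.im = h0) {r : ℝ} (hr : 0 < r) {j : ℕ} (hj : j ≤ 2) {u : ℂ → ℂ}
    (hu : AnalyticAt ℂ u 0) (hu0 : u 0 ≠ 0)
    (hy : ∀ z ∈ ball s r, |z.im| < h0 → y z = (z - s) ^ j * u (z - s))
    {m : ℤ} {g : ℂ → ℂ} (hg : AnalyticAt ℂ g 0) (hg0 : g 0 ≠ 0)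
    (hH : ∀ z ∈ ball s r, |z.im| < h0 → H z = (z - s) ^ m * g (z - s))
    (hrel : ∀ z ∈ ball s r, |z.im| < h0 →
      y z * d2 H z - deriv y z * deriv H z + y z ^ 3 * H z = c) :
    Reg h0 y H s := by
  obtain ⟨ρ, hρ, hρb⟩ := Metric.eventually_nhds_iff_ball.1
    (hu.eventually_analyticAt.and hg.eventually_analyticAt)
  set r' : ℝ := min r ρ with hr'
  have hr'p : 0 < r' := lt_min hr hρ
  set Ω : Set ℂ := ball s r' ∩ {z | |z.im| < h0} with hΩ
  have hΩo : IsOpen Ω := isOpen_ball.inter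
    (isOpen_lt (continuous_abs.comp continuous_im) continuous_const)
  have hΩs : ∀ z ∈ Ω, z - s ≠ 0 := by
    intro z hz h0'
    have := hz.2
    rw [sub_eq_zero] at h0'
    simp only [mem_ofPred_eq, h0', hs, abs_of_pos h0p] at this
    exact lt_irrefl _ this
  have hΩb : ∀ z ∈ Ω, z ∈ ball s r := fun z hz => ball_subset_ball (min_le_left _ _) hz.1
  have hΩρ : ∀ z ∈ Ω, z - s ∈ ball (0 : ℂ) ρ := by
    intro z hz
    rw [mem_ball_zero_iff, ← dist_eq_norm]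
    exact lt_of_lt_of_le hz.1 (min_le_right _ _)
  have hm : 0 ≤ m := by
    by_contra hm
    push Not at hm
    -- the three derivatives
    have y0 : ∀ z ∈ Ω, z - s ≠ 0 ∧ AnalyticAt ℂ u (z - s) ∧ y z = (z - s) ^ (j : ℤ) * u (z - s) :=
      fun z hz => ⟨hΩs z hz, (hρb _ (hΩρ z hz)).1, by rw [hy z (hΩb z hz) hz.2, zpow_natCast]⟩
    have H0 : ∀ z ∈ Ω, z - s ≠ 0 ∧ AnalyticAt ℂ g (z - s) ∧ H z = (z - s) ^ m * g (z - s) :=
      fun z hz => ⟨hΩs z hz, (hρb _ (hΩρ z hz)).2, hH z (hΩb z hz) hz.2⟩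
    have y1 := der_form hΩo y0
    have H1 := der_form hΩo H0
    set g1 : ℂ → ℂ := fun τ => m * g τ + τ * deriv g τ with hg1
    have hg1a : ∀ τ ∈ ball (0 : ℂ) ρ, AnalyticAt ℂ g1 τ := by
      intro τ hτ
      have := (hρb τ hτ).2
      exact (analyticAt_const.mul this).add (analyticAt_id.mul this.deriv)
    have H1' : ∀ z ∈ Ω, z - s ≠ 0 ∧ AnalyticAt ℂ g1 (z - s) ∧
        deriv H z = (z - s) ^ (m - 1) * g1 (z - s) :=
      fun z hz => ⟨hΩs z hz, hg1a _ (hΩρ z hz), H1 z hz⟩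
    have H2 := der_form hΩo H1'
    set g2 : ℂ → ℂ := fun τ => ((m - 1 : ℤ) : ℂ) * g1 τ + τ * deriv g1 τ with hg2
    have hg2a : AnalyticAt ℂ g2 0 := by
      have := hg1a 0 (mem_ball_self hρ)
      exact (analyticAt_const.mul this).add (analyticAt_id.mul this.deriv)
    -- the bracket
    let Q : ℂ → ℂ := fun τ => u τ * g2 τ - (j * u τ + τ * deriv u τ) * g1 τ +
      τ ^ (2 * j + 2) * u τ ^ 3 * g τ
    have hQc : ContinuousAt Q 0 := by
      have a1 := hu.continuousAt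
      have a2 := hg2a.continuousAt
      have a3 := hu.deriv.continuousAt
      have a4 := (hg1a 0 (mem_ball_self hρ)).continuousAt
      have a5 := hg.continuousAt
      have a6 : ContinuousAt (fun τ : ℂ => τ) 0 := continuousAt_id
      exact ((a1.mul a2).sub (((continuousAt_const.mul a1).add (a6.mul a3)).mul a4)).add
        (((a6.pow _).mul (a1.pow 3)).mul a5)
    have hQ0 : Q 0 ≠ 0 := by
      have e1 : Q 0 = u 0 * g 0 * ((m : ℂ) * (((m - 1 - j : ℤ)) : ℂ)) := by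
        simp only [Q, hg2, hg1]
        push_cast
        simp
        ring
      rw [e1]
      have h1 : (m : ℂ) ≠ 0 := by exact_mod_cast hm.ne
      have h2 : (((m - 1 - j : ℤ)) : ℂ) ≠ 0 := by
        have : (m - 1 - j : ℤ) ≠ 0 := by omega
        exact_mod_cast this
      exact mul_ne_zero (mul_ne_zero hu0 hg0) (mul_ne_zero h1 h2)
    obtain ⟨n, hn, hnm⟩ : ∃ n : ℕ, 0 < n ∧ (j : ℤ) + m - 2 = -(n : ℤ) := by
      refine ⟨(2 - m - j).toNat, by omega, by omega⟩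
    have hQeq : ∀ z ∈ Ω, Q (z - s) = c * (z - s) ^ n := by
      intro z hz
      have hzs := hΩs z hz
      have e1 := hrel z (hΩb z hz) hz.2
      have e2 : d2 H z = (z - s) ^ (m - 1 - 1) * g2 (z - s) := H2 z hz
      have e3 := y1 z hz
      have e4 : deriv H z = (z - s) ^ (m - 1) * g1 (z - s) := H1 z hz
      rw [e2, e3, e4, (y0 z hz).2.2, (H0 z hz).2.2] at e1
      have z1 : (z - s) ^ (m - 1 - 1) = (z - s) ^ (-(n : ℤ)) * ((z - s) ^ (j : ℤ))⁻¹ := by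
        rw [← zpow_neg, ← zpow_add₀ hzs]; congr 1; omega
      have z2 : (z - s) ^ ((j : ℤ) - 1) * (z - s) ^ (m - 1) = (z - s) ^ (-(n : ℤ)) := by
        rw [← zpow_add₀ hzs]; congr 1; omega
      have z3 : ((z - s) ^ (j : ℤ)) ^ 3 * (z - s) ^ m =
          (z - s) ^ (-(n : ℤ)) * (z - s) ^ (2 * j + 2) := by
        rw [← zpow_natCast (z - s) (2 * j + 2), ← zpow_natCast ((z - s) ^ (j : ℤ)) 3, ← zpow_mul,
          ← zpow_add₀ hzs, ← zpow_add₀ hzs]
        congr 1; push_cast; omega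
      have hj0 : (z - s) ^ (j : ℤ) ≠ 0 := zpow_ne_zero _ hzs
      have e5 : (z - s) ^ (-(n : ℤ)) * Q (z - s) = c := by
        rw [← e1]
        simp only [Q]
        have t1 : (z - s) ^ (j : ℤ) * u (z - s) * ((z - s) ^ (m - 1 - 1) * g2 (z - s)) =
            (z - s) ^ (-(n : ℤ)) * (u (z - s) * g2 (z - s)) := by
          rw [z1]; field_simp
        have t2 : (z - s) ^ ((j : ℤ) - 1) *
            (((j : ℤ) : ℂ) * u (z - s) + (z - s) * deriv u (z - s)) *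
            ((z - s) ^ (m - 1) * g1 (z - s)) = (z - s) ^ (-(n : ℤ)) *
            ((j * u (z - s) + (z - s) * deriv u (z - s)) * g1 (z - s)) := by
          rw [← z2]; push_cast; ring
        have t3 : ((z - s) ^ (j : ℤ) * u (z - s)) ^ 3 * ((z - s) ^ m * g (z - s)) =
            (z - s) ^ (-(n : ℤ)) * ((z - s) ^ (2 * j + 2) * u (z - s) ^ 3 * g (z - s)) := by
          rw [mul_pow]
          linear_combination (u (z - s) ^ 3 * g (z - s)) * z3
        rw [t1, t2, t3]; ring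
      have hzn : (z - s) ^ n ≠ 0 := pow_ne_zero _ hzs
      rw [← e5, zpow_neg, zpow_natCast]
      field_simp
    -- limit along the vertical ray
    have hlim : Tendsto (fun t : ℝ => (-(t : ℂ) * I)) (𝓝[>] 0) (𝓝 0) := by
      have : Tendsto (fun t : ℝ => (-(t : ℂ) * I)) (𝓝 0) (𝓝 (-((0 : ℝ) : ℂ) * I)) := by
        apply Continuous.tendsto
        fun_prop
      simp only [ofReal_zero, neg_zero, zero_mul] at this
      exact this.mono_left nhdsWithin_le_nhds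
    have h1 : Tendsto (fun t : ℝ => Q (-(t : ℂ) * I)) (𝓝[>] 0) (𝓝 (Q 0)) := hQc.tendsto.comp hlim
    have h2 : Tendsto (fun t : ℝ => c * (-(t : ℂ) * I) ^ n) (𝓝[>] 0) (𝓝 0) := by
      have := (hlim.pow n).const_mul c
      rwa [zero_pow hn.ne', mul_zero] at this
    have h3 : (fun t : ℝ => Q (-(t : ℂ) * I)) =ᶠ[𝓝[>] 0] fun t : ℝ => c * (-(t : ℂ) * I) ^ n := by
      have hmem : Ioo (0 : ℝ) (min r' h0) ∈ 𝓝[>] (0 : ℝ) :=
        Ioo_mem_nhdsGT (lt_min hr'p h0p)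
      filter_upwards [hmem] with t ht
      have hz : s + (-(t : ℂ) * I) ∈ Ω := by
        constructor
        · rw [mem_ball, dist_eq_norm]
          simp only [add_sub_cancel_left, norm_mul, norm_neg, norm_I, mul_one, norm_real,
            Real.norm_eq_abs, abs_of_pos ht.1]
          exact lt_of_lt_of_le ht.2 (min_le_left _ _)
        · have : (s + (-(t : ℂ) * I)).im = h0 - t := by
            simp [hs]; ring
          simp only [mem_ofPred_eq, this]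
          have ht2 : t < h0 := lt_of_lt_of_le ht.2 (min_le_right _ _)
          rw [abs_of_pos (by linarith)]
          linarith [ht.1]
      have := hQeq _ hz
      simpa using this
    exact hQ0 (tendsto_nhds_unique h1 ((tendsto_congr' h3).2 h2))
  obtain ⟨n, rfl⟩ := Int.eq_ofNat_of_zero_le hm
  refine ⟨r', hr'p, fun z => (z - s) ^ j * u (z - s), fun z => (z - s) ^ n * g (z - s), ?_, ?_, ?_⟩
  · intro z hz
    have hz' : z - s ∈ ball (0 : ℂ) ρ := by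
      rw [mem_ball_zero_iff, ← dist_eq_norm]; exact lt_of_lt_of_le hz (min_le_right _ _)
    have h1 : DifferentiableAt ℂ (fun z : ℂ => z - s) z := differentiableAt_id.sub_const s
    exact ((h1.pow j).mul ((hρb _ hz').1.differentiableAt.comp z h1)).differentiableWithinAt
  · intro z hz
    have hz' : z - s ∈ ball (0 : ℂ) ρ := by
      rw [mem_ball_zero_iff, ← dist_eq_norm]; exact lt_of_lt_of_le hz (min_le_right _ _)
    have h1 : DifferentiableAt ℂ (fun z : ℂ => z - s) z := differentiableAt_id.sub_const s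
    exact ((h1.pow n).mul ((hρb _ hz').2.differentiableAt.comp z h1)).differentiableWithinAt
  · intro z hz hzi
    have hzb : z ∈ ball s r := ball_subset_ball (min_le_left _ _) hz
    refine ⟨(hy z hzb hzi).symm, ?_⟩
    rw [hH z hzb hzi]
    simp

end Crest.Agent.R102.MLZ519
end

-- ▼ part R102/MLZ3_519
section

/-!
# Row 102, T5-MEL, (ML-Z), end (helper519)

In the `σ` chart of a Puiseux end (`End416.EndS`):
* `regB_of_single`: flat end `k = 0` or `k = n`, `e^{2iθ}` single valued ==> `RegB`;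
* `niceB_of_odd`: isotropic end `k = -n`, `a = ± n`, `y` changes sign under the half turn
  ==> `NiceB`.
-/

set_option autoImplicit false

open Complex Metric Set Filter Topology

namespace Crest.Agent.R102.MLZ519

open Crest.Agent.R102.End416 Crest.Agent.R102.Pain416

/-! ### germs at `0` -/

/-- a meromorphic germ with derivative `0` is constant -/
lemma const_of_deriv {D : ℂ → ℂ} (hD : MeromorphicAt D 0)
    (h : ∀ᶠ σ in 𝓝[≠] (0 : ℂ), deriv D σ = 0) : ∃ A : ℂ, ∀ᶠ σ in 𝓝[≠] (0 : ℂ), D σ = A := by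
  rcases hD.eventually_eq_zero_or_eventually_ne_zero with h0 | h0
  · exact ⟨0, h0⟩
  obtain ⟨m, g, hg, hg0, hgf⟩ := factor hD h0.frequently
  -- derivative of `σ^m g σ`
  have h1 : ∀ᶠ σ in 𝓝[≠] (0 : ℂ), (m : ℂ) * g σ + σ * deriv g σ = 0 := by
    have h2 : ∀ᶠ σ in 𝓝[≠] (0 : ℂ), ∀ᶠ σ' in 𝓝 σ, D σ' = Es m g σ' := by
      rw [eventually_nhdsWithin_iff] at hgf
      rw [eventually_nhdsWithin_iff]
      filter_upwards [eventually_eventually_nhds.2 hgf] with σ hσ hσ0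
      have : ∀ᶠ σ' in 𝓝 σ, σ' ∈ ({0}ᶜ : Set ℂ) := isOpen_compl_singleton.mem_nhds hσ0
      filter_upwards [hσ, this] with σ' h1 h2
      exact h1 h2
    filter_upwards [h, h2, self_mem_nhdsWithin,
      (hg.eventually_analyticAt).filter_mono nhdsWithin_le_nhds] with σ h3 h4 h5 h6
    have hσ : σ ≠ 0 := h5
    have h7 : HasDerivAt (Es m g) ((m : ℂ) * σ ^ (m - 1) * g σ + σ ^ m * deriv g σ) σ := by
      have := (hasDerivAt_zpow (𝕜 := ℂ) m σ (Or.inl hσ)).mul h6.differentiableAt.hasDerivAt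
      exact this
    have h8 : deriv D σ = (m : ℂ) * σ ^ (m - 1) * g σ + σ ^ m * deriv g σ := by
      have : D =ᶠ[𝓝 σ] Es m g := h4
      rw [this.deriv_eq, h7.deriv]
    rw [h3] at h8
    have h9 : σ ^ m = σ ^ (m - 1) * σ := by rw [zpow_sub_one₀ hσ]; field_simp
    rw [h9] at h8
    have h10 : σ ^ (m - 1) ≠ 0 := zpow_ne_zero _ hσ
    apply mul_left_cancel₀ h10
    rw [mul_zero, h8]; ring
  have hc : Tendsto (fun σ : ℂ => (m : ℂ) * g σ + σ * deriv g σ) (𝓝[≠] 0)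
      (𝓝 ((m : ℂ) * g 0 + 0 * deriv g 0)) :=
    (((continuousAt_const.mul hg.continuousAt).add
      (continuousAt_id.mul hg.deriv.continuousAt)).tendsto).mono_left nhdsWithin_le_nhds
  have hm : (m : ℂ) * g 0 = 0 := by
    have h2 : Tendsto (fun σ : ℂ => (m : ℂ) * g σ + σ * deriv g σ) (𝓝[≠] 0) (𝓝 0) :=
      tendsto_const_nhds.congr' (by filter_upwards [h1] with σ hσ; exact hσ.symm)
    have := tendsto_nhds_unique hc h2
    rwa [zero_mul, add_zero] at this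
  have hm0 : m = 0 := by
    have := (mul_eq_zero.1 hm).resolve_right hg0
    exact_mod_cast this
  subst hm0
  -- `g' = 0`
  have h2 : ∀ᶠ σ in 𝓝[≠] (0 : ℂ), deriv g σ = 0 := by
    filter_upwards [h1, self_mem_nhdsWithin] with σ h3 h4
    simp only [Int.cast_zero, zero_mul, zero_add] at h3
    exact (mul_eq_zero.1 h3).resolve_left h4
  have h3 : ∀ᶠ σ in 𝓝 (0 : ℂ), deriv g σ = 0 :=
    (hg.deriv.frequently_zero_iff_eventually_zero).1 h2.frequently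
  obtain ⟨r, hr, hb⟩ := Metric.eventually_nhds_iff_ball.1 (h3.and hg.eventually_analyticAt)
  refine ⟨g 0, ?_⟩
  filter_upwards [hgf, (ball_mem_nhds (0 : ℂ) hr : ball (0 : ℂ) r ∈ 𝓝 0) |>
    mem_nhdsWithin_of_mem_nhds] with σ h4 h5
  rw [h4]
  unfold Es
  rw [zpow_zero, one_mul]
  exact IsOpen.is_const_of_deriv_eq_zero isOpen_ball (convex_ball (0 : ℂ) r).isPreconnected
    (fun w hw => (hb w hw).2.differentiableAt.differentiableWithinAt)
    (fun w hw => (hb w hw).1) h5 (mem_ball_self hr)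

lemma rot_tendsto {ω : ℂ} (hω : ω ≠ 0) : Tendsto (fun σ : ℂ => ω * σ) (𝓝[≠] 0) (𝓝[≠] 0) := by
  refine tendsto_nhdsWithin_iff.2 ⟨?_, ?_⟩
  · have : Tendsto (fun σ : ℂ => ω * σ) (𝓝 0) (𝓝 (ω * 0)) :=
      (continuous_const.mul continuous_id).tendsto 0
    rw [mul_zero] at this
    exact this.mono_left nhdsWithin_le_nhds
  · filter_upwards [self_mem_nhdsWithin] with σ hσ
    exact mul_ne_zero hω hσ

lemma rot_tendsto' (ω : ℂ) : Tendsto (fun σ : ℂ => ω * σ) (𝓝 0) (𝓝 0) := by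
  have : Tendsto (fun σ : ℂ => ω * σ) (𝓝 0) (𝓝 (ω * 0)) :=
    (continuous_const.mul continuous_id).tendsto 0
  rwa [mul_zero] at this

lemma mer_rot {P : ℂ → ℂ} (hP : MeromorphicAt P 0) (ω : ℂ) :
    MeromorphicAt (fun σ => P (ω * σ)) 0 := by
  have h1 : MeromorphicAt P (ω * 0) := by rwa [mul_zero]
  have h2 : AnalyticAt ℂ (fun σ : ℂ => ω * σ) 0 := analyticAt_const.mul analyticAt_id
  exact h1.comp_analyticAt h2

/-- a germ whose increment under the rotation is constant is invariant -/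
lemma iter_zero {Z : ℂ → ℂ} {A ω : ℂ} {n : ℕ} (hn : 0 < n) (hω : ω ^ n = 1)
    (h : ∀ᶠ σ in 𝓝[≠] (0 : ℂ), Z (ω * σ) - Z σ = A) : A = 0 := by
  have hω0 : ω ≠ 0 := by
    rintro rfl
    rw [zero_pow hn.ne'] at hω
    exact zero_ne_one hω
  have key : ∀ j : ℕ, ∀ᶠ σ in 𝓝[≠] (0 : ℂ), Z (ω ^ j * σ) - Z σ = j * A := by
    intro j
    induction j with
    | zero => exact Eventually.of_forall fun σ => by simp
    | succ j ih =>
      filter_upwards [ih, (rot_tendsto (pow_ne_zero j hω0)).eventually h] with σ h1 h2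
      have e1 : ω ^ (j + 1) * σ = ω * (ω ^ j * σ) := by ring
      rw [e1]
      push_cast
      linear_combination h1 + h2
  have h1 := (key n).exists
  obtain ⟨σ, hσ⟩ := h1
  rw [hω, one_mul, sub_self] at hσ
  have hnC : (n : ℂ) ≠ 0 := by exact_mod_cast hn.ne'
  exact (mul_eq_zero.1 hσ.symm).resolve_left hnC

/-- an analytic germ invariant under a primitive root of unity -/
lemma exists_root_form {n : ℕ} (hn : 0 < n) {ω : ℂ} (hω : IsPrimitiveRoot ω n) {g : ℂ → ℂ}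
    (hg : AnalyticAt ℂ g 0) (h : ∀ᶠ σ in 𝓝[≠] (0 : ℂ), g (ω * σ) = g σ) :
    ∃ G : ℂ → ℂ, AnalyticAt ℂ G 0 ∧ G 0 = g 0 ∧ ∀ᶠ σ in 𝓝 (0 : ℂ), g σ = G (σ ^ n) := by
  have h' : ∀ᶠ σ in 𝓝 (0 : ℂ), g (ω * σ) = g σ := by
    rw [eventually_nhdsWithin_iff] at h
    filter_upwards [h] with σ hσ
    by_cases h0 : σ = 0
    · rw [h0, mul_zero]
    · exact hσ h0
  obtain ⟨r, hr, hb⟩ := Metric.eventually_nhds_iff_ball.1 (h'.and hg.eventually_analyticAt)
  obtain ⟨G, hG, hGg⟩ := inv_root hn hω hr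
    (fun z hz => (hb z hz).2.differentiableAt.differentiableWithinAt) (fun x hx => (hb x hx).1)
  refine ⟨G, hG.analyticAt (isOpen_ball.mem_nhds (mem_ball_self (pow_pos hr n))), ?_, ?_⟩
  · have := hGg 0 (mem_ball_self hr)
    rw [zero_pow hn.ne'] at this
    exact this.symm
  · filter_upwards [ball_mem_nhds (0 : ℂ) hr] with σ hσ
    exact hGg σ hσ

/-- a meromorphic germ invariant under a primitive root of unity -/
lemma mer_inv {n : ℕ} (hn : 0 < n) {ω : ℂ} (hω : IsPrimitiveRoot ω n) {P : ℂ → ℂ}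
    (hP : MeromorphicAt P 0) (h0 : ∃ᶠ σ in 𝓝[≠] (0 : ℂ), P σ ≠ 0)
    (h : ∀ᶠ σ in 𝓝[≠] (0 : ℂ), P (ω * σ) = P σ) :
    ∃ (m : ℤ) (G : ℂ → ℂ), AnalyticAt ℂ G 0 ∧ G 0 ≠ 0 ∧
      ∀ᶠ σ in 𝓝[≠] (0 : ℂ), P σ = (σ ^ n) ^ m * G (σ ^ n) := by
  obtain ⟨m0, g, hg, hg0, hgf⟩ := factor hP h0
  have hω0 : ω ≠ 0 := hω.ne_zero hn.ne'
  have h1 : ∀ᶠ σ in 𝓝[≠] (0 : ℂ), ω ^ m0 * g (ω * σ) = g σ := by
    filter_upwards [h, hgf, (rot_tendsto hω0).eventually hgf, self_mem_nhdsWithin] with σ a1 a2 a3 a4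
    rw [a3, a2] at a1
    unfold Es at a1
    rw [mul_zpow] at a1
    have a5 : σ ^ m0 ≠ 0 := zpow_ne_zero _ a4
    apply mul_left_cancel₀ a5
    rw [← a1]; ring
  have hc : Tendsto (fun σ : ℂ => ω ^ m0 * g (ω * σ)) (𝓝[≠] 0) (𝓝 (ω ^ m0 * g 0)) := by
    have : Tendsto (fun σ : ℂ => g (ω * σ)) (𝓝 0) (𝓝 (g 0)) :=
      hg.continuousAt.tendsto.comp (rot_tendsto' ω)
    exact (this.const_mul _).mono_left nhdsWithin_le_nhds
  have hc2 : Tendsto g (𝓝[≠] 0) (𝓝 (g 0)) := hg.continuousAt.tendsto.mono_left nhdsWithin_le_nhds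
  have h2 : ω ^ m0 = 1 := by
    have := tendsto_nhds_unique (hc.congr' h1) hc2
    exact mul_right_cancel₀ hg0 (by rw [this, one_mul])
  obtain ⟨m, rfl⟩ := (hω.zpow_eq_one_iff_dvd m0).1 h2
  have h3 : ∀ᶠ σ in 𝓝[≠] (0 : ℂ), g (ω * σ) = g σ := by
    filter_upwards [h1] with σ hσ
    rwa [h2, one_mul] at hσ
  obtain ⟨G, hG, hG0, hGg⟩ := exists_root_form hn hω hg h3
  refine ⟨m, G, hG, by rwa [hG0], ?_⟩
  filter_upwards [hgf, hGg.filter_mono nhdsWithin_le_nhds] with σ a1 a2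
  rw [a1]
  unfold Es
  rw [a2, zpow_mul, zpow_natCast]

/-! ### the isotropic coordinates in the chart -/

/-- `Z_+` (`b = I`, `e = e^{iθ}`), `Z_-` (`b = -I`, `e = e^{-iθ}`) -/
noncomputable def Zc (n : ℕ) (b : ℂ) (E Y f : ℂ → ℂ) (σ : ℂ) : ℂ :=
  E σ * (b * f σ - Hd n f σ / Y σ)

lemma Zc_deriv {n : ℕ} (hn : 0 < n) {b : ℂ} (hb : b ^ 2 = -1) {E Y f : ℂ → ℂ} {σ : ℂ}
    (hσ : σ ≠ 0) (hY0 : Y σ ≠ 0) (hE : HasDerivAt E (-(b * I) * (n * σ ^ (n - 1) * Y σ * E σ)) σ)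
    (hY : DifferentiableAt ℂ Y σ) (hf : AnalyticAt ℂ f σ)
    (hlz : Y σ * (deriv (Hd n f) σ * Dz n σ) - deriv Y σ * Dz n σ * Hd n f σ + Y σ ^ 3 * f σ = -1) :
    HasDerivAt (Zc n b E Y f) (-I * n * σ ^ (n - 1) * E σ / Y σ ^ 2) σ := by
  have hnC : (n : ℂ) ≠ 0 := by exact_mod_cast hn.ne'
  have hp : σ ^ (n - 1) ≠ 0 := pow_ne_zero _ hσ
  have hDz : DifferentiableAt ℂ (Dz n) σ := by
    unfold Dz
    exact (differentiableAt_const _).div ((differentiableAt_const _).mul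
      (differentiableAt_id.pow _)) (mul_ne_zero hnC hp)
  have hHd : DifferentiableAt ℂ (Hd n f) σ := by
    have : DifferentiableAt ℂ (fun σ => deriv f σ * Dz n σ) σ :=
      hf.deriv.differentiableAt.mul hDz
    exact this
  have h1 := hE.mul (((hf.differentiableAt.hasDerivAt).const_mul b).sub
    (hHd.hasDerivAt.div hY.hasDerivAt hY0))
  refine h1.congr_deriv ?_
  simp only [Pi.div_apply, Pi.sub_apply]
  have e1 : Dz n σ = I / (n * σ ^ (n - 1)) := rfl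
  have e2 : deriv f σ = -I * n * σ ^ (n - 1) * Hd n f σ := by
    unfold Hd
    rw [e1]
    field_simp
    linear_combination (deriv f σ) * I_sq
  rw [e2]
  rw [e1] at hlz
  have e3 : deriv (Hd n f) σ * Y σ - deriv Y σ * Hd n f σ =
      I * n * σ ^ (n - 1) * (1 + Y σ ^ 3 * f σ) := by
    have hne : I / (n * σ ^ (n - 1)) ≠ 0 := div_ne_zero I_ne_zero (mul_ne_zero hnC hp)
    apply mul_left_cancel₀ hne
    have : I / (n * σ ^ (n - 1)) * (I * n * σ ^ (n - 1) * (1 + Y σ ^ 3 * f σ)) =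
        -(1 + Y σ ^ 3 * f σ) := by
      field_simp
      linear_combination (1 + Y σ ^ 3 * f σ) * I_sq
    rw [this]
    linear_combination hlz
  have e4 : (deriv (Hd n f) σ * Y σ - Hd n f σ * deriv Y σ) =
      I * n * σ ^ (n - 1) * (1 + Y σ ^ 3 * f σ) := by rw [← e3]; ring
  rw [e4]
  have e5 : (-(b * I) * (↑n * σ ^ (n - 1) * Y σ * E σ) * (b * f σ - Hd n f σ / Y σ) +
      E σ * (b * (-I * ↑n * σ ^ (n - 1) * Hd n f σ) -
      I * ↑n * σ ^ (n - 1) * (1 + Y σ ^ 3 * f σ) / Y σ ^ 2)) * Y σ ^ 2 =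
      -I * ↑n * σ ^ (n - 1) * E σ := by
    field_simp
    linear_combination (-E σ * f σ * Y σ ^ 3) * hb
  rw [eq_div_iff (pow_ne_zero 2 hY0)]
  exact e5

lemma ev_ev {p : ℂ → Prop} (h : ∀ᶠ σ in 𝓝[≠] (0 : ℂ), p σ) :
    ∀ᶠ σ in 𝓝[≠] (0 : ℂ), ∀ᶠ σ' in 𝓝 σ, p σ' := by
  rw [eventually_nhdsWithin_iff] at h
  rw [eventually_nhdsWithin_iff]
  filter_upwards [eventually_eventually_nhds.2 h] with σ hσ hσ0
  have : ∀ᶠ σ' in 𝓝 σ, σ' ∈ ({0}ᶜ : Set ℂ) := isOpen_compl_singleton.mem_nhds hσ0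
  filter_upwards [hσ, this] with σ' h1 h2
  exact h1 h2

lemma rot_deriv {P : ℂ → ℂ} {P' ω σ : ℂ} (h : HasDerivAt P P' (ω * σ)) :
    HasDerivAt (fun σ => P (ω * σ)) (P' * ω) σ := by
  have h1 : HasDerivAt (fun σ : ℂ => ω * σ) ω σ := by
    simpa using (hasDerivAt_id σ).const_mul ω
  exact HasDerivAt.comp (h := fun σ : ℂ => ω * σ) σ h h1

lemma pow_rot {n : ℕ} (hn : 0 < n) {ω : ℂ} (hω : ω ^ n = 1) (σ : ℂ) :
    (ω * σ) ^ (n - 1) * ω = σ ^ (n - 1) := by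
  obtain ⟨m, rfl⟩ : ∃ m, n = m + 1 := ⟨n - 1, by omega⟩
  simp only [Nat.add_sub_cancel]
  rw [mul_pow]
  have : ω ^ m * σ ^ m * ω = ω ^ (m + 1) * σ ^ m := by ring
  rw [this, hω, one_mul]

/-- invariance passes from `E` to `Y` -/
lemma y_inv {n : ℕ} (hn : 0 < n) {ω : ℂ} (hω : ω ^ n = 1) (hω0 : ω ≠ 0) {E Y : ℂ → ℂ}
    (hE : ∀ᶠ σ in 𝓝[≠] (0 : ℂ), DifferentiableAt ℂ E σ ∧ E σ ≠ 0 ∧
      deriv E σ = n * σ ^ (n - 1) * Y σ * E σ)
    (hinv : ∀ᶠ σ in 𝓝[≠] (0 : ℂ), E (ω * σ) = E σ) :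
    ∀ᶠ σ in 𝓝[≠] (0 : ℂ), Y (ω * σ) = Y σ := by
  have hnC : (n : ℂ) ≠ 0 := by exact_mod_cast hn.ne'
  filter_upwards [hE, (rot_tendsto hω0).eventually hE, ev_ev hinv, hinv, self_mem_nhdsWithin]
    with σ h1 h2 h3 h4 h5
  have hσ : σ ≠ 0 := h5
  have e1 := rot_deriv h2.1.hasDerivAt
  have e2 := e1.unique (h1.1.hasDerivAt.congr_of_eventuallyEq h3)
  rw [h2.2.2, h1.2.2, h4] at e2
  have e3 := pow_rot hn hω σ
  have e4 : (n : ℂ) * σ ^ (n - 1) * E σ ≠ 0 :=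
    mul_ne_zero (mul_ne_zero hnC (pow_ne_zero _ hσ)) h1.2.1
  apply mul_left_cancel₀ e4
  linear_combination e2 - (n : ℂ) * Y (ω * σ) * E σ * e3

/-- one isotropic coordinate is invariant -/
lemma Zc_inv {n : ℕ} (hn : 0 < n) {ω : ℂ} (hω : ω ^ n = 1) (hω0 : ω ≠ 0) {b : ℂ}
    (hb : b ^ 2 = -1) {E Y f : ℂ → ℂ} (hEm : MeromorphicAt E 0) (hYm : MeromorphicAt Y 0)
    (hfm : MeromorphicAt f 0)
    (hE : ∀ᶠ σ in 𝓝[≠] (0 : ℂ), HasDerivAt E (-(b * I) * (n * σ ^ (n - 1) * Y σ * E σ)) σ)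
    (hY : ∀ᶠ σ in 𝓝[≠] (0 : ℂ), DifferentiableAt ℂ Y σ ∧ Y σ ≠ 0)
    (hf : ∀ᶠ σ in 𝓝[≠] (0 : ℂ), AnalyticAt ℂ f σ)
    (hlz : ∀ᶠ σ in 𝓝[≠] (0 : ℂ), Y σ * (deriv (Hd n f) σ * Dz n σ) -
      deriv Y σ * Dz n σ * Hd n f σ + Y σ ^ 3 * f σ = -1)
    (hEi : ∀ᶠ σ in 𝓝[≠] (0 : ℂ), E (ω * σ) = E σ) (hYi : ∀ᶠ σ in 𝓝[≠] (0 : ℂ), Y (ω * σ) = Y σ) :
    ∀ᶠ σ in 𝓝[≠] (0 : ℂ), Zc n b E Y f (ω * σ) = Zc n b E Y f σ := by
  have hZm : MeromorphicAt (Zc n b E Y f) 0 :=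
    hEm.mul (((MeromorphicAt.const b 0).mul hfm).sub ((hfm.deriv.mul Dz_mer).div hYm))
  have hd : ∀ᶠ σ in 𝓝[≠] (0 : ℂ),
      HasDerivAt (Zc n b E Y f) (-I * n * σ ^ (n - 1) * E σ / Y σ ^ 2) σ := by
    filter_upwards [hE, hY, hf, hlz, self_mem_nhdsWithin] with σ h1 h2 h3 h4 h5
    exact Zc_deriv hn hb h5 h2.2 h1 h2.1 h3 h4
  have hD : ∀ᶠ σ in 𝓝[≠] (0 : ℂ),
      deriv (fun σ => Zc n b E Y f (ω * σ) - Zc n b E Y f σ) σ = 0 := by
    filter_upwards [hd, (rot_tendsto hω0).eventually hd, hEi, hYi] with σ h1 h2 h3 h4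
    have e0 : deriv (fun σ => Zc n b E Y f (ω * σ) - Zc n b E Y f σ) σ = _ :=
      ((rot_deriv h2).sub h1).deriv
    rw [e0, h3, h4]
    have e3 := pow_rot hn hω σ
    rw [← e3]
    ring
  obtain ⟨A, hA⟩ := const_of_deriv ((mer_rot hZm ω).sub hZm) hD
  have hA0 : A = 0 := iter_zero hn hω hA
  filter_upwards [hA] with σ hσ
  rw [hA0] at hσ
  exact sub_eq_zero.1 hσ

/-- invariance passes to `H` -/
lemma f_inv {θ H : ℂ → ℂ} {s : ℂ} {n : ℕ} {r : ℝ} {a k : ℤ} {e g f : ℂ → ℂ}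
    (hS : EndS θ H s n r a k e g f) {ω : ℂ} (hω : ω ^ n = 1) (hω0 : ω ≠ 0)
    (hi : ∀ᶠ σ in 𝓝[≠] (0 : ℂ), Es a e (ω * σ) = Es a e σ) :
    (∀ᶠ σ in 𝓝[≠] (0 : ℂ), Es k g (ω * σ) = Es k g σ) ∧
      ∀ᶠ σ in 𝓝[≠] (0 : ℂ), f (ω * σ) = f σ := by
  have hb0 : ball (0 : ℂ) r ∈ 𝓝 (0 : ℂ) := ball_mem_nhds 0 hS.r_pos
  have hball : ∀ᶠ σ in 𝓝[≠] (0 : ℂ), σ ∈ ball (0 : ℂ) r ∧ σ ≠ 0 :=
    (Filter.Eventually.filter_mono nhdsWithin_le_nhds hb0).and self_mem_nhdsWithin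
  have e0 : AnalyticAt ℂ e 0 := hS.e_an 0 (mem_ball_self hS.r_pos)
  have g0 : AnalyticAt ℂ g 0 := hS.g_an 0 (mem_ball_self hS.r_pos)
  have hEm : MeromorphicAt (Es a e) 0 := Es_mer e0
  have hYm : MeromorphicAt (Es k g) 0 := Es_mer g0
  have hEd : ∀ σ ∈ ball (0 : ℂ) r, σ ≠ 0 → ∀ (m : ℤ) (u : ℂ → ℂ), AnalyticAt ℂ u σ →
      DifferentiableAt ℂ (Es m u) σ := by
    intro σ _ h2 m u hu
    exact (differentiableAt_id.zpow (Or.inl h2)).mul hu.differentiableAt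
  have hE : ∀ᶠ σ in 𝓝[≠] (0 : ℂ), DifferentiableAt ℂ (Es a e) σ ∧ Es a e σ ≠ 0 ∧
      deriv (Es a e) σ = n * σ ^ (n - 1) * Es k g σ * Es a e σ := by
    filter_upwards [hball] with σ h1
    exact ⟨hEd σ h1.1 h1.2 a e (hS.e_an σ h1.1), Es_ne h1.2 (hS.e_ne σ h1.1), hS.dE σ h1.1 h1.2⟩
  have hY : ∀ᶠ σ in 𝓝[≠] (0 : ℂ), DifferentiableAt ℂ (Es k g) σ ∧ Es k g σ ≠ 0 := by
    filter_upwards [hball] with σ h1
    exact ⟨hEd σ h1.1 h1.2 k g (hS.g_an σ h1.1), Es_ne h1.2 (hS.g_ne σ h1.1)⟩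
  have hf : ∀ᶠ σ in 𝓝[≠] (0 : ℂ), AnalyticAt ℂ f σ := by
    filter_upwards [hball] with σ h1 using hS.f_an σ h1.1 h1.2
  have hlz : ∀ᶠ σ in 𝓝[≠] (0 : ℂ), Es k g σ * (deriv (Hd n f) σ * Dz n σ) -
      deriv (Es k g) σ * Dz n σ * Hd n f σ + Es k g σ ^ 3 * f σ = -1 := by
    filter_upwards [hball] with σ h1 using hS.lz σ h1.1 h1.2
  have hYi := y_inv hS.n_pos hω hω0 hE hi
  refine ⟨hYi, ?_⟩
  have hp := Zc_inv hS.n_pos hω hω0 (b := I) I_sq hEm hYm hS.f_mer (by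
    filter_upwards [hE] with σ h1
    have := h1.1.hasDerivAt
    rw [h1.2.2] at this
    rwa [I_mul_I, neg_neg, one_mul]) hY hf hlz hi hYi
  have hm := Zc_inv hS.n_pos hω hω0 (b := -I) (E := fun σ => (Es a e σ)⁻¹)
    (by rw [neg_sq, I_sq]) hEm.inv hYm hS.f_mer (by
    filter_upwards [hE] with σ h1
    have := h1.1.hasDerivAt.inv h1.2.1
    refine this.congr_deriv ?_
    have e1 : -(-I * I) * (↑n * σ ^ (n - 1) * Es k g σ * (Es a e σ)⁻¹) =
        (I * I) * (↑n * σ ^ (n - 1) * Es k g σ * (Es a e σ)⁻¹) := by ring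
    rw [h1.2.2, e1, I_mul_I]
    have := h1.2.1
    field_simp) hY hf hlz (by
      filter_upwards [hi] with σ h1
      rw [h1]) hYi
  filter_upwards [hp, hm, hi, hE] with σ h1 h2 h3 h4
  have key : ∀ x : ℂ, Es a e x ≠ 0 → 2 * I * f x = (Es a e x)⁻¹ * Zc n I (Es a e) (Es k g) f x -
      Es a e x * Zc n (-I) (fun σ => (Es a e σ)⁻¹) (Es k g) f x := by
    intro x hx
    unfold Zc
    field_simp
    ring
  have h2I : (2 : ℂ) * I ≠ 0 := mul_ne_zero two_ne_zero I_ne_zero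
  apply mul_left_cancel₀ h2I
  rw [key σ h4.2.1, key (ω * σ) (by rw [h3]; exact h4.2.1), h1, h2, h3]

/-! ### the flat end -/

/-- a flat end has `a = 0` -/
lemma a_zero {θ H : ℂ → ℂ} {s : ℂ} {n : ℕ} {r : ℝ} {a k : ℤ} {e g f : ℂ → ℂ}
    (hS : EndS θ H s n r a k e g f) (hk : 0 < (n : ℤ) + k) : a = 0 := by
  have e0 : AnalyticAt ℂ e 0 := hS.e_an 0 (mem_ball_self hS.r_pos)
  have g0 : AnalyticAt ℂ g 0 := hS.g_an 0 (mem_ball_self hS.r_pos)
  obtain ⟨N, hN⟩ := Int.eq_ofNat_of_zero_le hk.le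
  have hN0 : N ≠ 0 := by
    rintro rfl
    rw [hN] at hk
    simp at hk
  have hball : ∀ᶠ σ in 𝓝[≠] (0 : ℂ), σ ∈ ball (0 : ℂ) r ∧ σ ≠ 0 :=
    (Filter.Eventually.filter_mono nhdsWithin_le_nhds (ball_mem_nhds 0 hS.r_pos)).and
      self_mem_nhdsWithin
  have h1 : ∀ᶠ σ in 𝓝[≠] (0 : ℂ), (a : ℂ) * e σ + σ * deriv e σ = n * σ ^ N * g σ * e σ := by
    filter_upwards [hball] with σ h1
    have hσ := h1.2
    have h2 := hS.dE σ h1.1 h1.2
    have h3 : HasDerivAt (Es a e) ((a : ℂ) * σ ^ (a - 1) * e σ + σ ^ a * deriv e σ) σ :=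
      (hasDerivAt_zpow (𝕜 := ℂ) a σ (Or.inl hσ)).mul (hS.e_an σ h1.1).differentiableAt.hasDerivAt
    rw [h3.deriv] at h2
    unfold Es at h2
    have h4 : σ ^ a = σ ^ (a - 1) * σ := by rw [zpow_sub_one₀ hσ]; field_simp
    have h5 : σ ^ (a - 1) ≠ 0 := zpow_ne_zero _ hσ
    have h6 : σ ^ (n - 1) * σ ^ k * σ = σ ^ N := by
      have : σ ^ (n - 1) * σ = σ ^ n := by
        rw [← pow_succ]; congr 1; have := hS.n_pos; omega
      calc σ ^ (n - 1) * σ ^ k * σ = (σ ^ (n - 1) * σ) * σ ^ k := by ring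
        _ = σ ^ (n : ℤ) * σ ^ k := by rw [this, zpow_natCast]
        _ = σ ^ N := by
          rw [← zpow_add₀ hσ, hN]
          exact zpow_natCast σ N
    apply mul_left_cancel₀ h5
    rw [h4] at h2
    rw [← h6]
    linear_combination h2
  have hc : Tendsto (fun σ : ℂ => (a : ℂ) * e σ + σ * deriv e σ) (𝓝[≠] 0)
      (𝓝 ((a : ℂ) * e 0 + 0 * deriv e 0)) :=
    (((continuousAt_const.mul e0.continuousAt).add
      (continuousAt_id.mul e0.deriv.continuousAt)).tendsto).mono_left nhdsWithin_le_nhds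
  have hc2 : Tendsto (fun σ : ℂ => (n : ℂ) * σ ^ N * g σ * e σ) (𝓝[≠] 0)
      (𝓝 ((n : ℂ) * 0 ^ N * g 0 * e 0)) :=
    (((continuousAt_const.mul (continuousAt_id.pow N)).mul g0.continuousAt).mul
      e0.continuousAt).tendsto.mono_left nhdsWithin_le_nhds
  have h2 := tendsto_nhds_unique (hc.congr' h1) hc2
  rw [zero_pow hN0, mul_zero, zero_mul, zero_mul, zero_mul, add_zero] at h2
  have := (mul_eq_zero.1 h2).resolve_right (hS.e_ne 0 (mem_ball_self hS.r_pos))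
  exact_mod_cast this

open Crest.Agent.R102.T7M Crest.Agent.R102.Spine

/-- primitive: regular `(θ', H)` gives regular `(θ, H)` -/
lemma regB_of_reg {h0 : ℝ} {θ H : ℂ → ℂ} {s : ℂ} (hs : s.im = h0)
    (hθ : ∀ᶠ z in bl s, DifferentiableAt ℂ θ z) (hR : Reg h0 (deriv θ) H s) (h0p : 0 < h0) :
    RegB h0 θ H s := by
  obtain ⟨r1, hr1, y1, H1, hy1, hH1, heq⟩ := hR
  obtain ⟨r2, hr2, hd⟩ := bl_basis.1 hθ
  obtain ⟨T, -, hT⟩ := hy1.isExactOn_ball.with_val_at s 0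
  set c : ℝ := min r1 (min r2 h0) with hc
  have hc0 : 0 < c := lt_min hr1 (lt_min hr2 h0p)
  have hHD : ∀ z ∈ HD s c, z ∈ ball s r1 ∧ |z.im| < h0 ∧ z ∈ HD s r2 := by
    intro z hz
    have h1 : ‖z - s‖ < c := by rw [← dist_eq_norm]; exact hz.1
    have h2 : |(z - s).im| ≤ ‖z - s‖ := abs_im_le_norm _
    have h3 : (z - s).im = z.im - h0 := by rw [sub_im, hs]
    have h4 : z.im < h0 := by rw [← hs]; exact hz.2
    have h5 : c ≤ h0 := (min_le_right _ _).trans (min_le_right _ _)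
    refine ⟨ball_subset_ball (min_le_left _ _) hz.1, ?_,
      HD_mono ((min_le_right _ _).trans (min_le_left _ _)) hz⟩
    rw [h3] at h2
    rw [abs_lt]
    have := (abs_le.1 (h2.trans h1.le)).1
    constructor <;> linarith
  have hder : ∀ z ∈ HD s c, HasDerivAt (fun z => θ z - T z) 0 z := by
    intro z hz
    obtain ⟨h1, h2, h3⟩ := hHD z hz
    have h4 := (hd z h3).hasDerivAt.sub (hT z h1)
    rw [(heq z h1 h2).1, sub_self] at h4
    exact h4
  have hconst : ∀ z ∈ HD s c, ∀ w ∈ HD s c, θ z - T z = θ w - T w := fun z hz w hw =>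
    IsOpen.is_const_of_deriv_eq_zero (f := fun z => θ z - T z) (isOpen_HD s c)
      (convex_HD s c).isPreconnected
      (fun w hw => (hder w hw).differentiableAt.differentiableWithinAt)
      (fun w hw => (hder w hw).deriv) hz hw
  obtain ⟨w0, hw0⟩ : (HD s c).Nonempty :=
    ⟨s + (c / 2 : ℝ) * (-I), path_mem (by simp) (by simp) (by linarith) (by linarith)⟩
  refine ⟨c, hc0, fun z => T z + (θ w0 - T w0), H1, ?_, ?_, ?_⟩
  · intro z hz
    exact ((hT z (ball_subset_ball (min_le_left _ _) hz)).differentiableAt.add_const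
      _).differentiableWithinAt
  · exact hH1.mono (ball_subset_ball (min_le_left _ _))
  · intro z hz hzi
    have hzH : z ∈ HD s c := ⟨hz, by
      have := (abs_lt.1 hzi).2
      simp only [mem_ofPred_eq, hs]; exact this⟩
    refine ⟨?_, (heq z (ball_subset_ball (min_le_left _ _) hz) hzi).2⟩
    simp only
    rw [← hconst z hzH w0 hw0]
    ring

/-- **flat end, `e^{2iθ}` single valued ==> regular** -/
theorem regB_of_single {h0 : ℝ} (h0p : 0 < h0) {θ H : ℂ → ℂ} {s : ℂ} (hs : s.im = h0)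
    (hθ : ∀ᶠ z in bl s, DifferentiableAt ℂ θ z)
    (hLZ : ∀ᶠ z in bl s, deriv θ z * deriv (deriv H) z - deriv (deriv θ) z * deriv H z +
      deriv θ z ^ 3 * H z = -1)
    {n : ℕ} {r : ℝ} {a k : ℤ} {e g f : ℂ → ℂ} (hS : EndS θ H s n r a k e g f)
    (hk : k = 0 ∨ k = n)
    (hinv : ∃ᶠ σ in 𝓝[≠] (0 : ℂ), Es a e (exp (2 * Real.pi * I / n) * σ) ^ 2 = Es a e σ ^ 2) :
    RegB h0 θ H s := by
  have hn := hS.n_pos
  have hω : IsPrimitiveRoot (exp (2 * Real.pi * I / n)) n := isPrimitiveRoot_exp n hn.ne'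
  set ω : ℂ := exp (2 * Real.pi * I / n) with hωdef
  have hω0 : ω ≠ 0 := exp_ne_zero _
  have ha : a = 0 := a_zero hS (by rcases hk with rfl | rfl <;> omega)
  have e0 : AnalyticAt ℂ e 0 := hS.e_an 0 (mem_ball_self hS.r_pos)
  have g0 : AnalyticAt ℂ g 0 := hS.g_an 0 (mem_ball_self hS.r_pos)
  have e00 : e 0 ≠ 0 := hS.e_ne 0 (mem_ball_self hS.r_pos)
  have hEse : ∀ σ, Es a e σ = e σ := by intro σ; unfold Es; rw [ha, zpow_zero, one_mul]
  have hEm : MeromorphicAt (Es a e) 0 := Es_mer e0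
  -- `e` is invariant
  have h1 : ∀ᶠ σ in 𝓝[≠] (0 : ℂ), Es a e (ω * σ) ^ 2 = Es a e σ ^ 2 :=
    (((mer_rot hEm ω).pow 2).frequently_eq_iff_eventuallyEq (hEm.pow 2)).1 hinv
  have hsum : ∀ᶠ σ in 𝓝[≠] (0 : ℂ), e (ω * σ) + e σ ≠ 0 := by
    have t1 : Tendsto (fun σ : ℂ => e (ω * σ) + e σ) (𝓝 0) (𝓝 (e 0 + e 0)) :=
      (e0.continuousAt.tendsto.comp (rot_tendsto' ω)).add e0.continuousAt.tendsto
    have t2 : e 0 + e 0 ≠ 0 := by rw [← two_mul]; exact mul_ne_zero two_ne_zero e00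
    exact (t1.eventually_ne t2).filter_mono nhdsWithin_le_nhds
  have h2 : ∀ᶠ σ in 𝓝[≠] (0 : ℂ), Es a e (ω * σ) = Es a e σ := by
    filter_upwards [h1, hsum] with σ a1 a2
    rw [hEse, hEse] at a1 ⊢
    have : (e (ω * σ) - e σ) * (e (ω * σ) + e σ) = 0 := by linear_combination a1
    exact sub_eq_zero.1 ((mul_eq_zero.1 this).resolve_right a2)
  obtain ⟨hYi, hfi⟩ := f_inv hS hω.pow_eq_one hω0 h2
  -- `g`
  have hgi : ∀ᶠ σ in 𝓝[≠] (0 : ℂ), g (ω * σ) = g σ := by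
    filter_upwards [hYi, self_mem_nhdsWithin] with σ a1 a2
    unfold Es at a1
    have hωk : ω ^ k = 1 := by
      rcases hk with rfl | rfl
      · rw [zpow_zero]
      · rw [zpow_natCast]; exact hω.pow_eq_one
    rw [mul_zpow, hωk, one_mul] at a1
    exact mul_left_cancel₀ (zpow_ne_zero k a2) a1
  obtain ⟨G, hG, hG0, hGg⟩ := exists_root_form hn hω g0 hgi
  -- `f`
  have hf0 : ∃ᶠ σ in 𝓝[≠] (0 : ℂ), f σ ≠ 0 := by
    intro hcon
    simp only [ne_eq, not_not] at hcon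
    have hball : ∀ᶠ σ in 𝓝[≠] (0 : ℂ), σ ∈ ball (0 : ℂ) r ∧ σ ≠ 0 :=
      (Filter.Eventually.filter_mono nhdsWithin_le_nhds (ball_mem_nhds 0 hS.r_pos)).and
        self_mem_nhdsWithin
    have hHd : ∀ᶠ σ in 𝓝[≠] (0 : ℂ), Hd n f σ = 0 := by
      filter_upwards [ev_ev hcon] with σ a1
      have : f =ᶠ[𝓝 σ] fun _ => 0 := a1
      unfold Hd
      rw [this.deriv_eq]
      simp
    obtain ⟨σ, a1, a2, a3, a4⟩ := ((ev_ev hHd).and (hHd.and (hcon.and hball))).exists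
    have := hS.lz σ a4.1 a4.2
    have a5 : Hd n f =ᶠ[𝓝 σ] fun _ => 0 := a1
    rw [a5.deriv_eq, a2, a3] at this
    simp at this
  obtain ⟨m, F, hF, hF0, hFf⟩ := mer_inv hn hω hS.f_mer hf0 hfi
  -- in `z`
  have hsg := sg_tendsto (s := s) hn
  have hsg0 : Tendsto (sg n s) (bl s) (𝓝 0) := hsg.mono_right nhdsWithin_le_nhds
  have hHD : ∀ᶠ z in bl s, z ∈ HD s (r ^ n) := HD_mem (pow_pos hS.r_pos n)
  have hyz : ∀ᶠ z in bl s, deriv θ z = sg n s z ^ k * G (I * (z - s)) := by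
    filter_upwards [hHD, hsg0.eventually hGg] with z a1 a2
    rw [hS.y_eq z a1]
    unfold Es
    rw [a2, sg_pow hn]
  have hHz : ∀ᶠ z in bl s, H z = (I * (z - s)) ^ m * F (I * (z - s)) := by
    filter_upwards [hHD, hsg.eventually hFf] with z a1 a2
    rw [hS.H_eq z a1, a2, sg_pow hn]
  obtain ⟨j, hj, hjk⟩ : ∃ j : ℕ, j ≤ 2 ∧ ∀ᶠ z in bl s, sg n s z ^ k = (I * (z - s)) ^ j := by
    rcases hk with rfl | rfl
    · exact ⟨0, by norm_num, Eventually.of_forall fun z => by simp⟩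
    · exact ⟨1, by norm_num, Eventually.of_forall fun z => by
        rw [zpow_natCast, sg_pow hn, pow_one]⟩
  obtain ⟨R, hR, hall⟩ := bl_basis.1 ((hyz.and hHz).and (hjk.and hLZ))
  have hIa : AnalyticAt ℂ (fun τ : ℂ => I * τ) 0 := analyticAt_const.mul analyticAt_id
  have hball : ∀ z ∈ ball s R, |z.im| < h0 → z ∈ HD s R := by
    intro z hz hzi
    refine ⟨hz, ?_⟩
    have := (abs_lt.1 hzi).2
    simp only [mem_ofPred_eq, hs]; exact this
  refine regB_of_reg hs hθ ?_ h0p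
  refine reg_of_mero h0p (c := -1) hs hR hj (u := fun τ => I ^ j * G (I * τ))
    (analyticAt_const.mul (hG.comp_of_eq hIa (by simp))) ?_ ?_ (m := m)
    (g := fun τ => I ^ m * F (I * τ)) (analyticAt_const.mul (hF.comp_of_eq hIa (by simp))) ?_ ?_ ?_
  · simp only [mul_zero]
    exact mul_ne_zero (pow_ne_zero _ I_ne_zero) (by
      rw [hG0]; exact hS.g_ne 0 (mem_ball_self hS.r_pos))
  · intro z hz hzi
    obtain ⟨⟨a1, a2⟩, a3, a4⟩ := hall z (hball z hz hzi)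
    rw [a1, a3, mul_pow]; ring
  · simp only [mul_zero]
    exact mul_ne_zero (zpow_ne_zero _ I_ne_zero) hF0
  · intro z hz hzi
    obtain ⟨⟨a1, a2⟩, a3, a4⟩ := hall z (hball z hz hzi)
    rw [a2, mul_zpow]; ring
  · intro z hz hzi
    obtain ⟨⟨a1, a2⟩, a3, a4⟩ := hall z (hball z hz hzi)
    exact a4

/-! ### the isotropic end -/

/-- **isotropic end, `m = 1`, `y` odd under the half turn ==> nice** -/
theorem niceB_of_odd {h0 : ℝ} (h0p : 0 < h0) {θ H : ℂ → ℂ} {s : ℂ} (hs : s.im = h0)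
    (hθ : ∀ᶠ z in bl s, DifferentiableAt ℂ θ z)
    {n : ℕ} {r : ℝ} {a k : ℤ} {e g f : ℂ → ℂ} (hS : EndS θ H s n r a k e g f)
    (hk : k = -n) (ha : a = n ∨ a = -n)
    (hinv : ∃ᶠ σ in 𝓝[≠] (0 : ℂ), Es k g (exp (Real.pi * I / n) * σ) = -Es k g σ) :
    NiceB h0 θ s := by
  have hn := hS.n_pos
  have hnC : (n : ℂ) ≠ 0 := by exact_mod_cast hn.ne'
  have hω : IsPrimitiveRoot (exp (Real.pi * I / n)) (2 * n) := by
    have := isPrimitiveRoot_exp (2 * n) (by omega)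
    have e1 : 2 * (Real.pi : ℂ) * I / ((2 * n : ℕ) : ℂ) = Real.pi * I / n := by
      push_cast
      field_simp
    rwa [e1] at this
  set ω : ℂ := exp (Real.pi * I / n) with hωdef
  have hω0 : ω ≠ 0 := exp_ne_zero _
  have hωn : ω ^ n = -1 := by
    rw [hωdef, ← Complex.exp_nat_mul, mul_div_cancel₀ _ hnC, Complex.exp_pi_mul_I]
  have e0 : AnalyticAt ℂ e 0 := hS.e_an 0 (mem_ball_self hS.r_pos)
  have g0 : AnalyticAt ℂ g 0 := hS.g_an 0 (mem_ball_self hS.r_pos)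
  have e00 : e 0 ≠ 0 := hS.e_ne 0 (mem_ball_self hS.r_pos)
  have hYm : MeromorphicAt (Es k g) 0 := Es_mer g0
  have hball : ∀ᶠ σ in 𝓝[≠] (0 : ℂ), σ ∈ ball (0 : ℂ) r ∧ σ ≠ 0 :=
    (Filter.Eventually.filter_mono nhdsWithin_le_nhds (ball_mem_nhds 0 hS.r_pos)).and
      self_mem_nhdsWithin
  -- `g` is invariant
  have h1 : ∀ᶠ σ in 𝓝[≠] (0 : ℂ), Es k g (ω * σ) = -Es k g σ :=
    ((mer_rot hYm ω).frequently_eq_iff_eventuallyEq hYm.neg).1 hinv
  have hωk : ω ^ k = -1 := by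
    rw [hk, zpow_neg, zpow_natCast, hωn]; norm_num
  have hgi : ∀ᶠ σ in 𝓝[≠] (0 : ℂ), g (ω * σ) = g σ := by
    filter_upwards [h1, self_mem_nhdsWithin] with σ a1 a2
    unfold Es at a1
    rw [mul_zpow, hωk] at a1
    apply mul_left_cancel₀ (zpow_ne_zero k a2 : σ ^ k ≠ 0)
    linear_combination -a1
  -- equation for `e`
  have he1 : ∀ᶠ σ in 𝓝[≠] (0 : ℂ), deriv e σ = (n * g σ - a) / σ * e σ := by
    filter_upwards [hball] with σ h1
    have hσ := h1.2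
    have h2 := hS.dE σ h1.1 h1.2
    have h3 : HasDerivAt (Es a e) ((a : ℂ) * σ ^ (a - 1) * e σ + σ ^ a * deriv e σ) σ :=
      (hasDerivAt_zpow (𝕜 := ℂ) a σ (Or.inl hσ)).mul (hS.e_an σ h1.1).differentiableAt.hasDerivAt
    rw [h3.deriv] at h2
    unfold Es at h2
    have h4 : σ ^ a = σ ^ (a - 1) * σ := by rw [zpow_sub_one₀ hσ]; field_simp
    have h5 : σ ^ (a - 1) ≠ 0 := zpow_ne_zero _ hσ
    have h6 : σ ^ (n - 1) * σ ^ k * σ = 1 := by
      have : σ ^ (n - 1) * σ = σ ^ n := by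
        rw [← pow_succ]; congr 1; omega
      calc σ ^ (n - 1) * σ ^ k * σ = (σ ^ (n - 1) * σ) * σ ^ k := by ring
        _ = 1 := by
          rw [this, hk, zpow_neg, zpow_natCast]
          exact mul_inv_cancel₀ (pow_ne_zero n hσ)
    rw [div_mul_eq_mul_div, eq_div_iff hσ]
    apply mul_left_cancel₀ h5
    rw [h4] at h2
    linear_combination h2 + (σ ^ (a - 1) * n * g σ * e σ) * h6
  -- the ratio `e (ω σ) / e σ` is constant
  have hene : ∀ᶠ σ in 𝓝 (0 : ℂ), e (ω * σ) ≠ 0 ∧ e σ ≠ 0 :=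
    ((rot_tendsto' ω).eventually (e0.continuousAt.eventually_ne e00)).and
      (e0.continuousAt.eventually_ne e00)
  have hrot0 : AnalyticAt ℂ (fun σ => e (ω * σ)) 0 :=
    e0.comp_of_eq (analyticAt_const.mul analyticAt_id) (by simp)
  have hean : ∀ᶠ σ in 𝓝 (0 : ℂ), AnalyticAt ℂ e (ω * σ) ∧ AnalyticAt ℂ e σ :=
    ((rot_tendsto' ω).eventually e0.eventually_analyticAt).and e0.eventually_analyticAt
  have hratm : MeromorphicAt (fun σ => e (ω * σ) / e σ) 0 :=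
    hrot0.meromorphicAt.div e0.meromorphicAt
  obtain ⟨A, hA⟩ := const_of_deriv hratm (by
    filter_upwards [he1, (rot_tendsto hω0).eventually he1, hene.filter_mono nhdsWithin_le_nhds,
      hean.filter_mono nhdsWithin_le_nhds, hgi, self_mem_nhdsWithin] with σ a1 a2 a3 a4 a5 a6
    have hσ : σ ≠ 0 := a6
    have b1 := rot_deriv a4.1.differentiableAt.hasDerivAt
    have b2 : HasDerivAt (fun σ => e (ω * σ) / e σ) _ σ :=
      b1.div a4.2.differentiableAt.hasDerivAt a3.2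
    rw [b2.deriv, a1, a2, a5]
    have := a3.2
    field_simp
    ring)
  have hA1 : A = 1 := by
    have t1 : Tendsto (fun σ => e (ω * σ) / e σ) (𝓝[≠] 0) (𝓝 (e 0 / e 0)) :=
      ((e0.continuousAt.tendsto.comp (rot_tendsto' ω)).div e0.continuousAt.tendsto
        e00).mono_left nhdsWithin_le_nhds
    rw [div_self e00] at t1
    exact tendsto_nhds_unique (tendsto_const_nhds.congr' (by
      filter_upwards [hA] with σ hσ; exact hσ.symm)) t1
  have hei : ∀ᶠ σ in 𝓝[≠] (0 : ℂ), e (ω * σ) = e σ := by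
    filter_upwards [hA, hene.filter_mono nhdsWithin_le_nhds] with σ a1 a2
    rw [hA1, div_eq_one_iff_eq a2.2] at a1
    exact a1
  obtain ⟨G, hG, hG0, hGe⟩ := exists_root_form (by omega) hω e0 hei
  have hG00 : G 0 ≠ 0 := by rwa [hG0]
  -- in `z`
  have hsg := sg_tendsto (s := s) hn
  have hsg0 : Tendsto (sg n s) (bl s) (𝓝 0) := hsg.mono_right nhdsWithin_le_nhds
  have hHD : ∀ᶠ z in bl s, z ∈ HD s (r ^ n) := HD_mem (pow_pos hS.r_pos n)
  have hEz : ∀ᶠ z in bl s, exp (I * θ z) = sg n s z ^ a * G (-(z - s) ^ 2) := by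
    filter_upwards [hHD, hsg0.eventually hGe] with z a1 a2
    rw [hS.E_eq z a1]
    unfold Es
    rw [a2, mul_comm 2 n, pow_mul, sg_pow hn, mul_pow, I_sq]
    ring_nf
  have hlow : ∀ᶠ z in bl s, z.im < s.im := self_mem_nhdsWithin
  obtain ⟨R, hR, hall⟩ := bl_basis.1 ((hEz.and hθ).and hlow)
  have hball' : ∀ z ∈ ball s R, |z.im| < h0 → z ∈ HD s R := by
    intro z hz hzi
    refine ⟨hz, ?_⟩
    have := (abs_lt.1 hzi).2
    simp only [mem_ofPred_eq, hs]; exact this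
  have hder : ∀ z ∈ ball s R, |z.im| < h0 →
      deriv (fun z => exp (2 * I * θ z)) z = 2 * I * deriv θ z * exp (2 * I * θ z) := by
    intro z hz hzi
    have e1 := ((hall z (hball' z hz hzi)).1.2.hasDerivAt.const_mul (2 * I)).cexp
    rw [e1.deriv]; ring
  have hGs : AnalyticAt ℂ (fun c : ℂ => G (-c)) 0 :=
    hG.comp_of_eq (analyticAt_id.neg) (by simp)
  have hexp2 : ∀ z : ℂ, exp (2 * I * θ z) = exp (I * θ z) ^ 2 := by
    intro z
    rw [← Complex.exp_nat_mul]; congr 1; push_cast; ring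
  rcases ha with rfl | rfl
  · refine nice_of_even h0p hs hR (ε := 1) (Or.inl rfl) (h := fun c => -(G (-c)) ^ 2)
      (M := fun z => exp (2 * I * θ z)) (hGs.pow 2).neg ?_ ?_ hder
    · simp only [neg_zero]
      exact neg_ne_zero.2 (pow_ne_zero 2 hG00)
    · intro z hz hzi
      have a1 := (hall z (hball' z hz hzi)).1.1
      rw [hexp2, a1, zpow_natCast, sg_pow hn]
      have : (z - s) ^ (2 * (1 : ℤ)) = (z - s) ^ 2 := by norm_cast
      rw [this]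
      linear_combination ((z - s) ^ 2 * G (-(z - s) ^ 2) ^ 2) * I_sq
  · refine nice_of_even h0p hs hR (ε := -1) (Or.inr rfl) (h := fun c => -(G (-c)) ^ 2)
      (M := fun z => exp (2 * I * θ z)) (hGs.pow 2).neg ?_ ?_ hder
    · simp only [neg_zero]
      exact neg_ne_zero.2 (pow_ne_zero 2 hG00)
    · intro z hz hzi
      obtain ⟨⟨a1, -⟩, a2⟩ := hall z (hball' z hz hzi)
      rw [hexp2, a1, zpow_neg, zpow_natCast, sg_pow hn]
      have hz0 : z - s ≠ 0 := by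
        intro h
        rw [sub_eq_zero] at h
        rw [h] at a2
        exact lt_irrefl _ a2
      have : (z - s) ^ (2 * (-1 : ℤ)) = ((z - s) ^ 2)⁻¹ := by
        rw [show (2 * (-1 : ℤ)) = -((2 : ℕ) : ℤ) by norm_num, zpow_neg, zpow_natCast]
      rw [this, mul_pow, inv_pow, mul_pow, I_sq]
      field_simp

end Crest.Agent.R102.MLZ519
end

-- ▼ part R102/RLimF_231

/-!
# T5 MEL: leaf ML-LF (`RLimF`) (helper231)
-/

set_option autoImplicit false

open Set Filter Topology Metric MeasureTheory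
open scoped ComplexConjugate

noncomputable section

namespace Crest.Agent.R102.Mel

open Crest.Agent.R102.T5R Crest.Agent.R102.Mel231 Crest.Agent.R102.T5R.L4346

/-- the perturbation lemma for the slope of a small chord -/
theorem core {A k : ℝ} {w w0 θ θ0 : ℝ → ℂ} {η P0 j : ℂ} (hA : 1 ≤ A) (hj : ‖j‖ = 1)
    (cw : ContinuousOn w (Icc 0 1)) (cw0 : ContinuousOn w0 (Icc 0 1))
    (cθ : ContinuousOn θ (Icc 0 1)) (cθ0 : ContinuousOn θ0 (Icc 0 1))
    (b1 : ∀ s ∈ Icc (0 : ℝ) 1, ‖w s - w0 s‖ ≤ k * A)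
    (b2 : ∀ s ∈ Icc (0 : ℝ) 1, ‖θ s - θ0 s‖ ≤ k * A)
    (b3 : ∀ s ∈ Icc (0 : ℝ) 1, ‖w0 s‖ ≤ A)
    (b4 : ∀ s ∈ Icc (0 : ℝ) 1, ‖θ0 s‖ ≤ A) (hk : 0 ≤ k) (hk1 : k ≤ 1)
    (hη : 2 * A * ‖η‖ ≤ 1)
    (i0 : (∫ s in (0 : ℝ)..1, w0 s) = P0) (i1 : (∫ s in (0 : ℝ)..1, w0 s * θ0 s) = P0 / 2)
    (hP : 1 / A ≤ ‖P0‖) (hs : k * A + 8 * A ^ 2 * ‖η‖ ≤ 1 / (2 * A)) :
    (∫ s in (0 : ℝ)..1, w s * Complex.exp (j * (η * θ s))) ≠ 0 ∧
    (∫ s in (0 : ℝ)..1, w s * Complex.exp (-j * (η * θ s))) ≠ 0 ∧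
    ‖(∫ s in (0 : ℝ)..1, w s * Complex.exp (j * (η * θ s))) /
      (∫ s in (0 : ℝ)..1, w s * Complex.exp (-j * (η * θ s))) - 1 - j * η‖ ≤
      2 * A * ‖η‖ * (24 * A ^ 3 * ‖η‖ + 7 * A ^ 2 * k) := by
  have hI : uIcc (0 : ℝ) 1 = Icc 0 1 := uIcc_of_le zero_le_one
  have hA0 : 0 < A := by linarith
  have bw : ∀ s ∈ Icc (0 : ℝ) 1, ‖w s‖ ≤ 2 * A := by
    intro s hs
    have h1 := norm_add_le (w s - w0 s) (w0 s)
    rw [sub_add_cancel] at h1
    have := b1 s hs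
    have := b3 s hs
    nlinarith
  have bθ : ∀ s ∈ Icc (0 : ℝ) 1, ‖θ s‖ ≤ 2 * A := by
    intro s hs
    have h1 := norm_add_le (θ s - θ0 s) (θ0 s)
    rw [sub_add_cancel] at h1
    have := b2 s hs
    have := b4 s hs
    nlinarith
  have bz : ∀ i : ℂ, ‖i‖ = 1 → ∀ s ∈ Icc (0 : ℝ) 1, ‖i * (η * θ s)‖ ≤ 2 * A * ‖η‖ := by
    intro i hi s hs
    rw [norm_mul, norm_mul, hi, one_mul, mul_comm]
    have := bθ s hs
    gcongr
  have cexp : ∀ i : ℂ, ContinuousOn (fun s => w s * Complex.exp (i * (η * θ s))) (Icc 0 1) :=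
    fun i => cw.mul (Complex.continuous_exp.comp_continuousOn
      (continuousOn_const.mul (continuousOn_const.mul cθ)))
  -- each integral is near `P0`
  have near : ∀ i : ℂ, ‖i‖ = 1 →
      ‖(∫ s in (0 : ℝ)..1, w s * Complex.exp (i * (η * θ s))) - P0‖ ≤ k * A + 8 * A ^ 2 * ‖η‖ := by
    intro i hi
    rw [← i0]
    refine int_near (cexp i) cw0 ?_
    intro s hs
    have e1 : w s * Complex.exp (i * (η * θ s)) - w0 s =
        (w s - w0 s) + w s * (Complex.exp (i * (η * θ s)) - 1) := by ring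
    rw [e1]
    refine (norm_add_le _ _).trans ?_
    rw [norm_mul]
    have h1 := bz i hi s hs
    have h2 := Complex.norm_exp_sub_one_le (h1.trans hη)
    have h3 : ‖w s‖ * ‖Complex.exp (i * (η * θ s)) - 1‖ ≤ (2 * A) * (2 * (2 * A * ‖η‖)) := by
      have := bw s hs
      have h4 : ‖Complex.exp (i * (η * θ s)) - 1‖ ≤ 2 * (2 * A * ‖η‖) := by linarith
      gcongr
    have := b1 s hs
    nlinarith
  have lower : ∀ i : ℂ, ‖i‖ = 1 →
      1 / (2 * A) ≤ ‖∫ s in (0 : ℝ)..1, w s * Complex.exp (i * (η * θ s))‖ := by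
    intro i hi
    have h1 := near i hi
    have h2 := norm_sub_norm_le P0 (∫ s in (0 : ℝ)..1, w s * Complex.exp (i * (η * θ s)))
    rw [norm_sub_rev] at h2
    have h3 : 1 / A = 1 / (2 * A) + 1 / (2 * A) := by field_simp; ring
    linarith
  have hpos : 0 < 1 / (2 * A) := by positivity
  have hj' : ‖-j‖ = 1 := by rw [norm_neg, hj]
  have n1 : (∫ s in (0 : ℝ)..1, w s * Complex.exp (j * (η * θ s))) ≠ 0 :=
    norm_pos_iff.1 (hpos.trans_le (lower j hj))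
  have n2 : (∫ s in (0 : ℝ)..1, w s * Complex.exp (-j * (η * θ s))) ≠ 0 :=
    norm_pos_iff.1 (hpos.trans_le (lower (-j) hj'))
  refine ⟨n1, n2, ?_⟩
  set P1 := ∫ s in (0 : ℝ)..1, w s * Complex.exp (j * (η * θ s)) with hP1
  set P2 := ∫ s in (0 : ℝ)..1, w s * Complex.exp (-j * (η * θ s)) with hP2
  have ii : ∀ i : ℂ, IntervalIntegrable (fun s => w s * Complex.exp (i * (η * θ s))) volume 0 1 :=
    fun i => ContinuousOn.intervalIntegrable (by rw [hI]; exact cexp i)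
  have iwθ : IntervalIntegrable (fun s => w s * θ s) volume 0 1 :=
    ContinuousOn.intervalIntegrable (by rw [hI]; exact cw.mul cθ)
  -- first piece
  have p1 : ‖P1 - P2 - 2 * j * η * ∫ s in (0 : ℝ)..1, w s * θ s‖ ≤ 16 * A ^ 3 * ‖η‖ ^ 2 := by
    rw [hP1, hP2, ← intervalIntegral.integral_const_mul, ← intervalIntegral.integral_sub (ii j)
      (ii (-j)), ← intervalIntegral.integral_sub ((ii j).sub (ii (-j))) (iwθ.const_mul _)]
    have := intervalIntegral.norm_integral_le_of_norm_le_const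
      (f := fun s => w s * Complex.exp (j * (η * θ s)) - w s * Complex.exp (-j * (η * θ s)) -
        2 * j * η * (w s * θ s)) (a := 0) (b := 1) (C := 16 * A ^ 3 * ‖η‖ ^ 2) (fun s hs => ?_)
    · simpa using this
    · rw [uIoc_of_le zero_le_one] at hs
      have hs' : s ∈ Icc (0 : ℝ) 1 := ⟨hs.1.le, hs.2⟩
      have e1 : w s * Complex.exp (j * (η * θ s)) - w s * Complex.exp (-j * (η * θ s)) -
          2 * j * η * (w s * θ s) = w s * ((Complex.exp (j * (η * θ s)) - 1 - j * (η * θ s)) -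
          (Complex.exp (-j * (η * θ s)) - 1 - -j * (η * θ s))) := by ring
      rw [e1, norm_mul]
      have h1 := bz j hj s hs'
      have h2 := bz (-j) hj' s hs'
      have h3 := Complex.norm_exp_sub_one_sub_id_le (h1.trans hη)
      have h4 := Complex.norm_exp_sub_one_sub_id_le (h2.trans hη)
      have h5 := norm_sub_le (Complex.exp (j * (η * θ s)) - 1 - j * (η * θ s))
        (Complex.exp (-j * (η * θ s)) - 1 - -j * (η * θ s))
      have h6 : ‖j * (η * θ s)‖ ^ 2 ≤ (2 * A * ‖η‖) ^ 2 := by gcongr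
      have h7 : ‖-j * (η * θ s)‖ ^ 2 ≤ (2 * A * ‖η‖) ^ 2 := by gcongr
      have h8 := bw s hs'
      calc ‖w s‖ * _ ≤ (2 * A) * ((2 * A * ‖η‖) ^ 2 + (2 * A * ‖η‖) ^ 2) := by
            gcongr
            linarith
        _ = 16 * A ^ 3 * ‖η‖ ^ 2 := by ring
  -- second piece
  have p2 : ‖(∫ s in (0 : ℝ)..1, w s * θ s) - P0 / 2‖ ≤ 3 * A ^ 2 * k := by
    rw [← i1]
    refine int_near (cw.mul cθ) (cw0.mul cθ0) ?_
    intro s hs
    have e1 : w s * θ s - w0 s * θ0 s = (w s - w0 s) * θ s + w0 s * (θ s - θ0 s) := by ring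
    rw [e1]
    refine (norm_add_le _ _).trans ?_
    rw [norm_mul, norm_mul]
    have h1 := b1 s hs
    have h2 := b2 s hs
    have h3 := b3 s hs
    have h4 := bθ s hs
    calc ‖w s - w0 s‖ * ‖θ s‖ + ‖w0 s‖ * ‖θ s - θ0 s‖ ≤ (k * A) * (2 * A) + A * (k * A) := by
          gcongr
      _ = 3 * A ^ 2 * k := by ring
  have p3 := near (-j) hj'
  rw [← hP2] at p3
  have e2 : P1 / P2 - 1 - j * η = ((P1 - P2 - 2 * j * η * ∫ s in (0 : ℝ)..1, w s * θ s) +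
      2 * j * η * ((∫ s in (0 : ℝ)..1, w s * θ s) - P0 / 2) - j * η * (P2 - P0)) / P2 := by
    field_simp
    ring
  have hη0 := norm_nonneg η
  have hnum : ‖(P1 - P2 - 2 * j * η * ∫ s in (0 : ℝ)..1, w s * θ s) +
      2 * j * η * ((∫ s in (0 : ℝ)..1, w s * θ s) - P0 / 2) - j * η * (P2 - P0)‖ ≤
      ‖η‖ * (24 * A ^ 3 * ‖η‖ + 7 * A ^ 2 * k) := by
    refine (norm_sub_le _ _).trans ?_
    have h1 := norm_add_le (P1 - P2 - 2 * j * η * ∫ s in (0 : ℝ)..1, w s * θ s)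
      (2 * j * η * ((∫ s in (0 : ℝ)..1, w s * θ s) - P0 / 2))
    have h2 : ‖2 * j * η * ((∫ s in (0 : ℝ)..1, w s * θ s) - P0 / 2)‖ ≤
        2 * ‖η‖ * (3 * A ^ 2 * k) := by
      rw [norm_mul, norm_mul, norm_mul, hj, Complex.norm_ofNat, mul_one]
      gcongr
    have h3 : ‖j * η * (P2 - P0)‖ ≤ ‖η‖ * (k * A + 8 * A ^ 2 * ‖η‖) := by
      rw [norm_mul, norm_mul, hj, one_mul]
      gcongr
    have h4 : k * A ≤ A ^ 2 * k := by
      have : A ≤ A ^ 2 := by nlinarith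
      nlinarith
    have h5 : A ^ 2 * ‖η‖ ≤ A ^ 3 * ‖η‖ := by
      have : A ^ 2 ≤ A ^ 3 := pow_le_pow_right₀ hA (by norm_num)
      gcongr
    calc _ ≤ 16 * A ^ 3 * ‖η‖ ^ 2 + 2 * ‖η‖ * (3 * A ^ 2 * k) +
          ‖η‖ * (k * A + 8 * A ^ 2 * ‖η‖) := by linarith
      _ = ‖η‖ * (16 * A ^ 3 * ‖η‖ + 6 * A ^ 2 * k + k * A + 8 * (A ^ 2 * ‖η‖)) := by ring
      _ ≤ ‖η‖ * (24 * A ^ 3 * ‖η‖ + 7 * A ^ 2 * k) :=
          mul_le_mul_of_nonneg_left (by linarith) hη0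
  rw [e2, norm_div, div_le_iff₀ (norm_pos_iff.2 n2)]
  have hl := lower (-j) hj'
  rw [← hP2] at hl
  have h0 : 0 ≤ ‖η‖ * (24 * A ^ 3 * ‖η‖ + 7 * A ^ 2 * k) := by positivity
  calc _ ≤ ‖η‖ * (24 * A ^ 3 * ‖η‖ + 7 * A ^ 2 * k) := hnum
    _ = 2 * A * ‖η‖ * (24 * A ^ 3 * ‖η‖ + 7 * A ^ 2 * k) * (1 / (2 * A)) := by field_simp
    _ ≤ _ := by gcongr

/-- model integrals: `c = 0` -/
theorem model0 : (∫ _s in (0 : ℝ)..1, (1 : ℂ)) = 1 ∧
    (∫ s in (0 : ℝ)..1, (1 : ℂ) * (s : ℂ)) = 1 / 2 := by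
  constructor
  · simp
  · have hd : ∀ u ∈ uIcc (0 : ℝ) 1, HasDerivAt (fun u : ℝ => (u : ℂ) ^ 2 / 2) ((1 : ℂ) * u) u := by
      intro u _
      have h1 : HasDerivAt (fun r : ℝ => (r : ℂ)) 1 u := by
        simpa using (hasDerivAt_id u).ofReal_comp
      refine ((h1.pow 2).div_const 2).congr_deriv ?_
      push_cast
      ring
    rw [intervalIntegral.integral_eq_sub_of_hasDerivAt hd (by
      apply Continuous.intervalIntegrable; fun_prop)]
    simp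

/-- model integrals: `c = 1` -/
theorem model1 {x y : ℂ} (h : ∀ u ∈ Icc (0 : ℝ) 1, x + u * (y - x) ≠ 0) :
    (∫ s in (0 : ℝ)..1, (((x + s * (y - x)) / x) ^ 2)⁻¹) = x / y ∧
    (∫ s in (0 : ℝ)..1, (((x + s * (y - x)) / x) ^ 2)⁻¹ *
      ((s : ℂ) + (y - x) / x * (s : ℂ) ^ 2 / 2)) = x / y / 2 := by
  have hx : x ≠ 0 := by
    have := h 0 ⟨le_rfl, zero_le_one⟩
    simpa using this
  have hy : y ≠ 0 := by
    have := h 1 ⟨zero_le_one, le_rfl⟩
    simpa using this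
  have hI : uIcc (0 : ℝ) 1 = Icc 0 1 := uIcc_of_le zero_le_one
  have hV : ∀ u ∈ Icc (0 : ℝ) 1, (x + u * (y - x)) / x ≠ 0 := fun u hu => div_ne_zero (h u hu) hx
  have cV : ContinuousOn (fun u : ℝ => (((x + u * (y - x)) / x) ^ 2)⁻¹) (Icc 0 1) := by
    apply ContinuousOn.inv₀
    · fun_prop
    · intro u hu; exact pow_ne_zero 2 (hV u hu)
  have hV1 : ∀ u : ℝ, HasDerivAt (fun u : ℝ => x + (u : ℂ) * (y - x)) (y - x) u := by
    intro u
    have h2 : HasDerivAt (fun u : ℝ => (u : ℂ) * (y - x)) (y - x) u := by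
      simpa using ((hasDerivAt_id u).ofReal_comp).mul_const (y - x)
    exact h2.const_add x
  have hid : ∀ u : ℝ, HasDerivAt (fun r : ℝ => (r : ℂ)) 1 u := by
    intro u
    simpa using (hasDerivAt_id u).ofReal_comp
  constructor
  · have hd : ∀ u ∈ uIcc (0 : ℝ) 1, HasDerivAt (fun u : ℝ => (u : ℂ) * x / (x + u * (y - x)))
        ((((x + u * (y - x)) / x) ^ 2)⁻¹) u := by
      intro u hu
      rw [hI] at hu
      have h0 := h u hu
      refine (((hid u).mul_const x).div (hV1 u) h0).congr_deriv ?_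
      field_simp
      ring
    rw [intervalIntegral.integral_eq_sub_of_hasDerivAt hd
      (ContinuousOn.intervalIntegrable (by rw [hI]; exact cV))]
    simp
  · have hd : ∀ u ∈ uIcc (0 : ℝ) 1, HasDerivAt
        (fun u : ℝ => (u : ℂ) ^ 2 * x / (2 * (x + u * (y - x))))
        ((((x + u * (y - x)) / x) ^ 2)⁻¹ * ((u : ℂ) + (y - x) / x * (u : ℂ) ^ 2 / 2)) u := by
      intro u hu
      rw [hI] at hu
      have h0 := h u hu
      refine ((((hid u).pow 2).mul_const x).div ((hV1 u).const_mul 2)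
        (mul_ne_zero two_ne_zero h0)).congr_deriv ?_
      simp only [Pi.pow_apply]
      push_cast
      field_simp
      ring
    rw [intervalIntegral.integral_eq_sub_of_hasDerivAt hd
      (ContinuousOn.intervalIntegrable (by rw [hI]; exact cV.mul (by fun_prop)))]
    simp
    field_simp

variable {κ c β C : ℝ} {q : ℂ → ℂ}

theorem flat_core {N l : ℝ} (hN : 1 ≤ N) {x y : ℂ} {Λ L : ℝ → ℂ}
    (hch : Chord κ c q N l x y Λ L) {V θ0 : ℝ → ℂ} {P0 j : ℂ} (hj : ‖j‖ = 1)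
    (hV : ∀ s ∈ Icc (0 : ℝ) 1, V s = Complex.exp (c * Λ s)) (hVc : ContinuousOn V (Icc 0 1))
    (hθ : ∀ s ∈ Icc (0 : ℝ) 1, HasDerivAt θ0 (V s) s) (hθ0 : θ0 0 = 0)
    (bV : ∀ s ∈ Icc (0 : ℝ) 1, ‖V s‖ ≤ N) (bV' : ∀ s ∈ Icc (0 : ℝ) 1, ‖(V s)⁻¹‖ ≤ N)
    (i0 : (∫ s in (0 : ℝ)..1, (V s ^ 2)⁻¹) = P0)
    (i1 : (∫ s in (0 : ℝ)..1, (V s ^ 2)⁻¹ * θ0 s) = P0 / 2) (hP : 1 / N ≤ ‖P0‖)
    (hl : 4 * l ≤ 1) (hl0 : 0 ≤ l) (hη : 2 * N ^ 2 * ‖(y - x) * Complex.exp (q x)‖ ≤ 1)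
    (hs : 4 * l * N ^ 2 + 8 * (N ^ 2) ^ 2 * ‖(y - x) * Complex.exp (q x)‖ ≤ 1 / (2 * N ^ 2)) :
    Pj q j x y ≠ 0 ∧ ‖Rj q j x y - 1 - j * ((y - x) * Complex.exp (q x))‖ ≤
      2 * N ^ 2 * ‖(y - x) * Complex.exp (q x)‖ *
        (24 * (N ^ 2) ^ 3 * ‖(y - x) * Complex.exp (q x)‖ + 7 * (N ^ 2) ^ 2 * (4 * l)) := by
  have hN0 : 0 < N := by linarith
  have hA : 1 ≤ N ^ 2 := one_le_pow₀ hN
  set θ : ℝ → ℂ := fun s => ∫ r in (0 : ℝ)..s, Complex.exp (q (x + r * (y - x)) - q x) with hθdef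
  have hgc : ContinuousOn (fun r : ℝ => Complex.exp (q (x + r * (y - x)) - q x)) (Icc (0 : ℝ) 1) :=
    Complex.continuous_exp.comp_continuousOn (hch.contQ.sub continuousOn_const)
  have hθd := hasDeriv_prim hgc
  have hgV : ∀ s ∈ Icc (0 : ℝ) 1, Complex.exp (q (x + s * (y - x)) - q x) =
      V s * Complex.exp (L s) := by
    intro s hs
    rw [hch.dec s hs, Complex.exp_add, hV s hs]
  have hV0 : ∀ s ∈ Icc (0 : ℝ) 1, V s ≠ 0 := by
    intro s hs; rw [hV s hs]; exact Complex.exp_ne_zero _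
  have hL1 : ∀ s ∈ Icc (0 : ℝ) 1, ‖Complex.exp (L s) - 1‖ ≤ 2 * l := by
    intro s hs
    have h1 := hch.L_bd s hs
    have := Complex.norm_exp_sub_one_le (h1.trans (by linarith))
    linarith
  have hL2 : ∀ s ∈ Icc (0 : ℝ) 1, ‖Complex.exp (-2 * L s) - 1‖ ≤ 4 * l := by
    intro s hs
    have h1 := hch.L_bd s hs
    have h2 : ‖-2 * L s‖ ≤ 2 * l := by
      rw [norm_mul, norm_neg, Complex.norm_ofNat]; linarith
    have := Complex.norm_exp_sub_one_le (h2.trans (by linarith))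
    linarith
  have hw : ∀ s ∈ Icc (0 : ℝ) 1, Complex.exp (-2 * (q (x + s * (y - x)) - q x)) =
      (V s ^ 2)⁻¹ * Complex.exp (-2 * L s) := by
    intro s hs
    rw [hch.dec s hs, hV s hs, ← Complex.exp_nat_mul, ← Complex.exp_neg, ← Complex.exp_add]
    congr 1
    push_cast
    ring
  have key := core (A := N ^ 2) (k := 4 * l)
    (w := fun s : ℝ => Complex.exp (-2 * (q (x + s * (y - x)) - q x)))
    (w0 := fun s => (V s ^ 2)⁻¹) (θ := θ) (θ0 := θ0) (η := (y - x) * Complex.exp (q x)) (P0 := P0)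
    (j := j) hA hj ?_ ?_ ?_ ?_ ?_ ?_ ?_ ?_ (by linarith) hl hη i0 i1 ?_ hs
  · have hPj : ∀ i : ℂ, Pj q i x y = ∫ s in (0 : ℝ)..1,
        Complex.exp (-2 * (q (x + s * (y - x)) - q x)) *
          Complex.exp (i * ((y - x) * Complex.exp (q x) * θ s)) := by
      intro i
      unfold Pj
      apply intervalIntegral.integral_congr
      intro s _
      simp only [hθdef]
      have e1 : (∫ s' in (0 : ℝ)..s, Complex.exp (q (x + s' * (y - x)))) =
          ∫ r in (0 : ℝ)..s, Complex.exp (q x) * Complex.exp (q (x + r * (y - x)) - q x) := by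
        apply intervalIntegral.integral_congr
        intro r _
        simp only
        rw [← Complex.exp_add]
        congr 1
        ring
      rw [e1, intervalIntegral.integral_const_mul]
      congr 3
      ring
    obtain ⟨k1, k2, k3⟩ := key
    unfold Rj
    rw [hPj j, hPj (-j)]
    exact ⟨k1, k3⟩
  · exact Complex.continuous_exp.comp_continuousOn (continuousOn_const.mul
      (hch.contQ.sub continuousOn_const))
  · exact (hVc.pow 2).inv₀ fun s hs => pow_ne_zero 2 (hV0 s hs)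
  · exact fun s hs => (hθd s hs).continuousWithinAt
  · exact fun s hs => (hθ s hs).continuousAt.continuousWithinAt
  · intro s hs
    rw [hw s hs, ← mul_sub_one, norm_mul]
    have h1 := hL2 s hs
    have h2 : ‖(V s ^ 2)⁻¹‖ ≤ N ^ 2 := by
      rw [← inv_pow, norm_pow]
      have := bV' s hs
      gcongr
    calc ‖(V s ^ 2)⁻¹‖ * ‖Complex.exp (-2 * L s) - 1‖ ≤ N ^ 2 * (4 * l) := by gcongr
      _ = 4 * l * N ^ 2 := by ring
  · intro s hs
    have key := norm_image_sub_le_of_norm_deriv_le_segment' (f := fun s => θ s - θ0 s)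
      (f' := fun u : ℝ => Complex.exp (q (x + u * (y - x)) - q x) - V u) (a := 0) (b := 1)
      (C := 4 * l * N ^ 2)
      (fun u hu => (hθd u hu).sub (hθ u hu).hasDerivWithinAt) (fun u hu => ?_) s hs
    · have h0 : θ 0 = 0 := by simp [hθdef]
      simp only [h0, hθ0, sub_zero] at key
      refine key.trans ?_
      exact mul_le_of_le_one_right (by positivity) hs.2
    · have hu' : u ∈ Icc (0 : ℝ) 1 := ⟨hu.1, hu.2.le⟩
      rw [hgV u hu', ← mul_sub_one, norm_mul]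
      have h1 := hL1 u hu'
      have h2 := bV u hu'
      calc ‖V u‖ * ‖Complex.exp (L u) - 1‖ ≤ N * (2 * l) := by gcongr
        _ ≤ 4 * l * N ^ 2 := by nlinarith [mul_nonneg hl0 hN0.le, mul_nonneg hl0 (sub_nonneg.2 hN)]
  · intro s hs
    rw [← inv_pow, norm_pow]
    have := bV' s hs
    gcongr
  · intro s hs
    have key := norm_image_sub_le_of_norm_deriv_le_segment' (f := θ0)
      (f' := V) (a := 0) (b := 1) (C := N)
      (fun u hu => (hθ u hu).hasDerivWithinAt) (fun u hu => bV u ⟨hu.1, hu.2.le⟩) s hs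
    rw [hθ0, sub_zero, sub_zero] at key
    have : N * s ≤ N := mul_le_of_le_one_right hN0.le hs.2
    nlinarith
  · refine le_trans ?_ hP
    exact one_div_le_one_div_of_le hN0 (by nlinarith)

/-- **ML-LF** -/
theorem rLimF : RLimF := by
  intro κ c β C q j hc hj h N ε hN hε
  have hC := C_nonneg h
  have hN0 : 0 < N := by linarith
  have hj1 : ‖j‖ = 1 := by rcases hj with rfl | rfl <;> simp
  obtain ⟨K2, hK2, hexp⟩ := exp_q_bound h
  have hc0 : 0 ≤ c := by rcases hc with rfl | rfl <;> norm_num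
  set K : ℝ := C * ((1 / N) ^ (β - 1) + N ^ (β - 1)) * (N + 1) with hK
  have hK0 : 0 ≤ K := by positivity
  set A : ℝ := N ^ 2 with hA
  have hA1 : 1 ≤ A := one_le_pow₀ hN
  set t1 : ℝ := min (min 1 (1 / (2 * A))) (min (1 / (2 * A * (A + 8 * A ^ 2)))
    (ε / (2 * A * (N + 1) * (24 * A ^ 3 + 7 * A ^ 2)))) with ht1
  have ht1pos : 0 < t1 := by positivity
  have t1a : t1 ≤ 1 := (min_le_left _ _).trans (min_le_left _ _)
  have t1b : 2 * A * t1 ≤ 1 := by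
    have : t1 ≤ 1 / (2 * A) := (min_le_left _ _).trans (min_le_right _ _)
    rw [le_div_iff₀ (by positivity)] at this
    linarith
  have t1c : t1 * A + 8 * A ^ 2 * t1 ≤ 1 / (2 * A) := by
    have h1 : t1 ≤ 1 / (2 * A * (A + 8 * A ^ 2)) := (min_le_right _ _).trans (min_le_left _ _)
    rw [le_div_iff₀ (by positivity)] at h1
    rw [le_div_iff₀ (by positivity)]
    linarith
  have t1d : 2 * A * (N + 1) * (24 * A ^ 3 * t1 + 7 * A ^ 2 * t1) ≤ ε := by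
    have h1 : t1 ≤ ε / (2 * A * (N + 1) * (24 * A ^ 3 + 7 * A ^ 2)) :=
      (min_le_right _ _).trans (min_le_right _ _)
    rw [le_div_iff₀ (by positivity)] at h1
    linarith
  -- radius for the power
  obtain ⟨r2, hr2, hpow⟩ : ∃ r2 > 0, ∀ t : ℝ, 0 < t → t < r2 → K * t ^ β ≤ t1 / 4 := by
    have h1 : ContinuousAt (fun t : ℝ => K * t ^ β) 0 :=
      continuousAt_const.mul (Real.continuousAt_rpow_const 0 β (Or.inr h.β_pos.le))
    have h2 := h1.tendsto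
    simp only [Real.zero_rpow h.β_pos.ne', mul_zero] at h2
    have h3 : ∀ᶠ t : ℝ in 𝓝 0, K * t ^ β < t1 / 4 := h2.eventually (gt_mem_nhds (by positivity))
    obtain ⟨r2, hr2, h4⟩ := Metric.eventually_nhds_iff.1 h3
    refine ⟨r2, hr2, fun t ht htr => (h4 ?_).le⟩
    rw [Real.dist_eq, sub_zero, abs_of_pos ht]; exact htr
  refine ⟨min (min (1 / 2) (t1 / ((N + 1) * K2))) r2, by positivity, fun x y hAd hxδ => ?_⟩
  obtain ⟨Λ, L, hch⟩ := exists_chord h hN hAd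
  rw [← hK] at hch
  have hseg : ∀ u ∈ Icc (0 : ℝ) 1, x + u * (y - x) ∈ Sg κ := fun u hu => (hAd u hu).1
  have hx : x ∈ Sg κ := by
    have := hseg 0 ⟨le_rfl, zero_le_one⟩
    simpa using this
  have hx0 : 0 < ‖x‖ := norm_pos_iff.2 hx.1
  have hy : ‖y‖ ≤ N * ‖x‖ := by
    have := (hAd 1 ⟨zero_le_one, le_rfl⟩).2.2
    simpa using this
  have hxy : ‖x‖ ≤ N * ‖y‖ := by
    have := (hAd 1 ⟨zero_le_one, le_rfl⟩).2.1
    simpa using this
  have hyx : ‖y - x‖ ≤ (N + 1) * ‖x‖ := by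
    have := norm_sub_le y x
    linarith
  have hx2 : ‖x‖ ≤ 1 / 2 := (hxδ.le.trans (min_le_left _ _)).trans (min_le_left _ _)
  have hx3 : (N + 1) * K2 * ‖x‖ ≤ t1 := by
    have h1 := (hxδ.le.trans (min_le_left _ _)).trans (min_le_right _ _)
    rw [le_div_iff₀ (by positivity)] at h1
    linarith
  have hl := hpow _ hx0 (hxδ.trans_le (min_le_right _ _))
  set l : ℝ := K * ‖x‖ ^ β with hldef
  have hl0 : 0 ≤ l := by positivity
  have hexpx : ‖Complex.exp (q x)‖ ≤ K2 := by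
    have h1 := hexp x hx hx2
    have h2 : ‖x‖ ^ c ≤ 1 := Real.rpow_le_one hx0.le (by linarith) hc0
    nlinarith
  set η : ℂ := (y - x) * Complex.exp (q x) with hη
  have hη1 : ‖η‖ ≤ (N + 1) * ‖x‖ * ‖Complex.exp (q x)‖ := by
    rw [hη, norm_mul]; gcongr
  have hη2 : ‖η‖ ≤ t1 := by
    calc ‖η‖ ≤ (N + 1) * ‖x‖ * K2 := hη1.trans (by gcongr)
      _ = (N + 1) * K2 * ‖x‖ := by ring
      _ ≤ t1 := hx3
  have hηA : 2 * N ^ 2 * ‖η‖ ≤ 1 := by
    rw [← hA]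
    calc 2 * A * ‖η‖ ≤ 2 * A * t1 := by gcongr
      _ ≤ 1 := t1b
  have hsA : 4 * l * N ^ 2 + 8 * (N ^ 2) ^ 2 * ‖η‖ ≤ 1 / (2 * N ^ 2) := by
    rw [← hA]
    have h4 : 4 * l ≤ t1 := by linarith
    calc 4 * l * A + 8 * A ^ 2 * ‖η‖ ≤ t1 * A + 8 * A ^ 2 * t1 := by gcongr
      _ ≤ _ := t1c
  have hfin : ‖Rj q j x y - 1 - j * η‖ ≤
      2 * N ^ 2 * ‖η‖ * (24 * (N ^ 2) ^ 3 * ‖η‖ + 7 * (N ^ 2) ^ 2 * (4 * l)) →
      ‖Rj q j x y - 1 - j * Complex.exp (q x) * (y - x)‖ ≤ ε * ‖Complex.exp (q x)‖ * ‖x‖ := by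
    intro h1
    rw [← hA] at h1
    have e1 : j * Complex.exp (q x) * (y - x) = j * η := by rw [hη]; ring
    rw [e1]
    refine h1.trans ?_
    have h4 : 4 * l ≤ t1 := by linarith
    calc 2 * A * ‖η‖ * (24 * A ^ 3 * ‖η‖ + 7 * A ^ 2 * (4 * l))
        ≤ 2 * A * ((N + 1) * ‖x‖ * ‖Complex.exp (q x)‖) * (24 * A ^ 3 * t1 + 7 * A ^ 2 * t1) := by
          gcongr
      _ = (2 * A * (N + 1) * (24 * A ^ 3 * t1 + 7 * A ^ 2 * t1)) *
          (‖Complex.exp (q x)‖ * ‖x‖) := by ring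
      _ ≤ ε * (‖Complex.exp (q x)‖ * ‖x‖) := by gcongr
      _ = _ := by ring
  have hz0 : ∀ u ∈ Icc (0 : ℝ) 1, x + u * (y - x) ≠ 0 := fun u hu => (hseg u hu).1
  rcases hc with rfl | rfl
  · -- `c = 0`
    have k := flat_core (V := fun _ => 1) (θ0 := fun s => (s : ℂ)) (P0 := 1) hN hch hj1
      (fun s _ => by simp) continuousOn_const
      (fun s _ => by simpa using (hasDerivAt_id s).ofReal_comp) (by simp)
      (fun s _ => by simpa using hN) (fun s _ => by simpa using hN)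
      (by simp) (by
        have := model0.2
        simp only [one_mul] at this
        simpa using this) (by
        rw [norm_one]
        exact (div_le_one hN0).2 hN) (by linarith) hl0 hηA hsA
    exact ⟨k.1, hfin k.2⟩
  · -- `c = 1`
    have hx' := hx.1
    have hy' : y ≠ 0 := by
      have := hz0 1 ⟨zero_le_one, le_rfl⟩
      simpa using this
    have m1 := model1 hz0
    have k := flat_core (V := fun s => (x + s * (y - x)) / x)
      (θ0 := fun s => ((s : ℂ) + (y - x) / x * (s : ℂ) ^ 2 / 2)) (P0 := x / y) hN hch hj1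
      (fun s hs => by
        rw [Complex.ofReal_one, one_mul, hch.Λ_exp s hs]) (by fun_prop)
      (fun s _ => by
        have h1 : HasDerivAt (fun r : ℝ => (r : ℂ)) 1 s := by
          simpa using (hasDerivAt_id s).ofReal_comp
        refine (h1.add (((h1.pow 2).const_mul ((y - x) / x)).div_const 2)).congr_deriv ?_
        push_cast
        field_simp) (by simp)
      (fun s hs => by
        rw [norm_div, div_le_iff₀ hx0]
        exact (hAd s hs).2.2) (fun s hs => by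
        rw [inv_div, norm_div, div_le_iff₀ (norm_pos_iff.2 (hz0 s hs))]
        exact (hAd s hs).2.1)
      m1.1 m1.2 (by
        rw [norm_div, div_le_div_iff₀ hN0 (norm_pos_iff.2 hy')]
        linarith) (by linarith) hl0 hηA hsA
    exact ⟨k.1, hfin k.2⟩

end Crest.Agent.R102.Mel
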