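import Mathlib
import Crest.Agent.R102.C1A_821
import Crest.Agent.R102.HartR_948

-- ▼ part R102/C1B_821
section

/-!
Row 102, part (C), C1: extension of a leaf in the good directions of `w`, by iteration.
-/

set_option autoImplicit false

open Set Filter Topology Metric
open scoped ComplexConjugate

noncomputable section

namespace Crest.Agent.R102.C1

/-! ### half discs -/

lemma mem_Half {c u : ℂ} {η δ : ℝ} {t : ℂ} :
    t ∈ Half c u η δ ↔ ‖t - c‖ < η ∧ ((t - c) * conj u).im < -δ := by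
  unfold Half
  rw [mem_setOf_eq, mem_ball, dist_eq_norm]

lemma isOpen_Half (c u : ℂ) (η δ : ℝ) : IsOpen (Half c u η δ) := by
  have : Half c u η δ = ball c η ∩ {t | ((t - c) * conj u).im < -δ} := rfl
  rw [this]
  exact isOpen_ball.inter (isOpen_lt (by fun_prop) continuous_const)

lemma im_add_mul (a b v : ℂ) (r : ℝ) (s : ℝ) :
    (((r : ℂ) * a + (s : ℂ) * b) * v).im = r * (a * v).im + s * (b * v).im := by
  rw [add_mul, Complex.add_im, mul_assoc, mul_assoc, Complex.im_ofReal_mul, Complex.im_ofReal_mul]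

lemma convex_Half (c u : ℂ) (η δ : ℝ) : Convex ℝ (Half c u η δ) := by
  intro x hx y hy a b ha hb hab
  have h1 : a • x + b • y - c = (a : ℂ) * (x - c) + (b : ℂ) * (y - c) := by
    have : ((a : ℂ) + b) = 1 := by exact_mod_cast hab
    simp only [Complex.real_smul]
    linear_combination c * this
  have hx' := mem_Half.1 hx
  have hy' := mem_Half.1 hy
  refine mem_Half.2 ⟨?_, ?_⟩
  · have := (convex_ball c η) hx.1 hy.1 ha hb hab
    rwa [mem_ball, dist_eq_norm] at this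
  · rw [h1, im_add_mul]
    rcases eq_or_lt_of_le ha with h0 | h0
    · rw [← h0] at hab ⊢
      have : b = 1 := by linarith
      rw [this]; linarith [hy'.2]
    · have h2 : a * ((x - c) * conj u).im < a * (-δ) := by
        exact mul_lt_mul_of_pos_left hx'.2 h0
      have h3 : b * ((y - c) * conj u).im ≤ b * (-δ) := mul_le_mul_of_nonneg_left hy'.2.le hb
      have h4 : a * (-δ) + b * (-δ) = -δ := by rw [← add_mul, hab]; ring
      linarith

lemma seg_Half {c u : ℂ} {η δ : ℝ} {t w : ℂ} {a b s : ℝ} (ha : t - a * w ∈ Half c u η δ)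
    (hb : t - b * w ∈ Half c u η δ) (h1 : a ≤ s) (h2 : s ≤ b) : t - s * w ∈ Half c u η δ := by
  rcases eq_or_lt_of_le (h1.trans h2) with h | h
  · have : s = a := le_antisymm (by rw [h]; exact h2) h1
    rw [this]; exact ha
  · have hpos : 0 < b - a := by linarith
    have := (convex_Half c u η δ) ha hb (a := (b - s) / (b - a)) (b := (s - a) / (b - a))
      (div_nonneg (by linarith) hpos.le) (div_nonneg (by linarith) hpos.le)
      (by field_simp; ring)
    convert this using 1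
    simp only [Complex.real_smul]
    have hne : ((b : ℂ) - a) ≠ 0 := by
      have : (b - a : ℝ) ≠ 0 := hpos.ne'
      exact_mod_cast this
    push_cast
    field_simp
    ring

/-! ### iteration -/

/-- the dynamics on (position, last step) -/
def Fm (E : ℂ × ℂ → ℂ) (s : ℂ × ℂ) : ℂ × ℂ := (s.1 + E s, E s)

/-- the state at `t - n w` -/
def st0 (X : ℂ × ℂ → ℂ) (w : ℂ) (n : ℕ) (t : ℂ) : ℂ × ℂ :=
  (X (t - n * w, w), X (t - n * w, w) - X (t - (n + 1) * w, w))

/-- `E` is the forward map of the law `k` -/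
structure EMap (V : Set ℂ) (ε' C' : ℝ) (k E : ℂ × ℂ → ℂ) : Prop where
  ε_pos : 0 < ε'
  C_nn : 0 ≤ C'
  diff : DifferentiableOn ℂ E (V ×ˢ ball 0 ε')
  near : ∀ y ∈ V, ∀ e : ℂ, ‖e‖ < ε' → ‖E (y, e) - e‖ ≤ C' * ‖e‖ ^ 3
  uniq : ∀ y ∈ V, ∀ e a : ℂ, ‖e‖ < ε' → ‖a‖ < ε' → k (y, a) = -k (y, -e) → a = E (y, e)

/-- the situation: half disc, small `w` -/
structure Sit (c u : ℂ) (η δ ε' C' r B : ℝ) (k E X : ℂ × ℂ → ℂ) (w : ℂ) : Prop where
  η_pos : 0 < η
  B_nn : 0 ≤ B
  em : EMap (ball c (2 * η)) ε' C' k E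
  lf : LeafOn k (Half c u η δ) r B X
  w_r : ‖w‖ < r
  w_one : ‖w‖ ≤ 1
  w_ε : 2 * ‖w‖ < ε'
  w_C : (2 * B + 16 * C' * η) * ‖w‖ ≤ 1
  w_η : (B + 2 * η * (2 * B + 16 * C' * η)) * ‖w‖ < η

section
variable {c u : ℂ} {η δ ε' C' r B : ℝ} {k E X : ℂ × ℂ → ℂ} {w : ℂ}

lemma Sit.near_K (S : Sit c u η δ ε' C' r B k E X w) {t : ℂ} (ht : t ∈ Half c u η δ) :
    ‖X (t, w) - t‖ ≤ B * ‖w‖ ^ 2 := S.lf.near t ht w S.w_r

lemma Sit.mem_two (_S : Sit c u η δ ε' C' r B k E X w) {t x : ℂ} (ht : ‖t - c‖ < η)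
    (hx : ‖x - t‖ < η) : x ∈ ball c (2 * η) := by
  rw [mem_ball, dist_eq_norm]
  calc ‖x - c‖ = ‖(x - t) + (t - c)‖ := by ring_nf
    _ ≤ ‖x - t‖ + ‖t - c‖ := norm_add_le _ _
    _ < 2 * η := by linarith

lemma Sit.Bw_le (S : Sit c u η δ ε' C' r B k E X w) : B * ‖w‖ ^ 2 < η := by
  have h1 := S.w_η
  have h2 := S.w_one
  have h3 := S.B_nn
  have h4 := S.em.C_nn
  have h5 := S.η_pos
  have h6 := norm_nonneg w
  have h7 : 0 ≤ 2 * η * (2 * B + 16 * C' * η) * ‖w‖ := by positivity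
  have h8 : B * ‖w‖ ^ 2 ≤ B * ‖w‖ := by
    rw [sq]
    exact mul_le_mul_of_nonneg_left (mul_le_of_le_one_left h6 h2) h3
  nlinarith

lemma Sit.memX (S : Sit c u η δ ε' C' r B k E X w) {t : ℂ} (ht : t ∈ Half c u η δ) :
    X (t, w) ∈ ball c (2 * η) :=
  S.mem_two (mem_Half.1 ht).1 ((S.near_K ht).trans_lt S.Bw_le)

lemma Sit.step_near (S : Sit c u η δ ε' C' r B k E X w) {t s : ℂ} (ht : t ∈ Half c u η δ)
    (hs : s ∈ Half c u η δ) (hts : t - s = w) : ‖X (t, w) - X (s, w) - w‖ ≤ 2 * B * ‖w‖ ^ 2 := by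
  have h1 := S.near_K ht
  have h2 := S.near_K hs
  calc ‖X (t, w) - X (s, w) - w‖ = ‖(X (t, w) - t) - (X (s, w) - s)‖ := by rw [← hts]; ring_nf
    _ ≤ ‖X (t, w) - t‖ + ‖X (s, w) - s‖ := norm_sub_le _ _
    _ ≤ 2 * B * ‖w‖ ^ 2 := by linarith

/-- `β ≤ ‖w‖` -/
lemma Sit.beta (S : Sit c u η δ ε' C' r B k E X w) :
    (2 * B + 16 * C' * η) * ‖w‖ ^ 2 ≤ ‖w‖ := by
  have := S.w_C
  have h6 := norm_nonneg w
  calc (2 * B + 16 * C' * η) * ‖w‖ ^ 2 = ((2 * B + 16 * C' * η) * ‖w‖) * ‖w‖ := by ring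
    _ ≤ 1 * ‖w‖ := by gcongr
    _ = ‖w‖ := one_mul _

lemma Sit.two_B (S : Sit c u η δ ε' C' r B k E X w) : 2 * B * ‖w‖ ^ 2 ≤ ‖w‖ := by
  have h1 := S.beta
  have h4 := S.em.C_nn
  have h5 := S.η_pos
  have : 0 ≤ 16 * C' * η * ‖w‖ ^ 2 := by positivity
  nlinarith

/-- the orbit started at `t - n w` shadows `t - (n - j) w` -/
theorem Sit.orbit (S : Sit c u η δ ε' C' r B k E X w) {t : ℂ} {n : ℕ} (ht : ‖t - c‖ < η)
    (h1 : t - n * w ∈ Half c u η δ) (h2 : t - (n + 1) * w ∈ Half c u η δ) (j : ℕ) (hj : j ≤ n) :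
    ‖((Fm E)^[j] (st0 X w n t)).2 - w‖ ≤ 2 * B * ‖w‖ ^ 2 + j * (8 * C' * ‖w‖ ^ 3) ∧
    ‖((Fm E)^[j] (st0 X w n t)).1 - (t - (n - j : ℝ) * w)‖ ≤
      B * ‖w‖ ^ 2 + j * ((2 * B + 16 * C' * η) * ‖w‖ ^ 2) ∧
    ((Fm E)^[j] (st0 X w n t)).1 ∈ ball c (2 * η) ∧ ‖((Fm E)^[j] (st0 X w n t)).2‖ < ε' := by
  have hw0 := norm_nonneg w
  have hC := S.em.C_nn
  have hB := S.B_nn
  have hη := S.η_pos
  have hn : n * ‖w‖ ≤ 2 * η := by
    have h3 : ‖((n : ℂ)) * w‖ ≤ ‖t - c‖ + ‖t - n * w - c‖ := by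
      calc ‖((n : ℂ)) * w‖ = ‖(t - c) - (t - n * w - c)‖ := by ring_nf
        _ ≤ _ := norm_sub_le _ _
    rw [norm_mul, Complex.norm_natCast] at h3
    linarith [(mem_Half.1 h1).1]
  -- auxiliary: bounds imply membership
  have aux : ∀ (j : ℕ) (s : ℂ × ℂ), j ≤ n → ‖s.2 - w‖ ≤ 2 * B * ‖w‖ ^ 2 + j * (8 * C' * ‖w‖ ^ 3) →
      ‖s.1 - (t - (n - j : ℝ) * w)‖ ≤ B * ‖w‖ ^ 2 + j * ((2 * B + 16 * C' * η) * ‖w‖ ^ 2) →
      ‖s.2 - w‖ ≤ (2 * B + 16 * C' * η) * ‖w‖ ^ 2 ∧ s.1 ∈ ball c (2 * η) ∧ ‖s.2‖ ≤ 2 * ‖w‖ := by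
    intro j s hj a1 a2
    have hjw : j * ‖w‖ ≤ 2 * η := le_trans (by gcongr) hn
    have b1 : ‖s.2 - w‖ ≤ (2 * B + 16 * C' * η) * ‖w‖ ^ 2 := by
      refine a1.trans ?_
      have : j * (8 * C' * ‖w‖ ^ 3) = (j * ‖w‖) * (8 * C' * ‖w‖ ^ 2) := by ring
      rw [this]
      have : (j * ‖w‖) * (8 * C' * ‖w‖ ^ 2) ≤ (2 * η) * (8 * C' * ‖w‖ ^ 2) := by gcongr
      nlinarith
    refine ⟨b1, ?_, ?_⟩
    · have h3 : ‖t - ((n - j : ℝ) : ℂ) * w - c‖ < η := by
        have h4 : t - ((n - j : ℝ) : ℂ) * w ∈ ball c η := by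
          have e1 : t ∈ ball c η := by rw [mem_ball, dist_eq_norm]; exact ht
          have e2 : t - n * w ∈ ball c η := h1.1
          rcases Nat.eq_zero_or_pos n with h0 | h0
          · have : j = 0 := by omega
            subst this; subst h0; simpa using e1
          have hn0 : (0 : ℝ) < n := by exact_mod_cast h0
          have hjn : (j : ℝ) ≤ n := by exact_mod_cast hj
          have := (convex_ball c η) e1 e2 (a := j / n) (b := (n - j) / n) (by positivity)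
            (div_nonneg (by linarith) hn0.le) (by field_simp; ring)
          convert this using 1
          simp only [Complex.real_smul]
          have : (n : ℂ) ≠ 0 := by exact_mod_cast hn0.ne'
          push_cast
          field_simp
          ring
        rwa [mem_ball, dist_eq_norm] at h4
      refine S.mem_two h3 ?_
      refine a2.trans_lt (lt_of_le_of_lt ?_ S.w_η)
      have e3 : B * ‖w‖ ^ 2 ≤ B * ‖w‖ := by
        rw [sq]
        exact mul_le_mul_of_nonneg_left (mul_le_of_le_one_left hw0 S.w_one) hB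
      have e4 : j * ((2 * B + 16 * C' * η) * ‖w‖ ^ 2) = (j * ‖w‖) * ((2 * B + 16 * C' * η) * ‖w‖) := by
        ring
      have e5 : (j * ‖w‖) * ((2 * B + 16 * C' * η) * ‖w‖) ≤
          (2 * η) * ((2 * B + 16 * C' * η) * ‖w‖) := by gcongr
      rw [e4]
      nlinarith
    · calc ‖s.2‖ = ‖(s.2 - w) + w‖ := by ring_nf
        _ ≤ ‖s.2 - w‖ + ‖w‖ := norm_add_le _ _
        _ ≤ 2 * ‖w‖ := by linarith [S.beta]
  induction j with
  | zero =>
    have a1 : ‖(st0 X w n t).2 - w‖ ≤ 2 * B * ‖w‖ ^ 2 + (0 : ℕ) * (8 * C' * ‖w‖ ^ 3) := by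
      have := S.step_near h1 h2 (by ring)
      simpa [st0] using this
    have a2 : ‖(st0 X w n t).1 - (t - (n - (0 : ℕ) : ℝ) * w)‖ ≤
        B * ‖w‖ ^ 2 + (0 : ℕ) * ((2 * B + 16 * C' * η) * ‖w‖ ^ 2) := by
      have := S.near_K h1
      simpa [st0] using this
    obtain ⟨-, m1, m2⟩ := aux 0 _ (by omega) a1 a2
    exact ⟨a1, a2, m1, m2.trans_lt S.w_ε⟩
  | succ j ih =>
    obtain ⟨i1, i2, i3, i4⟩ := ih (by omega)
    obtain ⟨-, -, m2⟩ := aux j _ (by omega) i1 i2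
    rw [Function.iterate_succ_apply']
    set s := (Fm E)^[j] (st0 X w n t) with hs
    have hE := S.em.near s.1 i3 s.2 i4
    have hE' : ‖E s - s.2‖ ≤ 8 * C' * ‖w‖ ^ 3 := by
      refine hE.trans ?_
      calc C' * ‖s.2‖ ^ 3 ≤ C' * (2 * ‖w‖) ^ 3 := by gcongr
        _ = 8 * C' * ‖w‖ ^ 3 := by ring
    have a1 : ‖(Fm E s).2 - w‖ ≤ 2 * B * ‖w‖ ^ 2 + (j + 1 : ℕ) * (8 * C' * ‖w‖ ^ 3) := by
      calc ‖(Fm E s).2 - w‖ = ‖(E s - s.2) + (s.2 - w)‖ := by simp only [Fm]; ring_nf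
        _ ≤ ‖E s - s.2‖ + ‖s.2 - w‖ := norm_add_le _ _
        _ ≤ _ := by push_cast; linarith
    have b1 : ‖(Fm E s).2 - w‖ ≤ (2 * B + 16 * C' * η) * ‖w‖ ^ 2 := by
      refine a1.trans ?_
      have hjw : ((j + 1 : ℕ) : ℝ) * ‖w‖ ≤ 2 * η := by
        have : ((j + 1 : ℕ) : ℝ) ≤ n := by exact_mod_cast hj
        exact le_trans (by gcongr) hn
      have e1 : ((j + 1 : ℕ) : ℝ) * (8 * C' * ‖w‖ ^ 3) = (((j + 1 : ℕ) : ℝ) * ‖w‖) * (8 * C' * ‖w‖ ^ 2) := by
        ring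
      rw [e1]
      have : (((j + 1 : ℕ) : ℝ) * ‖w‖) * (8 * C' * ‖w‖ ^ 2) ≤ (2 * η) * (8 * C' * ‖w‖ ^ 2) := by gcongr
      nlinarith
    have a2 : ‖(Fm E s).1 - (t - (n - (j + 1 : ℕ) : ℝ) * w)‖ ≤
        B * ‖w‖ ^ 2 + (j + 1 : ℕ) * ((2 * B + 16 * C' * η) * ‖w‖ ^ 2) := by
      calc ‖(Fm E s).1 - (t - (n - (j + 1 : ℕ) : ℝ) * w)‖
          = ‖(s.1 - (t - (n - j : ℝ) * w)) + ((Fm E s).2 - w)‖ := by
            simp only [Fm]; push_cast; ring_nf
        _ ≤ ‖s.1 - (t - (n - j : ℝ) * w)‖ + ‖(Fm E s).2 - w‖ := norm_add_le _ _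
        _ ≤ _ := by push_cast; push_cast at i2; linarith
    obtain ⟨-, m1, m2'⟩ := aux (j + 1) _ hj a1 a2
    exact ⟨a1, a2, m1, m2'.trans_lt S.w_ε⟩

/-- `t - n w`, `t - (n + 1) w` in the half disc -/
def TT (c u : ℂ) (η δ : ℝ) (w : ℂ) (n : ℕ) : Set ℂ :=
  {t | ‖t - c‖ < η ∧ t - n * w ∈ Half c u η δ ∧ t - (n + 1) * w ∈ Half c u η δ}

lemma isOpen_TT (c u : ℂ) (η δ : ℝ) (w : ℂ) (n : ℕ) : IsOpen (TT c u η δ w n) := by
  have h1 : IsOpen {t : ℂ | ‖t - c‖ < η} :=
    isOpen_lt (by fun_prop : Continuous fun t : ℂ => ‖t - c‖) continuous_const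
  have h2 : IsOpen {t : ℂ | t - n * w ∈ Half c u η δ} :=
    (isOpen_Half c u η δ).preimage (by fun_prop : Continuous fun t : ℂ => t - n * w)
  have h3 : IsOpen {t : ℂ | t - (n + 1) * w ∈ Half c u η δ} :=
    (isOpen_Half c u η δ).preimage (by fun_prop : Continuous fun t : ℂ => t - (n + 1) * w)
  exact h1.inter (h2.inter h3)

/-- the extension with `n` steps -/
def XX (E X : ℂ × ℂ → ℂ) (w : ℂ) (n : ℕ) (t : ℂ) : ℂ := ((Fm E)^[n] (st0 X w n t)).1

theorem Sit.XX_near (S : Sit c u η δ ε' C' r B k E X w) {t : ℂ} {n : ℕ} (ht : t ∈ TT c u η δ w n) :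
    ‖XX E X w n t - t‖ ≤ (B + 2 * η * (2 * B + 16 * C' * η)) * ‖w‖ := by
  have hw0 := norm_nonneg w
  have hC := S.em.C_nn
  have hB := S.B_nn
  have hη := S.η_pos
  have h := (S.orbit ht.1 ht.2.1 ht.2.2 n le_rfl).2.1
  have e0 : t - ((n - n : ℝ) : ℂ) * w = t := by push_cast; ring
  rw [e0] at h
  unfold XX
  refine h.trans ?_
  have hn : n * ‖w‖ ≤ 2 * η := by
    have h3 : ‖((n : ℂ)) * w‖ ≤ ‖t - c‖ + ‖t - n * w - c‖ := by
      calc ‖((n : ℂ)) * w‖ = ‖(t - c) - (t - n * w - c)‖ := by ring_nf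
        _ ≤ _ := norm_sub_le _ _
    rw [norm_mul, Complex.norm_natCast] at h3
    linarith [(mem_Half.1 ht.2.1).1, ht.1]
  have e3 : B * ‖w‖ ^ 2 ≤ B * ‖w‖ := by
    rw [sq]
    exact mul_le_mul_of_nonneg_left (mul_le_of_le_one_left hw0 S.w_one) hB
  have e4 : n * ((2 * B + 16 * C' * η) * ‖w‖ ^ 2) = (n * ‖w‖) * ((2 * B + 16 * C' * η) * ‖w‖) := by
    ring
  have e5 : (n * ‖w‖) * ((2 * B + 16 * C' * η) * ‖w‖) ≤
      (2 * η) * ((2 * B + 16 * C' * η) * ‖w‖) := by gcongr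
  rw [e4]
  nlinarith

theorem Sit.XX_diff (S : Sit c u η δ ε' C' r B k E X w) (n : ℕ) :
    DifferentiableOn ℂ (XX E X w n) (TT c u η δ w n) := by
  have hX : DifferentiableOn ℂ (fun s : ℂ => X (s, w)) (Half c u η δ) :=
    S.lf.diff.comp (by fun_prop : DifferentiableOn ℂ (fun s : ℂ => ((s, w) : ℂ × ℂ)) _)
      (fun s hs => ⟨hs, by rw [mem_ball, dist_zero_right]; exact S.w_r⟩)
  have key : ∀ j ≤ n, DifferentiableOn ℂ (fun t => (Fm E)^[j] (st0 X w n t)) (TT c u η δ w n) := by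
    intro j
    induction j with
    | zero =>
      intro _
      have h1 : DifferentiableOn ℂ (fun t : ℂ => X (t - n * w, w)) (TT c u η δ w n) :=
        hX.comp (by fun_prop : DifferentiableOn ℂ (fun t : ℂ => t - n * w) _) (fun t ht => ht.2.1)
      have h2 : DifferentiableOn ℂ (fun t : ℂ => X (t - (n + 1) * w, w)) (TT c u η δ w n) :=
        hX.comp (by fun_prop : DifferentiableOn ℂ (fun t : ℂ => t - (n + 1) * w) _)
          (fun t ht => ht.2.2)
      exact h1.prodMk (h1.sub h2)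
    | succ j ih =>
      intro hj
      have h1 := ih (by omega)
      have h2 : DifferentiableOn ℂ (fun t => E ((Fm E)^[j] (st0 X w n t))) (TT c u η δ w n) := by
        refine S.em.diff.comp h1 (fun t ht => ?_)
        have := S.orbit ht.1 ht.2.1 ht.2.2 j (by omega)
        exact ⟨this.2.2.1, by rw [mem_ball, dist_zero_right]; exact this.2.2.2⟩
      have h3 : (fun t => (Fm E)^[j + 1] (st0 X w n t)) =
          fun t => (((Fm E)^[j] (st0 X w n t)).1 + E ((Fm E)^[j] (st0 X w n t)),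
            E ((Fm E)^[j] (st0 X w n t))) := by
        funext t
        rw [Function.iterate_succ_apply']
        rfl
      rw [h3]
      exact (h1.fst.add h2).prodMk h2
  exact (key n le_rfl).fst

theorem Sit.XX_succ (S : Sit c u η δ ε' C' r B k E X w) {t : ℂ} {n : ℕ} (h1 : t ∈ TT c u η δ w n)
    (h2 : t ∈ TT c u η δ w (n + 1)) : XX E X w (n + 1) t = XX E X w n t := by
  unfold XX
  rw [Function.iterate_succ_apply]
  have hcast : ((n + 1 : ℕ) : ℂ) = (n : ℂ) + 1 := by push_cast; ring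
  have m0 := h1.2.1
  have m1 := h1.2.2
  have m2 := h2.2.2
  rw [hcast] at m2
  have hlaw := S.lf.law (t - (n + 1) * w) w S.w_r
    (by rw [show t - (n + 1) * w - w = t - (n + 1 + 1) * w by ring]; exact m2) m1
    (by rw [show t - (n + 1) * w + w = t - n * w by ring]; exact m0)
  rw [show t - (n + 1) * w + w = t - n * w by ring,
    show t - (n + 1) * w - w = t - (n + 1 + 1) * w by ring] at hlaw
  have s1 := S.step_near m0 m1 (by ring)
  have s2 := S.step_near m1 m2 (by ring)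
  have b := S.two_B
  have hw := S.w_ε
  have n1 : ‖X (t - n * w, w) - X (t - (n + 1) * w, w)‖ < ε' := by
    calc _ = ‖(X (t - n * w, w) - X (t - (n + 1) * w, w) - w) + w‖ := by ring_nf
      _ ≤ _ := norm_add_le _ _
      _ < ε' := by linarith
  have n2 : ‖X (t - (n + 1) * w, w) - X (t - (n + 1 + 1) * w, w)‖ < ε' := by
    calc _ = ‖(X (t - (n + 1) * w, w) - X (t - (n + 1 + 1) * w, w) - w) + w‖ := by ring_nf
      _ ≤ _ := norm_add_le _ _
      _ < ε' := by linarith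
  have hu := S.em.uniq (X (t - (n + 1) * w, w)) (S.memX m1)
    (X (t - (n + 1) * w, w) - X (t - (n + 1 + 1) * w, w))
    (X (t - n * w, w) - X (t - (n + 1) * w, w)) n2 n1 (by
      rw [hlaw]
      ring_nf)
  have h3 : Fm E (st0 X w (n + 1) t) = st0 X w n t := by
    unfold Fm st0
    rw [hcast]
    simp only
    rw [← hu]
    ext <;> simp
  rw [h3]

lemma TT_between {n m j : ℕ} {t : ℂ} (h1 : t ∈ TT c u η δ w n) (h2 : t ∈ TT c u η δ w m)
    (hn : n ≤ j) (hm : j ≤ m) : t ∈ TT c u η δ w j := by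
  have a1 : t - ((n : ℝ) : ℂ) * w ∈ Half c u η δ := by simpa using h1.2.1
  have a2 : t - ((m + 1 : ℝ) : ℂ) * w ∈ Half c u η δ := by simpa using h2.2.2
  have e1 : (n : ℝ) ≤ j := by exact_mod_cast hn
  have e2 : (j : ℝ) ≤ m := by exact_mod_cast hm
  refine ⟨h1.1, ?_, ?_⟩
  · have := seg_Half a1 a2 (s := j) e1 (by linarith)
    simpa using this
  · have := seg_Half a1 a2 (s := j + 1) (by linarith) (by linarith)
    simpa using this

theorem Sit.XX_eq (S : Sit c u η δ ε' C' r B k E X w) {t : ℂ} {n m : ℕ} (h1 : t ∈ TT c u η δ w n)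
    (h2 : t ∈ TT c u η δ w m) : XX E X w n t = XX E X w m t := by
  wlog hnm : n ≤ m generalizing n m
  · exact (this h2 h1 (by omega)).symm
  obtain ⟨d, rfl⟩ := Nat.exists_eq_add_of_le hnm
  clear hnm
  induction d with
  | zero => rfl
  | succ d ih =>
    have h3 : t ∈ TT c u η δ w (n + d) := TT_between h1 h2 (by omega) (by omega)
    rw [ih h3]
    exact (S.XX_succ h3 h2).symm

/-- **extension of `X (·, w)` for `w` in the good sector** -/
theorem Sit.sector (S : Sit c u η δ ε' C' r B k E X w) (hu : ‖u‖ = 1) (hδ : 0 < δ)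
    (hδη : δ ≤ η / 40) (hwη : ‖w‖ ≤ η / 100) (hg : ‖w‖ / 8 < (w * conj u).im) :
    ∃ Y : ℂ → ℂ, DifferentiableOn ℂ Y (ball c (η / 40)) ∧
      (∀ t ∈ ball c (η / 40), ‖Y t - t‖ ≤ (B + 2 * η * (2 * B + 16 * C' * η)) * ‖w‖) ∧
      ∀ t ∈ ball c (η / 40), t ∈ Half c u η δ → Y t = X (t, w) := by
  have hη := S.η_pos
  have hw0 : 0 < ‖w‖ := by
    rcases eq_or_ne w 0 with h | h
    · rw [h] at hg; simp at hg
    · exact norm_pos_iff.2 h
  have hi0 : 0 < (w * conj u).im := by linarith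
  have hcov : ∀ t ∈ ball c (η / 40), ∃ n : ℕ, t ∈ TT c u η δ w n := by
    intro t ht
    rw [mem_ball, dist_eq_norm] at ht
    refine ⟨⌈(η / 40 + δ) / (w * conj u).im⌉₊, by linarith, ?_, ?_⟩
    all_goals
      set n := ⌈(η / 40 + δ) / (w * conj u).im⌉₊ with hn
      have h1 : (η / 40 + δ) / (w * conj u).im ≤ n := Nat.le_ceil _
      have h2 : (n : ℝ) < (η / 40 + δ) / (w * conj u).im + 1 := Nat.ceil_lt_add_one (by positivity)
      have h3 : η / 40 + δ ≤ n * (w * conj u).im := by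
        rwa [div_le_iff₀ hi0] at h1
      have h4 : (η / 40 + δ) / (w * conj u).im ≤ (η / 40 + δ) / (‖w‖ / 8) := by gcongr
      have h5 : n * ‖w‖ ≤ 8 * (η / 40 + δ) + ‖w‖ := by
        have : n * ‖w‖ ≤ ((η / 40 + δ) / (‖w‖ / 8) + 1) * ‖w‖ := by gcongr; linarith
        refine this.trans (le_of_eq ?_)
        field_simp
      have him : ((t - c) * conj u).im ≤ ‖t - c‖ := by
        refine (Complex.im_le_norm _).trans (le_of_eq ?_)
        rw [norm_mul, Complex.norm_conj, hu, mul_one]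
    · refine mem_Half.2 ⟨?_, ?_⟩
      · calc ‖t - n * w - c‖ = ‖(t - c) - n * w‖ := by ring_nf
          _ ≤ ‖t - c‖ + ‖(n : ℂ) * w‖ := norm_sub_le _ _
          _ = ‖t - c‖ + n * ‖w‖ := by rw [norm_mul, Complex.norm_natCast]
          _ < η := by nlinarith
      · have : ((t - n * w - c) * conj u).im = ((t - c) * conj u).im - n * (w * conj u).im := by
          rw [show (t - n * w - c) * conj u = (t - c) * conj u - ((n : ℝ) : ℂ) * (w * conj u) by
            push_cast; ring, Complex.sub_im, Complex.im_ofReal_mul]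
        rw [this]
        linarith
    · refine mem_Half.2 ⟨?_, ?_⟩
      · calc ‖t - (n + 1) * w - c‖ = ‖(t - c) - ((n + 1 : ℕ) : ℂ) * w‖ := by push_cast; ring_nf
          _ ≤ ‖t - c‖ + ‖((n + 1 : ℕ) : ℂ) * w‖ := norm_sub_le _ _
          _ = ‖t - c‖ + (n + 1) * ‖w‖ := by rw [norm_mul, Complex.norm_natCast]; push_cast; ring
          _ < η := by nlinarith
      · have : ((t - (n + 1) * w - c) * conj u).im =
            ((t - c) * conj u).im - (n + 1) * (w * conj u).im := by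
          rw [show (t - (n + 1) * w - c) * conj u = (t - c) * conj u -
            ((n + 1 : ℝ) : ℂ) * (w * conj u) by
            push_cast; ring, Complex.sub_im, Complex.im_ofReal_mul]
        rw [this]
        nlinarith
  classical
  let N : ℂ → ℕ := fun t => if h : t ∈ ball c (η / 40) then (hcov t h).choose else 0
  have hN : ∀ t ∈ ball c (η / 40), t ∈ TT c u η δ w (N t) := by
    intro t ht
    simp only [N]
    rw [dif_pos ht]
    exact (hcov t ht).choose_spec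
  refine ⟨fun t => XX E X w (N t) t, ?_, ?_, ?_⟩
  · intro t ht
    have h1 := hN t ht
    have h2 : DifferentiableAt ℂ (XX E X w (N t)) t :=
      (S.XX_diff (N t)).differentiableAt ((isOpen_TT c u η δ w (N t)).mem_nhds h1)
    refine (h2.congr_of_eventuallyEq ?_).differentiableWithinAt
    filter_upwards [(isOpen_TT c u η δ w (N t)).mem_nhds h1, isOpen_ball.mem_nhds ht] with s hs hs'
    exact S.XX_eq (hN s hs') hs
  · intro t ht
    exact S.XX_near (hN t ht)
  · intro t ht htK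
    have h0 : t ∈ TT c u η δ w 0 := by
      have h1 := mem_Half.1 htK
      refine ⟨h1.1, by simpa using htK, ?_⟩
      refine mem_Half.2 ⟨?_, ?_⟩
      · rw [mem_ball, dist_eq_norm] at ht
        calc ‖t - ((0 : ℕ) + 1) * w - c‖ = ‖(t - c) - w‖ := by push_cast; ring_nf
          _ ≤ ‖t - c‖ + ‖w‖ := norm_sub_le _ _
          _ < η := by linarith
      · have : ((t - ((0 : ℕ) + 1) * w - c) * conj u).im =
            ((t - c) * conj u).im - (w * conj u).im := by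
          rw [show (t - ((0 : ℕ) + 1) * w - c) * conj u = (t - c) * conj u - w * conj u by
            push_cast; ring, Complex.sub_im]
        rw [this]
        linarith [h1.2]
    show XX E X w (N t) t = X (t, w)
    rw [S.XX_eq (hN t ht) h0]
    simp [XX, st0]

end

end Crest.Agent.R102.C1
end
end

-- ▼ part R102/C1C_821
section

/-!
Row 102, part (C), C1: **`Loc`** (half disc ⇒ disc).
-/

set_option autoImplicit false

open Set Filter Topology Metric
open scoped ComplexConjugate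

noncomputable section

namespace Crest.Agent.R102.C1

open Crest.Agent.R102.M948

/-- `w ↦ - w` -/
def negw (X : ℂ × ℂ → ℂ) (p : ℂ × ℂ) : ℂ := X (p.1, -p.2)

lemma LeafOn.neg {k : ℂ × ℂ → ℂ} {K : Set ℂ} {r B : ℝ} {X : ℂ × ℂ → ℂ} (h : LeafOn k K r B X) :
    LeafOn k K r B (negw X) := by
  refine ⟨?_, ?_, ?_⟩
  · refine h.diff.comp (by fun_prop) (fun p hp => ⟨hp.1, ?_⟩)
    have := hp.2
    simp only [mem_ball, dist_zero_right] at this ⊢
    rwa [norm_neg]
  · intro t ht w hw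
    have := h.near t ht (-w) (by rwa [norm_neg])
    rwa [norm_neg] at this
  · intro t w hw h1 h2 h3
    have := h.law t (-w) (by rwa [norm_neg]) (by rwa [sub_neg_eq_add]) h2
      (by rwa [← sub_eq_add_neg])
    simp only [negw]
    rw [sub_neg_eq_add, ← sub_eq_add_neg] at this
    rw [this, neg_neg]

lemma LeafOn.mono {k : ℂ × ℂ → ℂ} {K K' : Set ℂ} {r B r' B' : ℝ} {X : ℂ × ℂ → ℂ}
    (h : LeafOn k K r B X) (hK : K' ⊆ K) (hr : r' ≤ r) (hB : B ≤ B') : LeafOn k K' r' B' X := by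
  refine ⟨h.diff.mono (prod_mono hK (ball_subset_ball hr)), ?_, ?_⟩
  · intro t ht w hw
    exact (h.near t (hK ht) w (hw.trans_le hr)).trans (by gcongr)
  · intro t w hw h1 h2 h3
    exact h.law t w (hw.trans_le hr) (hK h1) (hK h2) (hK h3)

section
variable {c u : ℂ} {η ε' C' r B r₁ : ℝ} {k E X : ℂ × ℂ → ℂ}

/-- the deviation, `w` first -/
def fdev (X : ℂ × ℂ → ℂ) (p : ℂ × ℂ) : ℂ := X (p.2, p.1) - p.2

/-- Taylor centre -/
def cen (c u : ℂ) (η : ℝ) : ℂ := c - Complex.I * ((η / 400 : ℝ) : ℂ) * u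

lemma cen_dist (hu : ‖u‖ = 1) (hη : 0 < η) : ‖cen c u η - c‖ = η / 400 := by
  unfold cen
  rw [show c - Complex.I * ((η / 400 : ℝ) : ℂ) * u - c = -(Complex.I * ((η / 400 : ℝ) : ℂ) * u) by
    ring, norm_neg, norm_mul, norm_mul, Complex.norm_I, hu, Complex.norm_real, Real.norm_eq_abs,
    abs_of_pos (by positivity)]
  ring

lemma cen_im (hu : ‖u‖ = 1) (t : ℂ) :
    ((t - c) * conj u).im = ((t - cen c u η) * conj u).im - η / 400 := by
  have h1 : u * conj u = 1 := by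
    rw [Complex.mul_conj, Complex.normSq_eq_norm_sq, hu]; norm_num
  have h2 : (t - c) * conj u = (t - cen c u η) * conj u - Complex.I * ((η / 400 : ℝ) : ℂ) := by
    unfold cen
    linear_combination -(Complex.I * ((η / 400 : ℝ) : ℂ)) * h1
  rw [h2, Complex.sub_im]
  simp

lemma ball_cen_Half (hu : ‖u‖ = 1) (hη : 0 < η) :
    ball (cen c u η) (9 * η / 4000) ⊆ Half c u η (η / 4000) := by
  intro t ht
  rw [mem_ball, dist_eq_norm] at ht
  refine mem_Half.2 ⟨?_, ?_⟩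
  · calc ‖t - c‖ = ‖(t - cen c u η) + (cen c u η - c)‖ := by ring_nf
      _ ≤ ‖t - cen c u η‖ + ‖cen c u η - c‖ := norm_add_le _ _
      _ < η := by rw [cen_dist hu hη]; linarith
  · rw [cen_im hu (η := η)]
    have : ((t - cen c u η) * conj u).im ≤ ‖t - cen c u η‖ := by
      refine (Complex.im_le_norm _).trans (le_of_eq ?_)
      rw [norm_mul, Complex.norm_conj, hu, mul_one]
    linarith

lemma fdev_diff {K : Set ℂ} (h : DifferentiableOn ℂ X (K ×ˢ ball 0 r)) :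
    DifferentiableOn ℂ (fdev X) (ball 0 r ×ˢ K) := by
  refine DifferentiableOn.sub ?_ (by fun_prop)
  exact h.comp (by fun_prop : DifferentiableOn ℂ (fun p : ℂ × ℂ => ((p.2, p.1) : ℂ × ℂ)) _)
    (fun p hp => ⟨hp.2, hp.1⟩)

lemma coef_diff (hu : ‖u‖ = 1) (hη : 0 < η) (h : LeafOn k (Half c u η (η / 4000)) r B X) (n : ℕ) :
    DifferentiableOn ℂ (coefT (fdev X) (cen c u η) n) (ball 0 r) :=
  differentiableOn_coefT isOpen_ball (r0 := 9 * η / 4000) (by positivity)
    ((fdev_diff h.diff).mono (prod_mono le_rfl (ball_cen_Half hu hη))) n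

lemma coef_known (hu : ‖u‖ = 1) (hη : 0 < η) (h : LeafOn k (Half c u η (η / 4000)) r B X) (n : ℕ)
    {w : ℂ} (hw : ‖w‖ < r) :
    ‖coefT (fdev X) (cen c u η) n w‖ ≤ B * ‖w‖ ^ 2 * (1 / (η / 800)) ^ n := by
  have hsub : closedBall (cen c u η) (η / 800) ⊆ Half c u η (η / 4000) :=
    (closedBall_subset_ball (by linarith)).trans (ball_cen_Half hu hη)
  have hw' : w ∈ ball (0 : ℂ) r := by rw [mem_ball, dist_zero_right]; exact hw
  refine norm_coefT_le (by positivity) ?_ ?_ n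
  · refine DifferentiableOn.diffContOnCl ?_
    rw [closure_ball _ (by positivity)]
    exact (slice_differentiableOn (fdev_diff h.diff) hw').mono hsub
  · intro t ht
    exact h.near t (hsub (sphere_subset_closedBall ht)) w hw

lemma coef_good_aux (hu : ‖u‖ = 1) (hη : 0 < η) {w : ℂ} (n : ℕ) {A : ℝ} {Y : ℂ → ℂ}
    (hY : DifferentiableOn ℂ Y (ball c (η / 40))) (hYn : ∀ t ∈ ball c (η / 40), ‖Y t - t‖ ≤ A)
    (hYX : ∀ t ∈ ball c (η / 40), t ∈ Half c u η (η / 4000) → Y t = X (t, w)) :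
    ‖coefT (fdev X) (cen c u η) n w‖ ≤ A * (1 / (η / 50)) ^ n := by
  have hsub : closedBall (cen c u η) (η / 50) ⊆ ball c (η / 40) := by
    intro t ht
    rw [mem_closedBall, dist_eq_norm] at ht
    rw [mem_ball, dist_eq_norm]
    calc ‖t - c‖ = ‖(t - cen c u η) + (cen c u η - c)‖ := by ring_nf
      _ ≤ ‖t - cen c u η‖ + ‖cen c u η - c‖ := norm_add_le _ _
      _ < η / 40 := by rw [cen_dist hu hη]; linarith
  have h1 : coefT (fdev X) (cen c u η) n w =
      coefT (fun p : ℂ × ℂ => Y p.2 - p.2) (cen c u η) n w := by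
    unfold coefT
    congr 1
    have h3 : (fun s => fdev X (w, s)) =ᶠ[𝓝 (cen c u η)] (fun s => Y s - s) := by
      filter_upwards [isOpen_ball.mem_nhds (mem_ball_self (x := cen c u η)
        (show 0 < 9 * η / 4000 by positivity))] with s hs
      have hs2 : s ∈ ball c (η / 40) := hsub (by
        rw [mem_ball] at hs; rw [mem_closedBall]; linarith)
      simp only [fdev]
      rw [hYX s hs2 (ball_cen_Half hu hη hs)]
    exact h3.iteratedDeriv_eq n
  rw [h1]
  refine norm_coefT_le (by positivity) ?_ ?_ n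
  · refine DifferentiableOn.diffContOnCl ?_
    rw [closure_ball _ (by positivity)]
    exact (hY.sub differentiableOn_id).mono hsub
  · intro t ht
    exact hYn t (hsub (sphere_subset_closedBall ht))

/-- the constant `A` -/
def Aco (η C' B : ℝ) : ℝ := B + 2 * η * (2 * B + 16 * C' * η)

lemma coef_good (hu : ‖u‖ = 1) (hη : 0 < η) (n : ℕ) {w : ℂ}
    (S : Sit c u η (η / 4000) ε' C' r B k E X w)
    (S' : Sit c u η (η / 4000) ε' C' r B k E (negw X) (-w))
    (hwη : ‖w‖ ≤ η / 100) (hg : ‖w‖ / 8 < |(w * conj u).im|) :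
    ‖coefT (fdev X) (cen c u η) n w‖ ≤ Aco η C' B * (1 / (η / 50)) ^ n := by
  have hA : Aco η C' B * ‖w‖ ≤ Aco η C' B := by
    have hB := S.B_nn
    have hC := S.em.C_nn
    have : 0 ≤ Aco η C' B := by unfold Aco; positivity
    exact mul_le_of_le_one_right this S.w_one
  rcases lt_abs.1 hg with h | h
  · obtain ⟨Y, h1, h2, h3⟩ := S.sector hu (by positivity) (by linarith) hwη h
    exact coef_good_aux hu hη n h1 (fun t ht => (h2 t ht).trans hA) h3
  · obtain ⟨Y, h1, h2, h3⟩ := S'.sector hu (by positivity) (by linarith) (by rwa [norm_neg])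
      (by rw [norm_neg, neg_mul, Complex.neg_im]; exact h)
    refine coef_good_aux hu hη n h1 (fun t ht => (h2 t ht).trans (by rw [norm_neg]; exact hA)) ?_
    intro t ht htK
    rw [h3 t ht htK]
    simp [negw]

theorem coef_all (hu : ‖u‖ = 1) (hη : 0 < η) (n : ℕ)
    (S : ∀ w : ℂ, ‖w‖ < r₁ → Sit c u η (η / 4000) ε' C' r B k E X w ∧
      Sit c u η (η / 4000) ε' C' r B k E (negw X) (-w) ∧ ‖w‖ ≤ η / 100)
    {w : ℂ} (hw : ‖w‖ < r₁ / 2) :
    ‖coefT (fdev X) (cen c u η) n w‖ ≤ (Aco η C' B + B) * (1 / (η / 200)) ^ n := by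
  have hr₁ : 0 < r₁ := by linarith [norm_nonneg w]
  have h00 := (S 0 (by simpa using hr₁)).1
  have hB := h00.B_nn
  have hC := h00.em.C_nn
  have hlf := h00.lf
  have hA0 : 0 ≤ Aco η C' B := by unfold Aco; positivity
  have hw1 : ‖w‖ < r₁ := by linarith
  obtain ⟨S1, S2, S3⟩ := S w hw1
  have hkn : ∀ z : ℂ, ‖z‖ < r₁ → ‖coefT (fdev X) (cen c u η) n z‖ ≤ B * (1 / (η / 800)) ^ n := by
    intro z hz
    obtain ⟨T1, -, -⟩ := S z hz
    refine (coef_known hu hη hlf n T1.w_r).trans ?_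
    have : B * ‖z‖ ^ 2 ≤ B := by
      have : ‖z‖ ^ 2 ≤ 1 := pow_le_one₀ (norm_nonneg _) T1.w_one
      exact mul_le_of_le_one_right hB this
    gcongr
  by_cases hg : ‖w‖ / 8 < |(w * conj u).im|
  · refine (coef_good hu hη n S1 S2 S3 hg).trans ?_
    have : (1 / (η / 50)) ^ n ≤ (1 / (η / 200)) ^ n := by gcongr; norm_num
    calc Aco η C' B * (1 / (η / 50)) ^ n ≤ Aco η C' B * (1 / (η / 200)) ^ n := by gcongr
      _ ≤ (Aco η C' B + B) * (1 / (η / 200)) ^ n := by gcongr; linarith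
  · push Not at hg
    rcases eq_or_ne w 0 with h0 | h0
    · have h1 := coef_known hu hη hlf n S1.w_r
      rw [h0, norm_zero] at h1
      have h2 : ‖coefT (fdev X) (cen c u η) n 0‖ ≤ 0 := by simpa using h1
      rw [h0]
      refine h2.trans ?_
      positivity
    have hwp : 0 < ‖w‖ := norm_pos_iff.2 h0
    have hsub : closedBall w (‖w‖ / 2) ⊆ ball 0 r := by
      intro z hz
      rw [mem_closedBall, dist_eq_norm] at hz
      have hz2 : ‖z‖ < r₁ := by
        calc ‖z‖ = ‖(z - w) + w‖ := by ring_nf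
          _ ≤ ‖z - w‖ + ‖w‖ := norm_add_le _ _
          _ < r₁ := by linarith
      rw [mem_ball, dist_zero_right]
      exact (S z hz2).1.w_r
    have key := two_constants (f := coefT (fdev X) (cen c u η) n) (a := w) (ρ := ‖w‖ / 2)
      (M := (Aco η C' B * (1 / (η / 50)) ^ n) * (B * (1 / (η / 800)) ^ n)) (by positivity)
      ((coef_diff hu hη hlf n).mono hsub) ?_
    · have h1 : (Aco η C' B * (1 / (η / 50)) ^ n) * (B * (1 / (η / 800)) ^ n) =
          (Aco η C' B * B) * ((1 / (η / 200)) ^ n) ^ 2 := by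
        rw [← pow_mul, mul_comm n 2, pow_mul, show (1 / (η / 200)) ^ 2 =
          (1 / (η / 50)) * (1 / (η / 800)) by field_simp; norm_num, mul_pow]
        ring
      rw [h1] at key
      have h2 : (Aco η C' B * B) * ((1 / (η / 200)) ^ n) ^ 2 ≤
          ((Aco η C' B + B) * (1 / (η / 200)) ^ n) ^ 2 := by
        rw [mul_pow]
        gcongr
        nlinarith
      exact (pow_le_pow_iff_left₀ (norm_nonneg _) (by positivity) two_ne_zero).1 (key.trans h2)
    · intro ζ hζ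
      have hζ1 : ‖Complex.I * ζ‖ = ‖w‖ / 2 := by rw [norm_mul, Complex.norm_I, one_mul, hζ]
      have hb : ∀ z : ℂ, ‖z‖ = ‖w‖ / 2 → ‖w + z‖ ≤ 3 / 2 * ‖w‖ := by
        intro z hz
        refine (norm_add_le _ _).trans (by rw [hz]; linarith)
      have hb' : ∀ z : ℂ, ‖z‖ = ‖w‖ / 2 → ‖w + z‖ < r₁ := fun z hz => by linarith [hb z hz]
      have hgood : ∀ z : ℂ, ‖z‖ = ‖w‖ / 2 → 7 / 20 * ‖w‖ ≤ |(z * conj u).im| →
          ‖coefT (fdev X) (cen c u η) n (w + z)‖ ≤ Aco η C' B * (1 / (η / 50)) ^ n := by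
        intro z hz hzi
        obtain ⟨T1, T2, T3⟩ := S (w + z) (hb' z hz)
        refine coef_good hu hη n T1 T2 T3 ?_
        have h3 : |(z * conj u).im| - |(w * conj u).im| ≤ |((w + z) * conj u).im| := by
          rw [add_mul, Complex.add_im]
          have := abs_sub_abs_le_abs_sub (z * conj u).im (-(w * conj u).im)
          rw [abs_neg, sub_neg_eq_add] at this
          rwa [add_comm (w * conj u).im]
        linarith [hb z hz]
      have hn0 : ∀ z : ℂ, 0 ≤ ‖coefT (fdev X) (cen c u η) n z‖ := fun z => norm_nonneg _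
      have hsq : (ζ * conj u).im ^ 2 + (ζ * conj u).re ^ 2 = (‖w‖ / 2) ^ 2 := by
        have h3 : ‖ζ * conj u‖ = ‖w‖ / 2 := by rw [norm_mul, Complex.norm_conj, hu, mul_one, hζ]
        rw [← h3, ← Complex.normSq_eq_norm_sq, Complex.normSq_apply]
        ring
      by_cases hc : 7 / 20 * ‖w‖ ≤ |(ζ * conj u).im|
      · exact mul_le_mul (hgood ζ hζ hc) (hkn _ (hb' _ hζ1)) (hn0 _) (by positivity)
      · push Not at hc
        have h4 : 7 / 20 * ‖w‖ ≤ |((Complex.I * ζ) * conj u).im| := by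
          rw [mul_assoc, Complex.I_mul_im]
          have h5 : (ζ * conj u).im ^ 2 < (7 / 20 * ‖w‖) ^ 2 := by
            rw [← sq_abs]
            gcongr
          have h6 : (7 / 20 * ‖w‖) ^ 2 ≤ |(ζ * conj u).re| ^ 2 := by
            rw [sq_abs]
            nlinarith
          exact (pow_le_pow_iff_left₀ (by positivity) (abs_nonneg _) two_ne_zero).1 h6
        rw [mul_comm]
        exact mul_le_mul (hgood _ hζ1 h4) (hkn _ (hb' _ hζ)) (hn0 _) (by positivity)

/-- the extended function -/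
def GX (X : ℂ × ℂ → ℂ) (c u : ℂ) (η : ℝ) (p : ℂ × ℂ) : ℂ :=
  p.1 + ∑' n, coefT (fdev X) (cen c u η) n p.2 * (p.1 - cen c u η) ^ n

theorem assembly (hu : ‖u‖ = 1) (hη : 0 < η) (hr₁ : 0 < r₁)
    (S : ∀ w : ℂ, ‖w‖ < r₁ → Sit c u η (η / 4000) ε' C' r B k E X w ∧
      Sit c u η (η / 4000) ε' C' r B k E (negw X) (-w) ∧ ‖w‖ ≤ η / 100) :
    DifferentiableOn ℂ (GX X c u η) (ball (cen c u η) (3 * η / 800) ×ˢ ball 0 (r₁ / 2)) ∧
    (∀ t ∈ ball (cen c u η) (3 * η / 800), ∀ w : ℂ, ‖w‖ < r₁ / 2 →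
      ‖GX X c u η (t, w) - t‖ ≤ 4 * ((Aco η C' B + B) / (r₁ / 2) ^ 2) * ‖w‖ ^ 2) ∧
    (∀ t ∈ ball (cen c u η) (3 * η / 800), t ∈ Half c u η (η / 4000) → ∀ w : ℂ, ‖w‖ < r₁ / 2 →
      GX X c u η (t, w) = X (t, w)) := by
  have h00 := (S 0 (by simpa using hr₁)).1
  have hB := h00.B_nn
  have hC := h00.em.C_nn
  have hlf := h00.lf
  have hA0 : 0 ≤ Aco η C' B := by unfold Aco; positivity
  have hrr : ∀ w : ℂ, ‖w‖ < r₁ → ‖w‖ < r := fun w hw => (S w hw).1.w_r
  have hsubr : ball (0 : ℂ) (r₁ / 2) ⊆ ball 0 r := by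
    intro w hw
    rw [mem_ball, dist_zero_right] at hw ⊢
    exact hrr w (by linarith)
  set M : ℝ := Aco η C' B + B with hM
  have hM0 : 0 ≤ M := by positivity
  -- quadratic bound of the coefficients
  have hq : ∀ n : ℕ, ∀ w : ℂ, ‖w‖ < r₁ / 2 → ‖coefT (fdev X) (cen c u η) n w‖ ≤
      (M / (r₁ / 2) ^ 2 * ‖w‖ ^ 2) * (1 / (η / 200)) ^ n := by
    intro n w hw
    have h1 := schwarz_two (f := coefT (fdev X) (cen c u η) n) (R := r₁ / 2)
      (M := M * (1 / (η / 200)) ^ n) (A := B * (1 / (η / 800)) ^ n) (by positivity)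
      ((coef_diff hu hη hlf n).mono hsubr)
      (fun z hz => coef_all hu hη n S (by simpa using hz))
      (fun z hz => by
        have := coef_known hu hη hlf n (w := z) (hrr z (by
          rw [mem_ball, dist_zero_right] at hz; linarith))
        refine this.trans (le_of_eq ?_)
        ring) w (by simpa using hw)
    refine h1.trans (le_of_eq ?_)
    ring
  have hterm : ∀ n : ℕ, ∀ t ∈ ball (cen c u η) (3 * η / 800), ∀ w : ℂ, ‖w‖ < r₁ / 2 →
      ‖coefT (fdev X) (cen c u η) n w * (t - cen c u η) ^ n‖ ≤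
        (M / (r₁ / 2) ^ 2 * ‖w‖ ^ 2) * (3 / 4) ^ n := by
    intro n t ht w hw
    rw [mem_ball, dist_eq_norm] at ht
    rw [norm_mul, norm_pow]
    calc ‖coefT (fdev X) (cen c u η) n w‖ * ‖t - cen c u η‖ ^ n
        ≤ ((M / (r₁ / 2) ^ 2 * ‖w‖ ^ 2) * (1 / (η / 200)) ^ n) * (3 * η / 800) ^ n := by
          gcongr
          exact hq n w hw
      _ = (M / (r₁ / 2) ^ 2 * ‖w‖ ^ 2) * (3 / 4) ^ n := by
          rw [mul_assoc, ← mul_pow]
          congr 2
          field_simp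
          norm_num
  have hterm' : ∀ n : ℕ, ∀ p ∈ ball (cen c u η) (3 * η / 800) ×ˢ ball (0 : ℂ) (r₁ / 2),
      ‖coefT (fdev X) (cen c u η) n p.2 * (p.1 - cen c u η) ^ n‖ ≤ M * (3 / 4) ^ n := by
    intro n p hp
    have h2 : ‖p.2‖ < r₁ / 2 := by simpa using hp.2
    refine (hterm n p.1 hp.1 p.2 h2).trans ?_
    have h3 : M / (r₁ / 2) ^ 2 * ‖p.2‖ ^ 2 ≤ M := by
      rw [div_mul_eq_mul_div, div_le_iff₀ (by positivity)]
      gcongr
    gcongr
  refine ⟨?_, ?_, ?_⟩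
  · have hopen : IsOpen (ball (cen c u η) (3 * η / 800) ×ˢ ball (0 : ℂ) (r₁ / 2)) :=
      isOpen_ball.prod isOpen_ball
    have hsumm : Summable (fun n : ℕ => M * (3 / 4 : ℝ) ^ n) :=
      (summable_geometric_of_lt_one (by norm_num) (by norm_num)).mul_left _
    have h1 := Crest.Agent.R266.SCV.analyticOnNhd_of_tendstoLocallyUniformlyOn hopen
      (tendstoUniformlyOn_tsum_nat hsumm hterm').tendstoLocallyUniformlyOn
      (Eventually.of_forall (fun N => by
        refine DifferentiableOn.fun_sum (fun n _ => ?_)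
        refine DifferentiableOn.mul ?_ (by fun_prop)
        exact ((coef_diff hu hη hlf n).mono hsubr).comp
          (differentiable_snd.differentiableOn) (fun p hp => hp.2)))
    exact DifferentiableOn.add (by fun_prop) h1.differentiableOn
  · intro t ht w hw
    have hs : HasSum (fun n : ℕ => (M / (r₁ / 2) ^ 2 * ‖w‖ ^ 2) * (3 / 4 : ℝ) ^ n)
        ((M / (r₁ / 2) ^ 2 * ‖w‖ ^ 2) * (1 - 3 / 4)⁻¹) :=
      (hasSum_geometric_of_lt_one (by norm_num) (by norm_num)).mul_left _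
    have h1 := tsum_of_norm_bounded hs (fun n => hterm n t ht w hw)
    have h2 : GX X c u η (t, w) - t =
        ∑' n, coefT (fdev X) (cen c u η) n w * (t - cen c u η) ^ n := by
      unfold GX; simp
    rw [h2]
    refine h1.trans (le_of_eq ?_)
    norm_num
    ring
  · intro t ht htK w hw
    have hwr : w ∈ ball (0 : ℂ) r := hsubr (by simpa using hw)
    have hopen : IsOpen (ball (cen c u η) (3 * η / 800) ∩ Half c u η (η / 4000)) :=
      isOpen_ball.inter (isOpen_Half _ _ _ _)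
    have hconv : Convex ℝ (ball (cen c u η) (3 * η / 800) ∩ Half c u η (η / 4000)) :=
      (convex_ball _ _).inter (convex_Half _ _ _ _)
    have hXd : DifferentiableOn ℂ (fun s => X (s, w))
        (ball (cen c u η) (3 * η / 800) ∩ Half c u η (η / 4000)) :=
      hlf.diff.comp (by fun_prop : DifferentiableOn ℂ (fun s : ℂ => ((s, w) : ℂ × ℂ)) _)
        (fun s hs => ⟨hs.2, hwr⟩)
    have hser : ∀ s : ℂ, s ∈ ball (cen c u η) (9 * η / 4000) →
        HasSum (fun n : ℕ => coefT (fdev X) (cen c u η) n w * (s - cen c u η) ^ n)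
          (fdev X (w, s)) := by
      intro s hs
      have h1 := Complex.hasSum_taylorSeries_on_ball
        ((slice_differentiableOn (fdev_diff hlf.diff) hwr).mono (ball_cen_Half hu hη)) hs
      have h2 : (fun n : ℕ => coefT (fdev X) (cen c u η) n w * (s - cen c u η) ^ n) =
          (fun n : ℕ => (n.factorial : ℂ)⁻¹ • (s - cen c u η) ^ n •
            iteratedDeriv n (fun s => fdev X (w, s)) (cen c u η)) := by
        funext n
        unfold coefT; simp only [smul_eq_mul]; ring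
      rw [h2]
      exact h1
    have hval : ∀ s : ℂ, s ∈ ball (cen c u η) (9 * η / 4000) → GX X c u η (s, w) = X (s, w) := by
      intro s hs
      unfold GX
      rw [(hser s hs).tsum_eq]
      simp [fdev]
    have hGd : DifferentiableOn ℂ (fun s => GX X c u η (s, w))
        (ball (cen c u η) (3 * η / 800) ∩ Half c u η (η / 4000)) := by
      have hopen : IsOpen (ball (cen c u η) (3 * η / 800) ×ˢ ball (0 : ℂ) (r₁ / 2)) :=
        isOpen_ball.prod isOpen_ball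
      have hsumm : Summable (fun n : ℕ => M * (3 / 4 : ℝ) ^ n) :=
        (summable_geometric_of_lt_one (by norm_num) (by norm_num)).mul_left _
      have h1 := Crest.Agent.R266.SCV.analyticOnNhd_of_tendstoLocallyUniformlyOn hopen
        (tendstoUniformlyOn_tsum_nat hsumm hterm').tendstoLocallyUniformlyOn
        (Eventually.of_forall (fun N => by
          refine DifferentiableOn.fun_sum (fun n _ => ?_)
          refine DifferentiableOn.mul ?_ (by fun_prop)
          exact ((coef_diff hu hη hlf n).mono hsubr).comp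
            (differentiable_snd.differentiableOn) (fun p hp => hp.2)))
      have h2 : DifferentiableOn ℂ (GX X c u η)
          (ball (cen c u η) (3 * η / 800) ×ˢ ball 0 (r₁ / 2)) :=
        DifferentiableOn.add (by fun_prop) h1.differentiableOn
      exact h2.comp (by fun_prop : DifferentiableOn ℂ (fun s : ℂ => ((s, w) : ℂ × ℂ)) _)
        (fun s hs => ⟨hs.1, by simpa using hw⟩)
    have hcm : cen c u η ∈ ball (cen c u η) (3 * η / 800) ∩ Half c u η (η / 4000) :=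
      ⟨mem_ball_self (by positivity), ball_cen_Half hu hη (mem_ball_self (by positivity))⟩
    have hid := (hGd.analyticOnNhd hopen).eqOn_of_preconnected_of_eventuallyEq
      (hXd.analyticOnNhd hopen) hconv.isPreconnected hcm (by
        filter_upwards [isOpen_ball.mem_nhds (mem_ball_self (x := cen c u η)
          (show 0 < 9 * η / 4000 by positivity))] with s hs
        exact hval s hs)
    exact hid ⟨ht, htK⟩

end

end Crest.Agent.R102.C1
end
end

-- ▼ part R102/C1D_821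
section

/-!
Row 102, part (C), C1: **`loc : Loc`**, gluing, **`grow : Grow`**.
-/

set_option autoImplicit false

open Set Filter Topology Metric
open scoped ComplexConjugate

noncomputable section

namespace Crest.Agent.R102.C1

open Crest.Agent.R102.M948

/-- domain of the law -/
def LD (D : Set ℂ) (r : ℝ) : Set (ℂ × ℂ) :=
  {p | p.2 ∈ ball (0 : ℂ) r ∧ p.1 - p.2 ∈ D ∧ p.1 ∈ D ∧ p.1 + p.2 ∈ D}

lemma isOpen_LD {D : Set ℂ} (hD : IsOpen D) (r : ℝ) : IsOpen (LD D r) := by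
  have h1 : IsOpen {p : ℂ × ℂ | p.2 ∈ ball (0 : ℂ) r} := isOpen_ball.preimage continuous_snd
  have h2 : IsOpen {p : ℂ × ℂ | p.1 - p.2 ∈ D} := hD.preimage (by fun_prop)
  have h3 : IsOpen {p : ℂ × ℂ | p.1 ∈ D} := hD.preimage continuous_fst
  have h4 : IsOpen {p : ℂ × ℂ | p.1 + p.2 ∈ D} := hD.preimage (by fun_prop)
  exact h1.inter (h2.inter (h3.inter h4))

lemma convex_LD {D : Set ℂ} (hD : Convex ℝ D) (r : ℝ) : Convex ℝ (LD D r) := by
  intro x hx y hy a b ha hb hab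
  refine ⟨?_, ?_, ?_, ?_⟩
  · exact (convex_ball (0 : ℂ) r) hx.1 hy.1 ha hb hab
  · have := hD hx.2.1 hy.2.1 ha hb hab
    convert this using 1
    simp only [Prod.fst_add, Prod.smul_fst, Prod.snd_add, Prod.smul_snd, smul_sub]
    ring
  · exact hD hx.2.2.1 hy.2.2.1 ha hb hab
  · have := hD hx.2.2.2 hy.2.2.2 ha hb hab
    convert this using 1
    simp only [Prod.fst_add, Prod.smul_fst, Prod.snd_add, Prod.smul_snd, smul_add]
    ring

/-- the defect of the law -/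
def Lam (k X : ℂ × ℂ → ℂ) (p : ℂ × ℂ) : ℂ :=
  k (X p, X (p.1 + p.2, p.2) - X p) + k (X p, X (p.1 - p.2, p.2) - X p)

lemma near_two {D : Set ℂ} {r B : ℝ} {X : ℂ × ℂ → ℂ} (hB : 0 ≤ B)
    (hn : ∀ t ∈ D, ∀ w : ℂ, ‖w‖ < r → ‖X (t, w) - t‖ ≤ B * ‖w‖ ^ 2) {t s w : ℂ} (ht : t ∈ D)
    (hs : s ∈ D) (hw : ‖w‖ < r) (hts : ‖t - s‖ = ‖w‖) :
    ‖X (t, w) - X (s, w)‖ < r + 2 * B * r ^ 2 := by
  have h1 := hn t ht w hw
  have h2 := hn s hs w hw
  have h3 : B * ‖w‖ ^ 2 ≤ B * r ^ 2 := by gcongr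
  calc ‖X (t, w) - X (s, w)‖ = ‖(t - s) + ((X (t, w) - t) - (X (s, w) - s))‖ := by ring_nf
    _ ≤ ‖t - s‖ + ‖(X (t, w) - t) - (X (s, w) - s)‖ := norm_add_le _ _
    _ ≤ ‖t - s‖ + (‖X (t, w) - t‖ + ‖X (s, w) - s‖) := by gcongr; exact norm_sub_le _ _
    _ < r + 2 * B * r ^ 2 := by rw [hts]; linarith

theorem law_ext {V D : Set ℂ} {ε C r B : ℝ} {k X : ℂ × ℂ → ℂ} (hD : IsOpen D) (hDc : Convex ℝ D)
    (hk : KMap V ε C k) (hB : 0 ≤ B) (hX : DifferentiableOn ℂ X (D ×ˢ ball 0 r))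
    (hn : ∀ t ∈ D, ∀ w : ℂ, ‖w‖ < r → ‖X (t, w) - t‖ ≤ B * ‖w‖ ^ 2)
    (hmem : ∀ t ∈ D, ∀ w : ℂ, ‖w‖ < r → X (t, w) ∈ V) (hε : r + 2 * B * r ^ 2 ≤ ε) {t₀ : ℂ}
    (ht₀ : (t₀, 0) ∈ LD D r) (hloc : ∀ᶠ p in 𝓝 ((t₀, 0) : ℂ × ℂ), Lam k X p = 0) :
    ∀ p ∈ LD D r, Lam k X p = 0 := by
  have hXp : DifferentiableOn ℂ X (LD D r) := hX.mono (fun p hp => ⟨hp.2.2.1, hp.1⟩)
  have hXa : DifferentiableOn ℂ (fun p : ℂ × ℂ => X (p.1 + p.2, p.2)) (LD D r) :=
    hX.comp (by fun_prop) (fun p hp => ⟨hp.2.2.2, hp.1⟩)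
  have hXb : DifferentiableOn ℂ (fun p : ℂ × ℂ => X (p.1 - p.2, p.2)) (LD D r) :=
    hX.comp (by fun_prop) (fun p hp => ⟨hp.2.1, hp.1⟩)
  have hd : DifferentiableOn ℂ (Lam k X) (LD D r) := by
    refine DifferentiableOn.add ?_ ?_
    · refine hk.diff.comp (hXp.prodMk (hXa.sub hXp)) (fun p hp => ?_)
      have hw : ‖p.2‖ < r := by simpa using hp.1
      refine ⟨hmem p.1 hp.2.2.1 p.2 hw, ?_⟩
      rw [mem_ball, dist_zero_right]
      exact (near_two hB hn hp.2.2.2 hp.2.2.1 hw (by rw [add_sub_cancel_left])).trans_le hε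
    · refine hk.diff.comp (hXp.prodMk (hXb.sub hXp)) (fun p hp => ?_)
      have hw : ‖p.2‖ < r := by simpa using hp.1
      refine ⟨hmem p.1 hp.2.2.1 p.2 hw, ?_⟩
      rw [mem_ball, dist_zero_right]
      exact (near_two hB hn hp.2.1 hp.2.2.1 hw (by
        rw [sub_right_comm, sub_self, zero_sub, norm_neg])).trans_le hε
  have ha := Crest.Agent.R266.SCV.analyticOnNhd_of_differentiableOn (isOpen_LD hD r) hd
  have := ha.eqOn_zero_of_preconnected_of_eventuallyEq_zero (convex_LD hDc r).isPreconnected ht₀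
    (by filter_upwards [hloc] with p hp; simpa using hp)
  exact fun p hp => this hp

/-- constants for which the whole construction works -/
theorem exists_r (η ε' C' r B : ℝ) (hη : 0 < η) (hε' : 0 < ε') (hr : 0 < r) (hB : 0 ≤ B)
    (hC' : 0 ≤ C') : ∃ r₁ : ℝ, 0 < r₁ ∧ ∀ w : ℂ, ‖w‖ < r₁ → ‖w‖ < r ∧ ‖w‖ ≤ 1 ∧ 2 * ‖w‖ < ε' ∧
      (2 * B + 16 * C' * η) * ‖w‖ ≤ 1 ∧ (B + 2 * η * (2 * B + 16 * C' * η)) * ‖w‖ < η ∧
      ‖w‖ ≤ η / 100 := by
  set a := 2 * B + 16 * C' * η with ha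
  have ha0 : 0 ≤ a := by positivity
  set A := B + 2 * η * a with hA
  have hA0 : 0 ≤ A := by positivity
  refine ⟨min r (min 1 (min (ε' / 3) (min (1 / (a + 1)) (min (η / (A + 1)) (η / 100))))), ?_, ?_⟩
  · refine lt_min hr (lt_min one_pos (lt_min (by positivity) (lt_min (by positivity)
      (lt_min (by positivity) (by positivity)))))
  · intro w hw
    simp only [lt_min_iff] at hw
    obtain ⟨h1, h2, h3, h4, h5, h6⟩ := hw
    have hw0 := norm_nonneg w
    rw [lt_div_iff₀ (by positivity)] at h4 h5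
    refine ⟨h1, h2.le, by linarith, by nlinarith, by nlinarith, h6.le⟩

theorem loc_aux {η ε C r B : ℝ} (hη : 0 < η) (hε : 0 < ε) (hr : 0 < r) (hB : 0 ≤ B) :
    ∃ r' B' : ℝ, 0 < r' ∧ r' ≤ r ∧
    ∀ (c u : ℂ) (k X : ℂ × ℂ → ℂ), ‖u‖ = 1 → KMap (ball c (2 * η)) ε C k →
      LeafOn k (Half c u η (η / 4000)) r B X →
      ∃ X' : ℂ × ℂ → ℂ, LeafOn k (ball (cen c u η) (3 * η / 800)) r' B' X' ∧
        ∀ t ∈ ball (cen c u η) (3 * η / 800), t ∈ Half c u η (η / 4000) → ∀ w : ℂ, ‖w‖ < r' →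
          X' (t, w) = X (t, w) := by
  obtain ⟨ε', C', hε', hεε, hC', hE⟩ := exists_E ε C hε
  obtain ⟨r₁, hr₁, hS⟩ := exists_r η ε' C' r B hη hε' hr hB hC'
  set B' : ℝ := 4 * ((Aco η C' B + B) / (r₁ / 2) ^ 2) with hB'
  have hA0 : 0 ≤ Aco η C' B := by unfold Aco; positivity
  have hB'0 : 0 ≤ B' := by positivity
  -- the final radius
  set r' : ℝ := min (r₁ / 2) (min r (min 1 (min (ε / (2 * B' + 2)) (η / (B' + 1))))) with hr'
  have hr'0 : 0 < r' := lt_min (by positivity) (lt_min hr (lt_min one_pos (lt_min (by positivity)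
    (by positivity))))
  have e1 : r' ≤ r₁ / 2 := min_le_left _ _
  have e2 : r' ≤ r := (min_le_right _ _).trans (min_le_left _ _)
  have e3 : r' ≤ 1 := (min_le_right _ _).trans ((min_le_right _ _).trans (min_le_left _ _))
  have e4 : r' ≤ ε / (2 * B' + 2) := (min_le_right _ _).trans ((min_le_right _ _).trans
    ((min_le_right _ _).trans (min_le_left _ _)))
  have e5 : r' ≤ η / (B' + 1) := (min_le_right _ _).trans ((min_le_right _ _).trans
    ((min_le_right _ _).trans (min_le_right _ _)))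
  rw [le_div_iff₀ (by positivity)] at e4 e5
  have hsq : B' * r' ^ 2 ≤ B' * r' := by
    rw [sq]
    exact mul_le_mul_of_nonneg_left (mul_le_of_le_one_left hr'0.le e3) hB'0
  have e6 : r' + 2 * B' * r' ^ 2 ≤ ε := by nlinarith
  have e7 : B' * r' ^ 2 < η := by nlinarith
  refine ⟨r', B', hr'0, e2, ?_⟩
  intro c u k X hu hk hX
  obtain ⟨E, hE1, hE2, hE3⟩ := hE (ball c (2 * η)) k isOpen_ball hk
  have em : EMap (ball c (2 * η)) ε' C' k E :=
    ⟨hε', hC', hE1, fun y hy e he => (hE2 y hy e he).1, hE3⟩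
  have S : ∀ w : ℂ, ‖w‖ < r₁ → Sit c u η (η / 4000) ε' C' r B k E X w ∧
      Sit c u η (η / 4000) ε' C' r B k E (negw X) (-w) ∧ ‖w‖ ≤ η / 100 := by
    intro w hw
    obtain ⟨h1, h2, h3, h4, h5, h6⟩ := hS w hw
    refine ⟨⟨hη, hB, em, hX, h1, h2, h3, h4, h5⟩, ⟨hη, hB, em, hX.neg, ?_, ?_, ?_, ?_, ?_⟩, h6⟩ <;>
      rw [norm_neg] <;> assumption
  obtain ⟨a1, a2, a3⟩ := assembly hu hη hr₁ S
  have hopen : IsOpen (ball (cen c u η) (3 * η / 800)) := isOpen_ball
  have d1 : DifferentiableOn ℂ (GX X c u η) (ball (cen c u η) (3 * η / 800) ×ˢ ball 0 r') :=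
    a1.mono (prod_mono le_rfl (ball_subset_ball e1))
  have d2 : ∀ t ∈ ball (cen c u η) (3 * η / 800), ∀ w : ℂ, ‖w‖ < r' →
      ‖GX X c u η (t, w) - t‖ ≤ B' * ‖w‖ ^ 2 := fun t ht w hw => a2 t ht w (hw.trans_le e1)
  have hmem : ∀ t ∈ ball (cen c u η) (3 * η / 800), ∀ w : ℂ, ‖w‖ < r' →
      GX X c u η (t, w) ∈ ball c (2 * η) := by
    intro t ht w hw
    have h1 := d2 t ht w hw
    rw [mem_ball, dist_eq_norm] at ht ⊢
    have h2 : B' * ‖w‖ ^ 2 ≤ B' * r' ^ 2 := by gcongr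
    have h3 : ‖t - c‖ ≤ 3 * η / 800 + η / 400 := by
      calc ‖t - c‖ = ‖(t - cen c u η) + (cen c u η - c)‖ := by ring_nf
        _ ≤ ‖t - cen c u η‖ + ‖cen c u η - c‖ := norm_add_le _ _
        _ ≤ _ := by rw [cen_dist hu hη]; linarith
    calc ‖GX X c u η (t, w) - c‖ = ‖(GX X c u η (t, w) - t) + (t - c)‖ := by ring_nf
      _ ≤ ‖GX X c u η (t, w) - t‖ + ‖t - c‖ := norm_add_le _ _
      _ < 2 * η := by linarith
  have hcen : cen c u η ∈ ball (cen c u η) (3 * η / 800) := mem_ball_self (by positivity)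
  have hcen2 : cen c u η ∈ Half c u η (η / 4000) := ball_cen_Half hu hη (mem_ball_self (by positivity))
  have hloc : ∀ᶠ p in 𝓝 ((cen c u η, 0) : ℂ × ℂ), Lam k (GX X c u η) p = 0 := by
    have hLD : ((cen c u η, 0) : ℂ × ℂ) ∈
        LD (ball (cen c u η) (3 * η / 800) ∩ Half c u η (η / 4000)) r' := by
      refine ⟨mem_ball_self hr'0, ?_, ⟨hcen, hcen2⟩, ?_⟩
      · show cen c u η - 0 ∈ _
        rw [sub_zero]; exact ⟨hcen, hcen2⟩
      · show cen c u η + 0 ∈ _
        rw [add_zero]; exact ⟨hcen, hcen2⟩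
    filter_upwards [(isOpen_LD (hopen.inter (isOpen_Half c u η (η / 4000))) r').mem_nhds hLD] with p hp
    have hw : ‖p.2‖ < r' := by simpa using hp.1
    have g0 : GX X c u η p = X p := a3 p.1 hp.2.2.1.1 hp.2.2.1.2 p.2 (hw.trans_le e1)
    have g1 := a3 (p.1 + p.2) hp.2.2.2.1 hp.2.2.2.2 p.2 (hw.trans_le e1)
    have g2 := a3 (p.1 - p.2) hp.2.1.1 hp.2.1.2 p.2 (hw.trans_le e1)
    have := hX.law p.1 p.2 (hw.trans_le e2) hp.2.1.2 hp.2.2.1.2 hp.2.2.2.2
    unfold Lam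
    rw [g0, g1, g2]
    rw [show X p = X (p.1, p.2) from rfl, this, neg_add_cancel]
  have hlaw := law_ext hopen (convex_ball _ _) hk hB'0 d1 d2 hmem e6 (t₀ := cen c u η)
    ⟨mem_ball_self hr'0, by show cen c u η - 0 ∈ _; rw [sub_zero]; exact hcen, hcen,
      by show cen c u η + 0 ∈ _; rw [add_zero]; exact hcen⟩ hloc
  refine ⟨GX X c u η, ⟨d1, d2, ?_⟩, fun t ht htK w hw => a3 t ht htK w (hw.trans_le e1)⟩
  intro t w hw h1 h2 h3
  have := hlaw (t, w) ⟨by simpa using hw, h1, h2, h3⟩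
  unfold Lam at this
  exact eq_neg_of_add_eq_zero_left this

lemma ball_sub_cen {c u : ℂ} {η : ℝ} (hu : ‖u‖ = 1) (hη : 0 < η) :
    ball c (η / 2000) ⊆ ball (cen c u η) (3 * η / 800) := by
  intro t ht
  rw [mem_ball, dist_eq_norm] at ht ⊢
  calc ‖t - cen c u η‖ = ‖(t - c) - (cen c u η - c)‖ := by ring_nf
    _ ≤ ‖t - c‖ + ‖cen c u η - c‖ := norm_sub_le _ _
    _ < 3 * η / 800 := by rw [cen_dist hu hη]; linarith

/-- **(LOC)** -/
theorem loc : Loc := by
  refine ⟨1 / 4000, by norm_num, by norm_num, ?_⟩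
  intro η ε C r B hη hε hr
  obtain ⟨r', B', h1, h2, h3⟩ := loc_aux (C := C) (B := max B 0) hη hε hr (le_max_right _ _)
  refine ⟨r', B', h1, h2, ?_⟩
  intro c u k X hu hk hX
  have e1 : 1 / 4000 * η = η / 4000 := by ring
  have e2 : 2 * (1 / 4000) * η = η / 2000 := by ring
  rw [e1] at hX
  obtain ⟨X', a1, a2⟩ := h3 c u k X hu hk (hX.mono le_rfl le_rfl (le_max_left _ _))
  rw [e1, e2]
  exact ⟨X', a1.mono (ball_sub_cen hu hη) le_rfl le_rfl, fun t ht htK w hw =>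
    a2 t (ball_sub_cen hu hη ht) htK w hw⟩

end Crest.Agent.R102.C1
end
end

-- ▼ part R102/C1E_821

/-!
Row 102, part (C), C1: gluing, `grow' `, **`grow : Grow`**.
-/

set_option autoImplicit false

open Set Filter Topology Metric
open scoped ComplexConjugate

noncomputable section

namespace Crest.Agent.R102.C1

section glue
variable {K F : Set ℂ} {s r B : ℝ} {k X : ℂ × ℂ → ℂ} {Xc : ℂ → ℂ × ℂ → ℂ}

/-- two functions holomorphic on a convex open set which agree near one point -/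
lemma eq_of_eq_open {D G : Set ℂ} {f g : ℂ → ℂ} (hD : IsOpen D) (hDc : IsPreconnected D)
    (hf : DifferentiableOn ℂ f D) (hg : DifferentiableOn ℂ g D) (hG : IsOpen G) {z₀ : ℂ}
    (h0 : z₀ ∈ D) (h0' : z₀ ∈ G) (h : ∀ z ∈ D, z ∈ G → f z = g z) : ∀ z ∈ D, f z = g z := by
  have := (hf.analyticOnNhd hD).eqOn_of_preconnected_of_eventuallyEq (hg.analyticOnNhd hD) hDc h0
    (by
      filter_upwards [hD.mem_nhds h0, hG.mem_nhds h0'] with z hz hz'
      exact h z hz hz')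
  exact fun z hz => this hz

lemma slice_t {K : Set ℂ} {r : ℝ} {X : ℂ × ℂ → ℂ} (h : DifferentiableOn ℂ X (K ×ˢ ball 0 r)) {w : ℂ}
    (hw : ‖w‖ < r) : DifferentiableOn ℂ (fun t => X (t, w)) K :=
  h.comp (by fun_prop : DifferentiableOn ℂ (fun s : ℂ => ((s, w) : ℂ × ℂ)) _)
    (fun t ht => ⟨ht, by simpa using hw⟩)

lemma glue_consistent (hK : IsOpen K) (hF : F ⊆ closure K)
    (hXc : ∀ c ∈ F, LeafOn k (ball c s) r B (Xc c))
    (hag : ∀ c ∈ F, ∀ t ∈ ball c s, t ∈ K → ∀ w : ℂ, ‖w‖ < r → Xc c (t, w) = X (t, w))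
    {c c' : ℂ} (hc : c ∈ F) (hc' : c' ∈ F) {t : ℂ} (ht : t ∈ ball c (s / 2))
    (ht' : t ∈ ball c' (s / 2)) {w : ℂ} (hw : ‖w‖ < r) : Xc c (t, w) = Xc c' (t, w) := by
  have hs : 0 < s := by
    have := dist_nonneg.trans_lt (mem_ball.1 ht)
    linarith
  have hcc : c ∈ ball c' s := by
    rw [mem_ball] at ht ht' ⊢
    calc dist c c' ≤ dist c t + dist t c' := dist_triangle _ _ _
      _ < s := by rw [dist_comm c t]; linarith
  have hopen : IsOpen (ball c s ∩ ball c' s) := isOpen_ball.inter isOpen_ball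
  obtain ⟨z₀, hz₀, hz₀K⟩ := mem_closure_iff.1 (hF hc) _ hopen ⟨mem_ball_self hs, hcc⟩
  refine eq_of_eq_open hopen ((convex_ball _ _).inter (convex_ball _ _)).isPreconnected
    ((slice_t (hXc c hc).diff hw).mono inter_subset_left)
    ((slice_t (hXc c' hc').diff hw).mono inter_subset_right) hK hz₀ hz₀K ?_ t
    ⟨ball_subset_ball (by linarith) ht, ball_subset_ball (by linarith) ht'⟩
  intro z hz hzK
  show Xc c (z, w) = Xc c' (z, w)
  rw [hag c hc z hz.1 hzK w hw, hag c' hc' z hz.2 hzK w hw]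

/-- **gluing** -/
theorem glue (hK : IsOpen K) (hF : F ⊆ closure K) (hs : 0 < s) (hX : LeafOn k K r B X)
    (hXc : ∀ c ∈ F, LeafOn k (ball c s) r B (Xc c))
    (hag : ∀ c ∈ F, ∀ t ∈ ball c s, t ∈ K → ∀ w : ℂ, ‖w‖ < r → Xc c (t, w) = X (t, w)) :
    ∃ X' : ℂ × ℂ → ℂ, LeafOn k (K ∪ ⋃ c ∈ F, ball c (s / 3)) (min r (s / 12)) B X' ∧
      (∀ t ∈ K, ∀ w : ℂ, X' (t, w) = X (t, w)) ∧
      ∀ c ∈ F, ∀ t ∈ ball c (s / 3), ∀ w : ℂ, ‖w‖ < r → X' (t, w) = Xc c (t, w) := by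
  classical
  let X' : ℂ × ℂ → ℂ := fun p => if p.1 ∈ K then X p else
    if h : ∃ c ∈ F, p.1 ∈ ball c (s / 3) then Xc h.choose p else 0
  have h13 : ∀ c : ℂ, ball c (s / 3) ⊆ ball c (s / 2) := fun c => ball_subset_ball (by linarith)
  have h12 : ∀ c : ℂ, ball c (s / 2) ⊆ ball c s := fun c => ball_subset_ball (by linarith)
  have P1 : ∀ t ∈ K, ∀ w : ℂ, X' (t, w) = X (t, w) := by
    intro t ht w
    simp only [X']
    rw [if_pos ht]
  -- `X' = Xc c` on `K' ∩ ball c (s / 2)`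
  have P2 : ∀ c ∈ F, ∀ t ∈ ball c (s / 2), (t ∈ K ∨ ∃ c' ∈ F, t ∈ ball c' (s / 3)) → ∀ w : ℂ,
      ‖w‖ < r → X' (t, w) = Xc c (t, w) := by
    intro c hc t ht htK w hw
    by_cases h : t ∈ K
    · rw [P1 t h w, hag c hc t (h12 c ht) h w hw]
    · have h' : ∃ c' ∈ F, t ∈ ball c' (s / 3) := htK.resolve_left h
      have e : X' (t, w) = Xc h'.choose (t, w) := by
        simp only [X']
        rw [if_neg h, dif_pos h']
      rw [e]
      exact glue_consistent hK hF hXc hag h'.choose_spec.1 hc (h13 _ h'.choose_spec.2) ht hw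
  refine ⟨X', ⟨?_, ?_, ?_⟩, P1, fun c hc t ht w hw => P2 c hc t (h13 c ht) (Or.inr ⟨c, hc, ht⟩) w hw⟩
  · intro p hp
    have hp2 : ‖p.2‖ < r := by
      have := hp.2
      rw [mem_ball, dist_zero_right] at this
      exact this.trans_le (min_le_left _ _)
    have hp2' : p.2 ∈ ball (0 : ℂ) r := by rw [mem_ball, dist_zero_right]; exact hp2
    rcases hp.1 with h | h
    · have hd : DifferentiableAt ℂ X p := hX.diff.differentiableAt
        ((hK.prod isOpen_ball).mem_nhds ⟨h, hp2'⟩)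
      refine (hd.congr_of_eventuallyEq ?_).differentiableWithinAt
      filter_upwards [(hK.preimage continuous_fst).mem_nhds h] with x hx
      exact P1 x.1 hx x.2
    · simp only [mem_iUnion] at h
      obtain ⟨c, hc, hpc⟩ := h
      have hd : DifferentiableAt ℂ (Xc c) p := (hXc c hc).diff.differentiableAt
        ((isOpen_ball.prod isOpen_ball).mem_nhds ⟨h12 c (h13 c hpc), hp2'⟩)
      refine (hd.congr_of_eventuallyEq ?_).differentiableWithinAt
      filter_upwards [((isOpen_ball (x := c) (ε := s / 3)).preimage continuous_fst).mem_nhds hpc,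
        ((isOpen_ball (x := (0 : ℂ)) (ε := r)).preimage continuous_snd).mem_nhds hp2'] with x hx hx2
      exact P2 c hc x.1 (h13 c hx) (Or.inr ⟨c, hc, hx⟩) x.2 (by
        have : x.2 ∈ ball (0 : ℂ) r := hx2
        rwa [mem_ball, dist_zero_right] at this)
  · intro t ht w hw
    have hwr : ‖w‖ < r := hw.trans_le (min_le_left _ _)
    rcases ht with h | h
    · rw [P1 t h w]; exact hX.near t h w hwr
    · simp only [mem_iUnion] at h
      obtain ⟨c, hc, htc⟩ := h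
      rw [P2 c hc t (h13 c htc) (Or.inr ⟨c, hc, htc⟩) w hwr]
      exact (hXc c hc).near t (h12 c (h13 c htc)) w hwr
  · intro t w hw h1 h2 h3
    have hwr : ‖w‖ < r := hw.trans_le (min_le_left _ _)
    have hws : ‖w‖ < s / 12 := hw.trans_le (min_le_right _ _)
    have conv : ∀ x : ℂ, x ∈ K ∪ ⋃ c ∈ F, ball c (s / 3) → x ∈ K ∨ ∃ c' ∈ F, x ∈ ball c' (s / 3) := by
      intro x hx
      rcases hx with h | h
      · exact Or.inl h
      · simp only [mem_iUnion, exists_prop] at h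
        exact Or.inr h
    -- if all three are in `ball c (s / 2)`, `c ∈ F`
    have caseB : ∀ c ∈ F, t - w ∈ ball c (s / 2) → t ∈ ball c (s / 2) → t + w ∈ ball c (s / 2) →
        k (X' (t, w), X' (t + w, w) - X' (t, w)) = -k (X' (t, w), X' (t - w, w) - X' (t, w)) := by
      intro c hc b1 b2 b3
      rw [P2 c hc _ b1 (conv _ h1) w hwr, P2 c hc _ b2 (conv _ h2) w hwr,
        P2 c hc _ b3 (conv _ h3) w hwr]
      exact (hXc c hc).law t w hwr (h12 c b1) (h12 c b2) (h12 c b3)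
    have mv : ∀ (c x y : ℂ), x ∈ ball c (s / 3) → ‖y - x‖ ≤ 2 * ‖w‖ → y ∈ ball c (s / 2) := by
      intro c x y hx hy
      rw [mem_ball, dist_eq_norm] at hx ⊢
      calc ‖y - c‖ = ‖(y - x) + (x - c)‖ := by ring_nf
        _ ≤ ‖y - x‖ + ‖x - c‖ := norm_add_le _ _
        _ < s / 2 := by linarith
    have hw0 := norm_nonneg w
    have n1 : ‖t - (t - w)‖ ≤ 2 * ‖w‖ := by rw [sub_sub_cancel]; linarith
    have n2 : ‖t + w - (t - w)‖ ≤ 2 * ‖w‖ := by
      rw [show t + w - (t - w) = 2 * w by ring, norm_mul]; norm_num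
    have n3 : ‖t - w - t‖ ≤ 2 * ‖w‖ := by
      rw [show t - w - t = -w by ring, norm_neg]; linarith
    have n4 : ‖t + w - t‖ ≤ 2 * ‖w‖ := by rw [add_sub_cancel_left]; linarith
    have n5 : ‖t - (t + w)‖ ≤ 2 * ‖w‖ := by
      rw [show t - (t + w) = -w by ring, norm_neg]; linarith
    have n6 : ‖t - w - (t + w)‖ ≤ 2 * ‖w‖ := by
      rw [show t - w - (t + w) = -(2 * w) by ring, norm_neg, norm_mul]; norm_num
    rcases conv _ h1 with g1 | ⟨c, hc, g1⟩
    · rcases conv _ h2 with g2 | ⟨c, hc, g2⟩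
      · rcases conv _ h3 with g3 | ⟨c, hc, g3⟩
        · rw [P1 _ g1, P1 _ g2, P1 _ g3]
          exact hX.law t w hwr g1 g2 g3
        · exact caseB c hc (mv c _ _ g3 n6) (mv c _ _ g3 n5) (h13 c g3)
      · exact caseB c hc (mv c _ _ g2 n3) (h13 c g2) (mv c _ _ g2 n4)
    · exact caseB c hc (h13 c g1) (mv c _ _ g1 n1) (mv c _ _ g1 n2)

end glue

/-- **(GROW')**: arbitrary open `K`, arbitrary set `F` of centres with fat half discs -/
theorem grow' {η ε C r B : ℝ} (hη : 0 < η) (hε : 0 < ε) (hr : 0 < r) :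
    ∃ r' B' : ℝ, 0 < r' ∧ r' ≤ r ∧ ∀ (K F : Set ℂ) (k X : ℂ × ℂ → ℂ), IsOpen K → F ⊆ closure K →
      (∀ c ∈ F, ∃ u : ℂ, ‖u‖ = 1 ∧ Half c u η (η / 4000) ⊆ K) →
      (∀ c ∈ F, IsPreconnected (K ∩ ball c (η / 800))) →
      (∀ c ∈ F, KMap (ball c (2 * η)) ε C k) → LeafOn k K r B X →
      ∃ X' : ℂ × ℂ → ℂ, LeafOn k (K ∪ ⋃ c ∈ F, ball c (η / 2400)) r' B' X' ∧
        ∀ t ∈ K, ∀ w : ℂ, X' (t, w) = X (t, w) := by
  obtain ⟨r', B', h1, h2, h3⟩ := loc_aux (C := C) (B := max B 0) hη hε hr (le_max_right _ _)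
  refine ⟨min r' (η / 800 / 12), max B B', lt_min h1 (by positivity), (min_le_left _ _).trans h2, ?_⟩
  intro K F k X hK hF hH hcn hk hX
  have hex : ∀ c ∈ F, ∃ X' : ℂ × ℂ → ℂ, LeafOn k (ball c (η / 800)) r' (max B B') X' ∧
      ∀ t ∈ ball c (η / 800), t ∈ K → ∀ w : ℂ, ‖w‖ < r' → X' (t, w) = X (t, w) := by
    intro c hc
    obtain ⟨u, hu, hHK⟩ := hH c hc
    obtain ⟨X', a1, a2⟩ := h3 c u k X hu (hk c hc) (hX.mono hHK le_rfl (le_max_left _ _))
    have hsub : ball c (η / 800) ⊆ ball (cen c u η) (3 * η / 800) := by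
      intro t ht
      rw [mem_ball, dist_eq_norm] at ht ⊢
      calc ‖t - cen c u η‖ = ‖(t - c) - (cen c u η - c)‖ := by ring_nf
        _ ≤ ‖t - c‖ + ‖cen c u η - c‖ := norm_sub_le _ _
        _ < 3 * η / 800 := by rw [cen_dist hu hη]; linarith
    refine ⟨X', a1.mono hsub le_rfl (le_max_right _ _), ?_⟩
    intro t ht htK w hw
    have hw' : ‖w‖ < r := hw.trans_le h2
    set z₀ : ℂ := c - Complex.I * ((η / 2000 : ℝ) : ℂ) * u with hz₀
    have hn : ‖z₀ - c‖ = η / 2000 := by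
      rw [hz₀, show c - Complex.I * ((η / 2000 : ℝ) : ℂ) * u - c =
        -(Complex.I * ((η / 2000 : ℝ) : ℂ) * u) by
        ring, norm_neg, norm_mul, norm_mul, Complex.norm_I, hu, Complex.norm_real,
        Real.norm_eq_abs, abs_of_pos (by positivity)]
      ring
    have hzH : z₀ ∈ Half c u η (η / 4000) := by
      refine mem_Half.2 ⟨by rw [hn]; linarith, ?_⟩
      have h1 : u * conj u = 1 := by
        rw [Complex.mul_conj, Complex.normSq_eq_norm_sq, hu]; norm_num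
      have h2 : (z₀ - c) * conj u = -(Complex.I * ((η / 2000 : ℝ) : ℂ)) := by
        rw [hz₀]
        linear_combination -(Complex.I * ((η / 2000 : ℝ) : ℂ)) * h1
      rw [h2, Complex.neg_im]
      simp
      linarith
    have hzb : z₀ ∈ ball c (η / 800) := by rw [mem_ball, dist_eq_norm, hn]; linarith
    refine eq_of_eq_open (hK.inter isOpen_ball) (hcn c hc)
      ((slice_t a1.diff hw).mono (inter_subset_right.trans hsub))
      ((slice_t hX.diff hw').mono inter_subset_left) (isOpen_Half c u η (η / 4000))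
      ⟨hHK hzH, hzb⟩ hzH ?_ t ⟨htK, ht⟩
    intro z hz hzH'
    exact a2 z (hsub hz.2) hzH' w hw
  choose! Xc hXc using hex
  obtain ⟨X', b1, b2, -⟩ := glue hK hF (s := η / 800) (by positivity)
    (hX.mono le_rfl h2 (le_max_left B B')) (fun c hc => (hXc c hc).1) (fun c hc => (hXc c hc).2)
  refine ⟨X', b1.mono ?_ le_rfl le_rfl, b2⟩
  rw [show η / 800 / 3 = η / 2400 by ring]

/-- **(GROW)** -/
theorem grow : Grow := by
  refine ⟨1 / 4000, by norm_num, by norm_num, ?_⟩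
  intro η ε C r B hη hε hr
  obtain ⟨r', B', h1, h2, h3⟩ := grow' (C := C) (B := B) hη hε hr
  refine ⟨r', B', h1, h2, ?_⟩
  intro K k X hK hKc hH hk hX
  have e1 : 1 / 4000 * η = η / 4000 := by ring
  have hth : ∀ c ∈ frontier K, ball c (2 * η) ⊆ thickening (2 * η) K := by
    intro c hc t ht
    rw [← thickening_closure]
    exact mem_thickening_iff.2 ⟨c, frontier_subset_closure hc, ht⟩
  obtain ⟨X', a1, a2⟩ := h3 K (frontier K) k X hK frontier_subset_closure
    (fun c hc => by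
      obtain ⟨u, hu, h⟩ := hH c hc
      rw [e1] at h
      exact ⟨u, hu, h⟩)
    (fun c _ => (hKc.inter (convex_ball _ _)).isPreconnected)
    (fun c hc => ⟨hk.diff.mono (prod_mono (hth c hc) le_rfl),
      fun y hy => hk.near y (hth c hc hy)⟩) hX
  rw [e1]
  · refine ⟨X', a1.mono ?_ le_rfl le_rfl, fun t ht w _ => a2 t ht w⟩
    intro t ht
    by_cases htK : t ∈ K
    · exact Or.inl htK
    right
    obtain ⟨z, hz, hd⟩ := mem_thickening_iff.1 ht
    obtain ⟨c, hc, hcs⟩ : (segment ℝ t z ∩ frontier K).Nonempty := by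
      by_contra hne
      rw [not_nonempty_iff_eq_empty] at hne
      have hpre : IsPreconnected (segment ℝ t z) := (convex_segment t z).isPreconnected
      have h5 := hpre K (closure K)ᶜ hK isClosed_closure.isOpen_compl (by
        intro x hx
        by_cases hxK : x ∈ K
        · exact Or.inl hxK
        · right
          intro hxc
          have : x ∈ segment ℝ t z ∩ frontier K := ⟨hx, by rw [hK.frontier_eq]; exact ⟨hxc, hxK⟩⟩
          rw [hne] at this
          exact this) ⟨z, right_mem_segment ℝ t z, hz⟩ ⟨t, left_mem_segment ℝ t z, by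
            intro htc
            have : t ∈ segment ℝ t z ∩ frontier K :=
              ⟨left_mem_segment ℝ t z, by rw [hK.frontier_eq]; exact ⟨htc, htK⟩⟩
            rw [hne] at this
            exact this⟩
      obtain ⟨x, -, hx1, hx2⟩ := h5
      exact hx2 (subset_closure hx1)
    simp only [mem_iUnion, exists_prop]
    refine ⟨c, hcs, ?_⟩
    rw [mem_ball]
    have h6 : dist t c ≤ dist t z := by
      have h7 := segment_subset_closedBall_left t z hc
      rw [mem_closedBall] at h7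
      rw [dist_comm t c]
      exact h7
    linarith

end Crest.Agent.R102.C1
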