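import Mathlib
import Crest.Agent.R102.C1E_821

/-!
Row 102, part (C), C1: chord functions from `(θ, H)`, zeros of `θ'` allowed.
-/

set_option autoImplicit false

open Set Filter Topology Metric
open scoped ComplexConjugate

noncomputable section

namespace Crest.Agent.R102.C1

open Crest.Agent.R102.C0

/-! ### joint difference quotient -/

/-- difference quotient -/
def D2 (f : ℂ → ℂ) (p : ℂ × ℂ) : ℂ := dslope f p.1 p.2

lemma D2_diag (f : ℂ → ℂ) (x : ℂ) : D2 f (x, x) = deriv f x := dslope_same f x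

lemma D2_mul (f : ℂ → ℂ) (x y : ℂ) : (y - x) * D2 f (x, y) = f y - f x := by
  have := sub_smul_dslope f x y
  simpa [D2] using this

lemma D2_swap (f : ℂ → ℂ) (x y : ℂ) : D2 f (y, x) = D2 f (x, y) := by
  rcases eq_or_ne x y with h | h
  · rw [h]
  · have h1 := D2_mul f x y
    have h2 := D2_mul f y x
    have h3 : (y - x) ≠ 0 := sub_ne_zero.2 h.symm
    refine mul_left_cancel₀ h3 ?_
    linear_combination -h2 - h1

lemma D2_ball {f : ℂ → ℂ} {c : ℂ} {s : ℝ} (hf : DifferentiableOn ℂ f (ball c s)) {x y : ℂ}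
    (hx : x ∈ ball c s) (hy : y ∈ ball c s) :
    D2 f (x, y) = ∫ r in (0 : ℝ)..1, deriv f (x + r * (y - x)) := by
  have hseg : ∀ r : ℝ, 0 ≤ r → r ≤ 1 → x + r * (y - x) ∈ ball c s := by
    intro r h0 h1
    have := (convex_ball c s) hx hy (a := 1 - r) (b := r) (by linarith) h0 (by ring)
    convert this using 1
    simp only [Complex.real_smul]
    push_cast
    ring
  have hc : ContinuousOn (fun r : ℝ => deriv f (x + r * (y - x))) (uIcc 0 1) := by
    refine ((hf.deriv isOpen_ball).continuousOn).comp (f := fun r : ℝ => x + (r : ℂ) * (y - x))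
      (by fun_prop) (fun r hr => ?_)
    rw [uIcc_of_le zero_le_one] at hr
    exact hseg r hr.1 hr.2
  rcases eq_or_ne x y with h | h
  · subst h
    rw [D2_diag]
    simp
  · have h1 : ∀ r ∈ uIcc (0 : ℝ) 1, HasDerivAt (fun r : ℝ => f (x + r * (y - x)))
        ((y - x) * deriv f (x + r * (y - x))) r := by
      intro r hr
      rw [uIcc_of_le zero_le_one] at hr
      have h2 := (hf.differentiableAt (isOpen_ball.mem_nhds (hseg r hr.1 hr.2))).hasDerivAt
      have h3 : HasDerivAt (fun r : ℝ => x + (r : ℂ) * (y - x)) (y - x) r := by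
        have := ((Complex.ofRealCLM.hasDerivAt (x := r)).mul_const (y - x)).const_add x
        simpa using this
      have h4 := h2.comp r h3
      rw [mul_comm]
      exact h4
    have hc' := (continuousOn_const (c := y - x)).mul hc
    have h2 := intervalIntegral.integral_eq_sub_of_hasDerivAt h1 hc'.intervalIntegrable
    rw [intervalIntegral.integral_const_mul] at h2
    simp only [Complex.ofReal_one, one_mul, Complex.ofReal_zero, zero_mul, add_zero,
      add_sub_cancel] at h2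
    refine mul_left_cancel₀ (sub_ne_zero.2 h.symm) ?_
    rw [D2_mul, h2]

theorem D2_diff {V : Set ℂ} (hV : IsOpen V) {f : ℂ → ℂ} (hf : DifferentiableOn ℂ f V) :
    DifferentiableOn ℂ (D2 f) (V ×ˢ V) := by
  rintro ⟨x, y⟩ ⟨hx, hy⟩
  simp only at hx hy
  refine DifferentiableAt.differentiableWithinAt ?_
  rcases eq_or_ne x y with h | h
  · subst h
    obtain ⟨s, hs, hsV⟩ := Metric.isOpen_iff.1 hV x hx
    have hfb := hf.mono hsV
    have hd := hfb.deriv isOpen_ball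
    have hseg : ∀ p ∈ ball x s ×ˢ ball x s, ∀ r : ℝ, 0 ≤ r → r ≤ 1 →
        p.1 + r * (p.2 - p.1) ∈ ball x s := by
      intro p hp r h0 h1
      have := (convex_ball x s) hp.1 hp.2 (a := 1 - r) (b := r) (by linarith) h0 (by ring)
      convert this using 1
      simp only [Complex.real_smul]
      push_cast
      ring
    have h1 := R266.SCV.analyticOnNhd_intervalIntegral (E := ℂ × ℂ) (F := ℂ)
      (f := fun p : (ℂ × ℂ) × ℝ => deriv f (p.1.1 + p.2 * (p.1.2 - p.1.1))) (a := 0) (b := 1)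
      ((isOpen_ball (x := x) (ε := s)).prod (isOpen_ball (x := x) (ε := s))) (by
        refine hd.continuousOn.comp
          (f := fun p : (ℂ × ℂ) × ℝ => p.1.1 + (p.2 : ℂ) * (p.1.2 - p.1.1)) (by fun_prop) ?_
        intro p hp
        have h2 := hp.2
        rw [uIcc_of_le zero_le_one] at h2
        exact hseg p.1 hp.1 p.2 h2.1 h2.2) (by
        intro r hr
        rw [uIcc_of_le zero_le_one] at hr
        exact hd.comp (f := fun p : ℂ × ℂ => p.1 + (r : ℂ) * (p.2 - p.1)) (by fun_prop)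
          (fun p hp => hseg p hp r hr.1 hr.2))
    have hmem : ((x, x) : ℂ × ℂ) ∈ ball x s ×ˢ ball x s := ⟨mem_ball_self hs, mem_ball_self hs⟩
    refine (h1 (x, x) hmem).differentiableAt.congr_of_eventuallyEq ?_
    filter_upwards [(isOpen_ball.prod isOpen_ball).mem_nhds hmem] with p hp
    exact D2_ball hfb hp.1 hp.2
  · have hne : {p : ℂ × ℂ | p.1 ≠ p.2} ∈ 𝓝 ((x, y) : ℂ × ℂ) :=
      (isOpen_ne_fun continuous_fst continuous_snd).mem_nhds h
    have h2 : DifferentiableAt ℂ (fun p : ℂ × ℂ => (p.2 - p.1)⁻¹ * (f p.2 - f p.1)) (x, y) := by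
      have hfx : DifferentiableAt ℂ (fun p : ℂ × ℂ => f p.1) (x, y) :=
        (hf.differentiableAt (hV.mem_nhds hx)).comp (x, y) differentiableAt_fst
      have hfy : DifferentiableAt ℂ (fun p : ℂ × ℂ => f p.2) (x, y) :=
        (hf.differentiableAt (hV.mem_nhds hy)).comp (x, y) differentiableAt_snd
      refine DifferentiableAt.mul (DifferentiableAt.inv (by fun_prop) ?_) (hfy.sub hfx)
      exact sub_ne_zero.2 h.symm
    refine h2.congr_of_eventuallyEq ?_
    filter_upwards [hne] with p hp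
    have hp' : p.2 - p.1 ≠ 0 := sub_ne_zero.2 (Ne.symm hp)
    have := D2_mul f p.1 p.2
    rw [← this, ← mul_assoc, inv_mul_cancel₀ hp', one_mul]

/-! ### the functions -/

variable (θ H : ℂ → ℂ)

/-- `θ' γ` in isotropic coordinates (regular at the zeros of `θ'`) -/
def GG (s : ℂ) (z : ℂ) : ℂ :=
  Complex.exp (s * (Complex.I * θ z)) * (s * Complex.I * deriv θ z * H z - deriv H z)

/-- reduced chord times `θ'(x) θ'(y)` -/
def As (s : ℂ) (p : ℂ × ℂ) : ℂ :=
  deriv θ p.1 * D2 (GG θ H s) p - GG θ H s p.1 * D2 (deriv θ) p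

/-- moment -/
def A0 (p : ℂ × ℂ) : ℂ :=
  GG θ H 1 p.1 * D2 (GG θ H (-1)) p - GG θ H (-1) p.1 * D2 (GG θ H 1) p

/-- `exp (2 i (Φ - (θ(x)+θ(y))/2))` -/
def Wch (p : ℂ × ℂ) : ℂ :=
  As θ H 1 p / As θ H (-1) p * Complex.exp (-(Complex.I * (θ p.1 + θ p.2)))

/-- direction of the chord -/
def Phi (p : ℂ × ℂ) : ℂ := (θ p.1 + θ p.2) / 2 + Complex.log (Wch θ H p) / (2 * Complex.I)

/-- support function of the chord -/
def Pch (p : ℂ × ℂ) : ℂ :=
  Complex.exp (-(Complex.I * Phi θ H p)) * A0 θ H p / (2 * Complex.I * As θ H (-1) p)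

/-- `θ'(x)^{-1} (exp (-iθ(x)) A₁ - exp (iθ(x)) A₋₁)` -/
def DD (p : ℂ × ℂ) : ℂ :=
  Complex.exp (-(Complex.I * θ p.1)) * D2 (GG θ H 1) p -
    Complex.exp (Complex.I * θ p.1) * D2 (GG θ H (-1)) p -
    2 * Complex.I * H p.1 * D2 (deriv θ) p

/-- momentum function of the pair `(x, y)` -/
def kx (p : ℂ × ℂ) : ℂ :=
  -(Complex.I * (DD θ H p * Complex.exp (-(Complex.I * Phi θ H p)))) /
    (As θ H (-1) p * Complex.cos ((Phi θ H p - θ p.1) / 2))

/-- **momentum function** `k (x, e)` -/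
def kk (p : ℂ × ℂ) : ℂ := kx θ H (p.1, p.1 + p.2)

/-- good pairs, first version -/
def N1 (V : Set ℂ) : Set (ℂ × ℂ) :=
  {p | p ∈ V ×ˢ V ∧ As θ H (-1) p ≠ 0 ∧ Wch θ H p ∈ Complex.slitPlane}

/-- good pairs -/
def ND (V : Set ℂ) : Set (ℂ × ℂ) :=
  {p | p ∈ N1 θ H V ∧ Complex.cos ((Phi θ H p - θ p.1) / 2) ≠ 0}

variable {θ H}

/-- `(θ, H)` on `V` with the Lazutkin relation -/
structure LZ (V : Set ℂ) (θ H : ℂ → ℂ) : Prop where
  op : IsOpen V
  dθ : DifferentiableOn ℂ θ V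
  dH : DifferentiableOn ℂ H V
  rel : ∀ z ∈ V, deriv θ z * deriv (deriv H) z - deriv (deriv θ) z * deriv H z +
    deriv θ z ^ 3 * H z = -1

section
variable {V : Set ℂ} (L : LZ V θ H)

include L

lemma LZ.hθ {z : ℂ} (hz : z ∈ V) : HasDerivAt θ (deriv θ z) z :=
  (L.dθ.differentiableAt (L.op.mem_nhds hz)).hasDerivAt

lemma LZ.hθ' {z : ℂ} (hz : z ∈ V) : HasDerivAt (deriv θ) (deriv (deriv θ) z) z :=
  ((L.dθ.deriv L.op).differentiableAt (L.op.mem_nhds hz)).hasDerivAt

lemma LZ.hH {z : ℂ} (hz : z ∈ V) : HasDerivAt H (deriv H z) z :=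
  (L.dH.differentiableAt (L.op.mem_nhds hz)).hasDerivAt

lemma LZ.hH' {z : ℂ} (hz : z ∈ V) : HasDerivAt (deriv H) (deriv (deriv H) z) z :=
  ((L.dH.deriv L.op).differentiableAt (L.op.mem_nhds hz)).hasDerivAt

lemma LZ.GG_diff (s : ℂ) : DifferentiableOn ℂ (GG θ H s) V := by
  have h1 : DifferentiableOn ℂ (fun z => Complex.exp (s * (Complex.I * θ z))) V :=
    ((L.dθ.const_mul Complex.I).const_mul s).cexp
  have h2 : DifferentiableOn ℂ (fun z => s * Complex.I * deriv θ z * H z - deriv H z) V :=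
    (((L.dθ.deriv L.op).const_mul (s * Complex.I)).mul L.dH).sub (L.dH.deriv L.op)
  exact h1.mul h2

lemma LZ.GG_deriv (s : ℂ) {z : ℂ} (hz : z ∈ V) : deriv (GG θ H s) z =
    Complex.exp (s * (Complex.I * θ z)) * (s * (Complex.I * deriv θ z)) *
      (s * Complex.I * deriv θ z * H z - deriv H z) +
    Complex.exp (s * (Complex.I * θ z)) *
      (s * Complex.I * deriv (deriv θ) z * H z + s * Complex.I * deriv θ z * deriv H z -
        deriv (deriv H) z) := by
  have h1 := (((L.hθ hz).const_mul Complex.I).const_mul s).cexp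
  have h2 := (((L.hθ' hz).const_mul (s * Complex.I)).mul (L.hH hz)).sub (L.hH' hz)
  exact (h1.mul h2).deriv

/-- `A_s (x, x) = exp (s i θ (x))` -/
lemma LZ.As_diag {s : ℂ} (hs : s ^ 2 = 1) {x : ℂ} (hx : x ∈ V) :
    As θ H s (x, x) = Complex.exp (s * (Complex.I * θ x)) := by
  unfold As
  rw [D2_diag, D2_diag, L.GG_deriv s hx]
  unfold GG
  have h1 := L.rel x hx
  have h2 := Complex.I_sq
  linear_combination (-Complex.exp (s * (Complex.I * θ x))) * h1 +
    (Complex.exp (s * (Complex.I * θ x)) * deriv θ x ^ 3 * H x) * (h2 * s ^ 2 - hs)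

lemma LZ.As_diff (s : ℂ) : DifferentiableOn ℂ (As θ H s) (V ×ˢ V) := by
  have h1 : DifferentiableOn ℂ (fun p : ℂ × ℂ => deriv θ p.1) (V ×ˢ V) :=
    (L.dθ.deriv L.op).comp differentiable_fst.differentiableOn (fun p hp => hp.1)
  have h2 : DifferentiableOn ℂ (fun p : ℂ × ℂ => GG θ H s p.1) (V ×ˢ V) :=
    (L.GG_diff s).comp differentiable_fst.differentiableOn (fun p hp => hp.1)
  exact (h1.mul (D2_diff L.op (L.GG_diff s))).sub (h2.mul (D2_diff L.op (L.dθ.deriv L.op)))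

lemma LZ.A0_diff : DifferentiableOn ℂ (A0 θ H) (V ×ˢ V) := by
  have h2 : ∀ s : ℂ, DifferentiableOn ℂ (fun p : ℂ × ℂ => GG θ H s p.1) (V ×ˢ V) := fun s =>
    (L.GG_diff s).comp differentiable_fst.differentiableOn (fun p hp => hp.1)
  exact ((h2 1).mul (D2_diff L.op (L.GG_diff (-1)))).sub
    ((h2 (-1)).mul (D2_diff L.op (L.GG_diff 1)))

lemma LZ.fst_diff : DifferentiableOn ℂ (fun p : ℂ × ℂ => θ p.1) (V ×ˢ V) :=
  L.dθ.comp differentiable_fst.differentiableOn (fun _ hp => hp.1)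

lemma LZ.snd_diff : DifferentiableOn ℂ (fun p : ℂ × ℂ => θ p.2) (V ×ˢ V) :=
  L.dθ.comp differentiable_snd.differentiableOn (fun _ hp => hp.2)

lemma LZ.DD_diff : DifferentiableOn ℂ (DD θ H) (V ×ˢ V) := by
  have h3 : DifferentiableOn ℂ (fun p : ℂ × ℂ => H p.1) (V ×ˢ V) :=
    L.dH.comp differentiable_fst.differentiableOn (fun p hp => hp.1)
  have h4 := (((L.fst_diff.const_mul Complex.I).neg.cexp).mul (D2_diff L.op (L.GG_diff 1))).sub
    (((L.fst_diff.const_mul Complex.I).cexp).mul (D2_diff L.op (L.GG_diff (-1))))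
  exact h4.sub ((h3.const_mul (2 * Complex.I)).mul (D2_diff L.op (L.dθ.deriv L.op)))

lemma LZ.Wch_diff : DifferentiableOn ℂ (Wch θ H) {p | p ∈ V ×ˢ V ∧ As θ H (-1) p ≠ 0} := by
  have hs : {p | p ∈ V ×ˢ V ∧ As θ H (-1) p ≠ 0} ⊆ V ×ˢ V := fun p hp => hp.1
  have h5 := (((L.As_diff 1).mono hs).mul (((L.As_diff (-1)).mono hs).inv (fun p hp => hp.2))).mul
    ((((L.fst_diff.mono hs).add (L.snd_diff.mono hs)).const_mul Complex.I).neg.cexp)
  refine h5.congr (fun p _ => ?_)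
  unfold Wch
  rw [div_eq_mul_inv]
  rfl

lemma LZ.open0 : IsOpen {p | p ∈ V ×ˢ V ∧ As θ H (-1) p ≠ 0} :=
  (L.As_diff (-1)).continuousOn.isOpen_inter_preimage (L.op.prod L.op) isOpen_compl_singleton

lemma LZ.open1 : IsOpen (N1 θ H V) := by
  have h := L.Wch_diff.continuousOn.isOpen_inter_preimage L.open0 Complex.isOpen_slitPlane
  have e : N1 θ H V = {p | p ∈ V ×ˢ V ∧ As θ H (-1) p ≠ 0} ∩ Wch θ H ⁻¹' Complex.slitPlane := by
    ext p
    unfold N1
    simp only [mem_inter_iff, mem_preimage]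
    constructor
    · rintro ⟨a, b, c⟩; exact ⟨⟨a, b⟩, c⟩
    · rintro ⟨⟨a, b⟩, c⟩; exact ⟨a, b, c⟩
  rw [e]
  exact h

lemma LZ.Phi_diff : DifferentiableOn ℂ (Phi θ H) (N1 θ H V) := by
  have hs : N1 θ H V ⊆ V ×ˢ V := fun p hp => hp.1
  have hs' : N1 θ H V ⊆ {p | p ∈ V ×ˢ V ∧ As θ H (-1) p ≠ 0} := fun p hp => ⟨hp.1, hp.2.1⟩
  have hL : DifferentiableOn ℂ (fun p : ℂ × ℂ => Complex.log (Wch θ H p)) (N1 θ H V) :=
    (L.Wch_diff.mono hs').clog (fun p hp => hp.2.2)
  have h6 := (((L.fst_diff.mono hs).add (L.snd_diff.mono hs)).mul_const ((2 : ℂ)⁻¹)).add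
    (hL.mul_const ((2 * Complex.I)⁻¹))
  refine h6.congr (fun p _ => ?_)
  unfold Phi
  rw [div_eq_mul_inv, div_eq_mul_inv]
  rfl

lemma LZ.cos_diff :
    DifferentiableOn ℂ (fun p => Complex.cos ((Phi θ H p - θ p.1) / 2)) (N1 θ H V) := by
  have hs : N1 θ H V ⊆ V ×ˢ V := fun p hp => hp.1
  have h1 := ((L.Phi_diff.sub (L.fst_diff.mono hs)).mul_const ((2 : ℂ)⁻¹)).ccos
  refine h1.congr (fun p _ => ?_)
  rw [div_eq_mul_inv]
  rfl

lemma LZ.openD : IsOpen (ND θ H V) := by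
  have h := L.cos_diff.continuousOn.isOpen_inter_preimage L.open1
    (isOpen_compl_singleton (x := (0 : ℂ)))
  exact h

lemma LZ.kx_diff : DifferentiableOn ℂ (kx θ H) (ND θ H V) := by
  have hs : ND θ H V ⊆ V ×ˢ V := fun p hp => hp.1.1
  have hs' : ND θ H V ⊆ N1 θ H V := fun p hp => hp.1
  have h1 := (((L.DD_diff.mono hs).mul
    (((L.Phi_diff.mono hs').const_mul Complex.I).neg.cexp)).const_mul Complex.I).neg
  have h2 := ((L.As_diff (-1)).mono hs).mul (L.cos_diff.mono hs')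
  have h3 := h1.mul (h2.inv (fun p hp => mul_ne_zero hp.1.2.1 hp.2))
  refine h3.congr (fun p _ => ?_)
  unfold kx
  rw [div_eq_mul_inv]
  rfl

lemma LZ.Pch_diff : DifferentiableOn ℂ (Pch θ H) (N1 θ H V) := by
  have hs : N1 θ H V ⊆ V ×ˢ V := fun p hp => hp.1
  have h1 := ((L.Phi_diff.const_mul Complex.I).neg.cexp).mul (L.A0_diff.mono hs)
  have h2 := ((L.As_diff (-1)).mono hs).const_mul (2 * Complex.I)
  have h3 := h1.mul (h2.inv (fun p hp => mul_ne_zero (mul_ne_zero two_ne_zero Complex.I_ne_zero)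
    hp.2.1))
  refine h3.congr (fun p _ => ?_)
  unfold Pch
  rw [div_eq_mul_inv]
  rfl

lemma LZ.Wch_diag {x : ℂ} (hx : x ∈ V) : Wch θ H (x, x) = 1 := by
  unfold Wch
  rw [L.As_diag (by norm_num) hx, L.As_diag (by norm_num) hx, ← Complex.exp_sub, ← Complex.exp_add]
  simp only
  have : 1 * (Complex.I * θ x) - -1 * (Complex.I * θ x) + -(Complex.I * (θ x + θ x)) = 0 := by ring
  rw [this, Complex.exp_zero]

lemma LZ.Phi_diag {x : ℂ} (hx : x ∈ V) : Phi θ H (x, x) = θ x := by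
  unfold Phi
  rw [L.Wch_diag hx, Complex.log_one]
  simp

lemma LZ.diag_mem {x : ℂ} (hx : x ∈ V) : (x, x) ∈ ND θ H V := by
  refine ⟨⟨⟨hx, hx⟩, ?_, ?_⟩, ?_⟩
  · rw [L.As_diag (by norm_num) hx]; exact Complex.exp_ne_zero _
  · rw [L.Wch_diag hx]; exact Complex.one_mem_slitPlane
  · rw [L.Phi_diag hx]; simp

end

/-! ### symmetry and identities on good pairs -/

lemma As_swap (s x y : ℂ) : As θ H s (y, x) = As θ H s (x, y) := by
  unfold As
  rw [D2_swap _ x y, D2_swap _ x y]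
  simp only
  have h1 := D2_mul (GG θ H s) x y
  have h2 := D2_mul (deriv θ) x y
  linear_combination D2 (deriv θ) (x, y) * h1 - D2 (GG θ H s) (x, y) * h2

lemma A0_swap (x y : ℂ) : A0 θ H (y, x) = A0 θ H (x, y) := by
  unfold A0
  rw [D2_swap _ x y, D2_swap _ x y]
  simp only
  have h1 := D2_mul (GG θ H 1) x y
  have h2 := D2_mul (GG θ H (-1)) x y
  linear_combination D2 (GG θ H 1) (x, y) * h2 - D2 (GG θ H (-1)) (x, y) * h1

lemma Wch_swap (x y : ℂ) : Wch θ H (y, x) = Wch θ H (x, y) := by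
  unfold Wch
  rw [As_swap 1 x y, As_swap (-1) x y]
  simp only
  rw [add_comm (θ y)]

lemma Phi_swap (x y : ℂ) : Phi θ H (y, x) = Phi θ H (x, y) := by
  unfold Phi
  rw [Wch_swap]
  simp only
  rw [add_comm (θ y)]

lemma Pch_swap (x y : ℂ) : Pch θ H (y, x) = Pch θ H (x, y) := by
  unfold Pch
  rw [Phi_swap, A0_swap, As_swap]


/-- `exp (2 i Φ) A₋₁ = A₁` -/
lemma exp_Phi {p : ℂ × ℂ} (h1 : As θ H (-1) p ≠ 0) (h2 : Wch θ H p ∈ Complex.slitPlane) :
    Complex.exp (2 * (Complex.I * Phi θ H p)) * As θ H (-1) p = As θ H 1 p := by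
  have e1 : 2 * (Complex.I * Phi θ H p) = Complex.log (Wch θ H p) +
      Complex.I * (θ p.1 + θ p.2) := by
    unfold Phi
    have := Complex.I_ne_zero
    field_simp
    ring
  rw [e1, Complex.exp_add, Complex.exp_log (Complex.slitPlane_ne_zero h2)]
  unfold Wch
  have e2 : Complex.exp (-(Complex.I * (θ p.1 + θ p.2))) * Complex.exp (Complex.I * (θ p.1 + θ p.2)) =
      1 := by rw [← Complex.exp_add]; simp
  calc As θ H 1 p / As θ H (-1) p * Complex.exp (-(Complex.I * (θ p.1 + θ p.2))) *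
        Complex.exp (Complex.I * (θ p.1 + θ p.2)) * As θ H (-1) p
      = (As θ H 1 p / As θ H (-1) p * As θ H (-1) p) *
        (Complex.exp (-(Complex.I * (θ p.1 + θ p.2))) * Complex.exp (Complex.I * (θ p.1 + θ p.2))) := by
        ring
    _ = As θ H 1 p := by rw [e2, mul_one, div_mul_cancel₀ _ h1]

/-- `exp (i Φ) A₋₁ = exp (- i Φ) A₁` -/
lemma exp_Phi' {p : ℂ × ℂ} (h1 : As θ H (-1) p ≠ 0) (h2 : Wch θ H p ∈ Complex.slitPlane) :
    Complex.exp (Complex.I * Phi θ H p) * As θ H (-1) p =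
      Complex.exp (-(Complex.I * Phi θ H p)) * As θ H 1 p := by
  rw [← exp_Phi h1 h2, ← mul_assoc, ← Complex.exp_add]
  congr 2
  ring

/-- incidence at the first label -/
lemma inc_fst {x y : ℂ} (h1 : As θ H (-1) (x, y) ≠ 0)
    (h2 : Wch θ H (x, y) ∈ Complex.slitPlane) :
    IncS θ H (Phi θ H (x, y)) (Pch θ H (x, y)) x := by
  have h3 := exp_Phi' h1 h2
  have hI := Complex.I_ne_zero
  -- exponentials
  set Ep := Complex.exp (Complex.I * Phi θ H (x, y)) with hEp
  set Em := Complex.exp (-(Complex.I * Phi θ H (x, y))) with hEm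
  have hpm : Ep * Em = 1 := by rw [hEp, hEm, ← Complex.exp_add]; simp
  set Tp := Complex.exp (Complex.I * θ x) with hTp
  set Tm := Complex.exp (-(Complex.I * θ x)) with hTm
  have htm : Tp * Tm = 1 := by rw [hTp, hTm, ← Complex.exp_add]; simp
  have hcos : Complex.cos (Phi θ H (x, y) - θ x) = (Ep * Tm + Em * Tp) / 2 := by
    rw [Complex.cos, hEp, hEm, hTp, hTm, ← Complex.exp_add, ← Complex.exp_add]
    congr 3
    · ring_nf
    · ring_nf
  have hsin : Complex.sin (Phi θ H (x, y) - θ x) = (Em * Tp - Ep * Tm) * Complex.I / 2 := by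
    rw [Complex.sin, hEp, hEm, hTp, hTm, ← Complex.exp_add, ← Complex.exp_add]
    congr 4
    · ring_nf
    · ring_nf
  have g1 : GG θ H 1 x = Tp * (Complex.I * deriv θ x * H x - deriv H x) := by
    unfold GG; rw [one_mul, one_mul]
  have g2 : GG θ H (-1) x = Tm * (-(Complex.I * deriv θ x * H x) - deriv H x) := by
    unfold GG
    rw [show (-1 : ℂ) * (Complex.I * θ x) = -(Complex.I * θ x) by ring, hTm]
    ring
  unfold IncS
  rw [hcos, hsin]
  unfold Pch
  -- `θ'(x) A0 = G₁ A₋₁ - G₋₁ A₁`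
  have h4 : deriv θ x * A0 θ H (x, y) =
      GG θ H 1 x * As θ H (-1) (x, y) - GG θ H (-1) x * As θ H 1 (x, y) := by
    unfold A0 As
    simp only
    ring
  have h5 : deriv θ x * (Em * A0 θ H (x, y) / (2 * Complex.I * As θ H (-1) (x, y))) =
      (Em * GG θ H 1 x - Ep * GG θ H (-1) x) / (2 * Complex.I) := by
    have h6 : Em * As θ H 1 (x, y) = Ep * As θ H (-1) (x, y) := h3.symm
    rw [mul_div_assoc', div_eq_div_iff (mul_ne_zero (mul_ne_zero two_ne_zero hI) h1)
      (mul_ne_zero two_ne_zero hI)]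
    linear_combination (2 * Complex.I * Em) * h4 - (2 * Complex.I * GG θ H (-1) x) * h6
  rw [mul_sub, h5, g1, g2]
  have hI2 := Complex.I_sq
  field_simp
  linear_combination (deriv H x * (Ep * Tm - Em * Tp)) * hI2

/-- incidence at the second label -/
lemma inc_snd {x y : ℂ} (h1 : As θ H (-1) (x, y) ≠ 0)
    (h2 : Wch θ H (x, y) ∈ Complex.slitPlane) :
    IncS θ H (Phi θ H (x, y)) (Pch θ H (x, y)) y := by
  have := inc_fst (θ := θ) (H := H) (x := y) (y := x) (by rwa [As_swap]) (by rwa [Wch_swap])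
  rwa [Phi_swap, Pch_swap] at this

/-- **the momentum function is `4 sin ((Φ - θ) / 2) / θ'`** -/
lemma kx_mul {x y : ℂ} (h1 : As θ H (-1) (x, y) ≠ 0) (h2 : Wch θ H (x, y) ∈ Complex.slitPlane)
    (h3 : Complex.cos ((Phi θ H (x, y) - θ x) / 2) ≠ 0) :
    deriv θ x * kx θ H (x, y) = 4 * Complex.sin ((Phi θ H (x, y) - θ x) / 2) := by
  have h4 := exp_Phi' h1 h2
  have hI := Complex.I_ne_zero
  have hI2 := Complex.I_sq
  set Ep := Complex.exp (Complex.I * Phi θ H (x, y)) with hEp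
  set Em := Complex.exp (-(Complex.I * Phi θ H (x, y))) with hEm
  have hpm : Ep * Em = 1 := by rw [hEp, hEm, ← Complex.exp_add]; simp
  set Tp := Complex.exp (Complex.I * θ x) with hTp
  set Tm := Complex.exp (-(Complex.I * θ x)) with hTm
  have htm : Tp * Tm = 1 := by rw [hTp, hTm, ← Complex.exp_add]; simp
  have hsin : Complex.sin (Phi θ H (x, y) - θ x) = (Em * Tp - Ep * Tm) * Complex.I / 2 := by
    rw [Complex.sin, hEp, hEm, hTp, hTm, ← Complex.exp_add, ← Complex.exp_add]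
    congr 4
    · ring_nf
    · ring_nf
  have h5 : Complex.sin (Phi θ H (x, y) - θ x) = 2 * Complex.sin ((Phi θ H (x, y) - θ x) / 2) *
      Complex.cos ((Phi θ H (x, y) - θ x) / 2) := by
    rw [← Complex.sin_two_mul]
    congr 1
    ring
  have g1 : GG θ H 1 x = Tp * (Complex.I * deriv θ x * H x - deriv H x) := by
    unfold GG; rw [one_mul, one_mul]
  have g2 : GG θ H (-1) x = Tm * (-(Complex.I * deriv θ x * H x) - deriv H x) := by
    unfold GG
    rw [show (-1 : ℂ) * (Complex.I * θ x) = -(Complex.I * θ x) by ring, hTm]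
    ring
  -- `θ' D = exp (-iθ) A₁ - exp (iθ) A₋₁`
  have h6 : deriv θ x * DD θ H (x, y) = Tm * As θ H 1 (x, y) - Tp * As θ H (-1) (x, y) := by
    unfold DD As
    simp only
    rw [← hTp, ← hTm, g1, g2]
    linear_combination (2 * Complex.I * deriv θ x * H x * D2 (deriv θ) (x, y)) * htm
  unfold kx
  rw [mul_div_assoc', div_eq_iff (mul_ne_zero h1 h3)]
  have h7 : Complex.sin ((Phi θ H (x, y) - θ x) / 2) * Complex.cos ((Phi θ H (x, y) - θ x) / 2) =
      (Em * Tp - Ep * Tm) * Complex.I / 4 := by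
    linear_combination (1 / 2 : ℂ) * hsin - (1 / 2 : ℂ) * h5
  linear_combination (-(Complex.I * Em)) * h6 - (4 * As θ H (-1) (x, y)) * h7 +
    (Complex.I * Tm) * h4

end Crest.Agent.R102.C1
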