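import Crest.Agent.R102.T5P2_160
import Crest.Agent.R102.C1SecB_963
import Mathlib
import Crest.Agent.R102.MelCurve_416
import Crest.Agent.R102.C1F_821
import Crest.Agent.R102.MelData_490

-- ▼ part R102/SecA_160
section

/-!
Row 102, MEL-SecAB (helper160), part 1: momentum function from the Lazutkin relation on a connected
set, transfer of leaf functions under affine maps.
-/

set_option autoImplicit false

open Set Filter Topology Metric
open scoped ComplexConjugate

noncomputable section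

namespace Crest.Agent.R102.SecAB

open Crest.Agent.R102.T5 Crest.Agent.R102.A929 Crest.Agent.R102.B821
open Crest.Agent.R102.Spine Crest.Agent.R102.C0 Crest.Agent.R102.C1 Crest.Agent.R102.C1Sec963
open Crest.Agent.R102.M948

/-! ### locality of `kk` -/

section congr
variable {θ θ' H H' : ℂ → ℂ} {U : Set ℂ}

theorem D2_congr {f g : ℂ → ℂ} (hU : IsOpen U) (h : EqOn f g U) {x y : ℂ} (hx : x ∈ U)
    (hy : y ∈ U) : D2 f (x, y) = D2 g (x, y) := by
  have he : f =ᶠ[𝓝 x] g := by filter_upwards [hU.mem_nhds hx] with z hz using h hz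
  unfold D2
  simp only
  rcases eq_or_ne y x with hxy | hxy
  · subst hxy
    rw [dslope_same, dslope_same, he.deriv_eq]
  · rw [dslope_of_ne _ hxy, dslope_of_ne _ hxy]
    unfold slope
    rw [h hx, h hy]

theorem deriv_congr {f g : ℂ → ℂ} (hU : IsOpen U) (h : EqOn f g U) : EqOn (deriv f) (deriv g) U := by
  intro x hx
  have he : f =ᶠ[𝓝 x] g := by filter_upwards [hU.mem_nhds hx] with z hz using h hz
  exact he.deriv_eq

theorem GG_congr (hU : IsOpen U) (h1 : EqOn θ θ' U) (h2 : EqOn H H' U) (c : ℂ) :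
    EqOn (GG θ H c) (GG θ' H' c) U := by
  intro x hx
  unfold GG
  rw [h1 hx, h2 hx, deriv_congr hU h1 hx, deriv_congr hU h2 hx]

theorem kk_congr (hU : IsOpen U) (h1 : EqOn θ θ' U) (h2 : EqOn H H' U) {x y : ℂ} (hx : x ∈ U)
    (hy : y ∈ U) : kk θ H (x, y - x) = kk θ' H' (x, y - x) := by
  have e1 := D2_congr hU (GG_congr hU h1 h2 1) hx hy
  have e2 := D2_congr hU (GG_congr hU h1 h2 (-1)) hx hy
  have e3 := D2_congr hU (deriv_congr hU h1) hx hy
  have e4 := GG_congr hU h1 h2 1 hx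
  have e5 := GG_congr hU h1 h2 (-1) hx
  have e6 := deriv_congr hU h1 hx
  have a1 : As θ H 1 (x, y) = As θ' H' 1 (x, y) := by
    unfold As; simp only; rw [e1, e3, e4, e6]
  have a2 : As θ H (-1) (x, y) = As θ' H' (-1) (x, y) := by
    unfold As; simp only; rw [e2, e3, e5, e6]
  have a3 : Wch θ H (x, y) = Wch θ' H' (x, y) := by
    unfold Wch; simp only; rw [a1, a2, h1 hx, h1 hy]
  have a4 : C1.Phi θ H (x, y) = C1.Phi θ' H' (x, y) := by
    unfold C1.Phi; simp only; rw [a3, h1 hx, h1 hy]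
  have a5 : C1.DD θ H (x, y) = C1.DD θ' H' (x, y) := by
    unfold C1.DD; simp only; rw [e1, e2, e3, h1 hx, h2 hx]
  unfold kk
  simp only
  rw [add_sub_cancel]
  unfold kx
  simp only
  rw [a5, a4, a2, h1 hx]

end congr

/-! ### the momentum function from `LZ` on a connected set -/

section
variable {V : Set ℂ} {θ H : ℂ → ℂ} (L : LZ V θ H)

include L

theorem exists_ball' {x : ℂ} (hx : x ∈ V) : ∃ s > 0, ball x s ×ˢ ball 0 s ⊆ NE θ H V := by
  obtain ⟨s, hs, h⟩ := Metric.isOpen_iff.1 L.openE (x, 0) (L.zero_mem hx)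
  refine ⟨s, hs, ?_⟩
  rwa [ball_prod_same]

theorem coefk_diff' (n : ℕ) : DifferentiableOn ℂ (coefT (fk θ H) 0 n) V := by
  intro x hx
  obtain ⟨s, hs, h⟩ := exists_ball' L hx
  have hf : DifferentiableOn ℂ (fk θ H) (ball x s ×ˢ ball 0 s) :=
    (L.kk_diff.mono h).sub differentiable_snd.differentiableOn
  exact ((differentiableOn_coefT isOpen_ball hs hf n).differentiableAt
    (isOpen_ball.mem_nhds (mem_ball_self hs))).differentiableWithinAt

theorem coefk_zero_pt {x : ℂ} (hx : x ∈ V) {C r : ℝ} (hC : 0 ≤ C) (hr : 0 < r)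
    (hb : ∀ e : ℂ, ‖e‖ < r → ‖fk θ H (x, e)‖ ≤ C * ‖e‖ ^ 3) {n : ℕ} (hn : n ≤ 2) :
    coefT (fk θ H) 0 n x = 0 := by
  obtain ⟨s, hs, hsN⟩ := exists_ball' L hx
  have key : ∀ ε : ℝ, 0 < ε → ε < min r (min s 1) → ‖coefT (fk θ H) 0 n x‖ ≤ C * ε := by
    intro ε hε hε'
    rw [lt_min_iff, lt_min_iff] at hε'
    have hcl : closedBall (0 : ℂ) ε ⊆ ball 0 s := closedBall_subset_ball hε'.2.1
    have hd : DifferentiableOn ℂ (fun t => fk θ H (x, t)) (closedBall 0 ε) := by
      have hf : DifferentiableOn ℂ (fk θ H) (ball x s ×ˢ ball 0 s) :=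
        (L.kk_diff.mono hsN).sub differentiable_snd.differentiableOn
      exact (slice_differentiableOn hf (mem_ball_self hs)).mono hcl
    have h1 := norm_coefT_le (f := fk θ H) (t0 := 0) (w := x) (r := ε) (M := C * ε ^ 3) hε
      (DifferentiableOn.diffContOnCl (by rw [closure_ball _ hε.ne']; exact hd))
      (fun t ht => by
        rw [mem_sphere, dist_zero_right] at ht
        have := hb t (by rw [ht]; exact hε'.1)
        rwa [ht] at this) n
    refine h1.trans ?_
    have h2 : ε ^ 3 * (1 / ε) ^ n ≤ ε := by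
      have h3 : ε ^ 3 * (1 / ε) ^ n = ε ^ (3 - n) := by
        rw [one_div, inv_pow, ← div_eq_mul_inv, div_eq_iff (by positivity), ← pow_add]
        congr 1
        omega
      rw [h3]
      calc ε ^ (3 - n) ≤ ε ^ 1 := pow_le_pow_of_le_one hε.le hε'.2.2.le (by omega)
        _ = ε := pow_one ε
    calc C * ε ^ 3 * (1 / ε) ^ n = C * (ε ^ 3 * (1 / ε) ^ n) := by ring
      _ ≤ C * ε := by gcongr
  have hlim : Tendsto (fun ε : ℝ => C * ε) (𝓝[>] 0) (𝓝 (C * 0)) :=
    ((continuous_const.mul continuous_id).tendsto 0).mono_left nhdsWithin_le_nhds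
  rw [mul_zero] at hlim
  have hle : ‖coefT (fk θ H) 0 n x‖ ≤ 0 := by
    refine ge_of_tendsto hlim ?_
    filter_upwards [Ioo_mem_nhdsGT (lt_min hr (lt_min hs one_pos))] with ε hε
    exact key ε hε.1 hε.2
  exact norm_le_zero_iff.1 hle

theorem kmap_of_coef (h0 : ∀ n ≤ 2, ∀ x ∈ V, coefT (fk θ H) 0 n x = 0) {Q : Set ℂ}
    (hQ : IsCompact Q) (hQV : Q ⊆ V) :
    ∃ ε C : ℝ, 0 < ε ∧ KMap Q ε C (kk θ H) := by
  obtain ⟨u, v, hu, hv, hQu, h0v, huv⟩ := generalized_tube_lemma hQ (isCompact_singleton (x := (0 : ℂ)))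
    L.openE (by
      rintro ⟨x, e⟩ ⟨hx, he⟩
      simp only [mem_singleton_iff] at he
      subst he
      exact L.zero_mem (hQV hx))
  obtain ⟨s, hs, hsv⟩ := Metric.isOpen_iff.1 hv 0 (h0v rfl)
  have hcl : closedBall (0 : ℂ) (s / 2) ⊆ v := (closedBall_subset_ball (by linarith)).trans hsv
  have hf : DifferentiableOn ℂ (fk θ H) (u ×ˢ v) :=
    (L.kk_diff.mono huv).sub differentiable_snd.differentiableOn
  obtain ⟨M, hM⟩ := (hQ.prod (isCompact_closedBall (0 : ℂ) (s / 2))).exists_bound_of_continuousOn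
    (hf.continuousOn.mono (prod_mono hQu hcl))
  have hNE : Q ×ˢ ball 0 (s / 4) ⊆ NE θ H V :=
    (prod_mono hQu ((ball_subset_ball (by linarith)).trans hsv)).trans huv
  refine ⟨s / 4, 2 * |M| * (2 / s) ^ 3, by positivity, ⟨?_, ?_⟩⟩
  · exact L.kk_diff.mono hNE
  · intro x hx e he
    have hd : DifferentiableOn ℂ (fun t => fk θ H (x, t)) v :=
      slice_differentiableOn hf (hQu hx)
    have hcoef : ∀ n : ℕ, ‖coefT (fk θ H) 0 n x‖ ≤ |M| * (1 / (s / 2)) ^ n := by
      intro n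
      refine norm_coefT_le (by positivity) ?_ (fun t ht => ?_) n
      · refine DifferentiableOn.diffContOnCl ?_
        rw [closure_ball _ (by positivity)]
        exact hd.mono hcl
      · exact (hM (x, t) ⟨hx, sphere_subset_closedBall ht⟩).trans (le_abs_self M)
    have hsum := Complex.hasSum_taylorSeries_on_ball (f := fun t => fk θ H (x, t)) (c := 0)
      (r := s) (z := e) (hd.mono hsv) (by rw [mem_ball, dist_zero_right]; linarith)
    have he' : (fun n : ℕ => (n.factorial : ℂ)⁻¹ • (e - 0) ^ n •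
        iteratedDeriv n (fun t => fk θ H (x, t)) 0) = fun n => coefT (fk θ H) 0 n x * e ^ n := by
      funext n
      unfold coefT; simp only [smul_eq_mul, sub_zero]; ring
    rw [he'] at hsum
    have hsum3 : HasSum (fun n => coefT (fk θ H) 0 (n + 3) x * e ^ (n + 3)) (fk θ H (x, e)) := by
      have := (hasSum_nat_add_iff' 3).2 hsum
      simp only [Finset.sum_range_succ, Finset.sum_range_zero] at this
      rw [h0 0 (by norm_num) x (hQV hx), h0 1 (by norm_num) x (hQV hx),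
        h0 2 (by norm_num) x (hQV hx)] at this
      simpa using this
    have hx1 : 2 * ‖e‖ / s ≤ 1 / 2 := by
      rw [div_le_iff₀ hs]; linarith
    have hgeo : HasSum (fun n : ℕ => (|M| * (2 * ‖e‖ / s) ^ 3) * (1 / 2 : ℝ) ^ n)
        ((|M| * (2 * ‖e‖ / s) ^ 3) * (1 - 1 / 2)⁻¹) :=
      (hasSum_geometric_of_lt_one (by norm_num) (by norm_num)).mul_left _
    have hb := tsum_of_norm_bounded hgeo (f := fun n => coefT (fk θ H) 0 (n + 3) x * e ^ (n + 3))
      (fun n => by
        rw [norm_mul, norm_pow]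
        calc ‖coefT (fk θ H) 0 (n + 3) x‖ * ‖e‖ ^ (n + 3)
            ≤ (|M| * (1 / (s / 2)) ^ (n + 3)) * ‖e‖ ^ (n + 3) := by gcongr; exact hcoef _
          _ = |M| * (2 * ‖e‖ / s) ^ 3 * (2 * ‖e‖ / s) ^ n := by
              rw [mul_assoc, ← mul_pow, mul_assoc, ← pow_add]
              congr 1
              rw [show 1 / (s / 2) * ‖e‖ = 2 * ‖e‖ / s by field_simp, add_comm]
          _ ≤ |M| * (2 * ‖e‖ / s) ^ 3 * (1 / 2) ^ n := by gcongr)
    rw [hsum3.tsum_eq] at hb
    show ‖kk θ H (x, e) - e‖ ≤ _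
    refine hb.trans (le_of_eq ?_)
    rw [div_pow, mul_pow, div_pow]
    norm_num
    ring

/-- **`KLoc` from `LZ` on a connected set** -/
theorem kloc_of_LZ (hV : IsPreconnected V) {z₀ : ℂ} (hz₀ : z₀ ∈ V) {s ε C : ℝ} (hs : 0 < s)
    (hε : 0 < ε) (hk : KMap (ball z₀ s) ε C (kk θ H)) : KLoc V (kk θ H) := by
  have h0 : ∀ n ≤ 2, ∀ x ∈ V, coefT (fk θ H) 0 n x = 0 := by
    intro n hn
    have := ((coefk_diff' L n).analyticOnNhd L.op).eqOn_zero_of_preconnected_of_eventuallyEq_zero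
      hV hz₀ (by
        filter_upwards [ball_mem_nhds z₀ hs, L.op.mem_nhds hz₀] with x hx hxV
        exact coefk_zero_pt L hxV (abs_nonneg C) hε (fun e he =>
          (hk.near x hx e he).trans (by gcongr; exact le_abs_self C)) hn)
    intro x hx
    exact this hx
  intro x hx
  obtain ⟨s, hs, hsV⟩ := Metric.isOpen_iff.1 L.op x hx
  have hcl : closedBall x (s / 2) ⊆ V := (closedBall_subset_ball (by linarith)).trans hsV
  obtain ⟨ε, C, hε, hk⟩ := kmap_of_coef L h0 (isCompact_closedBall x (s / 2)) hcl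
  exact ⟨s / 2, by positivity, ε, hε, C, KMap.mono' hk ball_subset_closedBall le_rfl le_rfl⟩

end

/-! ### change of the momentum function -/

theorem LeafLoc.congr_k {k k' X : ℂ × ℂ → ℂ} {K : Set ℂ} (h : LeafLoc k K X)
    (hk : ∀ c ∈ K, ∃ s > 0, ∀ x ∈ ball c s, ∀ y ∈ ball c s, k (x, y - x) = k' (x, y - x)) :
    LeafLoc k' K X := by
  intro c hc
  obtain ⟨s, hs, r, hr, B, hB⟩ := h c hc
  obtain ⟨s', hs', hkk⟩ := hk c hc
  set s₁ := min s (s' / 2) with hs₁
  have hs₁p : 0 < s₁ := by positivity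
  set r₁ := min r (min 1 (s' / (2 * (|B| + 1)))) with hr₁
  have hr₁p : 0 < r₁ := by positivity
  refine ⟨s₁, hs₁p, r₁, hr₁p, B, ?_⟩
  have hB' := hB.mono (ball_subset_ball (min_le_left s (s' / 2)) : ball c s₁ ⊆ ball c s)
    (min_le_left _ _ : r₁ ≤ r) (le_refl B)
  refine ⟨hB'.diff, hB'.near, ?_⟩
  intro t w hw h1 h2 h3
  have hl := hB'.law t w hw h1 h2 h3
  have hin : ∀ u ∈ ball c s₁, X (u, w) ∈ ball c s' := by
    intro u hu
    have n1 := hB'.near u hu w hw
    have w1 : ‖w‖ < 1 := hw.trans_le ((min_le_right _ _).trans (min_le_left _ _))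
    have w2 : ‖w‖ < s' / (2 * (|B| + 1)) :=
      hw.trans_le ((min_le_right _ _).trans (min_le_right _ _))
    rw [lt_div_iff₀ (by positivity)] at w2
    have w3 : B * ‖w‖ ^ 2 < s' / 2 := by
      have a1 : B * ‖w‖ ^ 2 ≤ |B| * ‖w‖ ^ 2 := by gcongr; exact le_abs_self B
      have a2 : ‖w‖ ^ 2 ≤ ‖w‖ := by
        have := norm_nonneg w
        nlinarith
      have a3 : |B| * ‖w‖ ^ 2 ≤ |B| * ‖w‖ := by gcongr
      have := norm_nonneg w
      nlinarith [abs_nonneg B]
    have hu' : dist u c < s' / 2 := lt_of_lt_of_le (mem_ball.1 hu) (min_le_right _ _)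
    rw [mem_ball, dist_eq_norm]
    rw [dist_eq_norm] at hu'
    have e : X (u, w) - c = (X (u, w) - u) + (u - c) := by ring
    rw [e]
    refine (norm_add_le _ _).trans_lt ?_
    linarith
  rw [← hkk _ (hin _ h2) _ (hin _ h3), ← hkk _ (hin _ h2) _ (hin _ h1)]
  exact hl

/-! ### affine maps -/

section affine
variable {k X : ℂ × ℂ → ℂ} {K : Set ℂ} {s μ : ℂ}

/-- transported momentum function -/
def kA (s μ : ℂ) (k : ℂ × ℂ → ℂ) (p : ℂ × ℂ) : ℂ := k (s + μ * p.1, μ * p.2) / μ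

/-- transported leaf function -/
def xA (s μ : ℂ) (X : ℂ × ℂ → ℂ) (p : ℂ × ℂ) : ℂ := (X (s + μ * p.1, μ * p.2) - s) / μ

theorem xA_xA (hμ : μ ≠ 0) : xA (-s / μ) μ⁻¹ (xA s μ X) = X := by
  funext p
  unfold xA
  simp only
  have e1 : s + μ * (-s / μ + μ⁻¹ * p.1) = p.1 := by field_simp; ring
  have e2 : μ * (μ⁻¹ * p.2) = p.2 := by field_simp
  rw [e1, e2]
  field_simp
  ring

theorem kA_kA (hμ : μ ≠ 0) : kA (-s / μ) μ⁻¹ (kA s μ k) = k := by
  funext p
  unfold kA
  simp only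
  have e1 : s + μ * (-s / μ + μ⁻¹ * p.1) = p.1 := by field_simp; ring
  have e2 : μ * (μ⁻¹ * p.2) = p.2 := by field_simp
  rw [e1, e2]
  field_simp

theorem leafLoc_aff (hμ : μ ≠ 0) (h : LeafLoc k K X) :
    LeafLoc (kA s μ k) ((fun t => s + μ * t) ⁻¹' K) (xA s μ X) := by
  have hμn : 0 < ‖μ‖ := norm_pos_iff.2 hμ
  intro c hc
  obtain ⟨σ, hσ, r, hr, B, hB⟩ := h _ hc
  have hb : ∀ t ∈ ball c (σ / ‖μ‖), s + μ * t ∈ ball (s + μ * c) σ := by
    intro t ht
    rw [mem_ball, dist_eq_norm] at ht ⊢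
    rw [lt_div_iff₀ hμn] at ht
    have e : s + μ * t - (s + μ * c) = μ * (t - c) := by ring
    rw [e, norm_mul]; linarith
  have hw' : ∀ w : ℂ, ‖w‖ < r / ‖μ‖ → ‖μ * w‖ < r := by
    intro w hw
    rw [lt_div_iff₀ hμn] at hw
    rw [norm_mul]; linarith
  refine ⟨σ / ‖μ‖, by positivity, r / ‖μ‖, by positivity, B * ‖μ‖, ?_, ?_, ?_⟩
  · have h1 : DifferentiableOn ℂ (fun p : ℂ × ℂ => X (s + μ * p.1, μ * p.2))
        (ball c (σ / ‖μ‖) ×ˢ ball 0 (r / ‖μ‖)) := by
      refine hB.diff.comp (by fun_prop) ?_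
      rintro ⟨t, w⟩ ⟨ht, hw⟩
      refine ⟨hb t ht, ?_⟩
      rw [mem_ball, dist_zero_right] at hw ⊢
      exact hw' w hw
    refine ((h1.sub_const s).mul_const μ⁻¹).congr fun p _ => ?_
    unfold xA
    rw [div_eq_mul_inv]
  · intro t ht w hw
    have h1 := hB.near _ (hb t ht) _ (hw' w hw)
    unfold xA
    simp only
    have e : (X (s + μ * t, μ * w) - s) / μ - t = (X (s + μ * t, μ * w) - (s + μ * t)) / μ := by
      field_simp; ring
    rw [e, norm_div, div_le_iff₀ hμn]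
    refine h1.trans (le_of_eq ?_)
    rw [norm_mul]; ring
  · intro t w hw h1 h2 h3
    have h4 := hB.law (s + μ * t) (μ * w) (hw' w hw)
      (by have := hb _ h1; rwa [mul_sub, ← add_sub_assoc] at this) (hb _ h2)
      (by have := hb _ h3; rwa [mul_add, ← add_assoc] at this)
    unfold kA xA
    simp only
    have e1 : s + μ * ((X (s + μ * t, μ * w) - s) / μ) = X (s + μ * t, μ * w) := by
      field_simp; ring
    have e2 : μ * ((X (s + μ * (t + w), μ * w) - s) / μ - (X (s + μ * t, μ * w) - s) / μ) =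
        X (s + μ * t + μ * w, μ * w) - X (s + μ * t, μ * w) := by
      have : s + μ * (t + w) = s + μ * t + μ * w := by ring
      rw [this]; field_simp; ring
    have e3 : μ * ((X (s + μ * (t - w), μ * w) - s) / μ - (X (s + μ * t, μ * w) - s) / μ) =
        X (s + μ * t - μ * w, μ * w) - X (s + μ * t, μ * w) := by
      have : s + μ * (t - w) = s + μ * t - μ * w := by ring
      rw [this]; field_simp; ring
    rw [e1, e2, e3, h4]
    ring

theorem kloc_aff (hμ : μ ≠ 0) (h : KLoc K k) : KLoc ((fun t => s + μ * t) ⁻¹' K) (kA s μ k) := by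
  have hμn : 0 < ‖μ‖ := norm_pos_iff.2 hμ
  intro c hc
  obtain ⟨σ, hσ, ε, hε, C, hk⟩ := h _ hc
  have hb : ∀ t ∈ ball c (σ / ‖μ‖), s + μ * t ∈ ball (s + μ * c) σ := by
    intro t ht
    rw [mem_ball, dist_eq_norm] at ht ⊢
    rw [lt_div_iff₀ hμn] at ht
    have e : s + μ * t - (s + μ * c) = μ * (t - c) := by ring
    rw [e, norm_mul]; linarith
  have hw' : ∀ w : ℂ, ‖w‖ < ε / ‖μ‖ → ‖μ * w‖ < ε := by
    intro w hw
    rw [lt_div_iff₀ hμn] at hw
    rw [norm_mul]; linarith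
  refine ⟨σ / ‖μ‖, by positivity, ε / ‖μ‖, by positivity, C * ‖μ‖ ^ 2, ?_, ?_⟩
  · have h1 : DifferentiableOn ℂ (fun p : ℂ × ℂ => k (s + μ * p.1, μ * p.2))
        (ball c (σ / ‖μ‖) ×ˢ ball 0 (ε / ‖μ‖)) := by
      refine hk.diff.comp (by fun_prop) ?_
      rintro ⟨t, w⟩ ⟨ht, hw⟩
      refine ⟨hb t ht, ?_⟩
      rw [mem_ball, dist_zero_right] at hw ⊢
      exact hw' w hw
    refine (h1.mul_const μ⁻¹).congr fun p _ => ?_
    unfold kA
    rw [div_eq_mul_inv]
  · intro y hy e he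
    have h1 := hk.near _ (hb y hy) _ (hw' e he)
    unfold kA
    simp only
    have e1 : k (s + μ * y, μ * e) / μ - e = (k (s + μ * y, μ * e) - μ * e) / μ := by
      field_simp
    rw [e1, norm_div, div_le_iff₀ hμn]
    refine h1.trans (le_of_eq ?_)
    rw [norm_mul]; ring

end affine

/-! ### sectors -/

theorem Sct_conn {ρ α β : ℝ} (hα : -Real.pi ≤ α) (hβ : β ≤ Real.pi) :
    IsPreconnected (Sct ρ α β) := by
  have hcv : Convex ℝ {x : ℂ | x.re < Real.log ρ ∧ α < x.im ∧ x.im < β} := by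
    have h1 : Convex ℝ {x : ℂ | x.re < Real.log ρ} := convex_halfSpace_re_lt _
    have h2 : Convex ℝ {x : ℂ | α < x.im} := convex_halfSpace_im_gt _
    have h3 : Convex ℝ {x : ℂ | x.im < β} := convex_halfSpace_im_lt _
    exact h1.inter (h2.inter h3)
  rcases le_or_gt ρ 0 with hρ | hρ
  · have : Sct ρ α β = ∅ := by
      ext t
      simp only [Sct, Set.mem_ofPred_eq, mem_empty_iff_false, iff_false]
      rintro ⟨h1, h2, -⟩
      linarith
    rw [this]
    exact isPreconnected_empty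
  have himg : Sct ρ α β = Complex.exp '' {x : ℂ | x.re < Real.log ρ ∧ α < x.im ∧ x.im < β} := by
    ext t
    constructor
    · rintro ⟨h1, h2, h3, h4⟩
      have ht : t ≠ 0 := norm_pos_iff.1 h1
      refine ⟨Complex.log t, ⟨?_, ?_, ?_⟩, Complex.exp_log ht⟩
      · rw [Complex.log_re]; exact Real.log_lt_log h1 h2
      · rw [Complex.log_im]; exact h3
      · rw [Complex.log_im]; exact h4
    · rintro ⟨x, ⟨h1, h2, h3⟩, rfl⟩
      have harg : Complex.arg (Complex.exp x) = x.im := by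
        rw [← Complex.log_im, Complex.log_exp (by linarith) (by linarith)]
      refine ⟨?_, ?_, ?_, ?_⟩
      · rw [Complex.norm_exp]; positivity
      · rw [Complex.norm_exp]
        calc Real.exp x.re < Real.exp (Real.log ρ) := Real.exp_lt_exp.2 h1
          _ = ρ := Real.exp_log hρ
      · rw [harg]; exact h2
      · rw [harg]; exact h3
  rw [himg]
  exact hcv.isPreconnected.image _ Complex.continuous_exp.continuousOn

end Crest.Agent.R102.SecAB
end
end

-- ▼ part R102/SheetLZ_416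
section

/-!
Row 102, part (C), T5-MEL: the sheets of a Puiseux end satisfy the curve relation (`LZ`).
-/

set_option autoImplicit false

namespace Crest.Agent.R102.End416

open Set Filter Topology Metric
open Crest.Agent.R102.Pain416 (HD bl bl_basis HD_mem HD_mono isOpen_HD convex_HD path_mem)
open Crest.Agent.R102.T5R (VS IsoLead Sg EndQ Sg_sub_VS)
open Crest.Agent.R102.Mel (Slope Pos OvR sgB SgZ Sheet)
open Crest.Agent.R102.C1 (LZ)

noncomputable section

variable {θ H : ℂ → ℂ} {s : ℂ} {n : ℕ} {r : ℝ} {a k : ℤ} {e g f : ℂ → ℂ} {ζ ω : ℂ}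

namespace EndS

/-- the sheet over the slit disc satisfies the curve relation, `θ' ≠ 0` -/
theorem sheet_LZ (D : EndS θ H s n r a k e g f) (S : Sht n ζ ω) {Θ : ℂ → ℂ}
    (hΘ : ∀ z ∈ VW s ω (r ^ n), HasDerivAt Θ (Es k g (sgw n s ζ ω z)) z) :
    LZ (VW s ω (r ^ n)) Θ (fun z => f (sgw n s ζ ω z)) ∧
      ∀ z ∈ VW s ω (r ^ n), deriv Θ z ≠ 0 := by
  have hn := D.n_pos
  have hop := isOpen_VW s ω (r ^ n)
  have hf : ∀ z ∈ VW s ω (r ^ n), HasDerivAt (fun z => f (sgw n s ζ ω z))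
      (Hd n f (sgw n s ζ ω z)) z := by
    intro z hz
    obtain ⟨h1, h2⟩ := D.mem_of_VW S hz
    exact ((D.f_an _ h1 h2).differentiableAt.hasDerivAt).comp z (sgw_deriv S hn hz.2)
  have h1 : ∀ z ∈ VW s ω (r ^ n), deriv (deriv Θ) z =
      deriv (Es k g) (sgw n s ζ ω z) * Dz n (sgw n s ζ ω z) := by
    intro z hz
    obtain ⟨h1, h2⟩ := D.mem_of_VW S hz
    have h3 : deriv Θ =ᶠ[𝓝 z] fun z => Es k g (sgw n s ζ ω z) := by
      filter_upwards [hop.mem_nhds hz] with z' hz' using (hΘ z' hz').deriv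
    rw [h3.deriv_eq]
    exact (((D.Es_anY h1 h2).differentiableAt.hasDerivAt).comp z (sgw_deriv S hn hz.2)).deriv
  have h2 : ∀ z ∈ VW s ω (r ^ n), deriv (deriv (fun z => f (sgw n s ζ ω z))) z =
      deriv (Hd n f) (sgw n s ζ ω z) * Dz n (sgw n s ζ ω z) := by
    intro z hz
    obtain ⟨h1, h2⟩ := D.mem_of_VW S hz
    have h3 : deriv (fun z => f (sgw n s ζ ω z)) =ᶠ[𝓝 z] fun z => Hd n f (sgw n s ζ ω z) := by
      filter_upwards [hop.mem_nhds hz] with z' hz' using (hf z' hz').deriv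
    rw [h3.deriv_eq]
    exact (((D.Hd_an h1 h2).differentiableAt.hasDerivAt).comp z (sgw_deriv S hn hz.2)).deriv
  refine ⟨⟨hop, fun z hz => (hΘ z hz).differentiableAt.differentiableWithinAt,
    fun z hz => (hf z hz).differentiableAt.differentiableWithinAt, fun z hz => ?_⟩, fun z hz => ?_⟩
  · obtain ⟨h3, h4⟩ := D.mem_of_VW S hz
    rw [h1 z hz, h2 z hz, (hΘ z hz).deriv, (hf z hz).deriv]
    exact D.lz _ h3 h4
  · obtain ⟨h3, h4⟩ := D.mem_of_VW S hz
    rw [(hΘ z hz).deriv]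
    exact D.Y_ne h3 h4

/-- the slit sectors are inside the slit discs -/
lemma SgZ_sub {ε κ : ℝ} (hω : ω = 1 ∨ ω = -1) (hκ1 : κ < 1) {δ : ℝ} (hεδ : ε ≤ δ) :
    SgZ s ω ε κ ⊆ VW s ω δ := by
  intro z hz
  obtain ⟨h1, h2, h3⟩ := hz
  refine ⟨h2.trans_le hεδ, ?_⟩
  have hzs : 0 < ‖z - s‖ := norm_pos_iff.2 (sub_ne_zero.2 h1)
  have hω2 : (z - s) / ω = ω * (z - s) := by
    rcases hω with h | h <;> rw [h]
    · simp
    · rw [div_neg, div_one, neg_one_mul]
  rw [hω2] at h3
  have hnorm : ‖ω * (z - s)‖ = ‖z - s‖ := by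
    rcases hω with h | h <;> rw [h, norm_mul] <;> simp
  set w := ω * (z - s) with hw
  have h4 : ω * (Complex.I * (z - s)) = Complex.I * w := by rw [hw]; ring
  rw [h4, Complex.mem_slitPlane_iff]
  simp only [Complex.mul_re, Complex.I_re, zero_mul, Complex.I_im, one_mul, zero_sub,
    Complex.mul_im, zero_add]
  by_contra hcon
  push Not at hcon
  obtain ⟨h5, h6⟩ := hcon
  have him : 0 ≤ w.im := by linarith
  have hn : ‖w‖ = w.im := by
    have e : w = (w.im : ℂ) * Complex.I := by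
      apply Complex.ext
      · simp only [Complex.mul_re, Complex.ofReal_re, Complex.I_re, mul_zero, Complex.ofReal_im,
          Complex.I_im, mul_one, sub_self]
        simpa using h6
      · simp
    rw [e, norm_mul, Complex.norm_I, mul_one, Complex.norm_real, Real.norm_of_nonneg him]
    simp
  rw [← hnorm, hn] at h3 hzs
  nlinarith



/-- **both sheets**: `A` and `B` agree to the right of `s` -/
theorem sheets (D : EndS θ H s n r a k e g f) (hθ : DifferentiableOn ℂ θ (HD s (r ^ n)))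
    {ε κ : ℝ} (hεr : ε ≤ r ^ n) (hκ1 : κ < 1) :
    ∃ θA HA θB HB : ℂ → ℂ, LZ (VW s 1 (r ^ n)) θA HA ∧ LZ (VW s (-1) (r ^ n)) θB HB ∧
      (∀ z ∈ VW s 1 (r ^ n), deriv θA z ≠ 0) ∧ (∀ z ∈ VW s (-1) (r ^ n), deriv θB z ≠ 0) ∧
      Sheet (sg n s) (SgZ s 1 ε κ) a k e g f θA HA ∧
      Sheet (sgB n s) (SgZ s (-1) ε κ) a k e g f θB HB ∧
      SgZ s 1 ε κ ⊆ VW s 1 (r ^ n) ∧ SgZ s (-1) ε κ ⊆ VW s (-1) (r ^ n) ∧
      (∀ z ∈ VW s 1 (r ^ n), z.im < s.im → θA z = θ z ∧ HA z = H z) ∧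
      ∀ z, ‖z - s‖ < r ^ n → s.re < z.re → θB z = θA z ∧ HB z = HA z := by
  obtain ⟨θA, h1, h2, h3⟩ := D.contA hθ
  obtain ⟨θB, h1', h2', h3'⟩ := D.contB hθ
  obtain ⟨h4, h5⟩ := D.sheet_LZ (shtA n) h1
  obtain ⟨h4', h5'⟩ := D.sheet_LZ (shtB D.n_pos) h1'
  have hsubA : SgZ s 1 ε κ ⊆ VW s 1 (r ^ n) := SgZ_sub (Or.inl rfl) hκ1 hεr
  have hsubB : SgZ s (-1) ε κ ⊆ VW s (-1) (r ^ n) := SgZ_sub (Or.inr rfl) hκ1 hεr
  refine ⟨θA, fun z => f (sgw n s 1 1 z), θB, fun z => f (sgw n s (zB n) (-1) z), h4, h4', h5, h5',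
    ⟨?_, ?_, ?_⟩, ⟨?_, ?_, ?_⟩, hsubA, hsubB, ?_, ?_⟩
  · intro z hz
    rw [h2 z (hsubA hz), sgwA_eq]
  · intro z hz
    have := h1 z (hsubA hz)
    rwa [sgwA_eq] at this
  · intro z hz
    rw [sgwA_eq]
  · intro z hz
    rw [h2' z (hsubB hz), sgB_eq]
  · intro z hz
    have := h1' z (hsubB hz)
    rwa [← sgB_eq] at this
  · intro z hz
    rw [sgB_eq]
  · intro z hz him
    have hz' : z ∈ HD s (r ^ n) := ⟨by simpa [dist_eq_norm] using hz.1, him⟩
    refine ⟨h3 z hz', ?_⟩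
    change f (sgw n s 1 1 z) = H z
    rw [sgwA_eq]
    exact (D.H_eq z hz').symm
  · -- agreement on the right half disc, by the identity of derivatives
    set T : Set ℂ := ball s (r ^ n) ∩ {z | s.re < z.re} with hT
    have hTo : IsOpen T := isOpen_ball.inter (isOpen_lt continuous_const Complex.continuous_re)
    have hTc : Convex ℝ T := (convex_ball _ _).inter (convex_halfSpace_re_gt s.re)
    have hrn : 0 < r ^ n := pow_pos D.r_pos n
    have hTA : ∀ z ∈ T, z ∈ VW s 1 (r ^ n) := by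
      intro z hz
      have hz2 : s.re < z.re := hz.2
      refine ⟨by simpa [dist_eq_norm] using hz.1, ?_⟩
      rw [Complex.mem_slitPlane_iff]
      right
      have h3 : (1 * (Complex.I * (z - s))).im = z.re - s.re := by simp
      rw [h3]
      exact (sub_pos.2 hz2).ne'
    have hTB : ∀ z ∈ T, z ∈ VW s (-1) (r ^ n) := by
      intro z hz
      have hz2 : s.re < z.re := hz.2
      refine ⟨by simpa [dist_eq_norm] using hz.1, ?_⟩
      rw [Complex.mem_slitPlane_iff]
      right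
      have h3 : (-1 * (Complex.I * (z - s))).im = -(z.re - s.re) := by simp
      rw [h3]
      exact (neg_neg_of_pos (sub_pos.2 hz2)).ne
    have hd : ∀ z ∈ T, HasDerivAt (fun z => θB z - θA z) 0 z := by
      intro z hz
      have h6 := (h1' z (hTB z hz)).sub (h1 z (hTA z hz))
      rw [sgwB_eq hz.2, sub_self] at h6
      exact h6
    -- a point below and to the right
    have h2n : (1 : ℂ) - Complex.I ≠ 0 := by
      intro h
      have := congrArg Complex.re h
      simp at this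
    set u : ℂ := (1 - Complex.I) / (‖(1 : ℂ) - Complex.I‖ : ℂ) with hu
    have hu1 : ‖u‖ = 1 := by
      rw [hu, norm_div, Complex.norm_real, norm_norm, div_self (norm_ne_zero_iff.2 h2n)]
    have hu2 : u.im < 0 := by
      rw [hu, Complex.div_ofReal_im]
      simp only [Complex.sub_im, Complex.one_im, Complex.I_im, zero_sub]
      exact div_neg_of_neg_of_pos (by norm_num) (norm_pos_iff.2 h2n)
    have hu3 : 0 < u.re := by
      rw [hu, Complex.div_ofReal_re]
      simp only [Complex.sub_re, Complex.one_re, Complex.I_re, sub_zero]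
      exact div_pos one_pos (norm_pos_iff.2 h2n)
    have hp1 : s + (r ^ n / 2 : ℝ) * u ∈ HD s (r ^ n) :=
      path_mem hu1 hu2 (by linarith) (by linarith)
    have hp2 : s.re < (s + (r ^ n / 2 : ℝ) * u).re := by
      rw [Complex.add_re, Complex.re_ofReal_mul]
      have h5 : 0 < r ^ n / 2 := by linarith
      have := mul_pos h5 hu3
      linarith
    have hp3 : s + (r ^ n / 2 : ℝ) * u ∈ T := ⟨hp1.1, hp2⟩
    intro z hz1 hz2
    have hzT : z ∈ T := ⟨by simpa [dist_eq_norm] using hz1, hz2⟩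
    have hconst := hTc.is_const_of_fderivWithin_eq_zero (𝕜 := ℂ)
      (f := fun z => θB z - θA z)
      (fun z hz => (hd z hz).differentiableAt.differentiableWithinAt) (fun z hz => by
        rw [fderivWithin_of_isOpen hTo hz]
        have := (hd z hz).hasFDerivAt.fderiv
        rw [this]
        ext; simp) hzT hp3
    rw [h3 _ hp1, h3' _ hp1 hp2, sub_self] at hconst
    refine ⟨sub_eq_zero.1 hconst, ?_⟩
    change f (sgw n s (zB n) (-1) z) = f (sgw n s 1 1 z)
    rw [sgwB_eq hz2]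

end EndS

end

end Crest.Agent.R102.End416
end

-- ▼ part R102/SecAB_160

/-!
Row 102, MEL-SecAB (helper160): both sides of a Puiseux end.
-/

set_option autoImplicit false

open Set Filter Topology Metric
open scoped ComplexConjugate

noncomputable section

namespace Crest.Agent.R102.SecAB

open Crest.Agent.R102.T5 Crest.Agent.R102.A929 Crest.Agent.R102.B821
open Crest.Agent.R102.Spine Crest.Agent.R102.C0 Crest.Agent.R102.C1 Crest.Agent.R102.C1Sec963
open Crest.Agent.R102.M948 Crest.Agent.R102.T5R Crest.Agent.R102.T5R.P2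
open Crest.Agent.R102.Mel (SgZ SideZ Sheet sgB)
open Crest.Agent.R102.End416 (Es sg VW)
open Crest.Agent.R102.Pain416 (HD)

variable {q : C(ℂ, ℂ)} {η ρ r B : ℝ} {b φ p : ℂ × ℂ → ℂ} {m₀ : ℂ → ℂ}
  {V : Set ℂ} {θ H : ℂ → ℂ} {s : ℂ} {ε : ℝ} {Θ Hh : ℂ → ℂ} {h0 : ℝ}

/-! ### side A -/

theorem vext' (D : DataS q η ρ r B b φ p m₀ θ H h0) (hs : s.im = h0) (hε : 0 < ε) (hεl : ε < h0)
    (h1 : DifferentiableOn ℂ Θ (VS s ε)) (h2 : DifferentiableOn ℂ Hh (VS s ε))
    (h3 : ∀ z ∈ VS s ε, |z.im| < h0 → Θ z = θ z) (h4 : ∀ z ∈ VS s ε, |z.im| < h0 → Hh z = H z) :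
    VExt q η (Str h0 ∪ VS s ε) (P2.ext h0 θ Θ) (P2.ext h0 H Hh) := by
  have h00 : 0 < h0 := hε.trans hεl
  refine ⟨(isOpen_Str h0).union (isOpen_VS s ε), ?_, ?_, ?_, ?_, ?_, ?_⟩
  · refine IsPreconnected.union (s - Complex.I * ((ε / 2 : ℝ) : ℂ)) ?_ ?_
      (C1.convex_Str _).isPreconnected (VS_conn hε)
    · rw [mem_Str]
      have : (s - Complex.I * ((ε / 2 : ℝ) : ℂ)).im = h0 - ε / 2 := by simp [hs]
      rw [this, abs_lt]
      constructor <;> linarith
    · refine ⟨?_, ?_⟩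
      · have : s - Complex.I * ((ε / 2 : ℝ) : ℂ) - s = -(Complex.I * ((ε / 2 : ℝ) : ℂ)) := by ring
        rw [this, norm_neg, norm_mul, Complex.norm_I, one_mul, Complex.norm_real,
          Real.norm_of_nonneg (by positivity)]
        linarith
      · have : Complex.I * (s - Complex.I * ((ε / 2 : ℝ) : ℂ) - s) = ((ε / 2 : ℝ) : ℂ) := by
          have := Complex.I_sq
          linear_combination (-((ε / 2 : ℝ) : ℂ)) * this
        rw [this, Complex.mem_slitPlane_iff]
        left; simp; positivity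
  · intro z hz
    exact Or.inl (Str_mono D.le hz)
  · exact ext_diff D.ext.θ_diff h1 h3
  · exact ext_diff D.ext.H_diff h2 h4
  · intro z hz
    rw [ext_str (Str_mono D.le hz)]
    exact D.ext.θ_eq z hz
  · intro z hz
    rw [ext_str (Str_mono D.le hz)]
    exact D.ext.H_eq z hz

theorem exists_KKfam (D : DataS q η ρ r B b φ p m₀ θ H h0) (hs : s.im = h0) (hε : 0 < ε)
    (hεl : ε < h0) {θe He : ℂ → ℂ} (hV : VExt q η (Str h0 ∪ VS s ε) θe He) :
    ∃ X : ℂ × ℂ → ℂ, LeafLoc (kk θe He) (KK s h0 ε) X ∧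
      ∀ t ∈ KK s h0 ε, ∀ᶠ x in 𝓝 ((t, 0) : ℂ × ℂ), X (x.1, -x.2) = X x := by
  have h00 : 0 < h0 := hε.trans hεl
  obtain ⟨X₀, hX₀, hX₀b⟩ := glob D.fam hV (fun z hz => Or.inl hz) D.le
  obtain ⟨X, hX, hXX₀⟩ := grown hs hε hεl hX₀ (kloc D.fam.dat hV)
  have h0S : (0 : ℂ) ∈ Str h0 := by rw [mem_Str]; simpa using h00
  have h0ρ : (0 : ℂ) ∈ Str ρ := by rw [mem_Str]; simpa using D.fam.ρ_pos
  have hXb : ∀ᶠ p in 𝓝 ((0, 0) : ℂ × ℂ), X p = b p := by
    filter_upwards [hXX₀ 0 h0S, hX₀b 0 h0ρ] with p hp1 hp2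
    rw [hp1, hp2]
  have heven0 : ∀ᶠ p in 𝓝 ((0, 0) : ℂ × ℂ), X (p.1, -p.2) = X p := by
    have hc : Tendsto (fun p : ℂ × ℂ => (p.1, -p.2)) (𝓝 ((0, 0) : ℂ × ℂ)) (𝓝 ((0, 0) : ℂ × ℂ)) := by
      have : Continuous fun p : ℂ × ℂ => (p.1, -p.2) := by fun_prop
      have := this.tendsto ((0, 0) : ℂ × ℂ)
      simpa using this
    have hPD : PD ρ r ∈ 𝓝 ((0, 0) : ℂ × ℂ) := by
      have ho : IsOpen (PD ρ r) := by
        have : PD ρ r = {p : ℂ × ℂ | |p.1.im| < ρ} ∩ {p | ‖p.2‖ < r} := by ext p; simp [PD]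
        rw [this]
        refine IsOpen.inter (isOpen_lt ?_ continuous_const) (isOpen_lt ?_ continuous_const)
        · exact (Complex.continuous_im.comp continuous_fst).abs
        · exact continuous_snd.norm
      refine ho.mem_nhds ⟨by simpa using D.fam.ρ_pos, by simpa using D.fam.r_pos⟩
    filter_upwards [hXb, hc.eventually hXb, hPD] with p hp1 hp2 hp3
    rw [hp1, hp2]
    exact D.fam.b_even p.1 p.2 hp3
  exact ⟨X, hX, even_germ hX (KK_conn h00) (Or.inl h0S) heven0⟩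

/-! ### geometry -/

/-- the opening angle -/
def α₁ : ℝ := 1 / 100000

/-- the slope -/
def κ₁ : ℝ := Real.sin α₁

theorem α₁_pos : 0 < α₁ := by unfold α₁; norm_num

theorem α₁_pi : α₁ < Real.pi / 8 := by
  have := Real.pi_gt_three
  unfold α₁
  linarith

theorem κ₁_pos : 0 < κ₁ := Real.sin_pos_of_pos_of_lt_pi α₁_pos (by
  have := α₁_pi; have := Real.pi_pos; linarith)

theorem κ₁_le : κ₁ ≤ 1 / 100000 := Real.sin_le α₁_pos.le

/-- the initial sector, in `t`, `z = s + i t` -/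
theorem init_mem {ρ : ℝ} {t : ℂ} (ht : t ∈ Sct ρ (-(Real.pi / 2) - α₁) (-(Real.pi / 2) + α₁)) :
    t.im < 0 ∧ t.re ≤ 1 / 100000 * ‖t‖ ∧ -(1 / 100000 * ‖t‖) ≤ t.re := by
  obtain ⟨h1, h2, h3, h4⟩ := ht
  have hπ := Real.pi_pos
  have ha := α₁_pi
  have ha0 := α₁_pos
  have e1 : t.re = ‖t‖ * Real.cos (Complex.arg t) := (Complex.norm_mul_cos_arg t).symm
  have e2 : t.im = ‖t‖ * Real.sin (Complex.arg t) := (Complex.norm_mul_sin_arg t).symm
  have c1 : |Real.cos (Complex.arg t)| ≤ 1 / 100000 := by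
    have e3 : Real.cos (Complex.arg t) = Real.sin (Complex.arg t + Real.pi / 2) := by
      rw [Real.sin_add_pi_div_two]
    rw [e3]
    have h5 : |Complex.arg t + Real.pi / 2| ≤ α₁ := by
      rw [abs_le]; constructor <;> linarith
    have h6 : |Real.sin (Complex.arg t + Real.pi / 2)| ≤ |Complex.arg t + Real.pi / 2| :=
      Real.abs_sin_le_abs
    exact h6.trans h5
  have s1 : Real.sin (Complex.arg t) < 0 :=
    Real.sin_neg_of_neg_of_neg_pi_lt (by linarith) (by linarith)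
  rw [abs_le] at c1
  refine ⟨?_, ?_, ?_⟩
  · rw [e2]; exact mul_neg_of_pos_of_neg h1 s1
  · have := mul_le_mul_of_nonneg_left c1.2 h1.le
    rw [e1]; linarith
  · have := mul_le_mul_of_nonneg_left c1.1 h1.le
    rw [e1]; linarith

/-- the whole sector of side `B` -/
theorem full_mem {ρ : ℝ} {t : ℂ} (h0 : t ≠ 0) (hρ : ‖t‖ < ρ) (h : -t.re < κ₁ * ‖t‖) :
    t ∈ Sct ρ (-(Real.pi / 2) - α₁) (Real.pi / 2 + α₁) := by
  have h1 : 0 < ‖t‖ := norm_pos_iff.2 h0
  have hπ := Real.pi_pos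
  have ha := α₁_pi
  have ha0 := α₁_pos
  have e1 : t.re = ‖t‖ * Real.cos (Complex.arg t) := (Complex.norm_mul_cos_arg t).symm
  have c1 : Real.cos (Real.pi / 2 + α₁) < Real.cos |Complex.arg t| := by
    rw [Real.cos_abs, add_comm, Real.cos_add_pi_div_two]
    have h2 : -(‖t‖ * Real.cos (Complex.arg t)) < κ₁ * ‖t‖ := by rw [← e1]; exact h
    have h3 : -κ₁ < Real.cos (Complex.arg t) := by
      by_contra hc
      push Not at hc
      nlinarith
    exact h3
  have h4 : |Complex.arg t| < Real.pi / 2 + α₁ := by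
    by_contra hc
    push Not at hc
    have := Real.cos_le_cos_of_nonneg_of_le_pi (by linarith) (Complex.abs_arg_le_pi t) hc
    linarith
  rw [abs_lt] at h4
  exact ⟨h1, hρ, by linarith [h4.1], h4.2⟩

/-- the right overlap -/
theorem init_of {ρ : ℝ} {t : ℂ} (h0 : t ≠ 0) (hρ : ‖t‖ < ρ) (h : -t.re < κ₁ * ‖t‖)
    (h' : t.re < κ₁ * ‖t‖) (him : t.im < 0) :
    t ∈ Sct ρ (-(Real.pi / 2) - α₁) (-(Real.pi / 2) + α₁) := by
  have h1 : 0 < ‖t‖ := norm_pos_iff.2 h0
  have hπ := Real.pi_pos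
  have ha := α₁_pi
  have ha0 := α₁_pos
  obtain ⟨-, -, h2, h3⟩ := full_mem h0 hρ h
  refine ⟨h1, hρ, h2, ?_⟩
  have harg : Complex.arg t < 0 := Complex.arg_neg_iff.2 him
  have e1 : t.re = ‖t‖ * Real.cos (Complex.arg t) := (Complex.norm_mul_cos_arg t).symm
  have c1 : Real.cos |Complex.arg t| < Real.cos (Real.pi / 2 - α₁) := by
    rw [Real.cos_abs, Real.cos_pi_div_two_sub]
    rw [e1] at h'
    by_contra hc
    push Not at hc
    have : κ₁ ≤ Real.cos (Complex.arg t) := hc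
    nlinarith
  have h4 : Real.pi / 2 - α₁ < |Complex.arg t| := by
    by_contra hc
    push Not at hc
    have := Real.cos_le_cos_of_nonneg_of_le_pi (abs_nonneg _) (by linarith) hc
    linarith
  rw [abs_of_neg harg] at h4
  linarith

theorem VW_conn {R : ℝ} (hR : 0 < R) : IsPreconnected (VW s (-1) R) := by
  have himg : VW s (-1) R = (fun t : ℂ => s + Complex.I * t) '' Sct R (-Real.pi) Real.pi := by
    ext z
    constructor
    · rintro ⟨h1, h2⟩
      refine ⟨-(Complex.I * (z - s)), ?_, ?_⟩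
      · rw [neg_one_mul] at h2
        rw [Complex.mem_slitPlane_iff_arg] at h2
        have hz : z - s ≠ 0 := by
          intro h0
          rw [h0] at h2
          simp at h2
        have hn : ‖-(Complex.I * (z - s))‖ = ‖z - s‖ := by
          rw [norm_neg, norm_mul, Complex.norm_I, one_mul]
        refine ⟨by rw [hn]; exact norm_pos_iff.2 hz, by rw [hn]; exact h1, Complex.neg_pi_lt_arg _, ?_⟩
        exact lt_of_le_of_ne (Complex.arg_le_pi _) h2.1
      · simp only
        have := Complex.I_sq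
        linear_combination (-(z - s)) * this
    · rintro ⟨t, ⟨h1, h2, h3, h4⟩, rfl⟩
      refine ⟨?_, ?_⟩
      · simp only
        rw [add_sub_cancel_left, norm_mul, Complex.norm_I, one_mul]; exact h2
      · have e : -1 * (Complex.I * (s + Complex.I * t - s)) = t := by
          have := Complex.I_sq
          linear_combination (-t) * this
        simp only
        rw [e, Complex.mem_slitPlane_iff_arg]
        exact ⟨h4.ne, norm_pos_iff.1 h1⟩
  rw [himg]
  exact (Sct_conn le_rfl le_rfl).image _ (by fun_prop)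

theorem Sheet.mono {c : ℂ → ℂ} {V V' : Set ℂ} {a k : ℤ} {e g f : ℂ → ℂ} {θ H : ℂ → ℂ}
    (h : Sheet c V a k e g f θ H) (hV : V' ⊆ V) : Sheet c V' a k e g f θ H :=
  ⟨fun z hz => h.E z (hV hz), fun z hz => h.y z (hV hz), fun z hz => h.H z (hV hz)⟩

theorem SgZ_mono {a : ℂ} {ε ε' κ : ℝ} (h : ε' ≤ ε) : SgZ s a ε' κ ⊆ SgZ s a ε κ :=
  fun _ hz => ⟨hz.1, hz.2.1.trans_le h, hz.2.2⟩

theorem isOpen_SgZ {a : ℂ} {ε κ : ℝ} (ha : a ≠ 0) : IsOpen (SgZ s a ε κ) := by
  have : SgZ s a ε κ = {z | z ≠ s} ∩ ({z | ‖z - s‖ < ε} ∩ {z | ((z - s) / a).im < κ * ‖z - s‖}) := by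
    ext z; rfl
  rw [this]
  refine isOpen_ne.inter (IsOpen.inter (isOpen_lt (by fun_prop) continuous_const) ?_)
  refine isOpen_lt ?_ (by fun_prop)
  exact Complex.continuous_im.comp (by fun_prop)

theorem LZ.mono {V V' : Set ℂ} {θ H : ℂ → ℂ} (L : LZ V θ H) (ho : IsOpen V') (h : V' ⊆ V) :
    LZ V' θ H := ⟨ho, L.dθ.mono h, L.dH.mono h, fun z hz => L.rel z (h hz)⟩

set_option maxHeartbeats 1000000 in
theorem secAB : Mel.SecAB := by
  intro q η ρ r B b φ p m₀ θ H h0 D s n r₁ a k e g f hs hr E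
  have hRpos : 0 < r₁ ^ n := pow_pos E.r_pos n
  set R : ℝ := r₁ ^ n with hR
  have hsub : HD s R ⊆ Str h0 := by
    intro z hz
    have h1 := hz.1
    have h2 : z.im < s.im := hz.2
    rw [mem_ball, dist_eq_norm] at h1
    have h3 := (Complex.abs_im_le_norm (z - s)).trans_lt h1
    rw [Complex.sub_im, abs_lt] at h3
    rw [mem_Str, abs_lt]
    constructor
    · linarith [h3.1]
    · linarith
  have hθ : DifferentiableOn ℂ θ (HD s R) := D.ext.θ_diff.mono hsub
  have hκ1 := κ₁_le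
  have hκ0 := κ₁_pos
  obtain ⟨θA, HA, θB, HB, LA, LB, neA, neB, ShA, ShB, subA, subB, hA, hAB⟩ :=
    E.sheets hθ (ε := R / 2) (κ := κ₁) (by linarith) (by linarith)
  set ε : ℝ := R / 2 with hε
  have hεpos : 0 < ε := by positivity
  have hεl : ε < h0 := by linarith
  have hVSR : VS s ε ⊆ VW s 1 R := by
    intro z hz
    exact ⟨hz.1.trans (by linarith), by rw [one_mul]; exact hz.2⟩
  have hVSeq : ∀ z ∈ VS s ε, |z.im| < h0 → θA z = θ z ∧ HA z = H z := by
    intro z hz him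
    exact hA z (hVSR hz) (by rw [hs]; exact (abs_lt.1 him).2)
  have hV := vext' D hs hεpos hεl (LA.dθ.mono hVSR) (LA.dH.mono hVSR)
    (fun z hz h => (hVSeq z hz h).1) (fun z hz h => (hVSeq z hz h).2)
  set θe := P2.ext h0 θ θA with hθe
  set He := P2.ext h0 H HA with hHe
  have eqθ : EqOn θe θA (VS s ε) := fun z hz =>
    ext_VS (fun z hz h => (hVSeq z hz h).1) hz
  have eqH : EqOn He HA (VS s ε) := fun z hz =>
    ext_VS (fun z hz h => (hVSeq z hz h).2) hz
  obtain ⟨X, hX, hev⟩ := exists_KKfam D hs hεpos hεl hV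
  have hkA := kloc D.fam.dat hV
  -- the right half disc
  set T : Set ℂ := VS s ε ∩ {z | s.re < z.re} with hT
  have hTo : IsOpen T := (isOpen_VS s ε).inter (isOpen_lt continuous_const Complex.continuous_re)
  have eqθT : EqOn θe θB T := by
    intro z hz
    rw [eqθ hz.1, (hAB z (hz.1.1.trans (by linarith)) hz.2).1]
  have eqHT : EqOn He HB T := by
    intro z hz
    rw [eqH hz.1, (hAB z (hz.1.1.trans (by linarith)) hz.2).2]
  -- KLoc on side B
  have hkB : KLoc (VW s (-1) R) (kk θB HB) := by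
    set z₀ : ℂ := s + ((ε / 2 : ℝ) : ℂ) with hz₀
    have hz₀T : z₀ ∈ T := by
      refine ⟨⟨?_, ?_⟩, ?_⟩
      · rw [hz₀, add_sub_cancel_left, Complex.norm_real, Real.norm_of_nonneg (by positivity)]
        linarith
      · rw [hz₀, add_sub_cancel_left, Complex.mem_slitPlane_iff]
        right
        simp
        positivity
      · show s.re < z₀.re
        rw [hz₀, Complex.add_re, Complex.ofReal_re]
        linarith
    have hz₀V : z₀ ∈ VW s (-1) R := by
      refine ⟨?_, ?_⟩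
      · rw [hz₀, add_sub_cancel_left, Complex.norm_real, Real.norm_of_nonneg (by positivity)]
        linarith
      · rw [hz₀, add_sub_cancel_left, Complex.mem_slitPlane_iff]
        right
        simp
        positivity
    obtain ⟨s₁, hs₁, e₁, he₁, C₁, hC₁⟩ := hkA z₀ (Or.inr hz₀T.1)
    obtain ⟨s₂, hs₂, hsub₂⟩ := Metric.isOpen_iff.1 hTo z₀ hz₀T
    have hkm : KMap (ball z₀ (min s₁ (s₂ / 2))) (min e₁ (s₂ / 2)) C₁ (kk θB HB) := by
      have hkm1 := KMap.mono' hC₁ (ball_subset_ball (min_le_left s₁ (s₂ / 2)))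
        (min_le_left e₁ (s₂ / 2)) le_rfl
      have heq : ∀ y ∈ ball z₀ (min s₁ (s₂ / 2)), ∀ e : ℂ, ‖e‖ < min e₁ (s₂ / 2) →
          kk θB HB (y, e) = kk θe He (y, e) := by
        intro y hy e he
        have hy1 : dist y z₀ < s₂ / 2 := (mem_ball.1 hy).trans_le (min_le_right _ _)
        have he1 : ‖e‖ < s₂ / 2 := he.trans_le (min_le_right _ _)
        have hyT : y ∈ T := hsub₂ (by rw [mem_ball]; linarith)
        have hyeT : y + e ∈ T := by
          refine hsub₂ ?_
          rw [mem_ball, dist_eq_norm]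
          rw [dist_eq_norm] at hy1
          have e2 : y + e - z₀ = (y - z₀) + e := by ring
          rw [e2]
          refine (norm_add_le _ _).trans_lt (by linarith)
        have := kk_congr hTo eqθT eqHT hyT hyeT
        rw [add_sub_cancel_left] at this
        exact this.symm
      refine ⟨hkm1.diff.congr ?_, ?_⟩
      · rintro ⟨y, e⟩ ⟨hy, he⟩
        exact heq y hy e (by simpa using he)
      · intro y hy e he
        rw [heq y hy e he]
        exact hkm1.near y hy e he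
    exact kloc_of_LZ LB (VW_conn hRpos) hz₀V (by positivity) (by positivity) hkm
  -- leaf function of side B
  have hI : (Complex.I : ℂ) ≠ 0 := Complex.I_ne_zero
  have hII := Complex.I_sq
  set αl : ℝ := -(Real.pi / 2) - α₁ with hαl
  have hπ := Real.pi_pos
  have hα := α₁_pi
  have hα0 := α₁_pos
  have hinit : ∀ t ∈ Sct (ε / 4) αl (-(Real.pi / 2) + α₁), s + Complex.I * t ∈ KK s h0 ε ∧
      s + Complex.I * t ∈ T := by
    intro t ht
    obtain ⟨i1, i2, i3⟩ := init_mem ht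
    obtain ⟨j1, j2, -, -⟩ := ht
    have hn : ‖Complex.I * t‖ = ‖t‖ := by rw [norm_mul, Complex.norm_I, one_mul]
    constructor
    · have hε4 : (((ε / 4 : ℝ)) : ℂ) ≠ 0 := by
        exact_mod_cast (by positivity : (0 : ℝ) < ε / 4).ne'
      have e1 : Complex.I * t = ((ε / 4 : ℝ) : ℂ) * (Complex.I * t / ((ε / 4 : ℝ) : ℂ)) := by
        field_simp
      rw [e1]
      have hn2 : ‖Complex.I * t / ((ε / 4 : ℝ) : ℂ)‖ = ‖t‖ / (ε / 4) := by
        rw [norm_div, hn, Complex.norm_real, Real.norm_of_nonneg (by positivity)]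
      refine mem_KK hs hεpos hεl ?_ ?_ ?_
      · exact div_ne_zero (mul_ne_zero hI (norm_pos_iff.1 j1)) hε4
      · rw [hn2, div_le_one (by positivity)]
        exact j2.le
      · rw [hn2, Complex.div_ofReal_im]
        have e2 : (Complex.I * t).im = t.re := by simp
        rw [e2, ← mul_div_assoc]
        gcongr
    · refine ⟨⟨?_, ?_⟩, ?_⟩
      · rw [add_sub_cancel_left, hn]; linarith
      · rw [add_sub_cancel_left]
        have e1 : Complex.I * (Complex.I * t) = -t := by linear_combination t * hII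
        rw [e1, Complex.mem_slitPlane_iff]
        right
        rw [Complex.neg_im]
        exact (neg_pos.2 i1).ne'
      · show s.re < (s + Complex.I * t).re
        have e2 : (s + Complex.I * t).re = s.re - t.im := by simp; ring
        rw [e2]; linarith
  have hleaf0 : LeafLoc (kA s Complex.I (kk θB HB)) (Sct (ε / 4) αl (-(Real.pi / 2) + α₁))
      (xA s Complex.I X) := by
    have h1 : LeafLoc (kk θe He) (KK s h0 ε ∩ T) X := hX.mono inter_subset_left
    have h2 : LeafLoc (kk θB HB) (KK s h0 ε ∩ T) X := by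
      refine LeafLoc.congr_k h1 ?_
      intro c hc
      obtain ⟨σ, hσ, hσT⟩ := Metric.isOpen_iff.1 hTo c hc.2
      exact ⟨σ, hσ, fun x hx y hy => kk_congr hTo eqθT eqHT (hσT hx) (hσT hy)⟩
    exact (leafLoc_aff hI h2).mono fun t ht => hinit t ht
  have hkloc : KLoc (Sct (ε / 4) αl (Real.pi / 2 + 2 * α₁)) (kA s Complex.I (kk θB HB)) := by
    refine (kloc_aff hI hkB).mono ?_
    rintro t ⟨h1, h2, h3, h4⟩
    refine ⟨?_, ?_⟩
    · simp only
      rw [add_sub_cancel_left, norm_mul, Complex.norm_I, one_mul]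
      linarith
    · have e : -1 * (Complex.I * (s + Complex.I * t - s)) = t := by
        linear_combination (-t) * hII
      simp only
      rw [e, Complex.mem_slitPlane_iff_arg]
      exact ⟨(by linarith : Complex.arg t < Real.pi).ne, norm_pos_iff.1 h1⟩
  obtain ⟨ρ', hρ', hρ'le, X', hX', hX'g⟩ := sector (ρ := ε / 4) (α := αl)
    (β := -(Real.pi / 2) + α₁) (β₁ := Real.pi / 2 + α₁) (β₂ := Real.pi / 2 + 2 * α₁)
    (by positivity) (by rw [hαl]; linarith) (by rw [hαl]; linarith) (by linarith) (by linarith)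
    (by linarith) hkloc hleaf0
  -- back to `z`
  set XB : ℂ × ℂ → ℂ := xA (-s / Complex.I) Complex.I⁻¹ X' with hXB
  set KB : Set ℂ := (fun t : ℂ => -s / Complex.I + Complex.I⁻¹ * t) ⁻¹'
    (Sct ρ' αl (Real.pi / 2 + α₁)) with hKB
  have hXBl : LeafLoc (kk θB HB) KB XB := by
    have h1 := leafLoc_aff (s := -s / Complex.I) (inv_ne_zero hI) hX'
    rwa [kA_kA hI] at h1
  have hu : ∀ z : ℂ, -s / Complex.I + Complex.I⁻¹ * z = -(Complex.I * (z - s)) := by
    intro z
    rw [Complex.inv_I, div_eq_mul_inv, Complex.inv_I]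
    ring
  have hgerm : ∀ z : ℂ, -(Complex.I * (z - s)) ∈ Sct ρ' αl (-(Real.pi / 2) + α₁) →
      ∀ᶠ x in 𝓝 ((z, 0) : ℂ × ℂ), XB x = X x := by
    intro z hz
    have h1 := hX'g _ hz
    have hc : Tendsto (fun x : ℂ × ℂ => (-s / Complex.I + Complex.I⁻¹ * x.1, Complex.I⁻¹ * x.2))
        (𝓝 ((z, 0) : ℂ × ℂ)) (𝓝 ((-(Complex.I * (z - s)), 0) : ℂ × ℂ)) := by
      have hcont : Continuous (fun x : ℂ × ℂ =>
          (-s / Complex.I + Complex.I⁻¹ * x.1, Complex.I⁻¹ * x.2)) := by fun_prop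
      have h2 := hcont.tendsto ((z, 0) : ℂ × ℂ)
      simp only [mul_zero] at h2
      rw [hu] at h2
      exact h2
    filter_upwards [hc.eventually h1] with x hx
    have h3 := congrFun (xA_xA (s := s) (X := X) hI) x
    rw [← h3, hXB]
    unfold xA at hx ⊢
    simp only at hx ⊢
    rw [hx]
  have hKBconn : IsPreconnected KB := by
    have himg : KB = (fun t : ℂ => s + Complex.I * t) '' Sct ρ' αl (Real.pi / 2 + α₁) := by
      ext z
      constructor
      · intro hz
        have hz' : -s / Complex.I + Complex.I⁻¹ * z ∈ Sct ρ' αl (Real.pi / 2 + α₁) := hz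
        rw [hu] at hz'
        refine ⟨_, hz', ?_⟩
        simp only
        linear_combination (-(z - s)) * hII
      · rintro ⟨t, ht, rfl⟩
        change -s / Complex.I + Complex.I⁻¹ * (s + Complex.I * t) ∈
          Sct ρ' αl (Real.pi / 2 + α₁)
        rw [hu]
        have e : -(Complex.I * (s + Complex.I * t - s)) = t := by linear_combination (-t) * hII
        rw [e]; exact ht
    rw [himg]
    exact (Sct_conn (by rw [hαl]; linarith) (by linarith)).image _ (by fun_prop)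
  have hovl : ∀ t : ℂ, t ∈ Sct ρ' αl (-(Real.pi / 2) + α₁) → s + Complex.I * t ∈ KB := by
    intro t ht
    change -s / Complex.I + Complex.I⁻¹ * (s + Complex.I * t) ∈
      Sct ρ' αl (Real.pi / 2 + α₁)
    rw [hu]
    have e : -(Complex.I * (s + Complex.I * t - s)) = t := by linear_combination (-t) * hII
    rw [e]
    exact Sct_mono le_rfl le_rfl (by linarith) ht
  have hevB : ∀ t ∈ KB, ∀ᶠ x in 𝓝 ((t, 0) : ℂ × ℂ), XB (x.1, -x.2) = XB x := by
    -- base point
    set t₀ : ℂ := -(Complex.I * ((ρ' / 2 : ℝ) : ℂ)) with ht₀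
    have ht₀n : ‖t₀‖ = ρ' / 2 := by
      rw [ht₀, norm_neg, norm_mul, Complex.norm_I, one_mul, Complex.norm_real,
        Real.norm_of_nonneg (by positivity)]
    have ht₀re : t₀.re = 0 := by rw [ht₀]; simp
    have ht₀im : t₀.im < 0 := by rw [ht₀]; simp; positivity
    have ht₀S : t₀ ∈ Sct ρ' αl (-(Real.pi / 2) + α₁) := by
      have hpos : 0 < κ₁ * ‖t₀‖ := by rw [ht₀n]; positivity
      refine init_of ?_ (by rw [ht₀n]; linarith) (by rw [ht₀re]; linarith) (by rw [ht₀re]; linarith)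
        ht₀im
      rw [← norm_pos_iff, ht₀n]; positivity
    set z₁ : ℂ := s + Complex.I * t₀ with hz₁
    have hz₁u : -(Complex.I * (z₁ - s)) = t₀ := by
      rw [hz₁]; linear_combination (-t₀) * hII
    have hz₁K : z₁ ∈ KK s h0 ε := (hinit t₀ (Sct_mono hρ'le le_rfl le_rfl ht₀S)).1
    have hg := hgerm z₁ (by rw [hz₁u]; exact ht₀S)
    have hc : Tendsto (fun p : ℂ × ℂ => (p.1, -p.2)) (𝓝 ((z₁, 0) : ℂ × ℂ)) (𝓝 ((z₁, 0) : ℂ × ℂ)) := by
      have : Continuous fun p : ℂ × ℂ => (p.1, -p.2) := by fun_prop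
      have := this.tendsto ((z₁, 0) : ℂ × ℂ)
      simpa using this
    refine even_germ hXBl hKBconn (hovl t₀ ht₀S) ?_
    filter_upwards [hg, hc.eventually hg, hev z₁ hz₁K] with x h1 h2 h3
    rw [h1, h2, h3]
  -- membership
  have hmemA : ∀ z ∈ SgZ s 1 (ε / 4) κ₁, z ∈ KK s h0 ε ∧ z ∈ VS s ε := by
    rintro z ⟨h1, h2, h3⟩
    rw [div_one] at h3
    have hz : z - s ≠ 0 := sub_ne_zero.2 h1
    have hε4 : (((ε / 4 : ℝ)) : ℂ) ≠ 0 := by
      exact_mod_cast (by positivity : (0 : ℝ) < ε / 4).ne'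
    have e1 : z = s + ((ε / 4 : ℝ) : ℂ) * ((z - s) / ((ε / 4 : ℝ) : ℂ)) := by
      field_simp; ring
    have hn2 : ‖(z - s) / ((ε / 4 : ℝ) : ℂ)‖ = ‖z - s‖ / (ε / 4) := by
      rw [norm_div, Complex.norm_real, Real.norm_of_nonneg (by positivity)]
    constructor
    · rw [e1]
      refine mem_KK hs hεpos hεl (div_ne_zero hz hε4) ?_ ?_
      · rw [hn2, div_le_one (by positivity)]
        exact h2.le
      · rw [hn2, Complex.div_ofReal_im, ← mul_div_assoc]
        have := norm_nonneg (z - s)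
        gcongr
        nlinarith
    · refine ⟨by linarith, slit_of hz ?_⟩
      have := norm_pos_iff.2 hz
      nlinarith
  have hmemB : ∀ z ∈ SgZ s (-1) ρ' κ₁, z ∈ KB := by
    rintro z ⟨h1, h2, h3⟩
    have hz : z - s ≠ 0 := sub_ne_zero.2 h1
    change -s / Complex.I + Complex.I⁻¹ * z ∈ Sct ρ' αl (Real.pi / 2 + α₁)
    rw [hu]
    have hn : ‖-(Complex.I * (z - s))‖ = ‖z - s‖ := by
      rw [norm_neg, norm_mul, Complex.norm_I, one_mul]
    refine full_mem (neg_ne_zero.2 (mul_ne_zero hI hz)) (by rw [hn]; exact h2) ?_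
    rw [hn]
    have e : -(-(Complex.I * (z - s))).re = ((z - s) / (-1)).im := by
      rw [div_neg, div_one, Complex.neg_im]
      simp only [Complex.neg_re, Complex.mul_re, Complex.I_re, Complex.I_im, zero_mul, one_mul,
        zero_sub, neg_neg]
    rw [e]; exact h3
  set εf : ℝ := min (ε / 4) ρ' with hεf
  have hεfpos : 0 < εf := by positivity
  have hεf1 : εf ≤ ε / 4 := min_le_left _ _
  have hεf2 : εf ≤ ρ' := min_le_right _ _
  have sA : SgZ s 1 εf κ₁ ⊆ SgZ s 1 ε κ₁ := SgZ_mono (by linarith)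
  have sB : SgZ s (-1) εf κ₁ ⊆ SgZ s (-1) ε κ₁ := SgZ_mono (by linarith)
  refine ⟨εf, κ₁, θA, HA, θB, HB, X, XB, by linarith, by linarith, ?_, ?_, Sheet.mono ShA sA,
    Sheet.mono ShB sB, ?_, ?_⟩
  · refine ⟨Or.inl rfl, hεfpos, hκ0, by linarith, LZ.mono LA (isOpen_SgZ one_ne_zero)
      (sA.trans subA), fun z hz => neA z (subA (sA hz)), ?_, ?_⟩
    · have h1 : LeafLoc (kk θe He) (SgZ s 1 εf κ₁) X :=
        hX.mono fun z hz => (hmemA z (SgZ_mono hεf1 hz)).1
      refine LeafLoc.congr_k h1 ?_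
      intro c hc
      obtain ⟨σ, hσ, hσT⟩ := Metric.isOpen_iff.1 (isOpen_VS s ε) c
        (hmemA c (SgZ_mono hεf1 hc)).2
      exact ⟨σ, hσ, fun x hx y hy => kk_congr (isOpen_VS s ε) eqθ eqH (hσT hx) (hσT hy)⟩
    · intro t ht
      exact hev t (hmemA t (SgZ_mono hεf1 ht)).1
  · refine ⟨Or.inr rfl, hεfpos, hκ0, by linarith, LZ.mono LB (isOpen_SgZ (by norm_num))
      (sB.trans subB), fun z hz => neB z (subB (sB hz)), ?_, ?_⟩
    · exact hXBl.mono fun z hz => hmemB z (SgZ_mono hεf2 hz)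
    · intro t ht
      exact hevB t (hmemB t (SgZ_mono hεf2 ht))
  · intro z hz him
    exact hA z (subA (sA hz)) (by rw [hs]; exact him)
  · intro z hzA hzB hre
    have hn1 : ‖z - s‖ < R := lt_of_lt_of_le hzA.2.1 (by linarith)
    have hre' : s.re < z.re := by
      rw [Complex.sub_re] at hre; linarith
    refine ⟨(hAB z hn1 hre').1, (hAB z hn1 hre').2, ?_⟩
    refine hgerm z ?_
    have hz : z - s ≠ 0 := sub_ne_zero.2 hzA.1
    have hn : ‖-(Complex.I * (z - s))‖ = ‖z - s‖ := by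
      rw [norm_neg, norm_mul, Complex.norm_I, one_mul]
    have h3 := hzA.2.2
    have h4 := hzB.2.2
    rw [div_one] at h3
    refine init_of (neg_ne_zero.2 (mul_ne_zero hI hz)) (by rw [hn]; exact lt_of_lt_of_le hzA.2.1 hεf2)
      ?_ ?_ ?_
    · rw [hn]
      have e : -(-(Complex.I * (z - s))).re = ((z - s) / (-1)).im := by
        rw [div_neg, div_one, Complex.neg_im]
        simp only [Complex.neg_re, Complex.mul_re, Complex.I_re, Complex.I_im, zero_mul, one_mul,
          zero_sub, neg_neg]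
      rw [e]; exact h4
    · rw [hn]
      have e : (-(Complex.I * (z - s))).re = (z - s).im := by
        simp only [Complex.neg_re, Complex.mul_re, Complex.I_re, Complex.I_im, zero_mul, one_mul,
          zero_sub, neg_neg]
      rw [e]; exact h3
    · have e : (-(Complex.I * (z - s))).im = -(z - s).re := by simp
      rw [e]; linarith

end Crest.Agent.R102.SecAB
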