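import Crest.Agent.R102.T5Defs_160

/-!
Row 102, T5-RED (helper160): weaker input for the cone: the family is needed on the sector only at
macroscopic distance, and on a narrow cone straight down for small `t`.
-/

set_option autoImplicit false

open Set Filter Topology Metric
open scoped ComplexConjugate

noncomputable section

namespace Crest.Agent.R102.T5R

/-- points where the family is needed -/
def Dm (κ' a : ℝ) : Set ℂ :=
  {t | (t ∈ Sg κ' ∧ 1 / 8 < ‖t‖) ∨ (|t.re| < -t.im / 4 ∧ a < ‖t‖ ∧ ‖t‖ < 1)}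

/-- the family near the end (weak form): `r a` = radius in `w` for `t ∈ Dm κ' a` -/
structure FamN (κ' : ℝ) (Ψ : ℂ → ℂ → ℂ) (r B : ℝ → ℝ) (X : ℂ × ℂ → ℂ) : Prop where
  r_pos : ∀ a : ℝ, 0 < a → 0 < r a
  diff : ∀ a : ℝ, 0 < a → DifferentiableOn ℂ X {p | p.1 ∈ Dm κ' a ∧ ‖p.2‖ < r a}
  near : ∀ a : ℝ, 0 < a → ∀ t w : ℂ, t ∈ Dm κ' a → ‖w‖ < r a →
    ‖X (t, w) - t‖ ≤ B a * ‖w‖ ^ 2
  even : ∀ a : ℝ, 0 < a → ∀ t w : ℂ, t ∈ Dm κ' a → ‖w‖ < r a → X (t, -w) = X (t, w)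
  el : ∀ a : ℝ, 0 < a → ∀ t w : ℂ, t ∈ Dm κ' a → t - w ∈ Dm κ' a → t + w ∈ Dm κ' a →
    ‖w‖ < r a → EL Ψ (X (t - w, w)) (X (t, w)) (X (t + w, w)) = 0






end Crest.Agent.R102.T5R
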