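import Crest.Agent.R102.T5Cone_160
import Crest.Agent.R102.T5DefsN_160

/-!
Row 102, T5-L2 (helper160): `T5R.NDM → T5R.ConeN` (weak input).
-/

set_option autoImplicit false

open Set Filter Topology Metric

noncomputable section

namespace Crest.Agent.R102.T5R

namespace L2N

open L2

/-! ### Part 4: the family at macroscopic points -/


/-- good points -/
structure Gd (κ' a : ℝ) (S : ℂ) : Prop where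
  dm : S ∈ Dm κ' a
  low : a < ‖S‖
  up : ‖S‖ < 13 / 16
  im : S.im ≤ κ' / 5 * ‖S‖




/-! ### Part 5: the outward half plane and the orbit family -/

/-- parameters of the construction -/
structure Par (κ' κ₂ ρ C c A B A₀ B₀ : ℝ) (Ψ : ℂ → ℂ → ℂ) (G : ℂ × ℂ → ℂ) (r Bf : ℝ → ℝ)
    (X : ℂ × ℂ → ℂ) : Prop where
  nds : NDS κ₂ ρ C Ψ G
  fam : FamN κ' Ψ r Bf X
  κ'_pos : 0 < κ'
  κ_lt : κ' < κ₂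
  κ_lt1 : κ₂ < 1
  c_pos : 0 < c
  c_le : c ≤ 1 / 64
  A_pos : 0 < A
  B_pos : 0 < B
  orb : ∀ (T₀ w : ℂ) (g₀ : ℝ) (k : ℕ) (p₀ : ℂ × ℂ), Ref κ' c T₀ w g₀ k →
      ‖p₀.2 + w‖ ≤ A₀ * ‖w‖ ^ 3 → ‖p₀.1 - T₀‖ ≤ B₀ * ‖w‖ ^ 2 → ∀ j : ℕ, j ≤ k →
        ‖((stp G)^[j] p₀).2 + w‖ * (g₀ - j * ‖w‖) ^ 2 ≤ A * ‖w‖ ^ 3 ∧
        ‖((stp G)^[j] p₀).1 - (T₀ - j * w)‖ * (g₀ - j * ‖w‖) ≤ B * ‖w‖ ^ 2 ∧
        ((stp G)^[j] p₀).1 ∈ Rg κ₂ ∧ ‖((stp G)^[j] p₀).2‖ < ρ * ‖((stp G)^[j] p₀).1‖ ∧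
        ‖((stp G)^[j] p₀).1 - (T₀ - j * w)‖ ≤ (g₀ - j * ‖w‖) / 8 ∧
        ‖((stp G)^[j] p₀).2‖ ≤ 2 * ‖w‖
  stb : ∀ T w : ℂ, 1 / 4 < ‖T‖ → ‖T‖ < 3 / 4 → T.im ≤ κ' / 5 * ‖T‖ → w ≠ 0 →
      ‖w‖ < c → ‖(start X T w).2 + w‖ ≤ A₀ * ‖w‖ ^ 3 ∧ ‖(start X T w).1 - T‖ ≤ B₀ * ‖w‖ ^ 2
  sm : ∀ W : ℝ, 0 ≤ W → W < c → Sm κ' ρ r Bf (1 / 8) W

section par

variable {κ' κ₂ ρ C c A B A₀ B₀ : ℝ} {Ψ : ℂ → ℂ → ℂ} {G : ℂ × ℂ → ℂ} {r Bf : ℝ → ℝ}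
    {X : ℂ × ℂ → ℂ}

/-- downward directions -/
def Dn (w : ℂ) : Prop := |w.re| < -w.im / 9

theorem Dn.out {w : ℂ} (hκ' : 0 < κ') (h : Dn w) : Out κ' w := by
  unfold Dn at h
  unfold Out
  have h1 := abs_nonneg w.re
  have : 0 ≤ κ' / 10 * |w.re| := by positivity
  linarith


















/-! ### Part 6: gluing the two half planes -/









end par

end L2N


end Crest.Agent.R102.T5R
end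
namespace Crest.Agent.R102.T5R.L2N.Par
end Crest.Agent.R102.T5R.L2N.Par
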