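import Crest.Agent.R102.T5L4F_346
import Crest.Agent.R102.T5Defs_160
import Crest.Agent.R266.SCV

-- ▼ part R102/T5L4I_346
section

/-!
# Row 102, [T5], L4I: the limit of `PsiQ q` at an isotropic end (helper346)
-/

set_option autoImplicit false

open Set Filter Topology Metric

noncomputable section

namespace Crest.Agent.R102.T5R.L4346

open Crest.Agent.R102.T5R

section Iso

variable {κ κ' c₀ c β C B : ℝ} {q : ℂ → ℂ} {x y v : ℂ}

lemma tendsto_lx (S : Sm κ κ' c₀ c β C B q) (h : (x, y) ∈ DD0 κ' c₀) :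
    Tendsto (fun l : ℝ => (l : ℂ) * x) (𝓝[>] 0) (𝓝[Sg κ] 0) := by
  rw [tendsto_nhdsWithin_iff]
  constructor
  · have h1 : Continuous (fun l : ℝ => (l : ℂ) * x) := by fun_prop
    have h2 := h1.tendsto 0
    simp only [Complex.ofReal_zero, zero_mul] at h2
    exact h2.mono_left nhdsWithin_le_nhds
  · filter_upwards [ev_mem h] with l hl
    exact S.mem1 hl.1

lemma ph_lim_iso (S : Sm κ κ' c₀ c β C B q) (h : (x, y) ∈ DD0 κ' c₀) {a : ℂ}
    (ha : Tendsto (fun τ => τ * Complex.exp (q τ)) (𝓝[Sg κ] 0) (𝓝 a)) :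
    Tendsto (fun l : ℝ => ph q ((l : ℂ) * x, (l : ℂ) * y)) (𝓝[>] 0) (𝓝 ((y / x - 1) * a)) := by
  have hx : x ≠ 0 := h.1
  have h1 := (ha.comp (tendsto_lx S h)).const_mul (y / x - 1)
  refine h1.congr (fun l => ?_)
  unfold ph
  simp only [Function.comp]
  field_simp

lemma E0_neg_one (hv : ‖v - 1‖ < 1 / 4) (hv1 : v ≠ 1) {t : ℝ} (ht : t ∈ Icc (0 : ℝ) 1) :
    E0 (-1) v t = lz v t / (v - 1) := by
  have hsub : uIcc (0 : ℝ) t ⊆ Icc (0 : ℝ) 1 := by
    rw [uIcc_of_le ht.1]; exact Icc_subset_Icc_right ht.2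
  have hv1' : v - 1 ≠ 0 := sub_ne_zero.2 hv1
  unfold E0
  rw [intervalIntegral.integral_eq_sub_of_hasDerivAt (f := fun s => lz v s / (v - 1))]
  · rw [lz_zero, zero_div, sub_zero]
  · intro s hs
    have h1 := (lz_hasDerivAt hv (hsub hs)).div_const (v - 1)
    refine h1.congr_deriv ?_
    rw [neg_one_mul, Complex.exp_neg, exp_lz hv (hsub hs)]
    have h3 := Complex.slitPlane_ne_zero (zeta_slit hv (hsub hs))
    field_simp
  · apply ContinuousOn.intervalIntegrable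
    exact Complex.continuous_exp.comp_continuousOn (continuousOn_const.mul ((lz_cont hv).mono hsub))

lemma iso_A (hv : ‖v - 1‖ < 1 / 4) (hv1 : v ≠ 1) (φ : ℂ) :
    I0 (-1) v GA φ = (v ^ 3 - 1) / (3 * (v - 1)) := by
  have hv0 : v ≠ 0 := by
    rintro rfl
    norm_num at hv
  have h3 : Complex.exp ((2 + 1) * Complex.log v) = v ^ 3 := by
    rw [show (2 + 1 : ℂ) * Complex.log v = ((3 : ℕ) : ℂ) * Complex.log v by push_cast; ring,
      Complex.exp_nat_mul, Complex.exp_log hv0]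
  have h4 : I0 (-1) v GA φ = ∫ s in (0 : ℝ)..1, Complex.exp ((2 : ℂ) * lz v s) := by
    unfold I0
    refine intervalIntegral.integral_congr (fun s _ => ?_)
    simp only [GA, mul_one]
    ring_nf
  rw [h4, int_pow hv hv1 (a := (2 : ℂ)) (by norm_num) (by simp), lz_one, h3]
  norm_num

lemma iso_P (hv : ‖v - 1‖ < 1 / 4) (hv1 : v ≠ 1) {j a : ℂ} {b : ℝ} (hb : 3 + b ≠ 0)
    (hj : j * a = b) :
    I0 (-1) v (Gj j) ((v - 1) * a) = (v ^ ((3 + b : ℝ) : ℂ) - 1) / ((3 + b) * (v - 1)) := by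
  have hv0 : v ≠ 0 := by
    rintro rfl
    norm_num at hv
  have hv1' : v - 1 ≠ 0 := sub_ne_zero.2 hv1
  have hb' : (3 : ℂ) + b ≠ 0 := by exact_mod_cast hb
  have h4 : I0 (-1) v (Gj j) ((v - 1) * a) =
      ∫ s in (0 : ℝ)..1, Complex.exp ((2 + b : ℂ) * lz v s) := by
    unfold I0
    refine intervalIntegral.integral_congr (fun s hs => ?_)
    rw [uIcc_of_le zero_le_one] at hs
    simp only [Gj]
    rw [E0_neg_one hv hv1 hs, ← Complex.exp_add]
    congr 1
    rw [← hj]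
    field_simp
  rw [h4, int_pow hv hv1 (a := (2 + b : ℂ)) (by convert hb' using 1; ring) (by simp), lz_one,
    Complex.cpow_def_of_ne_zero hv0]
  push_cast
  ring_nf

end Iso

/-- **L4I** -/
theorem psiIso : PsiIso := by
  intro κ κ' β C m s q hκ' hκ hq hm hm3 hs hlim0
  obtain ⟨c₀, B, S⟩ := exists_Sm hκ' hκ hq le_rfl
  obtain ⟨M, hM⟩ := S.endPsi
  refine ⟨c₀, M, hM, fun x y h => ?_⟩
  by_cases hxy : y = x
  · subst hxy
    simp [PsiQ, Psi0I]
  have hx : x ≠ 0 := h.1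
  set v := y / x with hvd
  have hv : ‖v - 1‖ < 1 / 4 := v_near S h
  have hv1 : v ≠ 1 := by
    intro h1
    rw [hvd, div_eq_one_iff_eq hx] at h1
    exact hxy h1
  have hv1' : v - 1 ≠ 0 := sub_ne_zero.2 hv1
  set a : ℂ := s * Complex.I * m with ha
  have hmc : (m : ℂ) ≠ 0 := by exact_mod_cast hm.ne'
  have hs2 : s ^ 2 = 1 := by rcases hs with rfl | rfl <;> norm_num
  have hs0 : s ≠ 0 := by rcases hs with rfl | rfl <;> norm_num
  have ha2 : a ^ 2 = -(m : ℂ) ^ 2 := by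
    rw [ha, mul_pow, mul_pow, hs2, Complex.I_sq]; ring
  have ha0 : a ≠ 0 := mul_ne_zero (mul_ne_zero hs0 Complex.I_ne_zero) hmc
  have hφ := ph_lim_iso S h hlim0
  rw [← hvd] at hφ
  have hA := S.II_lim h GA_diff.continuous hφ
  have hQ := S.QQ_lim h hφ
  rw [← hvd] at hA hQ
  have hneg : ((-1 : ℝ) : ℂ) = -1 := by push_cast; ring
  rw [hneg] at hA hQ
  rw [iso_A hv hv1] at hA
  have hlim : Tendsto (fun l : ℝ => 4 * (II q GA ((l : ℂ) * x, (l : ℂ) * y) -
      QQ q ((l : ℂ) * x, (l : ℂ) * y)) / ph q ((l : ℂ) * x, (l : ℂ) * y) ^ 2) (𝓝[>] 0)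
      (𝓝 (4 * ((v ^ 3 - 1) / (3 * (v - 1)) - (I0 (-1) v (Gj Complex.I) ((v - 1) * a) ^ (1 / 2 : ℂ) *
        I0 (-1) v (Gj (-Complex.I)) ((v - 1) * a) ^ (1 / 2 : ℂ))) / ((v - 1) * a) ^ 2)) :=
    ((hA.sub hQ).const_mul 4).div (hφ.pow 2) (pow_ne_zero 2 (mul_ne_zero hv1' ha0))
  have hval : 4 * ((v ^ 3 - 1) / (3 * (v - 1)) -
      (I0 (-1) v (Gj Complex.I) ((v - 1) * a) ^ (1 / 2 : ℂ) *
        I0 (-1) v (Gj (-Complex.I)) ((v - 1) * a) ^ (1 / 2 : ℂ))) / ((v - 1) * a) ^ 2 =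
      Psi0I m x y := by
    unfold Psi0I
    rw [if_neg hxy, ← hvd]
    have hm3' : 3 + -m ≠ 0 := fun h => hm3 (by linarith)
    have hm3'' : 3 + m ≠ 0 := by linarith
    have hprod : I0 (-1) v (Gj Complex.I) ((v - 1) * a) ^ (1 / 2 : ℂ) *
        I0 (-1) v (Gj (-Complex.I)) ((v - 1) * a) ^ (1 / 2 : ℂ) =
        ((v ^ ((3 + m : ℝ) : ℂ) - 1) / ((3 + m) * (v - 1))) ^ (1 / 2 : ℂ) *
          ((v ^ ((3 - m : ℝ) : ℂ) - 1) / ((3 - m) * (v - 1))) ^ (1 / 2 : ℂ) := by
      have hI : Complex.I ^ 2 = -1 := Complex.I_sq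
      rcases hs with hs | hs
      · have j1 : Complex.I * a = ((-m : ℝ) : ℂ) := by
          rw [ha, hs]; push_cast; linear_combination (m : ℂ) * hI
        have j2 : -Complex.I * a = (m : ℂ) := by
          rw [ha, hs]; linear_combination -(m : ℂ) * hI
        rw [iso_P hv hv1 hm3' j1, iso_P hv hv1 hm3'' j2, mul_comm]
        congr 3
        push_cast; ring
      · have j1 : Complex.I * a = (m : ℂ) := by
          rw [ha, hs]; linear_combination -(m : ℂ) * hI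
        have j2 : -Complex.I * a = ((-m : ℝ) : ℂ) := by
          rw [ha, hs]; push_cast; linear_combination (m : ℂ) * hI
        rw [iso_P hv hv1 hm3'' j1, iso_P hv hv1 hm3' j2]
        congr 3
        push_cast; ring
    rw [hprod, mul_pow, ha2]
    unfold ellI
    field_simp
  rw [hval] at hlim
  refine hlim.congr' ?_
  filter_upwards [self_mem_nhdsWithin] with l hl
  have hl0 : (l : ℂ) ≠ 0 := by
    have : (0 : ℝ) < l := hl
    exact_mod_cast this.ne'
  rw [PsiQ_eq, if_neg (fun h1 => hxy (mul_left_cancel₀ hl0 h1)), ph_sq]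

end Crest.Agent.R102.T5R.L4346
end
end

-- ▼ part R102/T5L5F_756
section

/-!
# Row 102, part (C), [T5], leaf L5F: the flat law (helper756)

`aN` facts (analytic at `0`, derivative `n (n-1)/2`) and `LawF`.
-/

set_option autoImplicit false

open Set Filter Topology Metric
open scoped ComplexConjugate

noncomputable section

namespace Crest.Agent.R102.T5L5F756

open Crest.Agent.R102.T5R

/-! ### the function `(e^z - 1)/z` -/

def phi (z : ℂ) : ℂ := dslope Complex.exp 0 z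

theorem phi_diff : Differentiable ℂ phi := by
  have h : Differentiable ℂ (dslope Complex.exp 0) := by
    rw [← differentiableOn_univ, Complex.differentiableOn_dslope Filter.univ_mem,
      differentiableOn_univ]
    exact Complex.differentiable_exp
  exact h

theorem phi_zero : phi 0 = 1 := by
  unfold phi
  rw [dslope_same, Complex.deriv_exp, Complex.exp_zero]

theorem phi_mul (z : ℂ) : z * phi z = Complex.exp z - 1 := by
  have h := sub_smul_dslope Complex.exp 0 z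
  simpa [phi] using h

theorem phi_of_ne {z : ℂ} (hz : z ≠ 0) : phi z = (Complex.exp z - 1) / z := by
  rw [← phi_mul z]; field_simp

theorem phi_deriv : HasDerivAt phi (1 / 2) 0 := by
  rw [hasDerivAt_iff_isLittleO]
  have hO : (fun z : ℂ => phi z - phi 0 - (z - 0) • (1 / 2 : ℂ)) =O[𝓝 0] fun z => ‖z - 0‖ ^ 2 := by
    refine Asymptotics.IsBigO.of_bound 1 ?_
    filter_upwards [ball_mem_nhds (0 : ℂ) one_pos] with z hz
    rw [mem_ball_zero_iff] at hz
    by_cases h0 : z = 0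
    · subst h0; simp
    have hb := Complex.exp_bound (x := z) hz.le (n := 3) (by norm_num)
    have e : phi z - phi 0 - (z - 0) • (1 / 2 : ℂ) =
        (Complex.exp z - ∑ m ∈ Finset.range 3, z ^ m / (m.factorial : ℂ)) / z := by
      rw [phi_of_ne h0, phi_zero, Finset.sum_range_succ, Finset.sum_range_succ,
        Finset.sum_range_succ, Finset.sum_range_zero]
      simp only [Nat.factorial, smul_eq_mul]
      field_simp
      push_cast
      ring
    rw [e, norm_div, sub_zero]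
    have hz0 : 0 < ‖z‖ := norm_pos_iff.2 h0
    rw [div_le_iff₀ hz0]
    refine hb.trans ?_
    have : ‖(‖z‖ ^ 2 : ℝ)‖ = ‖z‖ ^ 2 := by simp
    rw [this]
    norm_num [Nat.factorial]
    nlinarith [pow_pos hz0 3]
  refine hO.trans_isLittleO ?_
  have := Asymptotics.isLittleO_norm_pow_id (E' := ℂ) (n := 2) (by norm_num)
  simpa using this

theorem aN_eq (n : ℝ) (r : ℂ) : aN n r = n * phi (n * r) / phi r := by
  unfold aN
  split_ifs with h
  · subst h; simp [phi_zero]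
  · have h1 := phi_mul (n * r)
    have h2 := phi_mul r
    rw [← h1, ← h2]
    by_cases h3 : phi r = 0
    · rw [h3]; simp
    · field_simp

theorem aN_hasDerivAt (n : ℝ) : HasDerivAt (aN n) ((n : ℂ) * (n - 1) / 2) 0 := by
  have e : aN n = fun r => n * phi (n * r) / phi r := funext (aN_eq n)
  rw [e]
  have h1 : HasDerivAt (fun r : ℂ => (n : ℂ) * r) (n : ℂ) 0 := by
    simpa using (hasDerivAt_id (0 : ℂ)).const_mul (n : ℂ)
  have h2 : HasDerivAt (fun r : ℂ => phi (n * r)) ((1 / 2 : ℂ) * n) 0 := by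
    have : HasDerivAt phi (1 / 2) ((n : ℂ) * 0) := by rw [mul_zero]; exact phi_deriv
    exact this.comp 0 h1
  have h3 : HasDerivAt (fun r : ℂ => (n : ℂ) * phi (n * r) / phi r) _ 0 :=
    (h2.const_mul (n : ℂ)).div phi_deriv (by rw [phi_zero]; exact one_ne_zero)
  refine h3.congr_deriv ?_
  rw [mul_zero, phi_zero]
  ring


theorem aN_zero (n : ℝ) : aN n 0 = n := by simp [aN]

theorem aN_of_ne (n : ℝ) {r : ℂ} (h : r ≠ 0) :
    aN n r = (Complex.exp (n * r) - 1) / (Complex.exp r - 1) := by simp [aN, h]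

/-! ### the derivative of `ellF` -/

theorem ellF_law {c : ℝ} (hc1 : -1 < c) (h12 : c ≠ 1 / 2) (h2 : c ≠ 2) {v r : ℂ}
    (hv : v ∈ Complex.slitPlane) (hr : r = ((1 - 2 * c : ℝ) : ℂ) * Complex.log v)
    (hr0 : r ≠ 0) (he : Complex.exp r ≠ 1) :
    ∃ E' : ℂ, HasDerivAt (ellF c) E' v ∧
      E' = v ^ 2 * (2 / (1 + (c : ℂ)) ^ 2) *
        (1 - aN ((2 - c) / (1 - 2 * c)) (-r) / (((2 - c) / (1 - 2 * c) : ℝ) : ℂ)) ^ 2 ∧
      3 * ellF c v - v * E' = -((2 / (1 + (c : ℂ)) ^ 2) *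
        (1 - aN ((2 - c) / (1 - 2 * c)) r / (((2 - c) / (1 - 2 * c) : ℝ) : ℂ)) ^ 2) := by
  have hv0 : v ≠ 0 := Complex.slitPlane_ne_zero hv
  have hcp : (1 + (c : ℂ)) ≠ 0 := by
    have : (1 + c : ℝ) ≠ 0 := by linarith
    exact_mod_cast this
  have hcp12 : (1 - 2 * (c : ℂ)) ≠ 0 := by
    have : (1 - 2 * c : ℝ) ≠ 0 := fun h => h12 (by linarith)
    exact_mod_cast this
  have hcp2 : (2 - (c : ℂ)) ≠ 0 := by
    have : (2 - c : ℝ) ≠ 0 := fun h => h2 (by linarith)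
    exact_mod_cast this
  obtain ⟨L, hL⟩ : ∃ L, L = Complex.log v := ⟨_, rfl⟩
  obtain ⟨e1, he1⟩ : ∃ e1, e1 = Complex.exp r := ⟨_, rfl⟩
  obtain ⟨e2, he2⟩ : ∃ e2, e2 = Complex.exp ((2 - (c : ℂ)) * L) := ⟨_, rfl⟩
  have e1ne : e1 ≠ 0 := by rw [he1]; exact Complex.exp_ne_zero _
  have e2ne : e2 ≠ 0 := by rw [he2]; exact Complex.exp_ne_zero _
  have hD : e1 - 1 ≠ 0 := sub_ne_zero.2 (by rw [he1]; exact he)
  have hp1 : v ^ ((1 - 2 * c : ℝ) : ℂ) = e1 := by
    rw [Complex.cpow_def_of_ne_zero hv0, he1, hr, mul_comm]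
  have hp2 : v ^ ((2 - c : ℝ) : ℂ) = e2 := by
    rw [Complex.cpow_def_of_ne_zero hv0, he2, ← hL, mul_comm]
    push_cast; ring_nf
  have hv3 : e1 * v ^ 3 = e2 ^ 2 := by
    have hvL : v = Complex.exp L := by rw [hL, Complex.exp_log hv0]
    rw [he1, he2, hr, ← hL, hvL, ← Complex.exp_nat_mul, ← Complex.exp_nat_mul, ← Complex.exp_add]
    congr 1
    push_cast; ring
  have hn : Complex.exp ((((2 - c) / (1 - 2 * c) : ℝ) : ℂ) * r) = e2 := by
    rw [he2, hr, ← hL]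
    congr 1
    push_cast
    field_simp
  have hn' : Complex.exp ((((2 - c) / (1 - 2 * c) : ℝ) : ℂ) * (-r)) = e2⁻¹ := by
    rw [mul_neg, Complex.exp_neg, hn]
  have he1' : Complex.exp (-r) = e1⁻¹ := by rw [Complex.exp_neg, he1]
  have ha : aN ((2 - c) / (1 - 2 * c)) r = (e2 - 1) / (e1 - 1) := by
    rw [aN_of_ne _ hr0, hn, he1]
  have hb : aN ((2 - c) / (1 - 2 * c)) (-r) = e1 * (e2 - 1) / (e2 * (e1 - 1)) := by
    rw [aN_of_ne _ (neg_ne_zero.2 hr0), hn', he1']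
    have : e1⁻¹ - 1 ≠ 0 := by
      intro h
      apply hD
      have : e1⁻¹ = 1 := by linear_combination h
      rw [inv_eq_one] at this
      rw [this]; ring
    rw [div_eq_div_iff this (mul_ne_zero e2ne hD)]
    field_simp
    ring
  refine ⟨2 * (v ^ 2 / (1 + (c : ℂ)) ^ 2 - ((2 * (e2 - 1) * ((2 - c) * e2 / v)) * (1 - 2 * c) *
      ((1 + (c : ℂ)) ^ 2 * (2 - c) ^ 2 * (e1 - 1)) - (e2 - 1) ^ 2 * (1 - 2 * c) *
      ((1 + (c : ℂ)) ^ 2 * (2 - c) ^ 2 * ((1 - 2 * c) * e1 / v))) /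
      ((1 + (c : ℂ)) ^ 2 * (2 - c) ^ 2 * (e1 - 1)) ^ 2), ?_, ?_, ?_⟩
  · have d1 : HasDerivAt (fun v : ℂ => v ^ ((1 - 2 * c : ℝ) : ℂ)) ((1 - 2 * c) * e1 / v) v := by
      have := (hasDerivAt_id v).cpow_const (c := ((1 - 2 * c : ℝ) : ℂ)) hv
      refine this.congr_deriv ?_
      simp only [id]
      rw [Complex.cpow_sub _ _ hv0, Complex.cpow_one, hp1]
      push_cast; ring
    have d2 : HasDerivAt (fun v : ℂ => v ^ ((2 - c : ℝ) : ℂ)) ((2 - c) * e2 / v) v := by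
      have := (hasDerivAt_id v).cpow_const (c := ((2 - c : ℝ) : ℂ)) hv
      refine this.congr_deriv ?_
      simp only [id]
      rw [Complex.cpow_sub _ _ hv0, Complex.cpow_one, hp2]
      push_cast; ring
    have d3 : HasDerivAt (fun v : ℂ => (v ^ 3 - 1) / (3 * (1 + (c : ℂ)) ^ 2))
        (v ^ 2 / (1 + (c : ℂ)) ^ 2) v := by
      have := ((hasDerivAt_pow 3 v).sub_const 1).div_const (3 * (1 + (c : ℂ)) ^ 2)
      refine this.congr_deriv ?_
      push_cast
      field_simp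
    have d4 := ((d2.sub_const 1).pow 2).mul_const (1 - 2 * (c : ℂ))
    have d5 := (d1.sub_const 1).const_mul ((1 + (c : ℂ)) ^ 2 * (2 - c) ^ 2)
    have hden : (1 + (c : ℂ)) ^ 2 * (2 - c) ^ 2 * (v ^ ((1 - 2 * c : ℝ) : ℂ) - 1) ≠ 0 := by
      rw [hp1]
      exact mul_ne_zero (mul_ne_zero (pow_ne_zero _ hcp) (pow_ne_zero _ hcp2)) hD
    have d6 := d4.div d5 hden
    have d7 := (d3.sub d6).const_mul (2 : ℂ)
    have hfun : ellF c = fun v : ℂ => 2 * ((v ^ 3 - 1) / (3 * (1 + (c : ℂ)) ^ 2) -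
        (v ^ ((2 - c : ℝ) : ℂ) - 1) ^ 2 * (1 - 2 * c) /
        ((1 + (c : ℂ)) ^ 2 * (2 - c) ^ 2 * (v ^ ((1 - 2 * c : ℝ) : ℂ) - 1))) := rfl
    rw [hfun]
    refine d7.congr_deriv ?_
    simp only [Pi.pow_apply, hp1, hp2, Nat.cast_ofNat]
    norm_num
  · rw [hb]
    push_cast
    field_simp
    linear_combination ((e2 - 1) * (1 - 2 * (c : ℂ)) *
      (2 * e2 * (2 - (c : ℂ)) * (e1 - 1) - (e2 - 1) * (1 - 2 * (c : ℂ)) * e1)) * hv3
  · rw [ha]
    unfold ellF
    rw [hp1, hp2]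
    push_cast
    field_simp
    ring

/-! ### the law for one corner -/

theorem LL_flat (c : ℝ) {x : ℂ} (hx : x ≠ 0) (y : ℂ) :
    LL (Psi0F c) x y = x ^ 3 * ellF c (y / x) := by
  unfold LL Psi0F
  split_ifs with h
  · subst h
    rw [div_self hx]
    simp [ellF]
  · have h1 : y / x - 1 ≠ 0 := by
      intro h2
      apply h
      field_simp at h2
      linear_combination h2
    have h3 : y - x = x * (y / x - 1) := by field_simp
    rw [h3]
    field_simp

theorem law_sq {c : ℝ} (hc1 : -1 < c) (h12 : c ≠ 1 / 2) (h2 : c ≠ 2) {x y z rm rp : ℂ}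
    (hx : x ≠ 0) (hy : y ≠ 0) (hvm : y / x ∈ Complex.slitPlane) (hvp : z / y ∈ Complex.slitPlane)
    (hrm : rm = ((1 - 2 * c : ℝ) : ℂ) * Complex.log (y / x))
    (hrp : rp = ((1 - 2 * c : ℝ) : ℂ) * Complex.log (z / y))
    (hrm0 : rm ≠ 0) (hem : Complex.exp rm ≠ 1) (hrp0 : rp ≠ 0) (hep : Complex.exp rp ≠ 1)
    (hEL : EL (Psi0F c) x y z = 0) :
    (aN ((2 - c) / (1 - 2 * c)) rp - (((2 - c) / (1 - 2 * c) : ℝ) : ℂ)) ^ 2 =
      ((((2 - c) / (1 - 2 * c) : ℝ) : ℂ) - aN ((2 - c) / (1 - 2 * c)) (-rm)) ^ 2 := by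
  obtain ⟨Em, hEm, hEm1, -⟩ := ellF_law hc1 h12 h2 hvm hrm hrm0 hem
  obtain ⟨Ep, hEp, -, hEp2⟩ := ellF_law hc1 h12 h2 hvp hrp hrp0 hep
  have d1 : HasDerivAt (fun y' => LL (Psi0F c) x y') (x ^ 2 * Em) y := by
    have e : (fun y' => LL (Psi0F c) x y') = fun y' => x ^ 3 * ellF c (y' / x) :=
      funext fun y' => LL_flat c hx y'
    rw [e]
    have h1 : HasDerivAt (fun y' : ℂ => y' / x) (1 / x) y := (hasDerivAt_id y).div_const x
    have h3 := (hEm.comp y h1).const_mul (x ^ 3)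
    refine h3.congr_deriv ?_
    field_simp
  have d2 : HasDerivAt (fun y' => LL (Psi0F c) y' z)
      (y ^ 2 * (3 * ellF c (z / y) - z / y * Ep)) y := by
    have e : (fun y' => LL (Psi0F c) y' z) =ᶠ[𝓝 y] fun y' => y' ^ 3 * ellF c (z / y') := by
      filter_upwards [isOpen_ne.mem_nhds hy] with y' hy'
      exact LL_flat c hy' z
    have h1 : HasDerivAt (fun y' : ℂ => z / y') (-z / y ^ 2) y := by
      have := (hasDerivAt_const y z).div (hasDerivAt_id y) hy
      refine this.congr_deriv ?_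
      simp
    have h3 : HasDerivAt (fun y' : ℂ => y' ^ 3 * ellF c (z / y')) _ y :=
      (hasDerivAt_pow 3 y).mul (hEp.comp y h1)
    refine (h3.congr_deriv ?_).congr_of_eventuallyEq e
    simp only [Nat.cast_ofNat]
    field_simp
    ring
  have h3 : x ^ 2 * Em + y ^ 2 * (3 * ellF c (z / y) - z / y * Ep) = 0 := by
    rw [← d1.deriv, ← d2.deriv]
    exact hEL
  have hcp : (1 + (c : ℂ)) ≠ 0 := by
    have : (1 + c : ℝ) ≠ 0 := by linarith
    exact_mod_cast this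
  have hn : ((((2 - c) / (1 - 2 * c) : ℝ) : ℂ)) ≠ 0 := by
    have h4 : (1 - 2 * c : ℝ) ≠ 0 := fun h => h12 (by linarith)
    have h5 : (2 - c : ℝ) ≠ 0 := fun h => h2 (by linarith)
    exact_mod_cast div_ne_zero h5 h4
  generalize ((((2 - c) / (1 - 2 * c) : ℝ) : ℂ)) = n at *
  generalize aN ((2 - c) / (1 - 2 * c)) rp = a at *
  generalize aN ((2 - c) / (1 - 2 * c)) (-rm) = b at *
  rw [hEm1, hEp2] at h3
  have h5 : x ^ 2 * ((y / x) ^ 2 * (2 / (1 + (c : ℂ)) ^ 2) * (1 - b / n) ^ 2) +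
      y ^ 2 * (-(2 / (1 + (c : ℂ)) ^ 2 * (1 - a / n) ^ 2)) =
      -(y ^ 2 * (2 / (1 + (c : ℂ)) ^ 2) / n ^ 2 * ((a - n) ^ 2 - (n - b) ^ 2)) := by
    field_simp
    ring
  rw [h5, neg_eq_zero, mul_eq_zero] at h3
  rcases h3 with h3 | h3
  · exact absurd h3 (div_ne_zero (mul_ne_zero (pow_ne_zero _ hy)
      (div_ne_zero two_ne_zero (pow_ne_zero _ hcp))) (pow_ne_zero _ hn))
  · linear_combination h3

/-! ### asymptotics near `(-i, 0)` -/

variable {ρ C : ℝ} {Ψ₀ : ℂ → ℂ → ℂ} {X₀ : ℂ × ℂ → ℂ}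

theorem tendX (hX : LimFam ρ C Ψ₀ X₀) : Tendsto X₀ (𝓝 (-Complex.I, 0)) (𝓝 (-Complex.I)) := by
  have h0 : X₀ (-Complex.I, 0) = -Complex.I := by
    have := hX.near (-Complex.I) (mem_ball_self hX.ρ_pos) 0 (mem_ball_self hX.ρ_pos)
    have h2 : ‖X₀ (-Complex.I, 0) - -Complex.I‖ ≤ 0 := by simpa using this
    have h3 := norm_le_zero_iff.1 h2
    linear_combination h3
  have hc : ContinuousAt X₀ (-Complex.I, 0) :=
    (hX.diff.continuousOn).continuousAt
      (prod_mem_nhds (ball_mem_nhds _ hX.ρ_pos) (ball_mem_nhds _ hX.ρ_pos))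
  have := hc.tendsto
  rwa [h0] at this

/-- the punctured filter -/
def FF : Filter (ℂ × ℂ) := 𝓝[{x : ℂ × ℂ | x.2 ≠ 0}] (-Complex.I, 0)

theorem FF_le : FF ≤ 𝓝 ((-Complex.I, 0) : ℂ × ℂ) := nhdsWithin_le_nhds

theorem tend_arg (s : ℂ) :
    Tendsto (fun x : ℂ × ℂ => (x.1 + s * x.2, x.2)) FF (𝓝 (-Complex.I, 0)) := by
  have h : ContinuousAt (fun x : ℂ × ℂ => (x.1 + s * x.2, x.2)) (-Complex.I, 0) := by fun_prop
  have := h.tendsto.mono_left FF_le
  simpa using this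

theorem ev_ne : ∀ᶠ x in FF, x.2 ≠ 0 := eventually_mem_nhdsWithin

/-- `(X₀(t + s₁ w, w) - X₀(t + s₂ w, w)) / w → s₁ - s₂` -/
theorem tend_diff (hX : LimFam ρ C Ψ₀ X₀) (s₁ s₂ : ℂ) :
    Tendsto (fun x : ℂ × ℂ => (X₀ (x.1 + s₁ * x.2, x.2) - X₀ (x.1 + s₂ * x.2, x.2)) / x.2) FF
      (𝓝 (s₁ - s₂)) := by
  have hU : ball (-Complex.I) ρ ×ˢ ball (0 : ℂ) ρ ∈ 𝓝 ((-Complex.I, 0) : ℂ × ℂ) :=
    prod_mem_nhds (ball_mem_nhds _ hX.ρ_pos) (ball_mem_nhds _ hX.ρ_pos)
  rw [tendsto_iff_norm_sub_tendsto_zero]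
  have hlim : Tendsto (fun x : ℂ × ℂ => 2 * C * ‖x.2‖) FF (𝓝 0) := by
    have h : ContinuousAt (fun x : ℂ × ℂ => 2 * C * ‖x.2‖) (-Complex.I, 0) := by fun_prop
    have := h.tendsto.mono_left FF_le
    simpa using this
  refine squeeze_zero' (Eventually.of_forall fun x => norm_nonneg _) ?_ hlim
  filter_upwards [tend_arg s₁ hU, tend_arg s₂ hU, ev_ne] with x h1 h2 h3
  have n1 := hX.near _ h1.1 _ h1.2
  have n2 := hX.near _ h2.1 _ h2.2
  have e : (X₀ (x.1 + s₁ * x.2, x.2) - X₀ (x.1 + s₂ * x.2, x.2)) / x.2 - (s₁ - s₂) =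
      ((X₀ (x.1 + s₁ * x.2, x.2) - (x.1 + s₁ * x.2)) -
        (X₀ (x.1 + s₂ * x.2, x.2) - (x.1 + s₂ * x.2))) / x.2 := by
    field_simp
    ring
  rw [e, norm_div, div_le_iff₀ (norm_pos_iff.2 h3)]
  refine (norm_sub_le _ _).trans ?_
  simp only at n1 n2
  nlinarith [n1, n2]

/-- the ratio of two consecutive points -/
theorem tend_ratio (hX : LimFam ρ C Ψ₀ X₀) (s₁ s₂ : ℂ) :
    Tendsto (fun x : ℂ × ℂ => (X₀ (x.1 + s₁ * x.2, x.2) / X₀ (x.1 + s₂ * x.2, x.2) - 1) / x.2) FF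
      (𝓝 ((s₁ - s₂) / (-Complex.I))) := by
  have h1 := tend_diff hX s₁ s₂
  have h2 := (tendX hX).comp (tend_arg s₂)
  have h3 := h1.div h2 (neg_ne_zero.2 Complex.I_ne_zero)
  refine h3.congr' ?_
  filter_upwards [h2.eventually_ne (neg_ne_zero.2 Complex.I_ne_zero), ev_ne] with x h4 h5
  simp only [Function.comp, Pi.div_apply] at h4 ⊢
  generalize X₀ (x.1 + s₁ * x.2, x.2) = A at *
  generalize X₀ (x.1 + s₂ * x.2, x.2) = B at *
  field_simp

theorem tend_ratio1 (hX : LimFam ρ C Ψ₀ X₀) (s₁ s₂ : ℂ) :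
    Tendsto (fun x : ℂ × ℂ => X₀ (x.1 + s₁ * x.2, x.2) / X₀ (x.1 + s₂ * x.2, x.2)) FF (𝓝 1) := by
  have h1 := (tendX hX).comp (tend_arg s₁)
  have h2 := (tendX hX).comp (tend_arg s₂)
  have h3 := h1.div h2 (neg_ne_zero.2 Complex.I_ne_zero)
  rw [div_self (neg_ne_zero.2 Complex.I_ne_zero)] at h3
  exact h3

/-- `(H(V) - H(1)) / w → H'(1) (s₁ - s₂)/(-i)` -/
theorem tend_H (hX : LimFam ρ C Ψ₀ X₀) (s₁ s₂ : ℂ) {H : ℂ → ℂ} {H' : ℂ} (hH : HasDerivAt H H' 1) :
    Tendsto (fun x : ℂ × ℂ =>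
      (H (X₀ (x.1 + s₁ * x.2, x.2) / X₀ (x.1 + s₂ * x.2, x.2)) - H 1) / x.2) FF
      (𝓝 ((s₁ - s₂) / (-Complex.I) * H')) := by
  have h1 : ContinuousAt (dslope H 1) 1 := continuousAt_dslope_same.2 hH.differentiableAt
  have h2 := h1.tendsto.comp (tend_ratio1 hX s₁ s₂)
  rw [dslope_same, hH.deriv] at h2
  refine ((tend_ratio hX s₁ s₂).mul h2).congr ?_
  intro x
  simp only [Function.comp]
  have := sub_smul_dslope H 1 (X₀ (x.1 + s₁ * x.2, x.2) / X₀ (x.1 + s₂ * x.2, x.2))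
  rw [← this, smul_eq_mul]
  ring

theorem rX_plus (p : ℝ) (X₀ : ℂ × ℂ → ℂ) (x : ℂ × ℂ) :
    rX p X₀ (x.1 + x.2 / 2, x.2) =
      p * Complex.log (X₀ (x.1 + 1 * x.2, x.2) / X₀ (x.1 + 0 * x.2, x.2)) := by
  unfold rX
  simp only
  rw [show x.1 + x.2 / 2 + x.2 / 2 = x.1 + 1 * x.2 by ring,
    show x.1 + x.2 / 2 - x.2 / 2 = x.1 + 0 * x.2 by ring]

theorem rX_minus (p : ℝ) (X₀ : ℂ × ℂ → ℂ) (x : ℂ × ℂ) :
    rX p X₀ (x.1 - x.2 / 2, x.2) =
      p * Complex.log (X₀ (x.1 + 0 * x.2, x.2) / X₀ (x.1 + (-1) * x.2, x.2)) := by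
  unfold rX
  simp only
  rw [show x.1 - x.2 / 2 + x.2 / 2 = x.1 + 0 * x.2 by ring,
    show x.1 - x.2 / 2 - x.2 / 2 = x.1 + (-1) * x.2 by ring]

/-- general part of the laws: the sum `(a(r₊) - n) + (n - b(r₋))` is `≠ 0` off `w = 0`, the
exponentials are `≠ 1`, everything is in the slit plane. -/
theorem ev_gen (hX : LimFam ρ C Ψ₀ X₀) {n p : ℝ} (hp : p ≠ 0) (hn0 : n ≠ 0) (hn1 : n ≠ 1) :
    ∀ᶠ x in FF, x.2 ≠ 0 ∧
      X₀ (x.1 + 1 * x.2, x.2) ≠ 0 ∧ X₀ (x.1 + 0 * x.2, x.2) ≠ 0 ∧ X₀ (x.1 + (-1) * x.2, x.2) ≠ 0 ∧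
      X₀ (x.1 + 1 * x.2, x.2) / X₀ (x.1 + 0 * x.2, x.2) ∈ Complex.slitPlane ∧
      X₀ (x.1 + 0 * x.2, x.2) / X₀ (x.1 + (-1) * x.2, x.2) ∈ Complex.slitPlane ∧
      rX p X₀ (x.1 + x.2 / 2, x.2) ≠ 0 ∧ rX p X₀ (x.1 - x.2 / 2, x.2) ≠ 0 ∧
      Complex.exp (rX p X₀ (x.1 + x.2 / 2, x.2)) ≠ 1 ∧
      Complex.exp (rX p X₀ (x.1 - x.2 / 2, x.2)) ≠ 1 ∧
      (aN n (rX p X₀ (x.1 + x.2 / 2, x.2)) - n) + (n - aN n (-(rX p X₀ (x.1 - x.2 / 2, x.2)))) ≠ 0 ∧
      EL Ψ₀ (X₀ (x.1 + (-1) * x.2, x.2)) (X₀ (x.1 + 0 * x.2, x.2)) (X₀ (x.1 + 1 * x.2, x.2)) = 0 := by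
  have hI : (-Complex.I) ≠ 0 := neg_ne_zero.2 Complex.I_ne_zero
  have hpC : (p : ℂ) ≠ 0 := by exact_mod_cast hp
  have hlog : HasDerivAt (fun v : ℂ => (p : ℂ) * Complex.log v) (p : ℂ) 1 := by
    have := (Complex.hasDerivAt_log Complex.one_mem_slitPlane).const_mul (p : ℂ)
    simpa using this
  have h1 : Tendsto (fun x : ℂ × ℂ => rX p X₀ (x.1 + x.2 / 2, x.2) / x.2) FF
      (𝓝 ((1 - 0) / (-Complex.I) * p)) := by
    refine (tend_H hX 1 0 hlog).congr ?_
    intro x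
    rw [rX_plus]
    simp
  have h2 : Tendsto (fun x : ℂ × ℂ => rX p X₀ (x.1 - x.2 / 2, x.2) / x.2) FF
      (𝓝 ((0 - (-1)) / (-Complex.I) * p)) := by
    refine (tend_H hX 0 (-1) hlog).congr ?_
    intro x
    rw [rX_minus]
    simp
  have hw : Tendsto (fun x : ℂ × ℂ => x.2) FF (𝓝 0) := by
    have h : ContinuousAt (fun x : ℂ × ℂ => x.2) (-Complex.I, 0) := by fun_prop
    exact h.tendsto.mono_left FF_le
  have h1' : Tendsto (fun x : ℂ × ℂ => rX p X₀ (x.1 + x.2 / 2, x.2)) FF (𝓝 0) := by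
    have := h1.mul hw
    rw [mul_zero] at this
    refine this.congr' ?_
    filter_upwards [ev_ne] with x hx
    field_simp
  have h2' : Tendsto (fun x : ℂ × ℂ => rX p X₀ (x.1 - x.2 / 2, x.2)) FF (𝓝 0) := by
    have := h2.mul hw
    rw [mul_zero] at this
    refine this.congr' ?_
    filter_upwards [ev_ne] with x hx
    field_simp
  have hphi : ∀ᶠ r in 𝓝 (0 : ℂ), phi r ≠ 0 :=
    (phi_diff.continuous.continuousAt).eventually_ne (by rw [phi_zero]; exact one_ne_zero)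
  have ha : HasDerivAt (fun v : ℂ => aN n ((p : ℂ) * Complex.log v)) ((n : ℂ) * (n - 1) / 2 * p) 1 := by
    have h : HasDerivAt (aN n) ((n : ℂ) * (n - 1) / 2) ((p : ℂ) * Complex.log 1) := by
      rw [Complex.log_one, mul_zero]; exact aN_hasDerivAt n
    exact h.comp 1 hlog
  have hb : HasDerivAt (fun v : ℂ => aN n (-((p : ℂ) * Complex.log v)))
      ((n : ℂ) * (n - 1) / 2 * (-p)) 1 := by
    have h : HasDerivAt (aN n) ((n : ℂ) * (n - 1) / 2) (-((p : ℂ) * Complex.log 1)) := by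
      rw [Complex.log_one, mul_zero, neg_zero]; exact aN_hasDerivAt n
    exact h.comp 1 hlog.neg
  have hs := (tend_H hX 1 0 ha).sub (tend_H hX 0 (-1) hb)
  have hs' : Tendsto (fun x : ℂ × ℂ => ((aN n (rX p X₀ (x.1 + x.2 / 2, x.2)) - n) +
      (n - aN n (-(rX p X₀ (x.1 - x.2 / 2, x.2))))) / x.2) FF
      (𝓝 ((1 - 0) / -Complex.I * ((n : ℂ) * (n - 1) / 2 * p) -
        (0 - -1) / -Complex.I * ((n : ℂ) * (n - 1) / 2 * -p))) := by
    refine hs.congr ?_
    intro x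
    rw [rX_plus, rX_minus, Complex.log_one, mul_zero, neg_zero, aN_zero]
    ring
  have hsne : (1 - 0) / -Complex.I * ((n : ℂ) * (n - 1) / 2 * p) -
        (0 - -1) / -Complex.I * ((n : ℂ) * (n - 1) / 2 * -p) ≠ 0 := by
    have hn0' : (n : ℂ) ≠ 0 := by exact_mod_cast hn0
    have hn1' : (n : ℂ) - 1 ≠ 0 := sub_ne_zero.2 (by exact_mod_cast hn1)
    have e : (1 - 0) / -Complex.I * ((n : ℂ) * (n - 1) / 2 * p) -
        (0 - -1) / -Complex.I * ((n : ℂ) * (n - 1) / 2 * -p) =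
        (n : ℂ) * (n - 1) * p / -Complex.I := by
      field_simp
      ring
    rw [e]
    exact div_ne_zero (mul_ne_zero (mul_ne_zero hn0' hn1') hpC) hI
  have hlne1 : (1 - 0) / (-Complex.I) * (p : ℂ) ≠ 0 := by
    rw [sub_zero]; exact mul_ne_zero (div_ne_zero one_ne_zero hI) hpC
  have hlne2 : (0 - (-1)) / (-Complex.I) * (p : ℂ) ≠ 0 := by
    rw [sub_neg_eq_add, zero_add]; exact mul_ne_zero (div_ne_zero one_ne_zero hI) hpC
  have hslit : Complex.slitPlane ∈ 𝓝 (1 : ℂ) :=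
    Complex.isOpen_slitPlane.mem_nhds Complex.one_mem_slitPlane
  have hball : ball (-Complex.I) ρ ×ˢ ball (0 : ℂ) ρ ∈ 𝓝 ((-Complex.I, 0) : ℂ × ℂ) :=
    prod_mem_nhds (ball_mem_nhds _ hX.ρ_pos) (ball_mem_nhds _ hX.ρ_pos)
  filter_upwards [ev_ne, ((tendX hX).comp (tend_arg 1)).eventually_ne hI,
    ((tendX hX).comp (tend_arg 0)).eventually_ne hI,
    ((tendX hX).comp (tend_arg (-1))).eventually_ne hI,
    tend_ratio1 hX 1 0 hslit, tend_ratio1 hX 0 (-1) hslit,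
    h1.eventually_ne hlne1, h2.eventually_ne hlne2, h1'.eventually hphi, h2'.eventually hphi,
    hs'.eventually_ne hsne, tend_arg 1 hball, tend_arg 0 hball, tend_arg (-1) hball] with
    x x1 x2 x3 x4 x5 x6 x7 x8 x9 x10 x11 x12 x13 x14
  have x7' : rX p X₀ (x.1 + x.2 / 2, x.2) ≠ 0 := fun h => x7 (by rw [h, zero_div])
  have x8' : rX p X₀ (x.1 - x.2 / 2, x.2) ≠ 0 := fun h => x8 (by rw [h, zero_div])
  refine ⟨x1, x2, x3, x4, x5, x6, x7', x8', ?_, ?_, ?_, ?_⟩
  · intro h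
    have := phi_mul (rX p X₀ (x.1 + x.2 / 2, x.2))
    rw [h, sub_self] at this
    exact mul_ne_zero x7' x9 this
  · intro h
    have := phi_mul (rX p X₀ (x.1 - x.2 / 2, x.2))
    rw [h, sub_self] at this
    exact mul_ne_zero x8' x10 this
  · intro h
    exact x11 (by rw [h, zero_div])
  · have e0 : x.1 + 0 * x.2 = x.1 := by ring
    have e1 : x.1 + 1 * x.2 = x.1 + x.2 := by ring
    have e2 : x.1 + (-1) * x.2 = x.1 - x.2 := by ring
    simp only [mem_preimage, mem_prod, e0, e1, e2] at x12 x13 x14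
    rw [e0, e1, e2]
    exact hX.el x.1 x.2 x14.1 x13.1 x12.1 x13.2

/-- the diagonal `w = 0` -/
theorem rX_zero (p : ℝ) (X₀ : ℂ × ℂ → ℂ) (t : ℂ) :
    rX p X₀ (t + 0 / 2, 0) = 0 ∧ rX p X₀ (t - 0 / 2, 0) = 0 := by
  unfold rX
  simp only [zero_div, add_zero, sub_zero]
  by_cases h : X₀ (t, 0) = 0
  · simp [h]
  · rw [div_self h]; simp

/-- **L5F** -/
theorem lawF : LawF := by
  intro c ρ C X₀ hc1 h12 h2 hX
  have h4 : (1 - 2 * c : ℝ) ≠ 0 := fun h => h12 (by linarith)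
  have h5 : (2 - c : ℝ) ≠ 0 := fun h => h2 (by linarith)
  have hn0 : (2 - c) / (1 - 2 * c) ≠ 0 := div_ne_zero h5 h4
  have hn1 : (2 - c) / (1 - 2 * c) ≠ 1 := by
    intro h
    rw [div_eq_one_iff_eq h4] at h
    linarith
  have hgen := ev_gen hX h4 hn0 hn1
  have hgen' := eventually_nhdsWithin_iff.1 hgen
  filter_upwards [hgen'] with x hx
  by_cases hw : x.2 = 0
  · obtain ⟨t, w⟩ := x
    simp only at hw
    subst hw
    obtain ⟨e1, e2⟩ := rX_zero (1 - 2 * c) X₀ t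
    change aN _ (rX (1 - 2 * c) X₀ (t + 0 / 2, 0)) + aN _ (-(rX (1 - 2 * c) X₀ (t - 0 / 2, 0))) = _
    rw [e1, e2, neg_zero, aN_zero]
    ring
  · obtain ⟨-, g1, g2, g3, g4, g5, g6, g7, g8, g9, g10, g11⟩ := hx hw
    have hl := law_sq hc1 h12 h2 g3 g2 g5 g4 (rX_minus _ _ _) (rX_plus _ _ _) g7 g9 g6 g8 g11
    have hf : ((aN ((2 - c) / (1 - 2 * c)) (rX (1 - 2 * c) X₀ (x.1 + x.2 / 2, x.2)) -
        (((2 - c) / (1 - 2 * c) : ℝ) : ℂ)) +
        ((((2 - c) / (1 - 2 * c) : ℝ) : ℂ) -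
        aN ((2 - c) / (1 - 2 * c)) (-(rX (1 - 2 * c) X₀ (x.1 - x.2 / 2, x.2))))) *
        ((aN ((2 - c) / (1 - 2 * c)) (rX (1 - 2 * c) X₀ (x.1 + x.2 / 2, x.2)) -
        (((2 - c) / (1 - 2 * c) : ℝ) : ℂ)) -
        ((((2 - c) / (1 - 2 * c) : ℝ) : ℂ) -
        aN ((2 - c) / (1 - 2 * c)) (-(rX (1 - 2 * c) X₀ (x.1 - x.2 / 2, x.2))))) = 0 := by
      linear_combination hl
    rcases mul_eq_zero.1 hf with h | h
    · exact absurd h g10
    · linear_combination h

end Crest.Agent.R102.T5L5F756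
end
end

-- ▼ part R102/T5L5I_861
section

/-!
# Row 102, T5-L5I (LAW ISO), helper861

`T5R.LawI`: the reflection law of the isotropic model in the variable `r`.
Also `aN_inj`: `a_n` is injective near `0` for `n ≠ 0, 1`.
-/

set_option autoImplicit false

open Set Filter Topology Metric
open scoped ComplexConjugate

noncomputable section

namespace Crest.Agent.R102.T5L5I861

open T5R

/-! ### the function `a_n` -/

/-- `(exp x - 1) / x` -/
def EE : ℂ → ℂ := dslope Complex.exp 0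

lemma EE_diff : Differentiable ℂ EE := by
  have h : DifferentiableOn ℂ (dslope Complex.exp 0) univ :=
    (Complex.differentiableOn_dslope (univ_mem)).2 Complex.differentiable_exp.differentiableOn
  exact differentiableOn_univ.1 h

lemma EE_zero : EE 0 = 1 := by
  simp [EE, dslope_same]

lemma EE_mul (x : ℂ) : x * EE x = Complex.exp x - 1 := by
  have := sub_smul_dslope Complex.exp 0 x
  simpa [EE, sub_zero, smul_eq_mul] using this

lemma EE_deriv : deriv EE 0 = 1 / 2 := by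
  have hd : Differentiable ℂ (deriv EE) := EE_diff.deriv
  have h1 : ∀ x : ℂ, EE x + x * deriv EE x = Complex.exp x := by
    intro x
    have ha : HasDerivAt (fun y : ℂ => y * EE y) (1 * EE x + x * deriv EE x) x :=
      (hasDerivAt_id' x).mul (EE_diff x).hasDerivAt
    have hb : HasDerivAt (fun y : ℂ => Complex.exp y - 1) (Complex.exp x) x := by
      simpa using (Complex.hasDerivAt_exp x).sub_const (1 : ℂ)
    have hc : (fun y : ℂ => y * EE y) = fun y => Complex.exp y - 1 := by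
      funext y; exact EE_mul y
    rw [hc] at ha
    simpa using ha.unique hb
  have ha : HasDerivAt (fun y : ℂ => EE y + y * deriv EE y)
      (deriv EE 0 + (1 * deriv EE 0 + 0 * deriv (deriv EE) 0)) 0 :=
    (EE_diff 0).hasDerivAt.add ((hasDerivAt_id' 0).mul (hd 0).hasDerivAt)
  have hb : HasDerivAt (fun y : ℂ => EE y + y * deriv EE y) (Complex.exp 0) 0 := by
    have : (fun y : ℂ => EE y + y * deriv EE y) = Complex.exp := by
      funext y; exact h1 y
    rw [this]; exact Complex.hasDerivAt_exp 0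
  have := ha.unique hb
  simp at this
  linear_combination (1 / 2) * this

/-- `a_n` as an analytic function near `0` -/
def aa (n : ℝ) (r : ℂ) : ℂ := n * EE (n * r) / EE r

lemma aN_eq (n : ℝ) (r : ℂ) : aN n r = aa n r := by
  by_cases h : r = 0
  · subst h
    simp [aN, aa, EE_zero]
  · have h1 := EE_mul r
    have h2 := EE_mul (n * r)
    unfold aN aa
    rw [if_neg h, ← h1, ← h2]
    by_cases h3 : EE r = 0
    · simp [h3]
    · field_simp

lemma aa_strict (n : ℝ) : HasStrictDerivAt (aa n) (n * (n - 1) / 2 : ℂ) 0 := by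
  have hE : HasStrictDerivAt EE (1 / 2 : ℂ) 0 := by
    have := (EE_diff.analyticAt 0).hasStrictDerivAt
    rwa [EE_deriv] at this
  have hE' : HasStrictDerivAt EE (1 / 2 : ℂ) ((n : ℂ) * 0) := by
    simpa using hE
  have hl : HasStrictDerivAt (fun r : ℂ => (n : ℂ) * r) (n : ℂ) 0 := by
    simpa using (hasStrictDerivAt_id (0 : ℂ)).const_mul (n : ℂ)
  have h1 : HasStrictDerivAt (fun r : ℂ => EE (n * r)) (1 / 2 * (n : ℂ)) 0 :=
    hE'.comp 0 hl
  have h2 := (h1.const_mul (n : ℂ)).div hE (by simp [EE_zero])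
  have h3 : HasStrictDerivAt (aa n)
      (((n : ℂ) * (1 / 2 * (n : ℂ)) * EE 0 - (n : ℂ) * EE ((n : ℂ) * 0) * (1 / 2)) / EE 0 ^ 2) 0 := h2
  have e : ((n : ℂ) * (1 / 2 * (n : ℂ)) * EE 0 - (n : ℂ) * EE ((n : ℂ) * 0) * (1 / 2)) / EE 0 ^ 2 =
      (n * (n - 1) / 2 : ℂ) := by
    rw [mul_zero, EE_zero]; ring
  rw [← e]
  exact h3

/-- **`a_n` is injective near `0`** -/
theorem aN_inj (n : ℝ) (h0 : n ≠ 0) (h1 : n ≠ 1) :
    ∃ δ : ℝ, 0 < δ ∧ ∀ r s : ℂ, ‖r‖ < δ → ‖s‖ < δ → aN n r = aN n s → r = s := by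
  have hne : (n * (n - 1) / 2 : ℂ) ≠ 0 := by
    have : ((n * (n - 1) / 2 : ℝ) : ℂ) ≠ 0 := by
      rw [Complex.ofReal_ne_zero]
      exact div_ne_zero (mul_ne_zero h0 (sub_ne_zero.2 h1)) two_ne_zero
    simpa using this
  have hs := (aa_strict n).hasStrictFDerivAt_equiv hne
  have hev := hs.eventually_left_inverse
  rw [Metric.eventually_nhds_iff] at hev
  obtain ⟨δ, hδ, hev⟩ := hev
  refine ⟨δ, hδ, fun r s hr hs' he => ?_⟩
  rw [aN_eq, aN_eq] at he
  have hr' := hev (y := r) (by simpa using hr)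
  have hs'' := hev (y := s) (by simpa using hs')
  rw [← hr', ← hs'', he]

/-! ### the derivative of `ellI` -/

def Sp (m : ℝ) (v : ℂ) : ℂ := (v ^ ((3 + m : ℝ) : ℂ) - 1) / ((3 + m) * (v - 1))
def Sm (m : ℝ) (v : ℂ) : ℂ := (v ^ ((3 - m : ℝ) : ℂ) - 1) / ((3 - m) * (v - 1))

lemma slope_tendsto (c : ℂ) (hc : c ≠ 0) :
    Tendsto (fun v : ℂ => (v ^ c - 1) / (c * (v - 1))) (𝓝[≠] 1) (𝓝 1) := by
  have h : HasDerivAt (fun v : ℂ => v ^ c) (c * 1 ^ (c - 1) * 1) 1 :=
    (hasDerivAt_id' (1 : ℂ)).cpow_const (by simp)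
  have h' : HasDerivAt (fun v : ℂ => v ^ c) c 1 := by simpa using h
  rw [hasDerivAt_iff_tendsto_slope] at h'
  have h2 := h'.div_const c
  rw [div_self hc] at h2
  refine h2.congr (fun v => ?_)
  simp only [slope_def_field, Complex.one_cpow]
  rw [div_div, mul_comm]

lemma near_good (m : ℝ) (hm : 0 < m) (hm3 : m ≠ 3) :
    ∀ᶠ v in 𝓝[≠] (1 : ℂ), v ∈ Complex.slitPlane ∧ Sp m v ∈ Complex.slitPlane ∧
      Sm m v ∈ Complex.slitPlane := by
  have h0 : ∀ᶠ v in 𝓝[≠] (1 : ℂ), v ∈ Complex.slitPlane :=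
    mem_nhdsWithin_of_mem_nhds (Complex.isOpen_slitPlane.mem_nhds (by simp))
  have h1 : Tendsto (Sp m) (𝓝[≠] 1) (𝓝 1) := by
    have hc : ((3 + m : ℝ) : ℂ) ≠ 0 := by
      rw [Complex.ofReal_ne_zero]; positivity
    have := slope_tendsto _ hc
    refine this.congr (fun v => ?_)
    simp [Sp]
  have h2 : Tendsto (Sm m) (𝓝[≠] 1) (𝓝 1) := by
    have hc : ((3 - m : ℝ) : ℂ) ≠ 0 := by
      rw [Complex.ofReal_ne_zero]; exact sub_ne_zero.2 (Ne.symm hm3)
    have := slope_tendsto _ hc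
    exact this.congr (fun v => by simp [Sm])
  have hs : Complex.slitPlane ∈ 𝓝 (1 : ℂ) := Complex.isOpen_slitPlane.mem_nhds (by simp)
  filter_upwards [h0, h1 hs, h2 hs] with v a b c
  exact ⟨a, b, c⟩

lemma sqrt_sq (x : ℂ) : (x ^ (1 / 2 : ℂ)) ^ 2 = x := by
  have h := Complex.cpow_nat_inv_pow x (n := 2) (by norm_num)
  rw [one_div]
  exact h

lemma ellI_deriv {m : ℝ} (hm : 0 < m) (hm3 : m ≠ 3) {v : ℂ} (hv1 : v ≠ 1)
    (hv : v ∈ Complex.slitPlane) (hp : Sp m v ∈ Complex.slitPlane)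
    (hq : Sm m v ∈ Complex.slitPlane) :
    ∃ Q' sp sm : ℂ, HasDerivAt (ellI m) (-(4 / (m : ℂ) ^ 2) * (v ^ 2 - Q')) v ∧ sp ≠ 0 ∧ sm ≠ 0 ∧
      v ^ ((3 + m : ℝ) : ℂ) = 1 + (3 + m) * (v - 1) * sp ^ 2 ∧
      v ^ ((3 - m : ℝ) : ℂ) = 1 + (3 - m) * (v - 1) * sm ^ 2 ∧
      ellI m v = -(4 / (m : ℂ) ^ 2) * ((v ^ 3 - 1) / 3 - (v - 1) * sp * sm) ∧
      2 * v * sp * sm * Q' = v ^ ((3 + m : ℝ) : ℂ) * sm ^ 2 + v ^ ((3 - m : ℝ) : ℂ) * sp ^ 2 := by
  have hv0 : v ≠ 0 := Complex.slitPlane_ne_zero hv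
  have hm0 : (m : ℂ) ≠ 0 := by rw [Complex.ofReal_ne_zero]; exact hm.ne'
  have hcp : (3 + m : ℂ) ≠ 0 := by
    have : ((3 + m : ℝ) : ℂ) ≠ 0 := by rw [Complex.ofReal_ne_zero]; positivity
    simpa using this
  have hcm : (3 - m : ℂ) ≠ 0 := by
    have : ((3 - m : ℝ) : ℂ) ≠ 0 := by
      rw [Complex.ofReal_ne_zero]; exact sub_ne_zero.2 (Ne.symm hm3)
    simpa using this
  have hv1' : v - 1 ≠ 0 := sub_ne_zero.2 hv1
  have hpd : HasDerivAt (fun y : ℂ => y ^ ((3 + m : ℝ) : ℂ))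
      ((3 + m) * (v ^ ((3 + m : ℝ) : ℂ) / v)) v := by
    have h := (hasDerivAt_id' v).cpow_const (c := ((3 + m : ℝ) : ℂ)) hv
    rw [Complex.cpow_sub _ _ hv0, Complex.cpow_one, mul_one] at h
    simpa using h
  have hmd : HasDerivAt (fun y : ℂ => y ^ ((3 - m : ℝ) : ℂ))
      ((3 - m) * (v ^ ((3 - m : ℝ) : ℂ) / v)) v := by
    have h := (hasDerivAt_id' v).cpow_const (c := ((3 - m : ℝ) : ℂ)) hv
    rw [Complex.cpow_sub _ _ hv0, Complex.cpow_one, mul_one] at h
    simpa using h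
  have hSp : DifferentiableAt ℂ (Sp m) v := by
    unfold Sp
    refine DifferentiableAt.div (hpd.differentiableAt.sub_const 1) ?_
      (mul_ne_zero hcp hv1')
    exact (differentiableAt_id.sub_const 1).const_mul _
  have hSm : DifferentiableAt ℂ (Sm m) v := by
    unfold Sm
    refine DifferentiableAt.div (hmd.differentiableAt.sub_const 1) ?_
      (mul_ne_zero hcm hv1')
    exact (differentiableAt_id.sub_const 1).const_mul _
  set Q : ℂ → ℂ := fun y => (y - 1) * (Sp m y) ^ (1 / 2 : ℂ) * (Sm m y) ^ (1 / 2 : ℂ) with hQdef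
  have hQ : DifferentiableAt ℂ Q v := by
    refine DifferentiableAt.mul (DifferentiableAt.mul (differentiableAt_id.sub_const 1) ?_) ?_
    · exact hSp.cpow_const hp
    · exact hSm.cpow_const hq
  set sp : ℂ := (Sp m v) ^ (1 / 2 : ℂ) with hsp
  set sm : ℂ := (Sm m v) ^ (1 / 2 : ℂ) with hsm
  have hsp2 : sp ^ 2 = Sp m v := sqrt_sq _
  have hsm2 : sm ^ 2 = Sm m v := sqrt_sq _
  have hsp0 : sp ≠ 0 := by
    intro h; rw [h] at hsp2
    exact Complex.slitPlane_ne_zero hp (by rw [← hsp2]; ring)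
  have hsm0 : sm ≠ 0 := by
    intro h; rw [h] at hsm2
    exact Complex.slitPlane_ne_zero hq (by rw [← hsm2]; ring)
  have hA : v ^ ((3 + m : ℝ) : ℂ) = 1 + (3 + m) * (v - 1) * sp ^ 2 := by
    rw [hsp2, Sp]; field_simp; ring
  have hB : v ^ ((3 - m : ℝ) : ℂ) = 1 + (3 - m) * (v - 1) * sm ^ 2 := by
    rw [hsm2, Sm]; field_simp; ring
  refine ⟨deriv Q v, sp, sm, ?_, hsp0, hsm0, hA, hB, ?_, ?_⟩
  · have h1 : HasDerivAt (fun y : ℂ => -(4 / (m : ℂ) ^ 2) * ((y ^ 3 - 1) / 3 - Q y))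
        (-(4 / (m : ℂ) ^ 2) * ((3 * v ^ 2) / 3 - deriv Q v)) v := by
      have h3 : HasDerivAt (fun y : ℂ => (y ^ 3 - 1) / 3) ((3 * v ^ 2) / 3) v := by
        have := ((hasDerivAt_pow 3 v).sub_const (1 : ℂ)).div_const (3 : ℂ)
        simpa using this
      exact (h3.sub hQ.hasDerivAt).const_mul _
    have h2 : (fun y : ℂ => -(4 / (m : ℂ) ^ 2) * ((y ^ 3 - 1) / 3 - Q y)) = ellI m := by
      funext y
      simp only [ellI, hQdef, Sp, Sm]
    rw [h2] at h1
    convert h1 using 1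
    ring
  · simp only [ellI, hsp, hsm, Sp, Sm]
  · -- derivative of `Q ^ 2`
    have hsq : HasDerivAt (fun y : ℂ => Q y ^ 2) (2 * Q v * deriv Q v) v := by
      have := hQ.hasDerivAt.fun_pow 2
      simpa using this
    have hPP : HasDerivAt (fun y : ℂ => (y ^ ((3 + m : ℝ) : ℂ) - 1) * (y ^ ((3 - m : ℝ) : ℂ) - 1) /
        ((3 + m) * (3 - m)))
        (((3 + m) * (v ^ ((3 + m : ℝ) : ℂ) / v) * (v ^ ((3 - m : ℝ) : ℂ) - 1) +
          (v ^ ((3 + m : ℝ) : ℂ) - 1) * ((3 - m) * (v ^ ((3 - m : ℝ) : ℂ) / v))) /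
            ((3 + m) * (3 - m))) v :=
      ((hpd.sub_const (1 : ℂ)).mul (hmd.sub_const (1 : ℂ))).div_const _
    have heq : (fun y : ℂ => Q y ^ 2) =ᶠ[𝓝 v] (fun y : ℂ => (y ^ ((3 + m : ℝ) : ℂ) - 1) *
        (y ^ ((3 - m : ℝ) : ℂ) - 1) / ((3 + m) * (3 - m))) := by
      filter_upwards [isOpen_ne.mem_nhds hv1] with y hy
      have hy' : y - 1 ≠ 0 := sub_ne_zero.2 hy
      simp only [hQdef]
      rw [mul_pow, mul_pow, sqrt_sq, sqrt_sq, Sp, Sm]
      field_simp
    have hu := hsq.unique (hPP.congr_of_eventuallyEq heq)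
    have hQv : Q v = (v - 1) * sp * sm := rfl
    rw [hQv] at hu
    have hA' : v ^ ((3 + m : ℝ) : ℂ) - 1 = (3 + m) * (v - 1) * sp ^ 2 := by rw [hA]; ring
    have hB' : v ^ ((3 - m : ℝ) : ℂ) - 1 = (3 - m) * (v - 1) * sm ^ 2 := by rw [hB]; ring
    rw [hA', hB'] at hu
    have hu2 : (v - 1) * (2 * v * sp * sm * deriv Q v) =
        (v - 1) * (v ^ ((3 + m : ℝ) : ℂ) * sm ^ 2 + v ^ ((3 - m : ℝ) : ℂ) * sp ^ 2) := by
      have : v * (2 * ((v - 1) * sp * sm) * deriv Q v) = v * (((3 + m) * (v ^ ((3 + m : ℝ) : ℂ) / v) *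
          ((3 - m) * (v - 1) * sm ^ 2) + (3 + m) * (v - 1) * sp ^ 2 *
            ((3 - m) * (v ^ ((3 - m : ℝ) : ℂ) / v))) / ((3 + m) * (3 - m))) := by rw [hu]
      have h2 : v * (((3 + m) * (v ^ ((3 + m : ℝ) : ℂ) / v) *
          ((3 - m) * (v - 1) * sm ^ 2) + (3 + m) * (v - 1) * sp ^ 2 *
            ((3 - m) * (v ^ ((3 - m : ℝ) : ℂ) / v))) / ((3 + m) * (3 - m))) =
          (v - 1) * (v ^ ((3 + m : ℝ) : ℂ) * sm ^ 2 + v ^ ((3 - m : ℝ) : ℂ) * sp ^ 2) := by
        generalize v ^ ((3 + m : ℝ) : ℂ) = a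
        generalize v ^ ((3 - m : ℝ) : ℂ) = b
        field_simp
      rw [h2] at this
      linear_combination this
    exact mul_left_cancel₀ hv1' hu2

/-! ### the law -/

lemma ellI_one (m : ℝ) : ellI m 1 = 0 := by
  simp [ellI]

lemma LL_eq_left (m : ℝ) {x : ℂ} (hx : x ≠ 0) (y : ℂ) :
    LL (Psi0I m) x y = x ^ 3 * ellI m (y / x) := by
  unfold LL Psi0I
  by_cases h : y = x
  · subst h
    rw [div_self hx, ellI_one]
    simp
  · rw [if_neg h]
    have h1 : y - x ≠ 0 := sub_ne_zero.2 h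
    have h2 : y / x - 1 = (y - x) / x := by field_simp
    rw [h2]
    field_simp

/-- pure algebra of the law -/
lemma alg {m u v x y z Qu Qv sp sm tp tm a b c d : ℂ} (hm : m ≠ 0) (hx : x ≠ 0)
    (hy : y ≠ 0) (hu : y = u * x) (hv : z = v * y)
    (hab : a * b = u ^ 6)
    (hc : c = 1 + (3 + m) * (v - 1) * tp ^ 2) (hd : d = 1 + (3 - m) * (v - 1) * tm ^ 2)
    (h1 : 2 * u * sp * sm * Qu = a * sm ^ 2 + b * sp ^ 2)
    (h2 : 2 * v * tp * tm * Qv = c * tm ^ 2 + d * tp ^ 2)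
    (hel : x ^ 3 * (-(4 / m ^ 2) * (u ^ 2 - Qu) * (1 / x)) +
      (3 * y ^ 2 * (-(4 / m ^ 2) * ((v ^ 3 - 1) / 3 - (v - 1) * tp * tm)) +
        y ^ 3 * (-(4 / m ^ 2) * (v ^ 2 - Qv) * (-z / y ^ 2))) = 0) :
    (a * sm * tp - u ^ 3 * sp * tm) * (a * sm * tm - u ^ 3 * sp * tp) = 0 := by
  subst hu hv
  have hu0 : u ≠ 0 := by rintro rfl; simp at hy
  have e1 : Qu = u ^ 2 * (v * Qv - 3 * ((v - 1) * tp * tm)) := by
    have h3 : -(4 / m ^ 2) * x ^ 2 * ((u ^ 2 - Qu) + 3 * u ^ 2 * ((v ^ 3 - 1) / 3 -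
        (v - 1) * tp * tm) - u ^ 2 * v * (v ^ 2 - Qv)) = 0 := by
      rw [← hel]
      field_simp
      ring
    have h4 : (u ^ 2 - Qu) + 3 * u ^ 2 * ((v ^ 3 - 1) / 3 -
        (v - 1) * tp * tm) - u ^ 2 * v * (v ^ 2 - Qv) = 0 := by
      rcases mul_eq_zero.1 h3 with h | h
      · exfalso
        have : -(4 / m ^ 2) * x ^ 2 ≠ 0 := by
          refine mul_ne_zero (neg_ne_zero.2 (div_ne_zero (by norm_num) (pow_ne_zero _ hm)))
            (pow_ne_zero _ hx)
        exact this h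
      · exact h
    linear_combination -h4
  have e2 : 2 * tp * tm * (v * Qv - 3 * ((v - 1) * tp * tm)) = tp ^ 2 + tm ^ 2 := by
    subst hc hd
    linear_combination h2
  have e3 : (a * sm ^ 2 + b * sp ^ 2) * (tp * tm) = u ^ 3 * sp * sm * (tp ^ 2 + tm ^ 2) := by
    rw [← h1, e1, ← e2]
    ring
  linear_combination a * e3 - sp ^ 2 * tp * tm * hab

set_option maxHeartbeats 1000000 in
/-- **T5-L5I (LAW ISO)** -/
theorem lawI : LawI := by
  intro m ρ C X₀ hm hm3 hX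
  have hm0 : (m : ℂ) ≠ 0 := by rw [Complex.ofReal_ne_zero]; exact hm.ne'
  have h3p : (3 + m : ℝ) ≠ 0 := by positivity
  have h3m : (3 - m : ℝ) ≠ 0 := sub_ne_zero.2 (Ne.symm hm3)
  have h3p' : (3 + m : ℂ) ≠ 0 := by
    have : ((3 + m : ℝ) : ℂ) ≠ 0 := by rw [Complex.ofReal_ne_zero]; exact h3p
    simpa using this
  have h3m' : (3 - m : ℂ) ≠ 0 := by
    have : ((3 - m : ℝ) : ℂ) ≠ 0 := by rw [Complex.ofReal_ne_zero]; exact h3m
    simpa using this
  obtain ⟨δ, hδ, hinj⟩ := aN_inj ((3 + m) / (3 - m)) (div_ne_zero h3p h3m) (by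
    intro h
    rw [div_eq_one_iff_eq h3m] at h
    linarith)
  have hI : (-Complex.I) ≠ 0 := neg_ne_zero.2 Complex.I_ne_zero
  have hρ := hX.ρ_pos
  -- value and continuity of `X₀` at the base point
  have hmem : ((-Complex.I, 0) : ℂ × ℂ) ∈ ball (-Complex.I) ρ ×ˢ ball (0 : ℂ) ρ :=
    ⟨mem_ball_self hρ, mem_ball_self hρ⟩
  have hopen : IsOpen (ball (-Complex.I) ρ ×ˢ ball (0 : ℂ) ρ) := isOpen_ball.prod isOpen_ball
  have hval : X₀ (-Complex.I, 0) = -Complex.I := by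
    have := hX.near (-Complex.I) (mem_ball_self hρ) 0 (mem_ball_self hρ)
    simp only [norm_zero, ne_eq, OfNat.ofNat_ne_zero, not_false_eq_true, zero_pow, mul_zero] at this
    exact sub_eq_zero.1 (norm_le_zero_iff.1 this)
  have hcont : ContinuousAt X₀ (-Complex.I, 0) :=
    (hX.diff.continuousOn.continuousAt (hopen.mem_nhds hmem))
  have htend : ∀ a : ℂ, Tendsto (fun x : ℂ × ℂ => X₀ (x.1 + a * x.2, x.2))
      (𝓝 (-Complex.I, 0)) (𝓝 (-Complex.I)) := by
    intro a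
    have hg : Tendsto (fun x : ℂ × ℂ => ((x.1 + a * x.2, x.2) : ℂ × ℂ)) (𝓝 (-Complex.I, 0))
        (𝓝 (-Complex.I, 0)) := by
      have : Continuous (fun x : ℂ × ℂ => ((x.1 + a * x.2, x.2) : ℂ × ℂ)) := by fun_prop
      have h := this.tendsto (-Complex.I, 0)
      simpa using h
    have h := hcont.tendsto.comp hg
    rw [hval] at h
    exact h
  have hquot : ∀ a b : ℂ, Tendsto (fun x : ℂ × ℂ => X₀ (x.1 + a * x.2, x.2) /
      X₀ (x.1 + b * x.2, x.2)) (𝓝 (-Complex.I, 0)) (𝓝 1) := by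
    intro a b
    have := (htend a).div (htend b) hI
    rwa [div_self hI] at this
  have hgood := eventually_nhdsWithin_iff.1 (near_good m hm hm3)
  have hlog : Tendsto (fun v : ℂ => ‖(((3 - m : ℝ)) : ℂ) * Complex.log v‖) (𝓝 1) (𝓝 0) := by
    have h : ContinuousAt Complex.log 1 := continuousAt_clog (by simp)
    have h2 := (h.tendsto.const_mul (((3 - m : ℝ)) : ℂ)).norm
    simpa using h2
  have hlog' : ∀ᶠ v in 𝓝 (1 : ℂ), ‖(((3 - m : ℝ)) : ℂ) * Complex.log v‖ < δ :=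
    hlog (Iio_mem_nhds hδ)
  have hball : ∀ a : ℂ, ∀ᶠ x in 𝓝 ((-Complex.I, 0) : ℂ × ℂ), x.1 + a * x.2 ∈
      ball (-Complex.I) ρ := by
    intro a
    have : Continuous (fun x : ℂ × ℂ => x.1 + a * x.2) := by fun_prop
    have h := this.tendsto (-Complex.I, 0)
    simp only [mul_zero, add_zero] at h
    exact h (isOpen_ball.mem_nhds (mem_ball_self hρ))
  have hball2 : ∀ᶠ x in 𝓝 ((-Complex.I, 0) : ℂ × ℂ), x.2 ∈ ball (0 : ℂ) ρ := by
    have : Continuous (fun x : ℂ × ℂ => x.2) := by fun_prop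
    exact this.tendsto (-Complex.I, 0) (isOpen_ball.mem_nhds (mem_ball_self hρ))
  have hne : ∀ a : ℂ, ∀ᶠ x in 𝓝 ((-Complex.I, 0) : ℂ × ℂ), X₀ (x.1 + a * x.2, x.2) ≠ 0 := by
    intro a
    exact (htend a) (isOpen_ne.mem_nhds hI)
  filter_upwards [hball (-1), hball 0, hball 1, hball2, hne (-1), hne 0, hne 1,
    (hquot 0 (-1)).eventually hgood, (hquot 1 0).eventually hgood,
    (hquot 0 (-1)).eventually hlog', (hquot 1 0).eventually hlog'] with
    q hb1 hb2 hb3 hbw hn1 hn2 hn3 hg1 hg2 hl1 hl2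
  obtain ⟨t, w⟩ := q
  simp only [neg_mul, one_mul, zero_mul, add_zero, ← sub_eq_add_neg] at hb1 hb2 hb3 hbw hn1 hn2 hn3 hg1 hg2 hl1 hl2
  have a1 : t + w / 2 + w / 2 = t + w := by ring
  have a2 : t + w / 2 - w / 2 = t := by ring
  have a3 : t - w / 2 + w / 2 = t := by ring
  have a4 : t - w / 2 - w / 2 = t - w := by ring
  simp only [rX, a1, a2, a3, a4]
  set x : ℂ := X₀ (t - w, w) with hxdef
  set y : ℂ := X₀ (t, w) with hydef
  set z : ℂ := X₀ (t + w, w) with hzdef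
  by_cases hw : w = 0
  · have hxy : y = x := by rw [hxdef, hydef, hw]; simp
    have hzy : z = y := by rw [hzdef, hydef, hw]; simp
    rw [hzy, hxy, div_self hn1]
    simp [aN]
    ring
  · -- the generic case
    have hwn : 0 < ‖w‖ := norm_pos_iff.2 hw
    have hwρ : ‖w‖ < ρ := by simpa using hbw
    have hsmall : C * ‖w‖ ^ 2 ≤ ‖w‖ / 20 := by
      by_cases hC : 0 ≤ C
      · have : C * ‖w‖ ≤ 1 / 20 := le_trans (mul_le_mul_of_nonneg_left hwρ.le hC) hX.Cρ
        nlinarith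
      · push Not at hC
        have : C * ‖w‖ ^ 2 ≤ 0 := mul_nonpos_of_nonpos_of_nonneg hC.le (by positivity)
        linarith
    have ex : ‖x - (t - w)‖ ≤ ‖w‖ / 20 := (hX.near _ hb1 _ hbw).trans hsmall
    have ey : ‖y - t‖ ≤ ‖w‖ / 20 := (hX.near _ hb2 _ hbw).trans hsmall
    have ez : ‖z - (t + w)‖ ≤ ‖w‖ / 20 := (hX.near _ hb3 _ hbw).trans hsmall
    have hyx : y ≠ x := by
      intro h
      have h1 : w = (x - (t - w)) - (y - t) := by rw [h]; ring
      have h2 : ‖w‖ ≤ ‖w‖ / 20 + ‖w‖ / 20 := by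
        calc ‖w‖ = ‖(x - (t - w)) - (y - t)‖ := by rw [← h1]
          _ ≤ _ := (norm_sub_le _ _).trans (add_le_add ex ey)
      linarith
    have hzy : z ≠ y := by
      intro h
      have h1 : w = (y - t) - (z - (t + w)) := by rw [h]; ring
      have h2 : ‖w‖ ≤ ‖w‖ / 20 + ‖w‖ / 20 := by
        calc ‖w‖ = ‖(y - t) - (z - (t + w))‖ := by rw [← h1]
          _ ≤ _ := (norm_sub_le _ _).trans (add_le_add ey ez)
      linarith
    have hzx : z ≠ x := by
      intro h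
      have h1 : 2 * w = (x - (t - w)) - (z - (t + w)) := by rw [h]; ring
      have h2 : 2 * ‖w‖ ≤ ‖w‖ / 20 + ‖w‖ / 20 := by
        calc 2 * ‖w‖ = ‖2 * w‖ := by simp
          _ = ‖(x - (t - w)) - (z - (t + w))‖ := by rw [← h1]
          _ ≤ _ := (norm_sub_le _ _).trans (add_le_add ex ez)
      linarith
    have hu1 : y / x ≠ 1 := fun h => hyx ((div_eq_one_iff_eq hn1).1 h)
    have hv1 : z / y ≠ 1 := fun h => hzy ((div_eq_one_iff_eq hn2).1 h)
    obtain ⟨hu, hup, hum⟩ := hg1 hu1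
    obtain ⟨hv, hvp, hvm⟩ := hg2 hv1
    obtain ⟨Qu, sp, sm, hdu, hsp, hsm, hAu, hBu, -, hQu⟩ := ellI_deriv hm hm3 hu1 hu hup hum
    obtain ⟨Qv, tp, tm, hdv, htp, htm, hAv, hBv, hlv, hQv⟩ := ellI_deriv hm hm3 hv1 hv hvp hvm
    have hel := hX.el t w hb1 hb2 hb3 hbw
    rw [← hxdef, ← hydef, ← hzdef] at hel
    unfold EL at hel
    -- first derivative
    have hD1 : HasDerivAt (fun y' : ℂ => LL (Psi0I m) x y')
        (x ^ 3 * (-(4 / (m : ℂ) ^ 2) * ((y / x) ^ 2 - Qu) * (1 / x))) y := by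
      have h1 : (fun y' : ℂ => LL (Psi0I m) x y') = fun y' => x ^ 3 * ellI m (y' / x) := by
        funext y'; exact LL_eq_left m hn1 y'
      rw [h1]
      have h2 : HasDerivAt (fun y' : ℂ => y' / x) (1 / x) y := (hasDerivAt_id' y).div_const x
      exact (HasDerivAt.comp y hdu h2).const_mul _
    have hD2 : HasDerivAt (fun y' : ℂ => LL (Psi0I m) y' z)
        (3 * y ^ 2 * ellI m (z / y) +
          y ^ 3 * (-(4 / (m : ℂ) ^ 2) * ((z / y) ^ 2 - Qv) * (-z / y ^ 2))) y := by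
      have h1 : (fun y' : ℂ => LL (Psi0I m) y' z) =ᶠ[𝓝 y] fun y' => y' ^ 3 * ellI m (z / y') := by
        filter_upwards [isOpen_ne.mem_nhds hn2] with y' hy'
        exact LL_eq_left m hy' z
      have h2 : HasDerivAt (fun y' : ℂ => z / y') (-z / y ^ 2) y := by
        have h := (hasDerivAt_inv hn2).const_mul z
        have e : (fun y' : ℂ => z * y'⁻¹) = fun y' => z / y' := by
          funext y'; rw [div_eq_mul_inv]
        rw [e] at h
        have e2 : z * -(y ^ 2)⁻¹ = -z / y ^ 2 := by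
          rw [mul_neg, ← div_eq_mul_inv, neg_div]
        rw [e2] at h
        exact h
      have h3' : HasDerivAt (ellI m ∘ fun y' : ℂ => z / y')
          (-(4 / (m : ℂ) ^ 2) * ((z / y) ^ 2 - Qv) * (-z / y ^ 2)) y :=
        HasDerivAt.comp (h₂ := ellI m) y hdv h2
      have h3 : HasDerivAt (fun y' : ℂ => ellI m (z / y'))
          (-(4 / (m : ℂ) ^ 2) * ((z / y) ^ 2 - Qv) * (-z / y ^ 2)) y := h3'
      have h4 : HasDerivAt (fun y' : ℂ => y' ^ 3) (3 * y ^ 2) y := by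
        simpa using hasDerivAt_pow 3 y
      have h5 := h4.mul h3
      exact HasDerivAt.congr_of_eventuallyEq h5 h1
    rw [hD1.deriv, hD2.deriv, hlv] at hel
    -- powers
    have hu0 : y / x ≠ 0 := div_ne_zero hn2 hn1
    have hv0 : z / y ≠ 0 := div_ne_zero hn3 hn2
    have hab : (y / x) ^ ((3 + m : ℝ) : ℂ) * (y / x) ^ ((3 - m : ℝ) : ℂ) = (y / x) ^ 6 := by
      rw [← Complex.cpow_add _ _ hu0]
      have : ((3 + m : ℝ) : ℂ) + ((3 - m : ℝ) : ℂ) = ((6 : ℕ) : ℂ) := by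
        push_cast; ring
      rw [this, Complex.cpow_natCast]
    have hfac := alg (x := x) (y := y) (z := z) hm0 hn1 hn2 (by field_simp) (by field_simp) hab
      hAv hBv hQu hQv hel
    set a : ℂ := (y / x) ^ ((3 + m : ℝ) : ℂ) with hadef
    set b : ℂ := (y / x) ^ ((3 - m : ℝ) : ℂ) with hbdef
    have ha0 : a ≠ 0 := by
      rw [hadef]; exact (Complex.cpow_ne_zero_iff_of_exponent_ne_zero (by
        rw [Complex.ofReal_ne_zero]; exact h3p)).2 hu0
    have hb0 : b ≠ 0 := by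
      rw [hbdef]; exact (Complex.cpow_ne_zero_iff_of_exponent_ne_zero (by
        rw [Complex.ofReal_ne_zero]; exact h3m)).2 hu0
    -- the two values of `a_n`
    have hlogu : Complex.log (y / x) ≠ 0 := by
      intro h
      exact hu1 (by rw [← Complex.exp_log hu0, h, Complex.exp_zero])
    have hlogv : Complex.log (z / y) ≠ 0 := by
      intro h
      exact hv1 (by rw [← Complex.exp_log hv0, h, Complex.exp_zero])
    have hpc : (((3 - m : ℝ)) : ℂ) ≠ 0 := by rw [Complex.ofReal_ne_zero]; exact h3m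
    have hnp : ((((3 + m) / (3 - m) : ℝ)) : ℂ) * (((3 - m : ℝ)) : ℂ) = ((3 + m : ℝ) : ℂ) := by
      rw [← Complex.ofReal_mul, div_mul_cancel₀ _ h3m]
    have hval1 : aN ((3 + m) / (3 - m)) ((((3 - m : ℝ)) : ℂ) * Complex.log (z / y)) =
        ((3 + m) / (3 - m)) * (tp ^ 2 / tm ^ 2) := by
      rw [aN, if_neg (mul_ne_zero hpc hlogv), ← mul_assoc, hnp]
      have e1 : Complex.exp (((3 + m : ℝ) : ℂ) * Complex.log (z / y)) =
          (z / y) ^ ((3 + m : ℝ) : ℂ) := by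
        rw [Complex.cpow_def_of_ne_zero hv0, mul_comm]
      have e2 : Complex.exp (((3 - m : ℝ) : ℂ) * Complex.log (z / y)) =
          (z / y) ^ ((3 - m : ℝ) : ℂ) := by
        rw [Complex.cpow_def_of_ne_zero hv0, mul_comm]
      rw [e1, e2, hAv, hBv]
      have hv1' : z / y - 1 ≠ 0 := sub_ne_zero.2 hv1
      generalize z / y = V at hv1' ⊢
      rw [add_sub_cancel_left, add_sub_cancel_left]
      field_simp
    have hval2 : aN ((3 + m) / (3 - m)) (-((((3 - m : ℝ)) : ℂ) * Complex.log (y / x))) =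
        ((3 + m) / (3 - m)) * (b * sp ^ 2 / (a * sm ^ 2)) := by
      rw [aN, if_neg (neg_ne_zero.2 (mul_ne_zero hpc hlogu)), mul_neg, ← mul_assoc, hnp,
        Complex.exp_neg, Complex.exp_neg]
      have e1 : Complex.exp (((3 + m : ℝ) : ℂ) * Complex.log (y / x)) = a := by
        rw [hadef, Complex.cpow_def_of_ne_zero hu0, mul_comm]
      have e2 : Complex.exp (((3 - m : ℝ) : ℂ) * Complex.log (y / x)) = b := by
        rw [hbdef, Complex.cpow_def_of_ne_zero hu0, mul_comm]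
      rw [e1, e2]
      have hu1' : y / x - 1 ≠ 0 := sub_ne_zero.2 hu1
      have f1 : a⁻¹ - 1 = -((3 + m) * (y / x - 1) * sp ^ 2) / a := by
        rw [eq_div_iff ha0, sub_mul, inv_mul_cancel₀ ha0]
        linear_combination -hAu
      have f2 : b⁻¹ - 1 = -((3 - m) * (y / x - 1) * sm ^ 2) / b := by
        rw [eq_div_iff hb0, sub_mul, inv_mul_cancel₀ hb0]
        linear_combination -hBu
      rw [f1, f2]
      generalize y / x = U at hu1' ⊢
      field_simp
    rcases mul_eq_zero.1 hfac with hbad | hgd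
    · -- the bad branch
      exfalso
      have hb1' : a * sm * tp = (y / x) ^ 3 * sp * tm := by linear_combination hbad
      have hb2' : a * sm ^ 2 * tp ^ 2 = b * sp ^ 2 * tm ^ 2 := by
        have h1 : (a * sm * tp) ^ 2 = ((y / x) ^ 3 * sp * tm) ^ 2 := by rw [hb1']
        have h2 : a * (a * sm ^ 2 * tp ^ 2) = a * (b * sp ^ 2 * tm ^ 2) := by
          linear_combination h1 - sp ^ 2 * tm ^ 2 * hab
        exact mul_left_cancel₀ ha0 h2
      have heq : aN ((3 + m) / (3 - m)) ((((3 - m : ℝ)) : ℂ) * Complex.log (z / y)) =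
          aN ((3 + m) / (3 - m)) (-((((3 - m : ℝ)) : ℂ) * Complex.log (y / x))) := by
        rw [hval1, hval2]
        congr 1
        rw [div_eq_div_iff (pow_ne_zero _ htm) (mul_ne_zero ha0 (pow_ne_zero _ hsm))]
        linear_combination hb2'
      have hr := hinj _ _ hl2 (by rw [norm_neg]; exact hl1) heq
      have hlg : Complex.log (z / y) = -Complex.log (y / x) := by
        have : (((3 - m : ℝ)) : ℂ) * Complex.log (z / y) =
            (((3 - m : ℝ)) : ℂ) * (-Complex.log (y / x)) := by rw [hr]; ring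
        exact mul_left_cancel₀ hpc this
      have hzz : z / y = (y / x)⁻¹ := by
        rw [← Complex.exp_log hv0, hlg, Complex.exp_neg, Complex.exp_log hu0]
      apply hzx
      field_simp at hzz
      exact hzz
    · have hg1' : a * sm * tm = (y / x) ^ 3 * sp * tp := by linear_combination hgd
      have hg2' : a * sm ^ 2 * tm ^ 2 = b * sp ^ 2 * tp ^ 2 := by
        have h1 : (a * sm * tm) ^ 2 = ((y / x) ^ 3 * sp * tp) ^ 2 := by rw [hg1']
        have h2 : a * (a * sm ^ 2 * tm ^ 2) = a * (b * sp ^ 2 * tp ^ 2) := by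
          linear_combination h1 - sp ^ 2 * tp ^ 2 * hab
        exact mul_left_cancel₀ ha0 h2
      rw [hval1, hval2]
      have h5 : tp ^ 2 / tm ^ 2 * (b * sp ^ 2 / (a * sm ^ 2)) = 1 := by
        rw [div_mul_div_comm, div_eq_one_iff_eq
          (mul_ne_zero (pow_ne_zero _ htm) (mul_ne_zero ha0 (pow_ne_zero _ hsm)))]
        linear_combination -hg2'
      push_cast
      linear_combination ((3 + (m : ℂ)) / (3 - m)) ^ 2 * h5

end Crest.Agent.R102.T5L5I861
end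
end

-- ▼ part R102/T5L5H_556
section

/-!
# Row 102, part (C), [T5], leaf L5H (homogeneity), helper556

`theorem hom : T5R.Hom`.  Everything elementary: with `E := D r - w Q(w) r_t`,
`E (t + w, w) = f' (r) E (t, w)` and `E (-i, w) = 0`, hence `E (-i + v, v / k) = 0` for all `k ≥ 1`,
hence `E = 0` by the identity theorem in one variable; then `r` is constant on the curves
`t / w + C (w) = const`, `w C' = Q`.
-/

set_option autoImplicit false

open Set Filter Topology Metric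

noncomputable section

namespace Crest.Agent.R102.T5R.L5H556

/-- zero propagation along `(t, w) ↦ (t + w, w)` -/
theorem zero_prop {E M : ℂ × ℂ → ℂ} {a : ℂ} {ρ : ℝ}
    (hE : ∀ t w : ℂ, ‖t - a‖ < ρ → ‖w‖ < ρ → AnalyticAt ℂ E (t, w))
    (hrec : ∀ t w : ℂ, ‖t - a‖ < ρ → ‖w‖ < ρ → E (t + w, w) = M (t, w) * E (t, w))
    (h0 : ∀ w : ℂ, ‖w‖ < ρ → E (a, w) = 0) :
    ∀ t w : ℂ, ‖t - a‖ < ρ → ‖w‖ < ρ → E (t, w) = 0 := by
  intro t w ht hw
  by_cases hta : t = a
  · subst hta; exact h0 w hw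
  have hρ : 0 < ρ := lt_of_le_of_lt (norm_nonneg _) hw
  have key : ∀ k : ℕ, E (t, (t - a) / ((k : ℂ) + 1)) = 0 := by
    intro k
    have hk : ((k : ℂ) + 1) ≠ 0 := by exact_mod_cast Nat.succ_ne_zero k
    have hkn : ‖((k : ℂ) + 1)‖ = (k : ℝ) + 1 := by
      have : ((k : ℂ) + 1) = ((k + 1 : ℕ) : ℂ) := by push_cast; ring
      rw [this, Complex.norm_natCast]; push_cast; ring
    set v : ℂ := (t - a) / ((k : ℂ) + 1) with hv
    have hvn : ‖v‖ * ((k : ℝ) + 1) = ‖t - a‖ := by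
      rw [hv, norm_div, hkn]; field_simp
    have hk0 : (0 : ℝ) ≤ k := Nat.cast_nonneg k
    have hv0 : 0 ≤ ‖v‖ := norm_nonneg v
    have hvρ : ‖v‖ < ρ := by nlinarith
    have hind : ∀ j : ℕ, j ≤ k + 1 → E (a + j * v, v) = 0 := by
      intro j
      induction j with
      | zero => intro _; simpa using h0 v hvρ
      | succ j ih =>
        intro hj
        have hjk : (j : ℝ) ≤ k := by exact_mod_cast (Nat.succ_le_succ_iff.mp hj)
        have h1 : ‖(a + j * v) - a‖ < ρ := by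
          have : (a + j * v) - a = j * v := by ring
          rw [this, norm_mul, Complex.norm_natCast]
          nlinarith
        have h2 := hrec (a + j * v) v h1 hvρ
        rw [ih (by omega), mul_zero] at h2
        have e : a + ((j + 1 : ℕ) : ℂ) * v = a + j * v + v := by push_cast; ring
        rw [e]; exact h2
    have h3 := hind (k + 1) le_rfl
    have e : a + ((k + 1 : ℕ) : ℂ) * v = t := by
      rw [hv]; push_cast; field_simp; ring
    rwa [e] at h3
  have han : AnalyticOnNhd ℂ (fun w => E (t, w)) (ball 0 ρ) := by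
    intro z hz
    have hz' : ‖z‖ < ρ := by simpa using hz
    exact (hE t z ht hz').comp (f := fun w : ℂ => (t, w))
      (analyticAt_const.prod analyticAt_id)
  have hlim : Tendsto (fun k : ℕ => (t - a) / ((k : ℂ) + 1)) atTop (𝓝[≠] 0) := by
    rw [tendsto_nhdsWithin_iff]
    constructor
    · have h1 : Tendsto (fun k : ℕ => (1 : ℂ) / ((k : ℂ) + 1)) atTop (𝓝 0) :=
        tendsto_one_div_add_atTop_nhds_zero_nat
      have h2 := h1.const_mul (t - a)
      simpa [div_eq_mul_inv] using h2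
    · refine Eventually.of_forall fun k => ?_
      have hk : ((k : ℂ) + 1) ≠ 0 := by exact_mod_cast Nat.succ_ne_zero k
      exact div_ne_zero (sub_ne_zero.mpr hta) hk
  have hfreq : ∃ᶠ z in 𝓝[≠] (0 : ℂ), (fun w => E (t, w)) z = 0 :=
    hlim.frequently (Frequently.of_forall key)
  have hres := han.eqOn_zero_of_preconnected_of_frequently_eq_zero
    (convex_ball (0 : ℂ) ρ).isPreconnected (mem_ball_self hρ) hfreq
  exact hres (by simpa using hw)

/-- division by the variable -/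
theorem exists_div {φ : ℂ → ℂ} (hφ : AnalyticAt ℂ φ 0) (h0 : φ 0 = 0) :
    ∃ ψ : ℂ → ℂ, AnalyticAt ℂ ψ 0 ∧ ψ 0 = deriv φ 0 ∧ ∀ w, φ w = w * ψ w := by
  obtain ⟨P, hP⟩ := hφ
  refine ⟨dslope φ 0, ⟨_, hP.has_fpower_series_dslope_fslope⟩, dslope_same φ 0, fun w => ?_⟩
  have := sub_smul_dslope φ 0 w
  rw [h0] at this
  simpa [smul_eq_mul] using this.symm

/-- a local inverse of an analytic germ -/
theorem exists_inv {U : ℂ → ℂ} (hU : AnalyticAt ℂ U 0) (h0 : U 0 = 0) (h1 : deriv U 0 ≠ 0) :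
    ∃ W : ℂ → ℂ, AnalyticAt ℂ W 0 ∧ W 0 = 0 ∧ HasDerivAt W (deriv U 0)⁻¹ 0 ∧
      (∀ᶠ w in 𝓝 (0 : ℂ), W (U w) = w) ∧ (∀ᶠ u in 𝓝 (0 : ℂ), U (W u) = u) := by
  refine ⟨hU.hasStrictDerivAt.localInverse _ _ _ h1, ?_, ?_, ?_, ?_, ?_⟩
  · have := hU.analyticAt_localInverse h1
    rwa [h0] at this
  · have : hU.hasStrictDerivAt.localInverse _ _ _ h1 (U 0) = 0 :=
      HasStrictFDerivAt.localInverse_apply_image ..
    rwa [h0] at this
  · have := (hU.hasStrictDerivAt.to_localInverse h1).hasDerivAt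
    rwa [h0] at this
  · exact HasStrictDerivAt.eventually_left_inverse ..
  · have := hU.hasStrictDerivAt.eventually_right_inverse h1
    rwa [h0] at this


/-- the shear `(t, w) ↦ (t + w, w)` -/
def Sh : ℂ × ℂ →L[ℂ] ℂ × ℂ :=
  (ContinuousLinearMap.fst ℂ ℂ ℂ + ContinuousLinearMap.snd ℂ ℂ ℂ).prod
    (ContinuousLinearMap.snd ℂ ℂ ℂ)

theorem Sh_apply (x : ℂ × ℂ) : Sh x = (x.1 + x.2, x.2) := by
  simp [Sh]

/-- the flip `(t, w) ↦ (t, -w)` -/
def Fl : ℂ × ℂ →L[ℂ] ℂ × ℂ :=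
  (ContinuousLinearMap.fst ℂ ℂ ℂ).prod (-ContinuousLinearMap.snd ℂ ℂ ℂ)

theorem Fl_apply (x : ℂ × ℂ) : Fl x = (x.1, -x.2) := by
  simp [Fl]

theorem fderiv_shear {f : ℂ → ℂ} {r : ℂ × ℂ → ℂ} {x : ℂ × ℂ} (hr : AnalyticAt ℂ r x)
    (hrS : AnalyticAt ℂ r (x.1 + x.2, x.2)) (hf : AnalyticAt ℂ f (r x))
    (h : ∀ᶠ y in 𝓝 x, r (y.1 + y.2, y.2) = f (r y)) (v : ℂ × ℂ) :
    fderiv ℂ r (x.1 + x.2, x.2) (v.1 + v.2, v.2) = deriv f (r x) * fderiv ℂ r x v := by
  rw [← Sh_apply] at hrS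
  have h1 : HasFDerivAt (fun y => r (Sh y)) ((fderiv ℂ r (Sh x)).comp Sh) x :=
    hrS.differentiableAt.hasFDerivAt.comp x Sh.hasFDerivAt
  have h2 : HasFDerivAt (fun y => f (r y)) (deriv f (r x) • fderiv ℂ r x) x :=
    hf.differentiableAt.hasDerivAt.comp_hasFDerivAt x hr.differentiableAt.hasFDerivAt
  have h3 : (fun y => r (Sh y)) =ᶠ[𝓝 x] (fun y => f (r y)) := by
    filter_upwards [h] with y hy
    rw [Sh_apply]; exact hy
  have h4 := h1.unique (h2.congr_of_eventuallyEq h3)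
  have h5 := congrArg (fun L : ℂ × ℂ →L[ℂ] ℂ => L v) h4
  simpa [Sh_apply] using h5

theorem fderiv_flip {r : ℂ × ℂ → ℂ} {x : ℂ × ℂ} (hr : AnalyticAt ℂ r x)
    (hrS : AnalyticAt ℂ r (x.1, -x.2)) (h : ∀ᶠ y in 𝓝 x, r (y.1, -y.2) = -r y) (v : ℂ × ℂ) :
    fderiv ℂ r (x.1, -x.2) (v.1, -v.2) = -fderiv ℂ r x v := by
  rw [← Fl_apply] at hrS
  have h1 : HasFDerivAt (fun y => r (Fl y)) ((fderiv ℂ r (Fl x)).comp Fl) x :=
    hrS.differentiableAt.hasFDerivAt.comp x Fl.hasFDerivAt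
  have h2 : HasFDerivAt (fun y => -r y) (-fderiv ℂ r x) x :=
    hr.differentiableAt.hasFDerivAt.neg
  have h3 : (fun y => r (Fl y)) =ᶠ[𝓝 x] (fun y => -r y) := by
    filter_upwards [h] with y hy
    rw [Fl_apply]; exact hy
  have h4 := h1.unique (h2.congr_of_eventuallyEq h3)
  have h5 := congrArg (fun L : ℂ × ℂ →L[ℂ] ℂ => L v) h4
  simpa [Fl_apply] using h5

/-- analyticity of a directional derivative along a vertical line -/
theorem analyticAt_dir {r : ℂ × ℂ → ℂ} {a b : ℂ} (hr : AnalyticAt ℂ r (a, b)) (v : ℂ × ℂ) :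
    AnalyticAt ℂ (fun w => fderiv ℂ r (a, w) v) b := by
  have h1 : AnalyticAt ℂ (fun x => fderiv ℂ r x v) (a, b) :=
    ((ContinuousLinearMap.apply ℂ ℂ v).analyticAt _).comp hr.fderiv
  exact h1.comp (f := fun w : ℂ => (a, w)) (analyticAt_const.prod analyticAt_id)

theorem deriv_data {p : ℝ} {r : ℂ × ℂ → ℂ} (hr : AnalyticAt ℂ r (-Complex.I, 0))
    (h : ∀ᶠ t in 𝓝 (-Complex.I), r (t, 0) = 0 ∧ deriv (fun w => r (t, w)) 0 = p / t) :
    fderiv ℂ r (-Complex.I, 0) (1, 0) = 0 ∧ fderiv ℂ r (-Complex.I, 0) (0, 1) = p * Complex.I ∧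
      deriv (fun w => fderiv ℂ r (-Complex.I, w) (1, 0)) 0 = p := by
  have hI : (-Complex.I) ≠ 0 := neg_ne_zero.mpr Complex.I_ne_zero
  have hrev : ∀ᶠ x in 𝓝 ((-Complex.I, 0) : ℂ × ℂ), AnalyticAt ℂ r x := hr.eventually_analyticAt
  have hline : Tendsto (fun t : ℂ => ((t, 0) : ℂ × ℂ)) (𝓝 (-Complex.I)) (𝓝 (-Complex.I, 0)) :=
    Continuous.tendsto (by fun_prop) _
  have hdt : ∀ t : ℂ, HasDerivAt (fun s : ℂ => ((s, 0) : ℂ × ℂ)) (1, 0) t := fun t =>
    (hasDerivAt_id t).prodMk (hasDerivAt_const t (0 : ℂ))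
  have hdw : ∀ t w : ℂ, HasDerivAt (fun s : ℂ => ((t, s) : ℂ × ℂ)) (0, 1) w := fun t w =>
    (hasDerivAt_const w t).prodMk (hasDerivAt_id w)
  -- first
  have e1 : fderiv ℂ r (-Complex.I, 0) (1, 0) = 0 := by
    have h1 : HasDerivAt (fun t => r (t, 0)) (fderiv ℂ r (-Complex.I, 0) (1, 0)) (-Complex.I) :=
      hr.differentiableAt.hasFDerivAt.comp_hasDerivAt (-Complex.I) (hdt _)
    have h2 : (fun t => r (t, 0)) =ᶠ[𝓝 (-Complex.I)] fun _ => (0 : ℂ) := by
      filter_upwards [h] with t ht using ht.1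
    exact h1.unique ((hasDerivAt_const _ _).congr_of_eventuallyEq h2)
  have e2' : ∀ᶠ t in 𝓝 (-Complex.I), fderiv ℂ r (t, 0) (0, 1) = p / t := by
    filter_upwards [h, hline.eventually hrev] with t ht hrt
    have h1 : HasDerivAt (fun w => r (t, w)) (fderiv ℂ r (t, 0) (0, 1)) 0 :=
      hrt.differentiableAt.hasFDerivAt.comp_hasDerivAt (0 : ℂ) (hdw t 0)
    rw [← h1.deriv]; exact ht.2
  have e2 : fderiv ℂ r (-Complex.I, 0) (0, 1) = p * Complex.I := by
    rw [e2'.self_of_nhds]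
    field_simp
    simp
  refine ⟨e1, e2, ?_⟩
  -- second derivative
  have hf2 : HasFDerivAt (fderiv ℂ r) (fderiv ℂ (fderiv ℂ r) (-Complex.I, 0)) (-Complex.I, 0) :=
    hr.fderiv.differentiableAt.hasFDerivAt
  have hsym := second_derivative_symmetric_of_eventually (𝕜 := ℂ) (f := r) (f' := fderiv ℂ r)
    (hrev.mono fun x hx => hx.differentiableAt.hasFDerivAt) hf2 (0, 1) (1, 0)
  have h1 : HasDerivAt (fun w => fderiv ℂ r (-Complex.I, w))
      (fderiv ℂ (fderiv ℂ r) (-Complex.I, 0) (0, 1)) 0 :=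
    hf2.comp_hasDerivAt (0 : ℂ) (hdw _ 0)
  have h2 : HasDerivAt (fun t => fderiv ℂ r (t, 0))
      (fderiv ℂ (fderiv ℂ r) (-Complex.I, 0) (1, 0)) (-Complex.I) :=
    hf2.comp_hasDerivAt (-Complex.I) (hdt _)
  have h1' : HasDerivAt (fun w => fderiv ℂ r (-Complex.I, w) (1, 0))
      (fderiv ℂ (fderiv ℂ r) (-Complex.I, 0) (0, 1) (1, 0)) 0 := by
    simpa using h1.clm_apply (hasDerivAt_const (0 : ℂ) ((1, 0) : ℂ × ℂ))
  have h2' : HasDerivAt (fun t => fderiv ℂ r (t, 0) (0, 1))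
      (fderiv ℂ (fderiv ℂ r) (-Complex.I, 0) (1, 0) (0, 1)) (-Complex.I) := by
    simpa using h2.clm_apply (hasDerivAt_const (-Complex.I) ((0, 1) : ℂ × ℂ))
  have h3 : HasDerivAt (fun t : ℂ => (p : ℂ) / t) p (-Complex.I) := by
    have := (hasDerivAt_inv hI).const_mul (p : ℂ)
    simpa [div_eq_mul_inv] using this
  have h4 := h2'.unique (h3.congr_of_eventuallyEq e2')
  rw [h1'.deriv, hsym, h4]


/-- the function `Q` -/
theorem exists_Q {p : ℝ} {r : ℂ × ℂ → ℂ} (hp : p ≠ 0) (hr : AnalyticAt ℂ r (-Complex.I, 0))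
    (h : ∀ᶠ t in 𝓝 (-Complex.I), r (t, 0) = 0 ∧ deriv (fun w => r (t, w)) 0 = p / t)
    (hodd : ∀ᶠ x in 𝓝 ((-Complex.I, 0) : ℂ × ℂ), r (x.1, -x.2) = -r x) :
    ∃ Q : ℂ → ℂ, AnalyticAt ℂ Q 0 ∧ (∀ᶠ w in 𝓝 (0 : ℂ), Q (-w) = -Q w) ∧
      ∀ᶠ w in 𝓝 (0 : ℂ), fderiv ℂ r (-Complex.I, w) (-Complex.I, w) -
        w * Q w * fderiv ℂ r (-Complex.I, w) (1, 0) = 0 := by
  obtain ⟨d1, d2, d3⟩ := deriv_data hr h
  set g : ℂ → ℂ := fun w => fderiv ℂ r (-Complex.I, w) (1, 0) with hg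
  set k : ℂ → ℂ := fun w => fderiv ℂ r (-Complex.I, w) (0, 1) with hk
  have hgA : AnalyticAt ℂ g 0 := analyticAt_dir hr _
  have hkA : AnalyticAt ℂ k 0 := analyticAt_dir hr _
  obtain ⟨g1, hg1A, hg10, hg1⟩ := exists_div hgA d1
  rw [d3] at hg10
  have hpC : (p : ℂ) ≠ 0 := by exact_mod_cast hp
  have hmA : AnalyticAt ℂ (fun w => -Complex.I * g1 w + k w) 0 :=
    (analyticAt_const.mul hg1A).add hkA
  obtain ⟨m1, hm1A, -, hm1⟩ := exists_div hmA (by simp only [hg10, hk, d2]; ring)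
  have hN : ∀ w, fderiv ℂ r (-Complex.I, w) (-Complex.I, w) = w ^ 2 * m1 w := by
    intro w
    have e : ((-Complex.I, w) : ℂ × ℂ) = (-Complex.I) • (1, 0) + w • (0, 1) := by
      ext <;> simp
    have e1 : fderiv ℂ r (-Complex.I, w) (-Complex.I, w) = -Complex.I * g w + w * k w := by
      conv_lhs => rw [show fderiv ℂ r (-Complex.I, w) (-Complex.I, w) =
        fderiv ℂ r (-Complex.I, w) ((-Complex.I) • (1, 0) + w • (0, 1)) by rw [← e]]
      rw [map_add, map_smul, map_smul]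
      simp [hg, hk]
    rw [e1, hg1 w]
    have := hm1 w
    linear_combination w * this
  have hev : ∀ᶠ w in 𝓝 (0 : ℂ), g1 w ≠ 0 :=
    hg1A.continuousAt.eventually_ne (by rw [hg10]; exact hpC)
  -- symmetry
  have hline : Tendsto (fun w : ℂ => ((-Complex.I, w) : ℂ × ℂ)) (𝓝 0) (𝓝 (-Complex.I, 0)) :=
    Continuous.tendsto (by fun_prop) _
  have hline' : Tendsto (fun w : ℂ => ((-Complex.I, -w) : ℂ × ℂ)) (𝓝 0) (𝓝 (-Complex.I, 0)) := by
    have : Continuous (fun w : ℂ => ((-Complex.I, -w) : ℂ × ℂ)) := by fun_prop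
    simpa using this.tendsto 0
  have hflip : ∀ᶠ w in 𝓝 (0 : ℂ), ∀ v : ℂ × ℂ,
      fderiv ℂ r (-Complex.I, -w) (v.1, -v.2) = -fderiv ℂ r (-Complex.I, w) v := by
    filter_upwards [hline.eventually hr.eventually_analyticAt,
      hline'.eventually hr.eventually_analyticAt, hline.eventually hodd.eventually_nhds]
      with w h1 h2 h3 v
    exact fderiv_flip (x := (-Complex.I, w)) h1 h2 h3 v
  have hneg : Tendsto (fun w : ℂ => -w) (𝓝 0) (𝓝 0) := by
    simpa using (continuous_neg (G := ℂ)).tendsto 0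
  have hg1e : ∀ᶠ w in 𝓝[≠] (0 : ℂ), g1 (-w) = g1 w := by
    filter_upwards [hflip.filter_mono nhdsWithin_le_nhds, self_mem_nhdsWithin] with w hw hw0
    have h1 := hw (1, 0)
    simp only [neg_zero] at h1
    have h2 : g (-w) = -g w := h1
    rw [hg1, hg1] at h2
    have hw0' : w ≠ 0 := hw0
    have h3 : w * (g1 (-w) - g1 w) = 0 := by linear_combination -h2
    rcases mul_eq_zero.mp h3 with h | h
    · exact absurd h hw0'
    · exact sub_eq_zero.mp h
  have hm1o : ∀ᶠ w in 𝓝[≠] (0 : ℂ), m1 (-w) = -m1 w := by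
    filter_upwards [hflip.filter_mono nhdsWithin_le_nhds, self_mem_nhdsWithin] with w hw hw0
    have h1 := hw (-Complex.I, w)
    simp only [hN] at h1
    have hw0' : w ≠ 0 := hw0
    have h3 : w ^ 2 * (m1 (-w) + m1 w) = 0 := by linear_combination h1
    rcases mul_eq_zero.mp h3 with h | h
    · exact absurd h (pow_ne_zero 2 hw0')
    · linear_combination h
  have hQA : AnalyticAt ℂ (fun w => m1 w / g1 w) 0 := hm1A.div hg1A (by rw [hg10]; exact hpC)
  refine ⟨fun w => m1 w / g1 w, hQA, ?_, ?_⟩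
  · have hA1 : AnalyticAt ℂ (fun w : ℂ => m1 (-w) / g1 (-w)) 0 := by
      have h0 : AnalyticAt ℂ (fun w => m1 w / g1 w) (-0) := by simpa using hQA
      exact h0.comp (f := fun w : ℂ => -w) analyticAt_id.neg
    refine (hA1.frequently_eq_iff_eventually_eq hQA.neg).mp ?_
    refine Eventually.frequently ?_
    filter_upwards [hg1e, hm1o] with w h1 h2
    simp only [Pi.neg_apply, h1, h2, neg_div]
  · filter_upwards [hev] with w hw
    rw [hN, show fderiv ℂ r (-Complex.I, w) (1, 0) = w * g1 w from hg1 w]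
    field_simp
    ring

/-- the function `C` -/
theorem exists_C {Q : ℂ → ℂ} (hQ : AnalyticAt ℂ Q 0) (ho : ∀ᶠ w in 𝓝 (0 : ℂ), Q (-w) = -Q w) :
    ∃ C : ℂ → ℂ, AnalyticAt ℂ C 0 ∧ C 0 = 0 ∧ (∀ᶠ w in 𝓝 (0 : ℂ), C (-w) = -C w) ∧
      ∀ᶠ w in 𝓝 (0 : ℂ), w * deriv C w = Q w := by
  have h0 : Q 0 = 0 := by
    have := ho.self_of_nhds
    rw [neg_zero] at this
    have h2 : (2 : ℂ) * Q 0 = 0 := by linear_combination this
    simpa using h2
  obtain ⟨c, hcA, -, hc⟩ := exists_div hQ h0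
  obtain ⟨ρ, hρ, hb⟩ := Metric.eventually_nhds_iff_ball.mp hcA.eventually_analyticAt
  obtain ⟨ρ', hρ', hb'⟩ := Metric.eventually_nhds_iff_ball.mp ho
  have hd : DifferentiableOn ℂ c (ball 0 ρ) := fun z hz =>
    (hb z hz).differentiableAt.differentiableWithinAt
  obtain ⟨C, hC0, hC⟩ := hd.isExactOn_ball.with_val_at 0 0
  have hCd : DifferentiableOn ℂ C (ball 0 ρ) := fun z hz =>
    (hC z hz).differentiableAt.differentiableWithinAt
  have hCA : AnalyticAt ℂ C 0 := hCd.analyticAt (ball_mem_nhds _ hρ)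
  refine ⟨C, hCA, hC0, ?_, ?_⟩
  · set σ := min ρ ρ' with hσ
    have hσ0 : 0 < σ := lt_min hρ hρ'
    have hder : ∀ z ∈ ball (0 : ℂ) σ, HasDerivAt (fun w => C w + C (-w)) 0 z := by
      intro z hz
      have hz' : ‖z‖ < σ := by simpa using hz
      have hz1 : z ∈ ball (0 : ℂ) ρ := by simpa using lt_of_lt_of_le hz' (min_le_left _ _)
      have hz1' : -z ∈ ball (0 : ℂ) ρ := by simpa using lt_of_lt_of_le hz' (min_le_left _ _)
      have hz2 : z ∈ ball (0 : ℂ) ρ' := by simpa using lt_of_lt_of_le hz' (min_le_right _ _)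
      have hodd := hb' z hz2
      have hev : c (-z) = c z := by
        by_cases hz0 : z = 0
        · simp [hz0]
        · rw [hc, hc] at hodd
          have h3 : z * (c (-z) - c z) = 0 := by linear_combination -hodd
          rcases mul_eq_zero.mp h3 with h | h
          · exact absurd h hz0
          · exact sub_eq_zero.mp h
      have h1 : HasDerivAt (fun w => C w + C (-w)) (c z + c (-z) * (-1)) z :=
        (hC z hz1).add ((hC (-z) hz1').comp z (hasDerivAt_neg z))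
      rw [hev, show c z + c z * (-1) = 0 by ring] at h1
      exact h1
    have hconst : ∀ z ∈ ball (0 : ℂ) σ, C z + C (-z) = 0 := by
      intro z hz
      have := (convex_ball (0 : ℂ) σ).is_const_of_fderivWithin_eq_zero (𝕜 := ℂ)
        (f := fun w => C w + C (-w))
        (fun x hx => (hder x hx).differentiableAt.differentiableWithinAt)
        (fun x hx => by
          rw [fderivWithin_of_isOpen isOpen_ball hx]
          have := (hder x hx).hasFDerivAt.fderiv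
          rw [this]; ext; simp) hz (mem_ball_self hσ0)
      simpa [hC0] using this
    filter_upwards [ball_mem_nhds (0 : ℂ) hσ0] with z hz
    linear_combination hconst z hz
  · filter_upwards [ball_mem_nhds (0 : ℂ) hρ] with z hz
    rw [(hC z hz).deriv, hc]


/-- **step 1**: the PDE -/
theorem pde {f : ℂ → ℂ} {r : ℂ × ℂ → ℂ} {Q : ℂ → ℂ} (hf : AnalyticAt ℂ f 0)
    (hr : AnalyticAt ℂ r (-Complex.I, 0)) (hr0 : r (-Complex.I, 0) = 0)
    (hrec : ∀ᶠ x in 𝓝 ((-Complex.I, 0) : ℂ × ℂ), r (x.1 + x.2, x.2) = f (r x))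
    (hQ : AnalyticAt ℂ Q 0)
    (hN : ∀ᶠ w in 𝓝 (0 : ℂ), fderiv ℂ r (-Complex.I, w) (-Complex.I, w) -
        w * Q w * fderiv ℂ r (-Complex.I, w) (1, 0) = 0) :
    ∀ᶠ x in 𝓝 ((-Complex.I, 0) : ℂ × ℂ),
      fderiv ℂ r x x - x.2 * Q x.2 * fderiv ℂ r x (1, 0) = 0 := by
  have hcont : Tendsto (fun x : ℂ × ℂ => ((x.1 + x.2, x.2) : ℂ × ℂ)) (𝓝 (-Complex.I, 0))
      (𝓝 (-Complex.I, 0)) := by
    have : Continuous (fun x : ℂ × ℂ => ((x.1 + x.2, x.2) : ℂ × ℂ)) := by fun_prop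
    simpa using this.tendsto (-Complex.I, 0)
  have hsnd : Tendsto (fun x : ℂ × ℂ => x.2) (𝓝 (-Complex.I, 0)) (𝓝 (0 : ℂ)) :=
    continuous_snd.tendsto (-Complex.I, (0 : ℂ))
  have hrt : Tendsto r (𝓝 (-Complex.I, 0)) (𝓝 0) := by
    simpa [hr0] using hr.continuousAt.tendsto
  have hall : ∀ᶠ x in 𝓝 ((-Complex.I, 0) : ℂ × ℂ), AnalyticAt ℂ r x ∧
      AnalyticAt ℂ r (x.1 + x.2, x.2) ∧ AnalyticAt ℂ f (r x) ∧ AnalyticAt ℂ Q x.2 ∧
      (∀ᶠ y in 𝓝 x, r (y.1 + y.2, y.2) = f (r y)) ∧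
      (fderiv ℂ r (-Complex.I, x.2) (-Complex.I, x.2) -
        x.2 * Q x.2 * fderiv ℂ r (-Complex.I, x.2) (1, 0) = 0) := by
    filter_upwards [hr.eventually_analyticAt, hcont.eventually hr.eventually_analyticAt,
      hrt.eventually hf.eventually_analyticAt, hsnd.eventually hQ.eventually_analyticAt,
      hrec.eventually_nhds, hsnd.eventually hN] with x h1 h2 h3 h4 h5 h6
    exact ⟨h1, h2, h3, h4, h5, h6⟩
  obtain ⟨ρ, hρ, hb⟩ := Metric.eventually_nhds_iff_ball.mp hall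
  have hmem : ∀ t w : ℂ, ‖t - -Complex.I‖ < ρ → ‖w‖ < ρ →
      ((t, w) : ℂ × ℂ) ∈ ball ((-Complex.I, 0) : ℂ × ℂ) ρ := by
    intro t w ht hw
    rw [Metric.mem_ball, Prod.dist_eq, max_lt_iff]
    exact ⟨by simpa [dist_eq_norm] using ht, by simpa [dist_eq_norm] using hw⟩
  have hzero := zero_prop (a := -Complex.I) (ρ := ρ)
    (E := fun x => fderiv ℂ r x x - x.2 * Q x.2 * fderiv ℂ r x (1, 0))
    (M := fun x => deriv f (r x)) ?_ ?_ ?_
  · filter_upwards [ball_mem_nhds ((-Complex.I, 0) : ℂ × ℂ) hρ] with x hx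
    rw [Metric.mem_ball, Prod.dist_eq, max_lt_iff] at hx
    exact hzero x.1 x.2 (by simpa [dist_eq_norm] using hx.1) (by simpa [dist_eq_norm] using hx.2)
  · intro t w ht hw
    obtain ⟨h1, -, -, h4, -, -⟩ := hb (t, w) (hmem t w ht hw)
    have a1 : AnalyticAt ℂ (fun x : ℂ × ℂ => fderiv ℂ r x x) (t, w) := by
      have hh : AnalyticAt ℂ (fun q : (ℂ × ℂ →L[ℂ] ℂ) × (ℂ × ℂ) => q.1 q.2)
          (fderiv ℂ r (t, w), (t, w)) :=
        (ContinuousLinearMap.apply ℂ ℂ).flip.analyticAt_bilinear _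
      exact hh.comp (f := fun x : ℂ × ℂ => (fderiv ℂ r x, x)) (h1.fderiv.prod analyticAt_id)
    have a2 : AnalyticAt ℂ (fun x : ℂ × ℂ => fderiv ℂ r x (1, 0)) (t, w) :=
      ((ContinuousLinearMap.apply ℂ ℂ ((1, 0) : ℂ × ℂ)).analyticAt _).comp h1.fderiv
    have a3 : AnalyticAt ℂ (fun x : ℂ × ℂ => Q x.2) (t, w) :=
      AnalyticAt.comp (g := Q) (f := fun x : ℂ × ℂ => x.2) h4 analyticAt_snd
    exact a1.sub ((analyticAt_snd.mul a3).mul a2)
  · intro t w ht hw
    obtain ⟨h1, h2, h3, -, h5, -⟩ := hb (t, w) (hmem t w ht hw)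
    have e1 := fderiv_shear h1 h2 h3 h5 (t, w)
    have e2 := fderiv_shear h1 h2 h3 h5 (1, 0)
    simp only [add_zero] at e1 e2
    simp only [e1, e2]
    ring
  · intro w hw
    exact (hb (-Complex.I, w) (hmem _ w (by simpa using hρ) hw)).2.2.2.2.2


/-- **step 2**: `r` is constant on `t / w + C (w) = 1 / u` -/
theorem const_curve {r : ℂ × ℂ → ℂ} {Q C : ℂ → ℂ} (hr : AnalyticAt ℂ r (-Complex.I, 0))
    (hpde : ∀ᶠ x in 𝓝 ((-Complex.I, 0) : ℂ × ℂ),
      fderiv ℂ r x x - x.2 * Q x.2 * fderiv ℂ r x (1, 0) = 0)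
    (hC : AnalyticAt ℂ C 0) (hCQ : ∀ᶠ w in 𝓝 (0 : ℂ), w * deriv C w = Q w) :
    ∃ ε : ℝ, 0 < ε ∧ ∀ᶠ u in 𝓝 (0 : ℂ), u ≠ 0 → ∀ w0 ∈ ball (-Complex.I * u) (ε * ‖u‖),
      ∀ w1 ∈ ball (-Complex.I * u) (ε * ‖u‖),
        r (w0 / u - w0 * C w0, w0) = r (w1 / u - w1 * C w1, w1) := by
  obtain ⟨ρ, hρ, hb⟩ := Metric.eventually_nhds_iff_ball.mp (hr.eventually_analyticAt.and hpde)
  have hwC : Tendsto (fun w => w * C w) (𝓝 0) (𝓝 0) := by
    have h1 : ContinuousAt (fun w => w * C w) 0 :=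
      ContinuousAt.mul (continuousAt_id (x := (0 : ℂ))) hC.continuousAt
    simpa [ContinuousAt] using h1
  have hwC' : ∀ᶠ w in 𝓝 (0 : ℂ), ‖w * C w‖ < ρ / 2 := by
    have := hwC (ball_mem_nhds (0 : ℂ) (half_pos hρ))
    filter_upwards [this] with w hw
    simpa using hw
  obtain ⟨δ, hδ, hb'⟩ := Metric.eventually_nhds_iff_ball.mp
    ((hC.eventually_analyticAt.and hCQ).and hwC')
  set ε : ℝ := min ρ 1 / 2 with hε
  have hε0 : 0 < ε := by rw [hε]; positivity
  have hερ : ε ≤ ρ / 2 := by rw [hε]; gcongr; exact min_le_left _ _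
  have hε1 : ε ≤ 1 / 2 := by rw [hε]; gcongr; exact min_le_right _ _
  refine ⟨ε, hε0, ?_⟩
  filter_upwards [ball_mem_nhds (0 : ℂ) (show 0 < min (δ / 2) (ρ / 2) by positivity)] with u hu hu0
  have hu' : ‖u‖ < min (δ / 2) (ρ / 2) := by simpa using hu
  have hu1 : ‖u‖ < δ / 2 := lt_of_lt_of_le hu' (min_le_left _ _)
  have hu2 : ‖u‖ < ρ / 2 := lt_of_lt_of_le hu' (min_le_right _ _)
  have hup : 0 < ‖u‖ := norm_pos_iff.mpr hu0
  have hder : ∀ w ∈ ball (-Complex.I * u) (ε * ‖u‖),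
      HasDerivAt (fun w => r (w / u - w * C w, w)) 0 w := by
    intro w hw
    have hw' : ‖w + Complex.I * u‖ < ε * ‖u‖ := by
      rw [mem_ball_iff_norm] at hw
      have e : w - -Complex.I * u = w + Complex.I * u := by ring
      rwa [e] at hw
    have hIu : ‖Complex.I * u‖ = ‖u‖ := by simp
    have hwn : ‖w‖ ≤ ε * ‖u‖ + ‖u‖ := by
      have : w = (w + Complex.I * u) - Complex.I * u := by ring
      calc ‖w‖ = ‖(w + Complex.I * u) - Complex.I * u‖ := by rw [← this]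
        _ ≤ ‖w + Complex.I * u‖ + ‖Complex.I * u‖ := norm_sub_le _ _
        _ ≤ ε * ‖u‖ + ‖u‖ := by rw [hIu]; linarith
    have hw0 : w ≠ 0 := by
      rintro rfl
      rw [zero_add, hIu] at hw'
      nlinarith
    have hwδ : ‖w‖ < δ := by nlinarith
    have hwρ : ‖w‖ < ρ := by nlinarith
    obtain ⟨⟨hCA, hCd⟩, hCs⟩ := hb' w (by simpa using hwδ)
    have ht : ‖(w / u - w * C w) - -Complex.I‖ < ρ := by
      have e : (w / u - w * C w) - -Complex.I = (w + Complex.I * u) / u - w * C w := by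
        rw [add_div, mul_div_cancel_right₀ _ hu0]
        ring
      rw [e]
      have h1 : ‖(w + Complex.I * u) / u‖ < ε := by
        rw [norm_div, div_lt_iff₀ hup]; exact hw'
      have := norm_sub_le ((w + Complex.I * u) / u) (w * C w)
      linarith
    have hx : ((w / u - w * C w, w) : ℂ × ℂ) ∈ ball ((-Complex.I, 0) : ℂ × ℂ) ρ := by
      rw [Metric.mem_ball, Prod.dist_eq, max_lt_iff]
      exact ⟨by simpa [dist_eq_norm] using ht, by simpa [dist_eq_norm] using hwρ⟩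
    obtain ⟨hrA, hP⟩ := hb _ hx
    have h1 : HasDerivAt (fun w => w / u - w * C w) (1 / u - (1 * C w + w * deriv C w)) w :=
      ((hasDerivAt_id w).div_const u).sub
        ((hasDerivAt_id w).mul hCA.differentiableAt.hasDerivAt)
    have h2 : HasDerivAt (fun w => ((w / u - w * C w, w) : ℂ × ℂ))
        (1 / u - (1 * C w + w * deriv C w), 1) w := h1.prodMk (hasDerivAt_id w)
    have h3 : HasDerivAt (fun w => r (w / u - w * C w, w))
        (fderiv ℂ r (w / u - w * C w, w) (1 / u - (1 * C w + w * deriv C w), 1)) w :=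
      HasFDerivAt.comp_hasDerivAt (f := fun w => ((w / u - w * C w, w) : ℂ × ℂ)) w
        hrA.differentiableAt.hasFDerivAt h2
    have h4 : fderiv ℂ r (w / u - w * C w, w) (1 / u - (1 * C w + w * deriv C w), 1) = 0 := by
      have e : w • ((1 / u - (1 * C w + w * deriv C w), 1) : ℂ × ℂ) =
          (w / u - w * C w, w) - (w * Q w) • (1, 0) := by
        rw [← hCd]
        ext
        · simp; ring
        · simp
      have h5 : w * fderiv ℂ r (w / u - w * C w, w) (1 / u - (1 * C w + w * deriv C w), 1) = 0 := by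
        rw [← smul_eq_mul, ← map_smul, e, map_sub, map_smul, smul_eq_mul]
        exact hP
      exact (mul_eq_zero.mp h5).resolve_left hw0
    rw [h4] at h3
    exact h3
  intro w0 hw0 w1 hw1
  exact (convex_ball (-Complex.I * u) (ε * ‖u‖)).is_const_of_fderivWithin_eq_zero (𝕜 := ℂ)
    (f := fun w => r (w / u - w * C w, w))
    (fun x hx => (hder x hx).differentiableAt.differentiableWithinAt)
    (fun x hx => by
      rw [fderivWithin_of_isOpen isOpen_ball hx, (hder x hx).hasFDerivAt.fderiv]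
      ext; simp) hw0 hw1

/-- **L5H** -/
theorem hom : Hom := by
  intro p f r hp hf hf0 hr h hodd hrec
  have hr0 : r (-Complex.I, 0) = 0 := h.self_of_nhds.1
  obtain ⟨Q, hQA, hQo, hQN⟩ := exists_Q hp hr h hodd
  obtain ⟨C, hCA, hC0, hCo, hCQ⟩ := exists_C hQA hQo
  have hpde := pde hf hr hr0 hrec hQA hQN
  obtain ⟨ε, hε, hcurve⟩ := const_curve hr hpde hCA hCQ
  have hI : (-Complex.I) ≠ 0 := neg_ne_zero.mpr Complex.I_ne_zero
  -- the homogeneous coordinate
  set V : ℂ → ℂ := fun w => -Complex.I + w * C w with hV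
  set U : ℂ → ℂ := fun w => w / V w with hU
  have hV0 : V 0 = -Complex.I := by simp [hV]
  have hVA : AnalyticAt ℂ V 0 := analyticAt_const.add (analyticAt_id.mul hCA)
  have hUA : AnalyticAt ℂ U 0 := analyticAt_id.div hVA (by rw [hV0]; exact hI)
  have hU0 : U 0 = 0 := by simp [hU]
  have hUd : HasDerivAt U Complex.I 0 := by
    have h1 := (hasDerivAt_id (0 : ℂ)).div hVA.differentiableAt.hasDerivAt (by rw [hV0]; exact hI)
    have e : (1 * V 0 - id 0 * deriv V 0) / V 0 ^ 2 = Complex.I := by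
      rw [hV0]; simp
    rw [e] at h1
    exact h1
  obtain ⟨W, hWA, hW0, hWd, hWU, hUW⟩ := exists_inv hUA hU0
    (by rw [hUd.deriv]; exact Complex.I_ne_zero)
  rw [hUd.deriv, Complex.inv_I] at hWd
  have hWt : Tendsto W (𝓝 0) (𝓝 0) := by
    simpa [hW0] using hWA.continuousAt.tendsto
  have hneg : Tendsto (fun w : ℂ => -w) (𝓝 0) (𝓝 0) := by
    simpa using (continuous_neg (G := ℂ)).tendsto 0
  -- `W` is odd
  have hWo : ∀ᶠ u in 𝓝 (0 : ℂ), W (-u) = -W u := by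
    filter_upwards [hUW, (hneg.comp hWt).eventually hWU, hWt.eventually hCo] with u h1 h2 h3
    simp only [Function.comp] at h2
    have h4 : U (-W u) = -U (W u) := by
      simp only [hU, hV, h3]
      ring
    rw [h4, h1] at h2
    exact h2
  have hpt : Tendsto (fun u => ((-Complex.I, W u) : ℂ × ℂ)) (𝓝 0) (𝓝 (-Complex.I, 0)) :=
    tendsto_const_nhds.prodMk_nhds hWt
  have hrA0 : AnalyticAt ℂ r (-Complex.I, W 0) := by rw [hW0]; exact hr
  refine ⟨fun u => r (-Complex.I, W u), ?_, ?_, ?_, ?_, ?_⟩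
  · exact hrA0.comp (f := fun u : ℂ => (-Complex.I, W u)) (analyticAt_const.prod hWA)
  · simp only [hW0, hr0]
  · have h1 : HasDerivAt (fun u => ((-Complex.I, W u) : ℂ × ℂ)) (0, -Complex.I) 0 :=
      (hasDerivAt_const _ _).prodMk hWd
    have h2 : HasDerivAt (fun u => r (-Complex.I, W u))
        (fderiv ℂ r (-Complex.I, W 0) (0, -Complex.I)) 0 :=
      hrA0.differentiableAt.hasFDerivAt.comp_hasDerivAt (0 : ℂ) h1
    rw [h2.deriv, hW0]
    have e : ((0, -Complex.I) : ℂ × ℂ) = (-Complex.I) • (0, 1) := by ext <;> simp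
    rw [e, map_smul, (deriv_data hr h).2.1, smul_eq_mul]
    linear_combination (-(p : ℂ)) * Complex.I_mul_I
  · filter_upwards [hWo, hpt.eventually hodd] with u h1 h2
    rw [h1]; exact h2
  · -- the functional equation
    have hmob : Tendsto (fun u : ℂ => u / (1 + u)) (𝓝 0) (𝓝 0) := by
      have : ContinuousAt (fun u : ℂ => u / (1 + u)) 0 :=
        continuousAt_id.div (continuousAt_const.add continuousAt_id) (by simp)
      simpa [ContinuousAt] using this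
    have hlo : ∀ᶠ u in 𝓝 (0 : ℂ), ‖W u + Complex.I * u‖ ≤ ε / 8 * ‖u‖ := by
      have := (hasDerivAt_iff_isLittleO.mp hWd).def (show 0 < ε / 8 by positivity)
      filter_upwards [this] with u hu
      rw [hW0] at hu
      have e : W u - 0 - (u - 0) • -Complex.I = W u + Complex.I * u := by
        rw [smul_eq_mul]; ring
      rw [e, sub_zero] at hu
      exact hu
    filter_upwards [hUW, hmob.eventually hUW, hlo, hmob.eventually hlo, hmob.eventually hcurve,
      hpt.eventually hrec,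
      ball_mem_nhds (0 : ℂ) (show 0 < min (1 / 2) (ε / 8) by positivity)]
      with u a1 a2 a3 a4 a5 a6 a7
    by_cases hu0 : u = 0
    · subst hu0
      simp [hW0, hr0, hf0]
    have hu' : ‖u‖ < min (1 / 2) (ε / 8) := by simpa using a7
    have hu1 : ‖u‖ < 1 / 2 := lt_of_lt_of_le hu' (min_le_left _ _)
    have hu2 : ‖u‖ < ε / 8 := lt_of_lt_of_le hu' (min_le_right _ _)
    have h1u : (1 + u) ≠ 0 := by
      intro h0
      have : u = -1 := by linear_combination h0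
      rw [this] at hu1
      norm_num at hu1
    set u' : ℂ := u / (1 + u) with hu'def
    have hu'0 : u' ≠ 0 := div_ne_zero hu0 h1u
    have hu'p : 0 < ‖u'‖ := norm_pos_iff.mpr hu'0
    have huu' : u = u' * (1 + u) := by rw [hu'def]; field_simp
    have hnu : ‖u‖ ≤ 3 / 2 * ‖u'‖ := by
      have h3 : ‖(1 : ℂ) + u‖ ≤ 3 / 2 := by
        have := norm_add_le (1 : ℂ) u
        rw [norm_one] at this
        linarith
      calc ‖u‖ = ‖u'‖ * ‖1 + u‖ := by rw [← norm_mul, ← huu']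
        _ ≤ ‖u'‖ * (3 / 2) := by gcongr
        _ = 3 / 2 * ‖u'‖ := by ring
    -- denominators
    have hVne : ∀ w s : ℂ, U w = s → s ≠ 0 → V w ≠ 0 := by
      intro w s hs hs0 hv
      apply hs0
      rw [← hs]
      simp [hU, hv]
    have hV1 : V (W u) ≠ 0 := hVne _ _ a1 hu0
    have hV2 : V (W u') ≠ 0 := hVne _ _ a2 hu'0
    have b1 : W u = u * V (W u) := by
      have : W u / V (W u) = u := a1
      field_simp at this
      linear_combination this
    have b2 : W u' = u' * V (W u') := by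
      have : W u' / V (W u') = u' := a2
      field_simp at this
      linear_combination this
    have c2 : W u' / u' - W u' * C (W u') = -Complex.I := by
      have : W u' / u' = V (W u') := by
        rw [div_eq_iff hu'0]; linear_combination b2
      rw [this]; simp [hV]
    have c1 : W u / u' - W u * C (W u) = -Complex.I + W u := by
      have : W u / u' = V (W u) + W u := by
        rw [div_eq_iff hu'0]
        linear_combination b1 + V (W u) * huu' - u' * b1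
      rw [this]; simp [hV]; ring
    have hm1 : W u' ∈ ball (-Complex.I * u') (ε * ‖u'‖) := by
      rw [mem_ball_iff_norm]
      have e : W u' - -Complex.I * u' = W u' + Complex.I * u' := by ring
      rw [e]
      nlinarith
    have hm0 : W u ∈ ball (-Complex.I * u') (ε * ‖u'‖) := by
      rw [mem_ball_iff_norm]
      have e : W u - -Complex.I * u' = (W u + Complex.I * u) - Complex.I * (u * u') := by
        linear_combination (-Complex.I) * huu'
      rw [e]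
      have h3 := norm_sub_le (W u + Complex.I * u) (Complex.I * (u * u'))
      have h4 : ‖Complex.I * (u * u')‖ = ‖u‖ * ‖u'‖ := by simp
      rw [h4] at h3
      nlinarith
    have key := a5 hu'0 _ hm0 _ hm1
    rw [c1, c2] at key
    change r (-Complex.I, W u') = f (r (-Complex.I, W u))
    rw [← key]
    exact a6

end Crest.Agent.R102.T5R.L5H556
end
end

-- ▼ part R102/T5L5R_426
section

/-!
# Row 102, (C), [T5], leaf L5R (helper426): the homogeneous germ is real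

`κ := ϱ⁻¹ ∘ conj ϱ conj` is odd and commutes with `u ↦ u/(1+u)`; `1/κ - 1/u` is an analytic germ
invariant under `u ↦ u/(1+u)`, hence constant, hence `0` by oddness.
-/

set_option autoImplicit false

open Set Filter Topology Metric
open scoped ComplexConjugate

namespace Crest.Agent.R102.T5R426

open Crest.Agent.R102.T5R

theorem analyticAt_dslope {f : ℂ → ℂ} {z : ℂ} (hf : AnalyticAt ℂ f z) :
    AnalyticAt ℂ (dslope f z) z := by
  obtain ⟨p, hp⟩ := hf
  exact ⟨_, hp.has_fpower_series_dslope_fslope⟩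

theorem tendsto_conj0 : Tendsto (fun z : ℂ => conj z) (𝓝 0) (𝓝 0) := by
  simpa using (Complex.continuous_conj.tendsto (0 : ℂ))

theorem tendsto_neg0 : Tendsto (fun z : ℂ => -z) (𝓝 0) (𝓝 0) := by
  simpa using ((continuous_neg (G := ℂ)).tendsto (0 : ℂ))

theorem tendsto_mob0 : Tendsto (fun u : ℂ => u / (1 + u)) (𝓝 0) (𝓝 0) := by
  have : ContinuousAt (fun u : ℂ => u / (1 + u)) 0 := by
    apply ContinuousAt.div continuousAt_id (continuousAt_const.add continuousAt_id)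
    simp
  simpa using this.tendsto

theorem analyticAt_conj {f : ℂ → ℂ} (hf : AnalyticAt ℂ f 0) :
    AnalyticAt ℂ (fun z => conj (f (conj z))) 0 := by
  rw [Complex.analyticAt_iff_eventually_differentiableAt]
  have h1 : ∀ᶠ z in 𝓝 (0 : ℂ), AnalyticAt ℂ f z := hf.eventually_analyticAt
  filter_upwards [tendsto_conj0.eventually h1] with z hz
  have := hz.differentiableAt.conj_conj
  simpa [Function.comp_def] using this

theorem deriv_conj {f : ℂ → ℂ} (hf : AnalyticAt ℂ f 0) :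
    deriv (fun z => conj (f (conj z))) 0 = conj (deriv f 0) := by
  have h := hf.differentiableAt.hasDerivAt.conj_conj
  have h' : HasDerivAt (fun z => conj (f (conj z))) (conj (deriv f 0)) 0 := by
    simpa [Function.comp_def] using h
  exact h'.deriv

/-- a germ invariant under `u ↦ u/(1+u)` is constant -/
theorem const_of_inv {D : ℂ → ℂ} (hD : AnalyticAt ℂ D 0)
    (h : ∀ᶠ u in 𝓝 (0 : ℂ), D (u / (1 + u)) = D u) : ∀ᶠ u in 𝓝 (0 : ℂ), D u = D 0 := by
  obtain ⟨ε, hε, hb⟩ := Metric.eventually_nhds_iff_ball.1 h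
  have key : ∀ x : ℝ, 0 < x → x < ε → D x = D 0 := by
    intro x hx hxε
    have hit : ∀ n : ℕ, D ((x / (1 + n * x) : ℝ) : ℂ) = D x := by
      intro n
      induction n with
      | zero => simp
      | succ n ih =>
        have hpos : 0 < 1 + (n : ℝ) * x := by positivity
        have hpos' : 0 < 1 + ((n : ℝ) + 1) * x := by positivity
        have h1 : ((x / (1 + n * x) : ℝ) : ℂ) ∈ ball (0 : ℂ) ε := by
          rw [mem_ball_zero_iff, Complex.norm_real, Real.norm_of_nonneg (by positivity)]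
          refine lt_of_le_of_lt (div_le_self hx.le ?_) hxε
          have : 0 ≤ (n : ℝ) * x := by positivity
          linarith
        have h2 := hb _ h1
        rw [← ih, ← h2]
        congr 1
        have e1 : (1 + (n : ℂ) * x) ≠ 0 := by exact_mod_cast hpos.ne'
        have e2 : (1 + ((n : ℂ) + 1) * x) ≠ 0 := by exact_mod_cast hpos'.ne'
        have e2' : (1 + (n : ℂ) * x) + x ≠ 0 := by
          have : (1 + (n : ℂ) * x) + x = 1 + ((n : ℂ) + 1) * x := by ring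
          rw [this]; exact e2
        push_cast
        have e4 : (1 + ((n : ℂ) + 1) * x) = (1 + (n : ℂ) * x) + x := by ring
        rw [e4]
        generalize (1 + (n : ℂ) * x) = a at e1 e2'
        have e3 : 1 + (x : ℂ) / a = (a + x) / a := by rw [add_div, div_self e1]
        rw [e3, div_div_div_cancel_right₀ e1]
    have hlim : Tendsto (fun n : ℕ => x / (1 + n * x)) atTop (𝓝 0) := by
      apply Tendsto.div_atTop tendsto_const_nhds
      apply tendsto_atTop_add_const_left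
      exact Tendsto.atTop_mul_const hx tendsto_natCast_atTop_atTop
    have hlim' : Tendsto (fun n : ℕ => ((x / (1 + n * x) : ℝ) : ℂ)) atTop (𝓝 0) := by
      have := (Complex.continuous_ofReal.tendsto 0).comp hlim
      simpa [Function.comp_def] using this
    have h3 : Tendsto (fun n : ℕ => D ((x / (1 + n * x) : ℝ) : ℂ)) atTop (𝓝 (D 0)) :=
      hD.continuousAt.tendsto.comp hlim'
    have h4 : Tendsto (fun n : ℕ => D ((x / (1 + n * x) : ℝ) : ℂ)) atTop (𝓝 (D x)) := by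
      simp only [hit]
      exact tendsto_const_nhds
    exact tendsto_nhds_unique h4 h3
  have hfr : ∃ᶠ z in 𝓝[≠] (0 : ℂ), D z = D 0 := by
    have ht : Tendsto (fun x : ℝ => (x : ℂ)) (𝓝[>] 0) (𝓝[≠] (0 : ℂ)) := by
      apply tendsto_nhdsWithin_of_tendsto_nhds_of_eventually_within
      · have := Complex.continuous_ofReal.tendsto 0
        simp only [Complex.ofReal_zero] at this
        exact this.mono_left nhdsWithin_le_nhds
      · filter_upwards [self_mem_nhdsWithin] with x hx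
        simpa using (ne_of_gt hx)
    apply ht.frequently
    apply Eventually.frequently
    have : Ioo (0 : ℝ) ε ∈ 𝓝[>] (0 : ℝ) := Ioo_mem_nhdsGT hε
    filter_upwards [this] with x hx
    exact key x hx.1 hx.2
  exact (hD.frequently_eq_iff_eventually_eq analyticAt_const).1 hfr

/-- an odd germ tangent to the identity which commutes with `u ↦ u/(1+u)` is the identity -/
theorem eq_id_of_comm {k : ℂ → ℂ} (hk : AnalyticAt ℂ k 0) (h0 : k 0 = 0) (h1 : deriv k 0 = 1)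
    (hodd : ∀ᶠ u in 𝓝 (0 : ℂ), k (-u) = -k u)
    (hcomm : ∀ᶠ u in 𝓝 (0 : ℂ), k (u / (1 + u)) = k u / (1 + k u)) :
    ∀ᶠ u in 𝓝 (0 : ℂ), k u = u := by
  set k1 := dslope k 0 with hk1
  have hk1a : AnalyticAt ℂ k1 0 := analyticAt_dslope hk
  have hk10 : k1 0 = 1 := by rw [hk1, dslope_same, h1]
  set g := dslope k1 0 with hg
  have hga : AnalyticAt ℂ g 0 := analyticAt_dslope hk1a
  have ek : ∀ u, k u = u * k1 u := by
    intro u
    have := sub_smul_dslope k 0 u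
    simp only [sub_zero, smul_eq_mul, h0] at this
    rw [hk1]; exact this.symm
  have ek1 : ∀ u, k1 u = 1 + u * g u := by
    intro u
    have := sub_smul_dslope k1 0 u
    simp only [sub_zero, smul_eq_mul, hk10] at this
    rw [hg, this]; ring
  have hne : ∀ᶠ u in 𝓝 (0 : ℂ), k1 u ≠ 0 :=
    hk1a.continuousAt.eventually_ne (by rw [hk10]; exact one_ne_zero)
  set D : ℂ → ℂ := fun u => -g u / k1 u with hD
  have hDa : AnalyticAt ℂ D 0 := hga.neg.div hk1a (by rw [hk10]; exact one_ne_zero)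
  have hDe : ∀ᶠ u in 𝓝 (0 : ℂ), u ≠ 0 → D u = 1 / k u - 1 / u := by
    filter_upwards [hne] with u hu hu0
    have e2 : k u ≠ 0 := by rw [ek]; exact mul_ne_zero hu0 hu
    rw [hD]
    simp only
    rw [ek, div_sub_div _ _ (mul_ne_zero hu0 hu) hu0, div_eq_div_iff hu
      (mul_ne_zero (mul_ne_zero hu0 hu) hu0)]
    have := ek1 u
    rw [this]
    ring
  have hne1 : ∀ᶠ u in 𝓝 (0 : ℂ), 1 + u ≠ 0 := by
    have : ContinuousAt (fun u : ℂ => 1 + u) 0 := continuousAt_const.add continuousAt_id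
    exact this.eventually_ne (by simp)
  have hne2 : ∀ᶠ u in 𝓝 (0 : ℂ), 1 + k u ≠ 0 := by
    have : ContinuousAt (fun u : ℂ => 1 + k u) 0 := continuousAt_const.add hk.continuousAt
    exact this.eventually_ne (by simp [h0])
  have hinv : ∀ᶠ u in 𝓝 (0 : ℂ), D (u / (1 + u)) = D u := by
    filter_upwards [hne, hne1, hne2, hcomm, hDe, tendsto_mob0.eventually hDe] with u a1 a2 a3 a4 a5 a6
    by_cases hu : u = 0
    · subst hu; simp
    have hm : u / (1 + u) ≠ 0 := div_ne_zero hu a2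
    have hk0 : k u ≠ 0 := by rw [ek]; exact mul_ne_zero hu a1
    rw [a5 hu, a6 hm, a4]
    field_simp
    ring
  have hconst := const_of_inv hDa hinv
  have hD0 : D 0 = 0 := by
    have hoddD : ∀ᶠ u in 𝓝 (0 : ℂ), u ≠ 0 → D (-u) = -D u := by
      filter_upwards [hDe, tendsto_neg0.eventually hDe, hodd] with u b1 b2 b3 hu
      rw [b2 (neg_ne_zero.2 hu), b1 hu, b3]
      rw [div_neg, div_neg]; ring
    have hall := (hoddD.and (hconst.and (tendsto_neg0.eventually hconst)))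
    obtain ⟨ε, hε, hb⟩ := Metric.eventually_nhds_iff_ball.1 hall
    have hmem : ((ε / 2 : ℝ) : ℂ) ∈ ball (0 : ℂ) ε := by
      rw [mem_ball_zero_iff, Complex.norm_real, Real.norm_of_nonneg (by positivity)]
      linarith
    obtain ⟨c1, c2, c3⟩ := hb _ hmem
    have hne' : ((ε / 2 : ℝ) : ℂ) ≠ 0 := by
      exact_mod_cast (by positivity : (ε / 2 : ℝ) ≠ 0)
    have c4 := c1 hne'
    rw [c2, c3] at c4
    have : (2 : ℂ) * D 0 = 0 := by linear_combination c4
    simpa using this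
  filter_upwards [hconst, hDe, hne] with u d1 d2 d3
  by_cases hu : u = 0
  · subst hu; exact h0
  have hk0 : k u ≠ 0 := by rw [ek]; exact mul_ne_zero hu d3
  have d4 := d2 hu
  rw [d1, hD0] at d4
  have d5 : 1 / k u = 1 / u := by linear_combination -d4
  rw [div_eq_div_iff hk0 hu] at d5
  linear_combination -d5

/-- **L5R (REAL)** -/
theorem realG : RealG := by
  intro p f ϱ hp hf hf0 hfr hϱ hϱ0 hϱ1 hodd hlaw
  have hd : deriv ϱ 0 ≠ 0 := by rw [hϱ1]; exact_mod_cast hp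
  set σ : ℂ → ℂ := fun u => conj (ϱ (conj u)) with hσ
  have hσa : AnalyticAt ℂ σ 0 := analyticAt_conj hϱ
  have hσ0 : σ 0 = 0 := by simp [hσ, hϱ0]
  have hσ1 : deriv σ 0 = p := by
    rw [hσ, deriv_conj hϱ, hϱ1]; simp
  -- local inverse of `ϱ`
  set J : ℂ → ℂ := hϱ.hasStrictDerivAt.localInverse _ _ _ hd with hJ
  have hJa' : AnalyticAt ℂ J (ϱ 0) := hϱ.analyticAt_localInverse hd
  have hJa : AnalyticAt ℂ J 0 := by rw [hϱ0] at hJa'; exact hJa'
  have hJl : ∀ᶠ u in 𝓝 (0 : ℂ), J (ϱ u) = u :=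
    HasStrictDerivAt.eventually_left_inverse hϱ.hasStrictDerivAt hd
  have hJr : ∀ᶠ v in 𝓝 (0 : ℂ), ϱ (J v) = v := by
    have := HasStrictDerivAt.eventually_right_inverse hϱ.hasStrictDerivAt hd
    rw [hϱ0] at this
    exact this
  have hJ0 : J 0 = 0 := by
    have := hJl.self_of_nhds
    rwa [hϱ0] at this
  have hJt : Tendsto J (𝓝 0) (𝓝 0) := by
    have := hJa.continuousAt.tendsto
    rwa [hJ0] at this
  have hσt : Tendsto σ (𝓝 0) (𝓝 0) := by
    have := hσa.continuousAt.tendsto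
    rwa [hσ0] at this
  have hϱt : Tendsto ϱ (𝓝 0) (𝓝 0) := by
    have := hϱ.continuousAt.tendsto
    rwa [hϱ0] at this
  set k : ℂ → ℂ := fun u => J (σ u) with hk
  have hka : AnalyticAt ℂ k 0 := by
    have : AnalyticAt ℂ J (σ 0) := by rw [hσ0]; exact hJa
    exact this.comp hσa
  have hk0 : k 0 = 0 := by rw [hk]; simp only; rw [hσ0, hJ0]
  have hkt : Tendsto k (𝓝 0) (𝓝 0) := hJt.comp hσt
  have hrk : ∀ᶠ u in 𝓝 (0 : ℂ), ϱ (k u) = σ u := hσt.eventually hJr
  -- derivative of `k`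
  have hk1 : deriv k 0 = 1 := by
    have e1 : HasDerivAt (fun u => ϱ (k u)) (deriv ϱ 0 * deriv k 0) 0 := by
      have h1 : HasDerivAt ϱ (deriv ϱ 0) (k 0) := by
        rw [hk0]; exact hϱ.differentiableAt.hasDerivAt
      exact h1.comp 0 hka.differentiableAt.hasDerivAt
    have e2 : HasDerivAt (fun u => ϱ (k u)) (p : ℂ) 0 := by
      have h1 : HasDerivAt σ (p : ℂ) 0 := by
        rw [← hσ1]; exact hσa.differentiableAt.hasDerivAt
      exact h1.congr_of_eventuallyEq hrk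
    have e3 := e1.unique e2
    rw [hϱ1] at e3
    have hp' : (p : ℂ) ≠ 0 := by exact_mod_cast hp
    exact mul_left_cancel₀ hp' (by rw [e3, mul_one])
  have hσodd : ∀ᶠ u in 𝓝 (0 : ℂ), σ (-u) = -σ u := by
    filter_upwards [tendsto_conj0.eventually hodd] with u hu
    simp only [hσ, map_neg, hu]
  have hσlaw : ∀ᶠ u in 𝓝 (0 : ℂ), σ (u / (1 + u)) = f (σ u) := by
    filter_upwards [tendsto_conj0.eventually hlaw, (hϱt.comp tendsto_conj0).eventually hfr]
      with u hu hu2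
    simp only [hσ, map_div₀, map_add, map_one]
    rw [hu]
    simp only [Function.comp] at hu2
    rw [hu2]
  have hkodd : ∀ᶠ u in 𝓝 (0 : ℂ), k (-u) = -k u := by
    filter_upwards [hσodd, hrk, tendsto_neg0.eventually hrk, hkt.eventually hodd,
      (hkt.comp tendsto_neg0).eventually hJl, (tendsto_neg0.comp hkt).eventually hJl]
      with u a1 a2 a3 a4 a5 a6
    simp only [Function.comp] at a5 a6
    rw [← a5, a3, a1, ← a2, ← a4, a6]
  have hkcomm : ∀ᶠ u in 𝓝 (0 : ℂ), k (u / (1 + u)) = k u / (1 + k u) := by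
    filter_upwards [hσlaw, hrk, tendsto_mob0.eventually hrk, hkt.eventually hlaw,
      (hkt.comp tendsto_mob0).eventually hJl, (tendsto_mob0.comp hkt).eventually hJl]
      with u a1 a2 a3 a4 a5 a6
    simp only [Function.comp] at a5 a6
    rw [← a5, a3, a1, ← a2, ← a4, a6]
  have hid := eq_id_of_comm hka hk0 hk1 hkodd hkcomm
  have hfin : ∀ᶠ u in 𝓝 (0 : ℂ), ϱ u = conj (ϱ (conj u)) := by
    filter_upwards [hid, hrk] with u a1 a2
    rw [a1] at a2
    exact a2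
  filter_upwards [tendsto_conj0.eventually hfin] with u hu
  simpa using hu

end Crest.Agent.R102.T5R426
end

-- ▼ part R102/T5L5X_897

/-!
# Row 102, part (C), [T5]: leaf T5-L5X (helper897): `RedF`, `RedI` from `LawF`, `LawI`, `Hom`, `RealG`
-/

set_option autoImplicit false

open Set Filter Topology Metric
open scoped ComplexConjugate

noncomputable section

namespace Crest.Agent.R102.T5X897

open Crest.Agent.R102.T5R

/-! ### the function `a_n` -/

lemma aN_eq (n : ℝ) : aN n = fun r => dslope (fun r : ℂ => Complex.exp (n * r)) 0 r /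
    dslope Complex.exp 0 r := by
  funext r
  by_cases h : r = 0
  · subst h
    have h1 : HasDerivAt (fun r : ℂ => Complex.exp (n * r)) (n : ℂ) 0 := by
      have h2 : HasDerivAt (fun r : ℂ => (n : ℂ) * r) (n : ℂ) 0 := by
        simpa using (hasDerivAt_id (0 : ℂ)).const_mul (n : ℂ)
      have h3 := h2.cexp
      simpa using h3
    have h4 : HasDerivAt Complex.exp 1 0 := by
      simpa using Complex.hasDerivAt_exp 0
    simp [aN, dslope_same, h1.deriv, h4.deriv]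
  · rw [dslope_of_ne _ h, dslope_of_ne _ h]
    simp only [aN, h, if_false, slope_def_field, sub_zero, mul_zero, Complex.exp_zero]
    field_simp

lemma aN_zero (n : ℝ) : aN n 0 = n := by simp [aN]

lemma aN_analyticAt (n : ℝ) : AnalyticAt ℂ (aN n) 0 := by
  rw [aN_eq]
  have h1 : AnalyticAt ℂ (dslope (fun r : ℂ => Complex.exp (n * r)) 0) 0 := by
    have : DifferentiableOn ℂ (dslope (fun r : ℂ => Complex.exp (n * r)) 0) univ := by
      rw [Complex.differentiableOn_dslope univ_mem]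
      fun_prop
    exact this.analyticAt univ_mem
  have h2 : AnalyticAt ℂ (dslope Complex.exp 0) 0 := by
    have : DifferentiableOn ℂ (dslope Complex.exp 0) univ := by
      rw [Complex.differentiableOn_dslope univ_mem]
      fun_prop
    exact this.analyticAt univ_mem
  refine h1.div h2 ?_
  have h4 : HasDerivAt Complex.exp 1 0 := by
    simpa using Complex.hasDerivAt_exp 0
  simp [dslope_same, h4.deriv]

lemma aN_mul (n : ℝ) (r : ℂ) (h : ‖r‖ < 1) :
    (Complex.exp r - 1) * aN n r = Complex.exp (n * r) - 1 := by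
  by_cases h0 : r = 0
  · subst h0; simp
  · have h1 : Complex.exp r - 1 ≠ 0 := by
      intro h2
      have h3 : Complex.exp r = 1 := by linear_combination h2
      obtain ⟨k, hk⟩ := Complex.exp_eq_one_iff.1 h3
      have h4 : k ≠ 0 := by
        rintro rfl
        apply h0
        rw [hk]; simp
      have h5 : (1 : ℝ) ≤ |(k : ℝ)| := by
        have : (1 : ℤ) ≤ |k| := Int.one_le_abs h4
        exact_mod_cast this
      have h6 : ‖r‖ = |(k : ℝ)| * (2 * Real.pi) := by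
        rw [hk]
        simp [abs_of_pos Real.pi_pos]
      have h7 : (3 : ℝ) < Real.pi := Real.pi_gt_three
      rw [h6] at h
      nlinarith
    simp only [aN, h0, if_false]
    field_simp

lemma aN_hasDerivAt (n : ℝ) : HasDerivAt (aN n) (n * (n - 1) / 2) 0 := by
  have hA := aN_analyticAt n
  have hev : ∀ᶠ r in 𝓝 (0 : ℂ), ‖r‖ < 1 := by
    have : ball (0 : ℂ) 1 ∈ 𝓝 (0 : ℂ) := ball_mem_nhds _ one_pos
    filter_upwards [this] with r hr
    simpa using hr
  -- first derivative of the identity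
  have h1 : ∀ᶠ r in 𝓝 (0 : ℂ), Complex.exp r * aN n r + (Complex.exp r - 1) * deriv (aN n) r =
      n * Complex.exp (n * r) := by
    filter_upwards [hev.eventually_nhds, hA.eventually_analyticAt] with r hr hr2
    have h2 : HasDerivAt (fun r => (Complex.exp r - 1) * aN n r)
        (Complex.exp r * aN n r + (Complex.exp r - 1) * deriv (aN n) r) r :=
      ((Complex.hasDerivAt_exp r).sub_const 1).mul hr2.differentiableAt.hasDerivAt
    have h3 : HasDerivAt (fun r : ℂ => Complex.exp (n * r) - 1) (n * Complex.exp (n * r)) r := by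
      have h4 : HasDerivAt (fun r : ℂ => (n : ℂ) * r) (n : ℂ) r := by
        simpa using (hasDerivAt_id r).const_mul (n : ℂ)
      have h5 := (h4.cexp).sub_const 1
      simpa [mul_comm] using h5
    have h6 : (fun r => (Complex.exp r - 1) * aN n r) =ᶠ[𝓝 r]
        (fun r : ℂ => Complex.exp (n * r) - 1) := by
      filter_upwards [hr] with s hs
      exact aN_mul n s hs
    exact h2.unique (h3.congr_of_eventuallyEq h6)
  have hd : HasDerivAt (aN n) (deriv (aN n) 0) 0 := hA.differentiableAt.hasDerivAt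
  have hdd : HasDerivAt (deriv (aN n)) (deriv (deriv (aN n)) 0) 0 :=
    hA.deriv.differentiableAt.hasDerivAt
  have h2 : HasDerivAt (fun r => Complex.exp r * aN n r + (Complex.exp r - 1) * deriv (aN n) r)
      ((Complex.exp 0 * aN n 0 + Complex.exp 0 * deriv (aN n) 0) +
        (Complex.exp 0 * deriv (aN n) 0 + (Complex.exp 0 - 1) * deriv (deriv (aN n)) 0)) 0 :=
    ((Complex.hasDerivAt_exp 0).mul hd).add (((Complex.hasDerivAt_exp 0).sub_const 1).mul hdd)
  have h3 : HasDerivAt (fun r : ℂ => (n : ℂ) * Complex.exp (n * r)) (n * n) 0 := by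
    have h4 : HasDerivAt (fun r : ℂ => (n : ℂ) * r) (n : ℂ) 0 := by
      simpa using (hasDerivAt_id (0 : ℂ)).const_mul (n : ℂ)
    have h5 := (h4.cexp).const_mul (n : ℂ)
    simpa using h5
  have h4 := h2.unique (h3.congr_of_eventuallyEq h1)
  have h5 : deriv (aN n) 0 = n * (n - 1) / 2 := by
    rw [aN_zero, Complex.exp_zero] at h4
    linear_combination h4 / 2
  rw [← h5]
  exact hd

lemma aN_conj (n : ℝ) (r : ℂ) : aN n (conj r) = conj (aN n r) := by
  unfold aN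
  by_cases h : r = 0
  · subst h; simp
  · have h' : conj r ≠ 0 := by simpa using h
    rw [if_neg h, if_neg h', map_div₀, map_sub, map_sub, ← Complex.exp_conj, ← Complex.exp_conj,
      map_mul, Complex.conj_ofReal, map_one]

/-- the local inverse of `a_n` -/
lemma exists_inv (n : ℝ) (h0 : n ≠ 0) (h1 : n ≠ 1) : ∃ g : ℂ → ℂ, AnalyticAt ℂ g n ∧ g n = 0 ∧
    (∀ᶠ r in 𝓝 (0 : ℂ), g (aN n r) = r) ∧ (∀ᶠ v in 𝓝 (n : ℂ), aN n (g v) = v) ∧
    (∀ᶠ v in 𝓝 (n : ℂ), g (conj v) = conj (g v)) := by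
  have hA := aN_analyticAt n
  have hd : deriv (aN n) 0 ≠ 0 := by
    rw [(aN_hasDerivAt n).deriv]
    have h0' : (n : ℂ) ≠ 0 := by exact_mod_cast h0
    have h1' : (n : ℂ) - 1 ≠ 0 := by
      intro h
      apply h1
      have : (n : ℂ) = 1 := by linear_combination h
      exact_mod_cast this
    exact div_ne_zero (mul_ne_zero h0' h1') two_ne_zero
  set g := hA.hasStrictDerivAt.localInverse _ _ _ hd with hg
  have hga : AnalyticAt ℂ g (n : ℂ) := by
    have := hA.analyticAt_localInverse hd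
    rwa [aN_zero] at this
  have hl : ∀ᶠ r in 𝓝 (0 : ℂ), g (aN n r) = r :=
    HasStrictDerivAt.eventually_left_inverse ..
  have hr : ∀ᶠ v in 𝓝 (n : ℂ), aN n (g v) = v := by
    have : ∀ᶠ v in 𝓝 (aN n 0), aN n (g v) = v := HasStrictDerivAt.eventually_right_inverse ..
    rwa [aN_zero] at this
  have hg0 : g n = 0 := by
    have := hl.self_of_nhds
    rwa [aN_zero] at this
  refine ⟨g, hga, hg0, hl, hr, ?_⟩
  have ht : Tendsto g (𝓝 (n : ℂ)) (𝓝 0) := by
    have := hga.continuousAt.tendsto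
    rwa [hg0] at this
  have hc : Tendsto (fun v => conj (g v)) (𝓝 (n : ℂ)) (𝓝 0) := by
    have h2 : Tendsto (conj : ℂ → ℂ) (𝓝 0) (𝓝 0) := by
      have := (Complex.continuous_conj).tendsto 0
      simpa using this
    exact h2.comp ht
  filter_upwards [hc.eventually hl, hr] with v hv1 hv2
  rw [aN_conj, hv2] at hv1
  exact hv1

/-! ### the blow-up family and `r` -/

lemma rX_facts {p ρ C : ℝ} {Ψ : ℂ → ℂ → ℂ} {X₀ : ℂ × ℂ → ℂ} (h : LimFam ρ C Ψ X₀) :
    AnalyticAt ℂ (rX p X₀) (-Complex.I, 0) ∧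
    (∀ᶠ t in 𝓝 (-Complex.I), rX p X₀ (t, 0) = 0 ∧
      deriv (fun w => rX p X₀ (t, w)) 0 = p / t) ∧
    (∀ᶠ x in 𝓝 ((-Complex.I, 0) : ℂ × ℂ), rX p X₀ (x.1, -x.2) = -rX p X₀ x) := by
  have hρ := h.ρ_pos
  set U : Set (ℂ × ℂ) := ball (-Complex.I) ρ ×ˢ ball 0 ρ with hU
  have hUo : IsOpen U := isOpen_ball.prod isOpen_ball
  have hXan : AnalyticOnNhd ℂ X₀ U :=
    Crest.Agent.R266.SCV.analyticOnNhd_of_differentiableOn hUo h.diff
  have hX0 : ∀ t ∈ ball (-Complex.I) ρ, X₀ (t, 0) = t := by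
    intro t ht
    have := h.near t ht 0 (mem_ball_self hρ)
    simp only [norm_zero, ne_eq, OfNat.ofNat_ne_zero, not_false_eq_true, zero_pow, mul_zero] at this
    exact sub_eq_zero.1 (norm_le_zero_iff.1 this)
  have hI : (-Complex.I) ∈ ball (-Complex.I) ρ := mem_ball_self hρ
  have hIU : ((-Complex.I, 0) : ℂ × ℂ) ∈ U := ⟨hI, mem_ball_self hρ⟩
  have hI0 : (-Complex.I) ≠ 0 := neg_ne_zero.2 Complex.I_ne_zero
  have hXI : X₀ (-Complex.I, 0) = -Complex.I := hX0 _ hI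
  -- the two shifted maps
  have hp1 : AnalyticAt ℂ (fun x : ℂ × ℂ => (x.1 + x.2 / 2, x.2)) (-Complex.I, 0) :=
    (analyticAt_fst.add (analyticAt_snd.div analyticAt_const two_ne_zero)).prod analyticAt_snd
  have hp2 : AnalyticAt ℂ (fun x : ℂ × ℂ => (x.1 - x.2 / 2, x.2)) (-Complex.I, 0) :=
    (analyticAt_fst.sub (analyticAt_snd.div analyticAt_const two_ne_zero)).prod analyticAt_snd
  have hv1 : (fun x : ℂ × ℂ => (x.1 + x.2 / 2, x.2)) (-Complex.I, 0) = (-Complex.I, 0) := by simp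
  have hv2 : (fun x : ℂ × ℂ => (x.1 - x.2 / 2, x.2)) (-Complex.I, 0) = (-Complex.I, 0) := by simp
  have ha1 : AnalyticAt ℂ (fun x : ℂ × ℂ => X₀ (x.1 + x.2 / 2, x.2)) (-Complex.I, 0) :=
    (hXan _ hIU).comp_of_eq hp1 hv1
  have ha2 : AnalyticAt ℂ (fun x : ℂ × ℂ => X₀ (x.1 - x.2 / 2, x.2)) (-Complex.I, 0) :=
    (hXan _ hIU).comp_of_eq hp2 hv2
  have hq : AnalyticAt ℂ (fun x : ℂ × ℂ => X₀ (x.1 + x.2 / 2, x.2) / X₀ (x.1 - x.2 / 2, x.2))
      (-Complex.I, 0) := by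
    refine ha1.div ha2 ?_
    simpa [hXI] using hI0
  have hq1 : X₀ ((-Complex.I : ℂ) + 0 / 2, 0) / X₀ ((-Complex.I : ℂ) - 0 / 2, 0) = 1 := by
    simp [hXI]
  have hlog : AnalyticAt ℂ (rX p X₀) (-Complex.I, 0) := by
    have h1 : AnalyticAt ℂ Complex.log 1 := analyticAt_clog Complex.one_mem_slitPlane
    exact analyticAt_const.mul (h1.comp_of_eq hq hq1)
  refine ⟨hlog, ?_, ?_⟩
  · have hb : ball (-Complex.I) ρ ∈ 𝓝 (-Complex.I) := ball_mem_nhds _ hρ
    filter_upwards [hb, isOpen_ne.mem_nhds hI0] with t ht ht0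
    have ht0 : t ≠ 0 := ht0
    have hXt : X₀ (t, 0) = t := hX0 t ht
    refine ⟨?_, ?_⟩
    · simp [rX, hXt, ht0]
    · have key : ∀ σ : ℂ, HasDerivAt (fun w : ℂ => X₀ (t + σ * w, w)) σ 0 := by
        intro σ
        rw [hasDerivAt_iff_isLittleO_nhds_zero]
        have hev : ∀ᶠ w in 𝓝 (0 : ℂ), t + σ * w ∈ ball (-Complex.I) ρ ∧ w ∈ ball (0 : ℂ) ρ := by
          have hc : Tendsto (fun w : ℂ => t + σ * w) (𝓝 0) (𝓝 t) := by
            have : Continuous (fun w : ℂ => t + σ * w) := by fun_prop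
            have := this.tendsto 0
            simpa using this
          exact (hc.eventually (isOpen_ball.mem_nhds ht)).and (ball_mem_nhds _ hρ)
        have hO : (fun w : ℂ => X₀ (t + σ * (0 + w), 0 + w) - X₀ (t + σ * 0, 0) - w • σ)
            =O[𝓝 0] (fun w : ℂ => w ^ 2) := by
          refine Asymptotics.IsBigO.of_bound C ?_
          filter_upwards [hev] with w hw
          have := h.near _ hw.1 w hw.2
          simp only [zero_add, mul_zero, add_zero, hXt, smul_eq_mul, norm_pow]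
          convert this using 2
          ring
        refine hO.trans_isLittleO ?_
        have h2 : (fun w : ℂ => w ^ 2) =o[𝓝 0] (fun w : ℂ => w ^ 1) :=
          Asymptotics.isLittleO_pow_pow (by norm_num)
        simpa using h2
      have k1 := key (1 / 2)
      have k2 := key (-(1 / 2))
      have hne : X₀ (t + -(1 / 2) * 0, 0) ≠ 0 := by simpa [hXt] using ht0
      have k3 := k1.div k2 hne
      have hval : X₀ (t + 1 / 2 * 0, 0) / X₀ (t + -(1 / 2) * 0, 0) = 1 := by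
        simp [hXt, ht0]
      have k4 := k3.clog (by
        simp only [Pi.div_apply, hval]
        exact Complex.one_mem_slitPlane)
      have k5 := k4.const_mul (p : ℂ)
      have k6 : (fun w => rX p X₀ (t, w)) = fun w => (p : ℂ) * Complex.log
          (((fun w : ℂ => X₀ (t + 1 / 2 * w, w)) / (fun w : ℂ => X₀ (t + -(1 / 2) * w, w))) w) := by
        funext w
        simp only [rX, Pi.div_apply]
        congr 4
        · congr 1; ring
        · congr 1; ring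
      rw [k6, k5.deriv]
      simp only [mul_zero, add_zero, hXt, Pi.div_apply]
      field_simp
      ring
  · have hcont : ContinuousAt (fun x : ℂ × ℂ => X₀ (x.1 + x.2 / 2, x.2) / X₀ (x.1 - x.2 / 2, x.2))
      (-Complex.I, 0) := hq.continuousAt
    have hsl : ∀ᶠ x in 𝓝 ((-Complex.I, 0) : ℂ × ℂ),
        X₀ (x.1 + x.2 / 2, x.2) / X₀ (x.1 - x.2 / 2, x.2) ∈ Complex.slitPlane := by
      refine hcont.eventually (Complex.isOpen_slitPlane.mem_nhds ?_)
      simp only [hq1]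
      exact Complex.one_mem_slitPlane
    have he1 : ∀ᶠ x in 𝓝 ((-Complex.I, 0) : ℂ × ℂ), (x.1 + x.2 / 2, x.2) ∈ U := by
      have := hp1.continuousAt.tendsto
      simp only [zero_div, add_zero] at this
      exact this.eventually (hUo.mem_nhds hIU)
    have he2 : ∀ᶠ x in 𝓝 ((-Complex.I, 0) : ℂ × ℂ), (x.1 - x.2 / 2, x.2) ∈ U := by
      have := hp2.continuousAt.tendsto
      simp only [zero_div, sub_zero] at this
      exact this.eventually (hUo.mem_nhds hIU)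
    filter_upwards [hsl, he1, he2] with x hx h1 h2
    have e1 : X₀ (x.1 + -x.2 / 2, -x.2) = X₀ (x.1 - x.2 / 2, x.2) := by
      have : x.1 + -x.2 / 2 = x.1 - x.2 / 2 := by ring
      rw [this]
      exact h.even _ h2.1 _ h2.2
    have e2 : X₀ (x.1 - -x.2 / 2, -x.2) = X₀ (x.1 + x.2 / 2, x.2) := by
      have : x.1 - -x.2 / 2 = x.1 + x.2 / 2 := by ring
      rw [this]
      exact h.even _ h1.1 _ h1.2
    simp only [rX, e1, e2]
    rw [← inv_div, Complex.log_inv _ (Complex.slitPlane_arg_ne_pi hx)]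
    ring

/-- passing from the law to `r (t + w, w) = f (r (t, w))` -/
lemma rX_tendsto {p ρ C : ℝ} {Ψ : ℂ → ℂ → ℂ} {X₀ : ℂ × ℂ → ℂ} (h : LimFam ρ C Ψ X₀) :
    Tendsto (fun x : ℂ × ℂ => rX p X₀ (x.1 + x.2, x.2)) (𝓝 (-Complex.I, 0)) (𝓝 0) ∧
    Tendsto (rX p X₀) (𝓝 (-Complex.I, 0)) (𝓝 0) := by
  obtain ⟨h1, h2, h3⟩ := rX_facts (p := p) h
  have h4 : rX p X₀ (-Complex.I, 0) = 0 := h2.self_of_nhds.1
  have h5 : Tendsto (rX p X₀) (𝓝 (-Complex.I, 0)) (𝓝 0) := by
    have := h1.continuousAt.tendsto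
    rwa [h4] at this
  refine ⟨?_, h5⟩
  have h6 : Tendsto (fun x : ℂ × ℂ => (x.1 + x.2, x.2)) (𝓝 (-Complex.I, 0))
      (𝓝 (-Complex.I, 0)) := by
    have : Continuous (fun x : ℂ × ℂ => (x.1 + x.2, x.2)) := by fun_prop
    have := this.tendsto (-Complex.I, 0)
    simpa using this
  exact h5.comp h6

lemma shift_ev {P : ℂ × ℂ → Prop} (h : ∀ᶠ x in 𝓝 ((-Complex.I, 0) : ℂ × ℂ), P x) :
    ∀ᶠ x in 𝓝 ((-Complex.I, 0) : ℂ × ℂ), P (x.1 + x.2 / 2, x.2) := by
  have h6 : Tendsto (fun x : ℂ × ℂ => (x.1 + x.2 / 2, x.2)) (𝓝 (-Complex.I, 0))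
      (𝓝 (-Complex.I, 0)) := by
    have : Continuous (fun x : ℂ × ℂ => (x.1 + x.2 / 2, x.2)) := by fun_prop
    have := this.tendsto (-Complex.I, 0)
    simpa using this
  exact h6.eventually h

lemma tendsto_neg_aN (n : ℝ) : Tendsto (fun z => aN n (-z)) (𝓝 0) (𝓝 (n : ℂ)) := by
  have h1 : Tendsto (aN n) (𝓝 0) (𝓝 (n : ℂ)) := by
    have := (aN_analyticAt n).continuousAt.tendsto
    rwa [aN_zero] at this
  have h2 : Tendsto (fun z : ℂ => -z) (𝓝 0) (𝓝 0) := by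
    have := (continuous_neg (G := ℂ)).tendsto 0
    simpa using this
  exact h1.comp h2

lemma neg_aN_analyticAt (n : ℝ) : AnalyticAt ℂ (fun z => aN n (-z)) 0 := by
  have h1 : AnalyticAt ℂ (aN n) (-0) := by simpa using aN_analyticAt n
  exact h1.comp (f := fun z : ℂ => -z) analyticAt_id.neg

theorem redF (h5 : LawF) (hH : Hom) (hR : RealG) : RedF := by
  intro c ρ C X₀ hc h12 h2 hX
  set n : ℝ := (2 - c) / (1 - 2 * c) with hn
  set p : ℝ := 1 - 2 * c with hp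
  have hp0 : p ≠ 0 := by
    intro h
    apply h12
    rw [hp] at h
    linarith
  have hn0 : n ≠ 0 := by
    rw [hn]
    refine div_ne_zero ?_ hp0
    intro h
    apply h2
    linarith
  have hn1 : n ≠ 1 := by
    rw [hn]
    intro h
    rw [div_eq_one_iff_eq hp0] at h
    linarith
  obtain ⟨g, hga, hg0, hgl, hgr, hgc⟩ := exists_inv n hn0 hn1
  have hlaw := h5 c ρ C X₀ hc h12 h2 hX
  obtain ⟨r1, r2, r3⟩ := rX_facts (p := p) hX
  obtain ⟨t1, t2⟩ := rX_tendsto (p := p) hX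
  set f : ℂ → ℂ := fun z => g (2 * n - aN n (-z)) with hf
  have hT : Tendsto (fun z => 2 * (n : ℂ) - aN n (-z)) (𝓝 0) (𝓝 (n : ℂ)) := by
    have := (tendsto_const_nhds (x := 2 * (n : ℂ))).sub (tendsto_neg_aN n)
    have e : 2 * (n : ℂ) - n = n := by ring
    rwa [e] at this
  have hfa : AnalyticAt ℂ f 0 := by
    have h1 : AnalyticAt ℂ (fun z => 2 * (n : ℂ) - aN n (-z)) 0 :=
      analyticAt_const.sub (neg_aN_analyticAt n)
    have e : (fun z => 2 * (n : ℂ) - aN n (-z)) 0 = n := by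
      simp only [neg_zero, aN_zero]; ring
    exact hga.comp_of_eq h1 e
  have hf0 : f 0 = 0 := by
    simp only [hf, neg_zero, aN_zero]
    have e : 2 * (n : ℂ) - n = n := by ring
    rw [e, hg0]
  have hflaw : ∀ᶠ z in 𝓝 (0 : ℂ), aN n (f z) = 2 * n - aN n (-z) := hT.eventually hgr
  have hfc : ∀ᶠ z in 𝓝 (0 : ℂ), f (conj z) = conj (f z) := by
    filter_upwards [hT.eventually hgc] with z hz
    simp only [hf]
    rw [← hz, map_sub, map_mul, Complex.conj_ofReal, ← aN_conj, map_neg, Complex.conj_ofNat]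
  have hrec : ∀ᶠ x in 𝓝 ((-Complex.I, 0) : ℂ × ℂ),
      rX p X₀ (x.1 + x.2, x.2) = f (rX p X₀ x) := by
    filter_upwards [shift_ev hlaw, t1.eventually hgl] with x hx1 hx2
    have e1 : x.1 + x.2 / 2 + x.2 / 2 = x.1 + x.2 := by ring
    have e2 : x.1 + x.2 / 2 - x.2 / 2 = x.1 := by ring
    rw [e1, e2] at hx1
    simp only [hf]
    rw [← hx2]
    congr 1
    linear_combination hx1
  obtain ⟨ϱ, g1, g2, g3, g4, g5⟩ := hH p f (rX p X₀) hp0 hfa hf0 r1 r2 r3 hrec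
  refine ⟨ϱ, g1, g2, g3, g4, hR p f ϱ hp0 hfa hf0 hfc g1 g2 g3 g4 g5, ?_⟩
  have hϱ : Tendsto ϱ (𝓝 0) (𝓝 0) := by
    have := g1.continuousAt.tendsto
    rwa [g2] at this
  filter_upwards [g5, hϱ.eventually hflaw] with u hu1 hu2
  rw [hu1, hu2]
  ring

theorem redI (h5 : LawI) (hH : Hom) (hR : RealG) : RedI := by
  intro m ρ C X₀ hm hm3 hX
  set n : ℝ := (3 + m) / (3 - m) with hn
  set p : ℝ := 3 - m with hp
  have hp0 : p ≠ 0 := by
    intro h
    apply hm3
    rw [hp] at h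
    linarith
  have hn0 : n ≠ 0 := by
    rw [hn]
    refine div_ne_zero ?_ hp0
    intro h
    linarith
  have hn1 : n ≠ 1 := by
    rw [hn]
    intro h
    rw [div_eq_one_iff_eq hp0] at h
    linarith
  have hn0' : (n : ℂ) ≠ 0 := by exact_mod_cast hn0
  obtain ⟨g, hga, hg0, hgl, hgr, hgc⟩ := exists_inv n hn0 hn1
  have hlaw := h5 m ρ C X₀ hm hm3 hX
  obtain ⟨r1, r2, r3⟩ := rX_facts (p := p) hX
  obtain ⟨t1, t2⟩ := rX_tendsto (p := p) hX
  set f : ℂ → ℂ := fun z => g ((n : ℂ) ^ 2 / aN n (-z)) with hf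
  have hne : ∀ᶠ z in 𝓝 (0 : ℂ), aN n (-z) ≠ 0 :=
    (tendsto_neg_aN n).eventually (isOpen_ne.mem_nhds hn0')
  have hT : Tendsto (fun z => (n : ℂ) ^ 2 / aN n (-z)) (𝓝 0) (𝓝 (n : ℂ)) := by
    have := (tendsto_const_nhds (x := (n : ℂ) ^ 2)).div (tendsto_neg_aN n) hn0'
    have e : (n : ℂ) ^ 2 / n = n := by field_simp
    rwa [e] at this
  have hfa : AnalyticAt ℂ f 0 := by
    have h1 : AnalyticAt ℂ (fun z => (n : ℂ) ^ 2 / aN n (-z)) 0 := by
      refine analyticAt_const.div (neg_aN_analyticAt n) ?_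
      simpa [aN_zero] using hn0'
    have e : (fun z => (n : ℂ) ^ 2 / aN n (-z)) 0 = n := by
      simp only [neg_zero, aN_zero]; field_simp
    exact hga.comp_of_eq h1 e
  have hf0 : f 0 = 0 := by
    simp only [hf, neg_zero, aN_zero]
    have e : (n : ℂ) ^ 2 / n = n := by field_simp
    rw [e, hg0]
  have hflaw : ∀ᶠ z in 𝓝 (0 : ℂ), aN n (f z) = (n : ℂ) ^ 2 / aN n (-z) := hT.eventually hgr
  have hfc : ∀ᶠ z in 𝓝 (0 : ℂ), f (conj z) = conj (f z) := by
    filter_upwards [hT.eventually hgc] with z hz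
    simp only [hf]
    rw [← hz, map_div₀, map_pow, Complex.conj_ofReal, ← aN_conj, map_neg]
  have hrec : ∀ᶠ x in 𝓝 ((-Complex.I, 0) : ℂ × ℂ),
      rX p X₀ (x.1 + x.2, x.2) = f (rX p X₀ x) := by
    filter_upwards [shift_ev hlaw, t1.eventually hgl, t2.eventually hne] with x hx1 hx2 hx3
    have e1 : x.1 + x.2 / 2 + x.2 / 2 = x.1 + x.2 := by ring
    have e2 : x.1 + x.2 / 2 - x.2 / 2 = x.1 := by ring
    rw [e1, e2] at hx1
    simp only [hf]
    rw [← hx2]
    congr 1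
    rw [eq_div_iff hx3]
    exact hx1
  obtain ⟨ϱ, g1, g2, g3, g4, g5⟩ := hH p f (rX p X₀) hp0 hfa hf0 r1 r2 r3 hrec
  refine ⟨ϱ, g1, g2, g3, g4, hR p f ϱ hp0 hfa hf0 hfc g1 g2 g3 g4 g5, ?_⟩
  have hϱ : Tendsto ϱ (𝓝 0) (𝓝 0) := by
    have := g1.continuousAt.tendsto
    rwa [g2] at this
  filter_upwards [g5, hϱ.eventually hflaw, hϱ.eventually hne] with u hu1 hu2 hu3
  rw [hu1, hu2]
  field_simp

end Crest.Agent.R102.T5X897
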