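import Mathlib
import Crest.Agent.R102.MelI1_231_Mg
import Crest.Agent.R102.ExtI_289
import Crest.Agent.R102.MelI6_217_Mg
import Crest.Agent.R102.Iso3_297
import Crest.Agent.R102.T5L6I_496
import Crest.Agent.R102.T5P2_160
import Crest.Agent.R102.T5ConeN_160
import Crest.Agent.R102.NDM_596
import Crest.Agent.R102.T5L3_725
import Crest.Agent.R102.T5L4F_346
import Crest.Agent.R102.T5L5X_897_Mg
import Crest.Agent.R102.IsoNeg5_486_Mg
import Crest.Agent.R102.P1_416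
import Crest.Agent.R102.RLimF_231_Mg
import Crest.Agent.R102.MelCurve_416
import Crest.Agent.R102.MelF_39
import Crest.Agent.R102.ExtF_39
import Crest.Agent.R102.MelA_231
import Crest.Agent.R102.T5Cone_160
import Crest.Agent.R102.MelDefs_490
import Crest.Agent.R102.SecAB_160
import Crest.Agent.R102.MelI3_490

-- ▼ part R102/MelI_963
section

/-!
# Row 102, part (C), [T5]/MEL, **MEL-I**: assembly (helper963)
-/

set_option autoImplicit false

open Set Filter Topology Metric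
open scoped ComplexConjugate

noncomputable section

namespace Crest.Agent.R102.MelI963

open Crest.Agent.R102.T5R Crest.Agent.R102.Mel

/-- the constants of the two sides are opposite -/
lemma C_opp {κ : ℝ} (hκ : 0 < κ) {EA EB : ℂ → ℂ} {a b : ℂ}
    (h : ∀ τ ∈ OvR κ, EB (-τ) = EA τ)
    (hA : Tendsto (fun τ => EA τ / τ) (𝓝[Sg κ] 0) (𝓝 a))
    (hB : Tendsto (fun τ => EB τ / τ) (𝓝[Sg κ] 0) (𝓝 b)) : b = -a := by
  have h1 : Tendsto (fun t : ℝ => (t : ℂ)) (𝓝[>] 0) (𝓝 0) := by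
    have : Tendsto (fun t : ℝ => (t : ℂ)) (𝓝 0) (𝓝 ((0 : ℝ) : ℂ)) :=
      Complex.continuous_ofReal.tendsto 0
    rw [Complex.ofReal_zero] at this
    exact this.mono_left nhdsWithin_le_nhds
  have hev : ∀ᶠ t in 𝓝[>] (0 : ℝ), 0 < t ∧ t < 1 := Ioo_mem_nhdsGT one_pos
  have h2 : Tendsto (fun t : ℝ => (t : ℂ)) (𝓝[>] 0) (𝓝[Sg κ] 0) := by
    rw [tendsto_nhdsWithin_iff]
    refine ⟨h1, hev.mono fun t ht => ⟨by exact_mod_cast ht.1.ne', ?_, ?_⟩⟩
    · rw [Complex.norm_real, Real.norm_eq_abs, abs_of_pos ht.1]; exact ht.2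
    · rw [Complex.norm_real, Real.norm_eq_abs, abs_of_pos ht.1, Complex.ofReal_im]
      exact mul_pos hκ ht.1
  have h3 : Tendsto (fun t : ℝ => -(t : ℂ)) (𝓝[>] 0) (𝓝[Sg κ] 0) := by
    rw [tendsto_nhdsWithin_iff]
    refine ⟨by simpa using h1.neg, hev.mono fun t ht => ⟨?_, ?_, ?_⟩⟩
    · exact neg_ne_zero.2 (by exact_mod_cast ht.1.ne')
    · rw [norm_neg, Complex.norm_real, Real.norm_eq_abs, abs_of_pos ht.1]; exact ht.2
    · rw [norm_neg, Complex.norm_real, Real.norm_eq_abs, abs_of_pos ht.1, Complex.neg_im,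
        Complex.ofReal_im, neg_zero]
      exact mul_pos hκ ht.1
  have h4 := hA.comp h2
  have h5 := hB.comp h3
  refine tendsto_nhds_unique h5 ((h4.neg).congr' ?_)
  filter_upwards [hev] with t ht
  have hO : (t : ℂ) ∈ OvR κ := by
    refine ⟨by exact_mod_cast ht.1.ne', ?_, ?_, ?_⟩
    · rw [Complex.norm_real, Real.norm_eq_abs, abs_of_pos ht.1]; exact ht.2
    · rw [Complex.norm_real, Real.norm_eq_abs, abs_of_pos ht.1, Complex.ofReal_im, abs_zero]
      exact mul_pos hκ ht.1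
    · rw [Complex.ofReal_re]; exact ht.1
  simp only [Function.comp]
  rw [h _ hO, div_neg]

/-- **MEL-I** from (I3) -/
theorem melI_of (h3 : EInv) : MelI := by
  intro κ κ' β C cc CC l₀ qA jA MA EA ZA ZcA xA XA qB jB MB EB ZB ZcB xB XB sA sB mt nA nB
    limA limB pA pB mp
  have hκ0 : 0 < κ := sA.endq.κ_pos
  obtain ⟨a, ha0, ha1, ha2⟩ := eLim κ β C qA jA 1 MA EA ZA ZcA sA.hj sA.endq limA sA.slope pA
  obtain ⟨b, hb0, hb1, hb2⟩ := eLim κ β C qB jB (-1) MB EB ZB ZcB sB.hj sB.endq limB sB.slope pB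
  have hab : b = -a := C_opp hκ0 (fun τ hτ => (mp τ hτ).1) ha1 hb1
  rw [hab] at hb1
  obtain ⟨δ, G, hG⟩ := h3 κ κ' EA a sA.κ'_pos sA.κ'_lt sA.endq.κ_lt pA.E_diff ha0 ha1 ha2
  have hD : DatI κ κ' β C cc CC l₀ qA jA MA EA ZA ZcA xA qB jB MB EB ZB ZcB xB a δ G :=
    ⟨sA, sB, mt, limA, limB, pA, pB, mp, ha0, ha1, hb1, hG⟩
  obtain ⟨ρ, R₁, l₂, hT⟩ := trapL (ExtI289.extI_of rLimI pAn) MelI519.posF κ κ' β C cc CC l₀ qA jA
    MA EA ZA ZcA xA qB jB MB EB ZB ZcB xB a δ G hD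
  obtain ⟨ρ', hJ⟩ := MelI519.jointL κ κ' β C cc CC l₀ qA jA MA EA ZA ZcA xA XA qB jB MB EB ZB ZcB
    xB XB a δ G ρ R₁ l₂ hD nA nB hT
  exact MelI6217.finL κ κ' β C cc CC l₀ qA jA MA EA ZA ZcA xA qB jB MB EB ZB ZcB xB a δ G ρ' hD hJ

end Crest.Agent.R102.MelI963
end
end

-- ▼ part R102/IsoPos_297
section

/-!
# Row 102, (T5): `IsoPos` (raw form used by `T5L6I496.noI_of`) from `Iso3297.iso` (helper297)
-/

set_option autoImplicit false

namespace Crest.Agent.R102.Iso3297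

theorem isoPos : Crest.Agent.R102.T5L6I496.IsoPos :=
  fun _ _ hn an odd real der eq => iso ⟨hn, an, odd, real, der, eq⟩

end Crest.Agent.R102.Iso3297
end

-- ▼ part R102/T5Asm_160
section

/-!
Row 102, T5-RED assembly (helper160): `t5S : MelS → Spine.T5S`.
-/

set_option autoImplicit false

namespace Crest.Agent.R102.T5R



theorem noI : NoI := T5L6I496.noI_of Iso3297.isoPos IsoNeg486.isoNeg



end Crest.Agent.R102.T5R
end

-- ▼ part R102/T5SFin_490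
section

/-!
# Row 102, [T5]: final assembly `SecAB → ConeD → MelI → Spine.T5S` (helper490)
-/

set_option autoImplicit false

open Set Filter Topology Metric
open scoped ComplexConjugate

noncomputable section

namespace Crest.Agent.R102.Mel

open Crest.Agent.R102.T5 Crest.Agent.R102.G576 Crest.Agent.R102.A929 Crest.Agent.R102.B821
open Crest.Agent.R102.T5R Crest.Agent.R102.C1 Crest.Agent.R102.C1Sec963 Crest.Agent.R102.Spine
open Crest.Agent.R102.End416 (Es sg zB st shtA sg_pow sg_lt)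
open Crest.Agent.R102.Pain416 (HD bl bl_basis HD_mem)

theorem sides (hCD : ConeD) {κ c β C c₀A c₀B NA NB : ℝ} {qA qB : ℂ → ℂ} {rA BA rB BB : ℝ → ℝ}
    {XA XB : ℂ × ℂ → ℂ} (hκ10 : κ < 1 / 10) (hc : -1 ≤ c)
    (eA : EndQ κ c β C qA) (eB : EndQ κ c β C qB)
    (psA : EndPsi (3 * κ / 4) c₀A NA (PsiQ qA)) (psB : EndPsi (3 * κ / 4) c₀B NB (PsiQ qB))
    (FA : Fam (κ / 2) (PsiQ qA) rA BA XA) (FB : Fam (κ / 2) (PsiQ qB) rB BB XB)
    (hX : ∀ t ∈ OvR (κ / 2), ∀ᶠ w in 𝓝 (0 : ℂ), XB (-t, w) = -XA (t, w)) :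
    ∃ (cc CC l₀ : ℝ) (xA xB : ℝ → ℂ → ℂ),
      (∀ (j : ℂ) (M : ℂ → ℂ), (j = Complex.I ∨ j = -Complex.I) → Slope κ qA j M →
        Side κ (κ / 4) c β C cc CC l₀ qA j M xA) ∧
      (∀ (j : ℂ) (M : ℂ → ℂ), (j = Complex.I ∨ j = -Complex.I) → Slope κ qB j M →
        Side κ (κ / 4) c β C cc CC l₀ qB j M xB) ∧
      (∀ l : ℝ, 0 < l → l < l₀ → ∀ t ∈ Dl (κ / 4) cc l, -t ∈ Dl (κ / 4) cc l → 0 < t.re →
        xB l (-t) = -xA l t) ∧
      Near0 (OvL (κ / 4)) (κ / 4) cc l₀ xA XA ∧ Near0 (OvR (κ / 4)) (κ / 4) cc l₀ xB XB := by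
  have hκ := eA.κ_pos
  obtain ⟨cA, CA, lA, xA, DA, linkA⟩ := hCD (3 * κ / 4) (κ / 2) (κ / 4) c₀A NA (PsiQ qA) rA BA XA
    (by linarith) (by linarith) (by linarith) (by linarith) psA FA
  obtain ⟨cB, CB, lB, xB, DB, linkB⟩ := hCD (3 * κ / 4) (κ / 2) (κ / 4) c₀B NB (PsiQ qB) rB BB XB
    (by linarith) (by linarith) (by linarith) (by linarith) psB FB
  obtain ⟨c₁A, hc₁A, lawA⟩ := Law519.lawR κ (κ / 2) c β C qA (by linarith) (by linarith) eA hc
  obtain ⟨c₁B, hc₁B, lawB⟩ := Law519.lawR κ (κ / 2) c β C qB (by linarith) (by linarith) eB hc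
  have hcA := DA.c_pos
  have hcB := DB.c_pos
  have hlA := DA.l₀_pos
  have hlB := DB.l₀_pos
  have hr1 := FA.r_pos (1 / 16) (by norm_num)
  have hr2 := FB.r_pos (1 / 16) (by norm_num)
  obtain ⟨CC, hCC1, hCCA, hCCB⟩ : ∃ CC : ℝ, 1 ≤ CC ∧ CA ≤ CC ∧ CB ≤ CC :=
    ⟨max (max CA CB) 1, le_max_right _ _, (le_max_left _ _).trans (le_max_left _ _),
      (le_max_right _ _).trans (le_max_left _ _)⟩
  obtain ⟨cc, hcc, h1, h2, h3, h4, h5, h6⟩ : ∃ cc : ℝ, 0 < cc ∧ cc ≤ cA ∧ cc ≤ cB ∧ cc ≤ κ / 4 ∧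
      CC * cc ≤ 1 / 8 ∧ cc ≤ c₁A / 2 ∧ cc ≤ c₁B / 2 := by
    refine ⟨min (min cA cB) (min (min (κ / 4) (1 / (8 * CC))) (min (c₁A / 2) (c₁B / 2))),
      ?_, ?_, ?_, ?_, ?_, ?_, ?_⟩
    · refine lt_min (lt_min hcA hcB) (lt_min (lt_min (by linarith) (by positivity))
        (lt_min (by linarith) (by linarith)))
    · exact (min_le_left _ _).trans (min_le_left _ _)
    · exact (min_le_left _ _).trans (min_le_right _ _)
    · exact (min_le_right _ _).trans ((min_le_left _ _).trans (min_le_left _ _))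
    · have : min (min cA cB) (min (min (κ / 4) (1 / (8 * CC))) (min (c₁A / 2) (c₁B / 2))) ≤
          1 / (8 * CC) := (min_le_right _ _).trans ((min_le_left _ _).trans (min_le_right _ _))
      rw [le_div_iff₀ (by positivity)] at this
      linarith
    · exact (min_le_right _ _).trans ((min_le_right _ _).trans (min_le_left _ _))
    · exact (min_le_right _ _).trans ((min_le_right _ _).trans (min_le_right _ _))
  obtain ⟨l₀, hl₀, g1, g2, g3, g4⟩ : ∃ l₀ : ℝ, 0 < l₀ ∧ l₀ ≤ lA ∧ l₀ ≤ lB ∧ l₀ ≤ rA (1 / 16) ∧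
      l₀ ≤ rB (1 / 16) := by
    refine ⟨min (min lA lB) (min (rA (1 / 16)) (rB (1 / 16))), lt_min (lt_min hlA hlB)
      (lt_min hr1 hr2), ?_, ?_, ?_, ?_⟩
    · exact (min_le_left _ _).trans (min_le_left _ _)
    · exact (min_le_left _ _).trans (min_le_right _ _)
    · exact (min_le_right _ _).trans (min_le_left _ _)
    · exact (min_le_right _ _).trans (min_le_right _ _)
  have DA' := DA.mono hcc h1 hCCA h4 hl₀ g1
  have DB' := DB.mono hcc h2 hCCB h4 hl₀ g2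
  have rlA := rlaw_of DA' (by linarith) (κ := κ / 2) (by linarith) (by linarith) h3 h5 lawA
  have rlB := rlaw_of DB' (by linarith) (κ := κ / 2) (by linarith) (by linarith) h3 h6 lawB
  refine ⟨cc, CC, l₀, xA, xB, ?_, ?_, ?_, ?_, ?_⟩
  · intro j M hj hM
    exact ⟨by linarith, by linarith, eA, hj, hM, DA', rlA⟩
  · intro j M hj hM
    exact ⟨by linarith, by linarith, eB, hj, hM, DB', rlB⟩
  · refine match_of FA FB (by linarith) hX DA' DB' ?_ ?_ g3 g4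
    · intro l hl hl' t ht h16
      exact linkA (1 / 16) l (by norm_num) hl (hl'.trans_le g1) (hl'.trans_le g3) t
        (Dl_mono h1 ht) h16
    · intro l hl hl' t ht h16
      exact linkB (1 / 16) l (by norm_num) hl (hl'.trans_le g2) (hl'.trans_le g4) t
        (Dl_mono h2 ht) h16
  · refine near0_of FA ?_ (by linarith) hcc h1 hl₀ g1 linkA
    rintro t ⟨t1, t2, t3, _⟩
    exact ⟨t1, t2, (le_abs_self _).trans_lt t3⟩
  · refine near0_of FB ?_ (by linarith) hcc h2 hl₀ g2 linkB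
    rintro t ⟨t1, t2, t3, _⟩
    exact ⟨t1, t2, (le_abs_self _).trans_lt t3⟩

lemma SgZ_mem' {s a : ℂ} {ε κ : ℝ} (ha : a = 1 ∨ a = -1) (hε : 0 < ε) {τ : ℂ} (h : τ ∈ Sg κ) :
    s + a * ε * τ ∈ SgZ s a ε κ := by
  have := SgZ_mem (s := s) (κ := κ) ha hε le_rfl one_pos (τ := τ)
    ⟨h.1, by rw [one_mul]; exact h.2.1, h.2.2⟩
  simpa using this

/-- the scaled leaf functions agree -/
lemma germ_match {s : ℂ} {ε κ l : ℝ} {θA HA θB HB : ℂ → ℂ} {XA XB : ℂ × ℂ → ℂ}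
    (SA : SideZ s 1 ε κ θA HA XA) (hl : 0 < l) (hl1 : l < 1)
    (hm : ∀ z ∈ SgZ s 1 ε κ, z ∈ SgZ s (-1) ε κ → 0 < (z - s).re → θB z = θA z ∧ HB z = HA z ∧
      ∀ᶠ x in 𝓝 ((z, 0) : ℂ × ℂ), XB x = XA x) :
    ∀ t ∈ OvR (κ / 2), ∀ᶠ w in 𝓝 (0 : ℂ),
      (XB (s + -1 * (l * ε) * -t, -1 * (l * ε) * w) - s) / (-1 * (l * ε)) =
        -((XA (s + 1 * (l * ε) * t, 1 * (l * ε) * w) - s) / (1 * (l * ε))) := by
  intro t ht
  have hε := SA.ε_pos
  have hκ := SA.κ_pos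
  have hlc : (l : ℂ) ≠ 0 := by exact_mod_cast hl.ne'
  have hεc : (ε : ℂ) ≠ 0 := by exact_mod_cast hε.ne'
  have htn : 0 < ‖t‖ := norm_pos_iff.2 ht.1
  have h1 : s + 1 * (l * ε) * t ∈ SgZ s 1 ε κ := by
    refine SgZ_mem (Or.inl rfl) hε le_rfl hl ⟨ht.1, ?_, ?_⟩
    · nlinarith [ht.2.1]
    · have := (le_abs_self _).trans_lt ht.2.2.1
      nlinarith
  have h2 : s + -1 * (l * ε) * -t ∈ SgZ s (-1) ε κ := by
    refine SgZ_mem (Or.inr rfl) hε le_rfl hl ⟨neg_ne_zero.2 ht.1, ?_, ?_⟩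
    · rw [norm_neg]; nlinarith [ht.2.1]
    · rw [norm_neg, Complex.neg_im]
      have := (neg_le_abs _).trans_lt ht.2.2.1
      nlinarith
  have h12 : s + -1 * (l * ε) * -t = s + 1 * (l * ε) * t := by ring
  rw [h12] at h2 ⊢
  set z := s + 1 * (l * ε) * t with hz
  have hre : 0 < (z - s).re := by
    have e : z - s = ((l * ε : ℝ) : ℂ) * t := by rw [hz]; push_cast; ring
    rw [e, Complex.re_ofReal_mul]
    exact mul_pos (mul_pos hl hε) ht.2.2.2
  obtain ⟨_, _, hg⟩ := hm z h1 h2 hre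
  have hev := SA.even z h1
  have hc1 : Tendsto (fun w : ℂ => ((z, -1 * (l * ε) * w) : ℂ × ℂ)) (𝓝 0) (𝓝 (z, 0)) := by
    have : Continuous (fun w : ℂ => ((z, -1 * (l * ε) * w) : ℂ × ℂ)) := by fun_prop
    simpa using this.tendsto 0
  have hc2 : Tendsto (fun w : ℂ => ((z, 1 * (l * ε) * w) : ℂ × ℂ)) (𝓝 0) (𝓝 (z, 0)) := by
    have : Continuous (fun w : ℂ => ((z, 1 * (l * ε) * w) : ℂ × ℂ)) := by fun_prop
    simpa using this.tendsto 0
  filter_upwards [hc1.eventually hg, hc2.eventually hev] with w a1 a2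
  rw [a1]
  have e : -1 * ((l : ℂ) * ε) * w = -(1 * ((l : ℂ) * ε) * w) := by ring
  rw [e, a2]
  field_simp

/-- sheet `B` over the left end of sheet `A` -/
lemma sgB_left {n : ℕ} (hn : 0 < n) {s z : ℂ} (hz : (z - s).re < 0) :
    sgB n s z = Complex.exp (2 * Real.pi * Complex.I / n) * sg n s z := by
  unfold sgB End416.sg
  have hnC : (n : ℂ) ≠ 0 := by exact_mod_cast hn.ne'
  set w := Complex.I * (z - s) with hw
  have him : w.im < 0 := by rw [hw]; simpa using hz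
  have hw0 : w ≠ 0 := by
    rintro h
    rw [h] at him
    simp at him
  have e1 : Complex.I * (s - z) = -w := by rw [hw]; ring
  rw [e1, Complex.cpow_def_of_ne_zero (neg_ne_zero.2 hw0), Complex.cpow_def_of_ne_zero hw0]
  have hlog : Complex.log (-w) = Complex.log w + Real.pi * Complex.I := by
    unfold Complex.log
    rw [norm_neg, Complex.arg_neg_eq_arg_add_pi_of_im_neg him]
    push_cast
    ring
  rw [hlog, ← Complex.exp_add, ← Complex.exp_add]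
  congr 1
  field_simp
  ring

/-- sheet `B` at `- τ` from sheet `A` at `τ` -/
lemma sgB_neg {n : ℕ} {s : ℂ} (u : ℂ) :
    sgB n s (s + -1 * u) = Complex.exp (Real.pi * Complex.I / n) * sg n s (s + 1 * u) := by
  unfold sgB End416.sg
  congr 3
  ring

lemma sg_small {n : ℕ} (hn : 0 < n) {s : ℂ} {ε l : ℝ} (hε : 0 < ε) (hl : 0 < l) (v : ℂ)
    (hv : v ≠ 0) :
    Tendsto (fun ρ : ℝ => sg n s (s + 1 * ε * ((l : ℂ) * (ρ * v)))) (𝓝[>] 0) (𝓝[≠] 0) := by
  have hlc : (l : ℂ) ≠ 0 := by exact_mod_cast hl.ne'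
  have hεc : (ε : ℂ) ≠ 0 := by exact_mod_cast hε.ne'
  have hvn : 0 < ‖v‖ := norm_pos_iff.2 hv
  refine tendsto_nhdsWithin_iff.2 ⟨?_, ?_⟩
  · rw [Metric.tendsto_nhds]
    intro δ hδ
    have h0 : ∀ᶠ ρ : ℝ in 𝓝[>] 0, ρ < δ ^ n / (ε * l * ‖v‖) :=
      nhdsWithin_le_nhds (Iio_mem_nhds (by positivity))
    filter_upwards [h0, self_mem_nhdsWithin] with ρ h1 h2
    have h2' : (0 : ℝ) < ρ := h2
    rw [dist_zero_right]
    refine sg_lt hn hδ ?_
    rw [add_sub_cancel_left, norm_mul, norm_mul, norm_mul, norm_mul, norm_one, one_mul,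
      Complex.norm_real, Complex.norm_real, Complex.norm_real, Real.norm_of_nonneg hε.le,
      Real.norm_of_nonneg hl.le, Real.norm_of_nonneg h2'.le]
    rw [lt_div_iff₀ (by positivity)] at h1
    calc ε * (l * (ρ * ‖v‖)) = ρ * (ε * l * ‖v‖) := by ring
      _ < δ ^ n := h1
  · filter_upwards [self_mem_nhdsWithin] with ρ h2
    have h2' : (0 : ℝ) < ρ := h2
    have hρc : (ρ : ℂ) ≠ 0 := by exact_mod_cast h2'.ne'
    intro h0
    rw [mem_singleton_iff] at h0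
    have h3 := sg_pow (s := s) hn (s + 1 * ε * ((l : ℂ) * (ρ * v)))
    rw [h0, zero_pow hn.ne', add_sub_cancel_left] at h3
    have h4 : Complex.I * (1 * ε * ((l : ℂ) * (ρ * v))) ≠ 0 := by
      refine mul_ne_zero Complex.I_ne_zero (mul_ne_zero (mul_ne_zero one_ne_zero hεc)
        (mul_ne_zero hlc (mul_ne_zero hρc hv)))
    exact h4 h3.symm

theorem melF : MelF :=
  MelF39.melF_of (ExtF39.extF_of pAn rLimF) pAn rLimF rRot rSym

theorem cone : Cone := cone_of_ndm NDM596.ndm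

theorem t5F : T5F :=
  t5F_of cone T5L3_725.blowUp L4346.psiFlat (T5X897.redF T5L5F756.lawF L5H556.hom T5R426.realG)
    T5L6F836.noF

theorem t5I : T5I :=
  t5I_of cone T5L3_725.blowUp L4346.psiIso (T5X897.redI T5L5I861.lawI L5H556.hom T5R426.realG)
    noI

/-- **T5S** -/
theorem t5S_fin (h1 : SecAB) (h2 : ConeD) (h3 : MelI) : Spine.T5S := by
  intro q₀ η ρ r B b φ p m₀ θ H h0 hD hP s hs
  obtain ⟨n, r₁, a, k, e, g, f, hr, D, hθd, hHd⟩ :=
    End416.endS_of_puisB hD.fam.dat hD.le hD.ext hs (hP s hs)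
  have hn := D.n_pos
  have hnR : (0 : ℝ) < n := by exact_mod_cast hn
  have hnC : (n : ℂ) ≠ 0 := by exact_mod_cast hn.ne'
  have hh0 : 0 < h0 := lt_of_lt_of_le hD.fam.dat.η_pos hD.le
  -- regularity below `s`
  have hLZ := (zeroY q₀ η (Str h0) θ H hD.fam.dat hD.ext).1
  have hsub : ∀ z ∈ HD s h0, z ∈ Str h0 := by
    intro z hz
    have h1 := hz.1
    have h2 : z.im < s.im := hz.2
    rw [mem_ball, dist_eq_norm] at h1
    have h3 := (Complex.abs_im_le_norm (z - s)).trans_lt h1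
    rw [Complex.sub_im, abs_lt] at h3
    change |z.im| < h0
    rw [abs_lt]
    constructor
    · linarith [h3.1]
    · linarith
  have hHDm : HD s h0 ∈ bl s := HD_mem hh0
  have hθev : ∀ᶠ z in bl s, DifferentiableAt ℂ θ z := by
    filter_upwards [hHDm] with z hz using
      hD.ext.θ_diff.differentiableAt (hD.ext.open'.mem_nhds (hsub z hz))
  have hLZev : ∀ᶠ z in bl s, deriv θ z * deriv (deriv H) z - deriv (deriv θ) z * deriv H z +
      deriv θ z ^ 3 * H z = -1 := by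
    filter_upwards [hHDm] with z hz using hLZ z (hsub z hz)
  -- the two sides
  obtain ⟨ε, κ, θA, HA, θB, HB, XA, XB, hεr, hκ10, SA, SB, shA, shB, -, hm⟩ :=
    h1 q₀ η ρ r B b φ p m₀ θ H h0 hD s n r₁ a k e g f hs hr D
  have hε := SA.ε_pos
  have hκ := SA.κ_pos
  have hκ1 : κ < 1 := SA.κ_lt
  obtain ⟨l, hl, hl1⟩ : ∃ l : ℝ, 0 < l ∧ l < 1 := ⟨1 / 2, by norm_num, by norm_num⟩
  have famA : ∀ qA : ℂ → ℂ, DifferentiableOn ℂ qA (Sg κ) →
      (∀ τ ∈ Sg κ, Complex.exp (qA τ) = ε * Es k g (sg n s (s + 1 * ε * τ))) →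
      ∃ rA BA : ℝ → ℝ, Fam (κ / 2) (PsiQ (scq l qA)) rA BA
        (fun p => (XA (s + 1 * (l * ε) * p.1, 1 * (l * ε) * p.2) - s) / (1 * (l * ε))) := by
    intro qA hq hexp
    refine kPsi s 1 ε κ θA HA XA SA ε l (κ / 2) qA hε le_rfl hl hl1 (by linarith) (by linarith)
      hq ?_
    intro τ hτ
    rw [hexp τ hτ, (shA.y _ (SgZ_mem' (Or.inl rfl) hε hτ)).deriv]
  have famB : ∀ qB : ℂ → ℂ, DifferentiableOn ℂ qB (Sg κ) →
      (∀ τ ∈ Sg κ, Complex.exp (qB τ) = ε * Es k g (sgB n s (s + (-1) * ε * τ))) →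
      ∃ rB BB : ℝ → ℝ, Fam (κ / 2) (PsiQ (scq l qB)) rB BB
        (fun p => (XB (s + -1 * (l * ε) * p.1, -1 * (l * ε) * p.2) - s) / (-1 * (l * ε))) := by
    intro qB hq hexp
    refine kPsi s (-1) ε κ θB HB XB SB ε l (κ / 2) qB hε le_rfl hl hl1 (by linarith) (by linarith)
      hq ?_
    intro τ hτ
    rw [hexp τ hτ, (shB.y _ (SgZ_mem' (Or.inr rfl) hε hτ)).deriv]
  have hX := germ_match SA hl hl1 hm
  by_cases ha : a = 0
  · -- flat
    left
    have hk1 : -(n : ℤ) < k := D.flat ha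
    have hk2 : 2 * k ≠ n := D.flat1 ha
    have hk3 : k ≠ 2 * n := D.flat2 ha
    obtain ⟨C, qA, qB, MA, MB, eA, eB, xA, xB, mq, slA, slB, fA, fB, mM⟩ :=
      D.curve_flat hε hεr hκ hκ1
    have c1 : (-1 : ℝ) < (k / n : ℝ) := by
      rw [lt_div_iff₀ hnR]
      have : (-(n : ℤ) : ℝ) < (k : ℝ) := by exact_mod_cast hk1
      push_cast at this
      linarith
    have c2 : (k / n : ℝ) ≠ 1 / 2 := by
      intro h
      rw [div_eq_div_iff hnR.ne' two_ne_zero] at h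
      apply hk2
      have : (2 : ℝ) * k = n := by linarith
      exact_mod_cast this
    have c3 : (k / n : ℝ) ≠ 2 := by
      intro h
      rw [div_eq_iff hnR.ne'] at h
      exact hk3 (by exact_mod_cast h)
    have eA' := EndQ_scale eA hl hl1.le
    have eB' := EndQ_scale eB hl hl1.le
    obtain ⟨rA, BA, FA⟩ := famA qA eA.diff xA
    obtain ⟨rB, BB, FB⟩ := famB qB eB.diff xB
    have hc01 := t5F κ (κ / 2) _ _ _ (scq l qA) rA BA _ (by linarith) (by linarith) eA' FA c1 c2 c3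
    obtain ⟨c₀A, NA, psA, -⟩ := L4346.psiFlat κ (3 * κ / 4) _ _ _ (scq l qA) (by linarith)
      (by linarith) eA' c1 c2 c3
    obtain ⟨c₀B, NB, psB, -⟩ := L4346.psiFlat κ (3 * κ / 4) _ _ _ (scq l qB) (by linarith)
      (by linarith) eB' c1 c2 c3
    obtain ⟨cc, CC, l₀, xA', xB', sA, sB, hM, -, -⟩ :=
      sides h2 hκ10 c1.le eA' eB' psA psB FA FB hX
    have SA' := sA Complex.I _ (Or.inl rfl) (Slope_scale slA hl hl1.le)
    have SB' := sB (-Complex.I) _ (Or.inr rfl) (Slope_scale slB hl hl1.le)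
    obtain ⟨δ, hδ, hfin⟩ := melF κ (κ / 4) _ _ _ cc CC l₀ (scq l qA) Complex.I _ xA' (scq l qB)
      (-Complex.I) _ xB' hc01 SA' SB' ⟨rfl, fun τ hτ => by
        rw [exp_scq hl, exp_scq hl, mul_neg, mq _ (OvR_scale hl hl1.le hτ)], fun τ hτ => by
        simp only [mul_neg]
        exact mM _ (OvR_scale hl hl1.le hτ), hM⟩
    have hk : k = 0 ∨ k = n := by
      rcases hc01 with h | h
      · left
        rw [div_eq_zero_iff] at h
        rcases h with h | h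
        · exact_mod_cast h
        · exact absurd h hnR.ne'
      · right
        rw [div_eq_one_iff_eq hnR.ne'] at h
        exact_mod_cast h
    refine MLZ519.regB_of_single hh0 hs hθev hLZev D hk ?_
    refine (sg_small hn (s := s) hε hl (-1) (by norm_num)).frequently (Eventually.frequently ?_)
    have hρ : ∀ᶠ ρ : ℝ in 𝓝[>] 0, ρ < min δ 1 :=
      nhdsWithin_le_nhds (Iio_mem_nhds (lt_min hδ one_pos))
    filter_upwards [hρ, self_mem_nhdsWithin] with ρ' h4 h5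
    have h5' : (0 : ℝ) < ρ' := h5
    have hτ : ((ρ' : ℂ) * (-1)) ∈ OvL (κ / 4) := by
      refine ⟨?_, ?_, ?_, ?_⟩
      · simpa using h5'.ne'
      · rw [mul_neg_one, norm_neg, Complex.norm_real, Real.norm_of_nonneg h5'.le]
        exact h4.trans_le (min_le_right _ _)
      · rw [mul_neg_one, norm_neg, Complex.norm_real, Real.norm_of_nonneg h5'.le]
        simp only [Complex.neg_im, Complex.ofReal_im, neg_zero, abs_zero]
        positivity
      · simpa using h5'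
    have hfin' := hfin _ hτ (by
      rw [mul_neg_one, norm_neg, Complex.norm_real, Real.norm_of_nonneg h5'.le]
      exact h4.trans_le (min_le_left _ _))
    rw [fA, fB] at hfin'
    have e1 : s + (-1) * ε * ((l : ℂ) * -((ρ' : ℂ) * (-1))) = s + 1 * ε * (l * (ρ' * (-1))) := by
      ring
    rw [e1, sgB_left hn (by
      rw [add_sub_cancel_left]
      have : (1 : ℂ) * ε * (l * (ρ' * (-1))) = ((-(ε * l * ρ') : ℝ) : ℂ) := by push_cast; ring
      rw [this, Complex.ofReal_re]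
      have : 0 < ε * l * ρ' := by positivity
      linarith)] at hfin'
    exact hfin'
  · -- isotropic
    right
    obtain ⟨hk, hg0⟩ := D.iso ha
    obtain ⟨ha3, ha3'⟩ := D.iso3 ha
    have haR : (a : ℝ) ≠ 0 := by exact_mod_cast ha
    have hcR : (k / n : ℝ) = -1 := by
      rw [hk]; push_cast; field_simp
    have haa : a = n ∨ a = -n := by
      obtain ⟨C, qA, qB, eA, eB, vA, vB, xA, xB, mq⟩ := D.curveQ hε hεr hκ hκ1
      rw [hcR] at eA
      have eA' := EndQ_scale eA hl hl1.le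
      obtain ⟨rA, BA, FA⟩ := famA qA eA.diff xA
      have hlim := D.ylim (shtA n) hε ha hκ1 (fun τ hτ => vA τ (Sg_sub_VS hκ1 hτ))
      have hlim1 : Tendsto (fun τ => τ * (1 * Complex.exp (qA τ))) (𝓝[Sg κ] 0)
          (𝓝 (-(1 * Complex.I) * (a / n))) := by simpa using hlim
      have hlim2 := lim_scale hl hl1.le hlim1
      simp only [one_mul] at hlim2
      have key : ∃ s' : ℂ, (s' = 1 ∨ s' = -1) ∧
          -(Complex.I) * ((a : ℂ) / n) = s' * Complex.I * ((|(a : ℝ)| / n : ℝ) : ℂ) := by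
        rcases lt_or_gt_of_ne ha with h5 | h5
        · refine ⟨1, Or.inl rfl, ?_⟩
          have h7 : (a : ℝ) < 0 := by exact_mod_cast h5
          rw [abs_of_neg h7]
          push_cast
          ring
        · refine ⟨-1, Or.inr rfl, ?_⟩
          have h7 : (0 : ℝ) < (a : ℝ) := by exact_mod_cast h5
          rw [abs_of_pos h7]
          push_cast
          ring
      obtain ⟨s', hs', hkey⟩ := key
      rw [hkey] at hlim2
      have hm1 := t5I κ (κ / 2) _ _ (|(a : ℝ)| / n) s' (scq l qA) rA BA _ (by linarith)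
        (by linarith) eA' FA (by positivity) (by
          intro h5
          rw [div_eq_iff hnR.ne'] at h5
          rcases abs_eq_abs.1 (show |(a : ℝ)| = |(3 * n : ℝ)| by
            rw [h5, abs_of_pos (by positivity)]) with h6 | h6
          · exact ha3 (by exact_mod_cast h6)
          · exact ha3' (by exact_mod_cast h6)) hs' hlim2
      rw [div_eq_one_iff_eq hnR.ne'] at hm1
      rcases abs_eq_abs.1 (show |(a : ℝ)| = |(n : ℝ)| by rw [hm1, abs_of_pos hnR]) with h6 | h6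
      · left; exact_mod_cast h6
      · right; exact_mod_cast h6
    obtain ⟨j, C, qA, qB, MA, MB, EA, ZA, ZcA, EB, ZB, ZcB, hj, eA, eB, xA, xB, mq, slA, slB, mM,
      limA, limB, posA, posB, mpos⟩ := D.curve_iso haa hε hεr hκ hκ1
    have eA' := EndQ_scale eA hl hl1.le
    have eB' := EndQ_scale eB hl hl1.le
    obtain ⟨rA, BA, FA⟩ := famA qA eA.diff xA
    obtain ⟨rB, BB, FB⟩ := famB qB eB.diff xB
    have limA' := lim_scale hl hl1.le limA
    have limB' := lim_scale hl hl1.le limB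
    -- limits in the form of `PsiIso`
    have conv : ∀ (j : ℂ) (q : ℂ → ℂ), (j = Complex.I ∨ j = -Complex.I) →
        Tendsto (fun τ => τ * (j * Complex.exp (q τ))) (𝓝[Sg κ] 0) (𝓝 1) →
        ∃ s' : ℂ, (s' = 1 ∨ s' = -1) ∧ Tendsto (fun τ => τ * Complex.exp (q τ)) (𝓝[Sg κ] 0)
          (𝓝 (s' * Complex.I * ((1 : ℝ) : ℂ))) := by
      intro j q hj h
      rcases hj with rfl | rfl
      · refine ⟨-1, Or.inr rfl, ?_⟩
        have h5 := h.const_mul (-Complex.I)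
        refine (h5.congr (fun τ => ?_)).trans ?_
        · linear_combination (-(τ * Complex.exp (q τ))) * Complex.I_sq
        · simp
      · refine ⟨1, Or.inl rfl, ?_⟩
        have h5 := h.const_mul Complex.I
        refine (h5.congr (fun τ => ?_)).trans ?_
        · linear_combination (-(τ * Complex.exp (q τ))) * Complex.I_sq
        · simp
    obtain ⟨sA, hsA, lA⟩ := conv j (scq l qA) hj limA'
    have hj' : -j = Complex.I ∨ -j = -Complex.I := by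
      rcases hj with h | h
      · right; rw [h]
      · left; rw [h, neg_neg]
    obtain ⟨sB, hsB, lB⟩ := conv (-j) (scq l qB) hj' limB'
    obtain ⟨c₀A, NA, psA, -⟩ := L4346.psiIso κ (3 * κ / 4) _ _ 1 sA (scq l qA) (by linarith)
      (by linarith) eA' one_pos (by norm_num) hsA lA
    obtain ⟨c₀B, NB, psB, -⟩ := L4346.psiIso κ (3 * κ / 4) _ _ 1 sB (scq l qB) (by linarith)
      (by linarith) eB' one_pos (by norm_num) hsB lB
    obtain ⟨cc, CC, l₀, xA', xB', sA', sB', hM, nA, nB⟩ :=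
      sides h2 hκ10 le_rfl eA' eB' psA psB FA FB hX
    have SA' := sA' j _ hj (Slope_scale slA hl hl1.le)
    have SB' := sB' (-j) _ hj' (Slope_scale slB hl hl1.le)
    obtain ⟨δ, hδ, hfin⟩ := h3 κ (κ / 4) _ _ cc CC l₀ (scq l qA) j _ _ _ _ xA' _ (scq l qB)
      (-j) _ _ _ _ xB' _ SA' SB' ⟨rfl, fun τ hτ => by
        rw [exp_scq hl, exp_scq hl, mul_neg, mq _ (OvR_scale hl hl1.le hτ)], fun τ hτ => by
        simp only [mul_neg]
        exact mM _ (OvR_scale hl hl1.le hτ), hM⟩ nA nB limA' limB'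
      (Pos_scale posA hl hl1.le) (Pos_scale posB hl hl1.le) (fun τ hτ => by
        obtain ⟨m1, m2, m3⟩ := mpos _ (OvR_scale hl hl1.le hτ)
        simp only [mul_neg]
        exact ⟨m1, by rw [m2], by rw [m3]⟩)
    refine MLZ519.niceB_of_odd hh0 hs hθev D hk haa ?_
    refine (sg_small hn (s := s) hε hl 1 one_ne_zero).frequently (Eventually.frequently ?_)
    have hρ : ∀ᶠ ρ : ℝ in 𝓝[>] 0, ρ < min δ 1 :=
      nhdsWithin_le_nhds (Iio_mem_nhds (lt_min hδ one_pos))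
    filter_upwards [hρ, self_mem_nhdsWithin] with ρ' h4 h5
    have h5' : (0 : ℝ) < ρ' := h5
    have hτ : ((ρ' : ℂ) * 1) ∈ OvR (κ / 4) := by
      refine ⟨?_, ?_, ?_, ?_⟩
      · simpa using h5'.ne'
      · rw [mul_one, Complex.norm_real, Real.norm_of_nonneg h5'.le]
        exact h4.trans_le (min_le_right _ _)
      · rw [mul_one, Complex.norm_real, Real.norm_of_nonneg h5'.le, Complex.ofReal_im, abs_zero]
        positivity
      · simpa using h5'
    have hτSg : (l : ℂ) * ((ρ' : ℂ) * 1) ∈ Sg κ := by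
      refine Sg_scale hl hl1.le ⟨hτ.1, hτ.2.1, (le_abs_self _).trans_lt (hτ.2.2.1.trans ?_)⟩
      have := norm_pos_iff.2 hτ.1
      nlinarith
    have hfin' := (hfin _ hτ (by
      rw [mul_one, Complex.norm_real, Real.norm_of_nonneg h5'.le]
      exact h4.trans_le (min_le_left _ _))).1
    rw [exp_scq hl, exp_scq hl, xA _ hτSg, xB _ hτSg] at hfin'
    have e1 : s + (-1) * ε * ((l : ℂ) * ((ρ' : ℂ) * 1)) = s + -1 * (ε * (l * (ρ' * 1))) := by
      ring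
    have e2 : s + 1 * ε * ((l : ℂ) * ((ρ' : ℂ) * 1)) = s + 1 * (ε * (l * (ρ' * 1))) := by
      ring
    rw [e1, sgB_neg, ← e2] at hfin'
    have hlc : (l : ℂ) ≠ 0 := by exact_mod_cast hl.ne'
    have hεc : (ε : ℂ) ≠ 0 := by exact_mod_cast hε.ne'
    have h7 : (l : ℂ) * ε * (Es k g (Complex.exp (Real.pi * Complex.I / n) *
        sg n s (s + 1 * ε * ((l : ℂ) * ((ρ' : ℂ) * 1)))) +
        Es k g (sg n s (s + 1 * ε * ((l : ℂ) * ((ρ' : ℂ) * 1))))) = 0 := by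
      linear_combination hfin'
    have h8 := (mul_eq_zero.1 h7).resolve_left (mul_ne_zero hlc hεc)
    exact eq_neg_of_add_eq_zero_left h8

end Crest.Agent.R102.Mel
end
end

-- ▼ part R102/ConeD_231
section

/-!
# T5 MEL: leaf (ConeD), the directional wide cone (helper231)

Adapted from helper160's `T5Cone_160`: the step direction `w` lies in a narrow cone about `-i ℝ₊`,
the base point in the whole wide sector.
-/

set_option autoImplicit false

open Set Filter Topology Metric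

noncomputable section

namespace Crest.Agent.R102.Mel.CD

open Crest.Agent.R102.T5R Crest.Agent.R102.T5R.L2

/-! ### geometry -/

/-- narrow cone of downward directions -/
def Dn (w : ℂ) : Prop := w.re < -w.im / 10 ∧ -w.re < -w.im / 10

theorem Dn.im_neg {w : ℂ} (h : Dn w) : w.im < 0 := by
  obtain ⟨h1, h2⟩ := h
  linarith

theorem Dn.ne {w : ℂ} (h : Dn w) : w ≠ 0 := by
  rintro rfl
  have := h.im_neg
  simp at this

theorem Dn.bounds {w : ℂ} (h : Dn w) : |w.re| ≤ ‖w‖ / 10 ∧ 10 / 11 * ‖w‖ ≤ -w.im := by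
  obtain ⟨h1, h2⟩ := h
  have h3 : |w.re| < -w.im / 10 := abs_lt.2 ⟨by linarith, h1⟩
  have h4 : |w.im| = -w.im := abs_of_neg (Dn.im_neg ⟨h1, h2⟩)
  have h5 := Complex.abs_im_le_norm w
  have h6 := Complex.norm_le_abs_re_add_abs_im w
  constructor
  · linarith
  · linarith

theorem isOpen_Dn : IsOpen {w : ℂ | Dn w} := by
  have : {w : ℂ | Dn w} = {w : ℂ | w.re < -w.im / 10} ∩ {w : ℂ | -w.re < -w.im / 10} := by
    ext w; simp [Dn]
  rw [this]
  exact (isOpen_lt (by fun_prop) (by fun_prop)).inter (isOpen_lt (by fun_prop) (by fun_prop))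

theorem convex_Dn : Convex ℝ {w : ℂ | Dn w} := by
  intro x hx y hy a b ha hb hab
  simp only [mem_ofPred_eq, Dn] at hx hy ⊢
  simp only [Complex.add_im, Complex.add_re, Complex.smul_im, Complex.smul_re, smul_eq_mul]
  obtain ⟨hx1, hx2⟩ := hx
  obtain ⟨hy1, hy2⟩ := hy
  rcases eq_or_lt_of_le ha with h | h
  · have : b = 1 := by linarith
    subst this
    rw [← h]
    constructor <;> linarith
  · constructor
    · nlinarith [mul_lt_mul_of_pos_left hx1 h, mul_le_mul_of_nonneg_left hy1.le hb]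
    · nlinarith [mul_lt_mul_of_pos_left hx2 h, mul_le_mul_of_nonneg_left hy2.le hb]

theorem geo {κs a : ℝ} {t w : ℂ} (hκs : 0 < κs) (hκ1 : κs < 1 / 10)
    (ht1 : t.im ≤ κs * ‖t‖) (hw : Dn w ∨ w = 0) (ha : 0 ≤ a) :
    (‖t‖ + a * ‖w‖) / 2 ≤ ‖t + a * w‖ ∧ ‖t + a * w‖ ≤ ‖t‖ + a * ‖w‖ ∧
      (t + a * w).im ≤ κs * ‖t + a * w‖ := by
  have hn : 0 ≤ ‖t‖ := norm_nonneg t
  have hup : ‖t + a * w‖ ≤ ‖t‖ + a * ‖w‖ := by
    refine (norm_add_le _ _).trans ?_
    rw [norm_mul, Complex.norm_real, Real.norm_of_nonneg ha]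
  rcases hw with hw | rfl
  swap
  · simp only [mul_zero, add_zero, norm_zero]
    exact ⟨by linarith, le_rfl, ht1⟩
  obtain ⟨hb1, hb2⟩ := hw.bounds
  have hneg := hw.im_neg
  have hW : 0 < ‖w‖ := norm_pos_iff.2 hw.ne
  have him : |w.im| ≤ ‖w‖ := Complex.abs_im_le_norm w
  rw [abs_of_neg hneg] at him
  have hlow' : ‖t‖ - a * ‖w‖ ≤ ‖t + a * w‖ := by
    have h := norm_sub_norm_le t (-((a : ℂ) * w))
    rw [sub_neg_eq_add, norm_neg, norm_mul, Complex.norm_real, Real.norm_of_nonneg ha] at h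
    exact h
  refine ⟨?_, hup, ?_⟩
  · have h1 : ‖t + a * w‖ ^ 2 = ‖t‖ ^ 2 + a ^ 2 * ‖w‖ ^ 2 + 2 * a * (t.re * w.re + t.im * w.im) := by
      rw [Complex.sq_norm, Complex.sq_norm, Complex.sq_norm, Complex.normSq_apply,
        Complex.normSq_apply, Complex.normSq_apply]
      simp
      ring
    have h2 : -(‖t‖ * (‖w‖ / 10)) ≤ t.re * w.re := by
      have h3 : |t.re * w.re| ≤ ‖t‖ * (‖w‖ / 10) := by
        rw [abs_mul]
        have := Complex.abs_re_le_norm t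
        gcongr
      exact (abs_le.1 h3).1
    have h4 : -(‖t‖ * (‖w‖ / 10)) ≤ t.im * w.im := by
      have h5 : t.im * (-w.im) ≤ (κs * ‖t‖) * (-w.im) :=
        mul_le_mul_of_nonneg_right ht1 (by linarith)
      have h6 : (κs * ‖t‖) * (-w.im) ≤ (1 / 10 * ‖t‖) * ‖w‖ := by
        have : 0 ≤ κs * ‖t‖ := by positivity
        have h7 : κs * ‖t‖ ≤ 1 / 10 * ‖t‖ := by gcongr
        calc (κs * ‖t‖) * (-w.im) ≤ (κs * ‖t‖) * ‖w‖ := by gcongr
          _ ≤ (1 / 10 * ‖t‖) * ‖w‖ := by gcongr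
      linarith
    have h8 : ((‖t‖ + a * ‖w‖) / 2) ^ 2 ≤ ‖t + a * w‖ ^ 2 := by
      rw [h1]
      have h9 : -(2 * a * (‖t‖ * (‖w‖ / 5))) ≤ 2 * a * (t.re * w.re + t.im * w.im) := by
        have : -(‖t‖ * (‖w‖ / 5)) ≤ t.re * w.re + t.im * w.im := by linarith
        have := mul_le_mul_of_nonneg_left this (show 0 ≤ 2 * a by linarith)
        linarith
      have h10 : 0 ≤ a * ‖w‖ * ‖t‖ := by positivity
      nlinarith [sq_nonneg (‖t‖ - a * ‖w‖)]
    exact (pow_le_pow_iff_left₀ (by positivity) (norm_nonneg _) two_ne_zero).1 h8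
  · have e : (t + a * w).im = t.im + a * w.im := by simp
    rw [e]
    have h1 : a * (κs * ‖w‖) ≤ a * (-w.im) := by
      apply mul_le_mul_of_nonneg_left _ ha
      nlinarith
    have h2 : κs * (‖t‖ - a * ‖w‖) ≤ κs * ‖t + a * w‖ := by gcongr
    nlinarith

theorem ref_of {κ' κs c : ℝ} {t w : ℂ} {k : ℕ} (hκs : 0 < κs) (hκ1 : κs < 1 / 10) (hκ : κs < κ')
    (ht0 : t ≠ 0) (ht1 : t.im ≤ κs * ‖t‖) (hw : Dn w)
    (hc : 0 < c) (hwc : ‖w‖ < c * ‖t‖) (hk : ‖t‖ + k * ‖w‖ < 3 / 4) :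
    Ref κ' c (t + k * w) w (‖t‖ + k * ‖w‖) k := by
  have key : ∀ j : ℕ, j ≤ k → 0 ≤ (k : ℝ) - j ∧
      t + k * w - j * w = t + ((k - j : ℝ) : ℂ) * w ∧
      ‖t‖ + k * ‖w‖ - j * ‖w‖ = ‖t‖ + ((k : ℝ) - j) * ‖w‖ := by
    intro j hj
    refine ⟨sub_nonneg.2 (by exact_mod_cast hj), by push_cast; ring, by ring⟩
  refine ⟨hw.ne, hk, ?_, ?_, ?_, ?_⟩
  · intro j hj
    obtain ⟨h0, -, h2⟩ := key j hj
    rw [h2]
    have : 0 ≤ ((k : ℝ) - j) * ‖w‖ := mul_nonneg h0 (norm_nonneg _)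
    nlinarith
  · intro j hj
    obtain ⟨h0, h1, h2⟩ := key j hj
    rw [h1, h2]
    exact (geo hκs hκ1 ht1 (Or.inl hw) h0).1
  · intro j hj
    obtain ⟨h0, h1, h2⟩ := key j hj
    rw [h1, h2]
    exact (geo hκs hκ1 ht1 (Or.inl hw) h0).2.1
  · intro j hj
    obtain ⟨h0, h1, h2⟩ := key j hj
    rw [h1]
    have h := geo hκs hκ1 ht1 (Or.inl hw) h0
    refine lt_of_le_of_lt h.2.2 ?_
    have hn : 0 < ‖t‖ := norm_pos_iff.2 ht0
    have : 0 ≤ ((k : ℝ) - j) * ‖w‖ := mul_nonneg h0 (norm_nonneg _)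
    have hpos : 0 < ‖t + ((k - j : ℝ) : ℂ) * w‖ := by linarith [h.1]
    nlinarith

/-! ### the family at macroscopic points -/

/-- good macroscopic points -/
structure Gs (κs a : ℝ) (S : ℂ) : Prop where
  low : a < ‖S‖
  up : ‖S‖ < 13 / 16
  im : S.im ≤ κs * ‖S‖

theorem Gs.sg {κs κ' a : ℝ} {S : ℂ} (h : Gs κs a S) (hκ : κs < κ') (ha : 0 < a) : S ∈ Sg κ' := by
  have hn : 0 < ‖S‖ := ha.trans h.low
  refine ⟨norm_pos_iff.1 hn, by linarith [h.up], ?_⟩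
  have := h.im
  nlinarith

/-- the family is carried to itself by one step -/
theorem match_step {κs κ' κ₂ ρ C a : ℝ} {Ψ : ℂ → ℂ → ℂ} {G : ℂ × ℂ → ℂ} {r B : ℝ → ℝ}
    {X : ℂ × ℂ → ℂ} (hG : NDS κ₂ ρ C Ψ G) (hX : Fam κ' Ψ r B X) (hκs : 0 < κs) (hκs' : κs < κ')
    (hκ : κ' < κ₂) (hκ1 : κ₂ < 1) (ha : 0 < a) {T w : ℂ} (hw0 : w ≠ 0)
    (hS : Sm (κ' - κs) ρ r B a ‖w‖) (h0 : Gs κs a T) (h1 : Gs κs a (T + w))
    (h2 : Gs κs a (T + w + w)) :
    stp G (start X (T + w) w) = start X T w := by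
  have hWpos : 0 < ‖w‖ := norm_pos_iff.2 hw0
  have hBn : ∀ S, Gs κs a S → ‖X (S, w) - S‖ ≤ |B a| * ‖w‖ ^ 2 := by
    intro S hSd
    refine (hX.near a ha S w (hSd.sg hκs' ha) hSd.low hS.rad).trans ?_
    gcongr
    exact le_abs_self _
  have n0 := hBn _ h0
  have n1 := hBn _ h1
  have n2 := hBn _ h2
  set y := X (T + w, w) with hy
  set e := y - X (T + w + w, w) with he
  set e' := X (T, w) - y with he'
  have hb1 : |B a| * ‖w‖ ^ 2 ≤ ‖w‖ / 8 := by
    have := hS.b1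
    nlinarith
  have hew : ‖e + w‖ ≤ ‖w‖ / 4 := by
    have : e + w = (y - (T + w)) - (X (T + w + w, w) - (T + w + w)) := by rw [he]; ring
    rw [this]
    have := norm_sub_le (y - (T + w)) (X (T + w + w, w) - (T + w + w))
    linarith
  have hew' : ‖e' + w‖ ≤ ‖w‖ / 4 := by
    have : e' + w = (X (T, w) - T) - (y - (T + w)) := by rw [he']; ring
    rw [this]
    have := norm_sub_le (X (T, w) - T) (y - (T + w))
    linarith
  have hen : ‖e‖ ≤ 2 * ‖w‖ := by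
    have : e = (e + w) - w := by ring
    rw [this]
    have := norm_sub_le (e + w) w
    linarith
  have hen' : ‖e'‖ ≤ 2 * ‖w‖ := by
    have : e' = (e' + w) - w := by ring
    rw [this]
    have := norm_sub_le (e' + w) w
    linarith
  -- `y ∈ Rg κ₂`
  have hyl : ‖T + w‖ - |B a| * ‖w‖ ^ 2 ≤ ‖y‖ := by
    have := norm_sub_norm_le (T + w) y
    have h' : ‖T + w - y‖ = ‖y - (T + w)‖ := norm_sub_rev _ _
    linarith
  have hyu : ‖y‖ ≤ ‖T + w‖ + |B a| * ‖w‖ ^ 2 := by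
    have := norm_sub_norm_le y (T + w)
    linarith
  have hb2 := hS.b2
  have hb3 := hS.b3
  have hb4 := hS.b4
  have hκ'1 : κ' < 1 := by linarith
  have hya : a / 2 < ‖y‖ := by
    have := h1.low
    have h5 : (κ' - κs) / 10 * a ≤ a / 2 := by nlinarith
    linarith
  have hyR : y ∈ Rg κ₂ := by
    refine ⟨norm_pos_iff.1 (by linarith), ?_, ?_⟩
    · have := h1.up
      linarith
    · have him : y.im ≤ (T + w).im + ‖y - (T + w)‖ := by
        have := Complex.abs_im_le_norm (y - (T + w))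
        have h' : y.im - (T + w).im ≤ |(y - (T + w)).im| := by
          rw [Complex.sub_im]; exact le_abs_self _
        linarith
      have h3 := h1.im
      have h4 : κs * ‖T + w‖ ≤ κs * (‖y‖ + (κ' - κs) / 10 * a) := by
        gcongr; linarith
      have h5 : (κ' - κs) / 10 * a ≤ (κ' - κs) / 5 * ‖y‖ := by nlinarith
      have h6 : κs * ((κ' - κs) / 10 * a) ≤ (κ' - κs) / 10 * a := by
        have : 0 ≤ (κ' - κs) / 10 * a := by
          have : 0 < κ' - κs := by linarith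
          positivity
        nlinarith
      have hypos : 0 < ‖y‖ := by linarith
      nlinarith
  have hρ := hG.ρ_pos
  have hey : ‖e‖ < ρ * ‖y‖ := by nlinarith
  have hey' : ‖e'‖ < ρ * ‖y‖ := by nlinarith
  have hEL : EL Ψ (y - e) y (y + e') = 0 := by
    have hel := hX.el a ha (T + w) (-w) (h1.sg hκs' ha) (by
      have : T + w - -w = T + w + w := by ring
      rw [this]; exact h2.sg hκs' ha) (by
      have : T + w + -w = T := by ring
      rw [this]; exact h0.sg hκs' ha) h1.low (by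
      have : T + w - -w = T + w + w := by ring
      rw [this]; exact h2.low) (by
      have : T + w + -w = T := by ring
      rw [this]; exact h0.low) (by rw [norm_neg]; exact hS.rad)
    have e1 : T + w - -w = T + w + w := by ring
    have e2 : T + w + -w = T := by ring
    rw [e1, e2, hX.even a ha _ w (h2.sg hκs' ha) h2.low hS.rad,
      hX.even a ha _ w (h1.sg hκs' ha) h1.low hS.rad,
      hX.even a ha _ w (h0.sg hκs' ha) h0.low hS.rad] at hel
    have e3 : y - e = X (T + w + w, w) := by rw [he]; ring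
    have e4 : y + e' = X (T, w) := by rw [he']; ring
    rw [e3, e4]
    exact hel
  have hst : start X (T + w) w = (y, e) := rfl
  rw [hst]
  rcases hG.uniq y e e' hyR hey hey' hEL with h | h
  · show (y + G (y, e), G (y, e)) = (X (T, w), X (T, w) - X (T + w, w))
    rw [← h]
    simp [he', hy]
  · exfalso
    have h3 : (e + w) + (e' + w) = 2 * w := by rw [h]; ring
    have h4 : ‖(2 : ℂ) * w‖ ≤ ‖w‖ / 4 + ‖w‖ / 4 := by
      rw [← h3]
      exact (norm_add_le _ _).trans (by linarith)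
    rw [norm_mul] at h4
    simp at h4
    linarith

/-- **agreement with the family** -/
theorem agree {κs κ' κ₂ ρ C a : ℝ} {Ψ : ℂ → ℂ → ℂ} {G : ℂ × ℂ → ℂ} {r B : ℝ → ℝ}
    {X : ℂ × ℂ → ℂ} (hG : NDS κ₂ ρ C Ψ G) (hX : Fam κ' Ψ r B X) (hκs : 0 < κs) (hκs' : κs < κ')
    (hκ : κ' < κ₂) (hκ1 : κ₂ < 1) (ha : 0 < a) {t w : ℂ} (hw0 : w ≠ 0)
    (hS : Sm (κ' - κs) ρ r B a ‖w‖) (k : ℕ) (hg : ∀ i : ℕ, i ≤ k + 1 → Gs κs a (t + i * w)) :
    (stp G)^[k] (start X (t + k * w) w) = start X t w := by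
  induction k with
  | zero => simp
  | succ k ih =>
    rw [Function.iterate_succ_apply]
    have e : t + ((k + 1 : ℕ) : ℂ) * w = t + k * w + w := by push_cast; ring
    rw [e, match_step hG hX hκs hκs' hκ hκ1 ha hw0 hS (hg k (by omega)) (by
      rw [← e]; exact hg (k + 1) (by omega)) (by
      have e2 : t + k * w + w + w = t + ((k + 2 : ℕ) : ℂ) * w := by push_cast; ring
      rw [e2]; exact hg (k + 2) (by omega))]
    exact ih (fun i hi => hg i (by omega))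

/-- bounds at the macroscopic start -/
theorem start_bound {κs κ' : ℝ} {Ψ : ℂ → ℂ → ℂ} {r B : ℝ → ℝ} {X : ℂ × ℂ → ℂ}
    (hX : Fam κ' Ψ r B X) (hκs : 0 < κs) (hκs' : κs < κ') (hκ1 : κ' < 1) :
    ∃ A₀ B₀ σ : ℝ, 0 < σ ∧ ∀ T w : ℂ, 1 / 4 < ‖T‖ → ‖T‖ < 3 / 4 → T.im ≤ κs * ‖T‖ → w ≠ 0 →
      ‖w‖ < σ → ‖(start X T w).2 + w‖ ≤ A₀ * ‖w‖ ^ 3 ∧ ‖(start X T w).1 - T‖ ≤ B₀ * ‖w‖ ^ 2 := by
  have h8 : (0 : ℝ) < 1 / 8 := by norm_num
  set b := |B (1 / 8)| + 1 with hb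
  have hbpos : 0 < b := by positivity
  set d := (κ' - κs) / 20 with hd
  have hdpos : 0 < d := by rw [hd]; linarith
  have hd20 : d < 1 / 20 := by rw [hd]; linarith
  refine ⟨3 * b / d, b, min (r (1 / 8)) d, lt_min (hX.r_pos _ h8) hdpos,
    ?_⟩
  intro T w hT1 hT2 hT3 hw0 hw
  have hwr : ‖w‖ < r (1 / 8) := hw.trans_le (min_le_left _ _)
  have hwd : ‖w‖ < d := hw.trans_le (min_le_right _ _)
  have hWpos : 0 < ‖w‖ := norm_pos_iff.2 hw0
  -- the disc
  have hdisc : ∀ s ∈ ball T d, s ∈ Sg κ' ∧ 1 / 8 < ‖s‖ := by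
    intro s hs
    rw [mem_ball, dist_eq_norm] at hs
    have h1 : ‖T‖ - ‖s - T‖ ≤ ‖s‖ := by
      have := norm_sub_norm_le T s
      have h' : ‖T - s‖ = ‖s - T‖ := norm_sub_rev _ _
      linarith
    have h2 : ‖s‖ ≤ ‖T‖ + ‖s - T‖ := by
      have := norm_sub_norm_le s T
      linarith
    have h3 : s.im ≤ T.im + ‖s - T‖ := by
      have := Complex.abs_im_le_norm (s - T)
      have h' : s.im - T.im ≤ |(s - T).im| := by
        rw [Complex.sub_im]; exact le_abs_self _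
      linarith
    have h4 : 1 / 8 < ‖s‖ := by linarith
    refine ⟨⟨norm_pos_iff.1 (by linarith), by linarith, ?_⟩, h4⟩
    have h5 : κs * ‖T‖ ≤ κs * (‖s‖ + d) := by
      have h6 : ‖T‖ ≤ ‖s‖ + d := by linarith
      gcongr
    have h7 : κs * d ≤ d := by nlinarith
    have h8' : 2 * d < (κ' - κs) * ‖s‖ := by
      have : (κ' - κs) * (1 / 8) < (κ' - κs) * ‖s‖ := by
        have : 0 < κ' - κs := by linarith
        gcongr
      rw [hd]; linarith
    nlinarith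
  have hnear : ∀ s ∈ ball T d, ‖X (s, w) - s‖ ≤ b * ‖w‖ ^ 2 := by
    intro s hs
    refine (hX.near _ h8 s w (hdisc s hs).1 (hdisc s hs).2 hwr).trans ?_
    gcongr
    exact (le_abs_self _).trans (by linarith)
  have hTm : T ∈ ball T d := mem_ball_self hdpos
  have hTw : T + w ∈ ball T d := by
    rw [mem_ball, dist_eq_norm]; simpa using hwd
  refine ⟨?_, hnear T hTm⟩
  have hdf : DifferentiableOn ℂ (fun s => X (s, w) - s) (ball T d) := by
    have h1 : DifferentiableOn ℂ (fun s : ℂ => ((s, w) : ℂ × ℂ)) (ball T d) := by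
      apply Differentiable.differentiableOn
      fun_prop
    refine ((hX.diff _ h8).comp h1 ?_).sub differentiableOn_id
    intro s hs
    exact ⟨(hdisc s hs).1, (hdisc s hs).2, hwr⟩
  have hmap : MapsTo (fun s => X (s, w) - s) (ball T d)
      (closedBall ((fun s => X (s, w) - s) T) (3 * b * ‖w‖ ^ 2)) := by
    intro s hs
    rw [mem_closedBall, dist_eq_norm]
    have h1 := hnear s hs
    have h2 := hnear T hTm
    have h3 := norm_sub_le (X (s, w) - s) (X (T, w) - T)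
    have h4 : 0 < b * ‖w‖ ^ 2 := by positivity
    simp only
    linarith
  have h := Complex.dist_le_div_mul_dist_of_mapsTo_ball hdf hmap hTw
  rw [dist_eq_norm, dist_eq_norm] at h
  have e1 : T + w - T = w := by ring
  rw [e1] at h
  have e2 : (start X T w).2 + w = -((X (T + w, w) - (T + w)) - (X (T, w) - T)) := by
    simp only [start]; ring
  rw [e2, norm_neg]
  refine h.trans (le_of_eq ?_)
  field_simp

/-! ### the orbit family -/

/-- parameters of the construction -/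
structure Par (κs κ' κ₂ ρ C c A B A₀ B₀ : ℝ) (Ψ : ℂ → ℂ → ℂ) (G : ℂ × ℂ → ℂ) (r Bf : ℝ → ℝ)
    (X : ℂ × ℂ → ℂ) : Prop where
  nds : NDS κ₂ ρ C Ψ G
  fam : Fam κ' Ψ r Bf X
  κs_pos : 0 < κs
  κs_lt : κs < 1 / 10
  κs_lt' : κs < κ'
  κ_lt : κ' < κ₂
  κ_lt1 : κ₂ < 1
  c_pos : 0 < c
  c_le : c ≤ 1 / 64
  A_pos : 0 < A
  B_pos : 0 < B
  orb : ∀ (T₀ w : ℂ) (g₀ : ℝ) (k : ℕ) (p₀ : ℂ × ℂ), Ref κ' c T₀ w g₀ k →
      ‖p₀.2 + w‖ ≤ A₀ * ‖w‖ ^ 3 → ‖p₀.1 - T₀‖ ≤ B₀ * ‖w‖ ^ 2 → ∀ j : ℕ, j ≤ k →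
        ‖((stp G)^[j] p₀).2 + w‖ * (g₀ - j * ‖w‖) ^ 2 ≤ A * ‖w‖ ^ 3 ∧
        ‖((stp G)^[j] p₀).1 - (T₀ - j * w)‖ * (g₀ - j * ‖w‖) ≤ B * ‖w‖ ^ 2 ∧
        ((stp G)^[j] p₀).1 ∈ Rg κ₂ ∧ ‖((stp G)^[j] p₀).2‖ < ρ * ‖((stp G)^[j] p₀).1‖ ∧
        ‖((stp G)^[j] p₀).1 - (T₀ - j * w)‖ ≤ (g₀ - j * ‖w‖) / 8 ∧
        ‖((stp G)^[j] p₀).2‖ ≤ 2 * ‖w‖
  stb : ∀ T w : ℂ, 1 / 4 < ‖T‖ → ‖T‖ < 3 / 4 → T.im ≤ κs * ‖T‖ → w ≠ 0 →
      ‖w‖ < c → ‖(start X T w).2 + w‖ ≤ A₀ * ‖w‖ ^ 3 ∧ ‖(start X T w).1 - T‖ ≤ B₀ * ‖w‖ ^ 2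
  sm : ∀ W : ℝ, 0 ≤ W → W < c → Sm (κ' - κs) ρ r Bf (1 / 8) W

section par

variable {κs κ' κ₂ ρ C c A B A₀ B₀ : ℝ} {Ψ : ℂ → ℂ → ℂ} {G : ℂ × ℂ → ℂ} {r Bf : ℝ → ℝ}
    {X : ℂ × ℂ → ℂ}

/-- base point in the wide sector, direction in the narrow cone -/
structure NO (κs c : ℝ) (t w : ℂ) : Prop where
  t0 : t ≠ 0
  t1 : ‖t‖ < 1 / 4
  t2 : t.im < κs * ‖t‖
  wc : ‖w‖ < c * ‖t‖
  out : Dn w

theorem NO.facts {t w : ℂ} (h : NO κs c t w) (hc : 0 < c) :
    t ≠ 0 ∧ ‖t‖ < 1 / 4 ∧ t.im ≤ κs * ‖t‖ ∧ ‖w‖ < c * ‖t‖ ∧ ‖w‖ < c := by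
  obtain ⟨h1, h2, h3, h4, h5⟩ := h
  refine ⟨h1, h2, h3.le, h4, h4.trans_le ?_⟩
  nlinarith

theorem Par.gd (P : Par κs κ' κ₂ ρ C c A B A₀ B₀ Ψ G r Bf X) {t w : ℂ} (h : NO κs c t w) {i : ℕ}
    {a : ℝ} (ha : a ≤ ‖t‖ / 4) (hi : ‖t‖ + i * ‖w‖ < 13 / 16) : Gs κs a (t + i * w) := by
  obtain ⟨h0, h1, h2, h3, h4⟩ := h.facts P.c_pos
  have hn : 0 < ‖t‖ := norm_pos_iff.2 h0
  have hg := geo (a := i) P.κs_pos P.κs_lt h2 (Or.inl h.out) (Nat.cast_nonneg i)
  simp only [Complex.ofReal_natCast] at hg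
  have hp : 0 ≤ (i : ℝ) * ‖w‖ := by positivity
  exact ⟨by linarith [hg.1], by linarith [hg.2.1], hg.2.2⟩

theorem Par.gd8 (P : Par κs κ' κ₂ ρ C c A B A₀ B₀ Ψ G r Bf X) {t w : ℂ} (h : NO κs c t w) {i : ℕ}
    (hlo : 1 / 2 < ‖t‖ + i * ‖w‖) (hi : ‖t‖ + i * ‖w‖ < 13 / 16) : Gs κs (1 / 8) (t + i * w) := by
  obtain ⟨h0, h1, h2, h3, h4⟩ := h.facts P.c_pos
  have hg := geo (a := i) P.κs_pos P.κs_lt h2 (Or.inl h.out) (Nat.cast_nonneg i)
  simp only [Complex.ofReal_natCast] at hg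
  exact ⟨by linarith [hg.1], by linarith [hg.2.1], hg.2.2⟩

theorem Par.orbit (P : Par κs κ' κ₂ ρ C c A B A₀ B₀ Ψ G r Bf X) {t w : ℂ} (h : NO κs c t w) {k : ℕ}
    (hk : adm k t w) (j : ℕ) (hj : j ≤ k) :
    ‖((stp G)^[j] (start X (t + k * w) w)).1 - (t + k * w - j * w)‖ * (‖t‖ + k * ‖w‖ - j * ‖w‖) ≤
        B * ‖w‖ ^ 2 ∧
      ((stp G)^[j] (start X (t + k * w) w)).1 ∈ Rg κ₂ ∧
      ‖((stp G)^[j] (start X (t + k * w) w)).2‖ < ρ * ‖((stp G)^[j] (start X (t + k * w) w)).1‖ ∧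
      ‖((stp G)^[j] (start X (t + k * w) w)).1 - (t + k * w - j * w)‖ ≤
        (‖t‖ + k * ‖w‖ - j * ‖w‖) / 8 ∧
      ‖((stp G)^[j] (start X (t + k * w) w)).2‖ ≤ 2 * ‖w‖ := by
  obtain ⟨h0, h1, h2, h3, h4⟩ := h.facts P.c_pos
  have hR := ref_of (k := k) P.κs_pos P.κs_lt P.κs_lt' h0 h2 h.out P.c_pos h3 hk.2
  have hg := P.gd8 h (i := k) hk.1 (by linarith [hk.2])
  have hge := geo (a := k) P.κs_pos P.κs_lt h2 (Or.inl h.out) (Nat.cast_nonneg k)
  simp only [Complex.ofReal_natCast] at hge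
  obtain ⟨s1, s2⟩ := P.stb (t + k * w) w (by linarith [hge.1, hk.1]) (by linarith [hge.2.1, hk.2])
    hg.im h.out.ne h4
  obtain ⟨-, o2, o3, o4, o5, o6⟩ := P.orb _ _ _ _ _ hR s1 s2 j hj
  exact ⟨o2, o3, o4, o5, o6⟩

theorem Par.indep (P : Par κs κ' κ₂ ρ C c A B A₀ B₀ Ψ G r Bf X) {t w : ℂ} (h : NO κs c t w) {k : ℕ}
    (hk : adm k t w) (hk' : adm (k + 1) t w) : sta G X (k + 1) t w = sta G X k t w := by
  obtain ⟨h0, h1, h2, h3, h4⟩ := h.facts P.c_pos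
  unfold sta
  rw [Function.iterate_succ_apply]
  have e : t + ((k + 1 : ℕ) : ℂ) * w = t + k * w + w := by push_cast; ring
  have hc := P.c_le
  have hW := norm_nonneg w
  have c1 : ((k + 1 : ℕ) : ℝ) = k + 1 := by push_cast; ring
  have c2 : ((k + 2 : ℕ) : ℝ) = k + 2 := by push_cast; ring
  have hk1 := hk.1
  have hk2 := hk'.2
  rw [c1] at hk2
  rw [e, match_step P.nds P.fam P.κs_pos P.κs_lt' P.κ_lt P.κ_lt1 (by norm_num : (0 : ℝ) < 1 / 8)
    h.out.ne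
    (P.sm _ (norm_nonneg _) h4) (P.gd8 h hk.1 (by linarith [hk.2])) (by
      rw [← e]
      refine P.gd8 h hk'.1 (by rw [c1]; linarith)) (by
      have e2 : t + k * w + w + w = t + ((k + 2 : ℕ) : ℂ) * w := by push_cast; ring
      rw [e2]
      refine P.gd8 h (by rw [c2]; linarith) (by rw [c2]; linarith))]

theorem Par.indep_le (P : Par κs κ' κ₂ ρ C c A B A₀ B₀ Ψ G r Bf X) {t w : ℂ} (h : NO κs c t w)
    {k l : ℕ} (hkl : k ≤ l) (hk : adm k t w) (hl : adm l t w) : sta G X l t w = sta G X k t w := by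
  induction l, hkl using Nat.le_induction with
  | base => rfl
  | succ l hle ih =>
    have hW := norm_nonneg w
    have c1 : ((l + 1 : ℕ) : ℝ) = l + 1 := by push_cast; ring
    have hl2 := hl.2
    rw [c1] at hl2
    have hadm : adm l t w := by
      refine ⟨?_, by linarith⟩
      have : (k : ℝ) * ‖w‖ ≤ l * ‖w‖ := by gcongr
      linarith [hk.1]
    rw [P.indep h hadm hl, ih hadm]

theorem Par.indep_all (P : Par κs κ' κ₂ ρ C c A B A₀ B₀ Ψ G r Bf X) {t w : ℂ} (h : NO κs c t w)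
    {k l : ℕ} (hk : adm k t w) (hl : adm l t w) : sta G X l t w = sta G X k t w := by
  rcases le_total k l with hkl | hkl
  · exact P.indep_le h hkl hk hl
  · exact (P.indep_le h hkl hl hk).symm

theorem kk_spec {t w : ℂ} (hc : 0 < c) (h : NO κs c t w) :
    ‖t‖ + kk t w * ‖w‖ ≤ 5 / 8 ∧ 5 / 8 - ‖w‖ < ‖t‖ + kk t w * ‖w‖ := by
  obtain ⟨h0, h1, h2, h3, h4⟩ := h.facts hc
  have hW : 0 < ‖w‖ := norm_pos_iff.2 h.out.ne
  have hq : 0 ≤ (5 / 8 - ‖t‖) / ‖w‖ := div_nonneg (by linarith) hW.le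
  constructor
  · have := Nat.floor_le hq
    rw [le_div_iff₀ hW] at this
    have e : (kk t w : ℝ) * ‖w‖ ≤ 5 / 8 - ‖t‖ := this
    linarith
  · have := Nat.lt_floor_add_one ((5 / 8 - ‖t‖) / ‖w‖)
    rw [div_lt_iff₀ hW] at this
    have e : 5 / 8 - ‖t‖ < ((kk t w : ℝ) + 1) * ‖w‖ := this
    linarith

theorem kk_adm {t w : ℂ} (hc : 0 < c) (hc64 : c ≤ 1 / 64) (h : NO κs c t w) :
    adm (kk t w) t w := by
  obtain ⟨h1, h2⟩ := kk_spec hc h
  obtain ⟨-, -, -, -, h4⟩ := h.facts hc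
  exact ⟨by linarith, by linarith⟩

theorem Par.Xo_eq (P : Par κs κ' κ₂ ρ C c A B A₀ B₀ Ψ G r Bf X) {t w : ℂ} (h : NO κs c t w) {k : ℕ}
    (hk : adm k t w) : Xo G X (t, w) = (sta G X k t w).1 := by
  unfold Xo
  rw [P.indep_all h hk (kk_adm P.c_pos P.c_le h)]

theorem eventually_NO {t w : ℂ} (h : NO κs c t w) : ∀ᶠ p : ℂ × ℂ in 𝓝 (t, w), NO κs c p.1 p.2 := by
  have h1 : ∀ᶠ p : ℂ × ℂ in 𝓝 (t, w), p.1 ≠ 0 :=
    (continuous_fst.tendsto (t, w)).eventually_ne h.t0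
  have h2 : ∀ᶠ p : ℂ × ℂ in 𝓝 (t, w), ‖p.1‖ < 1 / 4 :=
    (continuous_fst.norm.tendsto (t, w)).eventually_lt_const h.t1
  have h3 : ∀ᶠ p : ℂ × ℂ in 𝓝 (t, w), p.1.im < κs * ‖p.1‖ := by
    have hc : Continuous fun p : ℂ × ℂ => κs * ‖p.1‖ - p.1.im :=
      (continuous_const.mul continuous_fst.norm).sub (Complex.continuous_im.comp continuous_fst)
    have := (hc.tendsto (t, w)).eventually_const_lt
      (show (0 : ℝ) < κs * ‖t‖ - t.im by linarith [h.t2])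
    filter_upwards [this] with p hp
    linarith
  have h4 : ∀ᶠ p : ℂ × ℂ in 𝓝 (t, w), ‖p.2‖ < c * ‖p.1‖ := by
    have hc : Continuous fun p : ℂ × ℂ => c * ‖p.1‖ - ‖p.2‖ := by fun_prop
    have := (hc.tendsto (t, w)).eventually_const_lt
      (show (0 : ℝ) < c * ‖t‖ - ‖w‖ by linarith [h.wc])
    filter_upwards [this] with p hp
    linarith
  have h5 : ∀ᶠ p : ℂ × ℂ in 𝓝 (t, w), Dn p.2 := by
    have : ∀ᶠ v : ℂ in 𝓝 w, Dn v := isOpen_Dn.mem_nhds h.out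
    exact continuous_snd.continuousAt.eventually this
  filter_upwards [h1, h2, h3, h4, h5] with p p1 p2 p3 p4 p5
  exact ⟨p1, p2, p3, p4, p5⟩

theorem Par.state_diff (P : Par κs κ' κ₂ ρ C c A B A₀ B₀ Ψ G r Bf X) {t w : ℂ} (h : NO κs c t w)
    {k : ℕ} (hk : adm k t w) (j : ℕ) (hj : j ≤ k) :
    DifferentiableAt ℂ (fun p : ℂ × ℂ => (stp G)^[j] (start X (p.1 + k * p.2) p.2)) (t, w) := by
  obtain ⟨h0, h1, h2, h3, h4⟩ := h.facts P.c_pos
  have h8 : (0 : ℝ) < 1 / 8 := by norm_num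
  induction j with
  | zero =>
    simp only [Function.iterate_zero, id_eq, start]
    have g1 := P.gd8 h (i := k) hk.1 (by linarith [hk.2])
    have c1 : ((k + 1 : ℕ) : ℝ) = k + 1 := by push_cast; ring
    have hW := norm_nonneg w
    have hc := P.c_le
    have g2 : Gs κs (1 / 8) (t + k * w + w) := by
      have := P.gd8 h (i := k + 1) (by rw [c1]; linarith [hk.1]) (by rw [c1]; linarith [hk.2])
      have e : t + ((k + 1 : ℕ) : ℂ) * w = t + k * w + w := by push_cast; ring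
      rwa [e] at this
    have hr := (P.sm _ (norm_nonneg _) h4).rad
    have d1 : DifferentiableAt ℂ X (t + k * w, w) :=
      Fam.diffAt P.fam h8 (g1.sg P.κs_lt' h8) g1.low hr
    have d2 : DifferentiableAt ℂ X (t + k * w + w, w) :=
      Fam.diffAt P.fam h8 (g2.sg P.κs_lt' h8) g2.low hr
    have l1 : DifferentiableAt ℂ (fun p : ℂ × ℂ => (p.1 + k * p.2, p.2)) (t, w) := by fun_prop
    have l2 : DifferentiableAt ℂ (fun p : ℂ × ℂ => (p.1 + k * p.2 + p.2, p.2)) (t, w) := by fun_prop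
    have e1 : DifferentiableAt ℂ (fun p : ℂ × ℂ => X (p.1 + k * p.2, p.2)) (t, w) :=
      DifferentiableAt.comp (t, w) (g := X) d1 l1
    have e2 : DifferentiableAt ℂ (fun p : ℂ × ℂ => X (p.1 + k * p.2 + p.2, p.2)) (t, w) :=
      DifferentiableAt.comp (t, w) (g := X) d2 l2
    exact e1.prodMk (e1.sub e2)
  | succ j ih =>
    have hj' : j ≤ k := by omega
    have ih := ih hj'
    obtain ⟨-, o3, o4, -, -⟩ := P.orbit h hk j hj'
    have hGd : DifferentiableAt ℂ G ((stp G)^[j] (start X (t + k * w) w)) :=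
      P.nds.diff _ _ o3 o4
    have hGc : DifferentiableAt ℂ (fun p : ℂ × ℂ => G ((stp G)^[j] (start X (p.1 + k * p.2) p.2)))
        (t, w) := DifferentiableAt.comp (t, w) (g := G)
          (f := fun p : ℂ × ℂ => (stp G)^[j] (start X (p.1 + k * p.2) p.2)) hGd ih
    have hfst : DifferentiableAt ℂ
        (fun p : ℂ × ℂ => ((stp G)^[j] (start X (p.1 + k * p.2) p.2)).1) (t, w) := ih.fst
    have : (fun p : ℂ × ℂ => (stp G)^[j + 1] (start X (p.1 + k * p.2) p.2)) =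
        fun p : ℂ × ℂ => (((stp G)^[j] (start X (p.1 + k * p.2) p.2)).1 +
          G ((stp G)^[j] (start X (p.1 + k * p.2) p.2)),
          G ((stp G)^[j] (start X (p.1 + k * p.2) p.2))) := by
      funext p
      rw [Function.iterate_succ_apply']
      rfl
    rw [this]
    exact (hfst.add hGc).prodMk hGc

theorem Par.Xo_diff (P : Par κs κ' κ₂ ρ C c A B A₀ B₀ Ψ G r Bf X) {t w : ℂ} (h : NO κs c t w) :
    DifferentiableAt ℂ (Xo G X) (t, w) := by
  have hk := kk_adm P.c_pos P.c_le h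
  have hd := (P.state_diff h hk _ le_rfl).fst
  refine hd.congr_of_eventuallyEq ?_
  filter_upwards [eventually_NO h, eventually_adm hk] with p hp1 hp2
  exact P.Xo_eq hp1 hp2

theorem Par.Xo_near (P : Par κs κ' κ₂ ρ C c A B A₀ B₀ Ψ G r Bf X) {t w : ℂ} (h : NO κs c t w) :
    ‖Xo G X (t, w) - t‖ ≤ B * ‖w‖ ^ 2 / ‖t‖ := by
  obtain ⟨h0, h1, h2, h3, h4⟩ := h.facts P.c_pos
  have hn : 0 < ‖t‖ := norm_pos_iff.2 h0
  have hk := kk_adm P.c_pos P.c_le h
  obtain ⟨o1, -⟩ := P.orbit h hk _ le_rfl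
  have e1 : t + kk t w * w - kk t w * w = t := by ring
  have e2 : ‖t‖ + kk t w * ‖w‖ - kk t w * ‖w‖ = ‖t‖ := by ring
  rw [e1, e2] at o1
  rw [le_div_iff₀ hn]
  exact o1

/-- for small `w` the orbit family is the given family -/
theorem Par.Xo_agree (P : Par κs κ' κ₂ ρ C c A B A₀ B₀ Ψ G r Bf X) {t w : ℂ} (h : NO κs c t w)
    {a : ℝ} (ha : 0 < a) (hat : a ≤ ‖t‖ / 4) (hS : Sm (κ' - κs) ρ r Bf a ‖w‖) :
    Xo G X (t, w) = X (t, w) := by
  have hs := kk_spec P.c_pos h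
  obtain ⟨h0, h1, h2, h3, h4⟩ := h.facts P.c_pos
  have hc := P.c_le
  have := agree P.nds P.fam P.κs_pos P.κs_lt' P.κ_lt P.κ_lt1 ha h.out.ne hS (kk t w) (by
    intro i hi
    refine P.gd h hat ?_
    have : (i : ℝ) * ‖w‖ ≤ (kk t w + 1) * ‖w‖ := by
      gcongr
      exact_mod_cast hi
    linarith [hs.1])
  unfold Xo sta
  simp only
  rw [this]
  rfl

/-- the orbit family extends the given family in the whole radius of `X` -/
theorem Par.Xo_ext (P : Par κs κ' κ₂ ρ C c A B A₀ B₀ Ψ G r Bf X) {t w : ℂ} (h : NO κs c t w)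
    {a : ℝ} (ha : 0 < a) (hat : a < ‖t‖) (hw : ‖w‖ < r a) : Xo G X (t, w) = X (t, w) := by
  obtain ⟨h0, h1, h2, h3, h4⟩ := h.facts P.c_pos
  have hn : 0 < ‖t‖ := norm_pos_iff.2 h0
  have htS : t ∈ Sg κ' := ⟨h0, by linarith, by nlinarith [P.κs_lt']⟩
  set R := min (c * ‖t‖) (r a) with hR
  have hRpos : 0 < R := lt_min (mul_pos P.c_pos hn) (P.fam.r_pos a ha)
  set S : Set ℂ := {v | Dn v} ∩ ball 0 R with hSdef
  have hSo : IsOpen S := isOpen_Dn.inter isOpen_ball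
  have hSc : Convex ℝ S := convex_Dn.inter (convex_ball _ _)
  have hNO : ∀ v ∈ S, NO κs c t v := by
    rintro v ⟨hv1, hv2⟩
    have hv3 : ‖v‖ < R := by simpa using hv2
    exact ⟨h0, h1, h.t2, hv3.trans_le (min_le_left _ _), hv1⟩
  have hf : DifferentiableOn ℂ (fun v => Xo G X (t, v)) S := by
    intro v hv
    have h := P.Xo_diff (hNO v hv)
    have hl : DifferentiableAt ℂ (fun v : ℂ => ((t, v) : ℂ × ℂ)) v := by fun_prop
    exact (DifferentiableAt.comp v (g := Xo G X) h hl).differentiableWithinAt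
  have hg : DifferentiableOn ℂ (fun v => X (t, v)) S := by
    rintro v ⟨hv1, hv2⟩
    have hv3 : ‖v‖ < R := by simpa using hv2
    have h := Fam.diffAt P.fam ha htS hat (hv3.trans_le (min_le_right _ _))
    have hl : DifferentiableAt ℂ (fun v : ℂ => ((t, v) : ℂ × ℂ)) v := by fun_prop
    exact (DifferentiableAt.comp v (g := X) h hl).differentiableWithinAt
  have hκ : 0 < κ' - κs := by linarith [P.κs_lt']
  obtain ⟨σ, hσ, hσ1, hsm⟩ := exists_sm P.fam hκ P.nds.ρ_pos (a := ‖t‖ / 4) (by positivity)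
  have heq : ∀ v ∈ S, ‖v‖ < σ → Xo G X (t, v) = X (t, v) := by
    intro v hv hvσ
    exact P.Xo_agree (hNO v hv) (by positivity) le_rfl (hsm ‖v‖ (norm_nonneg _) hvσ)
  set ε := min σ R / 2 with hε
  have hεpos : 0 < ε := by positivity
  have hεσ : ε < σ := by
    have := min_le_left σ R
    linarith
  have hεR : ε < R := by
    have := min_le_right σ R
    linarith
  have hnorm : ‖-Complex.I * (ε : ℂ)‖ = ε := by
    rw [norm_mul, norm_neg, Complex.norm_I, one_mul, Complex.norm_real,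
      Real.norm_of_nonneg hεpos.le]
  have hz0 : -Complex.I * (ε : ℂ) ∈ S := by
    refine ⟨?_, ?_⟩
    · constructor <;> · simp; positivity
    · rw [mem_ball, dist_zero_right, hnorm]; exact hεR
  have hev : (fun v => Xo G X (t, v)) =ᶠ[𝓝 (-Complex.I * (ε : ℂ))] fun v => X (t, v) := by
    have h1 : ∀ᶠ v : ℂ in 𝓝 (-Complex.I * (ε : ℂ)), v ∈ S := hSo.mem_nhds hz0
    have h2 : ∀ᶠ v : ℂ in 𝓝 (-Complex.I * (ε : ℂ)), ‖v‖ < σ :=
      (continuous_norm.tendsto (-Complex.I * (ε : ℂ))).eventually_lt_const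
        (show ‖-Complex.I * (ε : ℂ)‖ < σ by rw [hnorm]; exact hεσ)
    filter_upwards [h1, h2] with v hv1 hv2
    exact heq v hv1 hv2
  have := (hf.analyticOnNhd hSo).eqOn_of_preconnected_of_eventuallyEq (hg.analyticOnNhd hSo)
    hSc.isPreconnected hz0 hev
  refine this (x := w) ⟨h.out, ?_⟩
  rw [mem_ball, dist_zero_right]
  exact lt_min h3 hw

/-- the law for outward directions -/
theorem Par.Xo_el (P : Par κs κ' κ₂ ρ C c A B A₀ B₀ Ψ G r Bf X) {κ c₀ M : ℝ}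
    (hE : EndPsi κ c₀ M Ψ) (hκ₂ : κ₂ ≤ κ) (hcc : 16 * c ≤ c₀) {t w : ℂ}
    (h1 : NO κs c (t - w) w) (h2 : NO κs c t w) (h3 : NO κs c (t + w) w) :
    EL Ψ (Xo G X (t + w, w)) (Xo G X (t, w)) (Xo G X (t - w, w)) = 0 ∧
      (Xo G X (t + w, w), Xo G X (t, w)) ∈ DD κ c₀ ∧
      (Xo G X (t, w), Xo G X (t - w, w)) ∈ DD κ c₀ := by
  obtain ⟨h0, h1', h2', h3', h4⟩ := h2.facts P.c_pos
  have hn : 0 < ‖t‖ := norm_pos_iff.2 h0
  have hW : 0 < ‖w‖ := norm_pos_iff.2 h2.out.ne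
  have hc := P.c_le
  obtain ⟨k1, k2⟩ := kk_spec P.c_pos h2
  set k := kk t w with hk
  have hkpos : k ≠ 0 := by
    intro h
    rw [h] at k2
    simp only [Nat.cast_zero, zero_mul, add_zero] at k2
    linarith
  obtain ⟨m, hm⟩ := Nat.exists_eq_succ_of_ne_zero hkpos
  have hkm : (k : ℝ) = m + 1 := by rw [hm]; push_cast; ring
  have hkmc : (k : ℂ) = m + 1 := by rw [hm]; push_cast; ring
  have nt1 : ‖t‖ - ‖w‖ ≤ ‖t + w‖ := by
    have := norm_sub_norm_le t (-w)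
    rw [sub_neg_eq_add, norm_neg] at this
    exact this
  have nt2 : ‖t + w‖ ≤ ‖t‖ + ‖w‖ := norm_add_le _ _
  have nt3 : ‖t‖ - ‖w‖ ≤ ‖t - w‖ := norm_sub_norm_le t w
  have nt4 : ‖t - w‖ ≤ ‖t‖ + ‖w‖ := norm_sub_le _ _
  have c1 : ((k + 1 : ℕ) : ℝ) = k + 1 := by push_cast; ring
  have a0 : adm k t w := ⟨by linarith, by linarith⟩
  have am : adm m (t + w) w := ⟨by rw [hkm] at k2; linarith, by rw [hkm] at k1; linarith⟩
  have ap : adm (k + 1) (t - w) w := by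
    constructor
    · rw [c1]; linarith
    · rw [c1]; linarith
  -- common start
  set p₀ := start X (t + k * w) w with hp₀
  have s0 : sta G X k t w = (stp G)^[k] p₀ := rfl
  have sm' : sta G X m (t + w) w = (stp G)^[m] p₀ := by
    unfold sta
    rw [hp₀]
    congr 2
    rw [hkmc]; ring
  have sp : sta G X (k + 1) (t - w) w = (stp G)^[k + 1] p₀ := by
    unfold sta
    rw [hp₀]
    congr 2
    push_cast; ring
  have e0 : Xo G X (t, w) = ((stp G)^[k] p₀).1 := by rw [P.Xo_eq h2 a0, s0]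
  have em : Xo G X (t + w, w) = ((stp G)^[m] p₀).1 := by rw [P.Xo_eq h3 am, sm']
  have ep : Xo G X (t - w, w) = ((stp G)^[k + 1] p₀).1 := by rw [P.Xo_eq h1 ap, sp]
  obtain ⟨-, o3, o4, o5, o6⟩ := P.orbit h2 a0 k le_rfl
  obtain ⟨-, m3, m4, m5, m6⟩ := P.orbit h2 a0 m (by omega)
  obtain ⟨-, q3, q4, q5, q6⟩ := P.orbit h1 ap (k + 1) le_rfl
  rw [← hp₀] at o3 o4 o5 o6 m3 m4 m5 m6
  have hst : start X (t - w + ((k + 1 : ℕ) : ℂ) * w) w = p₀ := by
    rw [hp₀]; congr 1; push_cast; ring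
  rw [hst] at q3 q4 q5 q6
  have ek : (stp G)^[k] p₀ = stp G ((stp G)^[m] p₀) := by
    rw [hm, Function.iterate_succ_apply']
  have ek1 : (stp G)^[k + 1] p₀ = stp G ((stp G)^[k] p₀) := by
    rw [Function.iterate_succ_apply']
  have hprev : ((stp G)^[k] p₀).1 - ((stp G)^[k] p₀).2 = ((stp G)^[m] p₀).1 := by
    rw [ek]; simp [stp]
  have hnext : ((stp G)^[k + 1] p₀).1 = ((stp G)^[k] p₀).1 +
      G (((stp G)^[k] p₀).1, ((stp G)^[k] p₀).2) := by
    rw [ek1]; rfl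
  have hnext2 : ((stp G)^[k + 1] p₀).1 - ((stp G)^[k] p₀).1 = ((stp G)^[k + 1] p₀).2 := by
    rw [ek1]; simp [stp]
  have hel := P.nds.el _ _ o3 o4
  rw [hprev, ← hnext] at hel
  rw [e0, em, ep]
  -- sizes
  have ex : t + k * w - k * w = t := by ring
  have eg : ‖t‖ + k * ‖w‖ - k * ‖w‖ = ‖t‖ := by ring
  rw [ex, eg] at o5
  have hx : 7 / 8 * ‖t‖ ≤ ‖((stp G)^[k] p₀).1‖ := by
    have := norm_sub_norm_le t ((stp G)^[k] p₀).1
    have h' : ‖t - ((stp G)^[k] p₀).1‖ = ‖((stp G)^[k] p₀).1 - t‖ := norm_sub_rev _ _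
    linarith
  have hwt : ‖w‖ ≤ ‖t‖ / 64 := by nlinarith
  have hxm : ‖((stp G)^[k] p₀).1‖ - 2 * ‖w‖ ≤ ‖((stp G)^[m] p₀).1‖ := by
    rw [← hprev]
    have := norm_sub_norm_le ((stp G)^[k] p₀).1 ((stp G)^[k] p₀).2
    linarith
  have hxp : ‖((stp G)^[k] p₀).1‖ - 2 * ‖w‖ ≤ ‖((stp G)^[k + 1] p₀).1‖ := by
    have e : ((stp G)^[k + 1] p₀).1 = ((stp G)^[k] p₀).1 + ((stp G)^[k + 1] p₀).2 := by
      rw [← hnext2]; ring
    rw [e]
    have := norm_sub_norm_le ((stp G)^[k] p₀).1 (-((stp G)^[k + 1] p₀).2)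
    rw [sub_neg_eq_add, norm_neg] at this
    linarith
  have hc₀ := hE.c_pos
  have hbig : ∀ a : ℝ, ‖t‖ / 2 ≤ a → 2 * ‖w‖ < c₀ * a := by
    intro a ha
    have h1 : c₀ * (‖t‖ / 2) ≤ c₀ * a := by gcongr
    have h2 : 16 * c * ‖t‖ ≤ c₀ * ‖t‖ := by gcongr
    nlinarith
  refine ⟨hel, ⟨Rg_sub_Sg hκ₂ m3, Rg_sub_Sg hκ₂ o3, ?_, ?_⟩,
    ⟨Rg_sub_Sg hκ₂ o3, Rg_sub_Sg hκ₂ q3, ?_, ?_⟩⟩
  · have e : ((stp G)^[k] p₀).1 - ((stp G)^[m] p₀).1 = ((stp G)^[k] p₀).2 := by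
      rw [← hprev]; ring
    simp only
    rw [e]
    exact lt_of_le_of_lt o6 (hbig _ (by linarith))
  · have e : ((stp G)^[k] p₀).1 - ((stp G)^[m] p₀).1 = ((stp G)^[k] p₀).2 := by
      rw [← hprev]; ring
    simp only
    rw [e]
    exact lt_of_le_of_lt o6 (hbig _ (by linarith))
  · simp only
    rw [hnext2]
    exact lt_of_le_of_lt q6 (hbig _ (by linarith))
  · simp only
    rw [hnext2]
    exact lt_of_le_of_lt q6 (hbig _ (by linarith))


end par

end Crest.Agent.R102.Mel.CD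

namespace Crest.Agent.R102.Mel

open Crest.Agent.R102.T5R

theorem dn_neg_I {l : ℝ} (hl : 0 < l) : CD.Dn (-Complex.I * (l : ℂ)) := by
  constructor <;> · simp; positivity

theorem norm_neg_I {l : ℝ} (hl : 0 < l) : ‖-Complex.I * (l : ℂ)‖ = l := by
  rw [norm_mul, norm_neg, Complex.norm_I, one_mul, Complex.norm_real, Real.norm_of_nonneg hl.le]

/-- **(ConeD)** from the near-diagonal map -/
theorem coneD_of_ndm (hN : NDM) : ConeD := by
  intro κ κ' κs c₀ M Ψ r Bf X hκs hκs' hκ hκ10 hE hX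
  have hκ' : 0 < κ' := hκs.trans hκs'
  set κ₂ := (κ + κ') / 2 with hκ₂
  have hκ₂1 : κ' < κ₂ := by rw [hκ₂]; linarith
  have hκ₂2 : κ₂ < κ := by rw [hκ₂]; linarith
  have hκ₂3 : κ₂ < 1 := hκ₂2.trans hE.κ_lt
  obtain ⟨ρ, C, G, hG⟩ := L2.nds_of_ndm hN hE hκ₂2
  obtain ⟨A₀, B₀, σ₀, hσ₀, hst⟩ := CD.start_bound hX hκs hκs' (by linarith)
  obtain ⟨A, B, c₁, hA, hB, hc₁, hc64, horb⟩ := L2.orbit (A₀ := A₀) (B₀ := B₀) hG hκ' hκ₂1 hκ₂3
  obtain ⟨σ₁, hσ₁, hσ1', hsm⟩ := L2.exists_sm (κ' := κ' - κs) hX (by linarith) hG.ρ_pos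
    (a := 1 / 8) (by norm_num)
  have hc₀ := hE.c_pos
  set c := min (min c₁ (1 / (8 * B))) (min σ₀ (min σ₁ (c₀ / 16))) with hc
  have i0 : 0 < c := lt_min (lt_min hc₁ (by positivity)) (lt_min hσ₀ (lt_min hσ₁ (by positivity)))
  have i1 : c ≤ c₁ := (min_le_left _ _).trans (min_le_left _ _)
  have i1' : c ≤ 1 / (8 * B) := (min_le_left _ _).trans (min_le_right _ _)
  have i2 : c ≤ σ₀ := (min_le_right _ _).trans (min_le_left _ _)
  have i3 : c ≤ σ₁ := (min_le_right _ _).trans ((min_le_right _ _).trans (min_le_left _ _))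
  have i4 : c ≤ c₀ / 16 := (min_le_right _ _).trans ((min_le_right _ _).trans (min_le_right _ _))
  have P : CD.Par κs κ' κ₂ ρ C c A B A₀ B₀ Ψ G r Bf X := by
    refine ⟨hG, hX, hκs, by linarith, hκs', hκ₂1, hκ₂3, i0, by linarith, hA, hB, ?_, ?_, ?_⟩
    · intro T₀ w g₀ k p₀ hR h1 h2 j hj
      exact horb c T₀ w g₀ k p₀ i0 i1 hR h1 h2 j hj
    · intro T w h1 h2 h3 h4 h5
      exact hst T w h1 h2 h3 h4 (by linarith)
    · intro W h0 hW
      exact hsm W h0 (by linarith)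
  have hNO : ∀ l : ℝ, 0 < l → ∀ t ∈ Dl κs c l, CD.NO κs c t (-Complex.I * (l : ℂ)) := by
    intro l hl t ht
    refine ⟨ht.1, by linarith [ht.2.1], ht.2.2.1, ?_, dn_neg_I hl⟩
    rw [norm_neg_I hl]; exact ht.2.2.2
  refine ⟨c, B, 1, fun l t => L2.Xo G X (t, -Complex.I * (l : ℂ)), ⟨hκs, i0, ?_, ?_, one_pos,
    ?_, ?_, ?_⟩, ?_⟩
  · linarith
  · rw [le_div_iff₀ (by positivity)] at i1'
    linarith
  · intro l hl _ t ht
    have h := P.Xo_diff (hNO l hl t ht)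
    have hl : DifferentiableAt ℂ (fun t : ℂ => ((t, -Complex.I * (l : ℂ)) : ℂ × ℂ)) t := by
      fun_prop
    exact (DifferentiableAt.comp t (g := L2.Xo G X)
      (f := fun t : ℂ => ((t, -Complex.I * (l : ℂ)) : ℂ × ℂ)) h hl).differentiableWithinAt
  · intro l hl _ t ht
    have h := P.Xo_near (hNO l hl t ht)
    rwa [norm_neg_I hl] at h
  · intro l hl _ t h1 h2 h3
    have e1 : t + Complex.I * (l : ℂ) = t - -Complex.I * (l : ℂ) := by ring
    have e3 : t - Complex.I * (l : ℂ) = t + -Complex.I * (l : ℂ) := by ring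
    rw [e1] at h1 ⊢
    rw [e3] at h3 ⊢
    obtain ⟨k1, k2, k3⟩ := P.Xo_el hE hκ₂2.le (by linarith) (hNO l hl _ h1) (hNO l hl _ h2)
      (hNO l hl _ h3)
    have := L2.EL_antisymm hE k2 k3
    rw [this, k1, neg_zero]
  · intro a l ha hl _ hr t ht hat
    exact P.Xo_ext (hNO l hl t ht) ha hat (by rw [norm_neg_I hl]; exact hr)

theorem coneD : ConeD := coneD_of_ndm NDM596.ndm

end Crest.Agent.R102.Mel
end
end

-- ▼ part R102/T5SMel_490
section

/-!
# Row 102, [T5]: `MelI → Spine.T5S` (helper490)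
-/

set_option autoImplicit false

namespace Crest.Agent.R102.Mel

/-- **T5S** modulo `MelI` (963) -/
theorem t5S_of_melI (h : MelI) : Spine.T5S := t5S_fin SecAB.secAB coneD h

end Crest.Agent.R102.Mel
end

-- ▼ part R102/T5S_963

/-!
# Row 102, part (C), [T5]: `MelI` and `Spine.T5S` without hypotheses (helper963)
-/

set_option autoImplicit false

namespace Crest.Agent.R102.MelI963

/-- **MEL-I** -/
theorem melI : Mel.MelI := melI_of MelI3490.eInv

/-- **[T5]** -/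
theorem t5S : Spine.T5S := Mel.t5S_of_melI melI

end Crest.Agent.R102.MelI963
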