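import Crest.Agent.R102.Chain_559
import Crest.Agent.R102.ExitC_150
import Crest.Agent.R102.Mir_151
import Crest.Agent.R102.AMerF_88_Mg
import Crest.Agent.R102.T5S_963
import Crest.Agent.R102.Pui_714_Mg
import Crest.Agent.R102.Growth_314_Mg
import Crest.Agent.R102.Crv_821
import Crest.Agent.R102.C0_821
import Crest.Agent.R102.GrowthDefs_314
import Crest.Agent.R102.EdgeDefs_255
import Crest.Agent.R102.EdgeRig_255
import Crest.Agent.R102.SupA_115
import Crest.Agent.R102.Marc_295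

-- ▼ part R102/ExitO_150
section

/-!
Row 102, T1-B (helper150): **EXIT on the official sheets** (`Chain559.ExitO`).
-/

set_option autoImplicit false

open Set Filter Topology Metric Complex MeasureTheory
open scoped Real

noncomputable section

namespace Crest.Agent.R102.PartII150

open Crest.Agent.R102.S5 (Cn)
open Crest.Agent.R102.Slope845 (Expn)
open Crest.Agent.R102.GlueII559 (VV)

/-- **EXIT** -/
theorem exitO : Chain559.ExitO := by
  intro q η ρ r Bc b φ p m₀ h ψ H D hNB u0 R d g S u α β s₀ a₀ c A hE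
  obtain ⟨δ1, hδ1, e, he, hae⟩ := hE
  obtain ⟨g0, hg0, hg⟩ := exists_ntl A.mem S.diff A.expn
  obtain ⟨δ2, hδ2, H2⟩ := sitE_of D S.d_pos S.ball_sub A.mem S.im_le hg hg0 A.good
  have hmin : 0 < min δ1 δ2 := lt_min hδ1 hδ2
  refine ⟨VV b φ p h ρ r u, e, s₀ + g0.re - min δ1 δ2, s₀ + g0.re + min δ1 δ2, he, by linarith,
    H2 e _ _ ?_ ?_⟩
  · intro x hx
    have h1 := min_le_right δ1 δ2
    rw [abs_lt]
    constructor <;> linarith [hx.1, hx.2]
  · have h2 : ∀ᵐ x : ℝ, |(x - g0.re) - s₀| < δ1 → ∃ b1 : ℂ, b1.im = e ∧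
        ∀ M : ℝ, Tendsto (Bx b h ρ r g) (𝓝[Cn (x - g0.re, u) M] (((x - g0.re : ℝ) : ℂ), (u : ℂ)))
          (𝓝 b1) := by
      have hqm : Measure.QuasiMeasurePreserving (fun x : ℝ => x - g0.re) volume volume :=
        (measurePreserving_sub_right volume g0.re).quasiMeasurePreserving
      exact hqm.ae hae
    filter_upwards [h2] with x hx hx'
    have h1 := min_le_left δ1 δ2
    obtain ⟨b1, hb1, hlim⟩ := hx (by
      rw [abs_lt]
      constructor <;> linarith [hx'.1, hx'.2])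
    have h3 := edge_pt D S.ball_sub A.mem A.expn hg hg0 hlim
    rw [sub_add_cancel] at h3
    have h4 := (Complex.continuous_im.tendsto b1).comp h3
    rw [hb1] at h4
    exact h4

end Crest.Agent.R102.PartII150
end
end

-- ▼ part R102/Final_802
section

/-!
Row 102, the final assembly (helper802): both results of the row from the last block
`Chain559.EdgeO` (T1-B, EDGE).
-/

set_option autoImplicit false

namespace Crest.Agent.R102.Final802

open Crest.Agent.R102 Crest.AnalysisR.Billiard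

/-- part (C) for line families, from the last block -/
theorem partCL_of (hE : Chain559.EdgeO) : C0.PartCL :=
  Spine.partCL_of_blocks ZeroY478.zeroY (AMer88.aMerF RAT.ratCont) Pui714.pui MelI963.t5S
    (Chain559.T1B_of_blocks GrowthT314.growthP hE PartII150.exitO)
    (BEnd802.bEnd RAT.ratCont) T1E314.t1E (EndE348.eEnd RAT.ratCont) EAlg151.eAlg

/-- the conclusion of both results, from the last block -/
theorem concl_of (hE : Chain559.EdgeO) {Ω : Set (ℝ × ℝ)} {γ : ℝ → ℝ × ℝ}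
    {P : ℝ} (ht : IsTable Ω γ P)
    (hf : HasCausticCollar Ω γ ∨ HasInvariantPhaseFoliation Ω γ) :
    ∃ (c : ℝ × ℝ) (Q : Matrix (Fin 2) (Fin 2) ℝ), Q.PosDef ∧
      Ω = {x : ℝ × ℝ | dotProduct ![x.1 - c.1, x.2 - c.2]
        (Q.mulVec ![x.1 - c.1, x.2 - c.2]) < 1} :=
  C0.conclusion_of_partC (C0.partC_of_partCL (partCL_of hE)) ht hf

end Crest.Agent.R102.Final802
end

-- ▼ part R102/GrowPsi_314
section

/-!
Row 102, block GROWTH (helper314): growth of `θ`, `H`, lower bound of `|y| + |y'|` from the growth of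
`y`, `G` (Gronwall on vertical segments).
-/

set_option autoImplicit false

open Set Filter Topology Metric

noncomputable section

namespace Crest.Agent.R102.GrowPsi314

open Crest.Agent.R102.Growth Crest.Agent.R102.T5

section Gron

set_option linter.unusedSectionVars false

variable {E : Type*} [NormedAddCommGroup E] [NormedSpace ℂ E]

/-- Gronwall on a segment -/
lemma gron_seg {V : Set ℂ} {F F' : ℂ → E} (hF : ∀ z ∈ V, HasDerivAt F (F' z) z) {p0 p1 : ℂ} {A : ℝ}
    (hseg : ∀ s : ℝ, s ∈ Icc (0 : ℝ) 1 → p0 + s * (p1 - p0) ∈ V ∧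
      ‖F' (p0 + s * (p1 - p0))‖ ≤ A * ‖F (p0 + s * (p1 - p0))‖) :
    ‖F p1‖ ≤ ‖F p0‖ * Real.exp (A * ‖p1 - p0‖) := by
  set f : ℝ → E := fun s => F (p0 + s * (p1 - p0)) with hf
  have hd : ∀ s ∈ Icc (0 : ℝ) 1, HasDerivAt f ((p1 - p0) • F' (p0 + s * (p1 - p0))) s := by
    intro s hs
    have h1 : HasDerivAt (fun s : ℝ => p0 + (s : ℂ) * (p1 - p0)) (p1 - p0) s := by
      have h2 : HasDerivAt (fun s : ℝ => (s : ℂ)) 1 s := Complex.ofRealCLM.hasDerivAt
      have h3 := (h2.mul_const (p1 - p0)).const_add p0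
      simpa using h3
    have h4 := (hF _ (hseg s hs).1).scomp s h1
    exact h4
  have hb : ∀ s ∈ Ico (0 : ℝ) 1, ‖(p1 - p0) • F' (p0 + s * (p1 - p0))‖ ≤
      (A * ‖p1 - p0‖) * ‖f s‖ + 0 := by
    intro s hs
    have h1 := (hseg s ⟨hs.1, hs.2.le⟩).2
    rw [norm_smul, add_zero]
    calc ‖p1 - p0‖ * ‖F' (p0 + s * (p1 - p0))‖ ≤ ‖p1 - p0‖ * (A * ‖F (p0 + s * (p1 - p0))‖) := by
          gcongr
      _ = A * ‖p1 - p0‖ * ‖f s‖ := by
          simp only [hf]
          ring
  have h := norm_le_gronwallBound_of_norm_deriv_right_le (f := f)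
    (f' := fun s => (p1 - p0) • F' (p0 + s * (p1 - p0))) (δ := ‖f 0‖) (K := A * ‖p1 - p0‖)
    (ε := 0) (a := 0) (b := 1) (fun s hs => (hd s hs).continuousAt.continuousWithinAt)
    (fun s hs => (hd s ⟨hs.1, hs.2.le⟩).hasDerivWithinAt) le_rfl hb 1 ⟨zero_le_one, le_rfl⟩
  rw [gronwallBound_ε0] at h
  simpa [hf] using h

/-- a continuous 1-periodic function on the line is bounded -/
lemma bdd_per {f : ℝ → E} (hf : Continuous f) (hp : ∀ x, f (x + 1) = f x) :
    ∃ C : ℝ, 0 ≤ C ∧ ∀ x, ‖f x‖ ≤ C := by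
  obtain ⟨C, hC⟩ := (isCompact_Icc (a := (0 : ℝ)) (b := 1)).exists_bound_of_continuousOn
    hf.continuousOn
  have h0 := (norm_nonneg _).trans (hC 0 ⟨le_rfl, zero_le_one⟩)
  refine ⟨C, h0, fun x => ?_⟩
  obtain ⟨y, hy, hxy⟩ := Function.Periodic.exists_mem_Ico₀ (f := f) (c := 1) hp one_pos x
  rw [hxy]
  exact hC y ⟨hy.1, hy.2.le⟩

end Gron


lemma deriv_per {h0 : ℝ} {f : ℂ → ℂ} (hp : ∀ z ∈ Str h0, f (z + 1) = f z) :
    ∀ z ∈ Str h0, deriv f (z + 1) = deriv f z := by
  intro z hz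
  have hev : (fun z => f (z + 1)) =ᶠ[𝓝 z] f := by
    filter_upwards [(isOpen_Str h0).mem_nhds hz] with w hw
    exact hp w hw
  have h1 := hev.deriv_eq
  rwa [deriv_comp_add_const] at h1

lemma real_mem {h0 : ℝ} (hh : 0 < h0) (x : ℝ) : (x : ℂ) ∈ Str h0 := by
  change |(x : ℂ).im| < h0
  simpa using hh

/-- bound on the real line -/
lemma bdd_real {h0 : ℝ} (hh : 0 < h0) {f : ℂ → ℂ} (hf : DifferentiableOn ℂ f (Str h0))
    (hp : ∀ z ∈ Str h0, f (z + 1) = f z) : ∃ C : ℝ, 0 ≤ C ∧ ∀ x : ℝ, ‖f x‖ ≤ C := by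
  have hc : Continuous fun x : ℝ => f x := by
    rw [continuous_iff_continuousAt]
    intro x
    have h1 : ContinuousAt f (x : ℂ) :=
      (hf.differentiableAt ((isOpen_Str h0).mem_nhds (real_mem hh x))).continuousAt
    exact h1.comp Complex.continuous_ofReal.continuousAt
  refine bdd_per hc fun x => ?_
  have := hp x (real_mem hh x)
  push_cast
  exact this

/-- positive lower bound on the real line -/
lemma low_real {h0 : ℝ} (hh : 0 < h0) {f : ℂ → ℂ} (hf : DifferentiableOn ℂ f (Str h0))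
    (hp : ∀ z ∈ Str h0, f (z + 1) = f z) (hne : ∀ x : ℝ, f x ≠ 0) :
    ∃ c : ℝ, 0 < c ∧ ∀ x : ℝ, c ≤ ‖f x‖ := by
  have hc : Continuous fun x : ℝ => (f x)⁻¹ := by
    rw [continuous_iff_continuousAt]
    intro x
    have h1 : ContinuousAt f (x : ℂ) :=
      (hf.differentiableAt ((isOpen_Str h0).mem_nhds (real_mem hh x))).continuousAt
    have h2 : ContinuousAt (fun x : ℝ => f x) x := h1.comp Complex.continuous_ofReal.continuousAt
    exact h2.inv₀ (hne x)
  obtain ⟨C, hC0, hC⟩ := bdd_per hc fun x => by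
    have := hp x (real_mem hh x)
    push_cast
    rw [this]
  refine ⟨(C + 1)⁻¹, by positivity, fun x => ?_⟩
  have h1 := hC x
  rw [norm_inv] at h1
  have h2 : 0 < ‖f x‖ := norm_pos_iff.2 (hne x)
  rw [inv_le_comm₀ (by positivity) h2]
  linarith

lemma str_conv' (h0 : ℝ) : Convex ℝ (Str h0) := by
  have e : Str h0 = {z : ℂ | -h0 < z.im} ∩ {z : ℂ | z.im < h0} := by
    ext z
    constructor
    · intro h
      have := abs_lt.1 (show |z.im| < h0 from h)
      exact ⟨this.1, this.2⟩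
    · rintro ⟨h1, h2⟩
      show |z.im| < h0
      exact abs_lt.2 ⟨h1, h2⟩
  rw [e]
  exact ((convex_Ioi (-h0)).linear_preimage Complex.imLm).inter
    ((convex_Iio h0).linear_preimage Complex.imLm)

/-- the third order linear equation of `H` -/
lemma H_ode {θ H K G : ℂ → ℂ} {h0 : ℝ} (hh : 0 < h0) (E : EntOn θ H K (Str h0))
    (hG : ∀ z, G z = K z - 2 * deriv θ z ^ 2) (hy0 : deriv θ 0 ≠ 0) :
    ∀ z ∈ Str h0, deriv (deriv (deriv H)) z = (G z - deriv θ z ^ 2) * deriv H z -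
      3 * deriv θ z * deriv (deriv θ) z * H z := by
  have hV := E.Vo
  have aθ : AnalyticOnNhd ℂ θ (Str h0) := E.dθ.analyticOnNhd hV
  have aH : AnalyticOnNhd ℂ H (Str h0) := E.dH.analyticOnNhd hV
  have aK : AnalyticOnNhd ℂ K (Str h0) := E.dK.analyticOnNhd hV
  have ay := aθ.deriv
  have ay' := ay.deriv
  have aH' := aH.deriv
  have aH'' := aH'.deriv
  have aG : AnalyticOnNhd ℂ G (Str h0) := by
    have h1 : AnalyticOnNhd ℂ (fun z => K z - 2 * deriv θ z ^ 2) (Str h0) :=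
      aK.sub (analyticOnNhd_const.mul (ay.pow 2))
    have e : G = fun z => K z - 2 * deriv θ z ^ 2 := funext hG
    rw [e]
    exact h1
  have hrel : ∀ z ∈ Str h0, deriv θ z * (deriv (deriv (deriv H)) z -
      ((G z - deriv θ z ^ 2) * deriv H z - 3 * deriv θ z * deriv (deriv θ) z * H z)) = 0 := by
    intro z hz
    have hev : (fun z => deriv θ z * deriv (deriv H) z - deriv (deriv θ) z * deriv H z
        + (deriv θ z) ^ 3 * H z) =ᶠ[𝓝 z] fun _ => -1 := by
      filter_upwards [hV.mem_nhds hz] with w hw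
      exact E.relH w hw
    have h1 := hev.deriv_eq
    have d1 := (ay z hz).differentiableAt.hasDerivAt
    have d2 := (ay' z hz).differentiableAt.hasDerivAt
    have d3 := (aH z hz).differentiableAt.hasDerivAt
    have d4 := (aH' z hz).differentiableAt.hasDerivAt
    have d5 := (aH'' z hz).differentiableAt.hasDerivAt
    have h2 := (((d1.mul d5).sub (d2.mul d4)).add ((d1.pow 3).mul d3)).deriv
    have h3 : deriv (fun z => deriv θ z * deriv (deriv H) z - deriv (deriv θ) z * deriv H z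
        + (deriv θ z) ^ 3 * H z) z = 0 := by
      rw [h1, deriv_const]
    have h4 := E.relK z hz
    rw [← hG z] at h4
    have h5 : deriv (fun z => deriv θ z * deriv (deriv H) z - deriv (deriv θ) z * deriv H z
        + (deriv θ z) ^ 3 * H z) z = deriv (deriv θ * deriv (deriv H) - deriv (deriv θ) * deriv H
        + deriv θ ^ 3 * H) z := rfl
    rw [h5, h2, h4] at h3
    push_cast at h3
    simp only [Pi.pow_apply] at h3
    linear_combination h3
  have hD : AnalyticOnNhd ℂ (fun z => deriv (deriv (deriv H)) z -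
      ((G z - deriv θ z ^ 2) * deriv H z - 3 * deriv θ z * deriv (deriv θ) z * H z)) (Str h0) :=
    aH''.deriv.sub (((aG.sub (ay.pow 2)).mul aH').sub
      (((analyticOnNhd_const.mul ay).mul ay').mul aH))
  have hpre : IsPreconnected (Str h0) := (str_conv' h0).isPreconnected
  rcases AnalyticOnNhd.eq_zero_or_eq_zero_of_mul_eq_zero ay hD hrel hpre with h | h
  · exact absurd (h 0 (by simpa using real_mem hh 0)) hy0
  · intro z hz
    exact sub_eq_zero.1 (h z hz)

/-- a point of the closed strip and its vertical segment to the real axis -/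
lemma seg_mem {h0 d : ℝ} {z : ℂ} (hz : |z.im| ≤ h0 - d) {s : ℝ}
    (hs : s ∈ Icc (0 : ℝ) 1) :
    |((z.re : ℂ) + s * (z - (z.re : ℂ))).im| ≤ h0 - d ∧
      |(z + s * ((z.re : ℂ) - z)).im| ≤ h0 - d := by
  have e1 : ((z.re : ℂ) + s * (z - (z.re : ℂ))).im = s * z.im := by simp
  have e2 : (z + s * ((z.re : ℂ) - z)).im = (1 - s) * z.im := by
    simp
    ring
  have h1s : (0 : ℝ) ≤ 1 - s := by linarith [hs.2]
  rw [e1, e2, abs_mul, abs_mul, abs_of_nonneg hs.1, abs_of_nonneg h1s]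
  have h := abs_nonneg z.im
  constructor
  · nlinarith [hs.1, hs.2]
  · nlinarith [hs.1, hs.2]

lemma norm_re_sub (z : ℂ) : ‖z - (z.re : ℂ)‖ = |z.im| := by
  have e : z - (z.re : ℂ) = z.im * Complex.I := by
    apply Complex.ext <;> simp
  rw [e, norm_mul, Complex.norm_I, mul_one, Complex.norm_real, Real.norm_eq_abs]

set_option maxHeartbeats 2000000 in
/-- **growth of the objects of the mirror** -/
theorem psi {q : C(ℂ, ℂ)} {η h0 : ℝ} {θ H K G : ℂ → ℂ} (hh : 0 < h0) (hM : MirS q η h0 θ H K G)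
    (hg : ∀ k : ℕ, ∃ C : ℝ, 0 < C ∧ ∀ d : ℝ, 0 < d → d < h0 → ∀ z : ℂ, |z.im| ≤ h0 - d →
      Real.log (1 + ‖deriv θ z‖ + ‖G z‖) ≤ C * d ^ (-(1 / ((k : ℝ) + 1)))) :
    ∀ k : ℕ, ∃ C : ℝ, 0 < C ∧ ∀ d : ℝ, 0 < d → d < h0 → ∀ z : ℂ, |z.im| ≤ h0 - d →
      ‖deriv θ z‖ ≤ Real.exp (C * d ^ (-(1 / ((k : ℝ) + 1)))) ∧
      ‖deriv (deriv θ) z‖ ≤ Real.exp (C * d ^ (-(1 / ((k : ℝ) + 1)))) ∧
      ‖G z‖ ≤ Real.exp (C * d ^ (-(1 / ((k : ℝ) + 1)))) ∧
      ‖θ z - 2 * Real.pi * z‖ ≤ Real.exp (C * d ^ (-(1 / ((k : ℝ) + 1)))) ∧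
      Real.log (1 + ‖H z‖ + ‖deriv H z‖ + ‖deriv (deriv H) z‖) ≤
        Real.exp (C * d ^ (-(1 / ((k : ℝ) + 1)))) ∧
      Real.exp (-Real.exp (C * d ^ (-(1 / ((k : ℝ) + 1))))) ≤
        ‖deriv θ z‖ + ‖deriv (deriv θ) z‖ := by
  intro k
  obtain ⟨C0, hC0, hb⟩ := hg k
  set e : ℝ := 1 / ((k : ℝ) + 1) with he
  have he0 : 0 < e := by positivity
  have he1 : e ≤ 1 := by
    rw [he, div_le_one (by positivity)]
    linarith [(Nat.cast_nonneg k : (0 : ℝ) ≤ k)]
  have hV := hM.ent.Vo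
  have E := hM.ent
  have aθ : AnalyticOnNhd ℂ θ (Str h0) := E.dθ.analyticOnNhd hV
  have aH : AnalyticOnNhd ℂ H (Str h0) := E.dH.analyticOnNhd hV
  have ay := aθ.deriv
  have ay' := ay.deriv
  have aH' := aH.deriv
  have aH'' := aH'.deriv
  have hy0 : ∀ x : ℝ, deriv θ x ≠ 0 := fun x h => by
    have := (hM.y_pos x).1
    rw [h] at this
    simp at this
  have hode := H_ode hh E hM.G_eq (by simpa using hy0 0)
  -- periods
  have pH' := deriv_per hM.Hper
  have pH'' := deriv_per pH'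
  have py := hM.yper
  obtain ⟨B1, hB10, hB1⟩ := bdd_real hh aH.differentiableOn hM.Hper
  obtain ⟨B2, hB20, hB2⟩ := bdd_real hh aH'.differentiableOn pH'
  obtain ⟨B3, hB30, hB3⟩ := bdd_real hh aH''.differentiableOn pH''
  obtain ⟨c, hc0, hc⟩ := low_real hh ay.differentiableOn py hy0
  have aΘ : DifferentiableOn ℂ (fun z => θ z - 2 * Real.pi * z) (Str h0) :=
    E.dθ.sub (differentiableOn_const _ |>.mul differentiableOn_id)
  obtain ⟨B4, hB40, hB4⟩ := bdd_real hh aΘ fun z hz => by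
    rw [hM.θper z hz]
    ring
  -- constants
  set ch : ℝ := h0 ^ (-e) with hch
  have hch0 : 0 < ch := Real.rpow_pos_of_pos hh _
  set C1 : ℝ := 2 * C0 + ((k : ℝ) + 1) + 2 / ch with hC1
  have hC10 : 0 < C1 := by positivity
  set C2 : ℝ := 6 * C1 + 6 / ch with hC2
  set F0 : ℝ := B1 + B2 + B3 with hF0
  set C3 : ℝ := C2 + (3 * F0 + h0 + 1 / c + B4 + 9 * h0) / ch with hC3
  refine ⟨C3, by positivity, ?_⟩
  intro d hd hdh z hz
  set D : ℝ := d ^ (-e) with hD
  have hD0 : 0 < D := Real.rpow_pos_of_pos hd _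
  have hDc : ch ≤ D := by
    rw [hch, hD, Real.rpow_neg hh.le, Real.rpow_neg hd.le]
    gcongr
  have hDc1 : ∀ t : ℝ, 0 ≤ t → t ≤ t / ch * D := by
    intro t ht
    rw [div_mul_eq_mul_div, le_div_iff₀ hch0]
    gcongr
  -- bounds at distance d
  have key : ∀ δ : ℝ, 0 < δ → δ < h0 → ∀ w : ℂ, |w.im| ≤ h0 - δ →
      ‖deriv θ w‖ ≤ Real.exp (C0 * δ ^ (-e)) ∧ ‖G w‖ ≤ Real.exp (C0 * δ ^ (-e)) := by
    intro δ hδ hδh w hw
    have h1 := hb δ hδ hδh w hw
    have h2 : 0 < 1 + ‖deriv θ w‖ + ‖G w‖ := by positivity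
    rw [Real.log_le_iff_le_exp h2] at h1
    have := norm_nonneg (deriv θ w)
    have := norm_nonneg (G w)
    constructor <;> linarith
  have hhalf : (d / 2) ^ (-e) ≤ 2 * D := by
    rw [hD, div_eq_mul_inv, Real.mul_rpow hd.le (by norm_num), Real.inv_rpow (by norm_num),
      ← Real.rpow_neg (by norm_num), neg_neg]
    have h1 : (2 : ℝ) ^ e ≤ 2 ^ (1 : ℝ) := Real.rpow_le_rpow_of_exponent_le (by norm_num) he1
    rw [Real.rpow_one] at h1
    nlinarith [hD0]
  have hyD : ∀ w : ℂ, |w.im| ≤ h0 - d → ‖deriv θ w‖ ≤ Real.exp (C1 * D) ∧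
      ‖G w‖ ≤ Real.exp (C1 * D) := by
    intro w hw
    obtain ⟨h1, h2⟩ := key d hd hdh w hw
    have h3 : C0 * d ^ (-e) ≤ C1 * D := by
      rw [← hD]
      gcongr
      have : (0 : ℝ) ≤ k := Nat.cast_nonneg k
      have : 0 < 2 / ch := by positivity
      linarith
    exact ⟨h1.trans (Real.exp_le_exp.2 h3), h2.trans (Real.exp_le_exp.2 h3)⟩
  have hy'D : ∀ w : ℂ, |w.im| ≤ h0 - d → ‖deriv (deriv θ) w‖ ≤ Real.exp (C1 * D) := by
    intro w hw
    have hsub : closedBall w (d / 2) ⊆ {z | |z.im| ≤ h0 - d / 2} := by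
      intro u hu
      rw [mem_closedBall, dist_eq_norm] at hu
      have h1 := (Complex.abs_im_le_norm (u - w)).trans hu
      have h2 : |u.im| ≤ |w.im| + |(u - w).im| := by
        have : u.im = w.im + (u - w).im := by simp
        rw [this]
        exact abs_add_le _ _
      show |u.im| ≤ h0 - d / 2
      linarith
    have hin : ∀ u : ℂ, |u.im| ≤ h0 - d / 2 → u ∈ Str h0 := by
      intro u hu
      show |u.im| < h0
      linarith
    have h1 : ‖deriv (deriv θ) w‖ ≤ Real.exp (C0 * (d / 2) ^ (-e)) / (d / 2) := by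
      refine Complex.norm_deriv_le_of_forall_mem_sphere_norm_le (by positivity) ?_ ?_
      · refine DifferentiableOn.diffContOnCl ?_
        rw [closure_ball _ (by positivity)]
        exact ay.differentiableOn.mono fun u hu => hin u (hsub hu)
      · intro u hu
        exact (key (d / 2) (by positivity) (by linarith) u
          (hsub (sphere_subset_closedBall hu))).1
    have h2 : Real.exp (C0 * (d / 2) ^ (-e)) ≤ Real.exp (2 * C0 * D) := by
      apply Real.exp_le_exp.2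
      calc C0 * (d / 2) ^ (-e) ≤ C0 * (2 * D) := by gcongr
        _ = 2 * C0 * D := by ring
    have h3 : (d / 2)⁻¹ ≤ Real.exp (((k : ℝ) + 1 + 2 / ch) * D) := by
      have h4 : (d / 2)⁻¹ = 2 * (1 / d) := by
        field_simp
      have h5 : Real.log (1 / d) ≤ ((k : ℝ) + 1) * D := by
        have h6 := Real.log_le_rpow_div (x := 1 / d) (by positivity) he0
        rw [Real.div_rpow (by norm_num) hd.le, Real.one_rpow, one_div (d ^ e),
          ← Real.rpow_neg hd.le, ← hD, he] at h6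
        refine h6.trans (le_of_eq ?_)
        field_simp
      have h6 : 1 / d ≤ Real.exp (((k : ℝ) + 1) * D) := by
        rwa [← Real.log_le_iff_le_exp (by positivity)]
      have h7 : (2 : ℝ) ≤ Real.exp (2 / ch * D) := by
        have h8 := hDc1 2 (by norm_num)
        have h9 := Real.add_one_le_exp (2 / ch * D)
        linarith
      rw [h4, add_mul, Real.exp_add, mul_comm]
      gcongr
    calc ‖deriv (deriv θ) w‖ ≤ Real.exp (C0 * (d / 2) ^ (-e)) / (d / 2) := h1
      _ = Real.exp (C0 * (d / 2) ^ (-e)) * (d / 2)⁻¹ := div_eq_mul_inv _ _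
      _ ≤ Real.exp (2 * C0 * D) * Real.exp (((k : ℝ) + 1 + 2 / ch) * D) := by gcongr
      _ = Real.exp (C1 * D) := by
          rw [← Real.exp_add, hC1]
          congr 1
          ring
  -- the coefficient
  set A : ℝ := Real.exp (C2 * D) with hA
  have hE1 : 1 ≤ Real.exp (C1 * D) := Real.one_le_exp (by positivity)
  set P : ℝ := Real.exp (C1 * D) with hP
  have hA6 : 6 * P ^ 2 ≤ A := by
    have h1 : (6 : ℝ) ≤ Real.exp (6 / ch * D) := by
      have h8 := hDc1 6 (by norm_num)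
      have h9 := Real.add_one_le_exp (6 / ch * D)
      linarith
    have h2 : P ^ 2 ≤ P ^ 6 := pow_le_pow_right₀ hE1 (by norm_num)
    have h3 : P ^ 6 = Real.exp (6 * C1 * D) := by
      rw [hP, ← Real.exp_nat_mul]
      congr 1
      push_cast
      ring
    calc 6 * P ^ 2 ≤ Real.exp (6 / ch * D) * P ^ 6 := by gcongr
      _ = A := by
          rw [h3, ← Real.exp_add, hA, hC2]
          congr 1
          ring
  have hAC : ∀ t : ℝ, 0 ≤ t → t / ch ≤ C3 - C2 → t * A ≤ Real.exp (C3 * D) := by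
    intro t ht htc
    have h1 : t ≤ Real.exp ((C3 - C2) * D) := by
      have h8 := hDc1 t ht
      have h9 := Real.add_one_le_exp (t / ch * D)
      have h10 : Real.exp (t / ch * D) ≤ Real.exp ((C3 - C2) * D) := by
        apply Real.exp_le_exp.2
        gcongr
      linarith
    calc t * A ≤ Real.exp ((C3 - C2) * D) * Real.exp (C2 * D) := by gcongr
      _ = Real.exp (C3 * D) := by
          rw [← Real.exp_add]
          congr 1
          ring
  have hA1 : 1 ≤ A := by nlinarith [hA6, hE1]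
  have hPA' : P ≤ A := by nlinarith [hA6, hE1]
  have hC32 : ∀ t : ℝ, t ≤ 3 * F0 + h0 + 1 / c + B4 + 9 * h0 → t / ch ≤ C3 - C2 := by
    intro t ht
    rw [hC3]
    have : t / ch ≤ (3 * F0 + h0 + 1 / c + B4 + 9 * h0) / ch := by gcongr
    linarith
  have hF00 : 0 ≤ F0 := by positivity
  have hc1 : 0 < 1 / c := by positivity
  have hPA : P ≤ Real.exp (C3 * D) := by
    have h1 : P ≤ 1 * A := by nlinarith [hA6, hE1]
    refine h1.trans ?_
    rw [hA, one_mul]
    apply Real.exp_le_exp.2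
    gcongr
    rw [hC3]
    have : 0 ≤ (3 * F0 + h0 + 1 / c + B4 + 9 * h0) / ch := by positivity
    linarith
  have him : |z.im| ≤ h0 := by linarith
  have hzS : z ∈ Str h0 := by
    show |z.im| < h0
    linarith
  refine ⟨(hyD z hz).1.trans hPA, (hy'D z hz).trans hPA, (hyD z hz).2.trans hPA, ?_, ?_, ?_⟩
  · -- θ
    have hconv : Convex ℝ {z : ℂ | |z.im| ≤ h0 - d} := by
      have e : {z : ℂ | |z.im| ≤ h0 - d} = {z : ℂ | -(h0 - d) ≤ z.im} ∩ {z : ℂ | z.im ≤ h0 - d} := by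
        ext z
        show |z.im| ≤ h0 - d ↔ (-(h0 - d) ≤ z.im ∧ z.im ≤ h0 - d)
        exact abs_le
      rw [e]
      exact ((convex_Ici (-(h0 - d))).linear_preimage Complex.imLm).inter
        ((convex_Iic (h0 - d)).linear_preimage Complex.imLm)
    have hmv := hconv.norm_image_sub_le_of_norm_deriv_le (𝕜 := ℂ)
      (f := fun z => θ z - 2 * Real.pi * z) (C := P + 7) (x := (z.re : ℂ)) (y := z) ?_ ?_ ?_ hz
    · have h1 := hB4 z.re
      have h2 : ‖θ z - 2 * Real.pi * z‖ ≤ ‖θ z.re - 2 * Real.pi * z.re‖ +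
          ‖(θ z - 2 * Real.pi * z) - (θ z.re - 2 * Real.pi * z.re)‖ := by
        have := norm_add_le (θ z.re - 2 * Real.pi * z.re)
          ((θ z - 2 * Real.pi * z) - (θ z.re - 2 * Real.pi * z.re))
        rwa [add_sub_cancel] at this
      have h3 : (P + 7) * ‖z - (z.re : ℂ)‖ ≤ (P + 7) * h0 := by
        rw [norm_re_sub]
        gcongr
      have h4 : B4 + (P + 7) * h0 ≤ (B4 + 8 * h0) * A := by
        have g1 : 0 ≤ B4 * (A - 1) := mul_nonneg hB40 (by linarith)
        have g2 : 0 ≤ h0 * (A - P) := mul_nonneg hh.le (by linarith)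
        have g3 : 0 ≤ h0 * (A - 1) := mul_nonneg hh.le (by linarith)
        nlinarith only [g1, g2, g3]
      refine le_trans ?_ (hAC (B4 + 8 * h0) (by positivity) (hC32 _ (by linarith)))
      linarith
    · intro w hw
      have hwS : w ∈ Str h0 := by
        show |w.im| < h0
        have : |w.im| ≤ h0 - d := hw
        linarith
      exact ((aθ w hwS).differentiableAt).sub
        ((differentiableAt_const _).mul differentiableAt_id)
    · intro w hw
      have hwS : w ∈ Str h0 := by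
        show |w.im| < h0
        have : |w.im| ≤ h0 - d := hw
        linarith
      have h1 : HasDerivAt (fun z => θ z - 2 * Real.pi * z) (deriv θ w - 2 * Real.pi * 1) w :=
        ((aθ w hwS).differentiableAt.hasDerivAt).sub ((hasDerivAt_id w).const_mul _)
      rw [h1.deriv]
      have h2 := (hyD w hw).1
      have h3 : ‖(2 * Real.pi * 1 : ℂ)‖ ≤ 7 := by
        rw [mul_one, norm_mul, Complex.norm_real, Real.norm_eq_abs, abs_of_pos Real.pi_pos]
        simp
        linarith [Real.pi_lt_d2]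
      exact (norm_sub_le _ _).trans (by linarith)
    · show |((z.re : ℂ)).im| ≤ h0 - d
      simp
      linarith
  · -- H
    have hgr := gron_seg (V := Str h0) (F := fun z => (H z, deriv H z, deriv (deriv H) z))
      (F' := fun z => (deriv H z, deriv (deriv H) z, deriv (deriv (deriv H)) z))
      (fun w hw => ((aH w hw).differentiableAt.hasDerivAt).prodMk
        (((aH' w hw).differentiableAt.hasDerivAt).prodMk
          ((aH'' w hw).differentiableAt.hasDerivAt)))
      (p0 := (z.re : ℂ)) (p1 := z) (A := A) ?_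
    · have h1 : ‖(H z.re, deriv H z.re, deriv (deriv H) z.re)‖ ≤ F0 := by
        rw [Prod.norm_def, Prod.norm_def]
        refine max_le ?_ (max_le ?_ ?_)
        · exact (hB1 _).trans (by rw [hF0]; linarith)
        · exact (hB2 _).trans (by rw [hF0]; linarith)
        · exact (hB3 _).trans (by rw [hF0]; linarith)
      have h2 : ‖(H z, deriv H z, deriv (deriv H) z)‖ ≤ F0 * Real.exp (h0 * A) := by
        refine hgr.trans ?_
        rw [norm_re_sub, mul_comm A]
        gcongr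
      have h3 : 1 + ‖H z‖ + ‖deriv H z‖ + ‖deriv (deriv H) z‖ ≤
          (1 + 3 * F0) * Real.exp (h0 * A) := by
        have hm1 : ‖H z‖ ≤ ‖(H z, deriv H z, deriv (deriv H) z)‖ :=
          norm_fst_le (H z, deriv H z, deriv (deriv H) z)
        have hm2 : ‖(deriv H z, deriv (deriv H) z)‖ ≤ ‖(H z, deriv H z, deriv (deriv H) z)‖ :=
          norm_snd_le (H z, deriv H z, deriv (deriv H) z)
        have hm3 : ‖deriv H z‖ ≤ ‖(deriv H z, deriv (deriv H) z)‖ :=
          norm_fst_le (deriv H z, deriv (deriv H) z)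
        have hm4 : ‖deriv (deriv H) z‖ ≤ ‖(deriv H z, deriv (deriv H) z)‖ :=
          norm_snd_le (deriv H z, deriv (deriv H) z)
        have h4 : 1 ≤ Real.exp (h0 * A) := Real.one_le_exp (by positivity)
        have h5 : (1 + 3 * F0) * Real.exp (h0 * A) =
          Real.exp (h0 * A) + 3 * (F0 * Real.exp (h0 * A)) := by ring
        rw [h5]
        linarith
      have h4 : Real.log (1 + ‖H z‖ + ‖deriv H z‖ + ‖deriv (deriv H) z‖) ≤ 3 * F0 + h0 * A := by
        rw [Real.log_le_iff_le_exp (by positivity), Real.exp_add]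
        refine h3.trans ?_
        gcongr
        have := Real.add_one_le_exp (3 * F0)
        linarith
      refine (h4.trans ?_).trans (hAC (3 * F0 + h0) (by positivity) (hC32 _ (by linarith)))
      have g1 : 0 ≤ F0 * (A - 1) := mul_nonneg hF00 (by linarith)
      nlinarith only [g1]
    · intro s hs
      obtain ⟨hw, -⟩ := seg_mem hz hs
      set w : ℂ := (z.re : ℂ) + s * (z - (z.re : ℂ)) with hwd
      have hwS : w ∈ Str h0 := by
        show |w.im| < h0
        linarith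
      refine ⟨hwS, ?_⟩
      obtain ⟨hy1, hG1⟩ := hyD w hw
      have hy'1 := hy'D w hw
      set N : ℝ := ‖(H w, deriv H w, deriv (deriv H) w)‖ with hN
      have hm1 : ‖H w‖ ≤ N := norm_fst_le (H w, deriv H w, deriv (deriv H) w)
      have hm2 : ‖(deriv H w, deriv (deriv H) w)‖ ≤ N :=
        norm_snd_le (H w, deriv H w, deriv (deriv H) w)
      have hm3 : ‖deriv H w‖ ≤ N := (norm_fst_le (deriv H w, deriv (deriv H) w)).trans hm2
      have hm4 : ‖deriv (deriv H) w‖ ≤ N :=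
        (norm_snd_le (deriv H w, deriv (deriv H) w)).trans hm2
      have hN0 : 0 ≤ N := norm_nonneg _
      have hNA : N ≤ A * N := by nlinarith only [hN0, hA1]
      rw [Prod.norm_def, Prod.norm_def]
      refine max_le (hm3.trans hNA) (max_le (hm4.trans hNA) ?_)
      rw [hode w hwS]
      have e1 : ‖(G w - deriv θ w ^ 2) * deriv H w‖ ≤ (P + P ^ 2) * N := by
        rw [norm_mul]
        gcongr
        refine (norm_sub_le _ _).trans ?_
        rw [norm_pow]
        gcongr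
      have e2 : ‖3 * deriv θ w * deriv (deriv θ) w * H w‖ ≤ 3 * P * P * N := by
        rw [norm_mul, norm_mul, norm_mul]
        have : ‖(3 : ℂ)‖ = 3 := by simp
        rw [this]
        gcongr
      refine (norm_sub_le _ _).trans ?_
      have e3 : (P + P ^ 2) * N + 3 * P * P * N ≤ A * N := by
        have : P + P ^ 2 + 3 * P * P ≤ A := by nlinarith only [hA6, hE1]
        nlinarith only [this, hN0]
      linarith
  · -- y
    have hgr := gron_seg (V := Str h0) (F := fun z => (deriv θ z, deriv (deriv θ) z))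
      (F' := fun z => (deriv (deriv θ) z, deriv (deriv (deriv θ)) z))
      (fun w hw => ((ay w hw).differentiableAt.hasDerivAt).prodMk
          ((ay' w hw).differentiableAt.hasDerivAt))
      (p0 := z) (p1 := (z.re : ℂ)) (A := A) ?_
    · have h1 : c ≤ ‖(deriv θ z.re, deriv (deriv θ) z.re)‖ := (hc z.re).trans
        (norm_fst_le (deriv θ (z.re : ℂ), deriv (deriv θ) (z.re : ℂ)))
      have h2 : ‖(deriv θ z, deriv (deriv θ) z)‖ ≤ ‖deriv θ z‖ + ‖deriv (deriv θ) z‖ := by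
        rw [Prod.norm_def]
        exact max_le (by simp) (by simp)
      have h3 : c ≤ (‖deriv θ z‖ + ‖deriv (deriv θ) z‖) * Real.exp (h0 * A) := by
        refine h1.trans (hgr.trans ?_)
        have e4 : ‖(z.re : ℂ) - z‖ = |z.im| := by rw [norm_sub_rev, norm_re_sub]
        rw [e4, mul_comm A]
        gcongr
      have h4 : Real.exp (-(1 / c)) ≤ c := by
        rw [Real.exp_neg, inv_le_comm₀ (Real.exp_pos _) hc0]
        have := Real.add_one_le_exp (1 / c)
        rw [one_div] at this ⊢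
        linarith
      have h5 : 1 / c + h0 * A ≤ Real.exp (C3 * D) := by
        refine le_trans ?_ (hAC (1 / c + h0) (by positivity) (hC32 _ (by linarith)))
        have g1 : 0 ≤ (1 / c) * (A - 1) := mul_nonneg hc1.le (by linarith)
        nlinarith only [g1]
      have h6 : Real.exp (-(1 / c + h0 * A)) ≤ ‖deriv θ z‖ + ‖deriv (deriv θ) z‖ := by
        rw [neg_add, Real.exp_add, Real.exp_neg (h0 * A), ← div_eq_mul_inv,
          div_le_iff₀ (Real.exp_pos _)]
        exact h4.trans h3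
      exact (Real.exp_le_exp.2 (neg_le_neg h5)).trans h6
    · intro s hs
      obtain ⟨-, hw⟩ := seg_mem hz hs
      set w : ℂ := z + s * ((z.re : ℂ) - z) with hwd
      have hwS : w ∈ Str h0 := by
        show |w.im| < h0
        linarith
      refine ⟨hwS, ?_⟩
      obtain ⟨hy1, hG1⟩ := hyD w hw
      set N : ℝ := ‖(deriv θ w, deriv (deriv θ) w)‖ with hN
      have hm3 : ‖deriv θ w‖ ≤ N := norm_fst_le (deriv θ w, deriv (deriv θ) w)
      have hm4 : ‖deriv (deriv θ) w‖ ≤ N := norm_snd_le (deriv θ w, deriv (deriv θ) w)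
      have hN0 : 0 ≤ N := norm_nonneg _
      have hNA : N ≤ A * N := by nlinarith only [hN0, hA1]
      rw [Prod.norm_def]
      refine max_le (hm4.trans hNA) ?_
      simp only
      rw [hM.hG w hwS, norm_mul]
      have : ‖G w‖ ≤ A := hG1.trans hPA'
      gcongr


end Crest.Agent.R102.GrowPsi314
end
end

-- ▼ part R102/EdOf_364
section

/-!
Row 102, T1-B, EDGE, leaf **EdOf** (helper364): the official sheets are an abstract EDGE datum.
-/

set_option autoImplicit false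

open Set Filter Topology Metric MeasureTheory Complex

noncomputable section

namespace Crest.Agent.R102.EdOf364

open Crest.Agent.R102.Sup115 (HDu Dp E2 MaxiX GoodU)
open Crest.Agent.R102.B821 (q1 q2)
open Crest.Agent.R102.C0 Crest.Agent.R102.K669 Crest.Agent.R102.Out559
open Crest.Agent.R102.GlueII559 Crest.Agent.R102.PartII150
open Crest.Agent.R102.Edge255
open Crest.Agent.R102.Sh982 (Dat SL SB φe pe be sh)

variable {q : C(ℂ, ℂ)} {η ρ r Bc : ℝ} {b φ p : ℂ × ℂ → ℂ} {m₀ : ℂ → ℂ} {h : ℝ} {ψ H K G : ℂ → ℂ}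

/-- the curve -/
theorem curve_of (D : Dat q η ρ r Bc b φ p m₀ h ψ H) (hM : Growth.MirS q η h ψ H K G)
    (hG : Chain559.Grow h ψ G) : Curve h ψ H where
  h_pos := D.h_pos
  ψ_diff := D.ψ_diff
  H_diff := D.H_diff
  rel := fun z hz => D.rel z hz
  ψ_per := hM.θper
  H_per := hM.Hper
  y_pos := hM.y_pos
  grow_y := by
    intro k
    obtain ⟨C, hC, h1⟩ := hG k
    refine ⟨C, hC, fun d hd hdh z hz => le_trans ?_ (h1 d hd hdh z hz)⟩
    apply Real.log_le_log
    · positivity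
    · have := norm_nonneg (G z)
      linarith
  grow := by
    intro k
    obtain ⟨C, hC, h1⟩ := GrowPsi314.psi D.h_pos hM hG k
    refine ⟨C, hC, fun d hd hdh z hz => ?_⟩
    obtain ⟨-, -, -, a4, a5, a6⟩ := h1 d hd hdh z hz
    exact ⟨a4, a5, a6⟩

/-- **(EDGE-EDOF)** -/
theorem edOf : EdOf := by
  intro q η ρ r Bc b φ p m₀ h ψ H K G D hNB hM hG u0 R d g hS
  have hball := hS.ball_sub
  have hG0 : ∀ w ∈ HDu u0 R, 0 ≤ (g w).im := hS.im_nonneg
  have S := supDat D hS.R_pos hS.d_pos hS.d_le hball hS.diff hG0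
    (fun w hw t ht => (GlueII559.mem_of_lt_VV D (hball hw.1) (ht.trans_le (hS.im_le w hw))).1)
    (fun w hw t ht => (GlueII559.mem_of_lt_VV D (hball hw.1) (ht.trans_le (hS.im_le w hw))).2)
  have hSB : ∀ x ∈ Xe u0 R d g (OmX b (T5.Str h) (-(ρ / 2)) (ρ / 2) r), ex g x ∈ SB b h ρ r :=
    fun x hx => ex_mem_SB D hG0 hS.d_le hx.1.1 hx.1.2 hx.2
  have hSL : ∀ x ∈ Le u0 R d g (OmL φ p (-(ρ / 2)) (ρ / 2) r), ln g x ∈ SL φ p ρ r := fun x hx =>
    ln_mem_SL D hball hG0 hS.d_le hx.1.1 hx.1.2 hx.2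
  exact
    { curve := curve_of D hM hG
      R_pos := S.R_pos
      d_pos := S.d_pos
      X_open := S.X_open
      L_open := S.L_open
      X_sub := S.X_sub
      L_sub := S.L_sub
      X_star := S.X_star
      Dp_X := S.Dp_X
      Dp_L := S.Dp_L
      φ_diff := S.φ_diff
      p_diff := S.p_diff
      B_diff := S.B_diff
      B_im := S.B_im
      B_nc := S.B_nc
      inc := by
        intro x hx
        have h1 := D.inc_all (s := -1) (Or.inr rfl) (hSB x hx.1) (by
          rw [← ln_eq]; exact hSL x hx.2)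
        rw [← ln_eq] at h1
        exact h1
      sin_ne := by
        intro x hx hx2 hy
        have h1 := D.sin_ne (s := -1) (Or.inr rfl) (hSB x hx.1) (by
          rw [← ln_eq]; exact hSL x hx.2) hx2 hy
        rw [← ln_eq] at h1
        exact h1
      maxi := S.maxi
      area := fun x hx => AreaX982.area_x D hS.d_le hball hS.diff hG0 hx
      A_diff := (AreaX982.area_coef_diff D).mono hball
      A_ne := fun w hw hw0 => AreaX982.area_coef_ne D (by simpa using hball hw) hw0 }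

end Crest.Agent.R102.EdOf364
end
end

-- ▼ part R102/NrmAll_812
section

/-!
Row 102, T1-B, block EDGE (helper812): **uniformity in the scale** of 619 (1).

`Edge255.NrmAll` : the angle at the windows `(e n, R s n)` is bounded with a constant INDEPENDENT of
`R ≥ 1`.
* `nrmAll_of`  : this follows from `NormP` (diagonal sequence);
* `nrmAll_nrm` : the same for the normalised blow-ups of `ToWorld` (input of `FlatP`).
-/

set_option autoImplicit false

open Set Filter Topology Metric MeasureTheory Complex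

noncomputable section

namespace Crest.Agent.R102.NrmAll812

open Crest.Agent.R102.S5 (Half bl ray Cn)
open Crest.Agent.R102.Edge255

theorem bl_dil (e : ℝ × ℝ) (s R : ℝ) (q : ℂ × ℂ) :
    bl e s ((R : ℂ) * q.1, (R : ℂ) * q.2) = bl e (R * s) q := by
  unfold bl
  ext1
  · simp only; push_cast; ring
  · simp only; push_cast; ring

theorem ray_eq (e : ℝ × ℝ) (s : ℝ) : ray e s = bl e s z0 := rfl

/-- the columns at the larger scales `t j * s (n j)` -/
theorem cols_sub {u0 R d h a g κ : ℝ} {ψ : ℂ → ℂ} {φ p B : ℂ × ℂ → ℂ} {X L : Set (ℂ × ℂ)}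
    {u s₀ : ℝ} {e : ℕ → ℝ × ℝ} {s σ : ℕ → ℝ} (hC : Cols u0 R d h a g κ ψ φ p B X L u s₀ e s σ)
    (hs : Tendsto (fun n => s n / σ n) atTop (𝓝 0)) {N : ℕ → ℕ} (hN : Tendsto N atTop atTop)
    {t : ℕ → ℝ} (ht : ∀ j, 1 ≤ t j) (ht' : ∀ j, t j ≤ (σ (N j) / s (N j)) ^ (1 / 2 : ℝ)) :
    Cols u0 R d h a g κ ψ φ p B X L u s₀ (fun j => e (N j)) (fun j => t j * s (N j))
      (fun j => σ (N j)) ∧ Tendsto (fun j => t j * s (N j) / σ (N j)) atTop (𝓝 0) := by
  have hs0 : ∀ j, 0 < s (N j) := fun j => hC.s_pos _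
  have hσ0 : ∀ j, 0 < σ (N j) := fun j => (hs0 j).trans_le (hC.s_le _)
  have hr0 : ∀ j, 0 < s (N j) / σ (N j) := fun j => div_pos (hs0 j) (hσ0 j)
  have hr1 : ∀ j, s (N j) / σ (N j) ≤ 1 := fun j => (div_le_one (hσ0 j)).2 (hC.s_le _)
  -- the basic inequality
  have hb : ∀ j, t j * s (N j) / σ (N j) ≤ (s (N j) / σ (N j)) ^ (1 / 2 : ℝ) := by
    intro j
    have h1 : (σ (N j) / s (N j)) ^ (1 / 2 : ℝ) * (s (N j) / σ (N j)) =
        (s (N j) / σ (N j)) ^ (1 / 2 : ℝ) := by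
      have h2 : σ (N j) / s (N j) = (s (N j) / σ (N j))⁻¹ := by rw [inv_div]
      rw [h2, Real.inv_rpow (hr0 j).le]
      have h3 : (s (N j) / σ (N j)) =
          (s (N j) / σ (N j)) ^ (1 / 2 : ℝ) * (s (N j) / σ (N j)) ^ (1 / 2 : ℝ) := by
        rw [← Real.rpow_add (hr0 j)]
        norm_num
      have h4 : (s (N j) / σ (N j)) ^ (1 / 2 : ℝ) ≠ 0 := (Real.rpow_pos_of_pos (hr0 j) _).ne'
      conv_lhs => rw [h3]
      rw [Real.mul_rpow (Real.rpow_nonneg (hr0 j).le _) (Real.rpow_nonneg (hr0 j).le _), ← h3]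
      rw [← Real.rpow_mul (hr0 j).le, ← Real.rpow_add (hr0 j)]
      rw [show (1 / 2 * (1 / 2) + 1 / 2 * (1 / 2) : ℝ) = 1 / 2 by norm_num]
      rw [inv_mul_eq_div, div_eq_iff h4]
      exact h3
    calc t j * s (N j) / σ (N j) = t j * (s (N j) / σ (N j)) := by ring
      _ ≤ (σ (N j) / s (N j)) ^ (1 / 2 : ℝ) * (s (N j) / σ (N j)) :=
        mul_le_mul_of_nonneg_right (ht' j) (hr0 j).le
      _ = _ := h1
  have hpos : ∀ j, 0 < t j * s (N j) / σ (N j) := fun j =>
    div_pos (mul_pos (by linarith [ht j]) (hs0 j)) (hσ0 j)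
  have hlim : Tendsto (fun j => (s (N j) / σ (N j)) ^ (1 / 2 : ℝ)) atTop (𝓝 0) := by
    have h1 : Tendsto (fun j => s (N j) / σ (N j)) atTop (𝓝 0) := hs.comp hN
    have h2 := h1.rpow_const (p := (1 / 2 : ℝ)) (Or.inr (by norm_num))
    rwa [Real.zero_rpow (by norm_num)] at h2
  refine ⟨?_, squeeze_zero (fun j => (hpos j).le) hb hlim⟩
  refine
    { e_lim := hC.e_lim.comp hN
      s_pos := fun j => mul_pos (by linarith [ht j]) (hs0 j)
      s_le := fun j => ?_
      σ_le := fun j => hC.σ_le _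
      ball_sub := fun j => hC.ball_sub _
      line := fun j => hC.line _
      col := fun j s' hs' => hC.col _ s' ⟨?_, hs'.2⟩
      outer := fun c hc => ?_ }
  · have h1 : t j * s (N j) / σ (N j) ≤ 1 :=
      (hb j).trans (Real.rpow_le_one (hr0 j).le (hr1 j) (by norm_num))
    rwa [div_le_one (hσ0 j)] at h1
  · have h1 : 1 * s (N j) ≤ t j * s (N j) := mul_le_mul_of_nonneg_right (ht j) (hs0 j).le
    rw [one_mul] at h1
    exact h1.trans hs'.1
  · obtain ⟨M, hM1, hM2⟩ := hC.outer c hc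
    refine ⟨fun j => M (N j), fun j => hM1 (N j), fun τ hτ => ?_⟩
    have h1 := (hM2 (τ / 2) (by positivity)).comp hN
    refine (tendsto_zero_iff_abs_tendsto_zero _).2 ?_
    have h2 := (tendsto_zero_iff_abs_tendsto_zero _).1 h1
    refine squeeze_zero (fun j => abs_nonneg _) (fun j => ?_) h2
    simp only [Function.comp]
    rw [abs_mul, abs_mul]
    refine mul_le_mul_of_nonneg_right ?_ (abs_nonneg _)
    rw [abs_of_nonneg (Real.rpow_nonneg (hpos j).le _),
      abs_of_nonneg (Real.rpow_nonneg (hr0 j).le _)]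
    calc (t j * s (N j) / σ (N j)) ^ τ ≤ ((s (N j) / σ (N j)) ^ (1 / 2 : ℝ)) ^ τ :=
          Real.rpow_le_rpow (hpos j).le (hb j) hτ.le
      _ = (s (N j) / σ (N j)) ^ (τ / 2) := by
          rw [← Real.rpow_mul (hr0 j).le]; congr 1; ring

/-- **uniformity in the scale** -/
theorem nrmAll_of (hN : NormP) {u0 R d h : ℝ} {ψ H A : ℂ → ℂ} {φ p B : ℂ × ℂ → ℂ}
    {X L : Set (ℂ × ℂ)} (D : ED u0 R d h ψ H A φ p B X L) {u s₀ a g κ : ℝ} {e : ℕ → ℝ × ℝ}
    {s σ : ℕ → ℝ} (hu : u ∈ Ioo (u0 - R) (u0 + R)) (hu0 : u ≠ 0) (ha : 0 ≤ a) (hg : 0 < g)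
    (hκ : 0 < κ) (hC : Cols u0 R d h a g κ ψ φ p B X L u s₀ e s σ)
    (hs : Tendsto (fun n => s n / σ n) atTop (𝓝 0)) :
    NrmAll (a + g) ψ (fun n q => φ (bl (e n) (s n) q)) (fun n q => B (bl (e n) (s n) q)) := by
  intro K hK hKc
  by_contra hcon
  push Not at hcon
  -- the bad scales
  have hev : ∀ t : ℝ, 1 ≤ t → ∀ᶠ n in atTop, t ≤ (σ n / s n) ^ (1 / 2 : ℝ) := by
    intro t ht
    have h1 : ∀ᶠ n in atTop, s n / σ n < (t ^ 2)⁻¹ :=
      hs.eventually (gt_mem_nhds (by positivity))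
    filter_upwards [h1] with n h2
    have hs0 := hC.s_pos n
    have hσ0 := hs0.trans_le (hC.s_le n)
    have h3 : t ^ 2 ≤ σ n / s n := by
      have h4 : 0 < s n / σ n := div_pos hs0 hσ0
      have h5 : (σ n / s n) = (s n / σ n)⁻¹ := by rw [inv_div]
      rw [h5, le_inv_comm₀ (by positivity) h4]
      exact h2.le
    have h6 : t = (t ^ 2) ^ (1 / 2 : ℝ) := by
      rw [← Real.sqrt_eq_rpow, Real.sqrt_sq (by linarith)]
    rw [h6]
    exact Real.rpow_le_rpow (by positivity) h3 (by norm_num)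
  have hch : ∀ j : ℕ, ∃ (t : ℝ) (n : ℕ) (q : ℂ × ℂ), 1 ≤ t ∧ j ≤ n ∧
      t ≤ (σ n / s n) ^ (1 / 2 : ℝ) ∧ q ∈ K ∧
      (j : ℝ) * (1 + |Real.log ‖R0 ψ (fun q => φ (bl (e n) (s n) q))
        (fun q => B (bl (e n) (s n) q)) ((t : ℂ) * z0.1, (t : ℂ) * z0.2)‖|) <
      |(φ (bl (e n) (s n) ((t : ℂ) * q.1, (t : ℂ) * q.2))).im| := by
    intro j
    obtain ⟨t, ht, hf⟩ := hcon j
    obtain ⟨n, ⟨q, hq, hlt⟩, h1, h2⟩ :=
      (hf.and_eventually ((eventually_ge_atTop j).and (hev t ht))).exists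
    exact ⟨t, n, q, ht, h1, h2, hq, hlt⟩
  choose t N q h1 h2 h3 h4 h5 using hch
  have hNt : Tendsto N atTop atTop := tendsto_atTop_mono h2 tendsto_id
  obtain ⟨hC', hs'⟩ := cols_sub hC hs hNt h1 h3
  obtain ⟨C, hev'⟩ := (hN u0 R d h ψ H A φ p B X L D u s₀ a g κ _ _ _ hu hu0 ha hg hκ hC' hs').1 K
    hK hKc
  obtain ⟨j, h6, h7⟩ := (hev'.and (eventually_gt_atTop (⌈C⌉₊))).exists
  have h8 := h6 (q j) (h4 j)
  have h9 := h5 j
  rw [bl_dil] at h9
  have h10 : R0 ψ (fun q => φ (bl (e (N j)) (s (N j)) q)) (fun q => B (bl (e (N j)) (s (N j)) q))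
      ((t j : ℂ) * z0.1, (t j : ℂ) * z0.2) = R0 ψ φ B (ray (e (N j)) (t j * s (N j))) := by
    unfold R0
    simp only
    rw [bl_dil, ray_eq]
  rw [h10] at h9
  have h11 : |(φ (bl (e (N j)) (t j * s (N j)) (q j))).im| ≤
      ‖φ (bl (e (N j)) (t j * s (N j)) (q j)) - ((φ (ray (e (N j)) (t j * s (N j)))).re : ℂ)‖ := by
    have := Complex.abs_im_le_norm (φ (bl (e (N j)) (t j * s (N j)) (q j)) -
      ((φ (ray (e (N j)) (t j * s (N j)))).re : ℂ))
    rwa [Complex.sub_im, Complex.ofReal_im, sub_zero] at this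
  set Λ : ℝ := 1 + |Real.log ‖R0 ψ φ B (ray (e (N j)) (t j * s (N j)))‖| with hΛ
  have hΛ0 : 0 < Λ := by positivity
  have h12 : (j : ℝ) * Λ < C * Λ := h9.trans_le (h11.trans h8)
  have h13 : (j : ℝ) < C := lt_of_mul_lt_mul_right h12 hΛ0.le
  have h14 : C ≤ ⌈C⌉₊ := Nat.le_ceil C
  have h15 : ((⌈C⌉₊ : ℕ) : ℝ) < (j : ℝ) := by exact_mod_cast h7
  linarith

/-! ### the normalised blow-ups -/





end Crest.Agent.R102.NrmAll812
end
end

-- ▼ part R102/NrmAllP_812
section

/-!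
Row 102, T1-B, block EDGE (helper812): `NrmAllP` from `NormP`.
-/

set_option autoImplicit false

namespace Crest.Agent.R102.NrmAllP812

open Crest.Agent.R102.Edge255

theorem nrmAllP (hN : NormP) : NrmAllP :=
  fun _ _ _ _ _ _ _ _ _ _ _ _ D _ _ _ _ _ _ _ _ hu hu0 ha hg hκ hC hs =>
    NrmAll812.nrmAll_of hN D hu hu0 ha hg hκ hC hs

end Crest.Agent.R102.NrmAllP812
end

-- ▼ part R102/MarcPI_295
section

/-!
Row 102, T1-B, EDGE (helper295): good bases with the Marcinkiewicz integral (integral form).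

`marcPI` : for a.e. `u`, `GoodU` at `u` gives, for every precision `ρ`, a closed set `U ∋ u` of
bases `u'` with uniform `E2` (over all `s` near `s₀`), such that the Marcinkiewicz integral of `U`
at `u` is finite.
-/

set_option autoImplicit false

open Set Filter Topology Metric MeasureTheory
open scoped ENNReal

noncomputable section

namespace Crest.Agent.R102.MarcPI295

open Crest.Agent.R102.Sup115 Crest.Agent.R102.Marc295

/-- the Marcinkiewicz integral of a closed set is finite at almost every point of the set -/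
theorem ae_MI {C : Set ℝ} (hC : IsClosed C) : ∀ᵐ x : ℝ, x ∈ C → MI C 1 x < ∞ := by
  have h1 : ∀ N : ℕ, ∀ᵐ x : ℝ, x ∈ C ∩ Icc (-(N : ℝ)) N → MI C 1 x < ∞ := by
    intro N
    have hm : MeasurableSet (C ∩ Icc (-(N : ℝ)) N) := hC.measurableSet.inter measurableSet_Icc
    rw [← ae_restrict_iff' hm]
    refine ae_lt_top (measurable_MI C 1) ?_
    refine ne_top_of_le_ne_top ?_ (total_le hC (Nat.cast_nonneg N))
    exact ENNReal.mul_ne_top (by norm_num) ENNReal.ofReal_ne_top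
  filter_upwards [ae_all_iff.2 h1] with x hx hxC
  obtain ⟨N, hN⟩ := exists_nat_ge |x|
  exact hx N ⟨hxC, abs_le.1 hN⟩

/-- the bases with uniform `E2` over the arc `|s - s₁| < δ` -/
def Ux (X L : Set (ℂ × ℂ)) (a g ρ δ s₁ : ℝ) : Set ℝ :=
  {u | ∀ s : ℝ, |s - s₁| < δ → E2 X L a g ρ δ (s, u)}

theorem closed_Ux {X L : Set (ℂ × ℂ)} (hX : IsOpen X) (a g ρ δ s₁ : ℝ) :
    IsClosed (Ux X L a g ρ δ s₁) := by
  have h1 : Ux X L a g ρ δ s₁ = ⋂ s : ℝ, ⋂ _ : |s - s₁| < δ,
      (fun u : ℝ => ((s, u) : ℝ × ℝ)) ⁻¹' {e | E2 X L a g ρ δ e} := by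
    ext u
    simp [Ux]
  rw [h1]
  exact isClosed_iInter fun s => isClosed_iInter fun _ =>
    (closed_E2 hX a g ρ δ).preimage (by fun_prop)

/-- good bases at `u`, integral form -/
def GoodPI (X L : Set (ℂ × ℂ)) (u s₀ a g : ℝ) : Prop :=
  0 ≤ a ∧ 0 < g ∧ ∀ ρ > 0, ∃ δ > 0, ∃ U : Set ℝ, IsClosed U ∧ u ∈ U ∧
    (∫⁻ t in Ioo (-1 : ℝ) 1, ENNReal.ofReal (infDist (u + t) U / t ^ 2)) < ∞ ∧
    ∀ u' ∈ U, ∀ s : ℝ, |s - s₀| < δ → E2 X L a g ρ δ (s, u')

/-- **(EDGE-MARC), integral form** -/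
theorem marcPI (X L : Set (ℂ × ℂ)) (hX : IsOpen X) : ∀ᵐ u : ℝ, ∀ s₀ a₀ g₀ : ℝ,
    GoodU X L u s₀ a₀ g₀ → ∀ g : ℝ, 0 < g → g < g₀ → GoodPI X L u s₀ a₀ g := by
  -- the countable family
  set Q : ℕ × ℕ × ℕ × ℕ × ℕ → Set ℝ := fun P =>
    Ux X L (TopologicalSpace.denseSeq ℝ P.2.1) (TopologicalSpace.denseSeq ℝ P.2.2.1)
      (1 / ((P.2.2.2.1 : ℝ) + 1)) (1 / ((P.1 : ℝ) + 1))
      (TopologicalSpace.denseSeq ℝ P.2.2.2.2) with hQ
  have hall : ∀ᵐ u : ℝ, ∀ P, u ∈ Q P → MI (Q P) 1 u < ∞ :=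
    ae_all_iff.2 fun P => ae_MI (closed_Ux hX _ _ _ _ _)
  filter_upwards [hall] with u hu s₀ a₀ g₀ hgood g hg hgg
  obtain ⟨ha, -, hE⟩ := hgood
  refine ⟨ha, hg, fun ρ hρ => ?_⟩
  -- precision
  obtain ⟨m, hm⟩ := exists_nat_one_div_lt (show 0 < ρ / 4 by positivity)
  have hm0 : 0 < 1 / ((m : ℝ) + 1) := by positivity
  obtain ⟨δ, hδ, hE⟩ := hE (1 / ((m : ℝ) + 1) / 4) (by positivity)
  obtain ⟨k, hk⟩ := exists_nat_one_div_lt (show 0 < δ / 2 by positivity)
  have hk0 : 0 < 1 / ((k : ℝ) + 1) := by positivity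
  have hgd : 0 < g₀ - g := by linarith
  obtain ⟨i, hi⟩ := (TopologicalSpace.denseRange_denseSeq ℝ).exists_dist_lt s₀
    (show 0 < 1 / ((k : ℝ) + 1) / 2 by positivity)
  obtain ⟨j, hj⟩ := (TopologicalSpace.denseRange_denseSeq ℝ).exists_dist_lt a₀
    (show 0 < min (1 / ((m : ℝ) + 1) / 4) ((g₀ - g) / 8) from lt_min (by positivity)
      (by positivity))
  obtain ⟨l, hl⟩ := (TopologicalSpace.denseRange_denseSeq ℝ).exists_dist_lt ((g + g₀) / 2)
    (show 0 < (g₀ - g) / 8 by positivity)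
  rw [Real.dist_eq] at hi hj hl
  set s₁ := TopologicalSpace.denseSeq ℝ i with hs₁
  set a₁ := TopologicalSpace.denseSeq ℝ j with ha₁
  set g₁ := TopologicalSpace.denseSeq ℝ l with hg₁
  have hj1 : |a₀ - a₁| < 1 / ((m : ℝ) + 1) / 4 := hj.trans_le (min_le_left _ _)
  have hj2 : |a₀ - a₁| < (g₀ - g) / 8 := hj.trans_le (min_le_right _ _)
  have b1 := abs_lt.1 hj2
  have b2 := abs_lt.1 hl
  have hmem : u ∈ Q (k, j, l, m, i) := by
    intro s hs
    have h1 : |s - s₀| < δ := by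
      have h2 := abs_sub_le s s₁ s₀
      have h3 : |s₁ - s₀| < 1 / ((k : ℝ) + 1) / 2 := by rwa [abs_sub_comm]
      have hs' : |s - s₁| < 1 / ((k : ℝ) + 1) := hs
      linarith
    refine (hE s h1).transfer ?_ (by positivity) (by linarith) (by linarith) ?_
    · change 1 / ((k : ℝ) + 1) ≤ δ
      linarith
    · change a₁ + g₁ ≤ a₀ + g₀
      linarith [b1.1, b2.1, b1.2, b2.2]
  refine ⟨1 / ((k : ℝ) + 1) / 2, by positivity, Q (k, j, l, m, i), closed_Ux hX _ _ _ _ _, hmem,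
    hu _ hmem, ?_⟩
  intro u' hu' s hs
  have h1 : |s - s₁| < 1 / ((k : ℝ) + 1) := by
    have h2 := abs_sub_le s s₀ s₁
    linarith
  have h2 : E2 X L a₁ g₁ (1 / ((m : ℝ) + 1)) (1 / ((k : ℝ) + 1)) (s, u') := hu' s h1
  refine h2.transfer (by linarith) hm0 (by linarith) ?_ ?_
  · rw [abs_sub_comm]
    linarith
  · linarith [b1.1, b2.1, b1.2, b2.2]

end Crest.Agent.R102.MarcPI295
end
end

-- ▼ part R102/MarcP_295

/-!
Row 102, T1-B, **EDGE-MARC** (helper295): the literal Prop `Edge255.MarcP`, from `marcPI`.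
-/

set_option autoImplicit false

open Set Filter Topology Metric MeasureTheory
open scoped ENNReal

noncomputable section

namespace Crest.Agent.R102.MarcP295

/-- **(EDGE-MARC)** -/
theorem marcP : Edge255.MarcP := by
  intro X L hX
  filter_upwards [MarcPI295.marcPI X L hX] with u hu s₀ a₀ g₀ hG g hg hgg
  obtain ⟨h0, hg0, hD⟩ := hu s₀ a₀ g₀ hG g hg hgg
  refine ⟨h0, hg0, fun ρ hρ => ?_⟩
  obtain ⟨δ, hδ, U, hU, huU, hI, hE⟩ := hD ρ hρ
  exact ⟨δ, hδ, U, huU, ⟨hU, hI⟩, hE⟩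

end Crest.Agent.R102.MarcP295
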