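import Crest.Agent.R102.Refl_812
import Crest.Agent.R102.HartR_948
import Crest.Agent.R102.BigMontel_948
import Crest.Agent.R264.MontelU
import Crest.Agent.R102.Fatou_472

-- ▼ part R102/BlowA_362
section

/-!
Row 102, T1-B (f) (helper362): constant blow-ups, part A.
A bounded family on half planes whose boundary functions tend to a constant in `L¹_loc`
tends to this constant.
-/

set_option autoImplicit false

open Set Filter Topology Metric Complex MeasureTheory Interval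

noncomputable section

namespace Crest.Agent.R102.Blow362

/-- a disc in the lower half plane -/
theorem ball_lower (R : ℝ) : ball (-(R : ℂ) * I) R ⊆ {z : ℂ | z.im < 0} := by
  intro z hz
  rw [mem_ball, dist_eq_norm] at hz
  have h1 := (Complex.abs_im_le_norm (z - -(R : ℂ) * I)).trans_lt hz
  have h2 : (z - -(R : ℂ) * I).im = z.im + R := by simp
  rw [h2] at h1
  have := (abs_lt.1 h1).2
  simp only [mem_ofPred_eq]
  linarith

theorem mem_ball_lower {R : ℝ} (hR : 0 < R) {z : ℂ}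
    (h : z.re ^ 2 + z.im ^ 2 + 2 * z.im * R < 0) : z ∈ ball (-(R : ℂ) * I) R := by
  rw [mem_ball, dist_eq_norm]
  have h2 : ‖z - -(R : ℂ) * I‖ ^ 2 = z.re ^ 2 + (z.im + R) ^ 2 := by
    rw [← Complex.normSq_eq_norm_sq, Complex.normSq_apply]
    simp
    ring
  have h3 : ‖z - -(R : ℂ) * I‖ ^ 2 < R ^ 2 := by rw [h2]; nlinarith
  exact lt_of_pow_lt_pow_left₀ 2 hR.le h3

/-- horizontal averages are holomorphic -/
theorem gs_diff {f : ℂ → ℂ} (hf : DifferentiableOn ℂ f {z | z.im < 0}) (s : ℝ) {z : ℂ}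
    (hz : z.im < 0) : DifferentiableAt ℂ (fun z => ∫ x in (0 : ℝ)..s, f (z + x)) z := by
  set A : ℝ := (|z.re| + |s|) ^ 2 + z.im ^ 2 with hA
  set R : ℝ := A / (-z.im) + 1 with hR
  have hA0 : 0 ≤ A := by positivity
  have hzi : 0 < -z.im := by linarith
  have hR0 : 0 < R := by positivity
  have hRz : z.im * R = -A + z.im := by
    have h0 : z.im ≠ 0 := hz.ne
    rw [hR, div_neg]
    have h1 : z.im * (A / z.im) = A := by field_simp
    linear_combination -h1
  have hin : ∀ w : ℂ, w.im = z.im → |w.re| ≤ |z.re| + |s| → w ∈ ball (-(R : ℂ) * I) R := by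
    intro w hw1 hw2
    apply mem_ball_lower hR0
    have h1 : w.re ^ 2 ≤ (|z.re| + |s|) ^ 2 := by
      rw [← sq_abs w.re]; gcongr
    have h2 : 2 * w.im * R = 2 * (-A + z.im) := by rw [hw1, ← hRz]; ring
    rw [h2, hw1]
    nlinarith
  have hex := (hf.mono (ball_lower R)).isExactOn_ball
  obtain ⟨P, hP⟩ := hex
  have h1 : ∀ᶠ w : ℂ in 𝓝 z, w ∈ ball (-(R : ℂ) * I) R :=
    isOpen_ball.mem_nhds (hin z rfl (by linarith [abs_nonneg s]))
  have h2 : ∀ᶠ w : ℂ in 𝓝 z, w + (s : ℂ) ∈ ball (-(R : ℂ) * I) R := by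
    have hc : ContinuousAt (fun w : ℂ => w + s) z := by fun_prop
    refine hc.eventually (isOpen_ball.mem_nhds (hin (z + s) (by simp) ?_))
    simp only [Complex.add_re, Complex.ofReal_re]
    exact abs_add_le _ _
  have heq : (fun w => ∫ x in (0 : ℝ)..s, f (w + x)) =ᶠ[𝓝 z] fun w => P (w + s) - P w := by
    filter_upwards [h1, h2] with w hw1 hw2
    have hseg : ∀ x ∈ uIcc (0 : ℝ) s, w + (x : ℂ) ∈ ball (-(R : ℂ) * I) R := by
      intro x hx
      have hc := convex_ball (-(R : ℂ) * I) R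
      rw [← segment_eq_uIcc] at hx
      obtain ⟨a, b, ha, hb, hab, hx⟩ := hx
      have := hc hw1 hw2 ha hb hab
      convert this using 1
      rw [← hx]
      simp only [smul_eq_mul, mul_zero, zero_add, Complex.real_smul, Complex.ofReal_mul]
      have : (a : ℂ) + b = 1 := by exact_mod_cast hab
      linear_combination (-w) * this
    have hd : ∀ x ∈ uIcc (0 : ℝ) s, HasDerivAt (fun x : ℝ => P (w + x)) (f (w + x)) x := by
      intro x hx
      have h3 := hP _ (hseg x hx)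
      have h4 : HasDerivAt (fun x : ℝ => w + (x : ℂ)) 1 x := by
        simpa using (Complex.ofRealCLM.hasDerivAt (x := x)).const_add w
      have h5 := h3.comp x h4
      rw [mul_one] at h5
      exact h5
    have hcont : ContinuousOn (fun x : ℝ => f (w + x)) (uIcc 0 s) := by
      refine (hf.mono (ball_lower R)).continuousOn.comp (by fun_prop) ?_
      intro x hx
      exact hseg x hx
    rw [intervalIntegral.integral_eq_sub_of_hasDerivAt hd hcont.intervalIntegrable]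
    simp
  refine DifferentiableAt.congr_of_eventuallyEq ?_ heq
  have e1 : DifferentiableAt ℂ P (z + s) := (hP _ h2.self_of_nhds).differentiableAt
  have e2 : DifferentiableAt ℂ P z := (hP _ h1.self_of_nhds).differentiableAt
  have e3 : DifferentiableAt ℂ (fun w => P (w + s)) z := by
    have : DifferentiableAt ℂ (fun w : ℂ => w + s) z := by fun_prop
    exact DifferentiableAt.comp z e1 this
  exact e3.sub e2

theorem shift_int (f : ℂ → ℂ) (s : ℝ) (z : ℂ) :
    ∫ x in (0 : ℝ)..s, f (z + x) = ∫ x in z.re..(z.re + s), f (x + z.im * I) := by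
  have h := intervalIntegral.integral_comp_add_left (fun x : ℝ => f (x + z.im * I)) z.re
    (a := 0) (b := s)
  rw [add_zero] at h
  rw [← h]
  congr 1
  ext x
  congr 1
  conv_lhs => rw [← Complex.re_add_im z]
  push_cast
  ring

/-- **rigidity**: small horizontal integrals near the boundary force `f = 0` -/
theorem rigid0 {f : ℂ → ℂ} {C : ℝ} (hf : DifferentiableOn ℂ f {z | z.im < 0})
    (hC : ∀ a b y : ℝ, y < 0 → ‖∫ x in a..b, f (x + y * I)‖ ≤ C * (-y)) {z : ℂ}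
    (hz : z.im < 0) : f z = 0 := by
  have key : ∀ s : ℝ, ∫ x in (0 : ℝ)..s, f (z + x) = 0 := by
    intro s
    set g : ℂ → ℂ := fun z => ∫ x in (0 : ℝ)..s, f (z + x) with hg
    have hgb : ∀ w : ℂ, w.im < 0 → ‖g w‖ ≤ C * (-w.im) := by
      intro w hw
      rw [hg]
      simp only
      rw [shift_int]
      exact hC _ _ _ hw
    set F : ℂ → ℂ := fun w => if w.im < 0 then g w else 0 with hF
    have hFneg : ∀ w : ℂ, w.im < 0 → F =ᶠ[𝓝 w] g := by
      intro w hw
      have : ∀ᶠ v : ℂ in 𝓝 w, v.im < 0 := Complex.continuous_im.continuousAt.eventually (gt_mem_nhds hw)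
      filter_upwards [this] with v hv
      simp [hF, hv]
    have hFpos : ∀ w : ℂ, 0 < w.im → F =ᶠ[𝓝 w] fun _ => 0 := by
      intro w hw
      have : ∀ᶠ v : ℂ in 𝓝 w, 0 < v.im := Complex.continuous_im.continuousAt.eventually (lt_mem_nhds hw)
      filter_upwards [this] with v hv
      simp [hF, hv.le]
    have hFd : ∀ w : ℂ, w.im ≠ 0 → DifferentiableAt ℂ F w := by
      intro w hw
      rcases lt_or_gt_of_ne hw with h | h
      · exact (gs_diff hf s h).congr_of_eventuallyEq (hFneg w h)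
      · exact (differentiableAt_const (0 : ℂ)).congr_of_eventuallyEq (hFpos w h)
    have hFc : Continuous F := by
      rw [continuous_iff_continuousAt]
      intro w
      by_cases hw : w.im = 0
      · have hFw : F w = 0 := by simp [hF, hw]
        rw [ContinuousAt, hFw, tendsto_zero_iff_norm_tendsto_zero]
        have hb : ∀ v : ℂ, ‖F v‖ ≤ |C| * |v.im| := by
          intro v
          by_cases hv : v.im < 0
          · have h1 := hgb v hv
            have h2 : F v = g v := by simp [hF, hv]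
            rw [h2, abs_of_neg hv]
            refine h1.trans ?_
            have : C ≤ |C| := le_abs_self C
            nlinarith
          · have h2 : F v = 0 := by simp [hF, hv]
            rw [h2, norm_zero]; positivity
        have hlim : Tendsto (fun v : ℂ => |C| * |v.im|) (𝓝 w) (𝓝 0) := by
          have : Continuous (fun v : ℂ => |C| * |v.im|) := by fun_prop
          have h := this.tendsto w
          simpa [hw] using h
        exact squeeze_zero (fun _ => norm_nonneg _) hb hlim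
      · exact (hFd w hw).continuousAt
    have hFe : Differentiable ℂ F := by
      intro w
      have h1 := Refl812.differentiableOn_of_continuousOn (c := w.re) (r := |w.im| + 1)
        (F := F) hFc.continuousOn (fun v _ hv => hFd v hv)
      refine h1.differentiableAt (isOpen_ball.mem_nhds ?_)
      rw [mem_ball, dist_eq_norm]
      have : w - (w.re : ℂ) = w.im * I := by
        apply Complex.ext <;> simp
      rw [this]
      simp
    have hzero : F = fun _ => 0 := by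
      have hA : AnalyticOnNhd ℂ F univ := hFe.differentiableOn.analyticOnNhd isOpen_univ
      have hB : AnalyticOnNhd ℂ (fun _ : ℂ => (0 : ℂ)) univ := analyticOnNhd_const
      exact hA.eq_of_eventuallyEq hB (z₀ := I) (hFpos I (by simp))
    have : F z = 0 := by rw [hzero]
    have h2 : F z = g z := by simp [hF, hz]
    show g z = 0
    rw [← h2, this]
  have hcont : ContinuousAt f z := (hf.differentiableAt
    ((isOpen_lt Complex.continuous_im continuous_const).mem_nhds hz)).continuousAt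
  have hc2 : Continuous (fun x : ℝ => f (z + x)) := by
    rw [continuous_iff_continuousAt]
    intro x
    have hzx : (z + (x : ℂ)).im < 0 := by simpa using hz
    have h1 : ContinuousAt f (z + x) := (hf.differentiableAt
      ((isOpen_lt Complex.continuous_im continuous_const).mem_nhds hzx)).continuousAt
    have h2 : ContinuousAt (fun x : ℝ => z + (x : ℂ)) x := by fun_prop
    exact ContinuousAt.comp (g := f) (f := fun x : ℝ => z + (x : ℂ)) h1 h2
  have h1 := intervalIntegral.integral_hasDerivAt_right (a := (0:ℝ)) (b := (0:ℝ))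
    (hc2.intervalIntegrable 0 0) (hc2.stronglyMeasurableAtFilter _ _) hc2.continuousAt
  have h2 : (fun u : ℝ => ∫ x in (0 : ℝ)..u, f (z + x)) = fun _ => 0 := by
    ext u; exact key u
  rw [h2] at h1
  have h3 := h1.unique (hasDerivAt_const (0:ℝ) (0:ℂ))
  simpa using h3

theorem rigid {f : ℂ → ℂ} {h C : ℝ} (hf : DifferentiableOn ℂ f {z | z.im < h})
    (hC : ∀ a b y : ℝ, y < h → ‖∫ x in a..b, f (x + y * I)‖ ≤ C * (h - y)) {z : ℂ}
    (hz : z.im < h) : f z = 0 := by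
  have h0 : DifferentiableOn ℂ (fun z => f (z + h * I)) {z | z.im < 0} := by
    refine hf.comp (by fun_prop) ?_
    intro w hw
    simp only [mem_ofPred_eq] at hw ⊢
    simp; exact hw
  have h1 := rigid0 (C := C) h0 (z := z - h * I) (fun a b y hy => ?_) (by simp; exact hz)
  · simpa using h1
  · have := hC a b (y + h) (by linarith)
    have e : ∀ x : ℝ, ((x : ℂ) + y * I + h * I) = (x : ℂ) + ((y + h : ℝ) : ℂ) * I := by
      intro x; push_cast; ring
    simp only [e]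
    refine this.trans (le_of_eq (by ring))

/-- comparison of two horizontal integrals -/
theorem rect_le {f : ℂ → ℂ} {A H M : ℝ}
    (hf : DifferentiableOn ℂ f {z | -A < z.im ∧ z.im < H})
    (hM : ∀ z : ℂ, -A < z.im → z.im < H → ‖f z‖ ≤ M) (a b : ℝ) {y y' : ℝ} (hy : -A < y)
    (hyy : y ≤ y') (hy' : y' < H) :
    ‖(∫ x in a..b, f (x + y * I)) - ∫ x in a..b, f (x + y' * I)‖ ≤ 2 * M * (y' - y) := by
  have hsub : [[((a : ℂ) + y * I).re, ((b : ℂ) + y' * I).re]] ×ℂ
      [[((a : ℂ) + y * I).im, ((b : ℂ) + y' * I).im]] ⊆ {z : ℂ | -A < z.im ∧ z.im < H} := by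
    intro z hz
    rw [mem_reProdIm] at hz
    have h2 := hz.2
    simp only [Complex.add_im, Complex.ofReal_im, Complex.mul_im, Complex.ofReal_re, Complex.I_im,
      mul_one, Complex.I_re, mul_zero, add_zero, zero_add, uIcc_of_le hyy] at h2
    exact ⟨hy.trans_le h2.1, h2.2.trans_lt hy'⟩
  have h := Complex.integral_boundary_rect_eq_zero_of_differentiableOn f ((a : ℂ) + y * I)
    ((b : ℂ) + y' * I) (hf.mono hsub)
  simp only [Complex.add_im, Complex.ofReal_im, Complex.mul_im, Complex.ofReal_re, Complex.I_im,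
      mul_one, Complex.I_re, mul_zero, add_zero, zero_add, Complex.add_re, Complex.mul_re,
      sub_self] at h
  have hs : ∀ v : ℝ, ‖∫ u in y..y', f (v + u * I)‖ ≤ M * (y' - y) := by
    intro v
    have := intervalIntegral.norm_integral_le_of_norm_le_const (a := y) (b := y')
      (f := fun u : ℝ => f (v + u * I)) (C := M) (fun u hu => by
        rw [uIoc_of_le hyy] at hu
        apply hM <;> simp
        · linarith [hu.1]
        · linarith [hu.2])
    rwa [abs_of_nonneg (by linarith)] at this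
  have e : (∫ x in a..b, f (x + y * I)) - ∫ x in a..b, f (x + y' * I) =
      I • (∫ u in y..y', f (a + u * I)) - I • (∫ u in y..y', f (b + u * I)) := by
    linear_combination h
  rw [e]
  refine (norm_sub_le _ _).trans ?_
  rw [norm_smul, norm_smul, Complex.norm_I, one_mul, one_mul]
  linarith [hs a, hs b]

/-- comparison with the boundary integral -/
theorem rect_bd {f : ℂ → ℂ} {A H M : ℝ}
    (hf : DifferentiableOn ℂ f {z | -A < z.im ∧ z.im < H})
    (hM : ∀ z : ℂ, -A < z.im → z.im < H → ‖f z‖ ≤ M) {F : ℝ → ℂ}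
    (hl : ∀ᵐ x : ℝ, Tendsto (fun y : ℝ => f (x + y * I)) (𝓝[<] H) (𝓝 (F x)))
    (a b : ℝ) {y : ℝ} (hy : -A < y) (hy' : y < H) :
    ‖(∫ x in a..b, f (x + y * I)) - ∫ x in a..b, F x‖ ≤ 2 * M * (H - y) := by
  have hlim : Tendsto (fun u : ℝ => ∫ x in a..b, f (x + u * I)) (𝓝[<] H)
      (𝓝 (∫ x in a..b, F x)) := by
    have hev : ∀ᶠ u in 𝓝[<] H, -A < u ∧ u < H := by
      have h1 : ∀ᶠ u in 𝓝[<] H, u < H := self_mem_nhdsWithin
      have h2 : ∀ᶠ u in 𝓝[<] H, -A < u :=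
        (lt_mem_nhds (hy.trans hy')).filter_mono nhdsWithin_le_nhds
      filter_upwards [h1, h2] with u a b using ⟨b, a⟩
    refine intervalIntegral.tendsto_integral_filter_of_dominated_convergence (fun _ => M) ?_ ?_
      (by simp) ?_
    · filter_upwards [hev] with u hu
      have hc : Continuous (fun x : ℝ => f (x + u * I)) := by
        rw [continuous_iff_continuousAt]
        intro x
        have hx : ((x : ℂ) + u * I) ∈ {z : ℂ | -A < z.im ∧ z.im < H} := by simpa using hu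
        have ho : IsOpen {z : ℂ | -A < z.im ∧ z.im < H} :=
          (isOpen_lt continuous_const Complex.continuous_im).inter
            (isOpen_lt Complex.continuous_im continuous_const)
        have h1 : ContinuousAt f ((x : ℂ) + u * I) :=
          (hf.differentiableAt (ho.mem_nhds hx)).continuousAt
        have h2 : ContinuousAt (fun x : ℝ => (x : ℂ) + u * I) x := by fun_prop
        exact ContinuousAt.comp (g := f) (f := fun x : ℝ => (x : ℂ) + u * I) h1 h2
      exact hc.aestronglyMeasurable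
    · filter_upwards [hev] with u hu
      exact Eventually.of_forall fun x _ => hM _ (by simpa using hu.1) (by simpa using hu.2)
    · filter_upwards [hl] with x hx _ using hx
  have h1 : Tendsto (fun u : ℝ => ‖(∫ x in a..b, f (x + y * I)) - ∫ x in a..b, f (x + u * I)‖)
      (𝓝[<] H) (𝓝 ‖(∫ x in a..b, f (x + y * I)) - ∫ x in a..b, F x‖) :=
    (tendsto_const_nhds.sub hlim).norm
  have h2 : Tendsto (fun u : ℝ => 2 * M * (u - y)) (𝓝[<] H) (𝓝 (2 * M * (H - y))) := by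
    have : Continuous (fun u : ℝ => 2 * M * (u - y)) := by fun_prop
    exact (this.tendsto H).mono_left nhdsWithin_le_nhds
  refine le_of_tendsto_of_tendsto h1 h2 ?_
  have h3 : ∀ᶠ u in 𝓝[<] H, u < H := self_mem_nhdsWithin
  have h4 : ∀ᶠ u in 𝓝[<] H, y < u := (lt_mem_nhds hy').filter_mono nhdsWithin_le_nhds
  filter_upwards [h3, h4] with u hu hu'
  exact rect_le hf hM a b hy hu'.le hu

/-! ### Montel for families defined on growing domains -/

theorem montel_exh {E : Type*} [NormedAddCommGroup E] [NormedSpace ℂ E] {ι : Type*}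
    [FiniteDimensional ℂ E] (u : Ultrafilter ι) {D : Set E} (hD : IsOpen D) {f : ι → E → ℂ}
    {M : ℝ} (hf : ∀ z ∈ D, ∃ r > 0, ∀ᶠ k in (u : Filter ι), DifferentiableOn ℂ (f k) (ball z r) ∧
      ∀ w ∈ ball z r, ‖f k w‖ ≤ M) :
    ∃ g : E → ℂ, DifferentiableOn ℂ g D ∧ TendstoLocallyUniformlyOn f g u D := by
  classical
  have hlim : ∀ z, ∃ w, z ∈ D → Tendsto (fun k => f k z) u (𝓝 w) := by
    intro z
    by_cases hz : z ∈ D
    · obtain ⟨r, hr, hM⟩ := hf z hz
      have hK : IsCompact (closedBall (0 : ℂ) M) := isCompact_closedBall _ _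
      have hle : ((u.map (fun k => f k z) : Ultrafilter ℂ) : Filter ℂ) ≤
          𝓟 (closedBall (0 : ℂ) M) := by
        rw [le_principal_iff]
        show (fun k => f k z) ⁻¹' closedBall (0 : ℂ) M ∈ (u : Filter ι)
        filter_upwards [hM] with k hk
        simpa using hk.2 z (mem_ball_self hr)
      obtain ⟨w, hw, hw'⟩ := hK.ultrafilter_le_nhds _ hle
      exact ⟨w, fun _ => hw'⟩
    · exact ⟨0, fun h => (hz h).elim⟩
  choose g hg using hlim
  have key : ∀ z ∈ D, ∃ r > 0, ball z r ⊆ D ∧ DifferentiableOn ℂ g (ball z r) ∧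
      TendstoLocallyUniformlyOn f g u (ball z r) := by
    intro z hz
    obtain ⟨r, hr, hM⟩ := hf z hz
    obtain ⟨s, hs, hsD⟩ := Metric.isOpen_iff.1 hD z hz
    have hsub : ball z (min r s) ⊆ ball z r := ball_subset_ball (min_le_left _ _)
    have hsub' : ball z (min r s) ⊆ D := (ball_subset_ball (min_le_right _ _)).trans hsD
    have h2 : TendstoLocallyUniformlyOn f g u (ball z (min r s)) :=
      R264.tlu_of_pointwise isOpen_ball (hM.mono fun k hk => hk.1.mono hsub)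
        (hM.mono fun k hk w hw => hk.2 w (hsub hw)) (fun w hw => hg w (hsub' hw))
    exact ⟨min r s, lt_min hr hs, hsub', (R266.SCV.analyticOnNhd_of_tendstoLocallyUniformlyOn
      isOpen_ball h2 (hM.mono fun k hk => hk.1.mono hsub)).differentiableOn, h2⟩
  refine ⟨g, fun z hz => ?_, ?_⟩
  · obtain ⟨r, hr, -, hd, -⟩ := key z hz
    exact (hd.differentiableAt (ball_mem_nhds z hr)).differentiableWithinAt
  · rw [Metric.tendstoLocallyUniformlyOn_iff]
    intro ε hε x hx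
    obtain ⟨r, hr, -, -, h2⟩ := key x hx
    obtain ⟨t, ht, htu⟩ := (Metric.tendstoLocallyUniformlyOn_iff.1 h2) ε hε x (mem_ball_self hr)
    refine ⟨t, ?_, htu⟩
    rw [isOpen_ball.nhdsWithin_eq (mem_ball_self hr)] at ht
    exact mem_nhdsWithin_of_mem_nhds ht

theorem halfplane_limit0 {ι : Type*} (u : Ultrafilter ι) {f : ι → ℂ → ℂ} {F : ι → ℝ → ℂ}
    {A H : ι → ℝ} {h M : ℝ} (hA : Tendsto A u atTop) (hH : Tendsto H u (𝓝 h))
    (hf : ∀ᶠ k in (u : Filter ι), DifferentiableOn ℂ (f k) {z | -A k < z.im ∧ z.im < H k})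
    (hM : ∀ᶠ k in (u : Filter ι), ∀ z : ℂ, -A k < z.im → z.im < H k → ‖f k z‖ ≤ M)
    (hl : ∀ᶠ k in (u : Filter ι), ∀ᵐ x : ℝ,
      Tendsto (fun y : ℝ => f k (x + y * I)) (𝓝[<] (H k)) (𝓝 (F k x)))
    (hF : ∀ a b : ℝ, Tendsto (fun k => ∫ x in a..b, F k x) u (𝓝 0))
    {z : ℂ} (hz : z.im < h) : Tendsto (fun k => f k z) u (𝓝 0) := by
  have hD : IsOpen {z : ℂ | z.im < h} := isOpen_lt Complex.continuous_im continuous_const
  have hloc : ∀ z ∈ {z : ℂ | z.im < h}, ∃ r > 0, ∀ᶠ k in (u : Filter ι),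
      DifferentiableOn ℂ (f k) (ball z r) ∧ ∀ w ∈ ball z r, ‖f k w‖ ≤ M := by
    intro z hz
    simp only [mem_ofPred_eq] at hz
    refine ⟨(h - z.im) / 2, by linarith, ?_⟩
    have h1 : ∀ᶠ k in (u : Filter ι), (z.im + h) / 2 < H k :=
      hH.eventually (lt_mem_nhds (by linarith))
    have h2 : ∀ᶠ k in (u : Filter ι), -z.im + (h - z.im) / 2 < A k := hA.eventually_gt_atTop _
    filter_upwards [hf, hM, h1, h2] with k a b c d
    have hsub : ball z ((h - z.im) / 2) ⊆ {z | -A k < z.im ∧ z.im < H k} := by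
      intro w hw
      rw [mem_ball, dist_eq_norm] at hw
      have h1 := (Complex.abs_im_le_norm (w - z)).trans_lt hw
      rw [Complex.sub_im, abs_lt] at h1
      constructor <;> linarith [h1.1, h1.2]
    exact ⟨a.mono hsub, fun w hw => b w (hsub hw).1 (hsub hw).2⟩
  obtain ⟨g, hg, hu⟩ := montel_exh u hD hloc
  have hz0 : g z = 0 := by
    refine rigid (C := 2 * M) hg (fun a b y hy => ?_) hz
    have hcs : IsCompact ((fun x : ℝ => (x : ℂ) + y * I) '' (uIcc a b)) :=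
      isCompact_uIcc.image (by fun_prop)
    have hcsub : ((fun x : ℝ => (x : ℂ) + y * I) '' (uIcc a b)) ⊆ {z : ℂ | z.im < h} := by
      rintro _ ⟨x, -, rfl⟩
      simpa using hy
    have hun := (tendstoLocallyUniformlyOn_iff_forall_isCompact hD).1 hu _ hcsub hcs
    have hgc : ContinuousOn g {z : ℂ | z.im < h} := hg.continuousOn
    have hgi : IntervalIntegrable (fun x : ℝ => g (x + y * I)) volume a b := by
      refine (hgc.comp (by fun_prop) ?_).intervalIntegrable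
      intro x _
      simpa using hy
    have hlim : Tendsto (fun k => ∫ x in a..b, f k (x + y * I)) u
        (𝓝 (∫ x in a..b, g (x + y * I))) := by
      rw [Metric.tendsto_nhds]
      intro ε hε
      have hη : 0 < ε / (|b - a| + 1) := by positivity
      have h1 : ∀ᶠ k in (u : Filter ι), y < H k := hH.eventually (lt_mem_nhds hy)
      have h2 : ∀ᶠ k in (u : Filter ι), -y < A k := hA.eventually_gt_atTop _
      filter_upwards [Metric.tendstoUniformlyOn_iff.1 hun _ hη, hf, h1, h2] with k hk hfk hk1 hk2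
      have hki : IntervalIntegrable (fun x : ℝ => f k (x + y * I)) volume a b := by
        refine (hfk.continuousOn.comp (by fun_prop) ?_).intervalIntegrable
        intro x _
        simp only [mem_ofPred_eq]
        constructor
        · simp; linarith
        · simpa using hk1
      rw [dist_eq_norm, ← intervalIntegral.integral_sub hki hgi]
      have h3 := intervalIntegral.norm_integral_le_of_norm_le_const (a := a) (b := b)
        (f := fun x : ℝ => f k (x + y * I) - g (x + y * I)) (C := ε / (|b - a| + 1))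
        (fun x hx => by
          have := hk _ ⟨x, uIoc_subset_uIcc hx, rfl⟩
          rw [dist_eq_norm, norm_sub_rev] at this
          exact this.le)
      refine h3.trans_lt ?_
      rw [div_mul_eq_mul_div, div_lt_iff₀ (by positivity)]
      nlinarith [abs_nonneg (b - a)]
    have hb : ∀ᶠ k in (u : Filter ι), ‖(∫ x in a..b, f k (x + y * I)) - ∫ x in a..b, F k x‖ ≤
        2 * M * (H k - y) := by
      have h1 : ∀ᶠ k in (u : Filter ι), y < H k := hH.eventually (lt_mem_nhds hy)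
      have h2 : ∀ᶠ k in (u : Filter ι), -y < A k := hA.eventually_gt_atTop _
      filter_upwards [hf, hM, hl, h1, h2] with k k1 k2 k3 k4 k5
      exact rect_bd k1 k2 k3 a b (by linarith) k4
    have h3 : Tendsto (fun k => ‖(∫ x in a..b, f k (x + y * I)) - ∫ x in a..b, F k x‖) u
        (𝓝 ‖(∫ x in a..b, g (x + y * I)) - 0‖) := (hlim.sub (hF a b)).norm
    rw [sub_zero] at h3
    have h4 : Tendsto (fun k => 2 * M * (H k - y)) u (𝓝 (2 * M * (h - y))) :=
      (hH.sub_const y).const_mul _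
    exact le_of_tendsto_of_tendsto h3 h4 hb
  rw [← hz0]
  exact hu.tendsto_at hz

/-- **bounded functions on half planes with nearly constant boundary values** -/
theorem halfplane_limit {ι : Type*} (u : Ultrafilter ι) {f : ι → ℂ → ℂ} {F : ι → ℝ → ℂ}
    {A H : ι → ℝ} {h M : ℝ} {c : ℂ} (hA : Tendsto A u atTop) (hH : Tendsto H u (𝓝 h))
    (hf : ∀ᶠ k in (u : Filter ι), DifferentiableOn ℂ (f k) {z | -A k < z.im ∧ z.im < H k})
    (hM : ∀ᶠ k in (u : Filter ι), ∀ z : ℂ, -A k < z.im → z.im < H k → ‖f k z‖ ≤ M)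
    (hl : ∀ᶠ k in (u : Filter ι), ∀ᵐ x : ℝ,
      Tendsto (fun y : ℝ => f k (x + y * I)) (𝓝[<] (H k)) (𝓝 (F k x)))
    (hF : ∀ a b : ℝ, Tendsto (fun k => ∫ x in a..b, (F k x - c)) u (𝓝 0))
    {z : ℂ} (hz : z.im < h) : Tendsto (fun k => f k z) u (𝓝 c) := by
  have h1 := halfplane_limit0 u (f := fun k z => f k z - c) (F := fun k x => F k x - c)
    (M := M + ‖c‖) hA hH ?_ ?_ ?_ hF hz
  · have := h1.add_const c
    simpa using this
  · filter_upwards [hf] with k hk using hk.sub_const c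
  · filter_upwards [hM] with k hk z h1 h2
    exact (norm_sub_le _ _).trans (by linarith [hk z h1 h2])
  · filter_upwards [hl] with k hk
    filter_upwards [hk] with x hx using hx.sub_const c

end Crest.Agent.R102.Blow362
end
end

-- ▼ part R102/BlowB_362
section

/-!
Row 102, T1-B (f) (helper362): constant blow-ups, part B.
Joint measurability of the vertical boundary values and Lebesgue points.
-/

set_option autoImplicit false

open Set Filter Topology Metric Complex MeasureTheory Interval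

noncomputable section

namespace Crest.Agent.R102.Blow362

/-- quantitative form of `halfplane_limit` -/
theorem halfplane_quant (M C : ℝ) (c τ : ℂ) (hτ : τ.im < -C) {ε : ℝ} (hε : 0 < ε) :
    ∃ R > 0, ∃ κ > 0, ∀ (f : ℂ → ℂ) (F : ℝ → ℂ) (H : ℝ), |H| ≤ C →
      DifferentiableOn ℂ f {z | -R < z.im ∧ z.im < H} →
      (∀ z : ℂ, -R < z.im → z.im < H → ‖f z‖ ≤ M) →
      (∀ᵐ x : ℝ, Tendsto (fun y : ℝ => f (x + y * I)) (𝓝[<] H) (𝓝 (F x))) →
      (∀ a b : ℝ, |a| ≤ R → |b| ≤ R → ‖∫ x in a..b, (F x - c)‖ ≤ κ) → ‖f τ - c‖ ≤ ε := by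
  by_contra hcon
  push Not at hcon
  have := fun n : ℕ => hcon ((n : ℝ) + 1) (by positivity) (1 / ((n : ℝ) + 1)) (by positivity)
  choose f F H hH hf hM hl hF hb using this
  set u : Ultrafilter ℕ := hyperfilter ℕ
  have hu : (u : Filter ℕ) ≤ atTop := by
    rw [← Nat.cofinite_eq_atTop]; exact hyperfilter_le_cofinite
  obtain ⟨h, hh, hHl⟩ : ∃ h, h ∈ Icc (-C) C ∧ Tendsto H u (𝓝 h) := by
    have hle : ((u.map H : Ultrafilter ℝ) : Filter ℝ) ≤ 𝓟 (Icc (-C) C) := by
      rw [le_principal_iff]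
      show H ⁻¹' Icc (-C) C ∈ (u : Filter ℕ)
      exact Filter.mem_of_superset univ_mem (fun k _ => abs_le.1 (hH k))
    obtain ⟨w, hw, hw'⟩ := isCompact_Icc.ultrafilter_le_nhds _ hle
    exact ⟨w, hw, hw'⟩
  have hA : Tendsto (fun n : ℕ => (n : ℝ) + 1) u atTop :=
    (tendsto_atTop_add_const_right _ _ tendsto_natCast_atTop_atTop).mono_left hu
  have hlim := halfplane_limit u (f := f) (F := F) (A := fun n => (n : ℝ) + 1) (H := H) (h := h)
    (M := M) (c := c) hA hHl (Eventually.of_forall hf) (Eventually.of_forall hM)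
    (Eventually.of_forall hl) ?_ (z := τ) (hτ.trans_le hh.1)
  · have h1 : Tendsto (fun n => ‖f n τ - c‖) u (𝓝 0) := by simpa using (hlim.sub_const c).norm
    obtain ⟨n, hn⟩ := (h1.eventually (gt_mem_nhds hε)).exists
    exact absurd hn (not_lt.2 (hb n).le)
  · intro a b
    rw [tendsto_zero_iff_norm_tendsto_zero]
    have h1 : Tendsto (fun n : ℕ => 1 / ((n : ℝ) + 1)) u (𝓝 0) :=
      tendsto_one_div_add_atTop_nhds_zero_nat.mono_left hu
    refine squeeze_zero' (Eventually.of_forall fun _ => norm_nonneg _) ?_ h1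
    filter_upwards [hA.eventually_ge_atTop |a|, hA.eventually_ge_atTop |b|] with n h1 h2
    exact hF n a b h1 h2

theorem ae_affine {p : ℝ → Prop} (h : ∀ᵐ x : ℝ, p x) (a : ℝ) {η : ℝ} (hη : η ≠ 0) :
    ∀ᵐ x : ℝ, p (a + η * x) := by
  have h1 : volume ((fun x => a + x) ⁻¹' {x | ¬ p x}) = 0 := by
    rw [measure_preimage_add]; exact h
  rw [ae_iff]
  have h2 : {x | ¬ p (a + η * x)} = (fun x => η * x) ⁻¹' ((fun x => a + x) ⁻¹' {x | ¬ p x}) := rfl
  rw [h2, Real.volume_preimage_mul_left hη, h1, mul_zero]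

theorem vol_affine (E : Set ℝ) (a : ℝ) {η : ℝ} (hη : 0 < η) :
    volume ((fun x => a + η * x) ⁻¹' E) = ENNReal.ofReal η⁻¹ * volume E := by
  have h2 : (fun x => a + η * x) ⁻¹' E = (fun x => η * x) ⁻¹' ((fun x => a + x) ⁻¹' E) := rfl
  rw [h2, Real.volume_preimage_mul_left hη.ne', measure_preimage_add, abs_of_pos (inv_pos.2 hη)]

theorem fatou_slice {f : ℂ → ℂ} {δ M v : ℝ} (hδ : 0 < δ)
    (hf : DifferentiableOn ℂ f {z | v - δ < z.im ∧ z.im < v})
    (hM : ∀ z : ℂ, v - δ < z.im → z.im < v → ‖f z‖ ≤ M) :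
    ∀ᵐ x : ℝ, ∃ l, Tendsto (fun y : ℝ => f (x + (v - y) * I)) (𝓝[>] 0) (𝓝 l) := by
  set V : Set ℂ := {z | 0 < z.im ∧ z.im < δ} with hV
  have hVo : IsOpen V := (isOpen_lt continuous_const Complex.continuous_im).inter
    (isOpen_lt Complex.continuous_im continuous_const)
  have him : ∀ z : ℂ, (-z + v * I).im = v - z.im := by
    intro z; simp; ring
  have hmaps : MapsTo (fun z : ℂ => -z + v * I) V {z | v - δ < z.im ∧ z.im < v} := by
    intro z hz
    simp only [mem_ofPred_eq]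
    rw [him]
    constructor <;> linarith [hz.1, hz.2]
  have hg : DifferentiableOn ℂ (fun z => f (-z + v * I)) V :=
    hf.comp (by fun_prop) hmaps
  have h1 := LP472.fatou_bounded hVo hg (M := M)
    (fun z hz => hM _ (hmaps hz).1 (hmaps hz).2) one_pos (E := univ)
    (fun x _ => ⟨δ, hδ, fun z hz => ⟨hz.1, hz.2.1⟩⟩)
  have h2 := ae_affine h1 0 (η := -1) (by norm_num)
  filter_upwards [h2] with x hx
  obtain ⟨l, hl⟩ := hx (mem_univ _)
  refine ⟨l, ?_⟩
  obtain ⟨h, hh, -, ht⟩ := hl 1 one_pos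
  have hx0 : (0 : ℝ) + -1 * x = -x := by ring
  rw [hx0] at ht
  have hT : Tendsto (fun y : ℝ => ((-x : ℝ) : ℂ) + y * I) (𝓝[>] 0)
      (𝓝[LP472.Cone 1 h (-x)] ((-x : ℝ) : ℂ)) := by
    rw [tendsto_nhdsWithin_iff]
    constructor
    · have : Continuous (fun y : ℝ => ((-x : ℝ) : ℂ) + y * I) := by fun_prop
      have h3 := (this.tendsto 0).mono_left (nhdsWithin_le_nhds (s := Ioi 0))
      simpa using h3
    · have : Ioo 0 h ∈ 𝓝[>] (0 : ℝ) := Ioo_mem_nhdsGT hh
      filter_upwards [this] with y hy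
      rw [LP472.mem_Cone]
      simp
      exact ⟨hy.1, hy.2, hy.1⟩
  have h3 := ht.comp hT
  refine h3.congr fun y => ?_
  simp only [Function.comp]
  congr 1
  push_cast
  ring

/-- limits along rational numbers -/
theorem tendsto_of_rat {φ : ℝ → ℂ} {δ : ℝ} (hδ : 0 < δ) (hφ : ContinuousOn φ (Ioo 0 δ)) {c : ℂ}
    (h : Tendsto (fun q : ℚ => φ q) (comap (fun q : ℚ => (q : ℝ)) (𝓝[>] 0)) (𝓝 c)) :
    Tendsto φ (𝓝[>] 0) (𝓝 c) := by
  rw [Metric.tendsto_nhds] at h ⊢
  intro ε hε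
  have h1 := h (ε / 2) (by positivity)
  rw [eventually_comap] at h1
  obtain ⟨η, hη, hsub⟩ := mem_nhdsGT_iff_exists_Ioo_subset.1 h1
  have hmem : Ioo 0 (min η δ) ∈ 𝓝[>] (0 : ℝ) := Ioo_mem_nhdsGT (lt_min hη hδ)
  filter_upwards [hmem] with y hy
  by_contra hcon
  have hgt : ε / 2 < dist (φ y) c := by
    have := not_lt.1 hcon
    linarith
  have hy2 : y ∈ Ioo 0 δ := ⟨hy.1, hy.2.trans_le (min_le_right _ _)⟩
  have hc : ContinuousAt φ y := hφ.continuousAt (Ioo_mem_nhds hy2.1 hy2.2)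
  have h2 : ∀ᶠ z in 𝓝 y, ε / 2 < dist (φ z) c ∧ z ∈ Ioo 0 (min η δ) :=
    ((hc.dist continuousAt_const).eventually (lt_mem_nhds hgt)).and (Ioo_mem_nhds hy.1 hy.2)
  obtain ⟨W, hW, hWo, hyW⟩ := _root_.mem_nhds_iff.1 h2
  obtain ⟨q, hq⟩ := (Rat.denseRange_cast (𝕜 := ℝ)).exists_mem_open hWo ⟨y, hyW⟩
  have h3 := hW hq
  have h4 := hsub ⟨h3.2.1, h3.2.2.trans_le (min_le_left _ _)⟩ q rfl
  exact absurd h4 (not_lt.2 h3.1.le)

/-- the vertical slices of `G` below the graph of `U` -/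
def Gv (G : ℂ × ℂ → ℂ) (D : Set (ℂ × ℂ)) (S : Set ℝ) (U : ℝ → ℝ) (y : ℝ) (p : ℝ × ℝ) : ℂ :=
  open Classical in
  if p.1 ∈ S then D.indicator G ((p.2 : ℂ) + ((U p.1 : ℂ) - y) * I, (p.1 : ℂ)) else 0

theorem meas_Gv {D : Set (ℂ × ℂ)} (hD : IsOpen D) {G : ℂ × ℂ → ℂ} (hG : ContinuousOn G D)
    {S : Set ℝ} (hS : MeasurableSet S) {U : ℝ → ℝ} (hU : Measurable U) (y : ℝ) :
    Measurable (Gv G D S U y) := by
  classical
  have h1 : Measurable (D.indicator G) := by
    rw [← Set.piecewise_eq_indicator]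
    exact ContinuousOn.measurable_piecewise hG continuousOn_const hD.measurableSet
  have h2 : Measurable (fun p : ℝ × ℝ => (((p.2 : ℂ) + ((U p.1 : ℂ) - y) * I, (p.1 : ℂ)) : ℂ × ℂ)) := by
    fun_prop
  unfold Gv
  refine Measurable.ite ?_ (h1.comp h2) measurable_const
  exact measurable_fst hS

theorem exists_joint {D : Set (ℂ × ℂ)} (hD : IsOpen D) {G : ℂ × ℂ → ℂ} {M : ℝ}
    (hG : DifferentiableOn ℂ G D) (hM : ∀ p ∈ D, ‖G p‖ ≤ M) {S : Set ℝ} (hS : MeasurableSet S)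
    {U : ℝ → ℝ} (hU : Measurable U) {δ : ℝ} (hδ : 0 < δ)
    (hsl : ∀ u ∈ S, ∀ t : ℂ, U u - δ < t.im → t.im < U u → (t, (u : ℂ)) ∈ D) :
    ∃ L : ℝ × ℝ → ℂ, Measurable L ∧ ∀ᵐ p : ℝ × ℝ, ‖L p‖ ≤ |M| ∧ (p.1 ∈ S →
      Tendsto (fun y : ℝ => G ((p.2 : ℂ) + ((U p.1 : ℂ) - y) * I, (p.1 : ℂ))) (𝓝[>] 0)
        (𝓝 (L p))) := by
  classical
  set l : Filter ℚ := comap (fun q : ℚ => (q : ℝ)) (𝓝[>] 0) with hl
  have : l.NeBot := by
    rw [hl, comap_neBot_iff]
    intro t ht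
    obtain ⟨ε, hε, hsub⟩ := mem_nhdsGT_iff_exists_Ioo_subset.1 ht
    obtain ⟨q, hq1, hq2⟩ := exists_rat_btwn (show (0 : ℝ) < ε from hε)
    exact ⟨q, hsub ⟨hq1, hq2⟩⟩
  have : l.IsCountablyGenerated := by rw [hl]; infer_instance
  have hpos : ∀ᶠ q : ℚ in l, (q : ℝ) ∈ Ioo 0 δ := by
    have : ∀ᶠ y : ℝ in 𝓝[>] 0, y ∈ Ioo 0 δ := Ioo_mem_nhdsGT hδ
    exact tendsto_comap.eventually this
  have hin : ∀ u ∈ S, ∀ x y : ℝ, y ∈ Ioo 0 δ →
      ((x : ℂ) + ((U u : ℂ) - y) * I, (u : ℂ)) ∈ D := by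
    intro u hu x y hy
    apply hsl u hu
    · simp; exact hy.2
    · simp; exact hy.1
  have hval : ∀ u ∈ S, ∀ x y : ℝ, y ∈ Ioo 0 δ →
      Gv G D S U y (u, x) = G ((x : ℂ) + ((U u : ℂ) - y) * I, (u : ℂ)) := by
    intro u hu x y hy
    simp only [Gv, if_pos hu]
    exact Set.indicator_of_mem (hin u hu x y hy) _
  have hm := fun q : ℚ => meas_Gv hD hG.continuousOn hS hU (q : ℝ)
  have hE : MeasurableSet {p : ℝ × ℝ | ∃ c, Tendsto (fun q : ℚ => Gv G D S U q p) l (𝓝 c)} :=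
    StronglyMeasurable.measurableSet_exists_tendsto (fun q => (hm q).stronglyMeasurable)
  have hae : ∀ᵐ p : ℝ × ℝ, ∃ c, Tendsto (fun q : ℚ => Gv G D S U q p) l (𝓝 c) := by
    rw [ae_iff, Measure.volume_eq_prod]
    refine (Measure.measure_prod_null hE.compl).2 (Eventually.of_forall fun u => ?_)
    by_cases hu : u ∈ S
    · have h1 := fatou_slice (f := fun t => G (t, (u : ℂ))) (δ := δ) (M := M) (v := U u) hδ ?_
        (fun z h1 h2 => hM _ (hsl u hu z h1 h2))
      · show volume _ = 0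
        refine measure_mono_null ?_ (ae_iff.1 h1)
        intro x hx hx2
        apply hx
        obtain ⟨c, hc⟩ := hx2
        refine ⟨c, ?_⟩
        have h2 := hc.comp (tendsto_comap (f := fun q : ℚ => (q : ℝ)) (x := 𝓝[>] (0 : ℝ)))
        refine h2.congr' ?_
        filter_upwards [hpos] with q hq
        exact (hval u hu x q hq).symm
      · refine hG.comp (by fun_prop) ?_
        intro z hz
        exact hsl u hu z hz.1 hz.2
    · show volume _ = 0
      have : (Prod.mk u ⁻¹' {p : ℝ × ℝ | ∃ c, Tendsto (fun q : ℚ => Gv G D S U q p) l (𝓝 c)}ᶜ)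
          = ∅ := by
        ext x
        simp only [mem_preimage, mem_compl_iff, mem_ofPred_eq, mem_empty_iff_false, iff_false,
          not_not]
        refine ⟨0, ?_⟩
        simp only [Gv, if_neg hu]
        exact tendsto_const_nhds
      rw [this, measure_empty]
  obtain ⟨L, hLm, hL⟩ := measurable_limit_of_tendsto_metrizable_ae
    (fun q => (hm q).aemeasurable) hae
  refine ⟨L, hLm, ?_⟩
  filter_upwards [hL] with p hp
  constructor
  · refine le_of_tendsto hp.norm (Eventually.of_forall fun q => ?_)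
    unfold Gv
    split_ifs with h
    · by_cases hd : ((p.2 : ℂ) + ((U p.1 : ℂ) - (q : ℝ)) * I, (p.1 : ℂ)) ∈ D
      · rw [Set.indicator_of_mem hd]
        exact (hM _ hd).trans (le_abs_self _)
      · rw [Set.indicator_of_notMem hd, norm_zero]
        positivity
    · rw [norm_zero]; positivity
  · intro hpS
    refine tendsto_of_rat hδ ?_ (hp.congr' ?_)
    · refine hG.continuousOn.comp (by fun_prop) ?_
      intro y hy
      exact hin _ hpS _ _ hy
    · filter_upwards [hpos] with q hq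
      exact hval _ hpS _ _ hq

/-- Lebesgue points of a bounded function on the plane -/
theorem lebesgue_pt {L : ℝ × ℝ → ℂ} (hL : Measurable L) {M : ℝ} (hb : ∀ᵐ p : ℝ × ℝ, ‖L p‖ ≤ M) :
    ∀ᵐ p : ℝ × ℝ, ∀ R > 0, ∀ κ > 0, ∀ᶠ η : ℝ in 𝓝[>] 0,
      ∫⁻ q in closedBall p (η * R), ‖L q - L p‖ₑ ≤ ENNReal.ofReal (κ * η ^ 2) := by
  have hli : LocallyIntegrable L := by
    rw [MeasureTheory.locallyIntegrable_iff]
    intro K hK
    exact Measure.integrableOn_of_bounded (M := M) hK.measure_lt_top.ne hL.aestronglyMeasurable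
      (ae_restrict_of_ae hb)
  have h := IsUnifLocDoublingMeasure.ae_tendsto_average_norm_sub (μ := (volume : Measure (ℝ × ℝ)))
    hli 1
  filter_upwards [h] with p hp R hR κ hκ
  have h1 : Tendsto (fun η : ℝ => η * R) (𝓝[>] 0) (𝓝[>] 0) := by
    rw [tendsto_nhdsWithin_iff]
    constructor
    · have : Continuous (fun η : ℝ => η * R) := by fun_prop
      have h3 := (this.tendsto 0).mono_left (nhdsWithin_le_nhds (s := Ioi 0))
      simpa using h3
    · filter_upwards [self_mem_nhdsWithin] with η hη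
      exact mul_pos hη hR
  have h2 := hp (fun _ => p) (fun η : ℝ => η * R) h1 (by
    filter_upwards [self_mem_nhdsWithin] with η hη
    exact mem_closedBall_self (by have := mul_pos (show (0 : ℝ) < η from hη) hR; linarith))
  have hκ' : 0 < κ / (4 * R ^ 2) := by positivity
  filter_upwards [h2.eventually (gt_mem_nhds hκ'), self_mem_nhdsWithin] with η hη hη0
  have hη0' : (0 : ℝ) < η := hη0
  have hvol : volume.real (closedBall p (η * R)) = (2 * (η * R)) ^ 2 := by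
    rw [← Prod.mk.eta (p := p), ← closedBall_prod_same, Measure.volume_eq_prod,
      measureReal_def, Measure.prod_prod, Real.volume_closedBall, Real.volume_closedBall,
      ENNReal.toReal_mul, ENNReal.toReal_ofReal (by positivity)]
    ring
  rw [setAverage_eq, hvol, smul_eq_mul] at hη
  have hint : Integrable (fun q => L q - L p) (volume.restrict (closedBall p (η * R))) := by
    refine Integrable.sub ?_ ?_
    · exact hli.integrableOn_isCompact (isCompact_closedBall _ _)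
    · exact integrableOn_const (hs := (isCompact_closedBall p (η * R)).measure_lt_top.ne)
  rw [← ofReal_integral_norm_eq_lintegral_enorm hint]
  apply ENNReal.ofReal_le_ofReal
  rw [inv_mul_lt_iff₀ (by positivity)] at hη
  refine hη.le.trans (le_of_eq ?_)
  field_simp
  norm_num

/-- few bad horizontal lines near a Lebesgue point -/
theorem few_bad {L : ℝ × ℝ → ℂ} (hL : Measurable L) {u0 x0 : ℝ} {c : ℂ}
    (hleb : ∀ R > 0, ∀ κ > 0, ∀ᶠ η : ℝ in 𝓝[>] 0,
      ∫⁻ q in closedBall (u0, x0) (η * R), ‖L q - c‖ₑ ≤ ENNReal.ofReal (κ * η ^ 2))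
    {R κ s : ℝ} (hR : 0 < R) (hκ : 0 < κ) (hs : 0 < s) : ∀ᶠ η : ℝ in 𝓝[>] 0,
      volume ({u | ENNReal.ofReal (κ * η) ≤
        ∫⁻ x in closedBall x0 (η * R), ‖L (u, x) - c‖ₑ} ∩ closedBall u0 (η * R)) ≤
        ENNReal.ofReal (s / 2 * η) := by
  filter_upwards [hleb R hR (κ * (s / 2)) (by positivity), self_mem_nhdsWithin] with η hη hη0
  have hη0' : (0 : ℝ) < η := hη0
  have hme : Measurable (fun q : ℝ × ℝ => ‖L q - c‖ₑ) := by fun_prop
  have hΦ : Measurable (fun u : ℝ => ∫⁻ x in closedBall x0 (η * R), ‖L (u, x) - c‖ₑ) :=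
    hme.lintegral_prod_right'
  rw [← closedBall_prod_same, Measure.volume_eq_prod, ← Measure.prod_restrict,
    lintegral_prod _ hme.aemeasurable] at hη
  have hne : ENNReal.ofReal (κ * η) ≠ 0 := by
    rw [Ne, ENNReal.ofReal_eq_zero, not_le]; positivity
  have h1 := meas_ge_le_lintegral_div (μ := volume.restrict (closedBall u0 (η * R)))
    hΦ.aemeasurable hne ENNReal.ofReal_ne_top
  rw [Measure.restrict_apply (measurableSet_le measurable_const hΦ)] at h1
  refine h1.trans ?_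
  refine (ENNReal.div_le_div_right hη _).trans ?_
  rw [← ENNReal.ofReal_div_of_pos (by positivity)]
  apply ENNReal.ofReal_le_ofReal
  rw [div_le_iff₀ (by positivity)]
  nlinarith

end Crest.Agent.R102.Blow362
end
end

-- ▼ part R102/BlowC_362
section

/-!
Row 102, T1-B (f) (helper362): constant blow-ups, part C: the bounded case.
-/

set_option autoImplicit false

open Set Filter Topology Metric Complex MeasureTheory Interval

noncomputable section

namespace Crest.Agent.R102.Blow362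

/-- on most real lines `ζ` the blow-up is almost constant -/
theorem most_lines {D : Set (ℂ × ℂ)} {G : ℂ × ℂ → ℂ} {M : ℝ}
    (hG : DifferentiableOn ℂ G D) (hM : ∀ p ∈ D, ‖G p‖ ≤ M) {S : Set ℝ}
    {U : ℝ → ℝ} {δ : ℝ} (hδ : 0 < δ)
    (hsl : ∀ u ∈ S, ∀ t : ℂ, U u - δ < t.im → t.im < U u → (t, (u : ℂ)) ∈ D)
    {L : ℝ × ℝ → ℂ} (hL : Measurable L) {N : Set ℝ} (hN : volume N = 0)
    (hgood : ∀ u ∈ S, u ∉ N → ∀ᵐ x : ℝ,
      Tendsto (fun y : ℝ => G ((x : ℂ) + ((U u : ℂ) - y) * I, (u : ℂ))) (𝓝[>] 0) (𝓝 (L (u, x))))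
    {u0 x0 : ℝ} {c : ℂ}
    (hleb : ∀ R > 0, ∀ κ > 0, ∀ᶠ η : ℝ in 𝓝[>] 0,
      ∫⁻ q in closedBall (u0, x0) (η * R), ‖L q - c‖ₑ ≤ ENNReal.ofReal (κ * η ^ 2))
    {C s : ℝ} (hs : 0 < s)
    (hC : ∀ᶠ r : ℝ in 𝓝[>] 0, (∀ u ∈ S, |u - u0| ≤ r → U u0 - C * r ≤ U u) ∧
      ENNReal.ofReal (3 / 2 * r) ≤ volume {u ∈ S | |u - u0| ≤ r ∧ U u ≤ U u0 + C * r})
    {τ : ℂ} (hτ : τ.im < -(C * s)) {ε : ℝ} (hε : 0 < ε) :
    ∀ᶠ η : ℝ in 𝓝[>] 0, ∃ Z ⊆ Icc (-s) s, ENNReal.ofReal s ≤ volume Z ∧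
      ∀ ζ ∈ Z, ‖G ((x0 : ℂ) + U u0 * I + η * τ, (u0 : ℂ) + η * (ζ : ℂ)) - c‖ ≤ ε := by
  obtain ⟨R, hR, κ, hκ, hq⟩ := halfplane_quant M (C * s) c τ hτ hε
  set R' : ℝ := max R s with hR'
  have hR'0 : 0 < R' := lt_max_of_lt_left hR
  have hηs : Tendsto (fun η : ℝ => η * s) (𝓝[>] 0) (𝓝[>] 0) := by
    rw [tendsto_nhdsWithin_iff]
    constructor
    · have : Continuous (fun η : ℝ => η * s) := by fun_prop
      have h3 := (this.tendsto 0).mono_left (nhdsWithin_le_nhds (s := Ioi 0))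
      simpa using h3
    · filter_upwards [self_mem_nhdsWithin] with η hη
      exact mul_pos hη hs
  have hsmall : ∀ᶠ η : ℝ in 𝓝[>] 0, η * (C * s + R) < δ := by
    have : Continuous (fun η : ℝ => η * (C * s + R)) := by fun_prop
    have h3 := (this.tendsto 0).mono_left (nhdsWithin_le_nhds (s := Ioi 0))
    simp only [zero_mul] at h3
    exact h3.eventually (gt_mem_nhds hδ)
  filter_upwards [few_bad hL hleb hR'0 hκ hs, hηs.eventually hC, hsmall, self_mem_nhdsWithin]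
    with η hbad hCη hδη hη0
  have hη : (0 : ℝ) < η := hη0
  set Bad : Set ℝ := {u | ENNReal.ofReal (κ * η) ≤
        ∫⁻ x in closedBall x0 (η * R'), ‖L (u, x) - c‖ₑ} ∩ closedBall u0 (η * R') with hBad
  set A : Set ℝ := {u ∈ S | |u - u0| ≤ η * s ∧ U u ≤ U u0 + C * (η * s)} with hA
  have hvolA : ENNReal.ofReal (η * s) ≤ volume (A \ (N ∪ Bad)) := by
    refine le_trans ?_ (le_measure_sdiff)
    have h1 : volume (N ∪ Bad) ≤ ENNReal.ofReal (s / 2 * η) := by
      refine (measure_union_le _ _).trans ?_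
      rw [hN, zero_add]
      exact hbad
    calc ENNReal.ofReal (η * s) = ENNReal.ofReal (3 / 2 * (η * s) - s / 2 * η) := by
          congr 1; ring
      _ = ENNReal.ofReal (3 / 2 * (η * s)) - ENNReal.ofReal (s / 2 * η) :=
          ENNReal.ofReal_sub _ (by positivity)
      _ ≤ volume A - volume (N ∪ Bad) := tsub_le_tsub hCη.2 h1
  refine ⟨(fun ζ : ℝ => u0 + η * ζ) ⁻¹' (A \ (N ∪ Bad)), ?_, ?_, ?_⟩
  · intro ζ hζ
    have h1 : |u0 + η * ζ - u0| ≤ η * s := hζ.1.2.1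
    rw [add_sub_cancel_left, abs_mul, abs_of_pos hη] at h1
    exact abs_le.1 (le_of_mul_le_mul_left h1 hη)
  · rw [vol_affine _ _ hη]
    calc ENNReal.ofReal s = ENNReal.ofReal η⁻¹ * ENNReal.ofReal (η * s) := by
          rw [← ENNReal.ofReal_mul (by positivity)]
          congr 1; field_simp
      _ ≤ _ := by gcongr
  · intro ζ hζ
    set u : ℝ := u0 + η * ζ with hu
    have huA : u ∈ A := hζ.1
    have huS : u ∈ S := huA.1
    have hulo : U u0 - C * (η * s) ≤ U u := hCη.1 u huS huA.2.1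
    have huhi : U u ≤ U u0 + C * (η * s) := huA.2.2
    have huN : u ∉ N := fun h => hζ.2 (Or.inl h)
    have huB : ∫⁻ x in closedBall x0 (η * R'), ‖L (u, x) - c‖ₑ < ENNReal.ofReal (κ * η) := by
      by_contra hcon
      refine hζ.2 (Or.inr ⟨not_lt.1 hcon, ?_⟩)
      rw [mem_closedBall, Real.dist_eq]
      refine huA.2.1.trans ?_
      gcongr
      exact le_max_right _ _
    set H : ℝ := (U u - U u0) / η with hH
    have hHη : U u = U u0 + η * H := by rw [hH]; field_simp; ring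
    have hHle : |H| ≤ C * s := by
      rw [abs_le]
      constructor
      · rw [hH, le_div_iff₀ hη]; nlinarith
      · rw [hH, div_le_iff₀ hη]; nlinarith
    have hucast : (u0 : ℂ) + η * (ζ : ℂ) = (u : ℂ) := by rw [hu]; push_cast; ring
    rw [hucast]
    have him : ∀ z : ℂ, ((x0 : ℂ) + U u0 * I + η * z).im = U u0 + η * z.im := by
      intro z; simp
    have hmaps : ∀ z : ℂ, -R < z.im → z.im < H →
        ((x0 : ℂ) + U u0 * I + η * z, (u : ℂ)) ∈ D := by
      intro z h1 h2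
      apply hsl u huS
      · rw [him]
        have h3 : η * -R < η * z.im := by gcongr
        have h4 : η * H ≤ η * (C * s) := by
          gcongr; exact (abs_le.1 hHle).2
        nlinarith
      · rw [him, hHη]
        gcongr
    refine hq (fun z => G ((x0 : ℂ) + U u0 * I + η * z, (u : ℂ))) (fun x => L (u, x0 + η * x)) H
      hHle ?_ ?_ ?_ ?_
    · refine hG.comp (by fun_prop) ?_
      intro z hz
      exact hmaps z hz.1 hz.2
    · intro z h1 h2
      exact hM _ (hmaps z h1 h2)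
    · have h1 := ae_affine (hgood u huS huN) x0 hη.ne'
      filter_upwards [h1] with x hx
      have h2 : Tendsto (fun y : ℝ => η * (H - y)) (𝓝[<] H) (𝓝[>] 0) := by
        rw [tendsto_nhdsWithin_iff]
        constructor
        · have : Continuous (fun y : ℝ => η * (H - y)) := by fun_prop
          have h3 := (this.tendsto H).mono_left (nhdsWithin_le_nhds (s := Iio H))
          simpa using h3
        · filter_upwards [self_mem_nhdsWithin] with y hy
          exact mul_pos hη (sub_pos.2 hy)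
      have h3 := hx.comp h2
      refine h3.congr fun y => ?_
      simp only [Function.comp]
      congr 2
      rw [hHη]
      push_cast
      ring
    · intro a b ha hb
      rw [intervalIntegral.integral_comp_add_mul (fun x => L (u, x) - c) hη.ne' x0, norm_smul,
        Real.norm_eq_abs, abs_of_pos (inv_pos.2 hη), inv_mul_le_iff₀ hη]
      rw [intervalIntegral.norm_intervalIntegral_eq]
      have hsub : Ι (x0 + η * a) (x0 + η * b) ⊆ closedBall x0 (η * R') := by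
        refine uIoc_subset_uIcc.trans ?_
        rw [Real.closedBall_eq_Icc]
        have hRR : R ≤ R' := le_max_left _ _
        have ha' := abs_le.1 (ha.trans hRR)
        have hb' := abs_le.1 (hb.trans hRR)
        apply uIcc_subset_Icc
        · constructor <;> nlinarith [ha'.1, ha'.2]
        · constructor <;> nlinarith [hb'.1, hb'.2]
      have h1 : ‖∫ x in Ι (x0 + η * a) (x0 + η * b), (L (u, x) - c)‖ₑ ≤
          ENNReal.ofReal (κ * η) :=
        (enorm_integral_le_lintegral_enorm _).trans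
          ((lintegral_mono_set hsub).trans huB.le)
      rw [← ofReal_norm, ENNReal.ofReal_le_ofReal_iff (by positivity)] at h1
      rw [mul_comm η κ]
      exact h1

/-- the blow-up is asymptotically constant near `(τ, 0)` -/
theorem near_real {D : Set (ℂ × ℂ)} {G : ℂ × ℂ → ℂ} {M : ℝ}
    (hG : DifferentiableOn ℂ G D) (hM : ∀ p ∈ D, ‖G p‖ ≤ M) {X : ℂ} {u0 : ℝ} {c : ℂ} {s ρ : ℝ}
    (hs : 0 < s) (hρ : 0 < ρ) (hsρ : s ≤ ρ / 96) {τ : ℂ}
    (hdom : ∀ᶠ η : ℝ in 𝓝[>] 0, ∀ ζ ∈ ball (0 : ℂ) ρ, (X + η * τ, (u0 : ℂ) + η * ζ) ∈ D)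
    (hml : ∀ ε > 0, ∀ᶠ η : ℝ in 𝓝[>] 0, ∃ Z ⊆ Icc (-s) s, ENNReal.ofReal s ≤ volume Z ∧
      ∀ ζ ∈ Z, ‖G (X + η * τ, (u0 : ℂ) + η * (ζ : ℂ)) - c‖ ≤ ε) {ζ : ℂ} (hζ : ‖ζ‖ ≤ s) :
    Tendsto (fun η : ℝ => G (X + η * τ, (u0 : ℂ) + η * ζ)) (𝓝[>] 0) (𝓝 c) := by
  have hM0 : 0 ≤ M := by
    obtain ⟨η, hη⟩ := hdom.exists
    exact (norm_nonneg _).trans (hM _ (hη 0 (mem_ball_self hρ)))
  rw [Metric.tendsto_nhds]
  intro ε hε
  set K : ℝ := M + ‖c‖ with hK
  have hK0 : 0 ≤ K := by positivity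
  obtain ⟨d, hd⟩ : ∃ d : ℕ, 3 * 24 ^ d * (4 * K * (1 / 48) ^ (d + 1)) < ε / 2 := by
    have h1 : Tendsto (fun d : ℕ => (3 * (4 * K) / 48) * ((1 : ℝ) / 2) ^ d) atTop
        (𝓝 ((3 * (4 * K) / 48) * 0)) :=
      (tendsto_pow_atTop_nhds_zero_of_lt_one (by norm_num) (by norm_num)).const_mul _
    rw [mul_zero] at h1
    obtain ⟨d, hd⟩ := (h1.eventually (gt_mem_nhds (half_pos hε))).exists
    refine ⟨d, lt_of_eq_of_lt ?_ hd⟩
    have : ((1 : ℝ) / 2) ^ d = 24 ^ d * (1 / 48) ^ d := by rw [← mul_pow]; norm_num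
    rw [this]
    ring
  set ε' : ℝ := ε / (4 * (3 * 24 ^ d)) with hε'
  have hε'0 : 0 < ε' := by positivity
  filter_upwards [hml ε' hε'0, hdom] with η ⟨Z, hZ, hvol, hZb⟩ hD
  have h1 := M948.small_propagation (b := fun ζ => G (X + η * τ, (u0 : ℂ) + η * ζ) - c)
    (c := 0) (ρ := ρ) (M := K) hρ ?_ ?_ hs (by linarith) (E := Z) (by simpa using hZ) hvol
    (m := ε') hZb d (z := ζ) (by simpa using hζ)
  · rw [dist_eq_norm]
    refine h1.trans_lt ?_
    have h2 : (2 * s / ρ) ^ (d + 1) ≤ (1 / 48) ^ (d + 1) := by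
      refine pow_le_pow_left₀ (by positivity) ?_ _
      rw [div_le_iff₀ hρ]; linarith
    have h3 : 3 * 24 ^ d * (4 * K * (2 * s / ρ) ^ (d + 1)) ≤
        3 * 24 ^ d * (4 * K * (1 / 48) ^ (d + 1)) := by gcongr
    have h4 : 3 * 24 ^ d * ε' = ε / 4 := by rw [hε']; field_simp
    rw [mul_add, h4]
    linarith
  · refine (hG.comp (by fun_prop) ?_).sub_const c
    intro z hz
    exact hD z (by simpa using hz)
  · intro z hz
    refine (norm_sub_le _ _).trans ?_
    have := hM _ (hD z (by simpa using hz))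
    linarith

/-- **constant blow-ups, bounded case, at a point** -/
theorem blow_point {D : Set (ℂ × ℂ)} {G : ℂ × ℂ → ℂ} {M : ℝ}
    (hG : DifferentiableOn ℂ G D) (hM : ∀ p ∈ D, ‖G p‖ ≤ M) {S : Set ℝ}
    {U : ℝ → ℝ} {δ : ℝ} (hδ : 0 < δ)
    (hsl : ∀ u ∈ S, ∀ t : ℂ, U u - δ < t.im → t.im < U u → (t, (u : ℂ)) ∈ D)
    {L : ℝ × ℝ → ℂ} (hL : Measurable L) {N : Set ℝ} (hN : volume N = 0)
    (hgood : ∀ u ∈ S, u ∉ N → ∀ᵐ x : ℝ,
      Tendsto (fun y : ℝ => G ((x : ℂ) + ((U u : ℂ) - y) * I, (u : ℂ))) (𝓝[>] 0) (𝓝 (L (u, x))))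
    {u0 x0 : ℝ} {c : ℂ}
    (hleb : ∀ R > 0, ∀ κ > 0, ∀ᶠ η : ℝ in 𝓝[>] 0,
      ∫⁻ q in closedBall (u0, x0) (η * R), ‖L q - c‖ₑ ≤ ENNReal.ofReal (κ * η ^ 2))
    {C : ℝ} (hC : ∀ᶠ r : ℝ in 𝓝[>] 0, (∀ u ∈ S, |u - u0| ≤ r → U u0 - C * r ≤ U u) ∧
      ENNReal.ofReal (3 / 2 * r) ≤ volume {u ∈ S | |u - u0| ≤ r ∧ U u ≤ U u0 + C * r})
    {Ω : Set (ℂ × ℂ)} (hΩ : IsOpen Ω) (hΩc : IsPreconnected Ω) {τ0 : ℂ} (hτ0 : τ0.im < 0)
    (hmem : (τ0, (0 : ℂ)) ∈ Ω)
    (hexh : ∀ K ⊆ Ω, IsCompact K → ∀ᶠ η : ℝ in 𝓝[>] 0, ∀ p ∈ K,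
      ((x0 : ℂ) + U u0 * I + η * p.1, (u0 : ℂ) + η * p.2) ∈ D) :
    TendstoLocallyUniformlyOn
      (fun (η : ℝ) (p : ℂ × ℂ) => G ((x0 : ℂ) + U u0 * I + η * p.1, (u0 : ℂ) + η * p.2))
      (fun _ => c) (𝓝[>] 0) Ω := by
  obtain ⟨r, hr, hrΩ⟩ := Metric.isOpen_iff.1 hΩ _ hmem
  set v : ℝ := -τ0.im with hv
  have hv0 : 0 < v := by rw [hv]; linarith
  set ρ : ℝ := min (r / 2) (v / 2) with hρ
  have hρ0 : 0 < ρ := lt_min (by positivity) (by positivity)
  set s : ℝ := min (ρ / 96) (v / (4 * (|C| + 1))) with hs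
  have hs0 : 0 < s := lt_min (by positivity) (by positivity)
  have hCs : C * s < v / 2 := by
    have h1 : s ≤ v / (4 * (|C| + 1)) := min_le_right _ _
    have h2 : C * s ≤ (|C| + 1) * s := by
      gcongr; linarith [le_abs_self C]
    have h3 : (|C| + 1) * s ≤ (|C| + 1) * (v / (4 * (|C| + 1))) := by gcongr
    have h4 : (|C| + 1) * (v / (4 * (|C| + 1))) = v / 4 := by
      have : |C| + 1 ≠ 0 := by positivity
      field_simp
    linarith
  have hcb : closedBall (τ0, (0 : ℂ)) ρ ⊆ Ω :=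
    (closedBall_subset_ball (by have := min_le_left (r / 2) (v / 2); linarith)).trans hrΩ
  -- pointwise convergence near (τ0, 0)
  have hpt : ∀ τ ∈ ball τ0 ρ, ∀ ζ ∈ ball (0 : ℂ) s,
      Tendsto (fun η : ℝ => G ((x0 : ℂ) + U u0 * I + η * τ, (u0 : ℂ) + η * ζ)) (𝓝[>] 0) (𝓝 c) := by
    intro τ hτ ζ hζ
    refine near_real hG hM hs0 hρ0 (min_le_left _ _) ?_ (fun ε hε => ?_)
      (by simpa using (mem_ball.1 hζ).le)
    · filter_upwards [hexh _ hcb (isCompact_closedBall _ _)] with η hη ζ hζ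
      exact hη (τ, ζ) (by
        rw [← closedBall_prod_same]
        exact ⟨ball_subset_closedBall hτ, ball_subset_closedBall hζ⟩)
    · refine most_lines hG hM hδ hsl hL hN hgood hleb hs0 hC ?_ hε
      rw [mem_ball, dist_eq_norm] at hτ
      have h1 := (Complex.abs_im_le_norm (τ - τ0)).trans_lt hτ
      rw [Complex.sub_im, abs_lt] at h1
      have h2 : ρ ≤ v / 2 := min_le_right _ _
      linarith [h1.2]
  have hfin : FiniteDimensional ℂ (ℂ × ℂ) := inferInstance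
  refine M948.tlu_of_ultra hΩ fun 𝒰 h𝒰 => ?_
  have hloc : ∀ z ∈ Ω, ∃ r > 0, ∀ᶠ η : ℝ in (𝒰 : Filter ℝ),
      DifferentiableOn ℂ (fun p : ℂ × ℂ => G ((x0 : ℂ) + U u0 * I + η * p.1,
        (u0 : ℂ) + η * p.2)) (ball z r) ∧ ∀ w ∈ ball z r,
        ‖G ((x0 : ℂ) + U u0 * I + η * w.1, (u0 : ℂ) + η * w.2)‖ ≤ M := by
    intro z hz
    obtain ⟨r', hr', hr'Ω⟩ := Metric.isOpen_iff.1 hΩ z hz
    refine ⟨r' / 2, by positivity, ?_⟩
    have h1 := h𝒰 (hexh (closedBall z (r' / 2))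
      ((closedBall_subset_ball (by linarith)).trans hr'Ω) (isCompact_closedBall _ _))
    filter_upwards [h1] with η hη
    refine ⟨hG.comp (by fun_prop) ?_, fun w hw => hM _ (hη w (ball_subset_closedBall hw))⟩
    intro w hw
    exact hη w (ball_subset_closedBall hw)
  obtain ⟨g, hg, hgu⟩ := montel_exh 𝒰 hΩ hloc
  have heq : EqOn g (fun _ => c) Ω := by
    have han : AnalyticOnNhd ℂ g Ω := by
      have h1 : TendstoLocallyUniformlyOn (fun _ : ℝ => g) g 𝒰 Ω := fun v hv x hx =>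
        ⟨univ, univ_mem, Eventually.of_forall fun _ y _ => refl_mem_uniformity hv⟩
      exact R266.SCV.analyticOnNhd_of_tendstoLocallyUniformlyOn hΩ h1
        (Eventually.of_forall fun _ => hg)
    refine han.eqOn_of_preconnected_of_eventuallyEq analyticOnNhd_const hΩc hmem ?_
    have hnb : ball τ0 ρ ×ˢ ball (0 : ℂ) s ∈ 𝓝 (τ0, (0 : ℂ)) :=
      prod_mem_nhds (ball_mem_nhds _ hρ0) (ball_mem_nhds _ hs0)
    filter_upwards [hnb, hΩ.mem_nhds hmem] with p hp hpΩ
    exact tendsto_nhds_unique (hgu.tendsto_at hpΩ) ((hpt p.1 hp.1 p.2 hp.2).mono_left h𝒰)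
  exact hgu.congr_right heq

end Crest.Agent.R102.Blow362
end
end

-- ▼ part R102/Blow_362

/-!
Row 102, T1-B (f) (helper362): **constant blow-ups**.  Final statements `blow_bdd` (bounded `G`)
and `blow_im` (`|Im B| ≤ h`).
-/

set_option autoImplicit false

open Set Filter Topology Metric Complex MeasureTheory Interval

noncomputable section

namespace Crest.Agent.R102.Blow362

theorem norm_le_of_exp_near {z : ℂ} (hz : ‖z‖ ≤ 3) (h : ‖exp z - 1‖ ≤ 1 / 2) :
    ‖z‖ ≤ 3 / 2 * ‖exp z - 1‖ := by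
  have h1 := (Complex.abs_im_le_norm z).trans hz
  have h2 := Real.pi_gt_three
  have h3 : log (exp z) = z := Complex.log_exp (by linarith [(abs_le.1 h1).1])
    (by linarith [(abs_le.1 h1).2])
  have h4 := Complex.norm_log_one_add_half_le_self (z := exp z - 1) h
  rw [add_sub_cancel, h3] at h4
  exact h4

/-- a continuous logarithm of a function close to `1` stays close to `0` -/
theorem log_stay {X : Type*} [TopologicalSpace X] {s : Set X} (hs : IsPreconnected s) {w : X → ℂ}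
    (hw : ContinuousOn w s) (h1 : ∀ x ∈ s, ‖exp (w x) - 1‖ ≤ 1 / 2) {x0 : X} (hx0 : x0 ∈ s)
    (h0 : ‖w x0‖ ≤ 1) : ∀ x ∈ s, ‖w x‖ ≤ 3 / 2 * ‖exp (w x) - 1‖ := by
  intro x hx
  by_cases h3 : ‖w x‖ ≤ 3
  · exact norm_le_of_exp_near h3 (h1 x hx)
  · exfalso
    have h4 := hs.intermediate_value hx0 hx hw.norm (show (2 : ℝ) ∈ Icc ‖w x0‖ ‖w x‖ from
      ⟨by linarith, by linarith [not_le.1 h3]⟩)
    obtain ⟨y, hy, hy2⟩ := h4
    have hy2' : ‖w y‖ = 2 := hy2
    have h5 := norm_le_of_exp_near (by rw [hy2']; norm_num) (h1 y hy)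
    have h6 := h1 y hy
    rw [hy2'] at h5
    linarith

/-- lifting of limits through `exp` -/
theorem lift_limit {φ : ℝ → ℂ} {δ : ℝ} (hδ : 0 < δ) (hφ : ContinuousOn φ (Ioo 0 δ)) {c : ℂ}
    (hc : c ≠ 0) (h : Tendsto (fun y => exp (I * φ y)) (𝓝[>] 0) (𝓝 c)) :
    ∃ b, exp (I * b) = c ∧ Tendsto φ (𝓝[>] 0) (𝓝 b) := by
  set a : ℂ := log c with ha
  have hexp : exp a = c := Complex.exp_log hc
  -- `exp (I φ - a) → 1`
  have h1 : Tendsto (fun y => exp (I * φ y - a)) (𝓝[>] 0) (𝓝 1) := by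
    have := h.div_const c
    rw [div_self hc] at this
    refine this.congr fun y => ?_
    rw [Complex.exp_sub, hexp]
  have h2 : ∀ᶠ y in 𝓝[>] (0 : ℝ), ‖exp (I * φ y - a) - 1‖ ≤ 1 / 2 := by
    have h3 : Tendsto (fun y => ‖exp (I * φ y - a) - 1‖) (𝓝[>] 0) (𝓝 0) := by
      simpa using (h1.sub_const 1).norm
    filter_upwards [h3.eventually (gt_mem_nhds (show (0 : ℝ) < 1 / 2 by norm_num))] with y hy
      using hy.le
  obtain ⟨η, hη, hsub⟩ := mem_nhdsGT_iff_exists_Ioo_subset.1 h2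
  have hη0 : (0 : ℝ) < η := hη
  set m : ℝ := min η δ with hm
  have hm0 : 0 < m := lt_min hη0 hδ
  have hy1 : m / 2 ∈ Ioo 0 m := ⟨by positivity, by linarith⟩
  have hsub' : Ioo 0 m ⊆ Ioo 0 η := Ioo_subset_Ioo_right (min_le_left _ _)
  have hsubδ : Ioo 0 m ⊆ Ioo 0 δ := Ioo_subset_Ioo_right (min_le_right _ _)
  obtain ⟨k, hk⟩ : ∃ k : ℤ, I * φ (m / 2) - a =
      log (exp (I * φ (m / 2) - a)) + k * (2 * Real.pi * I) := by
    apply Complex.exp_eq_exp_iff_exists_int.1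
    rw [Complex.exp_log (Complex.exp_ne_zero _)]
  set w : ℝ → ℂ := fun y => I * φ y - a - k * (2 * Real.pi * I) with hw
  have hwe : ∀ y, exp (w y) = exp (I * φ y - a) := by
    intro y
    simp only [hw]
    rw [Complex.exp_sub, Complex.exp_int_mul_two_pi_mul_I, div_one]
  have hwc : ContinuousOn w (Ioo 0 m) := by
    have : ContinuousOn φ (Ioo 0 m) := hφ.mono hsubδ
    fun_prop
  have hw1 : ∀ y ∈ Ioo 0 m, ‖exp (w y) - 1‖ ≤ 1 / 2 := by
    intro y hy
    rw [hwe]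
    exact hsub (hsub' hy)
  have hw0 : ‖w (m / 2)‖ ≤ 1 := by
    have h3 : w (m / 2) = log (exp (I * φ (m / 2) - a)) := by
      simp only [hw]
      linear_combination hk
    have h4 := hw1 _ hy1
    rw [hwe] at h4
    have h5 := Complex.norm_log_one_add_half_le_self h4
    rw [add_sub_cancel] at h5
    rw [h3]
    linarith
  have hst := log_stay isPreconnected_Ioo hwc hw1 hy1 hw0
  have hlim : Tendsto w (𝓝[>] 0) (𝓝 0) := by
    rw [tendsto_zero_iff_norm_tendsto_zero]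
    have h3 : Tendsto (fun y => 3 / 2 * ‖exp (I * φ y - a) - 1‖) (𝓝[>] 0) (𝓝 0) := by
      simpa using ((h1.sub_const 1).norm).const_mul (3 / 2)
    refine squeeze_zero' (Eventually.of_forall fun _ => norm_nonneg _) ?_ h3
    filter_upwards [Ioo_mem_nhdsGT hm0] with y hy
    rw [← hwe]
    exact hst y hy
  refine ⟨-I * (a + k * (2 * Real.pi * I)), ?_, ?_⟩
  · have : I * (-I * (a + k * (2 * Real.pi * I))) = a + k * (2 * Real.pi * I) := by
      rw [← mul_assoc, mul_neg, Complex.I_mul_I, neg_neg, one_mul]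
    rw [this, Complex.exp_add, Complex.exp_int_mul_two_pi_mul_I, mul_one, hexp]
  · have h3 := (hlim.add_const (a + k * (2 * Real.pi * I))).const_mul (-I)
    rw [zero_add] at h3
    refine h3.congr fun y => ?_
    simp only [hw]
    linear_combination (-φ y) * Complex.I_sq

/-- in the slice of the base point the blow-up is constant -/
theorem slice_unif {D : Set (ℂ × ℂ)} {G : ℂ × ℂ → ℂ} {M : ℝ}
    (hG : DifferentiableOn ℂ G D) (hM : ∀ p ∈ D, ‖G p‖ ≤ M) {u0 v0 x0 δ : ℝ} (hδ : 0 < δ)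
    (hsl : ∀ t : ℂ, v0 - δ < t.im → t.im < v0 → (t, (u0 : ℂ)) ∈ D) {c : ℂ}
    (hlim : Tendsto (fun y : ℝ => G ((x0 : ℂ) + ((v0 : ℂ) - y) * I, (u0 : ℂ))) (𝓝[>] 0) (𝓝 c)) :
    TendstoLocallyUniformlyOn
      (fun (η : ℝ) (τ : ℂ) => G ((x0 : ℂ) + v0 * I + η * τ, (u0 : ℂ)))
      (fun _ => c) (𝓝[>] 0) {τ | τ.im < 0} := by
  have hΩ : IsOpen {τ : ℂ | τ.im < 0} := isOpen_lt Complex.continuous_im continuous_const
  have hΩc : IsPreconnected {τ : ℂ | τ.im < 0} := (convex_halfSpace_im_lt 0).isPreconnected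
  have him : ∀ (η : ℝ) (z : ℂ), ((x0 : ℂ) + v0 * I + η * z).im = v0 + η * z.im := by
    intro η z; simp
  refine M948.tlu_of_ultra hΩ fun 𝒰 h𝒰 => ?_
  have hloc : ∀ z ∈ {τ : ℂ | τ.im < 0}, ∃ r > 0, ∀ᶠ η : ℝ in (𝒰 : Filter ℝ),
      DifferentiableOn ℂ (fun τ : ℂ => G ((x0 : ℂ) + v0 * I + η * τ, (u0 : ℂ))) (ball z r) ∧
        ∀ w ∈ ball z r, ‖G ((x0 : ℂ) + v0 * I + η * w, (u0 : ℂ))‖ ≤ M := by
    intro z hz
    have hz' : z.im < 0 := hz
    refine ⟨-z.im, by linarith, ?_⟩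
    have hsmall : ∀ᶠ η : ℝ in 𝓝[>] 0, η * (-(2 * z.im)) < δ := by
      have : Continuous (fun η : ℝ => η * (-(2 * z.im))) := by fun_prop
      have h3 := (this.tendsto 0).mono_left (nhdsWithin_le_nhds (s := Ioi 0))
      simp only [zero_mul] at h3
      exact h3.eventually (gt_mem_nhds hδ)
    have h0 : ∀ᶠ η : ℝ in 𝓝[>] 0, (0 : ℝ) < η := self_mem_nhdsWithin
    filter_upwards [h𝒰 hsmall, h𝒰 h0] with η h1 h2
    have hin : ∀ w ∈ ball z (-z.im), ((x0 : ℂ) + v0 * I + η * w, (u0 : ℂ)) ∈ D := by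
      intro w hw
      rw [mem_ball, dist_eq_norm] at hw
      have h4 := (Complex.abs_im_le_norm (w - z)).trans_lt hw
      rw [Complex.sub_im, abs_lt] at h4
      apply hsl
      · rw [him]
        have : η * (2 * z.im) < η * w.im := by
          apply mul_lt_mul_of_pos_left _ h2
          linarith [h4.1]
        linarith
      · rw [him]
        have : η * w.im < 0 := mul_neg_of_pos_of_neg h2 (by linarith [h4.2])
        linarith
    exact ⟨hG.comp (by fun_prop) hin, fun w hw => hM _ (hin w hw)⟩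
  obtain ⟨g, hg, hgu⟩ := montel_exh 𝒰 hΩ hloc
  have hgpt : ∀ y : ℝ, 0 < y → g (-(y : ℂ) * I) = c := by
    intro y hy
    have hmem : (-(y : ℂ) * I) ∈ {τ : ℂ | τ.im < 0} := by simp [hy]
    refine tendsto_nhds_unique (hgu.tendsto_at hmem) ?_
    have h1 : Tendsto (fun η : ℝ => η * y) (𝓝[>] 0) (𝓝[>] 0) := by
      rw [tendsto_nhdsWithin_iff]
      constructor
      · have : Continuous (fun η : ℝ => η * y) := by fun_prop
        have h3 := (this.tendsto 0).mono_left (nhdsWithin_le_nhds (s := Ioi 0))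
        simpa using h3
      · filter_upwards [self_mem_nhdsWithin] with η hη
        exact mul_pos hη hy
    refine ((hlim.comp h1).mono_left h𝒰).congr fun η => ?_
    simp only [Function.comp]
    congr 2
    push_cast
    ring
  have heq : EqOn g (fun _ => c) {τ : ℂ | τ.im < 0} := by
    have han : AnalyticOnNhd ℂ g {τ : ℂ | τ.im < 0} := hg.analyticOnNhd hΩ
    refine han.eqOn_of_preconnected_of_frequently_eq analyticOnNhd_const hΩc
      (z₀ := -I) (by simp) ?_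
    have hT : Tendsto (fun y : ℝ => -(y : ℂ) * I) (𝓝[>] 1) (𝓝[≠] (-I)) := by
      rw [tendsto_nhdsWithin_iff]
      constructor
      · have : Continuous (fun y : ℝ => -(y : ℂ) * I) := by fun_prop
        have h3 := (this.tendsto 1).mono_left (nhdsWithin_le_nhds (s := Ioi 1))
        simpa using h3
      · filter_upwards [self_mem_nhdsWithin] with y hy
        intro h
        have h4 := congrArg Complex.im h
        simp at h4
        have : (1 : ℝ) < y := hy
        linarith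
    refine hT.frequently ?_
    refine Eventually.frequently ?_
    filter_upwards [self_mem_nhdsWithin] with y hy
    exact hgpt y (one_pos.trans hy)
  exact hgu.congr_right heq

/-- passing from `exp (i B)` to `B` on a compact connected set -/
theorem unif_of_exp {X : Type*} [TopologicalSpace X] {l : Filter ℝ} {K : Set X}
    (hK : IsPreconnected K) {B : ℝ → X → ℂ} (hB : ∀ᶠ η in l, ContinuousOn (B η) K) {b : ℂ}
    (he : TendstoUniformlyOn (fun η x => exp (I * B η x)) (fun _ => exp (I * b)) l K)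
    {x0 : X} (hx0 : x0 ∈ K) (h0 : Tendsto (fun η => B η x0) l (𝓝 b)) :
    TendstoUniformlyOn B (fun _ => b) l K := by
  rw [Metric.tendstoUniformlyOn_iff] at he ⊢
  intro ε hε
  have hcn : 0 < ‖exp (I * b)‖ := norm_pos_iff.2 (Complex.exp_ne_zero _)
  have hm : 0 < min (1 / 2) (ε / 2) * ‖exp (I * b)‖ := by positivity
  have h1 : ∀ᶠ η in l, ‖B η x0 - b‖ < 1 := by
    have := (h0.sub_const b).norm
    rw [sub_self, norm_zero] at this
    exact this.eventually (gt_mem_nhds one_pos)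
  filter_upwards [he _ hm, hB, h1] with η h2 h3 h4 x hx
  set w : X → ℂ := fun x => I * B η x - I * b with hw
  have hwe : ∀ x ∈ K, ‖exp (w x) - 1‖ < min (1 / 2) (ε / 2) := by
    intro x hx
    have h5 := h2 x hx
    rw [dist_eq_norm, norm_sub_rev] at h5
    have h6 : exp (w x) - 1 = (exp (I * B η x) - exp (I * b)) / exp (I * b) := by
      simp only [hw]
      rw [Complex.exp_sub, sub_div, div_self (Complex.exp_ne_zero _)]
    rw [h6, norm_div, div_lt_iff₀ hcn]
    exact h5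
  have hwn : ∀ x, ‖w x‖ = ‖B η x - b‖ := by
    intro x
    simp only [hw]
    rw [← mul_sub, norm_mul, Complex.norm_I, one_mul]
  have hwc : ContinuousOn w K := by fun_prop
  have h7 := log_stay hK hwc (fun x hx => (hwe x hx).le.trans (min_le_left _ _)) hx0
    (by rw [hwn]; exact h4.le) x hx
  rw [hwn] at h7
  rw [dist_eq_norm, norm_sub_rev]
  have h8 := (hwe x hx).trans_le (min_le_right _ _)
  have h9 : 0 ≤ ‖exp (w x) - 1‖ := norm_nonneg _
  linarith

/-- convergence of `B` in the slice of the base point -/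
theorem base_conv {D : Set (ℂ × ℂ)} {B : ℂ × ℂ → ℂ} {M : ℝ}
    (hB : DifferentiableOn ℂ B D) (hM : ∀ p ∈ D, ‖exp (I * B p)‖ ≤ M) {u0 v0 x0 δ : ℝ} (hδ : 0 < δ)
    (hsl : ∀ t : ℂ, v0 - δ < t.im → t.im < v0 → (t, (u0 : ℂ)) ∈ D) {b : ℂ}
    (hlim : Tendsto (fun y : ℝ => B ((x0 : ℂ) + ((v0 : ℂ) - y) * I, (u0 : ℂ))) (𝓝[>] 0) (𝓝 b))
    {τ0 : ℂ} (hτ0 : τ0.im < 0) :
    Tendsto (fun η : ℝ => B ((x0 : ℂ) + v0 * I + η * τ0, (u0 : ℂ))) (𝓝[>] 0) (𝓝 b) := by
  have hG : DifferentiableOn ℂ (fun p => exp (I * B p)) D := (hB.const_mul I).cexp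
  have hlimG : Tendsto (fun y : ℝ => exp (I * B ((x0 : ℂ) + ((v0 : ℂ) - y) * I, (u0 : ℂ))))
      (𝓝[>] 0) (𝓝 (exp (I * b))) := (hlim.const_mul I).cexp
  have hu := slice_unif (G := fun p => exp (I * B p)) hG hM hδ hsl hlimG
  have hΩ : IsOpen {τ : ℂ | τ.im < 0} := isOpen_lt Complex.continuous_im continuous_const
  set K : Set ℂ := segment ℝ (-I) τ0 with hK
  have hKsub : K ⊆ {τ : ℂ | τ.im < 0} :=
    (convex_halfSpace_im_lt 0).segment_subset (by simp) hτ0
  have hKc : IsCompact K := by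
    rw [hK, segment_eq_image]
    exact isCompact_Icc.image (by fun_prop)
  have hKp : IsPreconnected K := (convex_segment _ _).isPreconnected
  have hun := (tendstoLocallyUniformlyOn_iff_forall_isCompact hΩ).1 hu K hKsub hKc
  obtain ⟨R, hR⟩ := hKc.isBounded.subset_closedBall (0 : ℂ)
  have hsmall : ∀ᶠ η : ℝ in 𝓝[>] 0, η * R < δ := by
    have : Continuous (fun η : ℝ => η * R) := by fun_prop
    have h3 := (this.tendsto 0).mono_left (nhdsWithin_le_nhds (s := Ioi 0))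
    simp only [zero_mul] at h3
    exact h3.eventually (gt_mem_nhds hδ)
  have hcont : ∀ᶠ η : ℝ in 𝓝[>] 0,
      ContinuousOn (fun τ : ℂ => B ((x0 : ℂ) + v0 * I + η * τ, (u0 : ℂ))) K := by
    filter_upwards [hsmall, self_mem_nhdsWithin] with η h1 h2
    have h2' : (0 : ℝ) < η := h2
    refine hB.continuousOn.comp (by fun_prop) ?_
    intro τ hτ
    have him : ((x0 : ℂ) + v0 * I + η * τ).im = v0 + η * τ.im := by simp
    have h3 : |τ.im| ≤ R := by
      have := hR hτ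
      rw [mem_closedBall, dist_zero_right] at this
      exact (Complex.abs_im_le_norm τ).trans this
    have h4 : τ.im < 0 := hKsub hτ
    apply hsl
    · rw [him]
      have : η * (-R) ≤ η * τ.im := by
        apply mul_le_mul_of_nonneg_left _ h2'.le
        linarith [(abs_le.1 h3).1]
      linarith
    · rw [him]
      have : η * τ.im < 0 := mul_neg_of_pos_of_neg h2' h4
      linarith
  have h0 : Tendsto (fun η : ℝ => B ((x0 : ℂ) + v0 * I + η * (-I), (u0 : ℂ))) (𝓝[>] 0) (𝓝 b) := by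
    refine hlim.congr fun η => ?_
    congr 2
    ring
  have hfin := unif_of_exp hKp hcont hun (left_mem_segment ℝ _ _) h0
  exact hfin.tendsto_at (right_mem_segment ℝ _ _)

/-- propagation of the convergence of `B` over `Ω` -/
theorem im_point {D : Set (ℂ × ℂ)} {B : ℂ × ℂ → ℂ} (hB : DifferentiableOn ℂ B D)
    {X Y b : ℂ} {Ω : Set (ℂ × ℂ)} (hΩ : IsOpen Ω) (hΩc : IsPreconnected Ω) {q : ℂ × ℂ}
    (hmem : q ∈ Ω) (hexh : ∀ K ⊆ Ω, IsCompact K → ∀ᶠ η : ℝ in 𝓝[>] 0, ∀ p ∈ K,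
      (X + η * p.1, Y + η * p.2) ∈ D)
    (hbase : Tendsto (fun η : ℝ => B (X + η * q.1, Y + η * q.2)) (𝓝[>] 0) (𝓝 b))
    (he : TendstoLocallyUniformlyOn
      (fun (η : ℝ) (p : ℂ × ℂ) => exp (I * B (X + η * p.1, Y + η * p.2)))
      (fun _ => exp (I * b)) (𝓝[>] 0) Ω) :
    TendstoLocallyUniformlyOn
      (fun (η : ℝ) (p : ℂ × ℂ) => B (X + η * p.1, Y + η * p.2)) (fun _ => b) (𝓝[>] 0) Ω := by
  have key : ∀ z ∈ Ω, ∃ r > 0, closedBall z r ⊆ Ω ∧ ∀ p ∈ closedBall z r,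
      Tendsto (fun η : ℝ => B (X + η * p.1, Y + η * p.2)) (𝓝[>] 0) (𝓝 b) →
      TendstoUniformlyOn (fun (η : ℝ) (p : ℂ × ℂ) => B (X + η * p.1, Y + η * p.2)) (fun _ => b)
        (𝓝[>] 0) (closedBall z r) := by
    intro z hz
    obtain ⟨r, hr, hrΩ⟩ := Metric.isOpen_iff.1 hΩ z hz
    have hsub : closedBall z (r / 2) ⊆ Ω := (closedBall_subset_ball (by linarith)).trans hrΩ
    refine ⟨r / 2, by positivity, hsub, fun p hp hpt => ?_⟩
    have hun := (tendstoLocallyUniformlyOn_iff_forall_isCompact hΩ).1 he _ hsub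
      (isCompact_closedBall _ _)
    refine unif_of_exp (convex_closedBall z (r / 2)).isPreconnected ?_ hun hp hpt
    filter_upwards [hexh _ hsub (isCompact_closedBall _ _)] with η hη
    exact hB.continuousOn.comp (by fun_prop) hη
  set A : Set (ℂ × ℂ) := {p | p ∈ Ω ∧
    Tendsto (fun η : ℝ => B (X + η * p.1, Y + η * p.2)) (𝓝[>] 0) (𝓝 b)} with hA
  have hAo : IsOpen A := by
    rw [Metric.isOpen_iff]
    intro p hp
    obtain ⟨r, hr, hrΩ, h⟩ := key p hp.1
    have hu := h p (mem_closedBall_self hr.le) hp.2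
    refine ⟨r, hr, fun p' hp' => ?_⟩
    exact ⟨hrΩ (ball_subset_closedBall hp'), hu.tendsto_at (ball_subset_closedBall hp')⟩
  have hAc : closure A ∩ Ω ⊆ A := by
    rintro p ⟨hp, hpΩ⟩
    obtain ⟨r, hr, hrΩ, h⟩ := key p hpΩ
    obtain ⟨p', hp'A, hp'⟩ := Metric.mem_closure_iff.1 hp r hr
    have hu := h p' (by rw [mem_closedBall, dist_comm]; exact hp'.le) hp'A.2
    exact ⟨hpΩ, hu.tendsto_at (mem_closedBall_self hr.le)⟩
  have hall : Ω ⊆ A := hΩc.subset_of_closure_inter_subset hAo ⟨q, hmem, hmem, hbase⟩ hAc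
  rw [Metric.tendstoLocallyUniformlyOn_iff]
  intro ε hε z hz
  obtain ⟨r, hr, hrΩ, h⟩ := key z hz
  have hu := h z (mem_closedBall_self hr.le) (hall hz).2
  exact ⟨closedBall z r, mem_nhdsWithin_of_mem_nhds (closedBall_mem_nhds z hr),
    Metric.tendstoUniformlyOn_iff.1 hu ε hε⟩

/-! ### final statements -/

/-- **constant blow-ups of a bounded function**, coordinates `(u, x)` -/
theorem blow_bdd' {D : Set (ℂ × ℂ)} (hD : IsOpen D) {G : ℂ × ℂ → ℂ} {M : ℝ}
    (hG : DifferentiableOn ℂ G D) (hM : ∀ p ∈ D, ‖G p‖ ≤ M) {S : Set ℝ} (hS : MeasurableSet S)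
    {U : ℝ → ℝ} (hU : Measurable U) {δ : ℝ} (hδ : 0 < δ)
    (hsl : ∀ u ∈ S, ∀ t : ℂ, U u - δ < t.im → t.im < U u → (t, (u : ℂ)) ∈ D) :
    ∀ᵐ p : ℝ × ℝ, p.1 ∈ S →
      ∃ c : ℂ, ‖c‖ ≤ |M| ∧
        Tendsto (fun y : ℝ => G ((p.2 : ℂ) + ((U p.1 : ℂ) - y) * I, (p.1 : ℂ))) (𝓝[>] 0) (𝓝 c) ∧
        ((∃ C : ℝ, ∀ᶠ r : ℝ in 𝓝[>] 0, (∀ u ∈ S, |u - p.1| ≤ r → U p.1 - C * r ≤ U u) ∧
          ENNReal.ofReal (3 / 2 * r) ≤
            volume {u ∈ S | |u - p.1| ≤ r ∧ U u ≤ U p.1 + C * r}) →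
        ∀ Ω : Set (ℂ × ℂ), IsOpen Ω → IsPreconnected Ω →
          (∃ τ0 : ℂ, τ0.im < 0 ∧ (τ0, (0 : ℂ)) ∈ Ω) →
          (∀ K ⊆ Ω, IsCompact K → ∀ᶠ η : ℝ in 𝓝[>] 0, ∀ q ∈ K,
            ((p.2 : ℂ) + U p.1 * I + η * q.1, (p.1 : ℂ) + η * q.2) ∈ D) →
          TendstoLocallyUniformlyOn
            (fun (η : ℝ) (q : ℂ × ℂ) =>
              G ((p.2 : ℂ) + U p.1 * I + η * q.1, (p.1 : ℂ) + η * q.2))
            (fun _ => c) (𝓝[>] 0) Ω) := by
  obtain ⟨L, hL, hae⟩ := exists_joint hD hG hM hS hU hδ hsl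
  set N : Set ℝ := {u | ¬ ∀ᵐ x : ℝ, ‖L (u, x)‖ ≤ |M| ∧ (u ∈ S →
      Tendsto (fun y : ℝ => G ((x : ℂ) + ((U u : ℂ) - y) * I, (u : ℂ))) (𝓝[>] 0)
        (𝓝 (L (u, x))))} with hNdef
  have hN : volume N = 0 := by
    have h1 := hae
    rw [Measure.volume_eq_prod] at h1
    exact ae_iff.1 (Measure.ae_ae_of_ae_prod h1)
  have hgood : ∀ u ∈ S, u ∉ N → ∀ᵐ x : ℝ,
      Tendsto (fun y : ℝ => G ((x : ℂ) + ((U u : ℂ) - y) * I, (u : ℂ))) (𝓝[>] 0)
        (𝓝 (L (u, x))) := by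
    intro u hu huN
    have h1 := not_not.1 huN
    filter_upwards [h1] with x hx using hx.2 hu
  filter_upwards [hae, lebesgue_pt hL (hae.mono fun p hp => hp.1)] with p hp hleb hpS
  refine ⟨L p, hp.1, hp.2 hpS, ?_⟩
  rintro ⟨C, hC⟩ Ω hΩ hΩc ⟨τ0, hτ0, hmem⟩ hexh
  exact blow_point hG hM hδ hsl hL hN hgood (u0 := p.1) (x0 := p.2) (c := L p) hleb hC hΩ hΩc
    hτ0 hmem hexh

theorem ae_swap {P : ℝ × ℝ → Prop} (h : ∀ᵐ p : ℝ × ℝ, P p) : ∀ᵐ p : ℝ × ℝ, P p.swap := by
  have h1 := (Measure.measurePreserving_swap (μ := (volume : Measure ℝ))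
    (ν := (volume : Measure ℝ))).quasiMeasurePreserving
  rw [← Measure.volume_eq_prod] at h1
  exact h1.ae h

/-- **constant blow-ups of a bounded function** -/
theorem blow_bdd {D : Set (ℂ × ℂ)} (hD : IsOpen D) {G : ℂ × ℂ → ℂ} {M : ℝ}
    (hG : DifferentiableOn ℂ G D) (hM : ∀ p ∈ D, ‖G p‖ ≤ M) {S : Set ℝ} (hS : MeasurableSet S)
    {U : ℝ → ℝ} (hU : Measurable U) {δ : ℝ} (hδ : 0 < δ)
    (hsl : ∀ u ∈ S, ∀ t : ℂ, U u - δ < t.im → t.im < U u → (t, (u : ℂ)) ∈ D) :
    ∀ᵐ p : ℝ × ℝ, p.2 ∈ S →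
      ∃ c : ℂ, ‖c‖ ≤ |M| ∧
        Tendsto (fun y : ℝ => G ((p.1 : ℂ) + ((U p.2 : ℂ) - y) * I, (p.2 : ℂ))) (𝓝[>] 0) (𝓝 c) ∧
        ((∃ C : ℝ, ∀ᶠ r : ℝ in 𝓝[>] 0, (∀ u ∈ S, |u - p.2| ≤ r → U p.2 - C * r ≤ U u) ∧
          ENNReal.ofReal (3 / 2 * r) ≤
            volume {u ∈ S | |u - p.2| ≤ r ∧ U u ≤ U p.2 + C * r}) →
        ∀ Ω : Set (ℂ × ℂ), IsOpen Ω → IsPreconnected Ω →
          (∃ τ0 : ℂ, τ0.im < 0 ∧ (τ0, (0 : ℂ)) ∈ Ω) →
          (∀ K ⊆ Ω, IsCompact K → ∀ᶠ η : ℝ in 𝓝[>] 0, ∀ q ∈ K,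
            ((p.1 : ℂ) + U p.2 * I + η * q.1, (p.2 : ℂ) + η * q.2) ∈ D) →
          TendstoLocallyUniformlyOn
            (fun (η : ℝ) (q : ℂ × ℂ) =>
              G ((p.1 : ℂ) + U p.2 * I + η * q.1, (p.2 : ℂ) + η * q.2))
            (fun _ => c) (𝓝[>] 0) Ω) :=
  ae_swap (blow_bdd' hD hG hM hS hU hδ hsl)

/-- **constant blow-ups of a function with bounded imaginary part** (T1-B (f)) -/
theorem blow_im {D : Set (ℂ × ℂ)} (hD : IsOpen D) {B : ℂ × ℂ → ℂ} {h : ℝ}
    (hB : DifferentiableOn ℂ B D) (hM : ∀ p ∈ D, |(B p).im| ≤ h) {S : Set ℝ}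
    (hS : MeasurableSet S)
    {U : ℝ → ℝ} (hU : Measurable U) {δ : ℝ} (hδ : 0 < δ)
    (hsl : ∀ u ∈ S, ∀ t : ℂ, U u - δ < t.im → t.im < U u → (t, (u : ℂ)) ∈ D) :
    ∀ᵐ p : ℝ × ℝ, p.2 ∈ S →
      ∃ b : ℂ, |b.im| ≤ h ∧
        Tendsto (fun y : ℝ => B ((p.1 : ℂ) + ((U p.2 : ℂ) - y) * I, (p.2 : ℂ))) (𝓝[>] 0) (𝓝 b) ∧
        ((∃ C : ℝ, ∀ᶠ r : ℝ in 𝓝[>] 0, (∀ u ∈ S, |u - p.2| ≤ r → U p.2 - C * r ≤ U u) ∧
          ENNReal.ofReal (3 / 2 * r) ≤
            volume {u ∈ S | |u - p.2| ≤ r ∧ U u ≤ U p.2 + C * r}) →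
        ∀ Ω : Set (ℂ × ℂ), IsOpen Ω → IsPreconnected Ω →
          (∃ τ0 : ℂ, τ0.im < 0 ∧ (τ0, (0 : ℂ)) ∈ Ω) →
          (∀ K ⊆ Ω, IsCompact K → ∀ᶠ η : ℝ in 𝓝[>] 0, ∀ q ∈ K,
            ((p.1 : ℂ) + U p.2 * I + η * q.1, (p.2 : ℂ) + η * q.2) ∈ D) →
          TendstoLocallyUniformlyOn
            (fun (η : ℝ) (q : ℂ × ℂ) =>
              B ((p.1 : ℂ) + U p.2 * I + η * q.1, (p.2 : ℂ) + η * q.2))
            (fun _ => b) (𝓝[>] 0) Ω) := by
  have hG : DifferentiableOn ℂ (fun p => exp (I * B p)) D := (hB.const_mul I).cexp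
  have hnorm : ∀ p, ‖exp (I * B p)‖ = Real.exp (-(B p).im) := by
    intro p
    rw [Complex.norm_exp]
    congr 1
    simp
  have hMG : ∀ p ∈ D, ‖exp (I * B p)‖ ≤ Real.exp h := by
    intro p hp
    rw [hnorm]
    exact Real.exp_le_exp.2 (by linarith [(abs_le.1 (hM p hp)).1])
  filter_upwards [blow_bdd hD hG hMG hS hU hδ hsl] with p hp hpS
  obtain ⟨c, -, hc, hΩ⟩ := hp hpS
  have hin : ∀ y ∈ Ioo 0 δ, ((p.1 : ℂ) + ((U p.2 : ℂ) - (y : ℝ)) * I, (p.2 : ℂ)) ∈ D := by
    intro y hy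
    apply hsl _ hpS
    · simp; exact hy.2
    · simp; exact hy.1
  have hpos : ∀ᶠ y : ℝ in 𝓝[>] 0, y ∈ Ioo 0 δ := Ioo_mem_nhdsGT hδ
  have hc0 : c ≠ 0 := by
    have h1 : Real.exp (-h) ≤ ‖c‖ := by
      refine ge_of_tendsto hc.norm ?_
      filter_upwards [hpos] with y hy
      rw [hnorm]
      exact Real.exp_le_exp.2 (by linarith [(abs_le.1 (hM _ (hin y hy))).2])
    intro h0
    rw [h0, norm_zero] at h1
    exact absurd h1 (not_le.2 (Real.exp_pos _))
  obtain ⟨b, hbc, hb⟩ := lift_limit hδ (φ := fun y : ℝ =>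
    B ((p.1 : ℂ) + ((U p.2 : ℂ) - y) * I, (p.2 : ℂ)))
    (hB.continuousOn.comp (by fun_prop) hin) hc0 hc
  refine ⟨b, ?_, hb, ?_⟩
  · have h1 : Tendsto (fun y : ℝ => |(B ((p.1 : ℂ) + ((U p.2 : ℂ) - y) * I, (p.2 : ℂ))).im|)
        (𝓝[>] 0) (𝓝 |b.im|) := ((Complex.continuous_im.tendsto b).comp hb).abs
    refine le_of_tendsto h1 ?_
    filter_upwards [hpos] with y hy using hM _ (hin y hy)
  · rintro hC Ω hΩo hΩc ⟨τ0, hτ0, hmem⟩ hexh
    have he := hΩ hC Ω hΩo hΩc ⟨τ0, hτ0, hmem⟩ hexh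
    rw [← hbc] at he
    refine im_point hB hΩo hΩc hmem hexh ?_ he
    have h1 := base_conv hB hMG hδ (hsl p.2 hpS) hb hτ0
    simpa using h1

end Crest.Agent.R102.Blow362
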