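import Mathlib
import Crest.Agent.R102.SupA_115
import Crest.Agent.R102.SupDefs_115
import Crest.Agent.R102.Blow_362

-- ▼ part R102/SupB_115
section

/-!
Row 102, T1-B, III.2 = SUP (helper115), part B: limits along product cones.
-/

set_option autoImplicit false
set_option linter.unusedVariables false
set_option linter.unusedSectionVars false

open Set Filter Topology Metric Complex MeasureTheory

noncomputable section

namespace Crest.Agent.R102.Sup115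

open Crest.Agent.R102.End613 Crest.Agent.R102.S5

/-- `B → b` along all product cones at `e` -/
def Lim (B : ℂ × ℂ → ℂ) (e : ℝ × ℝ) (b : ℂ) : Prop :=
  ∀ M : ℝ, Tendsto B (𝓝[Cn e M] ((e.1 : ℂ), (e.2 : ℂ))) (𝓝 b)

lemma ray_one (e : ℝ × ℝ) (s : ℝ) : ray e s = ((e.1 : ℂ) + s * (-I), (e.2 : ℂ) + s * (I / 4)) := rfl

lemma ray_im1 (e : ℝ × ℝ) (s : ℝ) : (ray e s).1.im = -s := by simp [ray_one]
lemma ray_re1 (e : ℝ × ℝ) (s : ℝ) : (ray e s).1.re = e.1 := by simp [ray_one]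
lemma ray_im2 (e : ℝ × ℝ) (s : ℝ) : (ray e s).2.im = s / 4 := by
  simp [ray_one]
  ring
lemma ray_sub2 (e : ℝ × ℝ) {s : ℝ} (hs : 0 ≤ s) : ‖(ray e s).2 - (e.2 : ℂ)‖ = s / 4 := by
  have : (ray e s).2 - (e.2 : ℂ) = ((s / 4 : ℝ) : ℂ) * I := by
    rw [ray_one]
    push_cast
    ring
  rw [this, norm_mul, Complex.norm_I, mul_one, Complex.norm_real, Real.norm_of_nonneg (by linarith)]

lemma ray_mem_Cn (e : ℝ × ℝ) {s : ℝ} (hs : 0 < s) : ray e s ∈ Cn e 8 := by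
  refine ⟨by rw [ray_im1]; linarith, ?_, ?_⟩
  · rw [ray_im1, ray_im2]; linarith
  · rw [ray_im1, ray_re1, ray_sub2 e hs.le, sub_self, abs_zero]
    linarith

lemma ray_mem_Co (e : ℝ × ℝ) {s lam d : ℝ} (hs : 0 < s) (hd : s < d) (hl : 0 < lam)
    (hl' : lam ≤ 1 / 64) : ray e s ∈ Co lam d e := by
  refine ⟨by rw [ray_im1]; linarith, by rw [ray_im1]; linarith, ?_, ?_⟩
  · rw [ray_im1, ray_im2]; nlinarith
  · rw [ray_im1, ray_re1, ray_sub2 e hs.le, sub_self, abs_zero]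
    nlinarith

lemma tendsto_ray (e : ℝ × ℝ) :
    Tendsto (fun s : ℝ => ray e s) (𝓝[>] 0) (𝓝[Cn e 8] ((e.1 : ℂ), (e.2 : ℂ))) := by
  refine tendsto_nhdsWithin_iff.2 ⟨?_, ?_⟩
  · have h : Continuous fun s : ℝ => ray e s := by
      simp only [ray_one]
      fun_prop
    have h1 := h.tendsto 0
    have h2 : ray e 0 = ((e.1 : ℂ), (e.2 : ℂ)) := by simp [ray_one]
    rw [h2] at h1
    exact h1.mono_left nhdsWithin_le_nhds
  · filter_upwards [self_mem_nhdsWithin] with s hs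
    exact ray_mem_Cn e hs

lemma Lim.ray {B : ℂ × ℂ → ℂ} {e : ℝ × ℝ} {b : ℂ} (h : Lim B e b) :
    Tendsto (fun s : ℝ => B (S5.ray e s)) (𝓝[>] 0) (𝓝 b) := (h 8).comp (tendsto_ray e)


/-- points of a cone of small depth are near the apex -/
lemma Cn_small (e : ℝ × ℝ) (M : ℝ) {ε : ℝ} (hε : 0 < ε) :
    ∃ δ > 0, ∀ q ∈ Cn e M, -δ < q.1.im →
      dist q ((e.1 : ℂ), (e.2 : ℂ)) < ε ∧ 0 < q.2.im ∧ ‖q.2 - (e.2 : ℂ)‖ < ε := by
  refine ⟨ε / (2 * (|M| + 2)), by positivity, ?_⟩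
  rintro q ⟨h1, h2, h3⟩ h4
  have hd : -q.1.im < ε / (2 * (|M| + 2)) := by linarith
  have hM : 0 ≤ M := by
    by_contra hM
    push Not at hM
    have : 0 ≤ |q.1.re - e.1| + ‖q.2 - (e.2 : ℂ)‖ := by positivity
    nlinarith
  have hMa : |M| = M := abs_of_nonneg hM
  rw [hMa, lt_div_iff₀ (by positivity)] at hd
  have h5 : M * (-q.1.im) < ε / 2 := by nlinarith
  have h6 : -q.1.im < ε / 2 := by nlinarith
  have h7 : ‖q.2 - (e.2 : ℂ)‖ < ε := by
    have : 0 ≤ |q.1.re - e.1| := abs_nonneg _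
    linarith
  refine ⟨?_, ?_, h7⟩
  · rw [Prod.dist_eq]
    refine max_lt ?_ (by rw [dist_eq_norm]; exact h7)
    rw [dist_eq_norm]
    have h8 := Complex.norm_le_abs_re_add_abs_im (q.1 - (e.1 : ℂ))
    have h9 : (q.1 - (e.1 : ℂ)).re = q.1.re - e.1 := by simp
    have h10 : (q.1 - (e.1 : ℂ)).im = q.1.im := by simp
    rw [h9, h10, abs_of_neg h1] at h8
    have : 0 ≤ ‖q.2 - (e.2 : ℂ)‖ := norm_nonneg _
    show ‖q.1 - (e.1 : ℂ)‖ < ε
    linarith
  · by_contra h8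
    push Not at h8
    nlinarith

lemma Co_sub_Cn {e : ℝ × ℝ} {lam d : ℝ} (hl : 0 < lam) : Co lam d e ⊆ Cn e (1 / lam) := by
  rintro q ⟨h1, h2, h3, h4⟩
  refine ⟨h1, ?_, ?_⟩
  · rw [one_div, ← div_eq_inv_mul, le_div_iff₀ hl]
    linarith
  · rw [one_div, ← div_eq_inv_mul, le_div_iff₀ hl]
    linarith

lemma Co_mono {e : ℝ × ℝ} {lam d d' : ℝ} (hd : d ≤ d') : Co lam d e ⊆ Co lam d' e := by
  rintro q ⟨h1, h2, h3, h4⟩
  exact ⟨h1, by linarith, h3, h4⟩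

/-- along the cone of aperture `1/lam`, eventually in a neighbourhood of the limit -/
lemma Lim.exists_co {B : ℂ × ℂ → ℂ} {e : ℝ × ℝ} {b : ℂ} (h : Lim B e b) {lam : ℝ} (hl : 0 < lam)
    {A : Set ℂ} (hA : A ∈ 𝓝 b) : ∃ j : ℕ, Co lam (1 / ((j : ℝ) + 1)) e ⊆ B ⁻¹' A := by
  have h1 := h (1 / lam) hA
  obtain ⟨ε, hε, h2⟩ := Metric.mem_nhdsWithin_iff.1 h1
  obtain ⟨δ, hδ, h3⟩ := Cn_small e (1 / lam) hε
  obtain ⟨j, hj⟩ := exists_nat_one_div_lt hδ
  refine ⟨j, fun q hq => ?_⟩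
  have hq' := Co_sub_Cn hl hq
  exact h2 ⟨(h3 q hq' (by linarith [hq.2.1])).1, hq'⟩

lemma Lim.mem_of_co {B : ℂ × ℂ → ℂ} {e : ℝ × ℝ} {b : ℂ} (h : Lim B e b) {lam d : ℝ} (hl : 0 < lam)
    (hl' : lam ≤ 1 / 64) (hd : 0 < d) {A : Set ℂ} (hA : IsClosed A) (hco : Co lam d e ⊆ B ⁻¹' A) :
    b ∈ A := by
  refine hA.mem_of_tendsto h.ray ?_
  filter_upwards [Ioo_mem_nhdsGT hd] with s hs
  exact hco (ray_mem_Co e hs.1 hs.2 hl hl')

/-- points of cones are in the product domain -/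
lemma Cn_Dp {u0 R d : ℝ} (hd : 0 < d) {e : ℝ × ℝ} (he : e.2 ∈ Ioo (u0 - R) (u0 + R)) (M : ℝ) :
    ∃ δ > 0, ∀ q ∈ Cn e M, -δ < q.1.im → q ∈ Dp u0 R d := by
  have h0 : 0 < R - |e.2 - u0| := by
    have := abs_lt.2 (show -R < e.2 - u0 ∧ e.2 - u0 < R from ⟨by linarith [he.1], by linarith [he.2]⟩)
    linarith
  obtain ⟨δ, hδ, h3⟩ := Cn_small e M h0
  refine ⟨min δ d, lt_min hδ hd, fun q hq hqd => ?_⟩
  obtain ⟨-, h4, h5⟩ := h3 q hq (by linarith [min_le_left δ d])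
  refine ⟨by linarith [min_le_right δ d], hq.1, ?_, h4⟩
  rw [mem_ball, dist_eq_norm]
  have h6 : q.2 - (u0 : ℂ) = (q.2 - (e.2 : ℂ)) + ((e.2 - u0 : ℝ) : ℂ) := by push_cast; ring
  rw [h6]
  refine (norm_add_le _ _).trans_lt ?_
  rw [Complex.norm_real, Real.norm_eq_abs]
  linarith

lemma Co_Dp {u0 R R' : ℝ} {e : ℝ × ℝ} (he : |e.2 - u0| ≤ R') {lam d d' : ℝ} (hl : 0 < lam)
    (hd : d ≤ lam * (R - R')) (hd' : d ≤ d') : Co lam d e ⊆ Dp u0 R d' := by
  rintro q ⟨h1, h2, h3, h4⟩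
  have h7 : 0 < lam * (-q.1.im) := mul_pos hl (by linarith)
  refine ⟨by linarith, h1, ?_, by
    show 0 < q.2.im
    linarith⟩
  rw [mem_ball, dist_eq_norm]
  have h6 : q.2 - (u0 : ℂ) = (q.2 - (e.2 : ℂ)) + ((e.2 - u0 : ℝ) : ℂ) := by push_cast; ring
  rw [h6]
  refine (norm_add_le _ _).trans_lt ?_
  rw [Complex.norm_real, Real.norm_eq_abs]
  have h5 : lam * ‖q.2 - (e.2 : ℂ)‖ < lam * (R - R') := by
    have : 0 ≤ lam * |q.1.re - e.1| := by positivity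
    nlinarith
  have h8 := lt_of_mul_lt_mul_left h5 hl.le
  linarith



variable {u0 R d h : ℝ} {S : Set ℂ} {Z Zc T c : ℂ → ℂ} {φ p B : ℂ × ℂ → ℂ} {X L : Set (ℂ × ℂ)}

/-- planar a.e.: limits exist and are interior (in `S`) or on the edges -/
lemma Dat.ae_lim (D : Dat u0 R d h S Z Zc T c φ p B X L) (hPB : ProdBlow) (hPU : ProdUniq) :
    ∀ᵐ e : ℝ × ℝ, e.2 ∈ Ioo (u0 - R) (u0 + R) → ∃ b : ℂ, Lim B e b ∧ (b ∈ S ∨ |b.im| = h) := by
  have hBd : DifferentiableOn ℂ B (Dp u0 R d) := D.B_diff.mono D.Dp_X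
  have hBi : ∀ q ∈ Dp u0 R d, |(B q).im| ≤ h := fun q hq => (D.B_im q (D.Dp_X hq)).le
  have h1 := hPB u0 R d h B D.R_pos D.d_pos hBd hBi
  have h2 : ∀ᵐ e : ℝ × ℝ, ∀ z ∈ ({b : ℂ | |b.im| < h} \ S), e.2 ∈ Ioo (u0 - R) (u0 + R) →
      ¬ Tendsto B (𝓝[Cn e 8] ((e.1 : ℂ), (e.2 : ℂ))) (𝓝 z) :=
    (ae_ball_iff D.S_count).2 fun z _ => hPU u0 R d h B D.R_pos D.d_pos hBd hBi D.B_nc z
  filter_upwards [h1, h2] with e he1 he2 he
  obtain ⟨b, hb⟩ := he1 he
  refine ⟨b, hb, ?_⟩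
  have hle : |b.im| ≤ h := by
    obtain ⟨δ, hδ, hδ'⟩ := Cn_Dp D.d_pos he 8
    have hL : Lim B e b := hb
    refine le_of_tendsto ((Complex.continuous_im.tendsto b).comp hL.ray).abs ?_
    filter_upwards [Ioo_mem_nhdsGT hδ] with s hs
    exact hBi _ (hδ' _ (ray_mem_Cn e hs.1) (by rw [ray_im1]; linarith [hs.2]))
  rcases lt_or_eq_of_le hle with h3 | h3
  · left
    by_contra h4
    exact he2 b ⟨h3, h4⟩ he (hb 8)
  · exact Or.inr h3

lemma ae_swap' {P : ℝ × ℝ → Prop} (h : ∀ᵐ e : ℝ × ℝ, P e) : ∀ᵐ u : ℝ, ∀ᵐ s : ℝ, P (s, u) := by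
  have h1 := (Measure.measurePreserving_swap (μ := (volume : Measure ℝ))
    (ν := (volume : Measure ℝ))).quasiMeasurePreserving
  rw [← Measure.volume_eq_prod] at h1
  have h2 : ∀ᵐ p : ℝ × ℝ, P p.swap := h1.ae h
  rw [Measure.volume_eq_prod] at h2
  exact Measure.ae_ae_of_ae_prod h2

/-- a good label disc -/
def GD (S : Set ℂ) (T : ℂ → ℂ) (i l : ℕ) : Prop :=
  closedBall (TopologicalSpace.denseSeq ℂ i) (1 / ((l : ℝ) + 1)) ⊆ S ∧
    ∀ b ∈ closedBall (TopologicalSpace.denseSeq ℂ i) (1 / ((l : ℝ) + 1)),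
      ∀ b' ∈ closedBall (TopologicalSpace.denseSeq ℂ i) (1 / ((l : ℝ) + 1)), ‖T b - T b'‖ ≤ 1

lemma exists_GD (hS : IsOpen S) (hT : ContinuousOn T S) {b : ℂ} (hb : b ∈ S) :
    ∃ i l : ℕ, GD S T i l ∧ b ∈ ball (TopologicalSpace.denseSeq ℂ i) (1 / ((l : ℝ) + 1)) := by
  have h1 : ∀ᶠ z in 𝓝 b, z ∈ S ∧ dist (T z) (T b) < 1 / 2 :=
    (show ∀ᶠ z in 𝓝 b, z ∈ S from hS.mem_nhds hb).and
      ((hT.continuousAt (hS.mem_nhds hb)).eventually (ball_mem_nhds _ (by norm_num)))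
  obtain ⟨ε, hε, h2⟩ := Metric.eventually_nhds_iff.1 h1
  obtain ⟨l, hl⟩ := exists_nat_one_div_lt (show 0 < ε / 2 by positivity)
  have hl0 : 0 < 1 / ((l : ℝ) + 1) := by positivity
  obtain ⟨i, hi⟩ := (TopologicalSpace.denseRange_denseSeq ℂ).exists_dist_lt b hl0
  refine ⟨i, l, ?_, by rw [mem_ball]; exact hi⟩
  have h3 : ∀ z ∈ closedBall (TopologicalSpace.denseSeq ℂ i) (1 / ((l : ℝ) + 1)),
      z ∈ S ∧ dist (T z) (T b) < 1 / 2 := by
    intro z hz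
    apply h2
    calc dist z b ≤ dist z (TopologicalSpace.denseSeq ℂ i) +
          dist b (TopologicalSpace.denseSeq ℂ i) := dist_triangle_right _ _ _
      _ < ε := by
          rw [mem_closedBall] at hz
          linarith
  refine ⟨fun z hz => (h3 z hz).1, fun z hz z' hz' => ?_⟩
  have h4 := (h3 z hz).2
  have h5 := (h3 z' hz').2
  rw [← dist_eq_norm]
  linarith [dist_triangle_right (T z) (T z') (T b)]

end Crest.Agent.R102.Sup115
end
end

-- ▼ part R102/Sup_115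
section

/-!
Row 102, T1-B, III.2 = SUP (helper115): the theorem `sup`.
-/

set_option autoImplicit false
set_option linter.unusedVariables false
set_option linter.unusedSectionVars false

open Set Filter Topology Metric Complex MeasureTheory

noncomputable section

namespace Crest.Agent.R102.Sup115

open Crest.Agent.R102.End613 Crest.Agent.R102.S5

variable {u0 R dd h : ℝ} {S : Set ℂ} {Z Zc T c : ℂ → ℂ} {φ p B : ℂ × ℂ → ℂ} {X L : Set (ℂ × ℂ)}

lemma Co_lam {e : ℝ × ℝ} {lam lam' d : ℝ} (hl : lam' ≤ lam) : Co lam d e ⊆ Co lam' d e := by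
  rintro q ⟨h1, h2, h3, h4⟩
  have h5 : 0 ≤ |q.1.re - e.1| + ‖q.2 - (e.2 : ℂ)‖ := by positivity
  exact ⟨h1, h2, by nlinarith, by nlinarith⟩

lemma Dat.F_diff (D : Dat u0 R dd h S Z Zc T c φ p B X L) {q : ℂ × ℂ} (hq : q ∈ Dp u0 R dd)
    (hqS : B q ∈ S) : DifferentiableAt ℂ (fun q => cexp (2 * I * (T (B q) - φ q))) q := by
  have h1 : DifferentiableAt ℂ B q := D.B_diff.differentiableAt (D.X_open.mem_nhds (D.Dp_X hq))
  have h2 : DifferentiableAt ℂ T (B q) := D.T_diff.differentiableAt (D.S_open.mem_nhds hqS)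
  have h3 : DifferentiableAt ℂ φ q := D.φ_diff.differentiableAt (D.L_open.mem_nhds (D.Dp_L hq))
  have h4 : DifferentiableAt ℂ (fun q => T (B q)) q := h2.comp q h1
  exact ((h4.sub h3).const_mul _).cexp

/-- assembling `In5` -/
lemma Dat.mk_In5 (D : Dat u0 R dd h S Z Zc T c φ p B X L) (hBi : BirthsOf)
    {a g T0 e0 Cs lam lam' r ρ η d₀ R' : ℝ} {P : Set (ℝ × ℝ)} {z₀ : ℂ} {r₀ : ℝ}
    (ha : 0 ≤ a) (hg : 0 < g) (hr : 0 < r) (hρ : 0 < ρ)
    (hρr : ρ * (16 * (a + 4)) ^ 2 ≤ min r g) (hη : 0 < η) (hlam' : 0 < lam') (hll : lam' ≤ lam)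
    (hd₀ : 0 < d₀) (hR' : R' < R) (hPc : IsClosed P) (hPp : 0 < volume P)
    (hdisc : closedBall z₀ r₀ ⊆ S)
    (hosc : ∀ b ∈ closedBall z₀ r₀, ∀ b' ∈ closedBall z₀ r₀, ‖T b - T b'‖ ≤ 1)
    (hPu : ∀ e ∈ P, |e.2 - u0| ≤ R') (hPE : ∀ e ∈ P, E2 X L a g ρ η e)
    (hPS : ∀ e ∈ P, Co lam' d₀ e ⊆ B ⁻¹' closedBall z₀ r₀)
    (hPL : ∀ e ∈ P, ∃ b ∈ closedBall z₀ r₀, Lim B e b)
    (hPA : ∀ e ∈ P, Alt T0 e0 Cs (fun q => cexp (2 * I * (T (B q) - φ q))) e) :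
    In5 S Z Zc T c φ p B h a g T0 e0 Cs lam r ρ P z₀ r₀ := by
  have hX : ∀ q ∈ X, DifferentiableAt ℂ B q := fun q hq =>
    D.B_diff.differentiableAt (D.X_open.mem_nhds hq)
  have hφ : ∀ q ∈ L, DifferentiableAt ℂ φ q := fun q hq =>
    D.φ_diff.differentiableAt (D.L_open.mem_nhds hq)
  have hp : ∀ q ∈ L, DifferentiableAt ℂ p q := fun q hq =>
    D.p_diff.differentiableAt (D.L_open.mem_nhds hq)
  refine { closed := hPc, pos := hPp, disc := hdisc, osc := hosc,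
           c_ne := fun b hb => D.c_ne b (hdisc hb), saw := ?_, low := ?_, line := ?_, lim := ?_,
           alt := fun e he => hPA e he, births := ?_ }
  · -- saw
    have hd1 : 0 < lam' * (R - R') := mul_pos hlam' (by linarith)
    refine ⟨min (min d₀ dd) (lam' * (R - R')), lt_min (lt_min hd₀ D.d_pos) hd1, fun q hq => ?_⟩
    obtain ⟨e, he, hqe⟩ := mem_Saw.1 hq
    have hqe' := Co_lam hll hqe
    have hqD : q ∈ Dp u0 R dd := Co_Dp (hPu e he) hlam' (min_le_right _ _)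
      ((min_le_left _ _).trans (min_le_right _ _)) hqe'
    have hqB : B q ∈ closedBall z₀ r₀ :=
      hPS e he (Co_mono ((min_le_left _ _).trans (min_le_left _ _)) hqe')
    have hqS := hdisc hqB
    exact ⟨hφ q (D.Dp_L hqD), hp q (D.Dp_L hqD), hX q (D.Dp_X hqD), hqB,
      D.inc q ⟨D.Dp_X hqD, D.Dp_L hqD⟩ hqS, D.omit1 q hqD hqS⟩
  · -- low
    intro e he
    refine ⟨η, hη, fun q hq => ?_⟩
    have hqX := (hPE e he).low hq
    have hqL : q ∈ L := (hPE e he).line (Half_mono le_rfl (by linarith) hq)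
    exact ⟨hφ q hqL, hp q hqL, hX q hqX, (D.B_im q hqX).le, fun hqS => D.inc q ⟨hqX, hqL⟩ hqS⟩
  · -- line
    intro e he
    exact ⟨η, hη, fun q hq => ⟨hφ q ((hPE e he).line hq), hp q ((hPE e he).line hq)⟩⟩
  · -- lim
    intro e he
    obtain ⟨b, hb, hL⟩ := hPL e he
    exact ⟨b, hb, hL⟩
  · -- births
    intro e he q hq hqr
    have he2 : e.2 ∈ Ioo (u0 - R) (u0 + R) := by
      obtain ⟨h1, h2⟩ := abs_le.1 (hPu e he)
      exact ⟨by linarith, by linarith⟩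
    exact hBi u0 R dd h a g ρ r η X L S Z Zc φ p B e ha hg hr hρ hρr hη D.X_open D.d_pos
      D.X_sub D.X_star
      D.Dp_X D.B_diff D.S_sub D.maxi he2 (hPE e he) q hq hqr

/-- closed subsets of positive measure avoiding a null set -/
lemma exists_closed_diff {C : Set (ℝ × ℝ)} (hC : IsClosed C) (hC0 : volume C ≠ 0)
    {N : Set (ℝ × ℝ)} (hN : volume N = 0) :
    ∃ P ⊆ C, IsClosed P ∧ 0 < volume P ∧ ∀ e ∈ P, e ∉ N := by
  have hm : MeasurableSet (C \ toMeasurable volume N) :=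
    hC.measurableSet.diff (measurableSet_toMeasurable _ _)
  have hv : 0 < volume (C \ toMeasurable volume N) := by
    rw [measure_sdiff_null ((measure_toMeasurable N).trans hN)]
    exact pos_iff_ne_zero.2 hC0
  obtain ⟨K, hK, hKc, hKv⟩ := hm.exists_lt_isCompact hv
  exact ⟨K, fun x hx => (hK hx).1, hKc.isClosed, hKv, fun e he hN' =>
    (hK he).2 (subset_toMeasurable _ _ hN')⟩

/-- the planar step -/
lemma Dat.planar (D : Dat u0 R dd h S Z Zc T c φ p B X L) (hPB : ProdBlow) (hPU : ProdUniq)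
    (hBi : BirthsOf) {T0 e0 Cs : ℝ}
    (hAlt : ∀ (P : Set (ℝ × ℝ)) (lam d : ℝ) (F : ℂ × ℂ → ℂ),
      IsClosed P → 0 < lam → lam ≤ 1 / 64 → 0 < d → DifferentiableOn ℂ F (Saw P lam d) →
      (∀ q ∈ Saw P lam d, F q ≠ 0 ∧ F q ≠ 1) →
      (∀ e ∈ P, ∀ M : ℝ, ∃ δ > 0, ∀ q ∈ Cn e M, -δ < q.1.im →
        DifferentiableAt ℂ F q ∧ F q ≠ 0 ∧ F q ≠ 1) →
      ∀ᵐ e : ℝ × ℝ, e ∈ P → Alt T0 e0 Cs F e)
    {a g lam lam' r ρ η d₀ R' s' : ℝ} {z₀ : ℂ} {r₀ : ℝ}
    (ha : 0 ≤ a) (hg : 0 < g) (hr : 0 < r) (hρ : 0 < ρ)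
    (hρr : ρ * (16 * (a + 4)) ^ 2 ≤ min r g) (hη : 0 < η) (hlam' : 0 < lam') (hll : lam' ≤ lam)
    (hl64 : lam' ≤ 1 / 64) (hd₀ : 0 < d₀) (hR' : R' < R)
    (hdisc : closedBall z₀ r₀ ⊆ S)
    (hosc : ∀ b ∈ closedBall z₀ r₀, ∀ b' ∈ closedBall z₀ r₀, ‖T b - T b'‖ ≤ 1)
    {U : Set ℝ} (hU : volume U ≠ 0) (hUR : ∀ u ∈ U, |u - u0| ≤ R')
    (hUE : ∀ u ∈ U, ∀ s : ℝ, |s - s'| < η → E2 X L a g ρ η (s, u))
    (hUV : ∀ u ∈ U, volume {s : ℝ | |s - s'| < η ∧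
      Co lam' d₀ (s, u) ⊆ B ⁻¹' closedBall z₀ r₀} ≠ 0) :
    ∃ P, In5 S Z Zc T c φ p B h a g T0 e0 Cs lam r ρ P z₀ r₀ := by
  -- the closed set
  set C : Set (ℝ × ℝ) := {e | E2 X L a g ρ η e} ∩ ({e | Co lam' d₀ e ⊆ B ⁻¹' closedBall z₀ r₀} ∩
    {e | |e.2 - u0| ≤ R'}) with hCdef
  have hC : IsClosed C := (closed_E2 D.X_open a g ρ η).inter
    ((closed_Co lam' d₀ _).inter (isClosed_le (by fun_prop) continuous_const))
  have hC0 : volume C ≠ 0 := by
    refine planar_pos hC.measurableSet hU fun u hu h0 => hUV u hu (measure_mono_null ?_ h0)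
    rintro s ⟨h1, h2⟩
    exact ⟨hUE u hu s h1, h2, hUR u hu⟩
  -- limits
  have hlim := D.ae_lim hPB hPU
  obtain ⟨P1, hP1C, hP1c, hP1p, hP1N⟩ := exists_closed_diff hC hC0 (ae_iff.1 hlim)
  have hI : ∀ e ∈ C, e.2 ∈ Ioo (u0 - R) (u0 + R) := by
    intro e he
    obtain ⟨h1, h2⟩ := abs_le.1 (show |e.2 - u0| ≤ R' from he.2.2)
    exact ⟨by linarith, by linarith⟩
  have hL1 : ∀ e ∈ P1, ∃ b ∈ closedBall z₀ r₀, Lim B e b := by
    intro e he
    have h1 := hP1N e he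
    simp only [mem_ofPred_eq, not_not] at h1
    obtain ⟨b, hb, -⟩ := h1 (hI e (hP1C he))
    exact ⟨b, hb.mem_of_co hlam' hl64 hd₀ isClosed_closedBall (hP1C he).2.1, hb⟩
  -- Lemma G
  set F : ℂ × ℂ → ℂ := fun q => cexp (2 * I * (T (B q) - φ q)) with hF
  have hd1 : 0 < lam' * (R - R') := mul_pos hlam' (by linarith)
  set d := min (min d₀ dd) (lam' * (R - R')) with hd
  have hd0 : 0 < d := lt_min (lt_min hd₀ D.d_pos) hd1
  have hSaw : ∀ q ∈ Saw P1 lam' d, q ∈ Dp u0 R dd ∧ B q ∈ S := by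
    intro q hq
    obtain ⟨e, he, hqe⟩ := mem_Saw.1 hq
    exact ⟨Co_Dp (hP1C he).2.2 hlam' (min_le_right _ _)
      ((min_le_left _ _).trans (min_le_right _ _)) hqe,
      hdisc ((hP1C he).2.1 (Co_mono ((min_le_left _ _).trans (min_le_left _ _)) hqe))⟩
  have hae := hAlt P1 lam' d F hP1c hlam' hl64 hd0
    (fun q hq => (D.F_diff (hSaw q hq).1 (hSaw q hq).2).differentiableWithinAt)
    (fun q hq => ⟨Complex.exp_ne_zero _, D.omit1 q (hSaw q hq).1 (hSaw q hq).2⟩) (by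
      intro e he M
      obtain ⟨b, hb, hL⟩ := hL1 e he
      have h1 := hL M (D.S_open.mem_nhds (hdisc hb))
      obtain ⟨ε, hε, h2⟩ := Metric.mem_nhdsWithin_iff.1 h1
      obtain ⟨δ1, hδ1, h3⟩ := Cn_small e M hε
      obtain ⟨δ2, hδ2, h4⟩ := Cn_Dp D.d_pos (hI e (hP1C he)) M
      refine ⟨min δ1 δ2, lt_min hδ1 hδ2, fun q hq hqd => ?_⟩
      have h5 : q ∈ Dp u0 R dd := h4 q hq (by linarith [min_le_right δ1 δ2])
      have h6 : B q ∈ S := h2 ⟨(h3 q hq (by linarith [min_le_left δ1 δ2])).1, hq⟩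
      exact ⟨D.F_diff h5 h6, Complex.exp_ne_zero _, D.omit1 q h5 h6⟩)
  obtain ⟨P, hPP1, hPc, hPp, hPN⟩ := exists_closed_diff hP1c hP1p.ne' (ae_iff.1 hae)
  refine ⟨P, D.mk_In5 hBi ha hg hr hρ hρr hη hlam' hll hd₀ hR' hPc hPp hdisc hosc
    (fun e he => (hP1C (hPP1 he)).2.2) (fun e he => (hP1C (hPP1 he)).1)
    (fun e he => (hP1C (hPP1 he)).2.1) (fun e he => hL1 e (hPP1 he)) (fun e he => ?_)⟩
  have h1 := hPN e he
  simp only [mem_ofPred_eq, not_not] at h1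
  exact h1 (hPP1 he)

/-- **SUP** -/
theorem sup (h5 : Step5) (hPB : ProdBlow) (hPU : ProdUniq) (hAlt : AltAe) (hBi : BirthsOf) :
    Sup := by
  intro u0 R dd h S Z Zc T c φ p B X L D
  by_contra hcon
  have hlim := D.ae_lim hPB hPU
  have hlim1 := ae_swap' hlim
  -- the bad set
  set U0 : Set ℝ := {u | u ∈ Ioo (u0 - R) (u0 + R) ∧
    (∀ᵐ s : ℝ, ∃ b : ℂ, Lim B (s, u) b ∧ (b ∈ S ∨ |b.im| = h)) ∧
    ∃ s₀ a₀ g₀ : ℝ, GoodU X L u s₀ a₀ g₀ ∧ ¬ ∃ δ > 0, ∀ᵐ s : ℝ, |s - s₀| < δ →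
      ∃ b : ℂ, |b.im| = h ∧ Lim B (s, u) b} with hU0
  have hU0v : volume U0 ≠ 0 := by
    intro h0
    apply hcon
    have h1 : ∀ᵐ u : ℝ, u ∉ U0 := measure_eq_zero_iff_ae_notMem.1 h0
    filter_upwards [h1, hlim1] with u hu1 hu2 hu s₀ a₀ g₀ hgood
    by_contra h3
    exact hu1 ⟨hu, hu2.mono fun s hs => hs hu, s₀, a₀, g₀, hgood, h3⟩
  have hch : ∀ u ∈ U0, ∃ s₀ a₀ g₀ : ℝ, GoodU X L u s₀ a₀ g₀ ∧
      ∀ δ > 0, volume {s : ℝ | |s - s₀| < δ ∧ ∃ b ∈ S, Lim B (s, u) b} ≠ 0 := by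
    rintro u ⟨hu1, hu2, s₀, a₀, g₀, hgood, hno⟩
    refine ⟨s₀, a₀, g₀, hgood, fun δ hδ h0 => hno ⟨δ, hδ, ?_⟩⟩
    filter_upwards [hu2, measure_eq_zero_iff_ae_notMem.1 h0] with s hs1 hs2 hs3
    obtain ⟨b, hb, hb'⟩ := hs1
    rcases hb' with hb' | hb'
    · exact absurd ⟨hs3, b, hb', hb⟩ hs2
    · exact ⟨b, hb', hb⟩
  choose! s₀ a₀ g₀ hgood hpos using hch
  -- the gap
  obtain ⟨n, hn⟩ := exists_iUnion hU0v
    (s := fun n : ℕ => {u : ℝ | 2 * (1 / ((n : ℝ) + 1)) ≤ g₀ u ∧ a₀ u ≤ n}) (by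
      intro u hu
      obtain ⟨h1, h2, -⟩ := hgood u hu
      obtain ⟨n1, hn1⟩ := exists_nat_one_div_lt (show 0 < g₀ u / 2 by linarith)
      obtain ⟨n2, hn2⟩ := exists_nat_ge (a₀ u)
      refine mem_iUnion.2 ⟨max n1 n2, ?_, ?_⟩
      · have h3 : 1 / (((max n1 n2 : ℕ) : ℝ) + 1) ≤ 1 / ((n1 : ℝ) + 1) := by
          apply one_div_le_one_div_of_le (by positivity)
          have : (n1 : ℝ) ≤ ((max n1 n2 : ℕ) : ℝ) := by exact_mod_cast le_max_left _ _
          linarith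
        linarith
      · have : (n2 : ℝ) ≤ ((max n1 n2 : ℕ) : ℝ) := by exact_mod_cast le_max_right _ _
        linarith)
  set g : ℝ := 1 / ((n : ℝ) + 1) with hg
  have hg0 : 0 < g := by positivity
  obtain ⟨a, ha, haU⟩ := exists_level hn (f := a₀) (n := (n : ℝ))
    (fun u hu => ⟨(hgood u hu.1).1, hu.2.2⟩)
  obtain ⟨T0, e0, Cs, he0, hCs, hAlt⟩ := hAlt
  refine h5 S Z Zc T c φ p B h a g T0 e0 Cs D.S_open D.Z_deriv D.Zc_deriv D.T_diff.continuousOn
    D.c_cont ha.1 hg0 he0 hCs ?_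
  intro lam hlam r hr
  have ha0 : 0 ≤ a := ha.1
  -- constants
  obtain ⟨lam', hlam', hll, hl64⟩ : ∃ lam' : ℝ, 0 < lam' ∧ lam' ≤ lam ∧ lam' ≤ 1 / 64 :=
    ⟨min lam (1 / 64), lt_min hlam (by norm_num), min_le_left _ _, min_le_right _ _⟩
  obtain ⟨ρ, hρ, hρ1, hρr⟩ : ∃ ρ : ℝ, 0 < ρ ∧ ρ ≤ 1 ∧ ρ * (16 * (a + 4)) ^ 2 ≤ min r g := by
    have h1 : 0 < min r g := lt_min hr hg0
    have h2 : 0 < (16 * (a + 4)) ^ 2 := by positivity
    refine ⟨min 1 (min r g / (16 * (a + 4)) ^ 2), lt_min one_pos (by positivity),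
      min_le_left _ _, ?_⟩
    calc min 1 (min r g / (16 * (a + 4)) ^ 2) * (16 * (a + 4)) ^ 2
        ≤ (min r g / (16 * (a + 4)) ^ 2) * (16 * (a + 4)) ^ 2 := by
          gcongr
          exact min_le_right _ _
      _ = min r g := by field_simp
  have hU2 := haU (min (ρ / 4) g) (lt_min (by positivity) hg0)
  -- the countable selection
  obtain ⟨⟨k, i', m, i, l, j⟩, hidx⟩ := exists_iUnion hU2
    (s := fun x : ℕ × ℕ × ℕ × ℕ × ℕ × ℕ => {u : ℝ |
      |u - u0| ≤ R - 1 / ((x.2.2.1 : ℝ) + 1) ∧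
      (∀ s : ℝ, |s - TopologicalSpace.denseSeq ℝ x.2.1| < 1 / ((x.1 : ℝ) + 1) →
        E2 X L a g ρ (1 / ((x.1 : ℝ) + 1)) (s, u)) ∧
      GD S T x.2.2.2.1 x.2.2.2.2.1 ∧
      volume {s : ℝ | |s - TopologicalSpace.denseSeq ℝ x.2.1| < 1 / ((x.1 : ℝ) + 1) ∧
        Co lam' (1 / ((x.2.2.2.2.2 : ℝ) + 1)) (s, u) ⊆ B ⁻¹' closedBall
          (TopologicalSpace.denseSeq ℂ x.2.2.2.1) (1 / ((x.2.2.2.2.1 : ℝ) + 1))} ≠ 0}) (by
      rintro u ⟨⟨hu0, hu1, hu2⟩, hu3⟩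
      obtain ⟨-, -, hE⟩ := hgood u hu0
      obtain ⟨δ, hδ, hE⟩ := hE (ρ / 4) (by positivity)
      obtain ⟨k, hk⟩ := exists_nat_one_div_lt (show 0 < δ / 2 by positivity)
      have hk0 : 0 < 1 / ((k : ℝ) + 1) := by positivity
      obtain ⟨i', hi'⟩ := (TopologicalSpace.denseRange_denseSeq ℝ).exists_dist_lt (s₀ u)
        (show 0 < 1 / ((k : ℝ) + 1) / 2 by positivity)
      rw [Real.dist_eq] at hi'
      have hin : 0 < R - |u - u0| := by
        have := abs_lt.2 (show -R < u - u0 ∧ u - u0 < R from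
          ⟨by linarith [hu0.1.1], by linarith [hu0.1.2]⟩)
        linarith
      obtain ⟨m, hm⟩ := exists_nat_one_div_lt hin
      -- the set with limits
      set W : Set ℝ := {s | |s - TopologicalSpace.denseSeq ℝ i'| < 1 / ((k : ℝ) + 1) ∧
        ∃ b ∈ S, Lim B (s, u) b} with hW
      have hWv : volume W ≠ 0 := by
        intro h0
        refine hpos u hu0 (1 / ((k : ℝ) + 1) / 2) (by positivity) (measure_mono_null ?_ h0)
        rintro s ⟨hs1, hs2⟩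
        refine ⟨?_, hs2⟩
        calc |s - TopologicalSpace.denseSeq ℝ i'| ≤ |s - s₀ u| +
              |s₀ u - TopologicalSpace.denseSeq ℝ i'| := abs_sub_le _ _ _
          _ < 1 / ((k : ℝ) + 1) := by linarith
      obtain ⟨⟨i, l, j⟩, hijl⟩ := exists_iUnion hWv
        (s := fun x : ℕ × ℕ × ℕ => {s : ℝ | GD S T x.1 x.2.1 ∧
          Co lam' (1 / ((x.2.2 : ℝ) + 1)) (s, u) ⊆ B ⁻¹' closedBall
            (TopologicalSpace.denseSeq ℂ x.1) (1 / ((x.2.1 : ℝ) + 1))}) (by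
          rintro s ⟨-, b, hb, hL⟩
          obtain ⟨i, l, h1, h2⟩ := exists_GD D.S_open D.T_diff.continuousOn hb
          obtain ⟨j, hj⟩ := hL.exists_co hlam' (closedBall_mem_nhds_of_mem h2)
          exact mem_iUnion.2 ⟨(i, l, j), h1, hj⟩)
      have hne : (W ∩ {s : ℝ | GD S T i l ∧
          Co lam' (1 / ((j : ℝ) + 1)) (s, u) ⊆ B ⁻¹' closedBall
            (TopologicalSpace.denseSeq ℂ i) (1 / ((l : ℝ) + 1))}).Nonempty := by
        by_contra h1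
        rw [not_nonempty_iff_eq_empty] at h1
        apply hijl
        show volume (W ∩ {s : ℝ | GD S T i l ∧
          Co lam' (1 / ((j : ℝ) + 1)) (s, u) ⊆ B ⁻¹' closedBall
            (TopologicalSpace.denseSeq ℂ i) (1 / ((l : ℝ) + 1))}) = 0
        rw [h1, measure_empty]
      obtain ⟨s1, -, hGD, -⟩ := hne
      refine mem_iUnion.2 ⟨(k, i', m, i, l, j), ?_, ?_, hGD, ?_⟩
      · show |u - u0| ≤ R - 1 / ((m : ℝ) + 1)
        linarith
      · intro s hs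
        have hs' : |s - s₀ u| < δ := by
          calc |s - s₀ u| ≤ |s - TopologicalSpace.denseSeq ℝ i'| +
                |TopologicalSpace.denseSeq ℝ i' - s₀ u| := abs_sub_le _ _ _
            _ < δ := by
                rw [abs_sub_comm (TopologicalSpace.denseSeq ℝ i')]
                have hs0 : |s - TopologicalSpace.denseSeq ℝ i'| < 1 / ((k : ℝ) + 1) := hs
                linarith
        have h3 : |a₀ u - a| < ρ / 4 := lt_of_lt_of_le hu3 (min_le_left _ _)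
        have h4 : |a₀ u - a| < g := lt_of_lt_of_le hu3 (min_le_right _ _)
        have h5 : 2 * g ≤ g₀ u := hu1
        exact (hE s hs').transfer (by
          show 1 / ((k : ℝ) + 1) ≤ δ
          linarith) (by positivity) (by linarith) h3.le (by
          obtain ⟨h6, h7⟩ := abs_lt.1 h4
          linarith)
      · intro h0
        refine hijl (measure_mono_null ?_ h0)
        rintro s ⟨⟨h1, -⟩, -, h2⟩
        exact ⟨h1, h2⟩)
  set U3 := {u | u ∈ U0 ∩ {u : ℝ | 2 * (1 / ((n : ℝ) + 1)) ≤ g₀ u ∧ a₀ u ≤ n} ∧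
    |a₀ u - a| < min (ρ / 4) g} ∩ {u : ℝ |
      |u - u0| ≤ R - 1 / ((m : ℝ) + 1) ∧
      (∀ s : ℝ, |s - TopologicalSpace.denseSeq ℝ i'| < 1 / ((k : ℝ) + 1) →
        E2 X L a g ρ (1 / ((k : ℝ) + 1)) (s, u)) ∧
      GD S T i l ∧
      volume {s : ℝ | |s - TopologicalSpace.denseSeq ℝ i'| < 1 / ((k : ℝ) + 1) ∧
        Co lam' (1 / ((j : ℝ) + 1)) (s, u) ⊆ B ⁻¹' closedBall
          (TopologicalSpace.denseSeq ℂ i) (1 / ((l : ℝ) + 1))} ≠ 0} with hU3
  have hU3v : volume U3 ≠ 0 := hidx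
  have hne : U3.Nonempty := by
    by_contra h1
    rw [not_nonempty_iff_eq_empty] at h1
    apply hU3v
    rw [h1, measure_empty]
  obtain ⟨u1, -, -, -, hGD, -⟩ := hne
  obtain ⟨P, hP⟩ := D.planar hPB hPU hBi hAlt (a := a) (g := g) (lam := lam) (lam' := lam')
    (r := r) (ρ := ρ) (η := 1 / ((k : ℝ) + 1)) (d₀ := 1 / ((j : ℝ) + 1))
    (R' := R - 1 / ((m : ℝ) + 1)) (s' := TopologicalSpace.denseSeq ℝ i')
    (z₀ := TopologicalSpace.denseSeq ℂ i) (r₀ := 1 / ((l : ℝ) + 1)) ha0 hg0 hr hρ hρr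
    (by positivity) hlam' hll hl64 (by positivity) (by
      have : 0 < 1 / ((m : ℝ) + 1) := by positivity
      linarith) hGD.1 hGD.2 hU3v (fun u hu => hu.2.1) (fun u hu => hu.2.2.1)
    (fun u hu => hu.2.2.2.2)
  exact ⟨ρ, P, _, _, hρ, hρ1, hP⟩

end Crest.Agent.R102.Sup115
end
end

-- ▼ part R102/ProdBlow_115

/-!
Row 102, T1-B, III.2, LEAF 1: `prodBlow : ProdBlow` (helper115).

Tilt by `tl ε t = ε / (1 + exp t)` (bounded by `ε`, real and strictly decreasing on `ℝ`, `Im > 0` on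
`-1 < Im t < 0`), so that real slices `v` of `F (t, v) = B (t, v + tl ε t)` make sense; then 362's
`blow_im` with `U = 0`.
-/

set_option autoImplicit false

open Set Filter Topology Metric Complex MeasureTheory

noncomputable section

namespace Crest.Agent.R102.Sup115

open Crest.Agent.R102.End613 Crest.Agent.R102.S5

/-- the tilt -/
def tl (ε : ℝ) (t : ℂ) : ℂ := (ε : ℂ) * (1 + cexp t)⁻¹

/-- the tilt on the real axis -/
def tlr (ε : ℝ) (s : ℝ) : ℝ := ε * (1 + Real.exp s)⁻¹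

theorem tl_real (ε s : ℝ) : tl ε (s : ℂ) = (tlr ε s : ℂ) := by
  unfold tl tlr
  push_cast
  rfl

theorem tlr_pos {ε : ℝ} (hε : 0 < ε) (s : ℝ) : 0 < tlr ε s := by
  unfold tlr
  have := Real.exp_pos s
  positivity

theorem tlr_le {ε : ℝ} (hε : 0 < ε) (s : ℝ) : tlr ε s ≤ ε := by
  unfold tlr
  have h1 := Real.exp_pos s
  have h2 : (1 + Real.exp s)⁻¹ ≤ 1 := inv_le_one_of_one_le₀ (by linarith)
  nlinarith

theorem one_le_re {t : ℂ} (h0 : -1 < t.im) (h1 : t.im < 0) : 1 ≤ (1 + cexp t).re := by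
  have hc : 0 < Real.cos t.im :=
    Real.cos_pos_of_mem_Ioo ⟨by linarith [Real.pi_gt_three], by linarith [Real.pi_gt_three]⟩
  rw [add_re, one_re, exp_re]
  have := mul_pos (Real.exp_pos t.re) hc
  linarith

theorem one_im_neg {t : ℂ} (h0 : -1 < t.im) (h1 : t.im < 0) : (1 + cexp t).im < 0 := by
  have hs : Real.sin t.im < 0 :=
    Real.sin_neg_of_neg_of_neg_pi_lt h1 (by linarith [Real.pi_gt_three])
  rw [add_im, one_im, exp_im, zero_add]
  exact mul_neg_of_pos_of_neg (Real.exp_pos t.re) hs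

theorem one_ne {t : ℂ} (h0 : -1 < t.im) (h1 : t.im < 0) : 1 + cexp t ≠ 0 := by
  intro h
  have := one_le_re h0 h1
  rw [h, zero_re] at this
  linarith

theorem tl_im {ε : ℝ} (hε : 0 < ε) {t : ℂ} (h0 : -1 < t.im) (h1 : t.im < 0) :
    0 < (tl ε t).im := by
  unfold tl
  rw [im_ofReal_mul, inv_im]
  refine mul_pos hε (div_pos (by linarith [one_im_neg h0 h1]) ?_)
  exact normSq_pos.2 (one_ne h0 h1)

theorem tl_norm {ε : ℝ} (hε : 0 < ε) {t : ℂ} (h0 : -1 < t.im) (h1 : t.im < 0) :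
    ‖tl ε t‖ ≤ ε := by
  unfold tl
  rw [norm_mul, norm_inv, norm_real, Real.norm_eq_abs, abs_of_pos hε]
  have h2 : 1 ≤ ‖1 + cexp t‖ := (one_le_re h0 h1).trans (re_le_norm _)
  have h3 : ‖1 + cexp t‖⁻¹ ≤ 1 := inv_le_one_of_one_le₀ h2
  nlinarith

theorem tl_diffAt (ε : ℝ) {t : ℂ} (h : 1 + cexp t ≠ 0) : DifferentiableAt ℂ (tl ε) t := by
  unfold tl
  exact (((differentiableAt_const _).add differentiableAt_id.cexp).inv h).const_mul _

/-- expansion at a real point -/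
theorem tl_expand {ε : ℝ} (hε : 0 < ε) (s : ℝ) : ∃ κ : ℝ, 0 < κ ∧ ∀ c > 0, ∃ δ > 0, ∀ x : ℂ,
    ‖x‖ < δ → ‖tl ε (s + x) - tlr ε s + κ * x‖ ≤ c * ‖x‖ := by
  have hpos : 0 < 1 + Real.exp s := by positivity
  have hne : 1 + cexp (s : ℂ) ≠ 0 := by
    have : (1 : ℂ) + cexp (s : ℂ) = ((1 + Real.exp s : ℝ) : ℂ) := by push_cast; rfl
    rw [this]
    exact_mod_cast hpos.ne'
  have h1 : HasDerivAt (tl ε) (-((ε * Real.exp s / (1 + Real.exp s) ^ 2 : ℝ) : ℂ)) (s : ℂ) := by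
    have h2 : HasDerivAt (fun t : ℂ => 1 + cexp t) (cexp s) (s : ℂ) :=
      (Complex.hasDerivAt_exp _).const_add 1
    have h3 := (h2.inv hne).const_mul (ε : ℂ)
    refine h3.congr_deriv ?_
    push_cast
    ring
  refine ⟨ε * Real.exp s / (1 + Real.exp s) ^ 2, by positivity, fun c hc => ?_⟩
  rw [hasDerivAt_iff_isLittleO_nhds_zero] at h1
  obtain ⟨δ, hδ, h4⟩ := Metric.eventually_nhds_iff.1 (h1.def hc)
  refine ⟨δ, hδ, fun x hx => ?_⟩
  have h5 := h4 (y := x) (by rwa [dist_zero_right])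
  rw [tl_real] at h5
  refine le_trans (le_of_eq ?_) h5
  congr 1
  simp only [smul_eq_mul]
  ring

/-- the shear preserves null sets -/
theorem ae_shear (ε : ℝ) {P : ℝ × ℝ → Prop} (h : ∀ᵐ p : ℝ × ℝ, P p) :
    ∀ᵐ e : ℝ × ℝ, P (e.1, e.2 - tlr ε e.1) := by
  have hc : Continuous (tlr ε) := by
    unfold tlr
    have : ∀ x : ℝ, 1 + Real.exp x ≠ 0 := fun x => by positivity
    exact continuous_const.mul ((continuous_const.add Real.continuous_exp).inv₀ this)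
  have h1 : MeasurePreserving (fun p : ℝ × ℝ => (id p.1, p.2 - tlr ε p.1))
      ((volume : Measure ℝ).prod volume) ((volume : Measure ℝ).prod volume) := by
    refine MeasurePreserving.skew_product (g := fun a x => x - tlr ε a)
      (MeasurePreserving.id (volume : Measure ℝ)) ?_ (Eventually.of_forall fun a => ?_)
    · exact (continuous_snd.sub (hc.comp continuous_fst)).measurable
    · exact (measurePreserving_sub_right (volume : Measure ℝ) (tlr ε a)).map_eq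
  rw [← Measure.volume_eq_prod] at h1
  exact h1.quasiMeasurePreserving.ae h

set_option maxHeartbeats 1000000 in
theorem pb_eps {u0 R d h : ℝ} {B : ℂ × ℂ → ℂ} (hd : 0 < d) (hB : DifferentiableOn ℂ B (Dp u0 R d))
    (hM : ∀ q ∈ Dp u0 R d, |(B q).im| ≤ h) {ε : ℝ} (hε : 0 < ε) :
    ∀ᵐ p : ℝ × ℝ, p.2 ∈ Ioo (u0 - R + ε) (u0 + R - ε) → ∃ b : ℂ, ∀ M : ℝ,
      Tendsto B (𝓝[Cn (p.1, p.2 + tlr ε p.1) M] ((p.1 : ℂ), ((p.2 + tlr ε p.1 : ℝ) : ℂ)))
        (𝓝 b) := by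
  have hDpo : IsOpen (Dp u0 R d) := by
    have h1 : IsOpen {q : ℂ × ℂ | q.1.im < 0} :=
      isOpen_lt (continuous_im.comp continuous_fst) continuous_const
    have h2 : IsOpen {q : ℂ × ℂ | q.2 ∈ ball (u0 : ℂ) R} := isOpen_ball.preimage continuous_snd
    have h3 : IsOpen {q : ℂ × ℂ | 0 < q.2.im} :=
      isOpen_lt continuous_const (continuous_im.comp continuous_snd)
    have h4 : IsOpen {q : ℂ × ℂ | -d < q.1.im} :=
      isOpen_lt continuous_const (continuous_im.comp continuous_fst)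
    have : Dp u0 R d = {q : ℂ × ℂ | -d < q.1.im} ∩ ({q : ℂ × ℂ | q.1.im < 0} ∩
        ({q : ℂ × ℂ | q.2 ∈ ball (u0 : ℂ) R} ∩ {q : ℂ × ℂ | 0 < q.2.im})) := by
      ext q
      simp [Dp, HDu]
    rw [this]
    exact h4.inter (h1.inter (h2.inter h3))
  set St : Set (ℂ × ℂ) := {q | -1 < q.1.im ∧ q.1.im < 0} with hSt
  have hSto : IsOpen St :=
    (isOpen_lt continuous_const (continuous_im.comp continuous_fst)).inter
      (isOpen_lt (continuous_im.comp continuous_fst) continuous_const)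
  have htd : ∀ q ∈ St, DifferentiableAt ℂ (fun q : ℂ × ℂ => (q.1, q.2 + tl ε q.1)) q := by
    intro q hq
    have h1 : DifferentiableAt ℂ (fun q : ℂ × ℂ => tl ε q.1) q :=
      DifferentiableAt.comp (g := tl ε) (f := Prod.fst) q (tl_diffAt ε (one_ne hq.1 hq.2))
        differentiableAt_fst
    exact differentiableAt_fst.prodMk (differentiableAt_snd.add h1)
  have htc : ContinuousOn (fun q : ℂ × ℂ => (q.1, q.2 + tl ε q.1)) St :=
    fun q hq => (htd q hq).continuousAt.continuousWithinAt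
  set D : Set (ℂ × ℂ) := St ∩ (fun q : ℂ × ℂ => (q.1, q.2 + tl ε q.1)) ⁻¹' (Dp u0 R d) with hD
  have hDo : IsOpen D := htc.isOpen_inter_preimage hSto hDpo
  set F : ℂ × ℂ → ℂ := fun q => B (q.1, q.2 + tl ε q.1) with hF
  have hFd : DifferentiableOn ℂ F D := by
    intro q hq
    have h1 : DifferentiableAt ℂ B (q.1, q.2 + tl ε q.1) :=
      (hB _ hq.2).differentiableAt (hDpo.mem_nhds hq.2)
    exact (DifferentiableAt.comp (g := B) q h1 (htd q hq.1)).differentiableWithinAt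
  have hFM : ∀ q ∈ D, |(F q).im| ≤ h := fun q hq => hM _ hq.2
  have hsl : ∀ u ∈ Ioo (u0 - R + ε) (u0 + R - ε), ∀ t : ℂ, (0 : ℝ) - min 1 d < t.im →
      t.im < 0 → (t, (u : ℂ)) ∈ D := by
    intro u hu t ht0 ht1
    have h0 : -1 < t.im := by linarith [min_le_left 1 d]
    refine ⟨⟨h0, ht1⟩, by
      show -d < t.im
      linarith [min_le_right 1 d], ht1, ?_, ?_⟩
    · rw [mem_ball, dist_eq_norm]
      have h2 : (u : ℂ) + tl ε t - u0 = ((u - u0 : ℝ) : ℂ) + tl ε t := by push_cast; ring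
      calc ‖(u : ℂ) + tl ε t - u0‖ ≤ ‖((u - u0 : ℝ) : ℂ)‖ + ‖tl ε t‖ := by
            rw [h2]; exact norm_add_le _ _
        _ ≤ |u - u0| + ε := by
            rw [norm_real, Real.norm_eq_abs]
            linarith [tl_norm hε h0 ht1]
        _ < R := by
            have : |u - u0| < R - ε := abs_lt.2 ⟨by linarith [hu.1], by linarith [hu.2]⟩
            linarith
    · show 0 < ((u : ℂ) + tl ε t).im
      rw [add_im, ofReal_im, zero_add]
      exact tl_im hε h0 ht1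
  have key := Blow362.blow_im hDo hFd hFM measurableSet_Ioo (U := fun _ => (0 : ℝ))
    measurable_const (lt_min one_pos hd) hsl
  filter_upwards [key] with p hp hpS
  obtain ⟨b, -, -, hmain⟩ := hp hpS
  refine ⟨b, fun M => ?_⟩
  obtain ⟨κ, hκ, hexp⟩ := tl_expand hε p.1
  -- the limit domain
  set Ω : Set (ℂ × ℂ) := {q | q.1.im < 0 ∧ κ * q.1.im < q.2.im} with hΩ
  have hΩo : IsOpen Ω :=
    (isOpen_lt (continuous_im.comp continuous_fst) continuous_const).inter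
      (isOpen_lt (continuous_const.mul (continuous_im.comp continuous_fst))
        (continuous_im.comp continuous_snd))
  have hΩc : Convex ℝ Ω := by
    intro x hx y hy α β hα hβ hαβ
    have e1 : (α • x + β • y).1.im = α * x.1.im + β * y.1.im := by simp
    have e2 : (α • x + β • y).2.im = α * x.2.im + β * y.2.im := by simp
    obtain ⟨x1, x2⟩ := hx
    obtain ⟨y1, y2⟩ := hy
    show _ < _ ∧ _ < _
    rw [e1, e2]
    rcases hα.eq_or_lt with h0 | h0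
    · have : β = 1 := by linarith
      subst this
      rw [← h0]
      constructor <;> linarith
    · constructor
      · nlinarith [mul_pos h0 (neg_pos.2 x1), mul_nonneg hβ (neg_nonneg.2 y1.le)]
      · nlinarith [mul_pos h0 (sub_pos.2 x2), mul_nonneg hβ (sub_nonneg.2 y2.le)]
  have hC : ∃ C : ℝ, ∀ᶠ r : ℝ in 𝓝[>] 0,
      (∀ u ∈ Ioo (u0 - R + ε) (u0 + R - ε), |u - p.2| ≤ r → (0 : ℝ) - C * r ≤ 0) ∧
      ENNReal.ofReal (3 / 2 * r) ≤
        volume {u ∈ Ioo (u0 - R + ε) (u0 + R - ε) | |u - p.2| ≤ r ∧ (0 : ℝ) ≤ 0 + C * r} := by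
    refine ⟨0, ?_⟩
    have h1 : ∀ᶠ r : ℝ in 𝓝[>] 0, r < min (p.2 - (u0 - R + ε)) (u0 + R - ε - p.2) :=
      nhdsWithin_le_nhds (Iio_mem_nhds (lt_min (by linarith [hpS.1]) (by linarith [hpS.2])))
    filter_upwards [h1, self_mem_nhdsWithin] with r hr hr0
    have hr0' : (0 : ℝ) < r := hr0
    refine ⟨fun u _ _ => by simp, ?_⟩
    have h2 : Icc (p.2 - r) (p.2 + r) ⊆ {u ∈ Ioo (u0 - R + ε) (u0 + R - ε) | |u - p.2| ≤ r ∧
        (0 : ℝ) ≤ 0 + 0 * r} := by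
      intro u hu
      have h3 := hr.trans_le (min_le_left _ _)
      have h4 := hr.trans_le (min_le_right _ _)
      exact ⟨⟨by linarith [hu.1], by linarith [hu.2]⟩,
        abs_le.2 ⟨by linarith [hu.1], by linarith [hu.2]⟩, by simp⟩
    refine le_trans ?_ (measure_mono h2)
    rw [Real.volume_Icc]
    exact ENNReal.ofReal_le_ofReal (by linarith)
  have hexh : ∀ K ⊆ Ω, IsCompact K → ∀ᶠ η : ℝ in 𝓝[>] 0, ∀ q ∈ K,
      ((p.1 : ℂ) + ((0 : ℝ) : ℂ) * I + η * q.1, (p.2 : ℂ) + η * q.2) ∈ D := by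
    intro K hK hKc
    rcases K.eq_empty_or_nonempty with hKe | hKne
    · rw [hKe]; exact Eventually.of_forall fun η q hq => absurd hq (notMem_empty _)
    obtain ⟨A, hA⟩ := hKc.isBounded.subset_closedBall (0 : ℂ × ℂ)
    have hA0 : 0 ≤ A := by
      obtain ⟨q, hq⟩ := hKne
      have := hA hq
      rw [mem_closedBall, dist_zero_right] at this
      exact (norm_nonneg _).trans this
    -- margin
    obtain ⟨m, hm, hmK⟩ : ∃ m > 0, ∀ q ∈ K, κ * q.1.im + m ≤ q.2.im := by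
      obtain ⟨q1, hq1, hmin⟩ := hKc.exists_isMinOn hKne
        (f := fun q : ℂ × ℂ => q.2.im - κ * q.1.im) (by fun_prop)
      refine ⟨q1.2.im - κ * q1.1.im, by have := (hK hq1).2; linarith, fun q hq => ?_⟩
      have : q1.2.im - κ * q1.1.im ≤ q.2.im - κ * q.1.im := hmin hq
      linarith
    have hcpos : 0 < m / (2 * (A + 1)) := by positivity
    obtain ⟨δ, hδ, hexp'⟩ := hexp _ hcpos
    have hgap : 0 < R - ε - |p.2 - u0| := by
      have : |p.2 - u0| < R - ε := abs_lt.2 ⟨by linarith [hpS.1], by linarith [hpS.2]⟩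
      linarith
    have f1 : ∀ᶠ η : ℝ in 𝓝[>] 0, η * (A + 1) < δ := by
      have : Tendsto (fun η : ℝ => η * (A + 1)) (𝓝[>] 0) (𝓝 (0 * (A + 1))) :=
        (tendsto_id.mul_const _).mono_left nhdsWithin_le_nhds
      rw [zero_mul] at this
      exact this.eventually (gt_mem_nhds hδ)
    have f2 : ∀ᶠ η : ℝ in 𝓝[>] 0, η * (A + 1) < min 1 d := by
      have : Tendsto (fun η : ℝ => η * (A + 1)) (𝓝[>] 0) (𝓝 (0 * (A + 1))) :=
        (tendsto_id.mul_const _).mono_left nhdsWithin_le_nhds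
      rw [zero_mul] at this
      exact this.eventually (gt_mem_nhds (lt_min one_pos hd))
    have f3 : ∀ᶠ η : ℝ in 𝓝[>] 0, η * (A + 1) < R - ε - |p.2 - u0| := by
      have : Tendsto (fun η : ℝ => η * (A + 1)) (𝓝[>] 0) (𝓝 (0 * (A + 1))) :=
        (tendsto_id.mul_const _).mono_left nhdsWithin_le_nhds
      rw [zero_mul] at this
      exact this.eventually (gt_mem_nhds hgap)
    filter_upwards [f1, f2, f3, self_mem_nhdsWithin] with η g1 g2 g3 hη0 q hq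
    have hη : (0 : ℝ) < η := hη0
    have hqA := hA hq
    rw [mem_closedBall, dist_zero_right] at hqA
    have hq1 : ‖q.1‖ ≤ A := (norm_fst_le q).trans hqA
    have hq2 : ‖q.2‖ ≤ A := (norm_snd_le q).trans hqA
    have e0 : (p.1 : ℂ) + ((0 : ℝ) : ℂ) * I + η * q.1 = (p.1 : ℂ) + η * q.1 := by
      push_cast; ring
    rw [e0]
    have him1 : ((p.1 : ℂ) + η * q.1).im = η * q.1.im := by simp
    have hneg : ((p.1 : ℂ) + η * q.1).im < 0 := by
      rw [him1]; exact mul_neg_of_pos_of_neg hη (hK hq).1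
    have hgt' : -(min 1 d) < ((p.1 : ℂ) + η * q.1).im := by
      rw [him1]
      have h1 : |q.1.im| ≤ A := (abs_im_le_norm _).trans hq1
      have h2 := (abs_le.1 h1).1
      nlinarith
    have hgt : -1 < ((p.1 : ℂ) + η * q.1).im := by linarith [min_le_left 1 d]
    refine ⟨⟨hgt, hneg⟩, by
      show -d < ((p.1 : ℂ) + η * q.1).im
      linarith [min_le_right 1 d], hneg, ?_, ?_⟩
    · rw [mem_ball, dist_eq_norm]
      show ‖(p.2 : ℂ) + η * q.2 + tl ε (p.1 + η * q.1) - u0‖ < R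
      have h2 : (p.2 : ℂ) + η * q.2 + tl ε (p.1 + η * q.1) - u0 =
          ((p.2 - u0 : ℝ) : ℂ) + η * q.2 + tl ε (p.1 + η * q.1) := by push_cast; ring
      rw [h2]
      calc ‖((p.2 - u0 : ℝ) : ℂ) + η * q.2 + tl ε (p.1 + η * q.1)‖
          ≤ ‖((p.2 - u0 : ℝ) : ℂ)‖ + ‖(η : ℂ) * q.2‖ + ‖tl ε (p.1 + η * q.1)‖ :=
            norm_add₃_le
        _ ≤ |p.2 - u0| + η * A + ε := by
            rw [norm_real, Real.norm_eq_abs, norm_mul, norm_real, Real.norm_eq_abs,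
              abs_of_pos hη]
            have := tl_norm hε hgt hneg
            have := mul_le_mul_of_nonneg_left hq2 hη.le
            linarith
        _ < R := by nlinarith
    · show 0 < ((p.2 : ℂ) + η * q.2 + tl ε (p.1 + η * q.1)).im
      have h1 := hexp' ((η : ℂ) * q.1) (by
        rw [norm_mul, norm_real, Real.norm_eq_abs, abs_of_pos hη]
        nlinarith)
      rw [norm_mul, norm_real, Real.norm_eq_abs, abs_of_pos hη] at h1
      have h2 := (abs_im_le_norm _).trans h1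
      have h3 : (tl ε (↑p.1 + ↑η * q.1) - ↑(tlr ε p.1) + ↑κ * (↑η * q.1)).im =
          (tl ε (↑p.1 + ↑η * q.1)).im + κ * (η * q.1.im) := by simp
      rw [h3] at h2
      have h4 := (abs_le.1 h2).1
      have h5 : m / (2 * (A + 1)) * (η * ‖q.1‖) ≤ η * m / 2 := by
        have : ‖q.1‖ ≤ A + 1 := by linarith
        calc m / (2 * (A + 1)) * (η * ‖q.1‖) ≤ m / (2 * (A + 1)) * (η * (A + 1)) := by gcongr
          _ = η * m / 2 := by field_simp
      have h6 := mul_le_mul_of_nonneg_left (hmK q hq) hη.le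
      have h7 : ((p.2 : ℂ) + η * q.2 + tl ε (p.1 + η * q.1)).im =
          η * q.2.im + (tl ε (↑p.1 + ↑η * q.1)).im := by simp
      rw [h7]
      have h8 : 0 < η * m := mul_pos hη hm
      nlinarith
  have hlim := hmain hC Ω hΩo hΩc.isPreconnected ⟨-I, by simp, by simp [hΩ, hκ]⟩ hexh
  -- the cone
  rcases le_or_gt M 0 with hM0 | hM0
  · have : Cn (p.1, p.2 + tlr ε p.1) M = ∅ := by
      ext q
      simp only [mem_empty_iff_false, iff_false]
      rintro ⟨h1, h2, h3⟩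
      have h4 : M * (-q.1.im) ≤ 0 := mul_nonpos_of_nonpos_of_nonneg hM0 (by linarith)
      have h5 : 0 ≤ |q.1.re - (p.1, p.2 + tlr ε p.1).1| := abs_nonneg _
      have h6 : ‖q.2 - ((p.1, p.2 + tlr ε p.1).2 : ℂ)‖ = 0 :=
        le_antisymm (by linarith) (norm_nonneg _)
      have h7 : q.2.im = 0 := by
        rw [sub_eq_zero.1 (norm_eq_zero.1 h6), ofReal_im]
      rw [h7, mul_zero] at h2
      linarith
    rw [this, nhdsWithin_empty]
    exact tendsto_bot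
  -- compact set
  set K : Set (ℂ × ℂ) := {q | q.1.im = -1 ∧ ‖q.1‖ ≤ M + 1 ∧ ‖q.2‖ ≤ M + (κ + 1) * (M + 1) ∧
    -κ + 1 / (2 * M) ≤ q.2.im} with hKdef
  have hKcl : IsClosed K := by
    exact (isClosed_eq (continuous_im.comp continuous_fst) continuous_const).inter
      ((isClosed_le (continuous_norm.comp continuous_fst) continuous_const).inter
        ((isClosed_le (continuous_norm.comp continuous_snd) continuous_const).inter
          (isClosed_le continuous_const (continuous_im.comp continuous_snd))))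
  have hKb : K ⊆ closedBall (0 : ℂ) (M + 1) ×ˢ closedBall (0 : ℂ) (M + (κ + 1) * (M + 1)) := by
    rintro q ⟨-, h1, h2, -⟩
    exact ⟨by rwa [mem_closedBall, dist_zero_right], by rwa [mem_closedBall, dist_zero_right]⟩
  have hKc : IsCompact K :=
    ((isCompact_closedBall _ _).prod (isCompact_closedBall _ _)).of_isClosed_subset hKcl hKb
  have hKΩ : K ⊆ Ω := by
    rintro q ⟨h1, -, -, h2⟩
    have : 0 < 1 / (2 * M) := by positivity
    refine ⟨by linarith, ?_⟩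
    rw [h1]
    linarith
  have hun := (tendstoLocallyUniformlyOn_iff_forall_isCompact hΩo).1 hlim K hKΩ hKc
  rw [Metric.tendsto_nhds]
  intro ε' hε'
  have hun' := Metric.tendstoUniformlyOn_iff.1 hun ε' hε'
  -- `η (q) = - Im q.1`
  have hη : Tendsto (fun q : ℂ × ℂ => -q.1.im)
      (𝓝[Cn (p.1, p.2 + tlr ε p.1) M] ((p.1 : ℂ), ((p.2 + tlr ε p.1 : ℝ) : ℂ))) (𝓝[>] 0) := by
    refine tendsto_nhdsWithin_iff.2 ⟨?_, ?_⟩
    · have : Tendsto (fun q : ℂ × ℂ => -q.1.im) (𝓝 ((p.1 : ℂ), ((p.2 + tlr ε p.1 : ℝ) : ℂ)))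
          (𝓝 (-(((p.1 : ℂ), ((p.2 + tlr ε p.1 : ℝ) : ℂ)) : ℂ × ℂ).1.im)) :=
        (by fun_prop : Continuous fun q : ℂ × ℂ => -q.1.im).tendsto _
      simp only [ofReal_im, neg_zero] at this
      exact this.mono_left nhdsWithin_le_nhds
    · filter_upwards [self_mem_nhdsWithin] with q hq
      show (0 : ℝ) < -q.1.im
      linarith [hq.1]
  have hcpos : 0 < min 1 (1 / (2 * M)) / (M + 1) := by
    have : 0 < min 1 (1 / (2 * M)) := lt_min one_pos (by positivity)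
    positivity
  obtain ⟨δ, hδ, hexp'⟩ := hexp _ hcpos
  have hsm : ∀ᶠ q : ℂ × ℂ in 𝓝[Cn (p.1, p.2 + tlr ε p.1) M]
      ((p.1 : ℂ), ((p.2 + tlr ε p.1 : ℝ) : ℂ)), (M + 1) * (-q.1.im) < δ := by
    have h1 : Tendsto (fun q : ℂ × ℂ => (M + 1) * (-q.1.im))
      (𝓝[Cn (p.1, p.2 + tlr ε p.1) M] ((p.1 : ℂ), ((p.2 + tlr ε p.1 : ℝ) : ℂ)))
      (𝓝 ((M + 1) * 0)) := (hη.mono_right nhdsWithin_le_nhds).const_mul _
    rw [mul_zero] at h1
    exact h1.eventually (gt_mem_nhds hδ)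
  filter_upwards [hη.eventually hun', hsm, self_mem_nhdsWithin] with q h1 h2 hq
  obtain ⟨hq1, hq2, hq3⟩ := hq
  set η : ℝ := -q.1.im with hηdef
  have hη0 : 0 < η := by rw [hηdef]; linarith
  have hηc : (η : ℂ) ≠ 0 := by exact_mod_cast hη0.ne'
  simp only at hq3
  have ha : |q.1.re - p.1| ≤ M * η := by
    have := norm_nonneg (q.2 - ((p.2 + tlr ε p.1 : ℝ) : ℂ))
    linarith
  have hb : ‖q.2 - ((p.2 + tlr ε p.1 : ℝ) : ℂ)‖ ≤ M * η := by
    have := abs_nonneg (q.1.re - p.1)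
    linarith
  set x : ℂ := q.1 - p.1 with hx
  have hxn : ‖x‖ ≤ (M + 1) * η := by
    have h3 : x.re = q.1.re - p.1 := by simp [hx]
    have h4 : x.im = -η := by simp [hx, hηdef]
    have h5 := norm_le_abs_re_add_abs_im x
    rw [h3, h4, abs_neg, abs_of_pos hη0] at h5
    linarith
  have hex := hexp' x (by linarith)
  have hpx : (p.1 : ℂ) + x = q.1 := by rw [hx]; ring
  rw [hpx] at hex
  have hex2 : ‖tl ε q.1 - ↑(tlr ε p.1) + ↑κ * x‖ ≤ min 1 (1 / (2 * M)) * η := by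
    refine hex.trans ?_
    calc min 1 (1 / (2 * M)) / (M + 1) * ‖x‖
        ≤ min 1 (1 / (2 * M)) / (M + 1) * ((M + 1) * η) := by gcongr
      _ = min 1 (1 / (2 * M)) * η := by field_simp
  -- the blown-up point
  set T : ℂ := x / η with hT
  set ζ : ℂ := (q.2 - tl ε q.1 - p.2) / η with hζ
  have hTη : (η : ℂ) * T = x := by rw [hT]; field_simp
  have hζη : (η : ℂ) * ζ = q.2 - tl ε q.1 - p.2 := by rw [hζ]; field_simp
  have hζ' : q.2 - tl ε q.1 - p.2 = (q.2 - ((p.2 + tlr ε p.1 : ℝ) : ℂ)) -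
      (tl ε q.1 - ↑(tlr ε p.1) + ↑κ * x) + κ * x := by push_cast; ring
  have hTK : (T, ζ) ∈ K := by
    refine ⟨?_, ?_, ?_, ?_⟩
    · have : (η * T.im : ℝ) = x.im := by rw [← hTη]; simp
      have h4 : x.im = -η := by simp [hx, hηdef]
      rw [h4] at this
      have h5 : η * (T.im + 1) = 0 := by linarith
      rcases mul_eq_zero.1 h5 with h6 | h6
      · exact absurd h6 hη0.ne'
      · show T.im = -1
        linarith
    · show ‖T‖ ≤ M + 1
      rw [hT, norm_div, norm_real, Real.norm_eq_abs, abs_of_pos hη0, div_le_iff₀ hη0]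
      exact hxn
    · show ‖ζ‖ ≤ _
      rw [hζ, norm_div, norm_real, Real.norm_eq_abs, abs_of_pos hη0, div_le_iff₀ hη0, hζ']
      have h4 : ‖(κ : ℂ) * x‖ ≤ κ * ((M + 1) * η) := by
        rw [norm_mul, norm_real, Real.norm_eq_abs, abs_of_pos hκ]
        gcongr
      have h5 : min 1 (1 / (2 * M)) * η ≤ 1 * η := by
        have := min_le_left 1 (1 / (2 * M))
        gcongr
      have h6 : ‖(q.2 - ((p.2 + tlr ε p.1 : ℝ) : ℂ)) -
          (tl ε q.1 - ↑(tlr ε p.1) + ↑κ * x) + κ * x‖ ≤ M * η + 1 * η + κ * ((M + 1) * η) :=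
        (norm_add_le _ _).trans (add_le_add ((norm_sub_le _ _).trans
          (add_le_add hb (hex2.trans h5))) h4)
      refine h6.trans ?_
      nlinarith [mul_pos hM0 hη0]
    · show -κ + 1 / (2 * M) ≤ ζ.im
      have h4 : η * ζ.im = (q.2 - tl ε q.1 - p.2).im := by rw [← hζη]; simp
      rw [hζ'] at h4
      have h5 : ((q.2 - ((p.2 + tlr ε p.1 : ℝ) : ℂ)) -
          (tl ε q.1 - ↑(tlr ε p.1) + ↑κ * x) + κ * x).im = q.2.im -
          (tl ε q.1 - ↑(tlr ε p.1) + ↑κ * x).im + κ * x.im := by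
        rw [add_im, sub_im, sub_im, ofReal_im, im_ofReal_mul]
        ring
      have h6 : x.im = -η := by simp [hx, hηdef]
      have h7 := (abs_im_le_norm _).trans hex2
      have h8 : min 1 (1 / (2 * M)) * η ≤ 1 / (2 * M) * η := by
        have := min_le_right 1 (1 / (2 * M))
        gcongr
      have h9 := (abs_le.1 h7).2
      have h10 : η / M ≤ q.2.im := by
        rw [div_le_iff₀ hM0]
        linarith
      have h11 : η * (-κ + 1 / (2 * M)) ≤ η * ζ.im := by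
        rw [h4, h5, h6]
        have h12 : η / M = 1 / (2 * M) * η + 1 / (2 * M) * η := by field_simp; ring
        nlinarith
      exact le_of_mul_le_mul_left h11 hη0
  have hfin := h1 (T, ζ) hTK
  rw [dist_comm] at hfin
  refine lt_of_eq_of_lt ?_ hfin
  congr 1
  show B q = B _
  congr 1
  have e1 : (p.1 : ℂ) + ((0 : ℝ) : ℂ) * I + η * T = q.1 := by
    rw [hTη, hx]; push_cast; ring
  have e2 : (p.2 : ℂ) + η * ζ = q.2 - tl ε q.1 := by rw [hζη]; ring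
  simp only [e1, e2]
  ext <;> simp

/-- **LEAF 1** -/
theorem prodBlow : ProdBlow := by
  intro u0 R d h B _ hd hB hM
  have h1 : ∀ n : ℕ, ∀ᵐ e : ℝ × ℝ, e.2 - tlr (1 / ((n : ℝ) + 1)) e.1 ∈
      Ioo (u0 - R + 1 / ((n : ℝ) + 1)) (u0 + R - 1 / ((n : ℝ) + 1)) → ∃ b : ℂ, ∀ M : ℝ,
      Tendsto B (𝓝[Cn e M] ((e.1 : ℂ), (e.2 : ℂ))) (𝓝 b) := by
    intro n
    filter_upwards [ae_shear (1 / ((n : ℝ) + 1))
      (pb_eps hd hB hM (show (0 : ℝ) < 1 / ((n : ℝ) + 1) by positivity))] with e he hn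
    have := he hn
    simp only [sub_add_cancel] at this
    exact this
  filter_upwards [ae_all_iff.2 h1] with e he hI
  have hgap : 0 < min (e.2 - (u0 - R)) (u0 + R - e.2) :=
    lt_min (by linarith [hI.1]) (by linarith [hI.2])
  obtain ⟨n, hn⟩ := exists_nat_one_div_lt (show (0 : ℝ) <
    min (e.2 - (u0 - R)) (u0 + R - e.2) / 2 by positivity)
  refine he n ?_
  have hε : (0 : ℝ) < 1 / ((n : ℝ) + 1) := by positivity
  have h2 := tlr_pos hε e.1
  have h3 := tlr_le hε e.1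
  have h4 := min_le_left (e.2 - (u0 - R)) (u0 + R - e.2)
  have h5 := min_le_right (e.2 - (u0 - R)) (u0 + R - e.2)
  constructor <;> linarith

end Crest.Agent.R102.Sup115
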