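import Mathlib
import Crest.Agent.R102.SupDefs_115
import Crest.Agent.R102.LP_472
import Crest.Agent.R102.BishopDefs_120
import Crest.Agent.R102.Tilt_620
import Crest.Agent.R102.BishopAsm_942
import Crest.Agent.R102.DiscT_669
import Crest.Agent.R102.Chain_864
import Crest.Agent.R102.Step5_613
import Crest.Agent.R102.ProdBlow_115_Mg
import Crest.Agent.R102.AltAe_613
import Crest.Agent.R102.BirthsOf_150

-- ▼ part R102/ProdUniqT_725
section

/-!
Row 102, T1-B, III.2, LEAF 2 of `SupDefs_115` (helper725): `ProdUniq` = Lusin–Privalov uniqueness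
for the product edge, from `LP472.lusin_privalov` on the tilted lines `ζ ↦ (a - ζ, ζ/4)`.
-/

set_option autoImplicit false

open Set Filter Topology Metric Complex MeasureTheory

noncomputable section

namespace Crest.Agent.R102.ProdUniqT725

open Crest.Agent.R102.S5 Crest.Agent.R102.Sup115 Crest.Agent.R102.LP472

/-- the open cone at `e` -/
def Co (e : ℝ × ℝ) : Set (ℂ × ℂ) :=
  {q | q.1.im < 0 ∧ -q.1.im < 8 * q.2.im ∧ |q.1.re - e.1| + ‖q.2 - (e.2 : ℂ)‖ < 8 * (-q.1.im)}

theorem Co_sub (e : ℝ × ℝ) : Co e ⊆ Cn e 8 := fun _ hq => ⟨hq.1, hq.2.1.le, hq.2.2.le⟩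

/-- the closed sets -/
def G (B : ℂ × ℂ → ℂ) (z : ℂ) (n m : ℕ) : Set (ℝ × ℝ) :=
  {e | ∀ q ∈ Co e, dist q ((e.1 : ℂ), (e.2 : ℂ)) < 1 / (m + 1) → ‖B q - z‖ ≤ 1 / (n + 1)}

theorem isClosed_G (B : ℂ × ℂ → ℂ) (z : ℂ) (n m : ℕ) : IsClosed (G B z n m) := by
  have h : G B z n m = ⋂ q : ℂ × ℂ, {e : ℝ × ℝ | q ∈ Co e ∧
      dist q ((e.1 : ℂ), (e.2 : ℂ)) < 1 / (m + 1) → ‖B q - z‖ ≤ 1 / (n + 1)} := by
    ext e; simp only [G, mem_ofPred_eq, mem_iInter, and_imp]
  rw [h]
  refine isClosed_iInter fun q => ?_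
  by_cases hq : ‖B q - z‖ ≤ 1 / (n + 1)
  · have : {e : ℝ × ℝ | q ∈ Co e ∧
        dist q ((e.1 : ℂ), (e.2 : ℂ)) < 1 / (m + 1) → ‖B q - z‖ ≤ 1 / (n + 1)} = univ := by
      ext e; simp only [mem_ofPred_eq, mem_univ, iff_true]; exact fun _ => hq
    rw [this]; exact isClosed_univ
  · have : {e : ℝ × ℝ | q ∈ Co e ∧
        dist q ((e.1 : ℂ), (e.2 : ℂ)) < 1 / (m + 1) → ‖B q - z‖ ≤ 1 / (n + 1)} =
        {e : ℝ × ℝ | q ∈ Co e ∧ dist q ((e.1 : ℂ), (e.2 : ℂ)) < 1 / (m + 1)}ᶜ := by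
      ext e; simp only [mem_ofPred_eq, mem_compl_iff]
      exact ⟨fun h1 h2 => hq (h1 h2), fun h1 h2 => absurd h2 h1⟩
    rw [this, isClosed_compl_iff]
    have c1 : Continuous fun e : ℝ × ℝ => |q.1.re - e.1| + ‖q.2 - (e.2 : ℂ)‖ := by fun_prop
    have c2 : Continuous fun e : ℝ × ℝ => dist q ((e.1 : ℂ), (e.2 : ℂ)) := by fun_prop
    have o1 : IsOpen {e : ℝ × ℝ | |q.1.re - e.1| + ‖q.2 - (e.2 : ℂ)‖ < 8 * (-q.1.im)} :=
      isOpen_lt c1 continuous_const
    have o2 : IsOpen {e : ℝ × ℝ | dist q ((e.1 : ℂ), (e.2 : ℂ)) < 1 / (m + 1)} :=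
      isOpen_lt c2 continuous_const
    by_cases h1 : q.1.im < 0 ∧ -q.1.im < 8 * q.2.im
    · have : {e : ℝ × ℝ | q ∈ Co e ∧ dist q ((e.1 : ℂ), (e.2 : ℂ)) < 1 / (m + 1)} =
          {e : ℝ × ℝ | |q.1.re - e.1| + ‖q.2 - (e.2 : ℂ)‖ < 8 * (-q.1.im)} ∩
          {e : ℝ × ℝ | dist q ((e.1 : ℂ), (e.2 : ℂ)) < 1 / (m + 1)} := by
        ext e; simp only [Co, mem_ofPred_eq, mem_inter_iff]
        exact ⟨fun h => ⟨h.1.2.2, h.2⟩, fun h => ⟨⟨h1.1, h1.2, h.1⟩, h.2⟩⟩
      rw [this]; exact o1.inter o2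
    · have : {e : ℝ × ℝ | q ∈ Co e ∧ dist q ((e.1 : ℂ), (e.2 : ℂ)) < 1 / (m + 1)} = ∅ := by
        ext e; simp only [Co, mem_ofPred_eq, mem_empty_iff_false, iff_false]
        rintro ⟨h, -⟩; exact h1 ⟨h.1, h.2.1⟩
      rw [this]; exact isOpen_empty

/-- measurable hull of the bad set -/
def Bd (u0 R : ℝ) (B : ℂ × ℂ → ℂ) (z : ℂ) : Set (ℝ × ℝ) :=
  {e | e.2 ∈ Ioo (u0 - R) (u0 + R)} ∩ ⋂ n : ℕ, ⋃ m : ℕ, G B z n m

theorem measurable_Bd (u0 R : ℝ) (B : ℂ × ℂ → ℂ) (z : ℂ) : MeasurableSet (Bd u0 R B z) := by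
  refine MeasurableSet.inter (measurable_snd measurableSet_Ioo) ?_
  exact MeasurableSet.iInter fun n => MeasurableSet.iUnion fun m => (isClosed_G B z n m).measurableSet

theorem bad_sub {u0 R : ℝ} {B : ℂ × ℂ → ℂ} {z : ℂ} {e : ℝ × ℝ}
    (he : e.2 ∈ Ioo (u0 - R) (u0 + R))
    (hl : Tendsto B (𝓝[Cn e 8] ((e.1 : ℂ), (e.2 : ℂ))) (𝓝 z)) : e ∈ Bd u0 R B z := by
  refine ⟨he, mem_iInter.2 fun n => ?_⟩
  have hn : (0 : ℝ) < 1 / (n + 1) := by positivity
  have h1 := hl (Metric.closedBall_mem_nhds z hn)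
  rw [Filter.mem_map, mem_nhdsWithin] at h1
  obtain ⟨U, hU, heU, hUs⟩ := h1
  obtain ⟨δ, hδ, hδU⟩ := Metric.isOpen_iff.1 hU _ heU
  obtain ⟨m, hm⟩ := exists_nat_one_div_lt hδ
  refine mem_iUnion.2 ⟨m, fun q hq hd => ?_⟩
  have h2 : q ∈ U := hδU (by rw [Metric.mem_ball]; exact hd.trans hm)
  have h3 := hUs ⟨h2, Co_sub e hq⟩
  rw [mem_preimage, Metric.mem_closedBall, dist_eq_norm] at h3
  exact h3

theorem Bd_lim {u0 R : ℝ} {B : ℂ × ℂ → ℂ} {z : ℂ} {e : ℝ × ℝ} (he : e ∈ Bd u0 R B z) :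
    ∀ ε > 0, ∃ δ > 0, ∀ q ∈ Co e, dist q ((e.1 : ℂ), (e.2 : ℂ)) < δ → ‖B q - z‖ < ε := by
  intro ε hε
  obtain ⟨n, hn⟩ := exists_nat_one_div_lt hε
  obtain ⟨m, hm⟩ := mem_iUnion.1 (mem_iInter.1 he.2 n)
  exact ⟨1 / (m + 1), by positivity, fun q hq hd => (hm q hq hd).trans_lt hn⟩

/-- the product domain, truncated below -/
def DT (u0 R d : ℝ) : Set (ℂ × ℂ) := {q | -d < q.1.im ∧ q.1.im < 0 ∧ q.2 ∈ HDu u0 R}

/-- the truncated half disc in the parameter `ζ` -/
def V (u0 R d : ℝ) : Set ℂ := {ζ | (0 < ζ.im ∧ ζ.im < d) ∧ ‖ζ / 4 - (u0 : ℂ)‖ < R}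

theorem isOpen_V (u0 R d : ℝ) : IsOpen (V u0 R d) :=
  ((isOpen_lt continuous_const Complex.continuous_im).inter
    (isOpen_lt Complex.continuous_im continuous_const)).inter
    (isOpen_lt (by fun_prop : Continuous fun ζ : ℂ => ‖ζ / 4 - (u0 : ℂ)‖) continuous_const)

theorem convex_V (u0 R d : ℝ) : Convex ℝ (V u0 R d) := by
  have h1 : Convex ℝ {ζ : ℂ | 0 < ζ.im ∧ ζ.im < d} :=
    (convex_halfSpace_im_gt 0).inter (convex_halfSpace_im_lt d)
  have h2 : Convex ℝ {ζ : ℂ | ‖ζ / 4 - (u0 : ℂ)‖ < R} := by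
    have : {ζ : ℂ | ‖ζ / 4 - (u0 : ℂ)‖ < R} = ball ((4 * u0 : ℝ) : ℂ) (4 * R) := by
      ext ζ
      simp only [mem_ofPred_eq, mem_ball, dist_eq_norm]
      have : ζ - ((4 * u0 : ℝ) : ℂ) = 4 * (ζ / 4 - (u0 : ℂ)) := by push_cast; ring
      rw [this, norm_mul]
      have h4 : ‖(4 : ℂ)‖ = 4 := by norm_num
      rw [h4]
      constructor <;> intro h <;> linarith
    rw [this]; exact convex_ball _ _
  exact h1.inter h2

/-- the tilted line -/
def ln (a : ℝ) (ζ : ℂ) : ℂ × ℂ := ((a : ℂ) - ζ, ζ / 4)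

theorem ln_mem {u0 R d a : ℝ} {ζ : ℂ} (h : ζ ∈ V u0 R d) : ln a ζ ∈ DT u0 R d := by
  refine ⟨?_, ?_, ?_, ?_⟩
  · simp only [ln, sub_im, ofReal_im]; linarith [h.1.2]
  · simp only [ln, sub_im, ofReal_im]; linarith [h.1.1]
  · rw [mem_ball, dist_eq_norm]; exact h.2
  · have : (ζ / 4 : ℂ).im = ζ.im / 4 := by
      have := Complex.div_ofReal_im ζ 4
      simpa using this
    simp only [ln, mem_ofPred_eq, this]; linarith [h.1.1]

theorem diff_ln {u0 R d a : ℝ} {B : ℂ × ℂ → ℂ} (hB : DifferentiableOn ℂ B (DT u0 R d)) (z : ℂ) :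
    DifferentiableOn ℂ (fun ζ => B (ln a ζ) - z) (V u0 R d) := by
  have h1 : Differentiable ℂ (ln a) := by
    unfold ln; fun_prop
  exact (hB.comp h1.differentiableOn fun ζ hζ => ln_mem hζ).sub_const z

/-- Lusin–Privalov on one tilted line -/
theorem line_const {u0 R d a : ℝ} {B : ℂ × ℂ → ℂ} {z : ℂ} (hd0 : 0 < d) (hB : DifferentiableOn ℂ B (DT u0 R d))
    (hE : volume {x : ℝ | ((a - x, x / 4) : ℝ × ℝ) ∈ Bd u0 R B z} ≠ 0) :
    ∀ ζ ∈ V u0 R d, B (ln a ζ) = z := by
  have hd := diff_ln (a := a) hB z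
  obtain ⟨ζ₀, hζ₀, h0⟩ := lusin_privalov (isOpen_V u0 R d) hd (a := 1) one_pos hE (by
    intro x hx
    have hx2 : x / 4 ∈ Ioo (u0 - R) (u0 + R) := hx.1
    -- the height
    set r : ℝ := R - |x / 4 - u0| with hr
    have hr0 : 0 < r := by
      have : |x / 4 - u0| < R := abs_lt.2 ⟨by linarith [hx2.1], by linarith [hx2.2]⟩
      linarith
    refine ⟨min r d, lt_min hr0 hd0, ?_, ?_⟩
    · intro ζ hζ
      refine ⟨⟨hζ.1, hζ.2.1.trans_le (min_le_right _ _)⟩, ?_⟩
      have h1 : ζ / 4 - (u0 : ℂ) = ((x / 4 - u0 : ℝ) : ℂ) + (ζ - (x : ℂ)) / 4 := by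
        push_cast; ring
      have h2 : ‖ζ - (x : ℂ)‖ ≤ |(ζ - (x : ℂ)).re| + |(ζ - (x : ℂ)).im| :=
        Complex.norm_le_abs_re_add_abs_im _
      have h3 : (ζ - (x : ℂ)).re = ζ.re - x := by simp
      have h4 : (ζ - (x : ℂ)).im = ζ.im := by simp
      rw [h3, h4, abs_of_pos hζ.1] at h2
      have h5 : |ζ.re - x| < ζ.im := by simpa using hζ.2.2
      have h6 : ‖(ζ - (x : ℂ)) / 4‖ = ‖ζ - (x : ℂ)‖ / 4 := by
        rw [norm_div]; norm_num
      calc ‖ζ / 4 - (u0 : ℂ)‖ ≤ ‖((x / 4 - u0 : ℝ) : ℂ)‖ + ‖(ζ - (x : ℂ)) / 4‖ := by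
            rw [h1]; exact norm_add_le _ _
        _ = |x / 4 - u0| + ‖ζ - (x : ℂ)‖ / 4 := by
            rw [h6, Complex.norm_real, Real.norm_eq_abs]
        _ < R := by
            have := hζ.2.1.trans_le (min_le_left _ _)
            rw [hr] at this
            linarith
    · rw [Metric.tendsto_nhdsWithin_nhds]
      intro ε hε
      obtain ⟨δ, hδ, hδ'⟩ := Bd_lim hx ε hε
      refine ⟨δ, hδ, fun {ζ} hζ hdist => ?_⟩
      rw [dist_zero_right]
      have h5 : |ζ.re - x| < ζ.im := by simpa using hζ.2.2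
      have h2 : ‖ζ - (x : ℂ)‖ ≤ |(ζ - (x : ℂ)).re| + |(ζ - (x : ℂ)).im| :=
        Complex.norm_le_abs_re_add_abs_im _
      have h3 : (ζ - (x : ℂ)).re = ζ.re - x := by simp
      have h4 : (ζ - (x : ℂ)).im = ζ.im := by simp
      rw [h3, h4, abs_of_pos hζ.1] at h2
      have hq4 : (ζ / 4 : ℂ).im = ζ.im / 4 := by
        have := Complex.div_ofReal_im ζ 4
        simpa using this
      have h7 : ζ / 4 - ((x / 4 : ℝ) : ℂ) = (ζ - (x : ℂ)) / 4 := by push_cast; ring
      have h8 : ‖(ζ - (x : ℂ)) / 4‖ = ‖ζ - (x : ℂ)‖ / 4 := by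
        rw [norm_div]; norm_num
      refine hδ' (ln a ζ) ⟨?_, ?_, ?_⟩ ?_
      · simp only [ln, sub_im, ofReal_im]; linarith [hζ.1]
      · simp only [ln, sub_im, ofReal_im, hq4]; linarith [hζ.1]
      · simp only [ln, sub_im, sub_re, ofReal_im, ofReal_re]
        rw [h7, h8]
        have : a - ζ.re - (a - x) = -(ζ.re - x) := by ring
        rw [this, abs_neg]
        linarith [hζ.1]
      · rw [Prod.dist_eq, max_lt_iff]
        constructor
        · simp only [ln]
          rw [dist_eq_norm]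
          have : (a : ℂ) - ζ - ((a - x : ℝ) : ℂ) = -(ζ - (x : ℂ)) := by push_cast; ring
          rw [this, norm_neg, ← dist_eq_norm]; exact hdist
        · simp only [ln]
          rw [dist_eq_norm, h7, h8]
          rw [dist_eq_norm] at hdist
          linarith [norm_nonneg (ζ - (x : ℂ))])
  have han : AnalyticOnNhd ℂ (fun ζ => B (ln a ζ) - z) (V u0 R d) := hd.analyticOnNhd (isOpen_V u0 R d)
  have h1 := han.eqOn_zero_of_preconnected_of_eventuallyEq_zero
    (convex_V u0 R d).isPreconnected hζ₀ h0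
  intro ζ hζ
  have := h1 hζ
  simpa [sub_eq_zero] using this

/-- one value on a fat family of lines: constant -/
theorem all_const {u0 R d : ℝ} {B : ℂ × ℂ → ℂ} {z : ℂ} (hd0 : 0 < d)
    (hB : DifferentiableOn ℂ B (DT u0 R d))
    {A : Set ℝ} (hA : volume A ≠ 0) (h : ∀ a ∈ A, ∀ ζ ∈ V u0 R d, B (ln a ζ) = z) :
    ∀ q ∈ DT u0 R d, B q = z := by
  -- first for small `Im w`
  have key : ∀ q ∈ DT u0 R d, 4 * q.2.im < d → B q = z := by
    intro q hq hsm
    have hq1 : q.1.im < 0 := hq.2.1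
    have hq0 : -d < q.1.im := hq.1
    have hw2 : 0 < q.2.im := hq.2.2.2
    -- the point `ζ = 4 q.2`
    set ζ : ℂ := 4 * q.2 with hζ
    have hζ4 : ζ / 4 = q.2 := by rw [hζ]; ring
    have hζi : ζ.im = 4 * q.2.im := by rw [hζ]; simp
    have hζV : ζ ∈ V u0 R d := by
      refine ⟨⟨?_, ?_⟩, ?_⟩
      · rw [hζi]; linarith
      · rw [hζi]; exact hsm
      · rw [hζ4]
        have := hq.2.2.1
        rw [mem_ball, dist_eq_norm] at this; exact this
    -- the function of `a`
    set W : Set ℂ := {s | ζ.im - d < s.im ∧ s.im < ζ.im} with hW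
    have hWo : IsOpen W := (isOpen_lt continuous_const Complex.continuous_im).inter
      (isOpen_lt Complex.continuous_im continuous_const)
    have hWc : Convex ℝ W := (convex_halfSpace_im_gt _).inter (convex_halfSpace_im_lt _)
    have hmem : ∀ s ∈ W, (s - ζ, q.2) ∈ DT u0 R d := by
      intro s hs
      refine ⟨?_, ?_, hq.2.2⟩
      · simp only [sub_im]; linarith [hs.1]
      · simp only [sub_im]; linarith [hs.2]
    have hd : DifferentiableOn ℂ (fun s => B (s - ζ, q.2) - z) W := by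
      have h1 : Differentiable ℂ (fun s : ℂ => ((s - ζ, q.2) : ℂ × ℂ)) := by fun_prop
      exact (hB.comp h1.differentiableOn hmem).sub_const z
    have hζim : 0 < ζ.im := hζV.1.1
    have hζd : ζ.im < d := hζV.1.2
    obtain ⟨s₀, hs₀, h0⟩ := lusin_privalov hWo hd (a := 1) one_pos hA (by
      intro x hx
      refine ⟨ζ.im, hζim, fun s hs => ⟨by linarith [hs.1], hs.2.1⟩, ?_⟩
      have hxW : (x : ℂ) ∈ W := by
        refine ⟨?_, ?_⟩ <;> simp only [ofReal_im] <;> linarith
      have h1 : ContinuousAt (fun s => B (s - ζ, q.2) - z) (x : ℂ) :=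
        (hd.differentiableAt (hWo.mem_nhds hxW)).continuousAt
      have h2 : B ((x : ℂ) - ζ, q.2) - z = 0 := by
        have := h x hx ζ hζV
        simp only [ln, hζ4] at this
        rw [this, sub_self]
      have h3 : Tendsto (fun s => B (s - ζ, q.2) - z) (𝓝 (x : ℂ)) (𝓝 0) := by
        have := h1.tendsto
        simpa only [h2] using this
      exact h3.mono_left nhdsWithin_le_nhds)
    have han : AnalyticOnNhd ℂ (fun s => B (s - ζ, q.2) - z) W := hd.analyticOnNhd hWo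
    have h1 := han.eqOn_zero_of_preconnected_of_eventuallyEq_zero hWc.isPreconnected hs₀ h0
    have h2 : q.1 + ζ ∈ W := by
      refine ⟨?_, ?_⟩ <;> simp only [add_im] <;> linarith
    have h3 := h1 h2
    simp only [add_sub_cancel_right, Pi.zero_apply] at h3
    rw [sub_eq_zero] at h3
    exact h3
  -- then slicewise in `w`
  intro q hq
  have hHo : IsOpen (HDu u0 R) :=
    isOpen_ball.inter (isOpen_lt continuous_const Complex.continuous_im)
  have hHc : Convex ℝ (HDu u0 R) := (convex_ball _ _).inter (convex_halfSpace_im_gt 0)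
  have hd : DifferentiableOn ℂ (fun w => B (q.1, w) - z) (HDu u0 R) := by
    have h1 : Differentiable ℂ (fun w : ℂ => ((q.1, w) : ℂ × ℂ)) := by fun_prop
    exact (hB.comp h1.differentiableOn fun w hw => ⟨hq.1, hq.2.1, hw⟩).sub_const z
  have han : AnalyticOnNhd ℂ (fun w => B (q.1, w) - z) (HDu u0 R) := hd.analyticOnNhd hHo
  have hR : 0 < R := by
    have := hq.2.2.1
    rw [mem_ball] at this
    exact dist_nonneg.trans_lt this
  -- a point with small imaginary part
  set y : ℝ := min (R / 2) (d / 8) with hy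
  have hy0 : 0 < y := lt_min (by linarith) (by linarith)
  have hw₀ : ((u0 : ℂ) + y * I) ∈ HDu u0 R := by
    refine ⟨?_, ?_⟩
    · rw [mem_ball, dist_eq_norm, add_sub_cancel_left, norm_mul, norm_I, mul_one, Complex.norm_real,
        Real.norm_eq_abs, abs_of_pos hy0]
      have := min_le_left (R / 2) (d / 8)
      linarith
    · simp [hy0]
  have h0 : (fun w => B (q.1, w) - z) =ᶠ[𝓝 ((u0 : ℂ) + y * I)] 0 := by
    have h1 : ∀ᶠ w : ℂ in 𝓝 ((u0 : ℂ) + y * I), w ∈ HDu u0 R := hHo.mem_nhds hw₀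
    have h2 : ∀ᶠ w : ℂ in 𝓝 ((u0 : ℂ) + y * I), 4 * w.im < d := by
      have hc : ContinuousAt (fun w : ℂ => 4 * w.im) ((u0 : ℂ) + y * I) := by fun_prop
      refine hc.eventually (gt_mem_nhds ?_)
      have := min_le_right (R / 2) (d / 8)
      simp
      linarith
    filter_upwards [h1, h2] with w hw hw'
    rw [key (q.1, w) ⟨hq.1, hq.2.1, hw⟩ hw', sub_self]; rfl
  have h1 := han.eqOn_zero_of_preconnected_of_eventuallyEq_zero hHc.isPreconnected hw₀ h0 hq.2.2
  simp only [Prod.mk.eta, Pi.zero_apply] at h1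
  rw [sub_eq_zero] at h1
  exact h1

/-- **LEAF 2** (truncated domain) -/
theorem prodUniqT (u0 R d : ℝ) (hd0 : 0 < d) (B : ℂ × ℂ → ℂ)
    (hB : DifferentiableOn ℂ B (DT u0 R d))
    (hnc : ∃ q ∈ DT u0 R d, ∃ q' ∈ DT u0 R d, B q ≠ B q') (z : ℂ) :
    ∀ᵐ e : ℝ × ℝ, e.2 ∈ Ioo (u0 - R) (u0 + R) →
      ¬ Tendsto B (𝓝[Cn e 8] ((e.1 : ℂ), (e.2 : ℂ))) (𝓝 z) := by
  -- it is enough that the measurable hull is null
  suffices hnull : volume (Bd u0 R B z) = 0 by
    have : ∀ᵐ e : ℝ × ℝ, e ∉ Bd u0 R B z := by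
      rw [ae_iff]; simpa using hnull
    filter_upwards [this] with e he he2 hl
    exact he (bad_sub he2 hl)
  -- the linear change of variables
  let Ψ : (ℝ × ℝ) →ₗ[ℝ] (ℝ × ℝ) :=
    { toFun := fun p => (p.1 - p.2, p.2 / 4)
      map_add' := fun p q => by ext <;> simp <;> ring
      map_smul' := fun c p => by ext <;> simp <;> ring }
  have hΨm : Measurable (Ψ : ℝ × ℝ → ℝ × ℝ) := by
    have : (Ψ : ℝ × ℝ → ℝ × ℝ) = fun p => (p.1 - p.2, p.2 / 4) := rfl
    rw [this]; fun_prop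
  have himg : Bd u0 R B z = Ψ '' (Ψ ⁻¹' Bd u0 R B z) := by
    rw [image_preimage_eq]
    intro p
    exact ⟨(p.1 + 4 * p.2, 4 * p.2), by
      show ((p.1 + 4 * p.2 - 4 * p.2, 4 * p.2 / 4) : ℝ × ℝ) = p
      ext <;> simp⟩
  have hpre : volume (Ψ ⁻¹' Bd u0 R B z) = 0 := by
    have hms : MeasurableSet (Ψ ⁻¹' Bd u0 R B z) := hΨm (measurable_Bd u0 R B z)
    rw [Measure.volume_eq_prod, Measure.measure_prod_null hms]
    set A : Set ℝ := {a | volume (Prod.mk a ⁻¹' (Ψ ⁻¹' Bd u0 R B z)) ≠ 0} with hA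
    by_contra hcon
    have hA0 : volume A ≠ 0 := by
      intro h0
      apply hcon
      have : ∀ᵐ a : ℝ, a ∉ A := by rw [ae_iff]; simpa using h0
      filter_upwards [this] with a ha
      simpa [hA] using ha
    have hall := all_const hd0 hB hA0 (fun a ha => line_const hd0 hB (a := a) ha)
    obtain ⟨q, hq, q', hq', hne⟩ := hnc
    exact hne ((hall q hq).trans (hall q' hq').symm)
  rw [himg, Measure.addHaar_image_linearMap, hpre, mul_zero]

end Crest.Agent.R102.ProdUniqT725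
end
end

-- ▼ part R102/ProdUniq_725
section

/-!
Row 102, T1-B, III.2, LEAF 2 of `SupDefs_115` v3 (helper725): `ProdUniq`, from `prodUniqT`.
-/

set_option autoImplicit false

open Set Filter Topology Metric Complex MeasureTheory

noncomputable section

namespace Crest.Agent.R102.ProdUniq725

open Crest.Agent.R102.S5 Crest.Agent.R102.Sup115

/-- **LEAF 2** (`ProdUniq` of `SupDefs_115` v3). -/
theorem prodUniq : Sup115.ProdUniq := by
  intro u0 R d h B _ hd hB _ hnc z
  exact ProdUniqT725.prodUniqT u0 R d hd B hB hnc z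

end Crest.Agent.R102.ProdUniq725
end
end

-- ▼ part R102/BishopOp_120
section

/-!
# R102, Bishop disc: the operator `A = P_{n ≥ 0} + P_{n ≥ 1}` on `L²(𝕋)`
-/

open MeasureTheory Set AddCircle
open scoped InnerProductSpace ComplexConjugate

namespace Crest.Agent.R102.Bishop120

local notation "μT" => (haarAddCircle : Measure (AddCircle (1 : ℝ)))

/-- the Hilbert space `L²(𝕋)` -/
noncomputable abbrev E2 := Lp ℂ 2 μT

/-- Fourier coefficient as inner product -/
theorem coeff_eq (f : E2) (n : ℤ) : fourierCoeff f n = ⟪(fourierLp 2 n : E2), f⟫_ℂ := by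
  rw [← fourierBasis_repr, fourierBasis.repr_apply_apply, coe_fourierBasis]

theorem ext_coeff {f g : E2} (h : ∀ n : ℤ, fourierCoeff f n = fourierCoeff g n) : f = g := by
  apply fourierBasis.repr.injective
  ext n
  simpa [fourierBasis_repr] using h n

theorem coeff_fourierLp (m n : ℤ) :
    ⟪(fourierLp 2 n : E2), fourierLp 2 m⟫_ℂ = if n = m then 1 else 0 :=
  (orthonormal_iff_ite.1 (orthonormal_fourier (T := (1 : ℝ)))) n m

/-- functions whose Fourier coefficients `n < m` vanish -/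
noncomputable def Km (m : ℤ) : Submodule ℂ E2 :=
  (Submodule.span ℂ (Set.range fun n : {n : ℤ // n < m} => (fourierLp 2 (n : ℤ) : E2)))ᗮ

noncomputable instance (m : ℤ) : (Km m).HasOrthogonalProjection := by
  unfold Km; infer_instance

theorem mem_Km {m : ℤ} {f : E2} : f ∈ Km m ↔ ∀ n < m, fourierCoeff f n = 0 := by
  unfold Km
  rw [Submodule.mem_orthogonal]
  constructor
  · intro h n hn
    rw [coeff_eq]
    exact h _ (Submodule.subset_span ⟨⟨n, hn⟩, rfl⟩)
  · intro h u hu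
    induction hu using Submodule.span_induction with
    | mem x hx =>
      obtain ⟨⟨n, hn⟩, rfl⟩ := hx
      rw [← coeff_eq]; exact h n hn
    | zero => simp
    | add x y _ _ hx hy => rw [inner_add_left, hx, hy, add_zero]
    | smul a x _ hx => rw [inner_smul_left, hx, mul_zero]

theorem coeff_proj (m : ℤ) (f : E2) (n : ℤ) :
    fourierCoeff ((Km m).starProjection f) n = if m ≤ n then fourierCoeff f n else 0 := by
  split_ifs with h
  · rw [coeff_eq, coeff_eq, ← Submodule.inner_starProjection_left_eq_right]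
    congr 1
    rw [Submodule.starProjection_eq_self_iff, mem_Km]
    intro k hk
    rw [coeff_eq, coeff_fourierLp, if_neg (by omega)]
  · have := (Km m).starProjection_apply_mem f
    exact mem_Km.1 this n (by omega)

/-- `A f = f̂(0) + 2 Σ_{n ≥ 1} f̂(n) e_n` -/
noncomputable def AA : E2 →L[ℂ] E2 := (Km 0).starProjection + (Km 1).starProjection

theorem coeff_add (f g : E2) (n : ℤ) :
    fourierCoeff (f + g : E2) n = fourierCoeff f n + fourierCoeff g n := by
  rw [coeff_eq, coeff_eq, coeff_eq, inner_add_right]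

theorem coeff_sub (f g : E2) (n : ℤ) :
    fourierCoeff (f - g : E2) n = fourierCoeff f n - fourierCoeff g n := by
  rw [coeff_eq, coeff_eq, coeff_eq, inner_sub_right]

theorem coeff_AA (f : E2) (n : ℤ) :
    fourierCoeff (AA f) n = (if 0 ≤ n then fourierCoeff f n else 0)
      + (if 1 ≤ n then fourierCoeff f n else 0) := by
  unfold AA
  rw [add_apply, coeff_add, coeff_proj, coeff_proj]

theorem norm_AA (f : E2) : ‖AA f‖ ≤ 2 * ‖f‖ := by
  unfold AA
  rw [add_apply]
  have h0 := (Km 0).norm_starProjection_apply_le f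
  have h1 := (Km 1).norm_starProjection_apply_le f
  calc _ ≤ _ := norm_add_le _ _
    _ ≤ ‖f‖ + ‖f‖ := add_le_add h0 h1
    _ = _ := by ring

/-! translations -/

theorem mp_add (h : AddCircle (1 : ℝ)) : MeasurePreserving (fun x => x + h) μT μT :=
  measurePreserving_add_right _ h

/-- translation `τ_h f (x) = f (x + h)` -/
noncomputable def tau (h : AddCircle (1 : ℝ)) (f : E2) : E2 :=
  Lp.compMeasurePreserving (fun x => x + h) (mp_add h) f

theorem tau_coe (h : AddCircle (1 : ℝ)) (f : E2) : tau h f =ᵐ[μT] fun x => f (x + h) :=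
  Lp.coeFn_compMeasurePreserving f (mp_add h)

theorem fourier_add_pt (n : ℤ) (x y : AddCircle (1 : ℝ)) :
    fourier n (x + y) = fourier n x * fourier n y := by
  simp only [fourier_apply, smul_add, toCircle_add, Circle.coe_mul]

theorem coeff_tau (h : AddCircle (1 : ℝ)) (f : E2) (n : ℤ) :
    fourierCoeff (tau h f) n = fourier n h * fourierCoeff f n := by
  rw [fourierCoeff_congr_ae (tau_coe h f)]
  unfold fourierCoeff
  have h1 : ∫ t, fourier (-n) t • f (t + h) ∂μT
      = ∫ t, fourier (-n) (t - h) • f t ∂μT := by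
    rw [← integral_add_right_eq_self (μ := μT) (fun t => fourier (-n) (t - h) • f t) h]
    simp
  rw [h1, ← integral_const_mul]
  congr 1
  ext t
  rw [sub_eq_add_neg, fourier_add_pt]
  have : fourier (-n) (-h) = fourier n h := by
    simp [fourier_apply]
  rw [this]
  simp only [smul_eq_mul]
  ring



theorem AA_tau (h : AddCircle (1 : ℝ)) (f : E2) : AA (tau h f) = tau h (AA f) := by
  apply ext_coeff
  intro n
  rw [coeff_AA, coeff_tau, coeff_tau, coeff_AA]
  split_ifs <;> ring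

end Crest.Agent.R102.Bishop120
end

-- ▼ part R102/BishopFix_120
section

/-!
# R102, Bishop disc: the contraction, translations, Fourier bounds
-/

open MeasureTheory Set AddCircle
open scoped InnerProductSpace ComplexConjugate NNReal ENNReal

namespace Crest.Agent.R102.Bishop120

local notation "μT" => (haarAddCircle : Measure (AddCircle (1 : ℝ)))

section Fix

variable {lam : ℝ} {Φ Ψ : ℝ → AddCircle (1 : ℝ) → ℝ}

theorem memN (hc : Continuous (Function.uncurry Φ)) (hb : ∀ s x, |Φ s x| ≤ lam) (f : E2) :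
    MemLp (fun x => ((Φ ((AA f x).im) x : ℝ) : ℂ)) 2 μT := by
  apply MemLp.of_bound (C := lam)
  · have h1 : AEStronglyMeasurable (fun x => ((AA f x).im, x)) μT := by
      apply AEStronglyMeasurable.prodMk
      · exact Complex.continuous_im.comp_aestronglyMeasurable (Lp.aestronglyMeasurable _)
      · exact aestronglyMeasurable_id
    exact (Complex.continuous_ofReal.comp hc).comp_aestronglyMeasurable h1
  · filter_upwards with x
    rw [Complex.norm_real]; exact hb _ _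

/-- the nonlinear map -/
noncomputable def NN (hc : Continuous (Function.uncurry Φ)) (hb : ∀ s x, |Φ s x| ≤ lam) (f : E2) :
    E2 := (memN hc hb f).toLp _

theorem NN_coe (hc : Continuous (Function.uncurry Φ)) (hb : ∀ s x, |Φ s x| ≤ lam) (f : E2) :
    NN hc hb f =ᵐ[μT] fun x => ((Φ ((AA f x).im) x : ℝ) : ℂ) := MemLp.coeFn_toLp _

theorem NN_lip (hc : Continuous (Function.uncurry Φ)) (hb : ∀ s x, |Φ s x| ≤ lam)
    (hL : ∀ s s' x, |Φ s x - Φ s' x| ≤ lam * |s - s'|) (f g : E2) :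
    ‖NN hc hb f - NN hc hb g‖ ≤ lam * ‖AA f - AA g‖ := by
  apply Lp.norm_le_mul_norm_of_ae_le_mul
  filter_upwards [Lp.coeFn_sub (NN hc hb f) (NN hc hb g), NN_coe hc hb f, NN_coe hc hb g,
    Lp.coeFn_sub (AA f) (AA g)] with x h1 h2 h3 h4
  rw [h1, Pi.sub_apply, h2, h3, h4, Pi.sub_apply, ← Complex.ofReal_sub, Complex.norm_real]
  refine (hL _ _ x).trans ?_
  have h0 : 0 ≤ lam ∨ ∀ s s' x, |Φ s x - Φ s' x| ≤ 0 := by
    by_cases h : 0 ≤ lam
    · exact Or.inl h
    · exact Or.inr fun s s' x => (hL s s' x).trans (by nlinarith [abs_nonneg (s - s')])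
  by_cases hl : 0 ≤ lam
  · apply mul_le_mul_of_nonneg_left _ hl
    rw [← Complex.sub_im]
    exact Complex.abs_im_le_norm _
  · exfalso
    have := (abs_nonneg _).trans (hb 0 x)
    exact hl this

theorem NN_diff (hc : Continuous (Function.uncurry Φ)) (hb : ∀ s x, |Φ s x| ≤ lam)
    (hc' : Continuous (Function.uncurry Ψ)) (hb' : ∀ s x, |Ψ s x| ≤ lam) {ε : ℝ} (hε : 0 ≤ ε)
    (hd : ∀ s x, |Φ s x - Ψ s x| ≤ ε) (f : E2) :
    ‖NN hc hb f - NN hc' hb' f‖ ≤ ε := by
  have h : ∀ᵐ x ∂μT, ‖(NN hc hb f - NN hc' hb' f : E2) x‖ ≤ ε := by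
    filter_upwards [Lp.coeFn_sub (NN hc hb f) (NN hc' hb' f), NN_coe hc hb f, NN_coe hc' hb' f]
      with x h1 h2 h3
    rw [h1, Pi.sub_apply, h2, h3, ← Complex.ofReal_sub, Complex.norm_real]
    exact hd _ _
  have := Lp.norm_le_of_ae_bound hε h
  have h1 : measureUnivNNReal μT = 1 := by
    ext; simp [measureUnivNNReal]
  rw [h1] at this
  simpa using this

/-- stability of fixed points -/
theorem fix_stab (hc : Continuous (Function.uncurry Φ)) (hb : ∀ s x, |Φ s x| ≤ lam)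
    (hc' : Continuous (Function.uncurry Ψ)) (hb' : ∀ s x, |Ψ s x| ≤ lam) {ε : ℝ} (hε : 0 ≤ ε)
    (hlam : lam ≤ 1 / 16)
    (hL : ∀ s s' x, |Φ s x - Φ s' x| ≤ lam * |s - s'|)
    (hd : ∀ s x, |Φ s x - Ψ s x| ≤ ε) {f g : E2} (hf : NN hc hb f = f) (hg : NN hc' hb' g = g) :
    ‖f - g‖ ≤ 2 * ε := by
  have h1 : ‖f - g‖ ≤ lam * ‖AA f - AA g‖ + ε := by
    calc ‖f - g‖ = ‖(NN hc hb f - NN hc hb g) + (NN hc hb g - NN hc' hb' g)‖ := by
          rw [hf, hg]; congr 1; abel
      _ ≤ _ := norm_add_le _ _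
      _ ≤ _ := add_le_add (NN_lip hc hb hL f g) (NN_diff hc hb hc' hb' hε hd g)
  have h2 : ‖AA f - AA g‖ ≤ 2 * ‖f - g‖ := by
    rw [← map_sub]; exact norm_AA _
  have h3 : 0 ≤ lam := (abs_nonneg _).trans (hb 0 0)
  have h4 : 0 ≤ ‖f - g‖ := norm_nonneg _
  nlinarith [mul_le_mul_of_nonneg_left h2 h3]

theorem exists_fix (hc : Continuous (Function.uncurry Φ)) (hb : ∀ s x, |Φ s x| ≤ lam)
    (hlam : lam ≤ 1 / 16)
    (hL : ∀ s s' x, |Φ s x - Φ s' x| ≤ lam * |s - s'|) : ∃ f : E2, NN hc hb f = f := by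
  have h3 : 0 ≤ lam := (abs_nonneg _).trans (hb 0 0)
  have hcw : ContractingWith (1 / 2 : ℝ≥0) (NN hc hb) := by
    refine ⟨by norm_num, LipschitzWith.of_dist_le_mul fun f g => ?_⟩
    rw [dist_eq_norm, dist_eq_norm]
    have h2 : ‖AA f - AA g‖ ≤ 2 * ‖f - g‖ := by
      rw [← map_sub]; exact norm_AA _
    have h4 : 0 ≤ ‖f - g‖ := norm_nonneg _
    have h5 := NN_lip hc hb hL f g
    push_cast
    nlinarith [mul_le_mul_of_nonneg_left h2 h3]
  exact ⟨hcw.fixedPoint, hcw.fixedPoint_isFixedPt⟩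

theorem ae_shift (h : AddCircle (1 : ℝ)) {p : AddCircle (1 : ℝ) → Prop} (hp : ∀ᵐ x ∂μT, p x) :
    ∀ᵐ x ∂μT, p (x + h) :=
  (mp_add h).quasiMeasurePreserving.ae hp

theorem fix_tau (hc : Continuous (Function.uncurry Φ)) (hb : ∀ s x, |Φ s x| ≤ lam)
    (h : AddCircle (1 : ℝ)) (hc' : Continuous (Function.uncurry Ψ)) (hb' : ∀ s x, |Ψ s x| ≤ lam)
    (hΨ : ∀ s x, Ψ s x = Φ s (x + h))
    {f : E2} (hf : NN hc hb f = f) : NN hc' hb' (tau h f) = tau h f := by
  apply Lp.ext
  have h1 := NN_coe hc' hb' (tau h f)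
  have h2 := tau_coe h f
  have h3 : (AA (tau h f) : E2) =ᵐ[μT] fun x => AA f (x + h) := by
    rw [AA_tau]; exact tau_coe h _
  have h4 : ∀ᵐ x ∂μT, f x = ((Φ ((AA f x).im) x : ℝ) : ℂ) := by
    have := NN_coe hc hb f
    rw [hf] at this
    exact this
  have h5 : ∀ᵐ x ∂μT, f (x + h) = ((Φ ((AA f (x + h)).im) (x + h) : ℝ) : ℂ) :=
    ae_shift h (p := fun x => f x = ((Φ ((AA f x).im) x : ℝ) : ℂ)) h4
  filter_upwards [h1, h2, h3, h5] with x g1 g2 g3 g5
  rw [g1, g2, g5, g3, hΨ]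

end Fix

/-! Fourier bounds -/

theorem bessel (f : E2) (s : Finset ℤ) : ∑ n ∈ s, ‖fourierCoeff f n‖ ^ 2 ≤ ‖f‖ ^ 2 := by
  have h := (orthonormal_fourier (T := (1 : ℝ))).sum_inner_products_le (x := f) (s := s)
  simpa [coeff_eq] using h

theorem deriv_bound {f : E2} {L : ℝ} (hf : ∀ h : ℝ, ‖tau (h : AddCircle (1 : ℝ)) f - f‖ ≤ L * |h|)
    (s : Finset ℤ) : ∑ n ∈ s, (2 * Real.pi * n) ^ 2 * ‖fourierCoeff f n‖ ^ 2 ≤ L ^ 2 := by
  have hL : 0 ≤ L := by
    have := (norm_nonneg _).trans (hf 1)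
    simpa using this
  have key : ∀ h : ℝ, h ≠ 0 →
      ∑ n ∈ s, ‖h⁻¹ • (fourier n ((h : ℝ) : AddCircle (1 : ℝ)) - 1)‖ ^ 2 * ‖fourierCoeff f n‖ ^ 2
        ≤ L ^ 2 := by
    intro h hh
    have h1 := (bessel (tau (h : AddCircle (1 : ℝ)) f - f) s).trans
      (pow_le_pow_left₀ (norm_nonneg _) (hf h) 2)
    have h2 : ∀ n ∈ s, ‖h⁻¹ • (fourier n ((h : ℝ) : AddCircle (1 : ℝ)) - 1)‖ ^ 2
        * ‖fourierCoeff f n‖ ^ 2
        = (h⁻¹) ^ 2 * ‖fourierCoeff (tau (h : AddCircle (1 : ℝ)) f - f : E2) n‖ ^ 2 := by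
      intro n _
      rw [coeff_sub, coeff_tau]
      have : fourier n ((h : ℝ) : AddCircle (1 : ℝ)) * fourierCoeff f n - fourierCoeff f n
        = (fourier n ((h : ℝ) : AddCircle (1 : ℝ)) - 1) * fourierCoeff f n := by ring
      rw [this, norm_smul, norm_mul, mul_pow, mul_pow, Real.norm_eq_abs, sq_abs]
      ring
    rw [Finset.sum_congr rfl h2, ← Finset.mul_sum]
    calc (h⁻¹) ^ 2 * _ ≤ (h⁻¹) ^ 2 * (L * |h|) ^ 2 := by gcongr
      _ = L ^ 2 := by
        rw [mul_pow, sq_abs]; field_simp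
  have hlim : Filter.Tendsto (fun h : ℝ =>
      ∑ n ∈ s, ‖h⁻¹ • (fourier n ((h : ℝ) : AddCircle (1 : ℝ)) - 1)‖ ^ 2 * ‖fourierCoeff f n‖ ^ 2)
      (nhdsWithin 0 {0}ᶜ)
      (nhds (∑ n ∈ s, (2 * Real.pi * n) ^ 2 * ‖fourierCoeff f n‖ ^ 2)) := by
    apply tendsto_finsetSum
    intro n _
    apply Filter.Tendsto.mul_const
    have hd := hasDerivAt_fourier (1 : ℝ) n 0
    rw [hasDerivAt_iff_tendsto_slope_zero] at hd
    have h1 := (hd.norm).pow 2
    have h2 : ‖2 * (Real.pi : ℂ) * Complex.I * n / ((1 : ℝ) : ℂ)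
        * fourier n ((0 : ℝ) : AddCircle (1 : ℝ))‖ ^ 2 = (2 * Real.pi * n) ^ 2 := by
      have : ((0 : ℝ) : AddCircle (1 : ℝ)) = 0 := by simp
      rw [this, fourier_eval_zero]
      simp [mul_pow, abs_of_pos Real.pi_pos]
    rw [h2] at h1
    refine h1.congr fun h => ?_
    simp [fourier_eval_zero]
  exact le_of_tendsto hlim (by
    filter_upwards [self_mem_nhdsWithin] with h hh using key h hh)

/-- `ζ(2)`-type constant -/
noncomputable def Z2 : ℝ := ∑' n : ℤ, 1 / (n : ℝ) ^ 2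

theorem sum_inv_le (s : Finset ℤ) : ∑ n ∈ s, 1 / (n : ℝ) ^ 2 ≤ Z2 := by
  have hs : Summable fun n : ℤ => 1 / (n : ℝ) ^ 2 := Real.summable_one_div_int_pow.2 (by norm_num)
  exact hs.sum_le_tsum s (fun n _ => by positivity)

theorem l1_bound {f : E2} {L : ℝ} (hL : 0 ≤ L)
    (hf : ∀ h : ℝ, ‖tau (h : AddCircle (1 : ℝ)) f - f‖ ≤ L * |h|)
    (s : Finset ℤ) : ∑ n ∈ s, ‖fourierCoeff f n‖ ≤ ‖f‖ + √Z2 * L := by
  classical
  have h0 : ‖fourierCoeff f 0‖ ≤ ‖f‖ := by
    have := bessel f {0}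
    simp only [Finset.sum_singleton] at this
    exact (sq_le_sq₀ (norm_nonneg _) (norm_nonneg _)).1 this
  have h1 : ∑ n ∈ s.erase 0, ‖fourierCoeff f n‖ ≤ √Z2 * L := by
    have hcs := Finset.sum_mul_sq_le_sq_mul_sq (s.erase 0) (fun n : ℤ => 1 / |(n : ℝ)|)
      (fun n : ℤ => |(n : ℝ)| * ‖fourierCoeff f n‖)
    have e1 : ∑ n ∈ s.erase 0, (1 / |(n : ℝ)|) * (|(n : ℝ)| * ‖fourierCoeff f n‖)
        = ∑ n ∈ s.erase 0, ‖fourierCoeff f n‖ := by
      apply Finset.sum_congr rfl
      intro n hn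
      have : (|(n : ℝ)|) ≠ 0 := by
        have : n ≠ 0 := Finset.ne_of_mem_erase hn
        positivity
      field_simp
    have e2 : ∑ n ∈ s.erase 0, (1 / |(n : ℝ)|) ^ 2 ≤ Z2 := by
      simpa [div_pow, sq_abs] using sum_inv_le (s.erase 0)
    have e3 : ∑ n ∈ s.erase 0, (|(n : ℝ)| * ‖fourierCoeff f n‖) ^ 2 ≤ L ^ 2 := by
      refine le_trans ?_ (deriv_bound hf (s.erase 0))
      apply Finset.sum_le_sum
      intro n _
      rw [mul_pow, sq_abs]
      apply mul_le_mul_of_nonneg_right _ (by positivity)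
      have : (1 : ℝ) ≤ (2 * Real.pi) ^ 2 := by
        have := Real.pi_gt_three
        nlinarith
      rw [mul_pow]
      nlinarith [sq_nonneg (n : ℝ)]
    rw [e1] at hcs
    have hZ : 0 ≤ Z2 := tsum_nonneg fun n => by positivity
    have hS : 0 ≤ ∑ n ∈ s.erase 0, ‖fourierCoeff f n‖ := Finset.sum_nonneg fun _ _ => norm_nonneg _
    have : (∑ n ∈ s.erase 0, ‖fourierCoeff f n‖) ^ 2 ≤ (√Z2 * L) ^ 2 := by
      rw [mul_pow, Real.sq_sqrt hZ]
      refine hcs.trans ?_
      apply mul_le_mul e2 e3 (Finset.sum_nonneg fun _ _ => by positivity) hZ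
    exact (sq_le_sq₀ hS (by positivity)).1 this
  have h2 : ∑ n ∈ s, ‖fourierCoeff f n‖ ≤ ‖fourierCoeff f 0‖ + ∑ n ∈ s.erase 0, ‖fourierCoeff f n‖ := by
    by_cases hs : (0 : ℤ) ∈ s
    · rw [← Finset.add_sum_erase s _ hs]
    · rw [Finset.erase_eq_of_notMem hs]
      linarith [norm_nonneg (fourierCoeff f 0)]
  linarith

end Crest.Agent.R102.Bishop120
end

-- ▼ part R102/BishopDisc_120
section

/-!
# R102, Bishop disc: leaf `Disc`
-/

open MeasureTheory Set AddCircle
open scoped InnerProductSpace ComplexConjugate NNReal ENNReal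

namespace Crest.Agent.R102.Bishop120

local notation "μT" => (haarAddCircle : Measure (AddCircle (1 : ℝ)))

/-- continuous representative -/
theorem exists_cont {f : E2} (hs : Summable fun n : ℤ => ‖fourierCoeff f n‖) :
    ∃ W : C(AddCircle (1 : ℝ), ℂ), (f =ᵐ[μT] W) ∧
      ∀ x, HasSum (fun n : ℤ => fourierCoeff f n * fourier n x) (W x) := by
  have h1 : Summable fun n : ℤ => fourierCoeff f n • (fourier n : C(AddCircle (1 : ℝ), ℂ)) := by
    apply Summable.of_norm
    simpa [norm_smul, fourier_norm] using hs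
  obtain ⟨W, h2⟩ := h1
  have h3 := (ContinuousMap.toLp (E := ℂ) 2 μT ℂ).hasSum h2
  have h4 := hasSum_fourier_series_L2 f
  have h5 : ContinuousMap.toLp (E := ℂ) 2 μT ℂ W = f := by
    refine HasSum.unique h3 ?_
    convert h4 using 1
    ext n : 1
    simp
  refine ⟨W, ?_, fun x => ?_⟩
  · have := ContinuousMap.coeFn_toLp (p := 2) μT (𝕜 := ℂ) W
    rw [h5] at this
    exact this
  · have := (ContinuousMap.evalCLM ℂ x).hasSum h2
    simpa using this

theorem norm_sq_eq (f : E2) : ∫ t, ‖f t‖ ^ 2 ∂μT = ‖f‖ ^ 2 := by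
  rw [← tsum_sq_fourierCoeff]
  have H₁ : HasSum (fun i => ‖fourierBasis.repr f i‖ ^ 2) (‖fourierBasis.repr f‖ ^ 2) := by
    apply_mod_cast lp.hasSum_norm ?_ (fourierBasis.repr f)
    simp
  have H₂ : ‖fourierBasis.repr f‖ ^ 2 = ‖f‖ ^ 2 := by simp
  rw [H₂] at H₁
  simpa only [fourierBasis_repr] using H₁.tsum_eq

theorem int_sq (f : E2) (V : AddCircle (1 : ℝ) → ℂ) (hV : f =ᵐ[μT] V) :
    ∫ r in (0 : ℝ)..1, ‖V (r : AddCircle (1 : ℝ))‖ ^ 2 = ‖f‖ ^ 2 := by
  rw [← norm_sq_eq]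
  have h1 := AddCircle.intervalIntegral_preimage (1 : ℝ) 0 (fun x => ‖V x‖ ^ 2)
  rw [zero_add] at h1
  rw [h1]
  have h2 := integral_haarAddCircle (T := (1 : ℝ)) (f := fun x => ‖V x‖ ^ 2)
  simp only [inv_one, one_smul] at h2
  rw [← h2]
  apply integral_congr_ae
  filter_upwards [hV] with x hx
  rw [hx]

theorem conj_coeff {f : E2} (hf : ∀ᵐ x ∂μT, conj (f x) = f x) (n : ℤ) :
    fourierCoeff f (-n) = conj (fourierCoeff f n) := by
  unfold fourierCoeff
  rw [← integral_conj]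
  apply integral_congr_ae
  filter_upwards [hf] with x hx
  simp only [smul_eq_mul, map_mul, hx, neg_neg]
  rw [fourier_neg, Complex.conj_conj]

/-- For real `f` the continuous representatives satisfy `Re (A f) = f`. -/
theorem re_AA {f : E2} (hf : ∀ᵐ x ∂μT, conj (f x) = f x)
    {W V : AddCircle (1 : ℝ) → ℂ} {x : AddCircle (1 : ℝ)}
    (hW : HasSum (fun n : ℤ => fourierCoeff f n * fourier n x) (W x))
    (hV : HasSum (fun n : ℤ => fourierCoeff (AA f) n * fourier n x) (V x)) :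
    (W x) = ((V x).re : ℂ) := by
  have h0 : conj (fourierCoeff f 0) = fourierCoeff f 0 := by
    have := conj_coeff hf 0
    simpa using this.symm
  have H1 := HasSum.nat_add_neg hW
  have H2 : HasSum (fun n : ℕ => fourierCoeff (AA f) (n : ℤ) * fourier (n : ℤ) x) (V x) := by
    have := (Nat.cast_injective (R := ℤ)).hasSum_iff (f := fun n : ℤ =>
      fourierCoeff (AA f) n * fourier n x) (a := V x) ?_
    · exact this.2 hV
    · intro n hn
      have hn' : n < 0 := by
        by_contra h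
        push Not at h
        exact hn ⟨n.toNat, by simp [h]⟩
      rw [coeff_AA, if_neg (by omega), if_neg (by omega)]
      simp
  have H2c : HasSum (fun n : ℕ => conj (fourierCoeff (AA f) (n : ℤ) * fourier (n : ℤ) x))
      (conj (V x)) := (Complex.hasSum_conj' ).2 (by simpa using H2)
  have H3 : HasSum (fun n : ℕ => if n = 0 then 2 * fourierCoeff f 0 else 0)
      (2 * fourierCoeff f 0) := by
    simpa using hasSum_ite_eq (0 : ℕ) (2 * fourierCoeff f 0)
  have H4 := (H2.add H2c).add H3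
  have H5 := H1.mul_left 2
  have H6 : (fun n : ℕ => 2 * (fourierCoeff f (n : ℤ) * fourier (n : ℤ) x
      + fourierCoeff f (-(n : ℤ)) * fourier (-(n : ℤ)) x))
      = fun n : ℕ => fourierCoeff (AA f) (n : ℤ) * fourier (n : ℤ) x
        + conj (fourierCoeff (AA f) (n : ℤ) * fourier (n : ℤ) x)
        + (if n = 0 then 2 * fourierCoeff f 0 else 0) := by
    ext n
    rw [coeff_AA, conj_coeff hf]
    rcases Nat.eq_zero_or_pos n with rfl | hn
    · simp [h0]; ring
    · rw [if_pos (by omega), if_pos (by omega), if_neg (by omega), fourier_neg]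
      simp only [map_mul, map_add]
      ring
  rw [H6] at H5
  have H7 := H4.unique H5
  have h8 : fourierCoeff f 0 * fourier 0 x = fourierCoeff f 0 := by simp
  rw [h8] at H7
  have h9 : V x + conj (V x) = 2 * ((V x).re : ℂ) := by
    rw [Complex.add_conj]; push_cast; ring
  rw [h9] at H7
  have : (2 : ℂ) * W x = 2 * ((V x).re : ℂ) := by linear_combination -H7
  exact mul_left_cancel₀ two_ne_zero this

/-- everything for one fixed `Φ` on the circle -/
theorem one_disc {lam : ℝ} (hlam : lam ≤ 1 / 16) {Φ : ℝ → AddCircle (1 : ℝ) → ℝ}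
    (hc : Continuous (Function.uncurry Φ)) (hb : ∀ s x, |Φ s x| ≤ lam)
    (hL : ∀ s s' x, |Φ s x - Φ s' x| ≤ lam * |s - s'|)
    (hT : ∀ s x (h : ℝ), |Φ s (x + (h : AddCircle (1 : ℝ))) - Φ s x| ≤ lam * |h|) :
    ∃ f : E2, ∃ V : C(AddCircle (1 : ℝ), ℂ), NN hc hb f = f ∧
      (∀ h : ℝ, ‖tau (h : AddCircle (1 : ℝ)) f - f‖ ≤ 2 * lam * |h|) ∧
      (Summable fun n : ℤ => ‖fourierCoeff (AA f) n‖) ∧
      (∑' n : ℤ, ‖fourierCoeff (AA f) n‖ ≤ 2 * lam + √Z2 * (4 * lam)) ∧
      (AA f : E2) =ᵐ[μT] V ∧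
      (∀ x, HasSum (fun n : ℤ => fourierCoeff (AA f) n * fourier n x) (V x)) ∧
      (∀ x, (V x).re = Φ ((V x).im) x) := by
  have hl0 : 0 ≤ lam := (abs_nonneg _).trans (hb 0 0)
  obtain ⟨f, hf⟩ := exists_fix hc hb hlam hL
  have htau : ∀ h : ℝ, ‖tau (h : AddCircle (1 : ℝ)) f - f‖ ≤ 2 * lam * |h| := by
    intro h
    have hc' : Continuous (Function.uncurry fun s x => Φ s (x + (h : AddCircle (1 : ℝ)))) := by
      have : (Function.uncurry fun s x => Φ s (x + (h : AddCircle (1 : ℝ))))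
        = Function.uncurry Φ ∘ (fun p : ℝ × AddCircle (1 : ℝ) => (p.1, p.2 + h)) := rfl
      rw [this]
      exact hc.comp (by fun_prop)
    have hb' : ∀ s x, |(fun s x => Φ s (x + (h : AddCircle (1 : ℝ)))) s x| ≤ lam :=
      fun s x => hb _ _
    have h1 := fix_tau hc hb (h : AddCircle (1 : ℝ)) hc' hb' (fun s x => rfl) hf
    have h2 := fix_stab hc' hb' hc hb (ε := lam * |h|) (by positivity) hlam
      (fun s s' x => hL _ _ _) (fun s x => hT s x h) h1 hf
    linarith
  have hnorm : ‖f‖ ≤ lam := by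
    have h1 : ∀ᵐ x ∂μT, ‖f x‖ ≤ lam := by
      have := NN_coe hc hb f
      rw [hf] at this
      filter_upwards [this] with x hx
      rw [hx, Complex.norm_real]; exact hb _ _
    have := Lp.norm_le_of_ae_bound hl0 h1
    have h1 : measureUnivNNReal μT = 1 := by
      ext; simp [measureUnivNNReal]
    rw [h1] at this
    simpa using this
  have htauA : ∀ h : ℝ, ‖tau (h : AddCircle (1 : ℝ)) (AA f) - AA f‖ ≤ 4 * lam * |h| := by
    intro h
    rw [← AA_tau, ← map_sub]
    refine (norm_AA _).trans ?_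
    linarith [htau h]
  have hs1 : ∀ s : Finset ℤ, ∑ n ∈ s, ‖fourierCoeff (AA f) n‖ ≤ 2 * lam + √Z2 * (4 * lam) := by
    intro s
    refine (l1_bound (by positivity) htauA s).trans ?_
    have := norm_AA f
    linarith
  have hs2 : ∀ s : Finset ℤ, ∑ n ∈ s, ‖fourierCoeff f n‖ ≤ lam + √Z2 * (2 * lam) := by
    intro s
    refine (l1_bound (by positivity) htau s).trans ?_
    linarith
  have hsA : Summable fun n : ℤ => ‖fourierCoeff (AA f) n‖ :=
    summable_of_sum_le (fun n => norm_nonneg _) hs1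
  have hsf : Summable fun n : ℤ => ‖fourierCoeff f n‖ :=
    summable_of_sum_le (fun n => norm_nonneg _) hs2
  obtain ⟨V, hV1, hV2⟩ := exists_cont hsA
  obtain ⟨W, hW1, hW2⟩ := exists_cont hsf
  have hreal : ∀ᵐ x ∂μT, f x = ((Φ ((AA f x).im) x : ℝ) : ℂ) := by
    have := NN_coe hc hb f
    rw [hf] at this
    exact this
  have hconj : ∀ᵐ x ∂μT, conj (f x) = f x := by
    filter_upwards [hreal] with x hx
    rw [hx, Complex.conj_ofReal]
  have hWV : ∀ x, W x = ((V x).re : ℂ) := fun x => re_AA hconj (hW2 x) (hV2 x)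
  have hcont : Continuous fun x => ((Φ ((V x).im) x : ℝ) : ℂ) := by
    apply Complex.continuous_ofReal.comp
    exact hc.comp ((Complex.continuous_im.comp V.continuous).prodMk continuous_id)
  have hae : (fun x => W x) =ᵐ[μT] fun x => ((Φ ((V x).im) x : ℝ) : ℂ) := by
    filter_upwards [hW1, hreal, hV1] with x h1 h2 h3
    rw [← h1, h2, h3]
  have heq := (Continuous.ae_eq_iff_eq μT W.continuous hcont).1 hae
  refine ⟨f, V, hf, htau, hsA, ?_, hV1, hV2, fun x => ?_⟩
  · exact hsA.tsum_le_of_sum_le hs1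
  · have h1 := congrFun heq x
    rw [hWV x] at h1
    exact_mod_cast h1

theorem FS_eq {f : E2} {V : C(AddCircle (1 : ℝ), ℂ)}
    (hV : ∀ x, HasSum (fun n : ℤ => fourierCoeff (AA f) n * fourier n x) (V x)) (r : ℝ) :
    FS (fun n : ℕ => -Complex.I * fourierCoeff (AA f) (n : ℤ)) (r : ℂ)
      = -Complex.I * V (r : AddCircle (1 : ℝ)) := by
  have H2 : HasSum (fun n : ℕ => fourierCoeff (AA f) (n : ℤ)
      * fourier (n : ℤ) (r : AddCircle (1 : ℝ))) (V (r : AddCircle (1 : ℝ))) := by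
    have := (Nat.cast_injective (R := ℤ)).hasSum_iff (f := fun n : ℤ =>
      fourierCoeff (AA f) n * fourier n (r : AddCircle (1 : ℝ)))
        (a := V (r : AddCircle (1 : ℝ))) ?_
    · exact this.2 (hV _)
    · intro n hn
      have hn' : n < 0 := by
        by_contra h
        push Not at h
        exact hn ⟨n.toNat, by simp [h]⟩
      rw [coeff_AA, if_neg (by omega), if_neg (by omega)]
      simp
  unfold FS
  rw [← (H2.mul_left (-Complex.I)).tsum_eq]
  congr 1
  ext n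
  rw [fourier_coe_apply]
  simp only [Int.cast_natCast, Complex.ofReal_one, div_one]
  ring

theorem disc : Disc := by
  refine ⟨4 + 4 * √Z2 + 4, by positivity, ?_⟩
  intro lam hl0 hlam Φ hb hL hper
  -- lift to the circle
  set Ψ : ℝ → AddCircle (1 : ℝ) → ℝ := fun s => Function.Periodic.lift (hper s) with hΨ
  have hΨc : ∀ s (r : ℝ), Ψ s (r : AddCircle (1 : ℝ)) = Φ s r := fun s r => rfl
  have hΦcont : Continuous (Function.uncurry Φ) := by
    have : LipschitzWith (Real.toNNReal (2 * lam)) (Function.uncurry Φ) := by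
      apply LipschitzWith.of_dist_le_mul
      rintro ⟨a, b⟩ ⟨a', b'⟩
      rw [Real.coe_toNNReal _ (by positivity), Real.dist_eq, Prod.dist_eq]
      refine (hL a a' b b').trans ?_
      have h1 : |a - a'| ≤ max (dist a a') (dist b b') := le_max_left _ _
      have h2 : |b - b'| ≤ max (dist a a') (dist b b') := le_max_right _ _
      simp only
      nlinarith
    exact this.continuous
  have hq : IsOpenQuotientMap (Prod.map (id : ℝ → ℝ) (fun r : ℝ => (r : AddCircle (1 : ℝ)))) :=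
    IsOpenQuotientMap.id.prodMap QuotientAddGroup.isOpenQuotientMap_mk
  have hΨcont : Continuous (Function.uncurry Ψ) := by
    rw [hq.isQuotientMap.continuous_iff]
    exact hΦcont
  have hbΨ : ∀ s x, 0 ≤ Ψ s x ∧ Ψ s x ≤ lam := by
    intro s x
    obtain ⟨r, rfl⟩ := QuotientAddGroup.mk_surjective x
    exact hb s r
  have hLΨ : ∀ s s' x, |Ψ s x - Ψ s' x| ≤ lam * |s - s'| := by
    intro s s' x
    obtain ⟨r, rfl⟩ := QuotientAddGroup.mk_surjective x
    have h1 : |Φ s r - Φ s' r| ≤ lam * |s - s'| := by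
      have := hL s s' r r
      simpa using this
    exact h1
  have hTΨ : ∀ s x (h : ℝ), |Ψ s (x + (h : AddCircle (1 : ℝ))) - Ψ s x| ≤ lam * |h| := by
    intro s x h
    obtain ⟨r, rfl⟩ := QuotientAddGroup.mk_surjective x
    have h1 : |Φ s (r + h) - Φ s r| ≤ lam * |h| := by
      have := hL s s (r + h) r
      simpa using this
    exact h1
  -- the translated functions
  have hcξ : ∀ ξ : ℝ, Continuous (Function.uncurry fun s x => Ψ (ξ + s) x) := by
    intro ξ
    have : (Function.uncurry fun s x => Ψ (ξ + s) x)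
      = Function.uncurry Ψ ∘ (fun p : ℝ × AddCircle (1 : ℝ) => (ξ + p.1, p.2)) := rfl
    rw [this]
    exact hΨcont.comp (by fun_prop)
  have hbξ : ∀ ξ : ℝ, ∀ s x, |(fun s x => Ψ (ξ + s) x) s x| ≤ lam := by
    intro ξ s x
    rw [abs_of_nonneg (hbΨ _ _).1]; exact (hbΨ _ _).2
  have hLξ : ∀ ξ : ℝ, ∀ s s' x, |(fun s x => Ψ (ξ + s) x) s x - (fun s x => Ψ (ξ + s) x) s' x|
      ≤ lam * |s - s'| := by
    intro ξ s s' x
    have := hLΨ (ξ + s) (ξ + s') x
    simpa using this
  have key := fun ξ : ℝ => one_disc hlam (hcξ ξ) (hbξ ξ) (hLξ ξ) (fun s x h => hTΨ _ x h)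
  choose f V hfix htau hsum hsumle hV1 hV2 hV3 using key
  refine ⟨fun ξ n => -Complex.I * fourierCoeff (AA (f ξ)) (n : ℤ), ?_, ?_, ?_, ?_, ?_⟩
  · intro ξ
    have := (hsum ξ).comp_injective (Nat.cast_injective (R := ℤ))
    simpa [Function.comp_def] using this
  · intro ξ
    have h1 := (hsum ξ).comp_injective (Nat.cast_injective (R := ℤ))
    have h2 : ∑' n : ℕ, ‖-Complex.I * fourierCoeff (AA (f ξ)) (n : ℤ)‖
        ≤ ∑' n : ℤ, ‖fourierCoeff (AA (f ξ)) n‖ := by
      have : ∀ n : ℕ, ‖-Complex.I * fourierCoeff (AA (f ξ)) (n : ℤ)‖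
        = ((fun n : ℤ => ‖fourierCoeff (AA (f ξ)) n‖) ∘ (Nat.cast : ℕ → ℤ)) n := by
        intro n; simp
      simp_rw [this]
      exact tsum_comp_le_tsum_of_inj (hsum ξ) (fun _ => norm_nonneg _)
        (Nat.cast_injective (R := ℤ))
    refine h2.trans ((hsumle ξ).trans ?_)
    nlinarith [Real.sqrt_nonneg Z2]
  · intro ξ r
    rw [FS_eq (hV2 ξ)]
    have := hV3 ξ (r : AddCircle (1 : ℝ))
    simp only [neg_mul, Complex.neg_im, Complex.neg_re, Complex.mul_im, Complex.mul_re,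
      Complex.I_re, Complex.I_im, zero_mul, one_mul, zero_add, zero_sub, neg_neg, zero_add]
    rw [this, hΨc]
  · intro ξ h
    have h1 : ∫ r in (0 : ℝ)..1, ‖FS (fun n : ℕ => -Complex.I * fourierCoeff (AA (f ξ)) (n : ℤ))
        ((r + h : ℝ) : ℂ) - FS (fun n : ℕ => -Complex.I * fourierCoeff (AA (f ξ)) (n : ℤ)) r‖ ^ 2
        = ‖tau (h : AddCircle (1 : ℝ)) (AA (f ξ)) - AA (f ξ)‖ ^ 2 := by
      rw [← int_sq _ (fun x => V ξ (x + (h : AddCircle (1 : ℝ))) - V ξ x)]
      · congr 1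
        ext r
        rw [FS_eq (hV2 ξ), FS_eq (hV2 ξ), ← mul_sub, norm_mul]
        simp
      · filter_upwards [Lp.coeFn_sub (tau (h : AddCircle (1 : ℝ)) (AA (f ξ))) (AA (f ξ)),
          tau_coe (h : AddCircle (1 : ℝ)) (AA (f ξ)), hV1 ξ,
          ae_shift (h : AddCircle (1 : ℝ)) (p := fun x => (AA (f ξ) : E2) x = V ξ x) (hV1 ξ)]
          with x e1 e2 e3 e4
        rw [e1, Pi.sub_apply, e2, e3, e4]
    rw [h1]
    have h2 : ‖tau (h : AddCircle (1 : ℝ)) (AA (f ξ)) - AA (f ξ)‖ ≤ 4 * lam * |h| := by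
      rw [← AA_tau, ← map_sub]
      refine (norm_AA _).trans ?_
      linarith [htau ξ h]
    calc _ ≤ (4 * lam * |h|) ^ 2 := pow_le_pow_left₀ (norm_nonneg _) h2 2
      _ = 16 * (lam * h) ^ 2 := by rw [mul_pow, sq_abs]; ring
      _ ≤ (4 + 4 * √Z2 + 4) ^ 2 * (lam * h) ^ 2 := by
        gcongr
        nlinarith [Real.sqrt_nonneg Z2]
      _ = _ := by ring
  · intro ξ ξ'
    have h1 : ∫ r in (0 : ℝ)..1, ‖FS (fun n : ℕ => -Complex.I * fourierCoeff (AA (f ξ)) (n : ℤ)) r
        - FS (fun n : ℕ => -Complex.I * fourierCoeff (AA (f ξ')) (n : ℤ)) r‖ ^ 2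
        = ‖AA (f ξ) - AA (f ξ')‖ ^ 2 := by
      rw [← int_sq _ (fun x => V ξ x - V ξ' x)]
      · congr 1
        ext r
        rw [FS_eq (hV2 ξ), FS_eq (hV2 ξ'), ← mul_sub, norm_mul]
        simp
      · filter_upwards [Lp.coeFn_sub (AA (f ξ)) (AA (f ξ')), hV1 ξ, hV1 ξ'] with x e1 e2 e3
        rw [e1, Pi.sub_apply, e2, e3]
    rw [h1]
    have h2 : ‖f ξ - f ξ'‖ ≤ 2 * (lam * |ξ - ξ'|) := by
      apply fix_stab (hcξ ξ) (hbξ ξ) (hcξ ξ') (hbξ ξ') (by positivity) hlam (hLξ ξ) ?_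
        (hfix ξ) (hfix ξ')
      intro s x
      have := hLΨ (ξ + s) (ξ' + s) x
      simpa using this
    have h3 : ‖AA (f ξ) - AA (f ξ')‖ ≤ 4 * lam * |ξ - ξ'| := by
      rw [← map_sub]
      refine (norm_AA _).trans ?_
      linarith
    calc _ ≤ (4 * lam * |ξ - ξ'|) ^ 2 := pow_le_pow_left₀ (norm_nonneg _) h3 2
      _ = 16 * (lam * (ξ - ξ')) ^ 2 := by rw [mul_pow, sq_abs]; ring
      _ ≤ (4 + 4 * √Z2 + 4) ^ 2 * (lam * (ξ - ξ')) ^ 2 := by
        gcongr
        nlinarith [Real.sqrt_nonneg Z2]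
      _ = _ := by ring

end Crest.Agent.R102.Bishop120
end

-- ▼ part R102/Contact_239
section

/-! # The contact lemma for Bishop discs (120 #25549 (c), discrete proof)

`contact`: a family `g ξ : Ω → ℝ`, `ξ ∈ [a,b]`, Lipschitz in `ξ` with values in `L²(μ)`, which starts
below `0` and ends above `1`, has a member whose graph meets a given closed set
`P ⊆ [0,1] × Ω` of positive measure in a set of positive measure.
-/

open Set Filter Metric MeasureTheory
open scoped Topology ENNReal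

namespace Crest.Agent.R102.Contact239

variable {Ω : Type*} [PseudoMetricSpace Ω]

/-- Lipschitz approximation of the indicator of `P` -/
noncomputable def chi (P : Set (ℝ × Ω)) (n : ℕ) (p : ℝ × Ω) : ℝ := max 0 (1 - n * infDist p P)

theorem chi_nonneg (P : Set (ℝ × Ω)) (n : ℕ) (p : ℝ × Ω) : 0 ≤ chi P n p := le_max_left _ _

theorem chi_le_one (P : Set (ℝ × Ω)) (n : ℕ) (p : ℝ × Ω) : chi P n p ≤ 1 := by
  unfold chi
  have : 0 ≤ (n : ℝ) * infDist p P := mul_nonneg (Nat.cast_nonneg _) infDist_nonneg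
  exact max_le zero_le_one (by linarith)

theorem continuous_chi (P : Set (ℝ × Ω)) (n : ℕ) : Continuous (chi P n) :=
  continuous_const.max (continuous_const.sub (continuous_const.mul (continuous_infDist_pt P)))

theorem chi_anti (P : Set (ℝ × Ω)) {m n : ℕ} (h : m ≤ n) (p : ℝ × Ω) : chi P n p ≤ chi P m p := by
  unfold chi
  have h1 : (m : ℝ) ≤ n := by exact_mod_cast h
  have h2 : (m : ℝ) * infDist p P ≤ n * infDist p P :=
    mul_le_mul_of_nonneg_right h1 infDist_nonneg
  exact max_le_max le_rfl (by linarith)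

theorem chi_eq_one {P : Set (ℝ × Ω)} {n : ℕ} {p : ℝ × Ω} (hp : p ∈ P) : chi P n p = 1 := by
  unfold chi
  rw [infDist_zero_of_mem hp]; norm_num

theorem chi_lip (P : Set (ℝ × Ω)) (n : ℕ) (y y' : ℝ) (r : Ω) :
    |chi P n (y, r) - chi P n (y', r)| ≤ n * |y - y'| := by
  unfold chi
  have key : |max 0 (1 - (n : ℝ) * infDist (y, r) P) - max 0 (1 - (n : ℝ) * infDist (y', r) P)| ≤
      |(1 - (n : ℝ) * infDist (y, r) P) - (1 - (n : ℝ) * infDist (y', r) P)| := by
    rw [max_comm 0, max_comm 0]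
    exact abs_max_sub_max_le_abs _ _ _
  refine key.trans ?_
  · have e : (1 - (n : ℝ) * infDist (y, r) P) - (1 - (n : ℝ) * infDist (y', r) P) =
        -((n : ℝ) * (infDist (y, r) P - infDist (y', r) P)) := by ring
    rw [e, abs_neg, abs_mul, Nat.abs_cast]
    refine mul_le_mul_of_nonneg_left ?_ (Nat.cast_nonneg _)
    have h1 : infDist (y, r) P ≤ infDist (y', r) P + dist (y, r) (y', r) :=
      infDist_le_infDist_add_dist
    have h2 : infDist (y', r) P ≤ infDist (y, r) P + dist (y', r) (y, r) :=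
      infDist_le_infDist_add_dist
    have h3 : dist (y, r) (y', r) = |y - y'| := by
      simp [Prod.dist_eq, Real.dist_eq]
    rw [dist_comm (y', r) (y, r)] at h2
    rw [h3] at h1 h2
    rw [abs_le]; constructor <;> linarith

theorem tendsto_chi {P : Set (ℝ × Ω)} (hP : IsClosed P) (hne : P.Nonempty) (p : ℝ × Ω) :
    Tendsto (fun n => chi P n p) atTop (𝓝 (P.indicator (fun _ => (1 : ℝ)) p)) := by
  by_cases hp : p ∈ P
  · rw [indicator_of_mem hp]
    exact tendsto_const_nhds.congr fun n => (chi_eq_one hp).symm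
  · rw [indicator_of_notMem hp]
    have hd : 0 < infDist p P := (hP.notMem_iff_infDist_pos hne).1 hp
    obtain ⟨N, hN⟩ := exists_nat_ge (1 / infDist p P)
    apply tendsto_const_nhds.congr'
    filter_upwards [eventually_ge_atTop N] with n hn
    unfold chi
    have h1 : (N : ℝ) ≤ n := by exact_mod_cast hn
    have h2 : 1 ≤ (n : ℝ) * infDist p P := by
      rw [← div_le_iff₀ hd]; linarith
    rw [max_eq_left (by linarith)]

/-- one step of the primitive -/
theorem prim_step {φ : ℝ → ℝ} (hc : Continuous φ) {n : ℝ} (hn : 0 ≤ n)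
    (hLip : ∀ y y', |φ y - φ y'| ≤ n * |y - y'|) (y y' : ℝ) :
    ∫ t in y..y', φ t ≤ φ y * (y' - y) + n * (y' - y) ^ 2 := by
  have h1 : ∫ t in y..y', φ t = (∫ t in y..y', (φ t - φ y)) + φ y * (y' - y) := by
    rw [intervalIntegral.integral_sub (hc.intervalIntegrable _ _)
      (continuous_const.intervalIntegrable _ _), intervalIntegral.integral_const, smul_eq_mul]
    ring
  have h2 : ‖∫ t in y..y', (φ t - φ y)‖ ≤ n * |y' - y| * |y' - y| := by
    apply intervalIntegral.norm_integral_le_of_norm_le_const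
    intro t ht
    rw [Real.norm_eq_abs]
    refine (hLip t y).trans ?_
    refine mul_le_mul_of_nonneg_left ?_ hn
    rcases le_total y y' with h | h
    · rw [uIoc_of_le h] at ht
      rw [abs_of_nonneg (by linarith [ht.1]), abs_of_nonneg (by linarith)]
      linarith [ht.2]
    · rw [uIoc_of_ge h] at ht
      rw [abs_of_nonpos (by linarith [ht.2]), abs_of_nonpos (by linarith)]
      linarith [ht.1]
  have h3 := (le_abs_self _).trans ((Real.norm_eq_abs _).symm.le.trans h2)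
  have h4 : n * |y' - y| * |y' - y| = n * (y' - y) ^ 2 := by
    rw [mul_assoc, abs_mul_abs_self, pow_two]
  linarith


variable [MeasurableSpace Ω] [OpensMeasurableSpace Ω] {μ : Measure Ω} [IsProbabilityMeasure μ]

omit [PseudoMetricSpace Ω] [OpensMeasurableSpace Ω] in
theorem measurable_graph {g : Ω → ℝ} (hg : Measurable g) : Measurable fun r => ((g r, r) : ℝ × Ω) :=
  hg.prodMk measurable_id

theorem integrable_chi (P : Set (ℝ × Ω)) (n : ℕ) {g : Ω → ℝ} (hg : Measurable g) :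
    Integrable (fun r => chi P n (g r, r)) μ := by
  refine Integrable.of_bound
    ((continuous_chi P n).measurable.comp (measurable_graph hg)).aestronglyMeasurable 1
    (Eventually.of_forall fun r => ?_)
  rw [Real.norm_eq_abs, abs_of_nonneg (chi_nonneg _ _ _)]
  exact chi_le_one _ _ _

/-- the quantity of contact -/
noncomputable def Mn (μ : Measure Ω) (P : Set (ℝ × Ω)) (g : ℝ → Ω → ℝ) (n : ℕ) (ξ : ℝ) : ℝ :=
  ∫ r, chi P n (g ξ r, r) ∂μ





/-- hypotheses on the family -/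
structure Fam (μ : Measure Ω) (g : ℝ → Ω → ℝ) (a b L : ℝ) : Prop where
  le : a ≤ b
  meas : ∀ ξ, Measurable (g ξ)
  int : ∀ ξ ∈ Icc a b, ∀ ξ' ∈ Icc a b, Integrable (fun r => (g ξ r - g ξ' r) ^ 2) μ
  lip : ∀ ξ ∈ Icc a b, ∀ ξ' ∈ Icc a b, ∫ r, (g ξ r - g ξ' r) ^ 2 ∂μ ≤ L ^ 2 * (ξ - ξ') ^ 2
  low : ∀ᵐ r ∂μ, g a r ≤ 0
  high : ∀ᵐ r ∂μ, 1 ≤ g b r





theorem Mn_sub_le {g : ℝ → Ω → ℝ} {a b L : ℝ} (hF : Fam μ g a b L) (P : Set (ℝ × Ω)) (n : ℕ)
    {ξ ξ' : ℝ} (h : ξ ∈ Icc a b) (h' : ξ' ∈ Icc a b) :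
    (Mn μ P g n ξ - Mn μ P g n ξ') ^ 2 ≤ n ^ 2 * (L ^ 2 * (ξ - ξ') ^ 2) := by
  unfold Mn
  have hi : ∀ ξ, Integrable (fun r => chi P n (g ξ r, r)) μ := fun ξ => integrable_chi P n (hF.meas ξ)
  rw [← integral_sub (hi _) (hi _)]
  set f : Ω → ℝ := fun r => chi P n (g ξ r, r) - chi P n (g ξ' r, r) with hf
  have hfi : Integrable f μ := (hi ξ).sub (hi ξ')
  have hfb : ∀ r, |f r| ≤ 1 := by
    intro r
    have a1 := chi_nonneg P n (g ξ r, r)
    have a2 := chi_le_one P n (g ξ r, r)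
    have a3 := chi_nonneg P n (g ξ' r, r)
    have a4 := chi_le_one P n (g ξ' r, r)
    simp only [hf]
    rw [abs_le]; constructor <;> linarith
  have hf2 : Integrable (fun r => f r ^ 2) μ := by
    refine Integrable.of_bound (hfi.aestronglyMeasurable.pow 2) 1 (Eventually.of_forall fun r => ?_)
    rw [norm_pow, Real.norm_eq_abs]
    exact pow_le_one₀ (abs_nonneg _) (hfb r)
  have h1 : (∫ r, f r ∂μ) ^ 2 ≤ ∫ r, f r ^ 2 ∂μ := by
    have h2 : 0 ≤ ∫ r, (f r - ∫ r', f r' ∂μ) ^ 2 ∂μ := integral_nonneg fun _ => sq_nonneg _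
    have h3 : ∫ r, (f r - ∫ r', f r' ∂μ) ^ 2 ∂μ =
        (∫ r, f r ^ 2 ∂μ) - (∫ r, f r ∂μ) ^ 2 := by
      set m := ∫ r', f r' ∂μ with hm
      have e : (fun r => (f r - m) ^ 2) = fun r => f r ^ 2 - 2 * m * f r + m ^ 2 := by
        funext r; ring
      have j1 : Integrable (fun r => 2 * m * f r) μ := hfi.const_mul _
      have j2 : Integrable (fun r => f r ^ 2 - 2 * m * f r) μ := hf2.sub j1
      rw [e, integral_add j2 (integrable_const _), integral_sub hf2 j1, integral_const_mul]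
      simp only [integral_const, probReal_univ, smul_eq_mul, one_mul]
      rw [← hm]; ring
    linarith
  refine h1.trans ?_
  have h4 : ∫ r, f r ^ 2 ∂μ ≤ ∫ r, (n : ℝ) ^ 2 * (g ξ r - g ξ' r) ^ 2 ∂μ := by
    refine integral_mono hf2 ((hF.int _ h _ h').const_mul _) fun r => ?_
    have := chi_lip P n (g ξ r) (g ξ' r) r
    simp only [hf]
    rw [← mul_pow, ← sq_abs, ← sq_abs ((n : ℝ) * _), abs_mul, Nat.abs_cast]
    exact pow_le_pow_left₀ (abs_nonneg _) this 2
  refine h4.trans ?_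
  rw [integral_const_mul]
  exact mul_le_mul_of_nonneg_left (hF.lip _ h _ h') (sq_nonneg _)

theorem continuousOn_Mn {g : ℝ → Ω → ℝ} {a b L : ℝ} (hF : Fam μ g a b L) (P : Set (ℝ × Ω))
    (n : ℕ) : ContinuousOn (Mn μ P g n) (Icc a b) := by
  have hl : ∀ ξ ∈ Icc a b, ∀ ξ' ∈ Icc a b,
      dist (Mn μ P g n ξ) (Mn μ P g n ξ') ≤ (n * |L|) * dist ξ ξ' := by
    intro ξ h ξ' h'
    rw [Real.dist_eq, Real.dist_eq]
    have h1 := Mn_sub_le hF P n h h'
    have h2 : (n : ℝ) ^ 2 * (L ^ 2 * (ξ - ξ') ^ 2) = (n * |L| * |ξ - ξ'|) ^ 2 := by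
      rw [mul_pow, mul_pow, sq_abs, sq_abs]; ring
    rw [h2] at h1
    exact abs_le_of_sq_le_sq h1 (by positivity)
  have : LipschitzOnWith (Real.toNNReal (n * |L|)) (Mn μ P g n) (Icc a b) := by
    apply LipschitzOnWith.of_dist_le_mul
    intro ξ h ξ' h'
    rw [Real.coe_toNNReal _ (by positivity)]
    exact hl ξ h ξ' h'
  exact this.continuousOn



end Crest.Agent.R102.Contact239
end

-- ▼ part R102/ContactB_239
section

/-! # The literal contact leaf `Bishop120.Contact` -/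

open Set Filter Metric MeasureTheory
open scoped Topology ENNReal

namespace Crest.Agent.R102.Contact239

/-- telescoping along a grid, for a fixed parameter, general end points -/
theorem grid_point' {φ : ℝ → ℝ} (hc : Continuous φ) (h0 : ∀ y, 0 ≤ φ y) {n : ℝ} (hn : 0 ≤ n)
    (hLip : ∀ y y', |φ y - φ y'| ≤ n * |y - y'|) (N : ℕ) (u : ℕ → ℝ) {c d : ℝ} (hu0 : u 0 ≤ c)
    (huN : d ≤ u N) :
    ∫ t in c..d, φ t ≤
      ∑ i ∈ Finset.range N, (φ (u i) * (u (i + 1) - u i) + n * (u (i + 1) - u i) ^ 2) := by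
  have hi : ∀ x y, IntervalIntegrable φ volume x y := fun x y => hc.intervalIntegrable _ _
  have h1 : ∫ t in c..d, φ t ≤ ∫ t in u 0..u N, φ t := by
    have e1 : ∫ t in u 0..u N, φ t = (∫ t in u 0..c, φ t) + (∫ t in c..d, φ t) +
        ∫ t in d..u N, φ t := by
      rw [intervalIntegral.integral_add_adjacent_intervals (hi _ _) (hi _ _),
        intervalIntegral.integral_add_adjacent_intervals (hi _ _) (hi _ _)]
    have e2 := intervalIntegral.integral_nonneg (μ := volume) hu0 fun t _ => h0 t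
    have e3 := intervalIntegral.integral_nonneg (μ := volume) huN fun t _ => h0 t
    linarith
  refine h1.trans ?_
  have h2 : ∫ t in u 0..u N, φ t = ∑ i ∈ Finset.range N, ∫ t in u i..u (i + 1), φ t :=
    (intervalIntegral.sum_integral_adjacent_intervals (a := u) (n := N)
      (fun k _ => hi _ _)).symm
  rw [h2]
  exact Finset.sum_le_sum fun i _ => prim_step hc hn hLip _ _

/-- Lebesgue measure on `[0,1]` -/
noncomputable def mu : Measure ℝ := volume.restrict (Icc 0 1)

instance : IsProbabilityMeasure mu :=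
  ⟨by rw [mu, Measure.restrict_apply_univ, Real.volume_Icc]; norm_num⟩

theorem integral_mu (f : ℝ → ℝ) : ∫ r in (0 : ℝ)..1, f r = ∫ r, f r ∂mu := by
  rw [intervalIntegral.integral_of_le zero_le_one, mu, integral_Icc_eq_integral_Ioc]

theorem integrable_mu {f : ℝ → ℝ} (hf : Continuous f) : Integrable f mu :=
  hf.continuousOn.integrableOn_compact isCompact_Icc

/-- hypotheses on `k` -/
structure Kam (k : ℝ → ℝ → ℝ) : Prop where
  cont : ∀ ξ, Continuous (k ξ)
  small : ∀ ξ r, |k ξ r| ≤ 1 / 100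
  lip : ∀ ξ ξ' : ℝ, ∫ r, (k ξ r - k ξ' r) ^ 2 ∂mu ≤ ((ξ - ξ') / 10) ^ 2

theorem Kam.fam {k : ℝ → ℝ → ℝ} (h : Kam k) :
    Fam mu (fun ξ r => ξ + k ξ r) (-(1 / 100)) (101 / 100) 2 where
  le := by norm_num
  meas := fun ξ => (continuous_const.add (h.cont ξ)).measurable
  int := fun ξ _ ξ' _ => integrable_mu
    (((continuous_const.add (h.cont ξ)).sub (continuous_const.add (h.cont ξ'))).pow 2)
  lip := by
    intro ξ _ ξ' _
    have h1 : ∫ r, ((ξ + k ξ r) - (ξ' + k ξ' r)) ^ 2 ∂mu ≤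
        ∫ r, (2 * (ξ - ξ') ^ 2 + 2 * (k ξ r - k ξ' r) ^ 2) ∂mu := by
      refine integral_mono (integrable_mu
        (((continuous_const.add (h.cont ξ)).sub (continuous_const.add (h.cont ξ'))).pow 2))
        (integrable_mu (continuous_const.add (continuous_const.mul
          (((h.cont ξ).sub (h.cont ξ')).pow 2)))) fun r => ?_
      simp only
      nlinarith [sq_nonneg ((ξ - ξ') - (k ξ r - k ξ' r))]
    refine h1.trans ?_
    have j1 : Integrable (fun r => 2 * (k ξ r - k ξ' r) ^ 2) mu := integrable_mu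
      (continuous_const.mul (((h.cont ξ).sub (h.cont ξ')).pow 2))
    have j2 : ∫ r, 2 * (k ξ r - k ξ' r) ^ 2 ∂mu = 2 * ∫ r, (k ξ r - k ξ' r) ^ 2 ∂mu :=
      integral_const_mul _ _
    rw [integral_add (integrable_const _) j1, j2, integral_const]
    simp only [probReal_univ, smul_eq_mul, one_mul]
    have := h.lip ξ ξ'
    nlinarith [sq_nonneg (ξ - ξ')]
  low := Eventually.of_forall fun r => by have := abs_le.1 (h.small (-(1 / 100)) r); linarith
  high := Eventually.of_forall fun r => by have := abs_le.1 (h.small (101 / 100) r); linarith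

theorem grid' {k : ℝ → ℝ → ℝ} (h : Kam k) (P : Set (ℝ × ℝ)) (n : ℕ)
    (hM : ∀ ξ ∈ Icc (0 : ℝ) 1, Mn mu P (fun ξ r => ξ + k ξ r) n ξ ≤ 3 / 4) (N : ℕ) (hN : 0 < N) :
    ∫ r, (∫ t in (1 / 100 : ℝ)..(99 / 100), chi P n (t, r)) ∂mu ≤ 84 / 100 + n * 3 / N := by
  have hN' : (0 : ℝ) < N := by exact_mod_cast hN
  set g : ℝ → ℝ → ℝ := fun ξ r => ξ + k ξ r with hg
  set xs : ℕ → ℝ := fun i => i / N with hxs
  have hx0 : xs 0 = 0 := by simp [hxs]
  have hxN : xs N = 1 := by simp only [hxs]; rw [div_self hN'.ne']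
  have hxm : ∀ i, i ≤ N → xs i ∈ Icc (0 : ℝ) 1 := by
    intro i hi
    have h1 : (i : ℝ) ≤ N := by exact_mod_cast hi
    exact ⟨by simp only [hxs]; positivity, by simp only [hxs]; rw [div_le_one hN']; exact h1⟩
  have hstep : ∀ i, (xs (i + 1) - xs i) = 1 / N := by
    intro i; simp only [hxs]; push_cast; field_simp; ring
  have hchi : ∀ ξ, Continuous fun r => chi P n (g ξ r, r) := fun ξ =>
    (continuous_chi P n).comp ((continuous_const.add (h.cont ξ)).prodMk continuous_id)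
  have hcs : Continuous fun r => ∫ t in (1 / 100 : ℝ)..(99 / 100), chi P n (t, r) := by
    apply intervalIntegral.continuous_parametric_intervalIntegral_of_continuous'
    exact (continuous_chi P n).comp (continuous_snd.prodMk continuous_fst)
  -- pointwise
  have hpt : ∀ r, (∫ t in (1 / 100 : ℝ)..(99 / 100), chi P n (t, r)) ≤ ∑ i ∈ Finset.range N,
      ((1 / N + 1 / (16 * N)) * chi P n (g (xs i) r, r) + n * 2 * (1 / N) ^ 2 +
        (4 * N + n * 2) * (k (xs (i + 1)) r - k (xs i) r) ^ 2) := by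
    intro r
    have hc : Continuous fun t => chi P n (t, r) :=
      (continuous_chi P n).comp (continuous_id.prodMk continuous_const)
    refine (grid_point' hc (fun y => chi_nonneg _ _ _) (Nat.cast_nonneg n)
      (fun y y' => chi_lip P n y y' r) N (fun i => g (xs i) r) (c := 1 / 100) (d := 99 / 100)
      (by have := abs_le.1 (h.small 0 r); simp only [hx0, hg]; linarith)
      (by have := abs_le.1 (h.small 1 r); simp only [hxN, hg]; linarith)).trans ?_
    refine Finset.sum_le_sum fun i _ => ?_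
    have hc0 := chi_nonneg P n (g (xs i) r, r)
    have hc1 := chi_le_one P n (g (xs i) r, r)
    have hd : g (xs (i + 1)) r - g (xs i) r = 1 / N + (k (xs (i + 1)) r - k (xs i) r) := by
      rw [← hstep i]; simp only [hg]; ring
    rw [hd]
    set c := chi P n (g (xs i) r, r)
    set e := k (xs (i + 1)) r - k (xs i) r
    have h2 : c * e ≤ 1 / (16 * N) * c + 4 * N * e ^ 2 := by
      have h3 : 0 ≤ 4 * N * (e - c / (8 * N)) ^ 2 := by positivity
      have h4 : 4 * N * (e - c / (8 * N)) ^ 2 = 4 * N * e ^ 2 - c * e + 1 / (16 * N) * c ^ 2 := by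
        field_simp; ring
      have h5 : 1 / (16 * N) * c ^ 2 ≤ 1 / (16 * N) * c :=
        mul_le_mul_of_nonneg_left (by nlinarith) (by positivity)
      linarith
    have h6 : (n : ℝ) * (1 / N + e) ^ 2 ≤ n * (2 * (1 / N) ^ 2 + 2 * e ^ 2) :=
      mul_le_mul_of_nonneg_left (by nlinarith [sq_nonneg (1 / (N : ℝ) - e)]) (Nat.cast_nonneg n)
    nlinarith
  have hkc : ∀ i : ℕ, Continuous fun r => (k (xs (i + 1)) r - k (xs i) r) ^ 2 := fun i =>
    ((h.cont _).sub (h.cont _)).pow 2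
  have hiT : ∀ i ∈ Finset.range N, Integrable (fun r =>
      ((1 / (N : ℝ) + 1 / (16 * N)) * chi P n (g (xs i) r, r) + n * 2 * (1 / (N : ℝ)) ^ 2 +
        (4 * (N : ℝ) + n * 2) * (k (xs (i + 1)) r - k (xs i) r) ^ 2)) mu := fun i _ =>
    integrable_mu (((continuous_const.mul (hchi _)).add continuous_const).add
      (continuous_const.mul (hkc i)))
  have h1 := integral_mono (integrable_mu hcs) (integrable_finsetSum _ hiT) hpt
  rw [integral_finsetSum _ hiT] at h1
  refine h1.trans ?_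
  have h2 : ∀ i ∈ Finset.range N, (∫ r, ((1 / (N : ℝ) + 1 / (16 * N)) * chi P n (g (xs i) r, r) +
      n * 2 * (1 / (N : ℝ)) ^ 2 + (4 * (N : ℝ) + n * 2) * (k (xs (i + 1)) r - k (xs i) r) ^ 2) ∂mu) ≤
      (1 / (N : ℝ) + 1 / (16 * N)) * (3 / 4) + n * 2 * (1 / (N : ℝ)) ^ 2 +
        (4 * (N : ℝ) + n * 2) * (1 / (N : ℝ) / 10) ^ 2 := by
    intro i hi
    have e1 := h.lip (xs (i + 1)) (xs i)
    rw [hstep] at e1
    have e2 := hM _ (hxm _ (Finset.mem_range.1 hi).le)
    unfold Mn at e2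
    have i1 : Integrable (fun r => (1 / (N : ℝ) + 1 / (16 * N)) * chi P n (g (xs i) r, r)) mu :=
      integrable_mu (continuous_const.mul (hchi _))
    have i2 : Integrable (fun r => (1 / (N : ℝ) + 1 / (16 * N)) * chi P n (g (xs i) r, r) +
        n * 2 * (1 / N) ^ 2) mu := i1.add (integrable_const _)
    have i3 : Integrable (fun r => (4 * (N : ℝ) + n * 2) *
        (k (xs (i + 1)) r - k (xs i) r) ^ 2) mu := integrable_mu (continuous_const.mul (hkc i))
    have i4 : ∫ r, (4 * (N : ℝ) + n * 2) * (k (xs (i + 1)) r - k (xs i) r) ^ 2 ∂mu =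
        (4 * (N : ℝ) + n * 2) * ∫ r, (k (xs (i + 1)) r - k (xs i) r) ^ 2 ∂mu :=
      integral_const_mul _ _
    have i5 : ∫ r, (1 / (N : ℝ) + 1 / (16 * N)) * chi P n (g (xs i) r, r) ∂mu =
        (1 / (N : ℝ) + 1 / (16 * N)) * ∫ r, chi P n (g (xs i) r, r) ∂mu := integral_const_mul _ _
    rw [integral_add i2 i3, integral_add i1 (integrable_const _), i4, i5, integral_const]
    simp only [probReal_univ, smul_eq_mul, one_mul]
    have q1 := mul_le_mul_of_nonneg_left e2 (show 0 ≤ 1 / (N : ℝ) + 1 / (16 * N) by positivity)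
    have q2 := mul_le_mul_of_nonneg_left e1 (show 0 ≤ 4 * (N : ℝ) + n * 2 by positivity)
    linarith
  refine (Finset.sum_le_sum h2).trans ?_
  rw [Finset.sum_const, Finset.card_range, nsmul_eq_mul]
  have e : (N : ℝ) * ((1 / N + 1 / (16 * N)) * (3 / 4) + n * 2 * (1 / N) ^ 2 +
      (4 * N + n * 2) * (1 / N / 10) ^ 2) = (17 / 16 * (3 / 4) + 4 / 100) +
        n * (2 + 2 / 100) / N := by
    field_simp
    ring
  rw [e]
  have : (n : ℝ) * (2 + 2 / 100) / N ≤ n * 3 / N := by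
    apply div_le_div_of_nonneg_right _ hN'.le
    nlinarith [Nat.cast_nonneg (α := ℝ) n]
  norm_num at this ⊢
  linarith

/-- **LEAF 2** of the Bishop disc -/
theorem contact_leaf : Bishop120.Contact := by
  intro k hkc hks hkl P0 hP0 hvol
  have h : Kam k := ⟨hkc, hks, fun ξ ξ' => by rw [← integral_mu]; exact hkl ξ ξ'⟩
  set P : Set (ℝ × ℝ) := P0 ∩ Icc (1 / 100 : ℝ) (99 / 100) ×ˢ Icc (0 : ℝ) 1 with hPdef
  have hP : IsClosed P := hP0.inter (isClosed_Icc.prod isClosed_Icc)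
  set g : ℝ → ℝ → ℝ := fun ξ r => ξ + k ξ r with hg
  -- area
  have hV : 88 / 100 ≤ (volume : Measure (ℝ × ℝ)).real P := by
    have hfin : volume (P0 ∩ Icc (0 : ℝ) 1 ×ˢ Icc (0 : ℝ) 1) ≠ ⊤ :=
      ne_top_of_le_ne_top (isCompact_Icc.prod isCompact_Icc).measure_lt_top.ne
        (measure_mono inter_subset_right)
    have h1 : (9 / 10 : ℝ) ≤ volume.real (P0 ∩ Icc (0 : ℝ) 1 ×ˢ Icc (0 : ℝ) 1) := by
      rw [measureReal_def]
      exact (ENNReal.ofReal_le_iff_le_toReal hfin).1 hvol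
    have hsub : P0 ∩ Icc (0 : ℝ) 1 ×ˢ Icc (0 : ℝ) 1 ⊆
        P ∪ (Icc (0 : ℝ) (1 / 100) ×ˢ Icc (0 : ℝ) 1 ∪ Icc (99 / 100 : ℝ) 1 ×ˢ Icc (0 : ℝ) 1) := by
      rintro ⟨x, r⟩ ⟨hp, hx, hr⟩
      simp only at hx hr
      by_cases h1 : x < 1 / 100
      · exact Or.inr (Or.inl ⟨⟨hx.1, h1.le⟩, hr⟩)
      by_cases h2 : 99 / 100 < x
      · exact Or.inr (Or.inr ⟨⟨h2.le, hx.2⟩, hr⟩)
      push Not at h1 h2
      exact Or.inl ⟨hp, ⟨h1, h2⟩, hr⟩
    have hfP : volume P ≠ ⊤ := ne_top_of_le_ne_top (isCompact_Icc.prod isCompact_Icc).measure_lt_top.ne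
        (measure_mono inter_subset_right)
    have hfA : volume (Icc (0 : ℝ) (1 / 100) ×ˢ Icc (0 : ℝ) 1) ≠ ⊤ :=
      (isCompact_Icc.prod isCompact_Icc).measure_lt_top.ne
    have hfB : volume (Icc (99 / 100 : ℝ) 1 ×ˢ Icc (0 : ℝ) 1) ≠ ⊤ :=
      (isCompact_Icc.prod isCompact_Icc).measure_lt_top.ne
    have h2 := measureReal_mono (μ := (volume : Measure (ℝ × ℝ))) hsub
      (measure_union_ne_top hfP (measure_union_ne_top hfA hfB))
    have h3 := h2.trans (measureReal_union_le _ _)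
    have h4 := measureReal_union_le (μ := (volume : Measure (ℝ × ℝ)))
      (Icc (0 : ℝ) (1 / 100) ×ˢ Icc (0 : ℝ) 1) (Icc (99 / 100 : ℝ) 1 ×ˢ Icc (0 : ℝ) 1)
    have h5 : (volume : Measure (ℝ × ℝ)).real (Icc (0 : ℝ) (1 / 100) ×ˢ Icc (0 : ℝ) 1) = 1 / 100 := by
      rw [measureReal_def, Measure.volume_eq_prod, Measure.prod_prod, Real.volume_Icc,
        Real.volume_Icc, ← ENNReal.ofReal_mul (by norm_num), ENNReal.toReal_ofReal (by norm_num)]
      norm_num
    have h6 : (volume : Measure (ℝ × ℝ)).real (Icc (99 / 100 : ℝ) 1 ×ˢ Icc (0 : ℝ) 1) = 1 / 100 := by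
      rw [measureReal_def, Measure.volume_eq_prod, Measure.prod_prod, Real.volume_Icc,
        Real.volume_Icc, ← ENNReal.ofReal_mul (by norm_num), ENNReal.toReal_ofReal (by norm_num)]
      norm_num
    rw [h5, h6] at h4
    linarith
  have hA : ∀ n, 88 / 100 ≤ ∫ r, (∫ t in (1 / 100 : ℝ)..(99 / 100), chi P n (t, r)) ∂mu := by
    intro n
    refine hV.trans ?_
    set ν : Measure ℝ := volume.restrict (Icc (1 / 100) (99 / 100)) with hν
    have : IsFiniteMeasure ν := by
      rw [hν]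
      exact isFiniteMeasure_restrict.2 (by rw [Real.volume_Icc]; exact ENNReal.ofReal_ne_top)
    have h1 : volume P = (ν.prod mu) P := by
      have e1 : ν.prod mu = (volume : Measure (ℝ × ℝ)).restrict
          (Icc (1 / 100) (99 / 100) ×ˢ Icc 0 1) := by
        rw [hν, mu, Measure.prod_restrict, Measure.volume_eq_prod]
      rw [e1, Measure.restrict_apply hP.measurableSet, inter_eq_left.2]
      exact inter_subset_right
    have hi : Integrable (chi P n) (ν.prod mu) := by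
      refine Integrable.of_bound (continuous_chi P n).measurable.aestronglyMeasurable 1
        (Eventually.of_forall fun r => ?_)
      rw [Real.norm_eq_abs, abs_of_nonneg (chi_nonneg _ _ _)]
      exact chi_le_one _ _ _
    have h2 : (ν.prod mu).real P ≤ ∫ p, chi P n p ∂(ν.prod mu) := by
      rw [← integral_indicator_one hP.measurableSet]
      refine integral_mono ((integrable_const 1).indicator hP.measurableSet) hi fun p => ?_
      by_cases hp : p ∈ P
      · rw [indicator_of_mem hp, chi_eq_one hp]; rfl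
      · rw [indicator_of_notMem hp]; exact chi_nonneg _ _ _
    have h3 : ∫ p, chi P n p ∂(ν.prod mu) =
        ∫ r, (∫ t in (1 / 100 : ℝ)..(99 / 100), chi P n (t, r)) ∂mu := by
      rw [integral_prod_symm _ hi]
      refine integral_congr_ae (Eventually.of_forall fun r => ?_)
      simp only
      rw [intervalIntegral.integral_of_le (by norm_num), hν, integral_Icc_eq_integral_Ioc]
    rw [measureReal_def, h1, ← measureReal_def, ← h3]
    exact h2
  have hne : P.Nonempty := by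
    rw [nonempty_iff_ne_empty]
    intro he
    rw [he] at hV
    simp at hV
    norm_num at hV
  set K : ℕ → Set ℝ := fun n => {ξ | ξ ∈ Icc (0 : ℝ) 1 ∧ 3 / 4 ≤ Mn mu P g n ξ} with hK
  have hcont : ∀ n, ContinuousOn (Mn mu P g n) (Icc 0 1) := fun n =>
    (continuousOn_Mn h.fam P n).mono (Icc_subset_Icc (by norm_num) (by norm_num))
  have hKc : ∀ n, IsCompact (K n) := by
    intro n
    have h2 : K n = Icc 0 1 ∩ (Mn mu P g n) ⁻¹' Ici (3 / 4) := by
      ext ξ; rfl
    rw [h2]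
    exact isCompact_Icc.of_isClosed_subset
      ((hcont n).preimage_isClosed_of_isClosed isClosed_Icc isClosed_Ici) inter_subset_left
  have hKne : ∀ n, (K n).Nonempty := by
    intro n
    by_contra hcon
    rw [not_nonempty_iff_eq_empty] at hcon
    have hM : ∀ ξ ∈ Icc (0 : ℝ) 1, Mn mu P g n ξ ≤ 3 / 4 := by
      intro ξ hξ
      by_contra hlt
      push Not at hlt
      have : ξ ∈ K n := ⟨hξ, hlt.le⟩
      rw [hcon] at this
      exact this
    have ht : Tendsto (fun N : ℕ => 84 / 100 + (n : ℝ) * 3 / (N : ℝ)) atTop (𝓝 (84 / 100 + 0)) :=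
      tendsto_const_nhds.add (tendsto_const_div_atTop_nhds_zero_nat _)
    have h1 : ∫ r, (∫ t in (1 / 100 : ℝ)..(99 / 100), chi P n (t, r)) ∂mu ≤ 84 / 100 + 0 := by
      refine ge_of_tendsto ht ?_
      filter_upwards [eventually_gt_atTop 0] with N hN
      exact grid' h P n hM N hN
    have h2 := hA n
    linarith
  have hKanti : ∀ n, K (n + 1) ⊆ K n := by
    intro n ξ hξ
    refine ⟨hξ.1, hξ.2.trans ?_⟩
    exact integral_mono (integrable_chi P _ (h.fam.meas ξ)) (integrable_chi P _ (h.fam.meas ξ))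
      fun r => chi_anti P (Nat.le_succ n) _
  obtain ⟨ξ, hξ⟩ := IsCompact.nonempty_iInter_of_sequence_nonempty_isCompact_isClosed K hKanti hKne
    (hKc 0) (fun n => (hKc n).isClosed)
  rw [mem_iInter] at hξ
  refine ⟨ξ, (hξ 0).1, ?_⟩
  have hms : MeasurableSet {r | (g ξ r, r) ∈ P} :=
    (measurable_graph (h.fam.meas ξ)) hP.measurableSet
  have ht : Tendsto (fun n => Mn mu P g n ξ) atTop (𝓝 (mu.real {r | (g ξ r, r) ∈ P})) := by
    rw [← integral_indicator_one hms]
    unfold Mn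
    refine tendsto_integral_of_dominated_convergence (fun _ => (1 : ℝ)) (fun n =>
      (integrable_chi P n (h.fam.meas ξ)).aestronglyMeasurable) (integrable_const _)
      (fun n => Eventually.of_forall fun r => ?_) (Eventually.of_forall fun r => ?_)
    · rw [Real.norm_eq_abs, abs_of_nonneg (chi_nonneg _ _ _)]
      exact chi_le_one _ _ _
    · have := tendsto_chi hP hne (g ξ r, r)
      simpa [indicator] using this
  have h1 : 3 / 4 ≤ mu.real {r | (g ξ r, r) ∈ P} := ge_of_tendsto' ht fun n => (hξ n).2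
  have h2 : mu {r | (g ξ r, r) ∈ P} ≤ volume {r : ℝ | r ∈ Icc (0 : ℝ) 1 ∧ (ξ + k ξ r, r) ∈ P0} := by
    rw [mu, Measure.restrict_apply hms]
    apply measure_mono
    rintro r ⟨hr1, hr2⟩
    exact ⟨hr2, hr1.1⟩
  refine le_trans ?_ h2
  exact (ENNReal.ofReal_le_iff_le_toReal (measure_ne_top _ _)).2 h1

end Crest.Agent.R102.Contact239
end

-- ▼ part R102/AeDeriv_532
section

/-!
# R102, T1-B, step 5 (Bishop): leaf AeDeriv

`b` continuous, 1-periodic, `∫₀¹ ‖b (r+h) - b r‖² ≤ (K h)²` for all `h`: then `b` is differentiable a.e.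
(bounded variation: the averages `b_h r = (1/h) ∫_r^{r+h} b` have variation `≤ (1+K²)/2`, lower
semicontinuity of the variation) and `|{‖b'‖ > c}| ≤ (K/c)²` (Fatou + Chebyshev).
-/

open MeasureTheory Metric Set Filter Topology

namespace Crest.Agent.R102.Bishop532

/-- variation of a `C¹` function on `[0,1]`. -/
theorem evar_le {F f : ℝ → ℂ} (hf : Continuous f) (hF : ∀ x, HasDerivAt F (f x) x) {M : ℝ}
    (hM : ∫ r in (0:ℝ)..1, ‖f r‖ ≤ M) : eVariationOn F (Icc 0 1) ≤ ENNReal.ofReal M := by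
  set G : ℝ → ℝ := fun x => ∫ r in (0:ℝ)..x, ‖f r‖ with hG
  have hint : ∀ a b : ℝ, IntervalIntegrable (fun r => ‖f r‖) volume a b :=
    fun a b => hf.norm.intervalIntegrable a b
  have hsub : ∀ x y : ℝ, G y - G x = ∫ r in x..y, ‖f r‖ := fun x y => by
    simp only [hG]
    exact intervalIntegral.integral_interval_sub_left (hint _ _) (hint _ _)
  have hmono : Monotone G := by
    intro x y hxy
    have h1 := hsub x y
    have h2 : 0 ≤ ∫ r in x..y, ‖f r‖ :=
      intervalIntegral.integral_nonneg hxy (fun _ _ => norm_nonneg _)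
    linarith
  have key : ∀ x y : ℝ, x ≤ y → edist (F y) (F x) ≤ edist (G y) (G x) := by
    intro x y hxy
    rw [edist_dist, edist_dist]
    apply ENNReal.ofReal_le_ofReal
    rw [dist_eq_norm, Real.dist_eq, abs_of_nonneg (sub_nonneg.2 (hmono hxy)), hsub,
      ← intervalIntegral.integral_eq_sub_of_hasDerivAt (fun t _ => hF t)
        (hf.intervalIntegrable x y)]
    exact intervalIntegral.norm_integral_le_integral_norm hxy
  calc eVariationOn F (Icc 0 1) ≤ eVariationOn G (Icc 0 1) := by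
        apply iSup_le
        rintro ⟨n, u, hu, us⟩
        exact (Finset.sum_le_sum fun i _ => key _ _ (hu (Nat.le_succ i))).trans
          (eVariationOn.sum_le hu us)
    _ = eVariationOn G (Icc 0 1 ∩ Icc 0 1) := by rw [inter_self]
    _ ≤ ENNReal.ofReal (G 1 - G 0) :=
        ((hmono.monotoneOn _).eVariationOn_eq (left_mem_Icc.2 zero_le_one)
          (right_mem_Icc.2 zero_le_one)).le
    _ ≤ ENNReal.ofReal M := ENNReal.ofReal_le_ofReal (by rw [hsub]; exact hM)

/-- the averages converge. -/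
theorem tendsto_avg {b : ℝ → ℂ} (hb : Continuous b) (x : ℝ) :
    Tendsto (fun h : ℝ => ((h⁻¹ : ℝ) : ℂ) * ∫ r in x..(x + h), b r) (𝓝[>] 0) (𝓝 (b x)) := by
  have h1 : HasDerivAt (fun y => ∫ r in x..y, b r) (b x) x :=
    intervalIntegral.integral_hasDerivAt_right (hb.intervalIntegrable x x)
      (hb.stronglyMeasurableAtFilter _ _) hb.continuousAt
  have h2 := h1.tendsto_slope_zero_right
  refine h2.congr fun h => ?_
  simp

/-- the L² difference quotient bound gives bounded variation. -/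
theorem bv {b : ℝ → ℂ} (hb : Continuous b) {K : ℝ}
    (hK : ∀ h : ℝ, ∫ r in (0 : ℝ)..1, ‖b (r + h) - b r‖ ^ 2 ≤ (K * h) ^ 2) :
    BoundedVariationOn b (Icc 0 1) := by
  set v : ENNReal := ENNReal.ofReal ((1 + K ^ 2) / 2) with hv
  suffices h : eVariationOn b (Icc 0 1) ≤ v by
    exact ne_top_of_le_ne_top ENNReal.ofReal_ne_top h
  by_contra hcon
  rw [not_le] at hcon
  have hev := eVariationOn.lowerSemicontinuous_aux
    (F := fun (h : ℝ) (x : ℝ) => ((h⁻¹ : ℝ) : ℂ) * ∫ r in x..(x + h), b r)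
    (p := 𝓝[>] (0:ℝ)) (f := b) (s := Icc 0 1) (fun x _ => tendsto_avg hb x) hcon
  obtain ⟨h, hh, hpos⟩ := (hev.and self_mem_nhdsWithin).exists
  have hpos' : 0 < h := hpos
  apply absurd hh
  rw [not_lt]
  -- the average is C¹ with derivative (b (x+h) - b x)/h
  have hder : ∀ x, HasDerivAt (fun x : ℝ => ((h⁻¹ : ℝ) : ℂ) * ∫ r in x..(x + h), b r)
      (((h⁻¹ : ℝ) : ℂ) * (b (x + h) - b x)) x := by
    intro x
    apply HasDerivAt.const_mul
    have e : (fun x : ℝ => ∫ r in x..(x + h), b r)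
        = fun x : ℝ => (∫ r in (0:ℝ)..(x + h), b r) - ∫ r in (0:ℝ)..x, b r := by
      funext x
      rw [intervalIntegral.integral_interval_sub_left (hb.intervalIntegrable _ _)
        (hb.intervalIntegrable _ _)]
    rw [e]
    apply HasDerivAt.sub
    · have h1 : HasDerivAt (fun y => ∫ r in (0:ℝ)..y, b r) (b (x + h)) (x + h) :=
        intervalIntegral.integral_hasDerivAt_right (hb.intervalIntegrable _ _)
          (hb.stronglyMeasurableAtFilter _ _) hb.continuousAt
      exact h1.comp_add_const x h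
    · exact intervalIntegral.integral_hasDerivAt_right (hb.intervalIntegrable _ _)
          (hb.stronglyMeasurableAtFilter _ _) hb.continuousAt
  have hbh : Continuous fun x => b (x + h) := hb.comp (continuous_id.add continuous_const)
  refine evar_le (f := fun x => ((h⁻¹ : ℝ) : ℂ) * (b (x + h) - b x))
    (continuous_const.mul (hbh.sub hb)) hder ?_
  have hc2 : Continuous fun r => (1 + (h⁻¹) ^ 2 * ‖b (r + h) - b r‖ ^ 2) / 2 := by fun_prop
  calc ∫ r in (0:ℝ)..1, ‖((h⁻¹ : ℝ) : ℂ) * (b (r + h) - b r)‖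
      ≤ ∫ r in (0:ℝ)..1, (1 + (h⁻¹) ^ 2 * ‖b (r + h) - b r‖ ^ 2) / 2 := by
        apply intervalIntegral.integral_mono_on zero_le_one
        · exact (continuous_const.mul (hbh.sub hb)).norm.intervalIntegrable _ _
        · exact hc2.intervalIntegrable _ _
        · intro r _
          rw [norm_mul, Complex.norm_real, Real.norm_eq_abs, abs_of_pos (inv_pos.2 hpos')]
          nlinarith [sq_nonneg (h⁻¹ * ‖b (r + h) - b r‖ - 1)]
    _ = (1 + (h⁻¹) ^ 2 * ∫ r in (0:ℝ)..1, ‖b (r + h) - b r‖ ^ 2) / 2 := by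
        rw [intervalIntegral.integral_div, intervalIntegral.integral_add,
          intervalIntegral.integral_const_mul]
        · simp
        · exact continuous_const.intervalIntegrable _ _
        · exact (Continuous.intervalIntegrable (by fun_prop) _ _)
    _ ≤ (1 + (h⁻¹) ^ 2 * (K * h) ^ 2) / 2 := by
        have := hK h
        gcongr
    _ = (1 + K ^ 2) / 2 := by
        field_simp

theorem aeDeriv : Bishop120.AeDeriv := by
  intro b hb _ K hK0 hK c hc
  have hdiff : ∀ᵐ x, x ∈ Icc (0:ℝ) 1 → DifferentiableAt ℝ b x := by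
    have h1 : BoundedVariationOn b (uIcc 0 1) := by
      rw [uIcc_of_le zero_le_one]; exact bv hb hK
    have := h1.ae_differentiableAt_of_mem_uIcc
    rwa [uIcc_of_le zero_le_one] at this
  -- the difference quotients
  set d : ℕ → ℝ := fun n => ((n : ℝ) + 1)⁻¹ with hd
  have hdpos : ∀ n, 0 < d n := fun n => by positivity
  set f : ℕ → ℝ → ENNReal := fun n r => ENNReal.ofReal ((d n)⁻¹ ^ 2 * ‖b (r + d n) - b r‖ ^ 2)
    with hf
  have hcont : ∀ n, Continuous fun r => (d n)⁻¹ ^ 2 * ‖b (r + d n) - b r‖ ^ 2 := fun n => by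
    fun_prop
  have hfm : ∀ n, Measurable (f n) := fun n =>
    ENNReal.measurable_ofReal.comp (hcont n).measurable
  have hfi : ∀ n, ∫⁻ r in Icc (0:ℝ) 1, f n r ≤ ENNReal.ofReal (K ^ 2) := by
    intro n
    have e1 : ∫⁻ r in Icc (0:ℝ) 1, f n r
        = ENNReal.ofReal (∫ r in Icc (0:ℝ) 1, (d n)⁻¹ ^ 2 * ‖b (r + d n) - b r‖ ^ 2) := by
      rw [ofReal_integral_eq_lintegral_ofReal]
      · exact (hcont n).continuousOn.integrableOn_compact isCompact_Icc
      · exact Eventually.of_forall fun r => by positivity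
    rw [e1]
    apply ENNReal.ofReal_le_ofReal
    rw [integral_Icc_eq_integral_Ioc, ← intervalIntegral.integral_of_le zero_le_one,
      intervalIntegral.integral_const_mul]
    calc (d n)⁻¹ ^ 2 * ∫ r in (0:ℝ)..1, ‖b (r + d n) - b r‖ ^ 2
        ≤ (d n)⁻¹ ^ 2 * (K * d n) ^ 2 := by
          have := hK (d n)
          gcongr
      _ = K ^ 2 := by
          have := (hdpos n).ne'
          field_simp
  have hlim : ∀ r, DifferentiableAt ℝ b r →
      Tendsto (fun n => f n r) atTop (𝓝 (ENNReal.ofReal (‖deriv b r‖ ^ 2))) := by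
    intro r hr
    have h1 := hr.hasDerivAt.tendsto_slope_zero_right
    have h2 : Tendsto d atTop (𝓝[>] 0) := by
      rw [tendsto_nhdsWithin_iff]
      exact ⟨by simpa [hd] using tendsto_one_div_add_atTop_nhds_zero_nat (𝕜 := ℝ),
        Eventually.of_forall fun n => hdpos n⟩
    have h3 := (h1.comp h2).norm.pow 2
    have h4 := (ENNReal.continuous_ofReal.tendsto _).comp h3
    refine h4.congr fun n => ?_
    simp only [Function.comp, hf, norm_smul, norm_inv, Real.norm_eq_abs, abs_of_pos (hdpos n),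
      mul_pow]
  -- Fatou and Chebyshev
  set F : ℝ → ENNReal := fun r => liminf (fun n => f n r) atTop with hF
  have hFm : Measurable F := Measurable.liminf hfm
  have hFi : ∫⁻ r in Icc (0:ℝ) 1, F r ≤ ENNReal.ofReal (K ^ 2) := by
    refine (lintegral_liminf_le hfm).trans ?_
    refine (liminf_le_liminf (v := fun _ => ENNReal.ofReal (K ^ 2))
      (Eventually.of_forall hfi)).trans ?_
    simp
  have hcheb := mul_meas_ge_le_lintegral (μ := volume.restrict (Icc (0:ℝ) 1)) hFm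
    (ENNReal.ofReal (c ^ 2))
  rw [Measure.restrict_apply' measurableSet_Icc] at hcheb
  have hsub : {r : ℝ | r ∈ Icc (0 : ℝ) 1 ∧ ¬ (DifferentiableAt ℝ b r ∧ ‖deriv b r‖ ≤ c)}
      ⊆ {r | ¬ (r ∈ Icc (0:ℝ) 1 → DifferentiableAt ℝ b r)} ∪
        ({r | ENNReal.ofReal (c ^ 2) ≤ F r} ∩ Icc 0 1) := by
    rintro r ⟨hr, hn⟩
    by_cases hdr : DifferentiableAt ℝ b r
    · right
      refine ⟨?_, hr⟩
      have h1 : ¬ ‖deriv b r‖ ≤ c := fun h => hn ⟨hdr, h⟩
      rw [not_le] at h1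
      show ENNReal.ofReal (c ^ 2) ≤ F r
      rw [hF]
      simp only
      rw [(hlim r hdr).liminf_eq]
      exact ENNReal.ofReal_le_ofReal (by gcongr)
    · left
      exact fun h => hdr (h hr)
  refine (measure_mono hsub).trans ((measure_union_le _ _).trans ?_)
  rw [show volume {r | ¬ (r ∈ Icc (0:ℝ) 1 → DifferentiableAt ℝ b r)} = 0 from hdiff, zero_add]
  have hc2 : 0 < c ^ 2 := by positivity
  have h5 : ENNReal.ofReal (c ^ 2) * volume ({r | ENNReal.ofReal (c ^ 2) ≤ F r} ∩ Icc 0 1)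
      ≤ ENNReal.ofReal (K ^ 2) := hcheb.trans hFi
  have h6 : ENNReal.ofReal ((K / c) ^ 2) = ENNReal.ofReal (K ^ 2) / ENNReal.ofReal (c ^ 2) := by
    rw [← ENNReal.ofReal_div_of_pos hc2, div_pow]
  rw [h6, ENNReal.le_div_iff_mul_le (Or.inl (ENNReal.ofReal_pos.2 hc2).ne') (Or.inl ENNReal.ofReal_ne_top),
    mul_comm]
  exact h5

end Crest.Agent.R102.Bishop532
end

-- ▼ part R102/Angular_966
section

/-!
LEAF 4 of `BishopDefs_120`: a function continuous on the closed upper half plane, holomorphic in the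
open one, whose boundary function is differentiable at `x`, is differentiable at `x` within the
closed half plane.
-/

open Filter Topology Metric Set

namespace Crest.Agent.R102.Ang966

open Crest.Agent.R102.Bishop120

/-- The half disc estimate. -/
theorem half966 (g : ℂ → ℂ) (hc : ContinuousOn g HC) (hd : DifferentiableOn ℂ g HO)
    (ε δ : ℝ) (hε : 0 < ε) (hδ : 0 < δ) (hr : ∀ t : ℝ, |t| ≤ δ → ‖g t‖ ≤ ε * |t|) :
    ∃ N : ℝ, 0 < N ∧ ∀ z : ℂ, 0 ≤ z.im → ‖z‖ < δ → ‖g z‖ ≤ 2 * ε * ‖z‖ * Real.exp (N * z.im) := by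
  -- the arc
  set K : Set ℂ := closedBall (0:ℂ) δ ∩ HC with hK
  have hHCclosed : IsClosed HC := isClosed_le continuous_const Complex.continuous_im
  have hKc : IsCompact K := (isCompact_closedBall (0:ℂ) δ).inter_right hHCclosed
  have hKne : K.Nonempty := ⟨0, by simp [hK, HC, hδ.le]⟩
  obtain ⟨z0, hz0, hz0max⟩ := hKc.exists_isMaxOn hKne (hc.norm.mono (fun z hz => hz.2))
  set M : ℝ := ‖g z0‖ with hM
  have hMb : ∀ z ∈ K, ‖g z‖ ≤ M := fun z hz => hz0max hz
  have hM0 : 0 ≤ M := norm_nonneg _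
  -- near the real axis on the sphere
  have hnear : ∃ η : ℝ, 0 < η ∧ ∀ z : ℂ, ‖z‖ = δ → 0 ≤ z.im → z.im ≤ η → ‖g z‖ ≤ 2 * ε * δ := by
    by_contra hcon
    push Not at hcon
    have hseq : ∀ n : ℕ, ∃ z : ℂ, ‖z‖ = δ ∧ 0 ≤ z.im ∧ z.im ≤ 1 / ((n:ℝ) + 1) ∧
        2 * ε * δ < ‖g z‖ := by
      intro n
      obtain ⟨z, h1, h2, h3, h4⟩ := hcon (1 / ((n:ℝ) + 1)) (by positivity)
      exact ⟨z, h1, h2, h3, h4⟩
    choose w hw1 hw2 hw3 hw4 using hseq
    have hwK : ∀ n, w n ∈ K := fun n =>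
      ⟨by rw [mem_closedBall, dist_zero_right, hw1 n], hw2 n⟩
    obtain ⟨a, haK, φ, hφ, hlim⟩ := hKc.tendsto_subseq hwK
    have ha1 : ‖a‖ = δ := by
      have h1 : Tendsto (fun n => ‖w (φ n)‖) atTop (𝓝 ‖a‖) := hlim.norm
      have h2 : (fun n => ‖w (φ n)‖) = fun _ => δ := by funext n; exact hw1 _
      rw [h2] at h1
      exact (tendsto_nhds_unique h1 tendsto_const_nhds)
    have ha2 : a.im = 0 := by
      have h1 : Tendsto (fun n => (w (φ n)).im) atTop (𝓝 a.im) :=
        (Complex.continuous_im.tendsto _).comp hlim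
      have h2 : Tendsto (fun n : ℕ => 1 / (((φ n : ℕ):ℝ) + 1)) atTop (𝓝 0) :=
        tendsto_one_div_add_atTop_nhds_zero_nat.comp hφ.tendsto_atTop
      have h3 : a.im ≤ 0 := le_of_tendsto_of_tendsto' h1 h2 (fun n => hw3 _)
      exact le_antisymm h3 haK.2
    have hga : Tendsto (fun n => ‖g (w (φ n))‖) atTop (𝓝 ‖g a‖) := by
      have h1 : Tendsto (fun n => w (φ n)) atTop (𝓝[HC] a) :=
        tendsto_nhdsWithin_iff.mpr ⟨hlim, Eventually.of_forall fun n => (hwK _).2⟩
      exact ((hc a haK.2).tendsto.comp h1).norm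
    have hge : 2 * ε * δ ≤ ‖g a‖ := ge_of_tendsto' hga (fun n => (hw4 _).le)
    have hare : a = ((a.re : ℝ) : ℂ) := by
      apply Complex.ext <;> simp [ha2]
    have habs : |a.re| = δ := by
      rw [← ha1, hare, Complex.norm_real]
      simp
    have h5 := hr a.re habs.le
    rw [← hare, habs] at h5
    have : 0 < ε * δ := mul_pos hε hδ
    linarith
  obtain ⟨η, hη, hηb⟩ := hnear
  -- choice of N
  obtain ⟨N, hN, hNb⟩ : ∃ N : ℝ, 0 < N ∧ M * Real.exp (-(N * η)) ≤ 2 * ε * δ := by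
    have ht : Tendsto (fun N : ℝ => M * Real.exp (-(N * η))) atTop (𝓝 (M * 0)) := by
      apply Tendsto.const_mul
      apply Real.tendsto_exp_atBot.comp
      apply tendsto_neg_atTop_atBot.comp
      exact tendsto_id.atTop_mul_const hη
    rw [mul_zero] at ht
    have h2 : 0 < 2 * ε * δ := by positivity
    have h3 := (ht.eventually (gt_mem_nhds h2)).and (eventually_gt_atTop 0)
    obtain ⟨N, hN1, hN2⟩ := h3.exists
    exact ⟨N, hN2, hN1.le⟩
  refine ⟨N, hN, ?_⟩
  -- the domain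
  set U : Set ℂ := ball (0:ℂ) δ ∩ {z | 0 < z.im} with hU
  have hUb : Bornology.IsBounded U := isBounded_ball.subset inter_subset_left
  have hclU : closure U ⊆ K := by
    have h1 : closure U ⊆ closure (ball (0:ℂ) δ) ∩ closure {z : ℂ | 0 < z.im} :=
      closure_inter_subset_inter_closure _ _
    intro z hz
    have h2 := h1 hz
    refine ⟨closure_ball_subset_closedBall h2.1, ?_⟩
    have h3 := h2.2
    rw [Complex.closure_setOfPred_lt_im] at h3
    exact h3
  have hUo : IsOpen U := isOpen_ball.inter (isOpen_lt continuous_const Complex.continuous_im)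
  -- the estimate for every r > 0
  have key : ∀ r : ℝ, 0 < r → ∀ z ∈ U,
      ‖g z / (z + Complex.I * r) * Complex.exp (Complex.I * N * z)‖ ≤ 2 * ε := by
    intro r hr0 z hz
    have hden : ∀ z : ℂ, 0 ≤ z.im → z + Complex.I * r ≠ 0 := by
      intro z hz h0
      have : (z + Complex.I * r).im = 0 := by rw [h0]; simp
      simp at this
      linarith
    have hdc : DiffContOnCl ℂ (fun z => g z / (z + Complex.I * r) *
        Complex.exp (Complex.I * N * z)) U := by
      refine ⟨?_, ?_⟩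
      · apply DifferentiableOn.mul
        · apply DifferentiableOn.div (hd.mono (fun z hz => hz.2))
          · fun_prop
          · intro z hz
            exact hden z (le_of_lt hz.2)
        · fun_prop
      · apply ContinuousOn.mul
        · apply ContinuousOn.div (hc.mono (fun z hz => (hclU hz).2))
          · fun_prop
          · intro z hz
            exact hden z (hclU hz).2
        · fun_prop
    refine Complex.norm_le_of_forall_mem_frontier_norm_le hUb hdc ?_ (subset_closure hz)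
    intro w hw
    have hwK : w ∈ K := hclU (frontier_subset_closure hw)
    have hwim : 0 ≤ w.im := hwK.2
    have hnormden : ‖w‖ ≤ ‖w + Complex.I * r‖ := by
      rw [Complex.norm_def, Complex.norm_def]
      apply Real.sqrt_le_sqrt
      simp only [Complex.normSq_apply, Complex.add_re, Complex.add_im, Complex.mul_re,
        Complex.mul_im, Complex.I_re, Complex.I_im, Complex.ofReal_re, Complex.ofReal_im]
      nlinarith
    have hdpos : 0 < ‖w + Complex.I * r‖ := norm_pos_iff.mpr (hden w hwim)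
    have hexp : ‖Complex.exp (Complex.I * N * w)‖ = Real.exp (-(N * w.im)) := by
      rw [Complex.norm_exp]
      congr 1
      simp [Complex.mul_re]
    have hexp1 : Real.exp (-(N * w.im)) ≤ 1 := by
      rw [Real.exp_le_one_iff]
      have := mul_nonneg hN.le hwim
      linarith
    rw [norm_mul, norm_div, hexp]
    -- frontier
    have hfr : (w.im = 0) ∨ (‖w‖ = δ) := by
      by_contra hcon
      push Not at hcon
      have h1 : ‖w‖ < δ := by
        have := hwK.1
        rw [mem_closedBall, dist_zero_right] at this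
        exact lt_of_le_of_ne this hcon.2
      have h2 : 0 < w.im := lt_of_le_of_ne hwim (Ne.symm hcon.1)
      have hwU : w ∈ U := ⟨by rw [mem_ball, dist_zero_right]; exact h1, h2⟩
      rw [hUo.frontier_eq] at hw
      exact hw.2 hwU
    rcases hfr with him | hn
    · have hre : w = ((w.re : ℝ) : ℂ) := by
        apply Complex.ext <;> simp [him]
      have hle : |w.re| ≤ δ := by
        have h1 := hwK.1
        rw [mem_closedBall, dist_zero_right] at h1
        exact (Complex.abs_re_le_norm w).trans h1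
      have h1 := hr w.re hle
      rw [← hre] at h1
      have h2 : |w.re| ≤ ‖w + Complex.I * r‖ := (Complex.abs_re_le_norm w).trans hnormden
      have h3 : ‖g w‖ / ‖w + Complex.I * r‖ ≤ ε := by
        rw [div_le_iff₀ hdpos]
        exact h1.trans (mul_le_mul_of_nonneg_left h2 hε.le)
      calc ‖g w‖ / ‖w + Complex.I * r‖ * Real.exp (-(N * w.im)) ≤ ε * 1 :=
            mul_le_mul h3 hexp1 (Real.exp_pos _).le hε.le
        _ ≤ 2 * ε := by linarith
    · have hdge : δ ≤ ‖w + Complex.I * r‖ := by rw [← hn]; exact hnormden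
      rcases le_or_gt w.im η with h | h
      · have h1 := hηb w hn hwim h
        have h3 : ‖g w‖ / ‖w + Complex.I * r‖ ≤ 2 * ε := by
          rw [div_le_iff₀ hdpos]
          exact h1.trans (mul_le_mul_of_nonneg_left hdge (by positivity))
        calc ‖g w‖ / ‖w + Complex.I * r‖ * Real.exp (-(N * w.im)) ≤ (2 * ε) * 1 :=
              mul_le_mul h3 hexp1 (Real.exp_pos _).le (by positivity)
          _ = 2 * ε := by ring
      · have h1 := hMb w hwK
        have h2 : Real.exp (-(N * w.im)) ≤ Real.exp (-(N * η)) := by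
          rw [Real.exp_le_exp]
          have := mul_le_mul_of_nonneg_left h.le hN.le
          linarith
        have h3 : ‖g w‖ * Real.exp (-(N * w.im)) ≤ 2 * ε * δ :=
          (mul_le_mul h1 h2 (Real.exp_pos _).le hM0).trans hNb
        rw [div_mul_eq_mul_div, div_le_iff₀ hdpos]
        exact h3.trans (mul_le_mul_of_nonneg_left hdge (by positivity))
  intro z hzim hzn
  -- limit r → 0 for interior points
  have hint : ∀ z : ℂ, 0 < z.im → ‖z‖ < δ → ‖g z‖ ≤ 2 * ε * ‖z‖ * Real.exp (N * z.im) := by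
    intro z hzim hzn
    have hzU : z ∈ U := ⟨by rw [mem_ball, dist_zero_right]; exact hzn, hzim⟩
    have hstep : ∀ r : ℝ, 0 < r → ‖g z‖ ≤ 2 * ε * (‖z‖ + r) * Real.exp (N * z.im) := by
      intro r hr0
      have h1 := key r hr0 z hzU
      have hexp : ‖Complex.exp (Complex.I * N * z)‖ = Real.exp (-(N * z.im)) := by
        rw [Complex.norm_exp]
        congr 1
        simp [Complex.mul_re]
      have hdpos : 0 < ‖z + Complex.I * r‖ := by
        rw [norm_pos_iff]
        intro h0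
        have : (z + Complex.I * r).im = 0 := by rw [h0]; simp
        simp at this
        linarith
      rw [norm_mul, norm_div, hexp, div_mul_eq_mul_div, div_le_iff₀ hdpos] at h1
      have hdle : ‖z + Complex.I * r‖ ≤ ‖z‖ + r := by
        refine (norm_add_le _ _).trans ?_
        rw [norm_mul, Complex.norm_I, one_mul, Complex.norm_real, Real.norm_of_nonneg hr0.le]
      have h2 : ‖g z‖ = (‖g z‖ * Real.exp (-(N * z.im))) * Real.exp (N * z.im) := by
        rw [mul_assoc, ← Real.exp_add]; simp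
      rw [h2]
      apply mul_le_mul_of_nonneg_right _ (Real.exp_pos _).le
      exact h1.trans (mul_le_mul_of_nonneg_left hdle (by positivity))
    have ht : Tendsto (fun r : ℝ => 2 * ε * (‖z‖ + r) * Real.exp (N * z.im)) (𝓝[>] 0)
        (𝓝 (2 * ε * (‖z‖ + 0) * Real.exp (N * z.im))) := by
      apply Tendsto.mono_left _ nhdsWithin_le_nhds
      apply Continuous.tendsto
      fun_prop
    rw [add_zero] at ht
    apply ge_of_tendsto ht
    filter_upwards [self_mem_nhdsWithin] with r hr0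
    exact hstep r hr0
  rcases hzim.eq_or_lt with h0 | h0
  · have hre : z = ((z.re : ℝ) : ℂ) := by
      apply Complex.ext <;> simp [← h0]
    have hle : |z.re| ≤ δ := (Complex.abs_re_le_norm z).trans hzn.le
    have h1 := hr z.re hle
    rw [← hre] at h1
    rw [← h0]
    have h2 : |z.re| ≤ ‖z‖ := Complex.abs_re_le_norm z
    have h3 : ε * |z.re| ≤ ε * ‖z‖ := mul_le_mul_of_nonneg_left h2 hε.le
    have h4 : 0 ≤ ε * ‖z‖ := by positivity
    simp only [mul_zero, Real.exp_zero, mul_one]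
    linarith
  · exact hint z h0 hzn

/-- **LEAF 4.** -/
theorem angular : Angular := by
  intro G hGc hGd x κ hder
  rw [hasDerivWithinAt_iff_isLittleO, Asymptotics.isLittleO_iff]
  intro c hc
  -- the shifted function
  set g : ℂ → ℂ := fun z => G (z + x) - G x - z * κ with hg
  have hmapC : ∀ z : ℂ, z ∈ HC → z + x ∈ HC := by
    intro z hz; simpa [HC] using hz
  have hmapO : ∀ z : ℂ, z ∈ HO → z + x ∈ HO := by
    intro z hz; simpa [HO] using hz
  have hgc : ContinuousOn g HC := by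
    apply ContinuousOn.sub
    · apply ContinuousOn.sub _ continuousOn_const
      exact hGc.comp (by fun_prop) hmapC
    · fun_prop
  have hgd : DifferentiableOn ℂ g HO := by
    apply DifferentiableOn.sub
    · apply DifferentiableOn.sub _ (differentiableOn_const _)
      exact hGd.comp (by fun_prop) hmapO
    · fun_prop
  have hlit : ∃ δ : ℝ, 0 < δ ∧ ∀ t : ℝ, |t| ≤ δ → ‖g t‖ ≤ (c / 4) * |t| := by
    rw [hasDerivAt_iff_isLittleO, Asymptotics.isLittleO_iff] at hder
    have h1 := hder (show 0 < c / 4 by positivity)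
    rw [Metric.eventually_nhds_iff] at h1
    obtain ⟨δ, hδ, h2⟩ := h1
    refine ⟨δ / 2, by positivity, ?_⟩
    intro t ht
    have h3 := h2 (y := t + x) (by rw [Real.dist_eq]; simp; linarith)
    simp only [hg]
    have h4 : ((t + x : ℝ) : ℂ) = (t : ℂ) + x := by push_cast; ring
    rw [h4, add_sub_cancel_right] at h3
    simpa using h3
  obtain ⟨δ, hδ, hδb⟩ := hlit
  obtain ⟨N, hN, hNb⟩ := half966 g hgc hgd (c / 4) δ (by positivity) hδ hδb
  have hexp : ∀ᶠ z : ℂ in 𝓝 (x : ℂ), Real.exp (N * (z - x).im) < 2 := by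
    have hcont : Continuous fun z : ℂ => Real.exp (N * (z - x).im) := by fun_prop
    have h1 : Tendsto (fun z : ℂ => Real.exp (N * (z - x).im)) (𝓝 (x:ℂ))
        (𝓝 (Real.exp (N * ((x:ℂ) - x).im))) := hcont.tendsto _
    have h2 : Real.exp (N * ((x:ℂ) - x).im) < 2 := by simp
    exact h1.eventually (gt_mem_nhds h2)
  have hball : ∀ᶠ z : ℂ in 𝓝 (x : ℂ), ‖z - x‖ < δ := by
    have := Metric.ball_mem_nhds (x:ℂ) hδ
    filter_upwards [this] with z hz
    rwa [mem_ball, dist_eq_norm] at hz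
  filter_upwards [nhdsWithin_le_nhds hexp, nhdsWithin_le_nhds hball, self_mem_nhdsWithin]
    with z h1 h2 h3
  have hzim : 0 ≤ (z - x).im := by simpa [HC] using h3
  have h4 := hNb (z - x) hzim h2
  simp only [hg, sub_add_cancel] at h4
  have h5 : (0:ℝ) ≤ ‖z - x‖ := norm_nonneg _
  have h6 : 2 * (c / 4) * ‖z - x‖ * Real.exp (N * (z - x).im) ≤ 2 * (c / 4) * ‖z - x‖ * 2 :=
    mul_le_mul_of_nonneg_left h1.le (by positivity)
  rw [smul_eq_mul]
  calc ‖G z - G x - (z - x) * κ‖ ≤ _ := h4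
    _ ≤ _ := h6
    _ = c * ‖z - x‖ := by ring

end Crest.Agent.R102.Ang966
end

-- ▼ part R102/TiltF_620
section

/-! # R102: `Bishop120.Local` and its tilted form as theorems (helper620, assembly only) -/

namespace Crest.Agent.R102.Tilt620

theorem local_thm : Bishop120.Local :=
  BishopAsm942.local_of Bishop120.disc Contact239.contact_leaf Bishop532.aeDeriv Ang966.angular

theorem localTilt : LocalTilt := local_tilt local_thm

end Crest.Agent.R102.Tilt620
end

-- ▼ part R102/DiscF_669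
section

/-! Row 102, T1-B, III.3 + III.4 + III.5 as closed theorems (helper669, assembly only). -/

namespace Crest.Agent.R102.DiscT669

theorem discEst : S5.DiscEst := discEst_of Tilt620.localTilt Chain864.sawChain

theorem step5 : S5.Step5 := S5.step5 discEst

end Crest.Agent.R102.DiscT669
end

-- ▼ part R102/SupFin_115

/-!
Row 102, T1-B, III.2: `supFin : Sup` (all leaves plugged; helper115).
-/

set_option autoImplicit false

namespace Crest.Agent.R102.Sup115

theorem supFin : Sup :=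
  sup DiscT669.step5 prodBlow ProdUniq725.prodUniq Alt613.altAe PartII150.birthsOf

end Crest.Agent.R102.Sup115
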