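import Crest.Agent.R102.RegFace_359
import Crest.Agent.R102.EdgeLim_196
import Crest.Agent.R102.SupDefs_115
import Crest.Agent.R102.EdgeDefs_255

-- ▼ part R102/RegBirths_359
section

/-!
Row 102, T1-B, EDGE (helper359): **births against regularity, on the objects of `SupDefs_115`**.

* `no_ext`    : at a window of Part II (`E2`) the label has no interior extension across the face;
* `no_simple` : a sequence of windows, limit incidence with an interior SIMPLE root which is a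
  cluster value of the labels: contradiction;
* `end_tang`  : hence (196) the limit label is tangential everywhere.
-/

set_option autoImplicit false

open Set Filter Topology Metric Complex

noncomputable section

namespace Crest.Agent.R102.RegBirths359

open Crest.Agent.R102.S5 (Half bl Gam Low)
open Crest.Agent.R102.Sup115 Crest.Agent.R102.RegFace359
open Crest.Agent.R102.EdgeLim196

/-- inverse blow-up -/
def ib (e : ℝ × ℝ) (s : ℝ) (q : ℂ × ℂ) : ℂ × ℂ := ((q.1 - e.1) / s, (q.2 - e.2) / s)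

theorem bl_ib (e : ℝ × ℝ) {s : ℝ} (hs : s ≠ 0) (q : ℂ × ℂ) : bl e s (ib e s q) = q := by
  have h : (s : ℂ) ≠ 0 := by exact_mod_cast hs
  unfold bl ib
  ext1
  · simp only; field_simp; ring
  · simp only; field_simp; ring

theorem ib_bl (e : ℝ × ℝ) {s : ℝ} (hs : s ≠ 0) (q : ℂ × ℂ) : ib e s (bl e s q) = q := by
  have h : (s : ℂ) ≠ 0 := by exact_mod_cast hs
  unfold bl ib
  ext1
  · simp only; field_simp; ring
  · simp only; field_simp; ring

theorem differentiable_ib (e : ℝ × ℝ) (s : ℝ) : Differentiable ℂ (ib e s) := by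
  unfold ib
  fun_prop

theorem differentiable_bl (e : ℝ × ℝ) (s : ℝ) : Differentiable ℂ (bl e s) := by
  unfold bl
  exact ((differentiable_const _).add ((differentiable_const _).mul differentiable_fst)).prodMk
    ((differentiable_const _).add ((differentiable_const _).mul differentiable_snd))

/-- the low part at level `m` -/
def Wm (m : ℝ) : Set (ℂ × ℂ) := {q | 0 < q.2.im ∧ q.1.im < m * q.2.im}

theorem Wm_eq (m : ℝ) : Wm m = Lo m := rfl

/-- points of the low part are in the sheet -/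
theorem bl_mem {X L : Set (ℂ × ℂ)} {a g ρ η s : ℝ} {e : ℝ × ℝ} (hE : E2 X L a g ρ η e)
    (hs : 0 < s) {x : ℂ × ℂ} (hx : x ∈ Wm (a - ρ)) (hn : s * ‖x‖ < η) : bl e s x ∈ X := by
  refine hE.low ?_
  have h1 : ‖x.1‖ ≤ ‖x‖ := norm_fst_le x
  have h2 : ‖x.2‖ ≤ ‖x‖ := norm_snd_le x
  have hb1 : s * ‖x.1‖ < η := (mul_le_mul_of_nonneg_left h1 hs.le).trans_lt hn
  have hb2 : s * ‖x.2‖ < η := (mul_le_mul_of_nonneg_left h2 hs.le).trans_lt hn
  have e1 : (bl e s x).1.re = e.1 + s * x.1.re := by unfold bl; simp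
  have e2 : (bl e s x).1.im = s * x.1.im := by unfold bl; simp
  have e3 : (bl e s x).2.im = s * x.2.im := by unfold bl; simp
  have e4 : (bl e s x).2 - (e.2 : ℂ) = s * x.2 := by unfold bl; ring
  refine ⟨?_, ?_, ?_, ?_, ?_⟩
  · rw [e1, add_sub_cancel_left, abs_mul, abs_of_pos hs]
    exact (mul_le_mul_of_nonneg_left (Complex.abs_re_le_norm _) hs.le).trans_lt hb1
  · rw [e2]
    have h3 : -‖x.1‖ ≤ x.1.im := (abs_le.1 (Complex.abs_im_le_norm x.1)).1
    have := mul_le_mul_of_nonneg_left h3 hs.le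
    linarith
  · rw [e4, norm_mul, Complex.norm_real, Real.norm_eq_abs, abs_of_pos hs]
    exact hb2
  · rw [e3]; exact mul_pos hs hx.1
  · rw [e2, e3]
    have := mul_lt_mul_of_pos_left hx.2 hs
    linarith

/-- **vertical climb**: a regular interior function which agrees with `B` at the bottom of a
vertical segment keeps the segment in the sheet. -/
theorem climb {X : Set (ℂ × ℂ)} {h : ℝ} {B Bt : ℂ × ℂ → ℂ} (hXo : IsOpen X)
    (hB : AnalyticOnNhd ℂ B X) (hmax : MaxiX h X B) {q : ℂ × ℂ} {τ0 : ℝ} (hτ0 : 0 ≤ τ0)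
    (hBt : ∀ t ∈ Icc (0 : ℝ) τ0, AnalyticAt ℂ Bt (q.1 - t * I, q.2) ∧
      |(Bt (q.1 - t * I, q.2)).im| < h)
    (hbot : (q.1 - τ0 * I, q.2) ∈ X ∧ Bt =ᶠ[𝓝 (q.1 - τ0 * I, q.2)] B) : q ∈ X := by
  set σ : ℝ → ℂ × ℂ := fun t => (q.1 - t * I, q.2) with hσ
  have hσc : Continuous σ := by rw [hσ]; fun_prop
  set P : ℝ → Prop := fun t => σ t ∈ X ∧ Bt =ᶠ[𝓝 (σ t)] B with hP
  have hPo : IsOpen {t | P t} := by
    rw [isOpen_iff_mem_nhds]
    rintro t ⟨h1, h2⟩
    have h3 : ∀ᶠ x in 𝓝 (σ t), x ∈ X ∧ Bt =ᶠ[𝓝 x] B :=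
      (show ∀ᶠ x in 𝓝 (σ t), x ∈ X from hXo.mem_nhds h1).and (eventually_eventually_nhds.2 h2)
    exact hσc.continuousAt.eventually h3
  by_contra hq
  have h0 : ¬ P 0 := by
    rintro ⟨h1, -⟩
    apply hq
    have : σ 0 = q := by rw [hσ]; simp
    rwa [this] at h1
  set Z : Set ℝ := Icc 0 τ0 ∩ {t | P t}ᶜ with hZ
  have hZc : IsCompact Z := isCompact_Icc.inter_right hPo.isClosed_compl
  obtain ⟨t, ⟨⟨ht0, ht1⟩, htP⟩, htmax⟩ := hZc.exists_isGreatest ⟨0, ⟨le_rfl, hτ0⟩, h0⟩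
  have htlt : t < τ0 := by
    rcases ht1.lt_or_eq with h | h
    · exact h
    · exact absurd (h ▸ hbot : P t) htP
  have hup : ∀ t', t < t' → t' ≤ τ0 → P t' := by
    intro t' h1 h2
    by_contra h3
    exact absurd (htmax ⟨⟨ht0.trans h1.le, h2⟩, h3⟩) (not_le.2 h1)
  have hshift : ∀ τ : ℝ, ((σ t).1 - τ * I, (σ t).2) = σ (t + τ) := by
    intro τ
    rw [hσ]
    simp only
    ext1
    · simp only; push_cast; ring
    · rfl
  have hev : ∀ᶠ τ : ℝ in 𝓝[>] 0, σ (t + τ) ∈ X ∧ Bt =ᶠ[𝓝 (σ (t + τ))] B := by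
    have h1 : ∀ᶠ τ : ℝ in 𝓝[>] 0, τ < τ0 - t :=
      mem_nhdsWithin_of_mem_nhds (gt_mem_nhds (by linarith))
    filter_upwards [h1, self_mem_nhdsWithin] with τ h2 h3
    have h3' : (0 : ℝ) < τ := h3
    exact hup (t + τ) (by linarith) (by linarith)
  have htX : σ t ∈ X := by
    refine hmax (σ t) Bt (hBt t ⟨ht0, ht1⟩).1 (hBt t ⟨ht0, ht1⟩).2 ?_
    filter_upwards [hev] with τ hτ
    rw [hshift τ]
    exact hτ
  apply htP
  refine ⟨htX, ?_⟩
  -- identity theorem on a small ball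
  have hBta : ∀ᶠ x in 𝓝 (σ t), AnalyticAt ℂ Bt x := (hBt t ⟨ht0, ht1⟩).1.eventually_analyticAt
  obtain ⟨r, hr, hball⟩ := Metric.eventually_nhds_iff_ball.1 (hBta.and (hXo.mem_nhds htX))
  have hin : ∀ᶠ τ : ℝ in 𝓝[>] 0, σ (t + τ) ∈ ball (σ t) r := by
    have h1 : Continuous fun τ : ℝ => σ (t + τ) := hσc.comp (continuous_const.add continuous_id)
    have h2 : ∀ᶠ τ : ℝ in 𝓝 0, σ (t + τ) ∈ ball (σ t) r := by
      have h3 := h1.tendsto 0
      rw [add_zero] at h3
      exact h3.eventually (ball_mem_nhds _ hr)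
    exact mem_nhdsWithin_of_mem_nhds h2
  obtain ⟨τ, h1, h2⟩ := (hin.and hev).exists
  have h3 : EqOn Bt B (ball (σ t) r) :=
    AnalyticOnNhd.eqOn_of_preconnected_of_eventuallyEq (fun x hx => (hball x hx).1)
      (fun x hx => hB x (hball x hx).2) (convex_ball _ _).isPreconnected h1 h2.2
  exact h3.eventuallyEq_of_mem (ball_mem_nhds _ hr)

set_option maxHeartbeats 1000000 in
/-- **(A)** no interior extension across the face at a window of Part II -/
theorem no_ext {X L : Set (ℂ × ℂ)} {a g ρ η h s r1 : ℝ} {B : ℂ × ℂ → ℂ} {e : ℝ × ℝ}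
    (hE : E2 X L a g ρ η e) (hXo : IsOpen X) (hB : DifferentiableOn ℂ B X) (hmax : MaxiX h X B)
    (ha : 0 ≤ a) (hρ0 : 0 ≤ ρ) (_hρ1 : ρ ≤ 1) (hs : 0 < s) (hr1 : 0 < r1) {q0 : ℂ × ℂ}
    (hq0 : q0.1.im = a * q0.2.im) (hscale : s * ((1 + a) * ‖q0‖ + r1) < η)
    (hρ2 : ρ * ‖q0‖ < q0.2.im) (hρ3 : ρ * ((4 * a + 16) * ‖q0‖) < r1) :
    ¬ ∃ G : ℂ × ℂ → ℂ, DifferentiableOn ℂ G (ball q0 r1) ∧
      (∀ x ∈ ball q0 r1, |(G x).im| < h) ∧
      ∀ x ∈ ball q0 r1, x ∈ Wm (a - ρ) → G x = B (bl e s x) := by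
  rintro ⟨G, hG, hGh, hGB⟩
  have hsne : s ≠ 0 := hs.ne'
  have hsc : (s : ℂ) ≠ 0 := by exact_mod_cast hsne
  have hn0 : 0 ≤ ‖q0‖ := norm_nonneg _
  have hn1 : ‖q0.1‖ ≤ ‖q0‖ := norm_fst_le q0
  have hn2 : ‖q0.2‖ ≤ ‖q0‖ := norm_snd_le q0
  have him0 : 0 < q0.2.im := lt_of_le_of_lt (mul_nonneg hρ0 hn0) hρ2
  have hρn : ρ * ‖q0.2‖ ≤ ρ * ‖q0‖ := mul_le_mul_of_nonneg_left hn2 hρ0
  -- a point outside the sheet
  obtain ⟨q, hqX, h1, h2, h3, h4⟩ := hE.dense (e.1 + s * (q0.1.re - a * q0.2.re)) (by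
      rw [add_sub_cancel_left, abs_mul, abs_of_pos hs]
      refine lt_of_le_of_lt (mul_le_mul_of_nonneg_left ?_ hs.le) hscale
      have h5 : |q0.1.re - a * q0.2.re| ≤ |q0.1.re| + |a * q0.2.re| := abs_sub _ _
      have h6 : |a * q0.2.re| ≤ a * ‖q0‖ := by
        rw [abs_mul, abs_of_nonneg ha]
        exact mul_le_mul_of_nonneg_left ((Complex.abs_re_le_norm _).trans hn2) ha
      have h7 := (Complex.abs_re_le_norm q0.1).trans hn1
      linarith) (s * q0.2) (by
      rw [norm_mul, Complex.norm_real, Real.norm_eq_abs, abs_of_pos hs]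
      refine lt_of_le_of_lt (mul_le_mul_of_nonneg_left ?_ hs.le) hscale
      nlinarith [mul_nonneg ha hn0]) (by
      simpa using mul_pos hs him0) (by
      rw [norm_mul, Complex.norm_real, Real.norm_eq_abs, abs_of_pos hs]
      have : ((s : ℂ) * q0.2).im = s * q0.2.im := by simp
      rw [this]
      nlinarith)
  -- rescale
  set y : ℂ × ℂ := ib e s q with hy
  have hyq : bl e s y = q := bl_ib e hsne q
  have e1 : q.1.re = e.1 + s * y.1.re := by rw [← hyq]; unfold bl; simp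
  have e2 : q.1.im = s * y.1.im := by rw [← hyq]; unfold bl; simp
  have e3 : q.2.im = s * y.2.im := by rw [← hyq]; unfold bl; simp
  have e4 : q.2 = e.2 + s * y.2 := by rw [← hyq]; unfold bl; simp
  have hns : ‖(s : ℂ) * q0.2‖ = s * ‖q0.2‖ := by
    rw [norm_mul, Complex.norm_real, Real.norm_eq_abs, abs_of_pos hs]
  have g1 : |y.1.re - q0.1.re| ≤ ρ * ‖q0.2‖ := by
    rw [hns, e1] at h1
    have h5 : e.1 + s * y.1.re - (e.1 + s * (q0.1.re - a * q0.2.re) + a * ((s : ℂ) * q0.2).re) =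
        s * (y.1.re - q0.1.re) := by
      have : ((s : ℂ) * q0.2).re = s * q0.2.re := by simp
      rw [this]; ring
    rw [h5, abs_mul, abs_of_pos hs] at h1
    have h6 : s * |y.1.re - q0.1.re| ≤ s * (ρ * ‖q0.2‖) := by linarith
    exact le_of_mul_le_mul_left h6 hs
  have g2 : ‖y.2 - q0.2‖ ≤ ρ * ‖q0.2‖ := by
    rw [hns, e4] at h2
    have h5 : (e.2 : ℂ) + s * y.2 - (e.2 + s * q0.2) = s * (y.2 - q0.2) := by ring
    rw [h5, norm_mul, Complex.norm_real, Real.norm_eq_abs, abs_of_pos hs] at h2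
    have h6 : s * ‖y.2 - q0.2‖ ≤ s * (ρ * ‖q0.2‖) := by linarith
    exact le_of_mul_le_mul_left h6 hs
  have g3 : (a - ρ) * y.2.im ≤ y.1.im := by
    rw [e2, e3] at h3
    have : s * ((a - ρ) * y.2.im) ≤ s * y.1.im := by linarith
    exact le_of_mul_le_mul_left this hs
  have g4 : y.1.im ≤ (a + ρ) * y.2.im := by
    rw [e2, e3] at h4
    have : s * y.1.im ≤ s * ((a + ρ) * y.2.im) := by linarith
    exact le_of_mul_le_mul_left this hs
  have g5 : |y.2.im - q0.2.im| ≤ ρ * ‖q0.2‖ := by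
    have := (Complex.abs_im_le_norm (y.2 - q0.2)).trans g2
    rwa [Complex.sub_im] at this
  have hq2i : q0.2.im ≤ ‖q0‖ := ((le_abs_self _).trans (Complex.abs_im_le_norm _)).trans hn2
  have g5' := abs_le.1 g5
  have hy0 : 0 < y.2.im := by linarith [g5'.1]
  have hy2 : y.2.im ≤ 2 * ‖q0‖ := by nlinarith [g5'.2]
  have hρy : ρ * y.2.im ≤ ρ * (2 * ‖q0‖) := mul_le_mul_of_nonneg_left hy2 hρ0
  have g6 : |y.1.im - q0.1.im| ≤ ρ * ((2 + a) * ‖q0‖) := by
    rw [hq0, abs_le]
    have h5 : a * |y.2.im - q0.2.im| ≤ a * (ρ * ‖q0‖) :=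
      mul_le_mul_of_nonneg_left (g5.trans hρn) ha
    have h6 : |a * (y.2.im - q0.2.im)| ≤ a * (ρ * ‖q0‖) := by
      rw [abs_mul, abs_of_nonneg ha]; exact h5
    have h7 := abs_le.1 h6
    constructor <;> nlinarith [h7.1, h7.2]
  have hN0 : 0 ≤ ρ * ‖q0‖ := mul_nonneg hρ0 hn0
  have hNa : 0 ≤ a * (ρ * ‖q0‖) := mul_nonneg ha hN0
  have hN3 : 4 * (a * (ρ * ‖q0‖)) + 16 * (ρ * ‖q0‖) < r1 := by
    have h5 : ρ * ((4 * a + 16) * ‖q0‖) = 4 * (a * (ρ * ‖q0‖)) + 16 * (ρ * ‖q0‖) := by ring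
    rwa [h5] at hρ3
  have hρr : ρ * ‖q0‖ ≤ r1 / 16 := by linarith
  have hρar : ρ * ((2 + a) * ‖q0‖) + ρ * ‖q0‖ ≤ r1 / 4 := by
    have h5 : ρ * ((2 + a) * ‖q0‖) = a * (ρ * ‖q0‖) + 2 * (ρ * ‖q0‖) := by ring
    rw [h5]; linarith
  have hd1 : ‖y.1 - q0.1‖ ≤ r1 / 4 := by
    refine (Complex.norm_le_abs_re_add_abs_im _).trans ?_
    rw [Complex.sub_re, Complex.sub_im]
    linarith
  have hd2 : ‖y.2 - q0.2‖ ≤ r1 / 16 := g2.trans (hρn.trans hρr)
  -- the vertical segment below `q`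
  have hseg : ∀ t ∈ Icc (0 : ℝ) (s * (r1 / 2)), (y.1 - (t / s : ℝ) * I, y.2) ∈ ball q0 r1 := by
    intro t ht
    rw [mem_ball, Prod.dist_eq, max_lt_iff, dist_eq_norm, dist_eq_norm]
    refine ⟨?_, by linarith⟩
    have h5 : t / s ≤ r1 / 2 := by
      rw [div_le_iff₀ hs]; linarith [ht.2]
    have h6 : 0 ≤ t / s := div_nonneg ht.1 hs.le
    have h7 : y.1 - (t / s : ℝ) * I - q0.1 = (y.1 - q0.1) + -((t / s : ℝ) * I) := by ring
    rw [h7]
    refine (norm_add_le _ _).trans_lt ?_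
    rw [norm_neg, norm_mul, Complex.norm_I, mul_one, Complex.norm_real, Real.norm_eq_abs,
      abs_of_nonneg h6]
    linarith
  have hib : ∀ t : ℝ, ib e s (q.1 - t * I, q.2) = (y.1 - (t / s : ℝ) * I, y.2) := by
    intro t
    rw [hy]
    unfold ib
    ext1
    · simp only; push_cast; field_simp; ring
    · rfl
  set V : Set (ℂ × ℂ) := ib e s ⁻¹' ball q0 r1 with hV
  have hVo : IsOpen V := isOpen_ball.preimage (differentiable_ib e s).continuous
  set Bt : ℂ × ℂ → ℂ := fun x => G (ib e s x) with hBt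
  have hBtd : DifferentiableOn ℂ Bt V :=
    hG.comp (differentiable_ib e s).differentiableOn (fun x hx => hx)
  have hBta : AnalyticOnNhd ℂ Bt V :=
    R266.SCV.analyticOnNhd_of_differentiableOn hVo hBtd
  have hBan : AnalyticOnNhd ℂ B X := R266.SCV.analyticOnNhd_of_differentiableOn hXo hB
  refine hqX (climb (Bt := Bt) (τ0 := s * (r1 / 2)) hXo hBan hmax (by positivity) ?_ ?_)
  · intro t ht
    have h5 : (q.1 - t * I, q.2) ∈ V := by
      show ib e s (q.1 - t * I, q.2) ∈ ball q0 r1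
      rw [hib t]; exact hseg t ht
    exact ⟨hBta _ h5, hGh _ h5⟩
  · -- the bottom
    have ht : s * (r1 / 2) ∈ Icc (0 : ℝ) (s * (r1 / 2)) := ⟨by positivity, le_rfl⟩
    have h5 : ib e s (q.1 - ((s * (r1 / 2) : ℝ) : ℂ) * I, q.2) ∈ ball q0 r1 := by
      rw [hib]; exact hseg _ ht
    have h6 : ib e s (q.1 - ((s * (r1 / 2) : ℝ) : ℂ) * I, q.2) ∈ Wm (a - ρ) := by
      rw [hib]
      refine ⟨hy0, ?_⟩
      have h7 : s * (r1 / 2) / s = r1 / 2 := by field_simp
      have h8 : (y.1 - ((s * (r1 / 2) / s : ℝ) : ℂ) * I).im = y.1.im - r1 / 2 := by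
        rw [h7]; simp
      show (y.1 - ((s * (r1 / 2) / s : ℝ) : ℂ) * I).im < (a - ρ) * y.2.im
      rw [h8]
      have h9 : (a + ρ) * y.2.im = (a - ρ) * y.2.im + 2 * (ρ * y.2.im) := by ring
      have h10 : ρ * (2 * ‖q0‖) = 2 * (ρ * ‖q0‖) := by ring
      rw [h10] at hρy
      rw [h9] at g4
      linarith
    have hbot : ∀ x : ℂ × ℂ, ib e s x ∈ ball q0 r1 → ib e s x ∈ Wm (a - ρ) →
        x ∈ X ∧ Bt x = B x := by
      intro x hx1 hx2
      have h7 : bl e s (ib e s x) ∈ X := by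
        refine bl_mem hE hs hx2 ?_
        refine lt_of_le_of_lt (mul_le_mul_of_nonneg_left ?_ hs.le) hscale
        have h8 : ‖ib e s x‖ ≤ ‖q0‖ + r1 := by
          have h9 := norm_add_le q0 (ib e s x - q0)
          rw [add_sub_cancel] at h9
          have h10 : ‖ib e s x - q0‖ < r1 := by rw [← dist_eq_norm]; exact hx1
          linarith
        have h11 : (1 + a) * ‖q0‖ = ‖q0‖ + a * ‖q0‖ := by ring
        rw [h11]
        linarith [mul_nonneg ha hn0]
      have h8 := hGB _ hx1 hx2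
      rw [bl_ib e hsne] at h7 h8
      exact ⟨h7, h8⟩
    refine ⟨(hbot _ h5 h6).1, ?_⟩
    have hWo : IsOpen (Wm (a - ρ)) := by rw [Wm_eq]; exact isOpen_Lo _
    have hO : IsOpen (ib e s ⁻¹' (ball q0 r1 ∩ Wm (a - ρ))) :=
      (isOpen_ball.inter hWo).preimage (differentiable_ib e s).continuous
    filter_upwards [hO.mem_nhds ⟨h5, h6⟩] with x hx
    exact (hbot x hx.1 hx.2).2

/-- a sequence of windows of Part II, precision `ρ n → 0`, relative scale `s n / η n → 0` -/
structure Wins {ι : Type*} (l : Filter ι) (X L : Set (ℂ × ℂ)) (a g : ℝ) (e : ι → ℝ × ℝ)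
    (s η ρ : ι → ℝ) : Prop where
  part : ∀ᶠ n in l, E2 X L a g (ρ n) (η n) (e n)
  s_pos : ∀ᶠ n in l, 0 < s n
  η_pos : ∀ᶠ n in l, 0 < η n
  ρ_nn : ∀ᶠ n in l, 0 ≤ ρ n
  scale : Tendsto (fun n => s n / η n) l (𝓝 0)
  prec : Tendsto ρ l (𝓝 0)

theorem Wins.small {ι : Type*} {l : Filter ι} {X L : Set (ℂ × ℂ)} {a g : ℝ} {e : ι → ℝ × ℝ}
    {s η ρ : ι → ℝ} (hw : Wins l X L a g e s η ρ) (C : ℝ) : ∀ᶠ n in l, s n * C < η n := by
  have h1 : ∀ᶠ n in l, s n / η n < 1 / (|C| + 1) :=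
    hw.scale.eventually (gt_mem_nhds (by positivity))
  filter_upwards [h1, hw.s_pos, hw.η_pos] with n h2 h3 h4
  rw [div_lt_div_iff₀ h4 (by positivity)] at h2
  have h5 : C ≤ |C| := le_abs_self C
  nlinarith





end Crest.Agent.R102.RegBirths359
end
end

-- ▼ part R102/ToWorld_150

/-!
Row 102, T1-B, EDGE (helper150): **EDGE-WORLD** = `Edge255.ToWorld`: blow-ups with birth precision
`ρ n → 0` are a `World`.
-/

set_option autoImplicit false

open Set Filter Topology Metric Complex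

noncomputable section

namespace Crest.Agent.R102.World150

open Crest.Agent.R102.Sup115 (HDu Dp E2 MaxiX GoodU)
open Crest.Agent.R102.S5 (Half bl ray Cn)
open Crest.Agent.R102.B821 (q1 q2)
open Crest.Agent.R102.Edge255
open Crest.Agent.R102.RegBirths359 (ib bl_ib ib_bl differentiable_bl differentiable_ib Wm bl_mem
  no_ext)

/-! ### periods -/

theorem str_add {h : ℝ} {z : ℂ} (m : ℤ) (hz : z ∈ T5.Str h) : z + m ∈ T5.Str h := by
  have h1 : |z.im| < h := hz
  show |(z + m).im| < h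
  simpa using h1

theorem per_int {h : ℝ} {ψ H : ℂ → ℂ} (hc : Curve h ψ H) (m : ℤ) {z : ℂ} (hz : z ∈ T5.Str h) :
    ψ (z + m) = ψ z + m * (2 * Real.pi) ∧ H (z + m) = H z := by
  have key : ∀ (k : ℕ) (z : ℂ), z ∈ T5.Str h →
      ψ (z + k) = ψ z + k * (2 * Real.pi) ∧ H (z + k) = H z := by
    intro k
    induction k with
    | zero => intro z _; simp
    | succ k ih =>
      intro z hz
      obtain ⟨h1, h2⟩ := ih z hz
      have h3 : z + (k : ℂ) ∈ T5.Str h := by
        have := str_add (k : ℤ) hz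
        simpa using this
      have h4 := hc.ψ_per _ h3
      have h5 := hc.H_per _ h3
      have h6 : z + ((k + 1 : ℕ) : ℂ) = z + k + 1 := by push_cast; ring
      rw [h6, h4, h5, h1, h2]
      refine ⟨?_, rfl⟩
      push_cast; ring
  rcases Int.eq_nat_or_neg m with ⟨k, rfl | rfl⟩
  · simpa using key k z hz
  · have h1 := str_add (-(k : ℤ)) hz
    obtain ⟨h2, h3⟩ := key k _ h1
    have h4 : z + ((-(k : ℤ) : ℤ) : ℂ) + (k : ℂ) = z := by push_cast; ring
    rw [h4] at h2 h3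
    refine ⟨?_, h3.symm⟩
    rw [h2]; push_cast; ring

theorem isOpen_Str (h : ℝ) : IsOpen (T5.Str h) :=
  isOpen_lt (continuous_abs.comp Complex.continuous_im) continuous_const

theorem per_deriv {h : ℝ} {ψ H : ℂ → ℂ} (hc : Curve h ψ H) (m : ℤ) {z : ℂ} (hz : z ∈ T5.Str h) :
    deriv ψ (z + m) = deriv ψ z ∧ deriv H (z + m) = deriv H z := by
  constructor
  · rw [← deriv_comp_add_const]
    have h1 : (fun x => ψ (x + m)) =ᶠ[𝓝 z] fun x => ψ x + m * (2 * Real.pi) := by
      filter_upwards [(isOpen_Str h).mem_nhds hz] with x hx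
      exact (per_int hc m hx).1
    rw [h1.deriv_eq, deriv_add_const]
  · rw [← deriv_comp_add_const]
    have h1 : (fun x => H (x + m)) =ᶠ[𝓝 z] H := by
      filter_upwards [(isOpen_Str h).mem_nhds hz] with x hx
      exact (per_int hc m hx).2
    rw [h1.deriv_eq]

/-- the incidence is invariant under integer / `2π` normalisation -/
theorem inc_norm {h : ℝ} {ψ H : ℂ → ℂ} (hc : Curve h ψ H) (m k : ℤ) {φ p b : ℂ}
    (hb : b ∈ T5.Str h) (hi : F300.Inc ψ H φ p b) :
    F300.Inc ψ H (φ - 2 * Real.pi * (k : ℂ)) p (b - (m : ℂ)) ∧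
      (deriv ψ b ≠ 0 → sin (φ - ψ b) ≠ 0 →
        deriv ψ (b - (m : ℂ)) ≠ 0 → sin (φ - 2 * Real.pi * (k : ℂ) - ψ (b - (m : ℂ))) ≠ 0) := by
  have e0 : b - (m : ℂ) = b + ((-m : ℤ) : ℂ) := by push_cast; ring
  obtain ⟨h1, h2⟩ := per_int hc (-m) hb
  obtain ⟨h3, h4⟩ := per_deriv hc (-m) hb
  have e1 : φ - 2 * Real.pi * (k : ℂ) - ψ (b - (m : ℂ)) =
      (φ - ψ b) + ((m - k : ℤ) : ℂ) * (2 * Real.pi) := by
    rw [e0, h1]; push_cast; ring
  constructor
  · unfold F300.Inc at *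
    rw [e1, Complex.cos_add_int_mul_two_pi, Complex.sin_add_int_mul_two_pi, e0, h2, h3, h4]
    exact hi
  · intro _ hs _
    rw [e1, Complex.sin_add_int_mul_two_pi]
    exact hs

/-! ### blow-up and partial derivatives -/

theorem hasFDerivAt_bl (e : ℝ × ℝ) (s : ℝ) (x : ℂ × ℂ) :
    HasFDerivAt (bl e s) ((s : ℂ) • ContinuousLinearMap.id ℂ (ℂ × ℂ)) x := by
  have h1 : HasFDerivAt (fun y : ℂ × ℂ => ((e.1 : ℂ), (e.2 : ℂ)) + (s : ℂ) • y)
      ((s : ℂ) • ContinuousLinearMap.id ℂ (ℂ × ℂ)) x :=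
    ((hasFDerivAt_id x).const_smul (s : ℂ)).const_add _
  exact h1

theorem q_bl {F : ℂ × ℂ → ℂ} {e : ℝ × ℝ} {s : ℝ} {c : ℂ} {x : ℂ × ℂ}
    (hF : DifferentiableAt ℂ F (bl e s x)) :
    q1 (fun y => F (bl e s y) - c) x = s * q1 F (bl e s x) ∧
      q2 (fun y => F (bl e s y) - c) x = s * q2 F (bl e s x) := by
  have h1 := (hF.hasFDerivAt.comp x (hasFDerivAt_bl e s x)).sub_const c
  have h2 : fderiv ℂ (fun y => F (bl e s y) - c) x = _ := h1.fderiv
  constructor
  · unfold q1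
    rw [h2]
    show fderiv ℂ F (bl e s x) ((s : ℂ) • ((1, 0) : ℂ × ℂ)) = _
    rw [map_smul, smul_eq_mul]
  · unfold q2
    rw [h2]
    show fderiv ℂ F (bl e s x) ((s : ℂ) • ((0, 1) : ℂ × ℂ)) = _
    rw [map_smul, smul_eq_mul]

/-! ### the wedges -/

theorem isOpen_Wg (m : ℝ) : IsOpen (Wg m) :=
  (isOpen_lt continuous_const (Complex.continuous_im.comp continuous_snd)).inter
    (isOpen_lt (Complex.continuous_im.comp continuous_fst)
      (continuous_const.mul (Complex.continuous_im.comp continuous_snd)))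

theorem convex_Wg (m : ℝ) : Convex ℝ (Wg m) := by
  intro p hp q hq a b ha hb hab
  obtain ⟨hp1, hp2⟩ := hp
  obtain ⟨hq1, hq2⟩ := hq
  have e1 : (a • p + b • q).1.im = a * p.1.im + b * q.1.im := by simp
  have e2 : (a • p + b • q).2.im = a * p.2.im + b * q.2.im := by simp
  rcases eq_or_lt_of_le ha with h | h
  · subst h
    have h1 : b = 1 := by linarith
    subst h1
    constructor
    · rw [e2]; linarith
    · rw [e1, e2]; linarith
  · constructor
    · rw [e2]
      have := mul_pos h hp1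
      have := mul_nonneg hb hq1.le
      linarith
    · rw [e1, e2]
      have h1 := mul_lt_mul_of_pos_left hp2 h
      have h2 := mul_le_mul_of_nonneg_left hq2.le hb
      nlinarith

/-- a blown up compact set of the big wedge is in the half domain -/
theorem ev_half {m : ℝ} {e : ℕ → ℝ × ℝ} {s η : ℕ → ℝ} (hs : ∀ n, 0 < s n) (hη : ∀ n, 0 < η n)
    (hsη : Tendsto (fun n => s n / η n) atTop (𝓝 0)) {K : Set (ℂ × ℂ)} (hK : K ⊆ Wg m)
    (hKc : IsCompact K) : ∀ᶠ n in atTop, ∀ x ∈ K, bl (e n) (s n) x ∈ Half (e n) (η n) m := by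
  obtain ⟨M, hM⟩ := hKc.isBounded.exists_norm_le
  have h1 : ∀ᶠ n in atTop, s n / η n < 1 / (|M| + 1) :=
    hsη.eventually (gt_mem_nhds (by positivity))
  filter_upwards [h1] with n hn x hx
  have hsn := hs n
  have hηn := hη n
  have hM1 : 0 < |M| + 1 := by positivity
  have h2 : s n * (|M| + 1) < η n := by
    rw [div_lt_div_iff₀ hηn hM1] at hn
    linarith
  have hxM : ‖x‖ ≤ |M| := (hM x hx).trans (le_abs_self M)
  have hb : s n * ‖x‖ < η n := by
    have := mul_le_mul_of_nonneg_left hxM hsn.le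
    nlinarith
  have hb1 : s n * ‖x.1‖ < η n := (mul_le_mul_of_nonneg_left (norm_fst_le x) hsn.le).trans_lt hb
  have hb2 : s n * ‖x.2‖ < η n := (mul_le_mul_of_nonneg_left (norm_snd_le x) hsn.le).trans_lt hb
  have e1 : (bl (e n) (s n) x).1.re = (e n).1 + s n * x.1.re := by unfold bl; simp
  have e2 : (bl (e n) (s n) x).1.im = s n * x.1.im := by unfold bl; simp
  have e3 : (bl (e n) (s n) x).2.im = s n * x.2.im := by unfold bl; simp
  have e4 : (bl (e n) (s n) x).2 - ((e n).2 : ℂ) = s n * x.2 := by unfold bl; ring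
  refine ⟨?_, ?_, ?_, ?_, ?_⟩
  · rw [e1, add_sub_cancel_left, abs_mul, abs_of_pos hsn]
    exact (mul_le_mul_of_nonneg_left (Complex.abs_re_le_norm _) hsn.le).trans_lt hb1
  · rw [e2]
    have h3 : -‖x.1‖ ≤ x.1.im := (abs_le.1 (Complex.abs_im_le_norm x.1)).1
    have := mul_le_mul_of_nonneg_left h3 hsn.le
    linarith
  · rw [e4, norm_mul, Complex.norm_real, Real.norm_eq_abs, abs_of_pos hsn]
    exact hb2
  · rw [e3]; exact mul_pos hsn (hK hx).1
  · rw [e2, e3]
    have := mul_lt_mul_of_pos_left (hK hx).2 hsn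
    linarith

/-- compact subsets of `Wg a` are below the precision -/
theorem ev_low {a : ℝ} {ρ : ℕ → ℝ} (hρ : Tendsto ρ atTop (𝓝 0)) {K : Set (ℂ × ℂ)} (hK : K ⊆ Wg a)
    (hKc : IsCompact K) : ∀ᶠ n in atTop, K ⊆ Wm (a - ρ n) := by
  obtain ⟨M, hM⟩ := hKc.isBounded.exists_norm_le
  rcases K.eq_empty_or_nonempty with hE | hne
  · exact Eventually.of_forall fun n => by rw [hE]; exact empty_subset _
  have hcont : ContinuousOn (fun x : ℂ × ℂ => a * x.2.im - x.1.im) K := by fun_prop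
  obtain ⟨x0, hx0, hmin⟩ := hKc.exists_isMinOn hne hcont
  set c : ℝ := a * x0.2.im - x0.1.im with hc
  have hc0 : 0 < c := by have := (hK hx0).2; rw [hc]; linarith
  have h1 : ∀ᶠ n in atTop, |ρ n| < c / (|M| + 1) := by
    have h2 := hρ.abs
    rw [abs_zero] at h2
    exact h2.eventually (gt_mem_nhds (by positivity))
  filter_upwards [h1] with n hn x hx
  refine ⟨(hK hx).1, ?_⟩
  have h2 : c ≤ a * x.2.im - x.1.im := hmin hx
  have h3 : x.2.im ≤ |M| :=
    ((le_abs_self _).trans (Complex.abs_im_le_norm _)).trans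
      ((norm_snd_le x).trans ((hM x hx).trans (le_abs_self M)))
  have h4 : 0 < x.2.im := (hK hx).1
  have h5 : |ρ n| * x.2.im < c := by
    have hM1 : 0 < |M| + 1 := by positivity
    rw [lt_div_iff₀ hM1] at hn
    have h6 : |ρ n| * x.2.im ≤ |ρ n| * (|M| + 1) :=
      mul_le_mul_of_nonneg_left (by linarith) (abs_nonneg _)
    linarith
  have h7 : ρ n * x.2.im ≤ |ρ n| * x.2.im := mul_le_mul_of_nonneg_right (le_abs_self _) h4.le
  show x.1.im < (a - ρ n) * x.2.im
  linarith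

set_option maxHeartbeats 1000000 in
/-- **EDGE-WORLD** -/
theorem toWorld : ToWorld := by
  intro u0 R d h ψ H A φ p B X L D u s₀ a g e s ρ η hu hu0 ha hg he hs hs0 hρ hρ0 hη hsη hE
  have huB : (u : ℂ) ∈ ball (u0 : ℂ) R := by
    rw [mem_ball, dist_eq_norm, ← Complex.ofReal_sub, Complex.norm_real, Real.norm_eq_abs, abs_lt]
    constructor <;> linarith [hu.1, hu.2]
  have hLin : ∀ K ⊆ Wg (a + g), IsCompact K → ∀ᶠ n in atTop, ∀ x ∈ K, bl (e n) (s n) x ∈ L := by
    intro K hK hKc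
    filter_upwards [ev_half (e := e) hs hη hsη hK hKc] with n hn x hx
    exact (hE n).line (hn x hx)
  have hXin : ∀ K ⊆ Wg a, IsCompact K → ∀ᶠ n in atTop, ∀ x ∈ K, bl (e n) (s n) x ∈ X := by
    intro K hK hKc
    filter_upwards [ev_half (e := e) hs hη hsη hK hKc, ev_low hρ0 hK hKc] with n h1 h2 x hx
    obtain ⟨g1, g2, g3, g4, -⟩ := h1 x hx
    refine (hE n).low ⟨g1, g2, g3, g4, ?_⟩
    have e2 : (bl (e n) (s n) x).1.im = s n * x.1.im := by unfold bl; simp
    have e3 : (bl (e n) (s n) x).2.im = s n * x.2.im := by unfold bl; simp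
    rw [e2, e3]
    have := mul_lt_mul_of_pos_left (h2 hx).2 (hs n)
    linarith
  have hWsub : Wg a ⊆ Wg (a + g) := fun q hq => ⟨hq.1, by
    have h1 := mul_pos hg hq.1
    have h2 := hq.2
    show q.1.im < (a + g) * q.2.im
    linarith⟩
  have hBan : AnalyticOnNhd ℂ B X :=
    Crest.Agent.R266.SCV.analyticOnNhd_of_differentiableOn D.X_open D.B_diff
  refine
    { a_nonneg := ha
      g_pos := hg
      A0_ne := D.A_ne _ huB (by exact_mod_cast hu0)
      curve := D.curve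
      regL := ?_
      regX := ?_
      area := ?_
      births := ?_ }
  · -- regL
    intro K hK hKc
    filter_upwards [hLin K hK hKc] with n hn
    refine ⟨bl (e n) (s n) ⁻¹' L, D.L_open.preimage (differentiable_bl _ _).continuous, hn, ?_, ?_⟩
    · exact (D.φ_diff.comp (differentiable_bl _ _).differentiableOn (fun x hx => hx)).sub_const _
    · exact D.p_diff.comp (differentiable_bl _ _).differentiableOn (fun x hx => hx)
  · -- regX
    intro K hK hKc
    filter_upwards [hLin K (hK.trans hWsub) hKc, hXin K hK hKc] with n hn1 hn2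
    refine ⟨bl (e n) (s n) ⁻¹' (X ∩ L), (D.X_open.inter D.L_open).preimage
      (differentiable_bl _ _).continuous, fun x hx => ⟨hn2 x hx, hn1 x hx⟩, ?_, ?_⟩
    · exact (D.B_diff.comp (differentiable_bl _ _).differentiableOn (fun x hx => hx.1)).sub_const _
    · intro x hx
      have hx' : bl (e n) (s n) x ∈ X ∩ L := hx
      have hBs : B (bl (e n) (s n) x) ∈ T5.Str h := D.B_im _ hx'.1
      have hi := inc_norm D.curve ⌊(B (bl (e n) (s n) z0)).re⌋
        ⌊(φ (bl (e n) (s n) z0)).re / (2 * Real.pi)⌋ hBs (D.inc _ hx')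
      refine ⟨?_, hi.1, ?_⟩
      · have h1 : |(B (bl (e n) (s n) x)).im| < h := hBs
        unfold nB
        simpa using h1
      · intro hd
        have hd' : deriv ψ (B (bl (e n) (s n) x)) ≠ 0 := by
          have h1 := (per_deriv D.curve (-⌊(B (bl (e n) (s n) z0)).re⌋) hBs).1
          have e0 : B (bl (e n) (s n) x) - (⌊(B (bl (e n) (s n) z0)).re⌋ : ℂ) =
              B (bl (e n) (s n) x) + ((-⌊(B (bl (e n) (s n) z0)).re⌋ : ℤ) : ℂ) := by
            push_cast; ring
          have h2 : deriv ψ (B (bl (e n) (s n) x) - (⌊(B (bl (e n) (s n) z0)).re⌋ : ℂ)) ≠ 0 := hd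
          rw [e0, h1] at h2
          exact h2
        have hw : (bl (e n) (s n) x).2 ≠ 0 := by
          intro h0
          have h1 : 0 < (bl (e n) (s n) x).2.im := (D.X_sub _ hx'.1).2.2
          rw [h0] at h1
          simp at h1
        exact hi.2 hd' (D.sin_ne _ hx' hw hd') hd
  · -- area
    refine ⟨fun n => s n ^ 2, fun n w => A ((e n).2 + s n * w), fun n => by have := hs n; positivity,
      ?_, ?_, ?_⟩
    · have := hs0.pow 2
      simpa using this
    · intro K hKc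
      obtain ⟨M, hM⟩ := hKc.isBounded.exists_norm_le
      have hAc : ContinuousAt A u :=
        (D.A_diff.differentiableAt (isOpen_ball.mem_nhds huB)).continuousAt
      rw [Metric.tendstoUniformlyOn_iff]
      intro ε hε
      obtain ⟨δ, hδ, H1⟩ := Metric.continuousAt_iff.1 hAc ε hε
      have he2 : Tendsto (fun n => |(e n).2 - u| + s n * |M|) atTop (𝓝 0) := by
        have h1 : Tendsto (fun n => (e n).2) atTop (𝓝 u) :=
          (continuous_snd.tendsto (s₀, u)).comp he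
        have h2 := (h1.sub_const u).abs
        rw [sub_self, abs_zero] at h2
        have h3 := hs0.mul_const |M|
        rw [zero_mul] at h3
        simpa using h2.add h3
      filter_upwards [he2.eventually (gt_mem_nhds hδ)] with n hn w hw
      rw [dist_comm]
      refine H1 ?_
      rw [dist_eq_norm]
      have h1 : ((e n).2 : ℂ) + s n * w - u = (((e n).2 - u : ℝ) : ℂ) + s n * w := by
        push_cast; ring
      rw [h1]
      refine (norm_add_le _ _).trans_lt ?_
      rw [Complex.norm_real, norm_mul, Complex.norm_real, Real.norm_eq_abs, Real.norm_eq_abs,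
        abs_of_pos (hs n)]
      have h2 : s n * ‖w‖ ≤ s n * |M| :=
        mul_le_mul_of_nonneg_left ((hM w hw).trans (le_abs_self M)) (hs n).le
      linarith
    · intro K hK hKc
      filter_upwards [hLin K hK hKc] with n hn x hx
      have hxL := hn x hx
      have h1 := q_bl (F := φ) (e := e n) (s := s n)
        (c := nφ (fun x => φ (bl (e n) (s n) x)))
        (D.φ_diff.differentiableAt (D.L_open.mem_nhds hxL))
      have h2 := q_bl (F := p) (e := e n) (s := s n) (c := 0)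
        (D.p_diff.differentiableAt (D.L_open.mem_nhds hxL))
      simp only [sub_zero] at h2
      rw [h1.1, h1.2, h2.1, h2.2]
      have h3 := D.area _ hxL
      have h4 : (bl (e n) (s n) x).2 = ((e n).2 : ℂ) + s n * x.2 := rfl
      rw [h4] at h3
      push_cast
      linear_combination (s n : ℂ) ^ 2 * h3
  · -- births
    intro q hq0 hq r hr hsub
    -- the test ball
    set x1 : ℂ × ℂ := (q.1 - ((r / 2 : ℝ) : ℂ) * I, q.2) with hx1
    have hx1b : x1 ∈ ball q r ∩ Wg a := by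
      constructor
      · rw [mem_ball, Prod.dist_eq, dist_self, dist_eq_norm]
        have h1 : q.1 - ((r / 2 : ℝ) : ℂ) * I - q.1 = -(((r / 2 : ℝ) : ℂ) * I) := by ring
        simp only [hx1, h1, norm_neg, norm_mul, Complex.norm_I, mul_one, Complex.norm_real,
          Real.norm_eq_abs, abs_of_pos (half_pos hr)]
        exact max_lt (by linarith) hr
      · refine ⟨hq0, ?_⟩
        have h1 : x1.1.im = q.1.im - r / 2 := by rw [hx1]; simp
        show x1.1.im < a * x1.2.im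
        rw [h1, hq]
        show a * q.2.im - r / 2 < a * q.2.im
        linarith
    obtain ⟨r2, hr2, hr2s⟩ := Metric.isOpen_iff.1 (isOpen_ball.inter (isOpen_Wg a)) x1 hx1b
    set K : Set (ℂ × ℂ) := closedBall x1 (r2 / 2) with hK
    have hKs : K ⊆ ball q r ∩ Wg a := (closedBall_subset_ball (by linarith)).trans hr2s
    have hKc : IsCompact K := isCompact_closedBall _ _
    refine ⟨K, fun x hx => (hKs hx).2, hKc, ?_⟩
    have hev1 : ∀ᶠ n in atTop, s n / η n < 1 / ((1 + a) * ‖q‖ + r + 1) :=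
      hsη.eventually (gt_mem_nhds (by positivity))
    have hev2 : ∀ᶠ n in atTop, ρ n < min 1 (min (q.2.im / (‖q‖ + 1))
        (r / ((4 * a + 16) * ‖q‖ + 1))) :=
      hρ0.eventually (gt_mem_nhds (lt_min one_pos (lt_min (by positivity) (by positivity))))
    filter_upwards [hev1, hev2, ev_low hρ0 (fun x hx => (hKs hx).2) hKc] with n h1 h2 h3
    rintro ⟨G, V, hV, hqV, hGd, hGh, hGB⟩
    have hsn := hs n
    have hηn := hη n
    have hρn := hρ n
    have hsc : s n * ((1 + a) * ‖q‖ + r) < η n := by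
      rw [div_lt_div_iff₀ hηn (by positivity)] at h1
      nlinarith
    have hρ1 : ρ n ≤ 1 := (h2.trans_le (min_le_left _ _)).le
    have hρ2 : ρ n * ‖q‖ < q.2.im := by
      have h4 := h2.trans_le ((min_le_right _ _).trans (min_le_left _ _))
      rw [lt_div_iff₀ (by positivity)] at h4
      nlinarith
    have hρ3 : ρ n * ((4 * a + 16) * ‖q‖) < r := by
      have h4 := h2.trans_le ((min_le_right _ _).trans (min_le_right _ _))
      rw [lt_div_iff₀ (by positivity)] at h4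
      nlinarith
    refine no_ext (hE n) D.X_open D.B_diff D.maxi ha hρn.le hρ1 hsn hr hq hsc hρ2 hρ3 ?_
    set c : ℂ := nB (fun x => B (bl (e n) (s n) x)) with hc
    have hci : c.im = 0 := by rw [hc]; unfold nB; simp
    have hbV : ball q r ⊆ V := ball_subset_closedBall.trans hqV
    refine ⟨fun x => G x + c, (hGd.mono hbV).add_const _, ?_, ?_⟩
    · intro x hx
      have := hGh x (hbV hx)
      rwa [Complex.add_im, hci, add_zero]
    · -- identity theorem on the convex set `ball q r ∩ Wm (a - ρ n)`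
      have hO : IsOpen (ball q r ∩ Wg (a - ρ n)) := isOpen_ball.inter (isOpen_Wg _)
      have hconv : Convex ℝ (ball q r ∩ Wg (a - ρ n)) :=
        (convex_ball _ _).inter (convex_Wg _)
      have hin : ∀ x ∈ ball q r ∩ Wg (a - ρ n), bl (e n) (s n) x ∈ X := by
        intro x hx
        refine bl_mem (hE n) hsn hx.2 ?_
        have h4 : ‖x‖ ≤ ‖q‖ + r := by
          have h5 := norm_add_le q (x - q)
          rw [add_sub_cancel] at h5
          have h6 : ‖x - q‖ < r := by rw [← dist_eq_norm]; exact hx.1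
          linarith
        refine lt_of_le_of_lt (mul_le_mul_of_nonneg_left (h4.trans ?_) hsn.le) hsc
        have := mul_nonneg ha (norm_nonneg q)
        linarith
      have han1 : AnalyticOnNhd ℂ (fun x => G x + c) (ball q r ∩ Wg (a - ρ n)) :=
        Crest.Agent.R266.SCV.analyticOnNhd_of_differentiableOn hO
          (((hGd.mono hbV).mono inter_subset_left).add_const _)
      have han2 : AnalyticOnNhd ℂ (fun x => B (bl (e n) (s n) x)) (ball q r ∩ Wg (a - ρ n)) :=
        Crest.Agent.R266.SCV.analyticOnNhd_of_differentiableOn hO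
          (D.B_diff.comp (differentiable_bl _ _).differentiableOn hin)
      have hx1K : x1 ∈ ball q r ∩ Wg (a - ρ n) := by
        have h4 : x1 ∈ K := mem_closedBall_self (by linarith)
        exact ⟨(hKs h4).1, h3 h4⟩
      have hev : (fun x => G x + c) =ᶠ[𝓝 x1] fun x => B (bl (e n) (s n) x) := by
        have h4 : ball x1 (r2 / 2) ∈ 𝓝 x1 := ball_mem_nhds _ (by linarith)
        filter_upwards [h4] with x hx
        have h5 : x ∈ K := ball_subset_closedBall hx
        rw [hGB x ⟨h5, hbV (hKs h5).1⟩, hc]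
        ring
      have heq := AnalyticOnNhd.eqOn_of_preconnected_of_eventuallyEq han1 han2
        hconv.isPreconnected hx1K hev
      intro x hx1' hx2
      exact heq ⟨hx1', hx2⟩

end Crest.Agent.R102.World150
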