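import Crest.Agent.R102.EdgeDefs_255
import Crest.Agent.R102.EdgeA_985
import Crest.Agent.R102.AB_196
import Crest.Agent.R102.EdgeC3_300
import Crest.Agent.R102.MarcP_295_Mg
import Crest.Agent.R102.EdgeRig_255
import Crest.Agent.R102.ToWorld_150
import Crest.Agent.R102.SupFin_115
import Crest.Agent.R102.ExitB_812
import Crest.Agent.R102.Chain_559
import Crest.Agent.R102.KolWin_953
import Crest.Agent.R102.SliceWin_408
import Crest.Agent.R102.KolX_408
import Crest.Agent.R102.SideLab_426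
import Crest.Agent.R102.SupDefs_115
import Crest.Agent.R102.Limits_151

-- ▼ part R102/CuspP_985
section

/-!
Row 102, T1-B, EDGE: leaf **EDGE-CUSP** (helper985): `cuspP : Edge255.CuspP`.
-/

set_option autoImplicit false
set_option linter.unusedSectionVars false
set_option linter.unusedVariables false

open Set Filter Topology Metric Complex
open scoped Real

noncomputable section

namespace Crest.Agent.R102.CuspP985

open Crest.Agent.R102.EdgeA985 Crest.Agent.R102.Edge255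



theorem isOpen_Wg (m : ℝ) : IsOpen (Wg m) := EdgeLim196.isOpen_Lo m


theorem Wg_mono {m m' : ℝ} (hm : m ≤ m') : Wg m ⊆ Wg m' := fun q hq => ⟨hq.1, by
  have h1 : 0 < q.2.im := hq.1
  have h2 : q.1.im < m * q.2.im := hq.2
  show q.1.im < m' * q.2.im
  nlinarith⟩

theorem z0_mem {a : ℝ} (ha : 0 ≤ a) : z0 ∈ Wg a := by
  refine ⟨?_, ?_⟩
  · simp [z0]
  · simp only [z0, neg_im, I_im, div_ofNat_im]
    nlinarith

/-- a compact convex set between a compact set and `ball ∩ Wg a` -/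
theorem exists_convex_compact {a r : ℝ} {q₀ : ℂ × ℂ} {K₁ : Set (ℂ × ℂ)} (hc : IsCompact K₁)
    (hn : K₁.Nonempty) (hs : K₁ ⊆ ball q₀ r ∩ Wg a) :
    ∃ K₂ : Set (ℂ × ℂ), IsCompact K₂ ∧ Convex ℝ K₂ ∧ K₁ ⊆ K₂ ∧ K₂ ⊆ ball q₀ r ∩ Wg a := by
  have c1 : Continuous fun x : ℂ × ℂ => dist x q₀ := by fun_prop
  have c2 : Continuous fun x : ℂ × ℂ => x.2.im := by fun_prop
  have c3 : Continuous fun x : ℂ × ℂ => a * x.2.im - x.1.im := by fun_prop
  obtain ⟨y1, hy1, hm1⟩ := hc.exists_isMaxOn hn c1.continuousOn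
  obtain ⟨y2, hy2, hm2⟩ := hc.exists_isMinOn hn c2.continuousOn
  obtain ⟨y3, hy3, hm3⟩ := hc.exists_isMinOn hn c3.continuousOn
  have h1 : dist y1 q₀ < r := (hs hy1).1
  have h2 : 0 < y2.2.im := (hs hy2).2.1
  have h3 : 0 < a * y3.2.im - y3.1.im := sub_pos.2 (hs hy3).2.2
  refine ⟨closedBall q₀ (dist y1 q₀) ∩ ({x | y2.2.im ≤ x.2.im} ∩
    {x | a * y3.2.im - y3.1.im ≤ a * x.2.im - x.1.im}), ?_, ?_, fun x hx => ⟨?_, ?_, ?_⟩,
    fun x hx => ⟨?_, ?_, ?_⟩⟩
  · exact (isCompact_closedBall _ _).inter_right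
      ((isClosed_le continuous_const c2).inter (isClosed_le continuous_const c3))
  · refine (convex_closedBall _ _).inter (Convex.inter ?_ ?_)
    · intro x hx y hy s t hs ht hst
      simp only [mem_ofPred_eq] at hx hy ⊢
      have e : (s • x + t • y).2.im = s * x.2.im + t * y.2.im := by simp
      rw [e]
      have h5 := mul_le_mul_of_nonneg_left hx hs
      have h6 := mul_le_mul_of_nonneg_left hy ht
      have h7 : s * y2.2.im + t * y2.2.im = y2.2.im := by rw [← add_mul, hst, one_mul]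
      linarith
    · intro x hx y hy s t hs ht hst
      simp only [mem_ofPred_eq] at hx hy ⊢
      have e : (s • x + t • y).2.im = s * x.2.im + t * y.2.im := by simp
      have e' : (s • x + t • y).1.im = s * x.1.im + t * y.1.im := by simp
      rw [e, e']
      set c := a * y3.2.im - y3.1.im with hc
      have h5 := mul_le_mul_of_nonneg_left hx hs
      have h6 := mul_le_mul_of_nonneg_left hy ht
      have h7 : s * c + t * c = c := by rw [← add_mul, hst, one_mul]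
      nlinarith
  · exact hm1 hx
  · exact hm2 hx
  · exact hm3 hx
  · exact (mem_closedBall.1 hx.1).trans_lt h1
  · exact h2.trans_le hx.2.1
  · have := hx.2.2
    simp only [mem_ofPred_eq] at this
    show x.1.im < a * x.2.im
    linarith

/-- **no regular continuation at face points**, for worlds -/
theorem noReg_world {h a g : ℝ} {ψ H : ℂ → ℂ} {A0 : ℂ} {φ p B : ℕ → ℂ × ℂ → ℂ}
    (W : World h a g ψ H A0 φ p B) {q₀ : ℂ × ℂ} (hq : 0 < q₀.2.im) (hq' : q₀.1.im = a * q₀.2.im)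
    {r : ℝ} (hr : 0 < r) {x₁ : ℂ × ℂ} {δ : ℝ} (hδ : 0 < δ)
    (hK : closedBall x₁ δ ⊆ ball q₀ r ∩ Wg a) :
    ∀ᶠ n in atTop, ¬ ∃ G : ℂ × ℂ → ℂ, DifferentiableOn ℂ G (ball q₀ r) ∧
      (∀ x ∈ ball q₀ r, |(G x).im| < h) ∧ ∃ x ∈ closedBall x₁ δ, G =ᶠ[𝓝 x] B n := by
  have hqW : q₀ ∈ Wg (a + g) := ⟨hq, by
    show q₀.1.im < (a + g) * q₀.2.im
    rw [hq']; nlinarith [W.g_pos]⟩
  obtain ⟨s, hs, hsW⟩ := Metric.isOpen_iff.1 (isOpen_Wg (a + g)) q₀ hqW
  set r' : ℝ := min (s / 2) (r / 2) with hr'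
  have hr'0 : 0 < r' := by positivity
  have hr's : closedBall q₀ r' ⊆ Wg (a + g) :=
    (closedBall_subset_ball (by rw [hr']; linarith [min_le_left (s / 2) (r / 2)])).trans hsW
  obtain ⟨K, hKW, hKc, hKn⟩ := W.births q₀ hq hq' r' hr'0 hr's
  set r'' : ℝ := 3 / 4 * r with hr''
  have h1 : r' ≤ r / 2 := min_le_right _ _
  have h2 : closedBall q₀ r'' ⊆ ball q₀ r := closedBall_subset_ball (by rw [hr'']; linarith)
  set K₁ : Set (ℂ × ℂ) := closedBall x₁ δ ∪ (K ∩ closedBall q₀ r'') with hK₁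
  have hK₁c : IsCompact K₁ := (isCompact_closedBall _ _).union (hKc.inter_right isClosed_closedBall)
  have hK₁s : K₁ ⊆ ball q₀ r ∩ Wg a := by
    rintro x (hx | hx)
    · exact hK hx
    · exact ⟨h2 hx.2, hKW hx.1⟩
  have hK₁n : K₁.Nonempty := ⟨x₁, Or.inl (mem_closedBall_self hδ.le)⟩
  obtain ⟨K₂, hK₂c, hK₂v, hK₁₂, hK₂s⟩ := exists_convex_compact hK₁c hK₁n hK₁s
  filter_upwards [hKn, W.regX K₂ (fun x hx => (hK₂s hx).2) hK₂c] with n hn hreg
  rintro ⟨G, hG, hGi, x, hx, hGx⟩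
  obtain ⟨U, hU, hKU, hBU, -⟩ := hreg
  apply hn
  have hEq : EqOn G (B n) K₂ := by
    have a1 : AnalyticOnNhd ℂ G K₂ := fun y hy =>
      R266.SCV.analyticOnNhd_of_differentiableOn isOpen_ball hG y (hK₂s hy).1
    have a2 : AnalyticOnNhd ℂ (B n) K₂ := fun y hy =>
      R266.SCV.analyticOnNhd_of_differentiableOn hU hBU y (hKU hy)
    exact a1.eqOn_of_preconnected_of_eventuallyEq a2 hK₂v.isPreconnected
      (hK₁₂ (Or.inl hx)) hGx
  refine ⟨G, ball q₀ r'', isOpen_ball, closedBall_subset_ball (by rw [hr'']; linarith),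
    hG.mono (ball_subset_closedBall.trans h2), fun y hy => hGi y (h2 (ball_subset_closedBall hy)),
    fun y hy => hEq (hK₁₂ (Or.inr ⟨hy.1, ball_subset_closedBall hy.2⟩))⟩

theorem inc_neg (ψ H : ℂ → ℂ) (φ p b : ℂ) :
    F300.Inc (fun z => -ψ z) H (-φ) p b ↔ F300.Inc ψ H φ p b := by
  unfold F300.Inc
  have e1 : deriv (fun z => -ψ z) b = -deriv ψ b := deriv.fun_neg
  have e2 : -φ - -ψ b = -(φ - ψ b) := by ring
  rw [e1, e2, Complex.cos_neg, Complex.sin_neg]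
  constructor
  · intro h; linear_combination -h
  · intro h; linear_combination -h

/-- **(EDGE-CUSP)** -/
theorem cuspP : CuspP := by
  intro h a g κ ψ H A0 φ p B sg hκ W hI hN hinf hre
  obtain ⟨hsg, hN⟩ := hN
  have hg := W.g_pos
  have ha := W.a_nonneg
  let u : Ultrafilter ℕ := hyperfilter ℕ
  have hu : (u : Filter ℕ) ≤ atTop := by
    rw [← Nat.cofinite_eq_atTop]; exact hyperfilter_le_cofinite
  have hne : (u : Filter ℕ).NeBot := u.neBot
  have hz0 : z0 ∈ Wg a := z0_mem ha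
  have hsub : Wg a ⊆ Wg (a + g) := Wg_mono (by linarith)
  -- labels
  have hB : ∀ x ∈ Wg a, ∃ r > 0, ball x r ⊆ Wg a ∧ ∀ᶠ n in (u : Filter ℕ),
      DifferentiableOn ℂ (B n) (ball x r) ∧ ∀ y ∈ ball x r, |(B n y).im| < h ∧
        F300.Inc ψ H (φ n y) (p n y) (B n y) := by
    intro x hx
    obtain ⟨s, hs, hsW⟩ := Metric.isOpen_iff.1 (isOpen_Wg a) x hx
    have h1 : closedBall x (s / 2) ⊆ Wg a :=
      (closedBall_subset_ball (by linarith)).trans hsW
    refine ⟨s / 2, by positivity, ball_subset_closedBall.trans h1, ?_⟩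
    filter_upwards [hu (W.regX _ h1 (isCompact_closedBall _ _))] with n hn
    obtain ⟨U, hU, hKU, hd, hUi⟩ := hn
    exact ⟨hd.mono (ball_subset_closedBall.trans hKU), fun y hy =>
      ⟨(hUi y (hKU (ball_subset_closedBall hy))).1, (hUi y (hKU (ball_subset_closedBall hy))).2.1⟩⟩
  -- lines
  have hφ : ∀ x ∈ Wg (a + g), ∃ r > 0, ball x r ⊆ Wg (a + g) ∧ ∃ C : ℝ, ∀ᶠ n in (u : Filter ℕ),
      DifferentiableOn ℂ (φ n) (ball x r) ∧ DifferentiableOn ℂ (p n) (ball x r) ∧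
      ∀ y ∈ ball x r, ‖p n y * cexp (sg n * I * φ n y)‖ ≤ C ∧ -C ≤ sg n * (φ n y).im := by
    intro x hx
    obtain ⟨s, hs, hsW⟩ := Metric.isOpen_iff.1 (isOpen_Wg (a + g)) x hx
    have h1 : closedBall x (s / 2) ⊆ Wg (a + g) :=
      (closedBall_subset_ball (by linarith)).trans hsW
    obtain ⟨C, hC⟩ := hN _ h1 (isCompact_closedBall _ _)
    refine ⟨s / 2, by positivity, ball_subset_closedBall.trans h1, C, ?_⟩
    filter_upwards [hu (W.regL _ h1 (isCompact_closedBall _ _)), hu hC] with n hn hn2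
    obtain ⟨U, hU, hKU, hd1, hd2⟩ := hn
    exact ⟨hd1.mono (ball_subset_closedBall.trans hKU), hd2.mono (ball_subset_closedBall.trans hKU),
      fun y hy => hn2 y (ball_subset_closedBall hy)⟩
  have hnr : ∀ q₀ ∈ EdgeLim196.Fc a, ∀ r > 0, ∀ x₁ : ℂ × ℂ, ∀ δ > 0,
      closedBall x₁ δ ⊆ ball q₀ r ∩ EdgeLim196.Lo a →
      ∀ᶠ n in (u : Filter ℕ), ¬ ∃ G : ℂ × ℂ → ℂ, DifferentiableOn ℂ G (ball q₀ r) ∧
        (∀ x ∈ ball q₀ r, |(G x).im| < h) ∧ ∃ x ∈ closedBall x₁ δ, G =ᶠ[𝓝 x] B n :=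
    fun q₀ hq r hr x₁ δ hδ hK => hu (noReg_world W hq.1 hq.2 hr hδ hK)
  have h₀ : ∀ᶠ n in (u : Filter ℕ), |(B n z0).im| ≤ h - κ := Eventually.of_forall fun n => (hI n).1
  have hh : h - κ < h := by linarith
  -- the sign
  obtain ⟨rz, hrz, hrzW, Cz, hCz⟩ := hφ z0 (hsub hz0)
  rcases u.eventually_or.1 (Eventually.of_forall hsg) with hs | hs
  · refine caseA_plus (a := a) (g := g) (h' := h - κ) hg W.curve.ψ_diff W.curve.H_diff
      (c := -1) W.curve.rel (by norm_num) (k := 1)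
      (fun b hb => by rw [W.curve.ψ_per b hb]; push_cast; ring) W.curve.H_per u hB
      (fun x hx => ?_) hnr hz0 hh h₀ ?_
    · obtain ⟨r, hr, hrW, C, hC⟩ := hφ x hx
      refine ⟨r, hr, hrW, C, ?_⟩
      filter_upwards [hC, hs] with n hn hsn
      refine ⟨hn.1, hn.2.1, fun y hy => ?_⟩
      have h1 := hn.2.2 y hy
      rw [hsn] at h1
      simp only [ofReal_one, one_mul] at h1
      exact ⟨h1.2, h1.1⟩
    · rw [Filter.tendsto_atTop]
      intro A
      filter_upwards [hCz, hs, (Filter.tendsto_atTop.1 (hinf.mono_left hu)) (max A (Cz + 1))]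
        with n hn hsn hA
      have h1 := (hn.2.2 z0 (mem_ball_self hrz)).2
      rw [hsn, one_mul] at h1
      have h2 : A ≤ |(φ n z0).im| := (le_max_left _ _).trans hA
      have h3 : Cz + 1 ≤ |(φ n z0).im| := (le_max_right _ _).trans hA
      rcases le_total 0 (φ n z0).im with h4 | h4
      · rwa [abs_of_nonneg h4] at h2
      · rw [abs_of_nonpos h4] at h3
        linarith
  · -- the other cusp: `(ψ, φ) ↦ (-ψ, -φ)`
    have hSp := EdgeLim196.isOpen_Sp h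
    have hdn : ∀ z, deriv (fun z => -ψ z) z = -deriv ψ z := fun z => deriv.fun_neg
    have hddn : ∀ z, deriv (deriv (fun z => -ψ z)) z = -deriv (deriv ψ) z := fun z => by
      have : deriv (fun z => -ψ z) = fun z => -deriv ψ z := funext hdn
      rw [this]
      exact deriv.fun_neg
    refine caseA_plus (a := a) (g := g) (h' := h - κ) (ψ := fun z => -ψ z) (H := H)
      (φ := fun n x => -φ n x) (p := p) hg W.curve.ψ_diff.neg W.curve.H_diff
      (c := 1) (fun z hz => ?_) (by norm_num) (k := -1)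
      (fun b hb => by
        rw [W.curve.ψ_per b hb]; push_cast; ring) W.curve.H_per u
      (fun x hx => ?_) (fun x hx => ?_) hnr hz0 hh h₀ ?_
    · have := W.curve.rel z hz
      rw [hdn, hddn]
      linear_combination -this
    · obtain ⟨r, hr, hrW, hn⟩ := hB x hx
      refine ⟨r, hr, hrW, ?_⟩
      filter_upwards [hn] with n hn
      exact ⟨hn.1, fun y hy => ⟨(hn.2 y hy).1, (inc_neg ψ H _ _ _).2 (hn.2 y hy).2⟩⟩
    · obtain ⟨r, hr, hrW, C, hC⟩ := hφ x hx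
      refine ⟨r, hr, hrW, C, ?_⟩
      filter_upwards [hC, hs] with n hn hsn
      refine ⟨hn.1.neg, hn.2.1, fun y hy => ?_⟩
      have h1 := hn.2.2 y hy
      rw [hsn] at h1
      have e1 : ((-1 : ℝ) : ℂ) * I * φ n y = I * -φ n y := by push_cast; ring
      rw [e1] at h1
      refine ⟨?_, h1.1⟩
      simp only [neg_im]
      linarith [h1.2]
    · rw [Filter.tendsto_atTop]
      intro A
      filter_upwards [hCz, hs, (Filter.tendsto_atTop.1 (hinf.mono_left hu)) (max A (Cz + 1))]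
        with n hn hsn hA
      have h1 := (hn.2.2 z0 (mem_ball_self hrz)).2
      rw [hsn] at h1
      have h2 : A ≤ |(φ n z0).im| := (le_max_left _ _).trans hA
      have h3 : Cz + 1 ≤ |(φ n z0).im| := (le_max_right _ _).trans hA
      simp only [neg_im]
      rcases le_total 0 (φ n z0).im with h4 | h4
      · rw [abs_of_nonneg h4] at h3
        linarith
      · rwa [abs_of_nonpos h4] at h2

end Crest.Agent.R102.CuspP985
end
end

-- ▼ part R102/FlatP_196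
section

/-!
Row 102, T1-B, EDGE-FLAT (helper196): a world with bounded lines is slow.
-/

set_option autoImplicit false

open Set Filter Topology Metric Complex

noncomputable section

namespace Crest.Agent.R102.Flat196

open Crest.Agent.R102.Edge255 Crest.Agent.R102.EdgeLim196 Crest.Agent.R102.AB196
open Crest.Agent.R266.SCV


theorem z0_mem {a : ℝ} (ha : 0 ≤ a) : z0 ∈ Lo a := by
  refine ⟨?_, ?_⟩
  · show (0 : ℝ) < (I / 4 : ℂ).im
    norm_num
  · show ((-I : ℂ)).im < a * (I / 4 : ℂ).im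
    have : (I / 4 : ℂ).im = 1 / 4 := by norm_num
    rw [this]
    simp only [neg_im, I_im]
    linarith

theorem ball_mem {a : ℝ} (ha : 0 ≤ a) : closedBall z0 (1 / 10) ⊆ Lo a := by
  intro q hq
  have hq' := mem_closedBall.1 hq
  rw [Prod.dist_eq, max_le_iff] at hq'
  have h1 : |q.1.im - (-1)| ≤ 1 / 10 := by
    have e := abs_im_le_norm (q.1 - z0.1)
    rw [← dist_eq_norm] at e
    have e2 : (q.1 - z0.1).im = q.1.im - (-1) := by simp [z0]
    rw [e2] at e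
    exact e.trans hq'.1
  have h2 : |q.2.im - 1 / 4| ≤ 1 / 10 := by
    have e := abs_im_le_norm (q.2 - z0.2)
    rw [← dist_eq_norm] at e
    have e2 : (q.2 - z0.2).im = q.2.im - 1 / 4 := by
      have : (I / 4 : ℂ).im = 1 / 4 := by norm_num
      simp [z0, this]
    rw [e2] at e
    exact e.trans hq'.2
  rw [abs_le] at h1 h2
  refine ⟨by linarith, ?_⟩
  have : 0 ≤ a * q.2.im := mul_nonneg ha (by linarith)
  linarith

/-- integers bounded along an ultrafilter are eventually constant -/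
theorem int_const {ι : Type*} (u : Ultrafilter ι) {N : ι → ℤ} {M : ℝ}
    (hN : ∀ᶠ n in (u : Filter ι), |(N n : ℝ)| ≤ M) : ∃ N0 : ℤ, ∀ᶠ n in (u : Filter ι), N n = N0 := by
  have hfin : (Icc (-⌈M⌉) ⌈M⌉ : Set ℤ).Finite := finite_Icc _ _
  have hmem : (Icc (-⌈M⌉) ⌈M⌉ : Set ℤ) ∈ (u.map N : Filter ℤ) := by
    rw [Ultrafilter.mem_coe, Ultrafilter.mem_map]
    filter_upwards [hN] with n hn
    rw [abs_le] at hn
    have h1 : (N n : ℝ) ≤ ⌈M⌉ := hn.2.trans (Int.le_ceil M)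
    have h2 : -(⌈M⌉ : ℝ) ≤ N n := by
      have := Int.le_ceil M
      linarith [hn.1]
    exact ⟨by exact_mod_cast h2, by exact_mod_cast h1⟩
  obtain ⟨N0, -, h0⟩ := Ultrafilter.eq_pure_of_finite_mem hfin hmem
  refine ⟨N0, ?_⟩
  have : ({N0} : Set ℤ) ∈ u.map N := by rw [h0]; exact mem_singleton N0
  rw [Ultrafilter.mem_map] at this
  filter_upwards [this] with n hn
  exact hn

/-- literal of 300's `world_births` -/
def Births : Prop :=
  ∀ (h a g : ℝ) (ψ H : ℂ → ℂ) (A0 : ℂ) (φ p B : ℕ → ℂ × ℂ → ℂ), World h a g ψ H A0 φ p B →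
    ∀ q0 ∈ Fc a, ∀ r > 0, closedBall q0 r ⊆ Lo (a + g) → ∀ x1 ∈ Lo a ∩ ball q0 r,
      ∀ᶠ n in atTop, ¬ ∃ G : ℂ × ℂ → ℂ, DifferentiableOn ℂ G (ball q0 r) ∧
        (∀ x ∈ ball q0 r, |(G x).im| < h) ∧ G =ᶠ[𝓝 x1] B n

/-- literal of 300's `caseC_world` -/
def CaseC : Prop :=
  ∀ (h a g : ℝ) (ψ H : ℂ → ℂ) (A0 : ℂ) (φ p B : ℕ → ℂ × ℂ → ℂ), World h a g ψ H A0 φ p B →
    ∀ u : Ultrafilter ℕ, (u : Filter ℕ) ≤ atTop → ∀ φl pl Bl : ℂ × ℂ → ℂ,
    DifferentiableOn ℂ φl (Wg (a + g)) → DifferentiableOn ℂ pl (Wg (a + g)) →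
    DifferentiableOn ℂ Bl (Wg a) → TendstoLocallyUniformlyOn φ φl u (Wg (a + g)) →
    TendstoLocallyUniformlyOn p pl u (Wg (a + g)) → TendstoLocallyUniformlyOn B Bl u (Wg a) →
    (∀ x ∈ Wg a, |(Bl x).im| < h) → NrmAll (a + g) ψ φ B →
    (∀ x ∈ Wg a, cexp (2 * I * (ψ (Bl x) - φl x)) = 1) →
    (∀ x ∈ Wg a, ∀ y ∈ Wg a, Bl x = Bl y) ∧ ∀ x ∈ Wg (a + g), ∀ y ∈ Wg (a + g), φl x = φl y

theorem rel_of {h : ℝ} {ψ H : ℂ → ℂ} (hC : Curve h ψ H) : F300.Rel (Sp h) ψ H (-1) := by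
  intro z hz
  exact hC.rel z hz

theorem flat_lim (hbir : Births) (hcase : CaseC) {h a g κ : ℝ} {ψ H : ℂ → ℂ} {A0 : ℂ}
    {φ p B : ℕ → ℂ × ℂ → ℂ} (hκ : 0 < κ) (W : World h a g ψ H A0 φ p B) (hI : IntrW h κ ψ B)
    (hre : ∀ n, 0 ≤ (B n z0).re ∧ (B n z0).re ≤ 1)
    (hbd : ∀ K ⊆ Wg (a + g), IsCompact K → ∃ C : ℝ, ∀ᶠ n in atTop, ∀ q ∈ K,
      ‖φ n q‖ ≤ C ∧ ‖p n q‖ ≤ C)
    (hN : NrmAll (a + g) ψ φ B) (u : Ultrafilter ℕ) (hu : (u : Filter ℕ) ≤ atTop) :
    ∃ b c d : ℂ, |b.im| < h ∧ deriv ψ b ≠ 0 ∧ cexp (2 * I * (c - ψ b)) = 1 ∧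
      TendstoLocallyUniformlyOn φ (fun _ => c) u (Wg (a + g)) ∧
      TendstoLocallyUniformlyOn p (fun _ => d) u (Wg (a + g)) ∧
      TendstoLocallyUniformlyOn B (fun _ => b) u (Wg a) := by
  have hg := W.g_pos
  have ha := W.a_nonneg
  have hne : (u : Filter ℕ).NeBot := u.neBot
  have hOm : IsOpen (Lo (a + g)) := isOpen_Lo _
  have hOc : IsPreconnected (Lo (a + g)) := (convex_Lo _).isPreconnected
  have hLO : Lo a ⊆ Lo (a + g) := EdgeC300.Lo_sub hg
  have hFO : Fc a ⊆ Lo (a + g) := EdgeC300.Fc_sub hg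
  -- local form of the line hypotheses
  have hloc : ∀ q ∈ Lo (a + g), ∃ r > 0, ball q r ⊆ Lo (a + g) ∧ ∃ C : ℝ, ∀ᶠ n in (u : Filter ℕ),
      DifferentiableOn ℂ (φ n) (ball q r) ∧ DifferentiableOn ℂ (p n) (ball q r) ∧
      ∀ x ∈ ball q r, ‖φ n x‖ ≤ C ∧ ‖p n x‖ ≤ C := by
    intro q hq
    obtain ⟨r, hr, hrO⟩ := Metric.nhds_basis_closedBall.mem_iff.1 (hOm.mem_nhds hq)
    obtain ⟨C, hC⟩ := hbd (closedBall q r) hrO (isCompact_closedBall q r)
    refine ⟨r, hr, ball_subset_closedBall.trans hrO, C, ?_⟩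
    filter_upwards [hu (W.regL (closedBall q r) hrO (isCompact_closedBall q r)), hu hC] with n hn hn2
    obtain ⟨U, hU, hKU, h1, h2⟩ := hn
    exact ⟨h1.mono (ball_subset_closedBall.trans hKU), h2.mono (ball_subset_closedBall.trans hKU),
      fun x hx => hn2 x (ball_subset_closedBall hx)⟩
  have hBd : ∀ q ∈ Lo a, ∃ r > 0, ball q r ⊆ Lo a ∧ ∀ᶠ n in (u : Filter ℕ),
      DifferentiableOn ℂ (B n) (ball q r) ∧
      ∀ x ∈ ball q r, |(B n x).im| < h ∧ F300.Inc ψ H (φ n x) (p n x) (B n x) := by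
    intro q hq
    obtain ⟨r, hr, hrO⟩ := Metric.nhds_basis_closedBall.mem_iff.1 ((isOpen_Lo a).mem_nhds hq)
    refine ⟨r, hr, ball_subset_closedBall.trans hrO, ?_⟩
    filter_upwards [hu (W.regX (closedBall q r) hrO (isCompact_closedBall q r))] with n hn
    obtain ⟨U, hU, hKU, h1, h2⟩ := hn
    exact ⟨h1.mono (ball_subset_closedBall.trans hKU), fun x hx =>
      ⟨(h2 x (hKU (ball_subset_closedBall hx))).1, (h2 x (hKU (ball_subset_closedBall hx))).2.1⟩⟩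
  -- limits of the line
  obtain ⟨φl, hφld, hφlt⟩ := End613.montel_ev u hOm (f := φ) (fun x hx => by
    obtain ⟨r, hr, hrO, C, hC⟩ := hloc x hx
    exact ⟨r, hr, C, hrO, hC.mono fun n hn => ⟨hn.1, fun w hw => (hn.2.2 w hw).1⟩⟩)
  obtain ⟨pl, hpld, hplt⟩ := End613.montel_ev u hOm (f := p) (fun x hx => by
    obtain ⟨r, hr, hrO, C, hC⟩ := hloc x hx
    exact ⟨r, hr, C, hrO, hC.mono fun n hn => ⟨hn.2.1, fun w hw => (hn.2.2 w hw).2⟩⟩)
  -- (b)
  obtain ⟨m, k, β, N, hmd, hkd, hβd, hm0, hmt, hkt, hβt, hβh, -, hmβ⟩ :=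
    ab_pure u hOm hOc hLO hFO (τ := I) (Or.inl rfl) W.curve.ψ_diff W.curve.H_diff
    (c := -1) (by norm_num) (rel_of W.curve) (k0 := 1)
    (fun b hb => by rw [W.curve.ψ_per b hb]; push_cast; ring) W.curve.H_per (Bn := B) (φn := φ)
    (pn := p) hBd
    (fun q hq => by
      obtain ⟨r, hr, hrO, C, hC⟩ := hloc q hq
      refine ⟨r, hr, hrO, Real.exp (2 * C) + C * Real.exp C, hC.mono fun n hn =>
        ⟨hn.1, hn.2.1, fun x hx => ?_⟩⟩
      obtain ⟨h1, h2⟩ := hn.2.2 x hx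
      have hC0 : 0 ≤ C := (norm_nonneg _).trans h1
      have e1 : ‖cexp (2 * I * φ n x)‖ ≤ Real.exp (2 * C) := by
        rw [Complex.norm_exp]
        apply Real.exp_le_exp.2
        have := Complex.re_le_norm (2 * I * φ n x)
        have e : ‖2 * I * φ n x‖ = 2 * ‖φ n x‖ := by simp
        linarith
      have e2 : ‖cexp (I * φ n x)‖ ≤ Real.exp C := by
        rw [Complex.norm_exp]
        apply Real.exp_le_exp.2
        have := Complex.re_le_norm (I * φ n x)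
        have e : ‖I * φ n x‖ = ‖φ n x‖ := by simp
        linarith
      have e3 : ‖p n x * cexp (I * φ n x)‖ ≤ C * Real.exp C := by
        rw [norm_mul]
        gcongr
      have e4 : 0 ≤ C * Real.exp C := by positivity
      have e5 := Real.exp_pos (2 * C)
      exact ⟨by linarith, by linarith⟩)
    (x0 := z0) (z0_mem ha) (h' := h - κ) (by linarith)
    (Eventually.of_forall fun n => (hI n).1)
    (fun q0 hq0 r hr hrO x1 hx1 => hu (hbir h a g ψ H A0 φ p B W q0 hq0 r hr hrO x1 hx1))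
  -- the integers are eventually constant
  have hz0 := z0_mem ha
  have ht0 : Tendsto (fun n => B n z0 - N n) u (𝓝 (β z0)) := hβt.tendsto_at hz0
  have hNb : ∀ᶠ n in (u : Filter ℕ), |(N n : ℝ)| ≤ |(β z0).re| + 2 := by
    have h1 : ∀ᶠ n in (u : Filter ℕ), dist (B n z0 - N n) (β z0) < 1 :=
      ht0.eventually (ball_mem_nhds _ one_pos)
    filter_upwards [h1] with n hn
    rw [dist_eq_norm] at hn
    have h2 := (abs_re_le_norm (B n z0 - N n - β z0)).trans hn.le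
    have h3 := hre n
    have e : (B n z0 - N n - β z0).re = (B n z0).re - N n - (β z0).re := by simp
    rw [e, abs_le] at h2
    have h4 := abs_le.1 (le_refl |(β z0).re|)
    rw [abs_le]
    constructor <;> linarith [h3.1, h3.2, h2.1, h2.2, h4.1, h4.2]
  obtain ⟨N0, hN0⟩ := int_const u hNb
  set Bl : ℂ × ℂ → ℂ := fun x => β x + N0 with hBl
  have hBld : DifferentiableOn ℂ Bl (Lo a) := hβd.add_const _
  have hBlt : TendstoLocallyUniformlyOn B Bl u (Lo a) := by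
    rw [Metric.tendstoLocallyUniformlyOn_iff] at hβt ⊢
    intro ε hε x hx
    obtain ⟨t, ht, h1⟩ := hβt ε hε x hx
    refine ⟨t, ht, ?_⟩
    filter_upwards [h1, hN0] with n hn hn0 y hy
    have := hn y hy
    rw [dist_eq_norm] at this ⊢
    have e : Bl y - B n y = β y - (B n y - N n) := by rw [hBl, hn0]; ring
    rw [e]; exact this
  have hBlh : ∀ x ∈ Lo a, |(Bl x).im| < h := by
    intro x hx
    have : (Bl x).im = (β x).im := by simp [hBl]
    rw [this]; exact hβh x hx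
  -- R_0 = 1
  have hψint : ∀ j : ℤ, ∀ b ∈ Sp h, cexp (2 * I * ψ (b + j)) = cexp (2 * I * ψ b) := by
    intro j
    have hstep : ∀ b ∈ Sp h, cexp (2 * I * ψ (b + 1)) = cexp (2 * I * ψ b) := by
      intro b hb
      rw [W.curve.ψ_per b hb]
      have : 2 * I * (ψ b + 2 * Real.pi) = 2 * I * ψ b + ((2 : ℤ) : ℂ) * (2 * Real.pi * I) := by
        push_cast; ring
      rw [this]
      exact (Complex.exp_periodic.int_mul 2) _
    have hS : ∀ (j : ℤ) (b : ℂ), b ∈ Sp h → b + j ∈ Sp h := by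
      intro j b hb
      have : (b + j : ℂ).im = b.im := by simp
      show |(b + j : ℂ).im| < h
      rw [this]; exact hb
    induction j using Int.induction_on with
    | zero => intro b _; simp
    | succ i ih =>
      intro b hb
      have e : b + (((i : ℤ) + 1 : ℤ) : ℂ) = (b + (i : ℤ)) + 1 := by push_cast; ring
      rw [e, hstep _ (hS i b hb), ih b hb]
    | pred i ih =>
      intro b hb
      have e : b + ((-(i : ℤ) : ℤ) : ℂ) = (b + ((-(i : ℤ) - 1 : ℤ) : ℂ)) + 1 := by push_cast; ring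
      rw [← ih b hb, e, hstep _ (hS _ b hb)]
  have hml : ∀ x ∈ Lo (a + g), m x = cexp (2 * I * φl x) := by
    intro x hx
    have h1 : Tendsto (fun n => cexp (2 * I * φ n x)) u (𝓝 (m x)) := hmt.tendsto_at hx
    have h2 : Tendsto (fun n => φ n x) u (𝓝 (φl x)) := hφlt.tendsto_at hx
    have h3 : Tendsto (fun n => cexp (2 * I * φ n x)) u (𝓝 (cexp (2 * I * φl x))) :=
      ((continuous_exp.comp (continuous_const.mul continuous_id)).tendsto (φl x)).comp h2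
    exact tendsto_nhds_unique h1 h3
  have hR : ∀ x ∈ Wg a, cexp (2 * I * (ψ (Bl x) - φl x)) = 1 := by
    intro x hx
    have h1 := hmβ x hx
    rw [hml x (hLO hx)] at h1
    have h2 := hψint N0 (β x) (hβh x hx)
    rw [mul_sub, Complex.exp_sub, hBl, h2, ← h1, div_self (Complex.exp_ne_zero _)]
  -- (c)
  obtain ⟨hc1, hc2⟩ := hcase h a g ψ H A0 φ p B W u hu φl pl Bl hφld hpld hBld hφlt hplt hBlt hBlh
    hN hR
  set b := Bl z0 with hb
  set c := φl z0 with hc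
  have hbh : |b.im| < h := hBlh z0 hz0
  have hφc : TendstoLocallyUniformlyOn φ (fun _ => c) u (Wg (a + g)) :=
    hφlt.congr_right fun x hx => hc2 x hx z0 (hLO hz0)
  have hBc : TendstoLocallyUniformlyOn B (fun _ => b) u (Wg a) :=
    hBlt.congr_right fun x hx => hc1 x hx z0 hz0
  have hψd : ContinuousOn (deriv ψ) (Sp h) := (W.curve.ψ_diff.deriv (isOpen_Sp h)).continuousOn
  -- nondegeneracy
  have hdb : deriv ψ b ≠ 0 := by
    intro h0
    have h1 : ∀ᶠ z in 𝓝 b, ‖deriv ψ z‖ < κ := by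
      have := (hψd.continuousAt ((isOpen_Sp h).mem_nhds hbh)).norm
      have h2 : ‖deriv ψ b‖ < κ := by rw [h0, norm_zero]; exact hκ
      exact this.eventually (gt_mem_nhds h2)
    obtain ⟨δ, hδ, h2⟩ := Metric.eventually_nhds_iff.1 h1
    have h3 : TendstoUniformlyOn B (fun _ => b) u (closedBall z0 (1 / 10)) :=
      (tendstoLocallyUniformlyOn_iff_forall_isCompact (isOpen_Lo a)).1 hBc _ (ball_mem ha)
        (isCompact_closedBall _ _)
    have h4 := (Metric.tendstoUniformlyOn_iff.1 h3 δ hδ).exists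
    obtain ⟨n, hn⟩ := h4
    obtain ⟨-, q, hq, hq2⟩ := hI n
    have h5 := h2 (by rw [dist_comm]; exact hn q hq)
    linarith
  -- p is constant
  have hpc : ∀ x ∈ Lo (a + g), pl x = pl z0 := by
    have hinc : ∀ x ∈ Lo a, F300.Inc ψ H c (pl x) b := by
      intro x hx
      have h1 : Tendsto (fun n => φ n x) u (𝓝 c) := hφc.tendsto_at (hLO hx)
      have h2 : Tendsto (fun n => p n x) u (𝓝 (pl x)) := hplt.tendsto_at (hLO hx)
      have h3 : Tendsto (fun n => B n x) u (𝓝 b) := hBc.tendsto_at hx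
      have hbn := (isOpen_Sp h).mem_nhds hbh
      have c1 : Tendsto (fun n => deriv ψ (B n x)) u (𝓝 (deriv ψ b)) :=
        (hψd.continuousAt hbn).tendsto.comp h3
      have c2 : Tendsto (fun n => H (B n x)) u (𝓝 (H b)) :=
        (W.curve.H_diff.continuousOn.continuousAt hbn).tendsto.comp h3
      have c3 : Tendsto (fun n => deriv H (B n x)) u (𝓝 (deriv H b)) :=
        ((W.curve.H_diff.deriv (isOpen_Sp h)).continuousOn.continuousAt hbn).tendsto.comp h3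
      have c4 : Tendsto (fun n => ψ (B n x)) u (𝓝 (ψ b)) :=
        (W.curve.ψ_diff.continuousOn.continuousAt hbn).tendsto.comp h3
      have c5 : Tendsto (fun n => Complex.cos (φ n x - ψ (B n x))) u
          (𝓝 (Complex.cos (c - ψ b))) := (Complex.continuous_cos.tendsto _).comp (h1.sub c4)
      have c6 : Tendsto (fun n => Complex.sin (φ n x - ψ (B n x))) u
          (𝓝 (Complex.sin (c - ψ b))) := (Complex.continuous_sin.tendsto _).comp (h1.sub c4)
      obtain ⟨r, hr, -, hev⟩ := hBd x hx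
      have h6 := (c1.mul h2)
      have h7 := ((c1.mul c2).mul c5).add (c3.mul c6)
      have h8 : (fun n => deriv ψ (B n x) * p n x) =ᶠ[u] fun n =>
          deriv ψ (B n x) * H (B n x) * Complex.cos (φ n x - ψ (B n x)) +
          deriv H (B n x) * Complex.sin (φ n x - ψ (B n x)) := by
        filter_upwards [hev] with n hn
        have := (hn.2 x (mem_ball_self hr)).2
        unfold F300.Inc at this
        exact this
      exact tendsto_nhds_unique h6 (h7.congr' h8.symm)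
    have hpa : ∀ x ∈ Lo a, pl x = pl z0 := by
      intro x hx
      have h1 := hinc x hx
      have h2 := hinc z0 hz0
      unfold F300.Inc at h1 h2
      exact mul_left_cancel₀ hdb (h1.trans h2.symm)
    have hev : pl =ᶠ[𝓝 z0] fun _ => pl z0 := by
      filter_upwards [(isOpen_Lo a).mem_nhds hz0] with x hx using hpa x hx
    have := (analyticOnNhd_of_differentiableOn hOm hpld).eqOn_of_preconnected_of_eventuallyEq
      analyticOnNhd_const hOc (hLO hz0) hev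
    exact fun x hx => this hx
  refine ⟨b, c, pl z0, hbh, hdb, ?_, hφc, hplt.congr_right hpc, hBc⟩
  have h1 := hR z0 hz0
  have h2 : cexp (2 * I * (c - ψ b)) = (cexp (2 * I * (ψ b - c)))⁻¹ := by
    rw [← Complex.exp_neg]; congr 1; ring
  rw [h2]
  show (cexp (2 * I * (ψ (Bl z0) - φl z0)))⁻¹ = 1
  rw [h1, inv_one]

theorem flatP_of (hbir : Births) (hcase : CaseC) : FlatP := by
  intro h a g κ ψ H A0 φ p B hκ W hI hre hbd hN ε hε K hK hKc K' hK' hKc'
  by_contra hcon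
  have hcon' : ∃ᶠ n in atTop, ¬ SlowAt ε K K' ψ (φ n) (p n) (B n) := not_eventually.1 hcon
  have hne : (atTop ⊓ 𝓟 {n : ℕ | ¬ SlowAt ε K K' ψ (φ n) (p n) (B n)} : Filter ℕ).NeBot :=
    frequently_mem_iff_neBot.1 hcon'
  set u : Ultrafilter ℕ :=
    Ultrafilter.of (atTop ⊓ 𝓟 {n : ℕ | ¬ SlowAt ε K K' ψ (φ n) (p n) (B n)})
  have hu : (u : Filter ℕ) ≤ atTop ⊓ 𝓟 {n : ℕ | ¬ SlowAt ε K K' ψ (φ n) (p n) (B n)} :=
    Ultrafilter.of_le _
  have hu1 : (u : Filter ℕ) ≤ atTop := hu.trans inf_le_left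
  have hu2 : ∀ᶠ n in (u : Filter ℕ), ¬ SlowAt ε K K' ψ (φ n) (p n) (B n) :=
    (hu.trans inf_le_right) (mem_principal_self _)
  obtain ⟨b, c, d, hbh, hdb, hcb, hφt, hpt, hBt⟩ :=
    flat_lim hbir hcase hκ W hI hre hbd hN u hu1
  have ha := W.a_nonneg
  have hz0 := z0_mem ha
  have hz0' : z0 ∈ Wg (a + g) := EdgeC300.Lo_sub W.g_pos hz0
  have hFc : ContinuousAt (fun q : ℂ × ℂ => cexp (2 * I * (q.1 - ψ q.2))) (c, b) := by
    have h1 : ContinuousAt ψ b :=
      W.curve.ψ_diff.continuousOn.continuousAt ((isOpen_Sp h).mem_nhds hbh)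
    have h2 : ContinuousAt (fun q : ℂ × ℂ => ψ q.2) (c, b) :=
      ContinuousAt.comp (f := Prod.snd) (g := ψ) (x := ((c, b) : ℂ × ℂ)) h1 continuousAt_snd
    exact ((continuousAt_fst.sub h2).const_mul _).cexp
  have hF1 : ∀ᶠ q in 𝓝 ((c, b) : ℂ × ℂ), dist (cexp (2 * I * (q.1 - ψ q.2))) 1 < ε := by
    have := hFc.eventually (ball_mem_nhds _ hε)
    simp only [hcb] at this
    exact this
  obtain ⟨δ, hδ, hF2⟩ := Metric.eventually_nhds_iff.1 hF1
  have k1 : TendstoUniformlyOn φ (fun _ => c) u K :=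
    (tendstoLocallyUniformlyOn_iff_forall_isCompact (isOpen_Lo (a + g))).1 hφt K hK hKc
  have k2 : TendstoUniformlyOn B (fun _ => b) u K' :=
    (tendstoLocallyUniformlyOn_iff_forall_isCompact (isOpen_Lo a)).1 hBt K' hK' hKc'
  have k4 : TendstoUniformlyOn p (fun _ => d) u K :=
    (tendstoLocallyUniformlyOn_iff_forall_isCompact (isOpen_Lo (a + g))).1 hpt K hK hKc
  have k3 : Tendsto (fun n => B n z0) u (𝓝 b) := hBt.tendsto_at hz0
  have k5 : Tendsto (fun n => p n z0) u (𝓝 d) := hpt.tendsto_at hz0'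
  have e1 := Metric.tendstoUniformlyOn_iff.1 k1 δ hδ
  have e2 := Metric.tendstoUniformlyOn_iff.1 k2 (ε / 2) (by positivity)
  have e4 := Metric.tendstoUniformlyOn_iff.1 k4 (ε / 2) (by positivity)
  have e3 : ∀ᶠ n in (u : Filter ℕ), dist (B n z0) b < min δ (ε / 2) :=
    k3.eventually (ball_mem_nhds _ (by positivity))
  have e5 : ∀ᶠ n in (u : Filter ℕ), dist (p n z0) d < ε / 2 :=
    k5.eventually (ball_mem_nhds _ (by positivity))
  have : (u : Filter ℕ).NeBot := u.neBot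
  obtain ⟨n, hn1, hn2, hn3, hn4, hn5, hn6⟩ :=
    (e1.and (e2.and (e3.and (hu2.and (e4.and e5))))).exists
  apply hn4
  refine ⟨fun q hq => ⟨?_, ?_⟩, fun q hq => ?_⟩
  · have h1 := hn1 q hq
    have h2 : dist ((φ n q, B n z0) : ℂ × ℂ) (c, b) < δ := by
      rw [Prod.dist_eq]
      exact max_lt (by rw [dist_comm]; exact h1) (hn3.trans_le (min_le_left _ _))
    have h3 := hF2 h2
    rw [dist_eq_norm] at h3
    exact h3.le
  · have h1 := hn5 q hq
    have h2 := hn6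
    rw [← dist_eq_norm]
    calc dist (p n q) (p n z0) ≤ dist (p n q) d + dist d (p n z0) := dist_triangle _ _ _
      _ ≤ ε / 2 + ε / 2 := by
        rw [dist_comm] at h1
        rw [dist_comm] at h2
        gcongr
      _ = ε := by ring
  · have h1 := hn2 q hq
    have h2 := hn3.trans_le (min_le_right _ _)
    rw [← dist_eq_norm]
    calc dist (B n q) (B n z0) ≤ dist (B n q) b + dist b (B n z0) := dist_triangle _ _ _
      _ ≤ ε / 2 + ε / 2 := by
        rw [dist_comm] at h1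
        rw [dist_comm] at h2
        gcongr
      _ = ε := by ring

end Crest.Agent.R102.Flat196
end
end

-- ▼ part R102/EdgeC4_300
section

/-!
Row 102, T1-B, EDGE-FLAT (helper300): the joints `World` (EdgeDefs_255) → births in germ form and
case (c) (`R₀ ≡ 1`) of a world.
-/

set_option autoImplicit false

open Set Filter Topology Metric Complex

noncomputable section

namespace Crest.Agent.R102.EdgeC300

open Crest.Agent.R102.EdgeLim196 Crest.Agent.R102.LemX262 Crest.Agent.R102.SlowLim754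
open Crest.Agent.R102.Edge255 (World NrmAll Wg R0 z0)
open Crest.Agent.R266.SCV

section world

variable {h a g : ℝ} {ψ H : ℂ → ℂ} {A0 : ℂ} {φ p B : ℕ → ℂ × ℂ → ℂ}

/-- a compact preconnected set which contains a given compact subset of a convex set -/
theorem exists_star {O K : Set (ℂ × ℂ)} (hO : Convex ℝ O) (hK : K ⊆ O) (hKc : IsCompact K) :
    ∃ T ⊆ O, K ⊆ T ∧ IsCompact T ∧ IsPreconnected T := by
  rcases K.eq_empty_or_nonempty with rfl | ⟨x1, hx1⟩
  · exact ⟨∅, empty_subset _, subset_rfl, isCompact_empty, isPreconnected_empty⟩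
  set f : ℝ × (ℂ × ℂ) → ℂ × ℂ := fun x => x1 + x.1 • (x.2 - x1) with hf
  have hfc : Continuous f := by fun_prop
  have hseg : ∀ y ∈ K, segment ℝ x1 y = (fun t : ℝ => f (t, y)) '' Icc (0 : ℝ) 1 := by
    intro y _
    rw [segment_eq_image']
  refine ⟨f '' (Icc (0 : ℝ) 1 ×ˢ K), ?_, ?_, ?_, ?_⟩
  · rintro _ ⟨⟨t, y⟩, ⟨ht, hy⟩, rfl⟩
    have h1 := hO.segment_subset (hK hx1) (hK hy)
    rw [hseg y hy] at h1
    exact h1 ⟨t, ht, rfl⟩
  · intro y hy
    exact ⟨(1, y), ⟨⟨zero_le_one, le_rfl⟩, hy⟩, by simp [hf]⟩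
  · exact (isCompact_Icc.prod hKc).image hfc
  · refine isPreconnected_of_forall x1 ?_
    rintro _ ⟨⟨t, y⟩, ⟨ht, hy⟩, rfl⟩
    refine ⟨segment ℝ x1 y, ?_, left_mem_segment ℝ _ _, ?_, (convex_segment _ _).isPreconnected⟩
    · rw [hseg y hy]
      rintro _ ⟨t, ht, rfl⟩
      exact ⟨(t, y), ⟨ht, hy⟩, rfl⟩
    · rw [hseg y hy]
      exact ⟨t, ht, rfl⟩

/-- births of a world, germ form: no holomorphic function on a face ball has the germ of the label
at a point of a given compact set -/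
theorem world_noReg (W : World h a g ψ H A0 φ p B) {q0 : ℂ × ℂ} (hq0 : q0 ∈ Fc a) {r : ℝ}
    (hr : 0 < r) {K : Set (ℂ × ℂ)} (hK : K ⊆ ball q0 r ∩ Lo a) (hKc : IsCompact K) :
    ∀ᶠ n in atTop, ¬ ∃ G : ℂ × ℂ → ℂ, DifferentiableOn ℂ G (ball q0 r) ∧
      (∀ x ∈ ball q0 r, |(G x).im| < h) ∧ ∃ x ∈ K, G =ᶠ[𝓝 x] B n := by
  have hq0g : q0 ∈ Lo (a + g) := Fc_sub W.g_pos hq0
  obtain ⟨r1, hr1, hr1L⟩ := Metric.nhds_basis_closedBall.mem_iff.1 ((isOpen_Lo (a + g)).mem_nhds hq0g)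
  set r2 : ℝ := min r1 (r / 2) with hr2
  have hr2p : 0 < r2 := lt_min hr1 (by positivity)
  obtain ⟨K1, hK1, hK1c, hK1b⟩ := W.births q0 hq0.1 hq0.2 r2 hr2p
    ((closedBall_subset_closedBall (min_le_left _ _)).trans hr1L)
  have h34 : (3 / 4 : ℝ) * r < r := by linarith
  have hK2c : IsCompact (K ∪ (K1 ∩ closedBall q0 (3 / 4 * r))) :=
    hKc.union (hK1c.inter_right isClosed_closedBall)
  have hK2 : K ∪ (K1 ∩ closedBall q0 (3 / 4 * r)) ⊆ ball q0 r ∩ Lo a := by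
    rintro x (hx | hx)
    · exact hK hx
    · exact ⟨closedBall_subset_ball h34 hx.2, hK1 hx.1⟩
  obtain ⟨T, hhs, hKT, hhc, hTp⟩ := exists_star ((convex_ball q0 r).inter (convex_Lo a)) hK2 hK2c
  filter_upwards [hK1b, W.regX _ (fun x hx => (hhs hx).2) hhc] with n hn1 hn2
  rintro ⟨G, g1, g2, x, hx, g3⟩
  obtain ⟨U, hU, hKU, hBU, -⟩ := hn2
  have hGa : AnalyticOnNhd ℂ G T :=
    (analyticOnNhd_of_differentiableOn isOpen_ball g1).mono fun y hy => (hhs hy).1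
  have hBa : AnalyticOnNhd ℂ (B n) T := (analyticOnNhd_of_differentiableOn hU hBU).mono hKU
  have key := hGa.eqOn_of_preconnected_of_eventuallyEq hBa hTp (hKT (Or.inl hx)) g3
  refine hn1 ⟨G, ball q0 (3 / 4 * r), isOpen_ball, ?_, g1.mono (ball_subset_ball h34.le),
    fun y hy => g2 y (ball_subset_ball h34.le hy), fun y hy => ?_⟩
  · refine closedBall_subset_ball ?_
    have := min_le_right r1 (r / 2)
    rw [← hr2] at this
    linarith
  · exact key (hKT (Or.inr ⟨hy.1, ball_subset_closedBall hy.2⟩))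

/-- 196's form of `births` in `ab_pure` -/
theorem world_births (W : World h a g ψ H A0 φ p B) {l : Filter ℕ} (hl : l ≤ atTop)
    (Om : Set (ℂ × ℂ)) :
    ∀ q0 ∈ Fc a, ∀ r > 0, closedBall q0 r ⊆ Om → ∀ x1 ∈ Lo a ∩ ball q0 r,
      ∀ᶠ n in l, ¬ ∃ G : ℂ × ℂ → ℂ, DifferentiableOn ℂ G (ball q0 r) ∧
        (∀ x ∈ ball q0 r, |(G x).im| < h) ∧ G =ᶠ[𝓝 x1] B n := by
  intro q0 hq0 r hr _ x1 hx1
  refine hl ?_
  filter_upwards [world_noReg W hq0 hr (K := {x1}) (by rintro x rfl; exact ⟨hx1.2, hx1.1⟩)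
    isCompact_singleton] with n hn
  rintro ⟨G, g1, g2, g3⟩
  exact hn ⟨G, g1, g2, x1, rfl, g3⟩

/-- a world with a limit along a filter -/
theorem world_seq (W : World h a g ψ H A0 φ p B) {l : Filter ℕ} (hl : l ≤ atTop)
    {φl pl Bl : ℂ × ℂ → ℂ} (hφt : TendstoLocallyUniformlyOn φ φl l (Wg (a + g)))
    (hpt : TendstoLocallyUniformlyOn p pl l (Wg (a + g)))
    (hBt : TendstoLocallyUniformlyOn B Bl l (Wg a))
    (hφd : DifferentiableOn ℂ φl (Wg (a + g))) (hpd : DifferentiableOn ℂ pl (Wg (a + g)))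
    (hBd : DifferentiableOn ℂ Bl (Wg a)) (hBm : ∀ x ∈ Wg a, |(Bl x).im| < h) :
    Seq l h a g ψ H φ p B (fun _ => 0) φl pl Bl where
  φd := by
    intro K hK hKc
    refine hl ?_
    filter_upwards [W.regL K hK hKc] with n hn x hx
    obtain ⟨U, hU, hKU, h1, h2⟩ := hn
    exact h1.differentiableAt (hU.mem_nhds (hKU hx))
  pd := by
    intro K hK hKc
    refine hl ?_
    filter_upwards [W.regL K hK hKc] with n hn x hx
    obtain ⟨U, hU, hKU, h1, h2⟩ := hn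
    exact h2.differentiableAt (hU.mem_nhds (hKU hx))
  φt := hφt
  pt := hpt
  Bt := by
    refine hBt.congr ?_
    intro n x _
    simp
  φld := hφd
  pld := hpd
  Bld := hBd
  Blm := hBm
  lab := by
    intro K hK hKc
    refine hl ?_
    filter_upwards [W.regX K hK hKc] with n hn x hx
    obtain ⟨U, hU, hKU, h1, h2⟩ := hn
    obtain ⟨l1, l2, l3⟩ := h2 x (hKU hx)
    refine ⟨h1.differentiableAt (hU.mem_nhds (hKU hx)), l1, l2, fun h4 h5 => l3 h4 ?_⟩
    obtain ⟨m, hm⟩ := Complex.exp_eq_one_iff.1 h5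
    have h2I : (2 : ℂ) * I ≠ 0 := by simp
    have h6 : φ n x - ψ (B n x) = ((-m : ℤ) : ℂ) * Real.pi := by
      refine mul_left_cancel₀ h2I ?_
      push_cast
      linear_combination -hm
    rw [h6]
    exact Complex.sin_int_mul_pi _
  noReg := by
    intro q0 hq0 r hr K hK hKc
    exact hl (world_noReg W hq0 hr hK hKc)

/-- the area form of a world -/
theorem world_area (W : World h a g ψ H A0 φ p B) {l : Filter ℕ} (hl : l ≤ atTop) :
    ∃ (σ : ℕ → ℂ) (J : ℕ → ℂ × ℂ → ℂ), (∀ n, σ n ≠ 0) ∧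
      (∀ K ⊆ Lo (a + g), IsCompact K → ∀ᶠ n in l, ∀ x ∈ K,
        d1 (φ n) x * d2 (p n) x - d2 (φ n) x * d1 (p n) x = σ n * J n x) ∧
      TendstoLocallyUniformlyOn J (fun _ => A0) l (Lo (a + g)) := by
  obtain ⟨J, k, hJ, -, hk, hA⟩ := W.area
  refine ⟨fun n => (J n : ℂ), fun n x => k n x.2, fun n => ?_, fun K hK hKc => ?_, ?_⟩
  · show ((J n : ℝ) : ℂ) ≠ 0
    exact_mod_cast (hJ n).ne'
  · refine hl ?_
    filter_upwards [hA K hK hKc] with n hn x hx
    exact hn x hx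
  · refine (tendstoLocallyUniformlyOn_iff_forall_isCompact (isOpen_Lo _)).2 fun K hK hKc => ?_
    rw [Metric.tendstoUniformlyOn_iff]
    intro ε hε
    have h1 := Metric.tendstoUniformlyOn_iff.1 (hk (Prod.snd '' K) (hKc.image continuous_snd)) ε hε
    refine hl ?_
    filter_upwards [h1] with n hn x hx
    exact hn x.2 ⟨x, hx, rfl⟩

/-- positive multiples of the cone -/
theorem Lo_smul {m R : ℝ} (hR : 0 < R) {q : ℂ × ℂ} (hq : q ∈ Lo m) :
    (((R : ℂ) * q.1, (R : ℂ) * q.2) : ℂ × ℂ) ∈ Lo m := by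
  obtain ⟨h1, h2⟩ := hq
  have e1 : ((R : ℂ) * q.1).im = R * q.1.im := by simp
  have e2 : ((R : ℂ) * q.2).im = R * q.2.im := by simp
  refine ⟨?_, ?_⟩
  · show 0 < ((R : ℂ) * q.2).im
    rw [e2]; positivity
  · show ((R : ℂ) * q.1).im < m * ((R : ℂ) * q.2).im
    rw [e1, e2]
    nlinarith [mul_lt_mul_of_pos_left h2 hR]

/-- **case (c) for a world**: if the limit line is tangent at the limit label, both are constant -/
theorem caseC_world (W : World h a g ψ H A0 φ p B) {l : Filter ℕ} [l.NeBot] (hl : l ≤ atTop)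
    {φl pl Bl : ℂ × ℂ → ℂ} (hφt : TendstoLocallyUniformlyOn φ φl l (Wg (a + g)))
    (hpt : TendstoLocallyUniformlyOn p pl l (Wg (a + g)))
    (hBt : TendstoLocallyUniformlyOn B Bl l (Wg a))
    (hφd : DifferentiableOn ℂ φl (Wg (a + g))) (hpd : DifferentiableOn ℂ pl (Wg (a + g)))
    (hBd : DifferentiableOn ℂ Bl (Wg a)) (hBm : ∀ x ∈ Wg a, |(Bl x).im| < h)
    (hN : NrmAll (a + g) ψ φ B)
    (hR : ∀ x ∈ Wg a, cexp (2 * I * (ψ (Bl x) - φl x)) = 1) :
    (∀ x ∈ Wg a, ∀ y ∈ Wg a, Bl x = Bl y) ∧ ∀ x ∈ Wg (a + g), ∀ y ∈ Wg (a + g), φl x = φl y := by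
  have S := world_seq W hl hφt hpt hBt hφd hpd hBd hBm
  obtain ⟨σ, J, hσ, hJ, hJt⟩ := world_area W hl
  have hg := W.g_pos
  have ha := W.a_nonneg
  have hψd : DifferentiableOn ℂ ψ (Sp h) := W.curve.ψ_diff
  have hHd : DifferentiableOn ℂ H (Sp h) := W.curve.H_diff
  have hrel : F300.Rel (Sp h) ψ H (-1) := W.curve.rel
  have hψp : ∀ b ∈ Sp h, ψ (b + 1) = ψ b + 2 * Real.pi * ((1 : ℤ) : ℂ) := by
    intro b hb
    rw [W.curve.ψ_per b hb]; simp
  -- the compact set of the bound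
  set y0 : ℝ := 2 / g with hy0
  have hy0p : 0 < y0 := by positivity
  set f : ℂ → ℂ × ℂ := fun s => Ea a (s, (y0 : ℂ) * I) with hf
  have hfc : Continuous f := (Ea_diff a).continuous.comp (by fun_prop)
  have hK : f '' closedBall 0 1 ⊆ Wg (a + g) := by
    rintro _ ⟨s, hs, rfl⟩
    refine Ea_mem.2 ⟨?_, ?_⟩
    · simpa using hy0p
    · have h1 : s.im ≤ 1 := ((le_abs_self _).trans (abs_im_le_norm s)).trans (by simpa using hs)
      show s.im < g * ((y0 : ℂ) * I).im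
      have h2 : ((y0 : ℂ) * I).im = y0 := by simp
      rw [h2]
      have h3 : g * y0 = 2 := by rw [hy0]; field_simp
      linarith
  obtain ⟨C, hC⟩ := hN (f '' closedBall 0 1) hK ((isCompact_closedBall _ _).image hfc)
  refine caseC' hg hψd hHd hrel (by norm_num) hψp W.curve.H_per S (Eventually.of_forall hσ) hJ hJt
    (fun _ _ => W.A0_ne) (C := C) (fun s => ?_) hR
  set R : ℝ := ‖s‖ + 1 with hRdef
  have hR1 : 1 ≤ R := by rw [hRdef]; linarith [norm_nonneg s]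
  have hR0 : 0 < R := by linarith
  have hRc : (R : ℂ) ≠ 0 := by exact_mod_cast hR0.ne'
  have hz0 : z0 ∈ Lo a := by
    refine ⟨?_, ?_⟩
    · show 0 < (I / 4 : ℂ).im
      norm_num
    · show (-I : ℂ).im < a * (I / 4 : ℂ).im
      have : (I / 4 : ℂ).im = 1 / 4 := by norm_num
      rw [this, neg_im, I_im]
      linarith
  have hRz : (((R : ℂ) * z0.1, (R : ℂ) * z0.2) : ℂ × ℂ) ∈ Lo a := Lo_smul hR0 hz0
  have hfs : s / R ∈ closedBall (0 : ℂ) 1 := by
    rw [mem_closedBall_zero_iff, norm_div, Complex.norm_real, Real.norm_eq_abs, abs_of_pos hR0,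
      div_le_one hR0, hRdef]
    linarith
  have hfm := hK ⟨s / R, hfs, rfl⟩
  have hpt : (((R : ℂ) * (f (s / R)).1, (R : ℂ) * (f (s / R)).2) : ℂ × ℂ) =
      Ea a (s, (R : ℂ) * ((y0 : ℂ) * I)) := by
    simp only [hf, Ea]
    refine Prod.ext ?_ rfl
    simp only
    rw [mul_add, mul_div_cancel₀ _ hRc]
    ring
  have hmem : Ea a (s, (R : ℂ) * ((y0 : ℂ) * I)) ∈ Lo (a + g) := by
    rw [← hpt]; exact Lo_smul hR0 hfm
  refine ⟨(R : ℂ) * ((y0 : ℂ) * I), Ea_mem.1 hmem, ?_⟩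
  -- pass to the limit
  have t1 : Tendsto (fun n => φ n (Ea a (s, (R : ℂ) * ((y0 : ℂ) * I)))) l
      (𝓝 (φl (Ea a (s, (R : ℂ) * ((y0 : ℂ) * I))))) := hφt.tendsto_at hmem
  have t2 : Tendsto (fun n => φ n ((R : ℂ) * z0.1, (R : ℂ) * z0.2)) l
      (𝓝 (φl ((R : ℂ) * z0.1, (R : ℂ) * z0.2))) := hφt.tendsto_at (Lo_sub hg hRz)
  have t3 : Tendsto (fun n => B n ((R : ℂ) * z0.1, (R : ℂ) * z0.2)) l
      (𝓝 (Bl ((R : ℂ) * z0.1, (R : ℂ) * z0.2))) := hBt.tendsto_at hRz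
  have c1 : ContinuousAt ψ (Bl ((R : ℂ) * z0.1, (R : ℂ) * z0.2)) :=
    (hψd.differentiableAt ((isOpen_Sp h).mem_nhds (hBm _ hRz))).continuousAt
  have t4 : Tendsto (fun n => R0 ψ (φ n) (B n) ((R : ℂ) * z0.1, (R : ℂ) * z0.2)) l (𝓝 1) := by
    have h1 := (((c1.tendsto.comp t3).sub t2).const_mul (2 * I)).cexp
    rw [hR _ hRz] at h1
    exact h1
  have t5 : Tendsto (fun n => C * (1 + |Real.log ‖R0 ψ (φ n) (B n)
      ((R : ℂ) * z0.1, (R : ℂ) * z0.2)‖|)) l (𝓝 C) := by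
    have h1 := t4.norm
    rw [norm_one] at h1
    have h2 := (Real.continuousAt_log (one_ne_zero)).tendsto.comp h1
    rw [Real.log_one] at h2
    have h3 := (h2.abs.const_add 1).const_mul C
    simpa using h3
  have t6 : Tendsto (fun n => |(φ n (Ea a (s, (R : ℂ) * ((y0 : ℂ) * I)))).im|) l
      (𝓝 |(φl (Ea a (s, (R : ℂ) * ((y0 : ℂ) * I)))).im|) :=
    ((Complex.continuous_im.tendsto _).comp t1).abs
  refine le_of_tendsto_of_tendsto t6 t5 (hl ?_)
  filter_upwards [hC R hR1] with n hn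
  have := hn (f (s / R)) ⟨s / R, hfs, rfl⟩
  rw [hpt] at this
  exact this

end world

end Crest.Agent.R102.EdgeC300
end
end

-- ▼ part R102/FlatPP_196
section

/-!
Row 102, T1-B, EDGE-FLAT: the leaf `FlatP` (helper196, helper300).
-/

set_option autoImplicit false

open Set Filter Topology Metric Complex

noncomputable section

namespace Crest.Agent.R102.Flat196

open Crest.Agent.R102.Edge255 Crest.Agent.R102.EdgeLim196

/-- **(EDGE-FLAT)** -/
theorem flatP : Edge255.FlatP := by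
  refine flatP_of ?_ ?_
  · intro h a g ψ H A0 φ p B W
    exact EdgeC300.world_births W le_rfl (Lo (a + g))
  · intro h a g ψ H A0 φ p B W u hu φl pl Bl h1 h2 h3 h4 h5 h6 h7 h8 h9
    have : (u : Filter ℕ).NeBot := u.neBot
    exact EdgeC300.caseC_world W hu h4 h5 h6 h1 h2 h3 h7 h8 h9

end Crest.Agent.R102.Flat196
end
end

-- ▼ part R102/Final2_802
section

/-!
Row 102, the final assembly (helper802): `Chain559.EdgeO` from the open leaves of `EdgeDefs_255`.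
-/

set_option autoImplicit false

namespace Crest.Agent.R102.Final802

open Crest.Agent.R102 Crest.Agent.R102.Edge255

theorem edgeO_of5 (hB : BalP) (hN : NormP) (hC : CuspP) (hF : FlatP) (hS : SlowP) :
    Chain559.EdgeO :=
  edgeO_all EdOf364.edOf MarcP295.marcP hB hN (NrmAllP812.nrmAllP hN) World150.toWorld hC hF hS
    Sup115.supFin

theorem edgeO_of3 (hB : BalP) (hN : NormP) (hS : SlowP) : Chain559.EdgeO :=
  edgeO_of5 hB hN CuspP985.cuspP Flat196.flatP hS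

end Crest.Agent.R102.Final802
end

-- ▼ part R102/SliceB_812
section

/-!
Row 102 (T1-B), the real slice at a good width (helper812): the label on `{Im t < VV u} × {u}`, its
vertical limits on the two edges (from the cone limits of SUP by `Exit812.link`), and the way back.
-/

set_option autoImplicit false

open Set Filter Topology Metric Complex MeasureTheory
open scoped Real ComplexConjugate

noncomputable section

namespace Crest.Agent.R102.Slice812

open Crest.Agent.R102.Sh982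
open Crest.Agent.R102.Exit812
open Crest.Agent.R102.Chain559
open Crest.Agent.R102.GlueII559 (OL OX VV VV_of_Nn mem_of_lt_VV)
open Crest.Agent.R102.PartII150
open Crest.Agent.R102.Sup115 (HDu GoodU)
open Crest.Agent.R102.S5 (Cn)
open Crest.Agent.R102.Kol953 (Dm)

/-- the conclusion of SUP at `(s₀, u)` -/
def SupAt (B : ℂ × ℂ → ℂ) (h u s₀ : ℝ) : Prop :=
  ∃ δ > 0, ∀ᵐ s : ℝ, |s - s₀| < δ → ∃ bb : ℂ, |bb.im| = h ∧
    ∀ M : ℝ, Tendsto B (𝓝[Cn (s, u) M] ((s : ℂ), (u : ℂ))) (𝓝 bb)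

/-- the label on the real slice -/
def bs (b : ℂ × ℂ → ℂ) (h ρ r u : ℝ) (t : ℂ) : ℂ := be b h ρ r (t, (u : ℂ))

/-- vertical limit on the real slice -/
def VLim (b : ℂ × ℂ → ℂ) (h ρ r u U x e : ℝ) : Prop :=
  Tendsto (fun y : ℝ => (bs b h ρ r u ((x : ℂ) + ((U - y : ℝ) : ℂ) * I)).im) (𝓝[>] 0) (𝓝 e)

variable {q : C(ℂ, ℂ)} {η ρ r Bc : ℝ} {b φ p : ℂ × ℂ → ℂ} {m₀ : ℂ → ℂ} {h : ℝ} {ψ H : ℂ → ℂ}

theorem ae_shift {P : ℝ → Prop} (g : ℝ) (hP : ∀ᵐ s : ℝ, P s) : ∀ᵐ x : ℝ, P (x - g) :=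
  (measurePreserving_sub_right volume g).quasiMeasurePreserving.ae hP

theorem ae_shift' {P : ℝ → Prop} (g : ℝ) (hP : ∀ᵐ x : ℝ, P x) : ∀ᵐ s : ℝ, P (s + g) :=
  (measurePreserving_add_right volume g).quasiMeasurePreserving.ae hP

/-- **the real slice** -/
theorem slice (D : Sh982.Dat q η ρ r Bc b φ p m₀ h ψ H) {g : ℂ → ℂ}
    {u0 R d u α β s₀ a₀ c : ℝ} (hS : Shift b φ p h ρ r u0 R d g)
    (hG : GoodAt b φ p h ρ r u0 R d g u α β s₀ a₀ c) (hSup : SupAt (Bx b h ρ r g) h u s₀) :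
    ∃ g0 : ℂ, g0.im = VV b φ p h ρ r u ∧ NTL g u α β g0 ∧ 0 < VV b φ p h ρ r u ∧ ∃ δ > 0,
      DifferentiableOn ℂ (bs b h ρ r u)
        (Dm (s₀ + g0.re - δ) (s₀ + g0.re + δ) (VV b φ p h ρ r u) (ρ / 2 + VV b φ p h ρ r u)) ∧
      (∀ z ∈ Dm (s₀ + g0.re - δ) (s₀ + g0.re + δ) (VV b φ p h ρ r u)
        (ρ / 2 + VV b φ p h ρ r u), |(bs b h ρ r u z).im| < h) ∧
      (∀ᵐ x : ℝ, x ∈ Ioo (s₀ + g0.re - δ) (s₀ + g0.re + δ) →
        VLim b h ρ r u (VV b φ p h ρ r u) x h ∨ VLim b h ρ r u (VV b φ p h ρ r u) x (-h)) ∧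
      ∀ e s1 δ1 : ℝ, |s1 - s₀| + δ1 ≤ δ →
        (∀ᵐ x : ℝ, x ∈ Ioo (s1 + g0.re - δ1) (s1 + g0.re + δ1) →
          VLim b h ρ r u (VV b φ p h ρ r u) x e) →
        ∀ᵐ s : ℝ, |s - s1| < δ1 → ∃ bb : ℂ, bb.im = e ∧
          ∀ M : ℝ, Tendsto (Bx b h ρ r g) (𝓝[Cn (s, u) M] ((s : ℂ), (u : ℂ))) (𝓝 bb) := by
  have huB : (u : ℂ) ∈ ball (u0 : ℂ) R := by
    rw [mem_ball, dist_eq_norm, ← Complex.ofReal_sub, Complex.norm_real, Real.norm_eq_abs, abs_lt]
    constructor <;> linarith [hG.mem.1, hG.mem.2]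
  have hur : |u| < r := by simpa using hS.ball_sub huB
  obtain ⟨hV0, -, hreg, -⟩ := VV_of_Nn D hur hG.nn
  obtain ⟨g0, hg0, hg⟩ := exists_ntl hG.mem hS.diff hG.expn
  obtain ⟨δ, hδ, hae⟩ := hSup
  have hmem : ∀ t : ℂ, t.im ∈ Ioo (VV b φ p h ρ r u - (ρ / 2 + VV b φ p h ρ r u))
      (VV b φ p h ρ r u) → (t, (u : ℂ)) ∈ SB b h ρ r := by
    intro t ht
    exact (mem_SB_of D (by rw [Complex.norm_real, Real.norm_eq_abs]; exact hur)
      (by linarith [ht.1]) ht.2).1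
  -- the link
  have hlink : ∀ (s : ℝ) (bb : ℂ), |bb.im| = h →
      (∀ M : ℝ, Tendsto (Bx b h ρ r g) (𝓝[Cn (s, u) M] ((s : ℂ), (u : ℂ))) (𝓝 bb)) →
      VLim b h ρ r u (VV b φ p h ρ r u) (s + g0.re) bb.im := by
    intro s bb hbb hl
    exact link D hur hV0 hG.expn hg hg0 hl (eq_or_eq_neg_of_abs_eq hbb)
  refine ⟨g0, hg0, hg, hV0, δ, hδ, ?_, ?_, ?_, ?_⟩
  · intro t ht
    refine (DifferentiableAt.comp (g := be b h ρ r) (f := fun t : ℂ => ((t, (u : ℂ)) : ℂ × ℂ)) t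
      (D.be_an _ (hmem t ht.2)).differentiableAt ?_).differentiableWithinAt
    fun_prop
  · intro t ht
    exact D.be_mem (hmem t ht.2)
  · filter_upwards [ae_shift g0.re hae] with x hx hxI
    obtain ⟨bb, hbb, hl⟩ := hx (by
      rw [abs_lt]
      constructor <;> linarith [hxI.1, hxI.2])
    have h1 := hlink _ bb hbb hl
    rw [sub_add_cancel] at h1
    rcases eq_or_eq_neg_of_abs_eq hbb with h2 | h2
    · left
      rwa [h2] at h1
    · right
      rwa [h2] at h1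
  · intro e s1 δ1 hδ1 hx
    filter_upwards [hae, ae_shift' g0.re hx] with s h1 h2 hs
    obtain ⟨bb, hbb, hl⟩ := h1 (by
      calc |s - s₀| = |(s - s1) + (s1 - s₀)| := by ring_nf
        _ ≤ |s - s1| + |s1 - s₀| := abs_add_le _ _
        _ < δ := by linarith)
    have h3 := h2 (by
      have := abs_lt.1 hs
      constructor <;> linarith [this.1, this.2])
    exact ⟨bb, tendsto_nhds_unique (hlink s bb hbb hl) h3, hl⟩

/-- not one edge near `s₀` ⟹ both edges are met on every small interval of the real slice -/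
theorem not_one {g : ℂ → ℂ} {u s₀ δ : ℝ} {g0 : ℂ} (U : ℝ)
    (hback : ∀ e s1 δ1 : ℝ, |s1 - s₀| + δ1 ≤ δ →
        (∀ᵐ x : ℝ, x ∈ Ioo (s1 + g0.re - δ1) (s1 + g0.re + δ1) → VLim b h ρ r u U x e) →
        ∀ᵐ s : ℝ, |s - s1| < δ1 → ∃ bb : ℂ, bb.im = e ∧
          ∀ M : ℝ, Tendsto (Bx b h ρ r g) (𝓝[Cn (s, u) M] ((s : ℂ), (u : ℂ))) (𝓝 bb))
    (hno : ¬ OneE (Bx b h ρ r g) h u s₀) :
    ∀ δ1 : ℝ, 0 < δ1 → δ1 ≤ δ →
      (¬ ∀ᵐ x : ℝ, x ∈ Ioo (s₀ + g0.re - δ1) (s₀ + g0.re + δ1) → VLim b h ρ r u U x h) ∧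
      ¬ ∀ᵐ x : ℝ, x ∈ Ioo (s₀ + g0.re - δ1) (s₀ + g0.re + δ1) → VLim b h ρ r u U x (-h) := by
  intro δ1 hδ1 hle
  constructor
  · intro hcon
    exact hno ⟨δ1, hδ1, h, Or.inl rfl, hback h s₀ δ1 (by simpa using hle) hcon⟩
  · intro hcon
    exact hno ⟨δ1, hδ1, -h, Or.inr rfl, hback (-h) s₀ δ1 (by simpa using hle) hcon⟩

end Crest.Agent.R102.Slice812
end
end

-- ▼ part R102/Bal_953
section

/-!
Row 102, T1-B, EDGE, leaf **BAL** (helper953): balanced points on the objects.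

If EDGE fails at `(u, s₀)` then arbitrarily near `s₀` there is `s` such that ALL small windows over
`(s, u)` have an interior label: `|Im B (ray (s,u) η)| ≤ h - c₂` for all small `η`, with `c₂`
depending on `(α, β, h)` only.
-/

set_option autoImplicit false

open Set Filter Topology Metric Complex MeasureTheory
open scoped Real ComplexConjugate

noncomputable section

namespace Crest.Agent.R102.Bal953

open Crest.Agent.R102.Sh982
open Crest.Agent.R102.GlueII559 (OL OX VV VV_of_Nn mem_of_lt_VV)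
open Crest.Agent.R102.PartII150 (ex ln Xe Le NTL exists_ntl Bx)
open Crest.Agent.R102.Slope845 (Expn)
open Crest.Agent.R102.Sup115 (HDu GoodU Dp)
open Crest.Agent.R102.S5 (Cn bl ray)
open Crest.Agent.R102.Out559 (OmL OmX Nn)
open Crest.Agent.R102.Exit812 (realball mem_SB_of cmp link)
open Crest.Agent.R102.Chain559 (OneE Shift GoodAt)
open Crest.Agent.R102.Kol953 (harnack Dm kolwin)

/-! ### Harnack in a half plane, two points of one window -/

/-- two points `z₁, z₂` with `‖z‖ ≤ A σ`, `Im z ≥ κ σ`; the disc of centre `i A² σ / κ` -/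
theorem hp {f : ℂ → ℂ} {A κ σ : ℝ} (hA : 0 < A) (hκ : 0 < κ) (hκA : κ ≤ A) (hσ : 0 < σ)
    (hf : DifferentiableOn ℂ f (closedBall (((A ^ 2 * σ / κ : ℝ) : ℂ) * I)
      (A ^ 2 * σ / κ - κ * σ / 4)))
    (hpos : ∀ z ∈ closedBall (((A ^ 2 * σ / κ : ℝ) : ℂ) * I) (A ^ 2 * σ / κ - κ * σ / 4),
      0 ≤ (f z).re) {z₁ z₂ : ℂ} (h1 : ‖z₁‖ ≤ A * σ) (h1' : κ * σ ≤ z₁.im)
    (h2 : ‖z₂‖ ≤ A * σ) (h2' : κ * σ ≤ z₂.im) :
    κ ^ 4 / (64 * A ^ 4) * (f z₁).re ≤ (f z₂).re := by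
  set P : ℝ := A ^ 2 * σ / κ with hP
  have hPp : 0 < P := by positivity
  have hPκ : P * (κ * σ) = A ^ 2 * σ ^ 2 := by rw [hP]; field_simp
  have hκP : κ * σ ≤ P := by
    rw [hP, le_div_iff₀ hκ]
    nlinarith [mul_le_mul hκA hκA hκ.le hA.le]
  have hR : 0 < P - κ * σ / 4 := by
    have : 0 < κ * σ := by positivity
    linarith
  have key : ∀ z : ℂ, ‖z‖ ≤ A * σ → κ * σ ≤ z.im → ‖z - (P : ℂ) * I‖ ≤ P - κ * σ / 2 := by
    intro z hz hz'
    have hn : ‖z‖ ^ 2 = z.re ^ 2 + z.im ^ 2 := by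
      rw [Complex.sq_norm, Complex.normSq_apply]; ring
    have hn2 : ‖z - (P : ℂ) * I‖ ^ 2 = z.re ^ 2 + (z.im - P) ^ 2 := by
      rw [Complex.sq_norm, Complex.normSq_apply]; simp; ring
    have hz2 : ‖z‖ ^ 2 ≤ (A * σ) ^ 2 := pow_le_pow_left₀ (norm_nonneg _) hz 2
    have h0 : 0 ≤ P - κ * σ / 2 := by
      have : 0 < κ * σ := by positivity
      linarith
    refine le_of_sq_le_sq ?_ h0
    rw [hn2]
    have e1 : P * (κ * σ) ≤ P * z.im := mul_le_mul_of_nonneg_left hz' hPp.le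
    have e2 : 0 ≤ (κ * σ) ^ 2 := by positivity
    nlinarith
  have hc : closure (ball ((P : ℂ) * I) (P - κ * σ / 4)) =
      closedBall ((P : ℂ) * I) (P - κ * σ / 4) := closure_ball _ hR.ne'
  have hd : DiffContOnCl ℂ f (ball ((P : ℂ) * I) (P - κ * σ / 4)) := by
    apply DifferentiableOn.diffContOnCl
    rw [hc]
    exact hf
  have k1 := key z₁ h1 h1'
  have k2 := key z₂ h2 h2'
  have hκσ : 0 < κ * σ := by positivity
  have m1 : z₁ ∈ ball ((P : ℂ) * I) (P - κ * σ / 4) := by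
    rw [mem_ball, dist_eq_norm]; linarith
  have m2 : z₂ ∈ ball ((P : ℂ) * I) (P - κ * σ / 4) := by
    rw [mem_ball, dist_eq_norm]; linarith
  have H := harnack hR hd (fun z hz => hpos z (sphere_subset_closedBall hz)) m2 m1
  have hre : 0 ≤ (f z₁).re := hpos z₁ (ball_subset_closedBall m1)
  have hk : κ ^ 4 / (64 * A ^ 4) ≤ (P - κ * σ / 4 - ‖z₂ - (P : ℂ) * I‖) *
      (P - κ * σ / 4 - ‖z₁ - (P : ℂ) * I‖) / (4 * (P - κ * σ / 4) ^ 2) := by
    rw [le_div_iff₀ (by positivity)]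
    calc κ ^ 4 / (64 * A ^ 4) * (4 * (P - κ * σ / 4) ^ 2)
        ≤ κ ^ 4 / (64 * A ^ 4) * (4 * P ^ 2) := by
          gcongr
          linarith
      _ = (κ * σ / 4) * (κ * σ / 4) := by rw [hP]; field_simp; ring
      _ ≤ _ := by
          apply mul_le_mul
          · linarith
          · linarith
          · positivity
          · linarith
  exact le_trans (mul_le_mul_of_nonneg_right hk hre) H

/-- the window in blow-up coordinates -/
def Win (A κ : ℝ) : Set (ℂ × ℂ) :=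
  {x | ‖x.1‖ ≤ A ∧ ‖x.2‖ ≤ A ∧ κ ≤ x.2.im ∧ x.1.im ≤ -κ}

/-- **two points of one window in the product domain** (function with nonnegative real part) -/
theorem prod_pos {P : ℂ × ℂ → ℂ} {u0 R d u s : ℝ}
    (hP : DifferentiableOn ℂ P (Dp u0 R d)) (hpos : ∀ q ∈ Dp u0 R d, 0 ≤ (P q).re)
    {A κ : ℝ} (hA : 0 < A) (hκ : 0 < κ) (hκA : κ ≤ A) {σ : ℝ} (hσ : 0 < σ)
    (hσd : 2 * (A ^ 2 * σ / κ) < d) (hσR : 2 * (A ^ 2 * σ / κ) < R - |u - u0|)
    {x x' : ℂ × ℂ} (hx : x ∈ Win A κ) (hx' : x' ∈ Win A κ) :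
    (κ ^ 4 / (64 * A ^ 4)) ^ 2 * (P (bl (s, u) σ x)).re ≤ (P (bl (s, u) σ x')).re := by
  set D : ℝ := A ^ 2 * σ / κ with hD
  have hDp : 0 < D := by positivity
  have hκσ : 0 < κ * σ := by positivity
  have hκD : κ * σ ≤ D := by
    rw [hD, le_div_iff₀ hκ]
    nlinarith [mul_le_mul hκA hκA hκ.le hA.le]
  have hAD : A * σ ≤ D := by
    rw [hD, le_div_iff₀ hκ]
    nlinarith [mul_le_mul_of_nonneg_left hκA hA.le]
  have hDpopen : IsOpen (Dp u0 R d) := by
    have e : Dp u0 R d = {q : ℂ × ℂ | -d < q.1.im} ∩ ({q | q.1.im < 0} ∩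
      ((fun q : ℂ × ℂ => q.2) ⁻¹' (ball (u0 : ℂ) R) ∩ {q | 0 < q.2.im})) := by
      ext q
      simp only [Sup115.Dp, Sup115.HDu, mem_ofPred_eq, mem_inter_iff, mem_preimage]
    rw [e]
    refine (isOpen_lt continuous_const (by fun_prop)).inter
      ((isOpen_lt (by fun_prop) continuous_const).inter
      ((isOpen_ball.preimage continuous_snd).inter (isOpen_lt continuous_const (by fun_prop))))
  -- membership
  have mem : ∀ τ ζ : ℂ, -(2 * D) < τ.im → τ.im < 0 → ‖ζ‖ < 2 * D → 0 < ζ.im →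
      (((s : ℂ) + τ, (u : ℂ) + ζ) : ℂ × ℂ) ∈ Dp u0 R d := by
    intro τ ζ h1 h2 h3 h4
    refine ⟨?_, ?_, ?_, ?_⟩
    · simp; linarith
    · simpa using h2
    · rw [mem_ball, dist_eq_norm]
      have : ((u : ℂ) + ζ) - (u0 : ℂ) = ((u - u0 : ℝ) : ℂ) + ζ := by push_cast; ring
      rw [this]
      refine (norm_add_le _ _).trans_lt ?_
      rw [Complex.norm_real, Real.norm_eq_abs]
      linarith
    · simpa using h4
  -- balls
  have cbIm : ∀ z ∈ closedBall ((D : ℂ) * I) (D - κ * σ / 4), 0 < z.im ∧ ‖z‖ < 2 * D ∧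
      z.im < 2 * D := by
    intro z hz
    rw [mem_closedBall, dist_eq_norm] at hz
    have e1 := (Complex.abs_im_le_norm _).trans hz
    simp at e1
    rw [abs_le] at e1
    refine ⟨by linarith [e1.1], ?_, by linarith [e1.2]⟩
    calc ‖z‖ = ‖(z - (D : ℂ) * I) + (D : ℂ) * I‖ := by ring_nf
      _ ≤ ‖z - (D : ℂ) * I‖ + ‖(D : ℂ) * I‖ := norm_add_le _ _
      _ ≤ (D - κ * σ / 4) + D := by
          have : ‖(D : ℂ) * I‖ = D := by
            rw [norm_mul, Complex.norm_I, mul_one, Complex.norm_real, Real.norm_of_nonneg hDp.le]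
          linarith
      _ < 2 * D := by linarith
  obtain ⟨a1, a2, a3, a4⟩ := hx
  obtain ⟨b1, b2, b3, b4⟩ := hx'
  have nσ : ∀ z : ℂ, ‖z‖ ≤ A → ‖(σ : ℂ) * z‖ ≤ A * σ := by
    intro z hz
    rw [norm_mul, Complex.norm_real, Real.norm_of_nonneg hσ.le, mul_comm]
    gcongr
  have iσ : ∀ z : ℂ, ((σ : ℂ) * z).im = σ * z.im := by intro z; simp
  -- step 1: move `w`
  have s1 : κ ^ 4 / (64 * A ^ 4) * (P ((s : ℂ) + σ * x.1, (u : ℂ) + σ * x.2)).re ≤
      (P ((s : ℂ) + σ * x.1, (u : ℂ) + σ * x'.2)).re := by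
    have t1 : -(2 * D) < ((σ : ℂ) * x.1).im := by
      have h3 := (Complex.abs_im_le_norm ((σ : ℂ) * x.1)).trans (nσ _ a1)
      have h4 := (abs_le.1 h3).1
      linarith
    have t2 : ((σ : ℂ) * x.1).im < 0 := by rw [iσ]; nlinarith
    refine hp (f := fun ζ => P ((s : ℂ) + σ * x.1, (u : ℂ) + ζ)) hA hκ hκA hσ ?_ ?_ (nσ _ a2)
      (by rw [iσ]; nlinarith) (nσ _ b2) (by rw [iσ]; nlinarith)
    · intro ζ hζ
      obtain ⟨c1, c2, c3⟩ := cbIm ζ hζ
      have hm := mem _ ζ t1 t2 c2 c1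
      refine (DifferentiableAt.comp (g := P)
        (f := fun ζ : ℂ => (((s : ℂ) + σ * x.1, (u : ℂ) + ζ) : ℂ × ℂ)) ζ
        ((hP _ hm).differentiableAt (hDpopen.mem_nhds hm)) ?_).differentiableWithinAt
      fun_prop
    · intro ζ hζ
      obtain ⟨c1, c2, c3⟩ := cbIm ζ hζ
      exact hpos _ (mem _ ζ t1 t2 c2 c1)
  -- step 2: move `t`
  have s2 : κ ^ 4 / (64 * A ^ 4) * (P ((s : ℂ) + σ * x.1, (u : ℂ) + σ * x'.2)).re ≤
      (P ((s : ℂ) + σ * x'.1, (u : ℂ) + σ * x'.2)).re := by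
    have t1 : ‖(σ : ℂ) * x'.2‖ < 2 * D := by
      have := nσ _ b2
      linarith
    have t2 : 0 < ((σ : ℂ) * x'.2).im := by rw [iσ]; nlinarith
    have h5 := hp (f := fun ζ => P ((s : ℂ) - ζ, (u : ℂ) + σ * x'.2)) (z₁ := -((σ : ℂ) * x.1))
      (z₂ := -((σ : ℂ) * x'.1)) hA hκ hκA hσ ?_ ?_ (by rw [norm_neg]; exact nσ _ a1)
      (by rw [neg_im, iσ]; nlinarith) (by rw [norm_neg]; exact nσ _ b1)
      (by rw [neg_im, iσ]; nlinarith)
    · simpa only [sub_neg_eq_add] using h5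
    · intro ζ hζ
      obtain ⟨c1, c2, c3⟩ := cbIm ζ hζ
      have hm := mem (-ζ) _ (by rw [neg_im]; linarith) (by rw [neg_im]; linarith) t1 t2
      rw [← sub_eq_add_neg] at hm
      refine (DifferentiableAt.comp (g := P)
        (f := fun ζ : ℂ => (((s : ℂ) - ζ, (u : ℂ) + σ * x'.2) : ℂ × ℂ)) ζ
        ((hP _ hm).differentiableAt (hDpopen.mem_nhds hm)) ?_).differentiableWithinAt
      fun_prop
    · intro ζ hζ
      obtain ⟨c1, c2, c3⟩ := cbIm ζ hζ
      have hm := mem (-ζ) _ (by rw [neg_im]; linarith) (by rw [neg_im]; linarith) t1 t2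
      rw [← sub_eq_add_neg] at hm
      exact hpos _ hm
  have hk : 0 ≤ κ ^ 4 / (64 * A ^ 4) := by positivity
  calc (κ ^ 4 / (64 * A ^ 4)) ^ 2 * (P (bl (s, u) σ x)).re
      = κ ^ 4 / (64 * A ^ 4) *
        (κ ^ 4 / (64 * A ^ 4) * (P ((s : ℂ) + σ * x.1, (u : ℂ) + σ * x.2)).re) := by
        simp only [bl]; ring
    _ ≤ κ ^ 4 / (64 * A ^ 4) * (P ((s : ℂ) + σ * x.1, (u : ℂ) + σ * x'.2)).re :=
        mul_le_mul_of_nonneg_left s1 hk
    _ ≤ _ := s2

/-- **two points of one window, label form** -/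
theorem prod_label {B : ℂ × ℂ → ℂ} {u0 R d u s h : ℝ}
    (hB : DifferentiableOn ℂ B (Dp u0 R d)) (hb : ∀ q ∈ Dp u0 R d, |(B q).im| < h)
    {A κ : ℝ} (hA : 0 < A) (hκ : 0 < κ) (hκA : κ ≤ A) {σ : ℝ} (hσ : 0 < σ)
    (hσd : 2 * (A ^ 2 * σ / κ) < d) (hσR : 2 * (A ^ 2 * σ / κ) < R - |u - u0|)
    {x x' : ℂ × ℂ} (hx : x ∈ Win A κ) (hx' : x' ∈ Win A κ) :
    (κ ^ 4 / (64 * A ^ 4)) ^ 2 * (h - (B (bl (s, u) σ x)).im) ≤ h - (B (bl (s, u) σ x')).im ∧
    (κ ^ 4 / (64 * A ^ 4)) ^ 2 * (h + (B (bl (s, u) σ x)).im) ≤ h + (B (bl (s, u) σ x')).im := by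
  have e1 : ∀ y : ℂ, ((h : ℂ) + I * y).re = h - y.im := fun y => by simp; ring
  have e2 : ∀ y : ℂ, ((h : ℂ) - I * y).re = h + y.im := fun y => by simp
  constructor
  · have := prod_pos (s := s) (P := fun q => (h : ℂ) + I * B q) ((hB.const_mul I).const_add _)
      (fun q hq => by rw [e1]; linarith [(abs_lt.1 (hb q hq)).2]) hA hκ hκA hσ hσd hσR hx hx'
    simpa only [e1] using this
  · have := prod_pos (s := s) (P := fun q => (h : ℂ) - I * B q) ((hB.const_mul I).const_sub _)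
      (fun q hq => by rw [e2]; linarith [(abs_lt.1 (hb q hq)).1]) hA hκ hκA hσ hσd hσR hx hx'
    simpa only [e2] using this

/-! ### the objects -/

section Obj

variable {q : C(ℂ, ℂ)} {η ρ r Bc : ℝ} {b φ p : ℂ × ℂ → ℂ} {m₀ : ℂ → ℂ} {h : ℝ} {ψ H : ℂ → ℂ}

theorem ex_mem (D : Sh982.Dat q η ρ r Bc b φ p m₀ h ψ H) {g : ℂ → ℂ} {u0 R d : ℝ}
    (hS : Shift b φ p h ρ r u0 R d g) {x : ℂ × ℂ} (hx : x ∈ Dp u0 R d) :
    ex g x ∈ SB b h ρ r := by
  obtain ⟨h1, h2, h3⟩ := hx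
  have hρ := D.ρ_pos
  have hw : ‖x.2‖ < r := by simpa using hS.ball_sub h3.1
  have e : (x.1 + g x.2).im = x.1.im + (g x.2).im := by simp
  have k1 := hS.im_nonneg x.2 h3
  have k2 := hS.im_le x.2 h3
  have k3 := hS.d_le
  exact (mem_SB_of D hw (by rw [e]; linarith) (by rw [e]; linarith)).1

theorem bx_diff (D : Sh982.Dat q η ρ r Bc b φ p m₀ h ψ H) {g : ℂ → ℂ} {u0 R d : ℝ}
    (hS : Shift b φ p h ρ r u0 R d g) : DifferentiableOn ℂ (Bx b h ρ r g) (Dp u0 R d) := by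
  intro x hx
  have hHo : IsOpen (HDu u0 R) :=
    isOpen_ball.inter (isOpen_lt continuous_const Complex.continuous_im)
  have hgd : DifferentiableAt ℂ g x.2 := (hS.diff x.2 hx.2.2).differentiableAt
    (hHo.mem_nhds hx.2.2)
  have h1 := (D.be_an _ (ex_mem D hS hx)).differentiableAt
  have h2 : DifferentiableAt ℂ (ex g) x := by
    have h3 : DifferentiableAt ℂ (fun q : ℂ × ℂ => g q.2) x :=
      DifferentiableAt.comp (g := g) (f := fun q : ℂ × ℂ => q.2) x hgd differentiableAt_snd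
    exact (differentiableAt_fst.add h3).prodMk differentiableAt_snd
  exact (DifferentiableAt.comp (g := be b h ρ r) (f := ex g) x h1 h2).differentiableWithinAt

theorem bx_im (D : Sh982.Dat q η ρ r Bc b φ p m₀ h ψ H) {g : ℂ → ℂ} {u0 R d : ℝ}
    (hS : Shift b φ p h ρ r u0 R d g) : ∀ x ∈ Dp u0 R d, |(Bx b h ρ r g x).im| < h :=
  fun _ hx => D.be_mem (ex_mem D hS hx)

/-- **BAL**: balanced points on the objects, with the nondegeneracy (NF) -/
theorem bal (D : Sh982.Dat q η ρ r Bc b φ p m₀ h ψ H) {g : ℂ → ℂ}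
    {u0 R d u α β s₀ a₀ c : ℝ} (hS : Shift b φ p h ρ r u0 R d g)
    (hG : GoodAt b φ p h ρ r u0 R d g u α β s₀ a₀ c)
    (hSup : Slice812.SupAt (Bx b h ρ r g) h u s₀) (hno : ¬ OneE (Bx b h ρ r g) h u s₀)
    {y : ℂ → ℂ} (hy : DifferentiableOn ℂ y (T5.Str h)) (hper : ∀ z ∈ T5.Str h, y (z + 1) = y z)
    (hne : ∃ z ∈ T5.Str h, y z ≠ 0) :
    ∃ c₂ > 0, ∃ d₂ > 0, ∃ g₂ > 0, ∀ δ > 0, ∃ s : ℝ, |s - s₀| < δ ∧ ∃ η₀ > 0, ∀ σ : ℝ, 0 < σ →
      σ < η₀ → |(Bx b h ρ r g (ray (s, u) σ)).im| ≤ h - c₂ ∧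
      ∀ b0 ∈ T5.Str h, y b0 = 0 → ∃ Q : ℂ × ℂ, ‖Q.1‖ ≤ 4 ∧ ‖Q.2‖ ≤ 1 ∧ d₂ ≤ Q.2.im ∧
        Q.1.im ≤ -d₂ ∧ g₂ ≤ |(Bx b h ρ r g (bl (s, u) σ Q)).im - b0.im| := by
  have hh : 0 < h := D.h_pos
  have hρ := D.ρ_pos
  obtain ⟨v0, g1, hv0, hg1, hg1h, hheights⟩ := SliceWin408.heights hh hy hper hne
  have huB : (u : ℂ) ∈ ball (u0 : ℂ) R := by
    rw [mem_ball, dist_eq_norm, ← Complex.ofReal_sub, Complex.norm_real, Real.norm_eq_abs, abs_lt]
    constructor <;> linarith [hG.mem.1, hG.mem.2]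
  have hur : |u| < r := by simpa using hS.ball_sub huB
  obtain ⟨g0, hg0, hg, hV0, δ₀, hδ₀, hβ, hb, hlim, hback⟩ := Slice812.slice D hS hG hSup
  have hnot := Slice812.not_one (b := b) (h := h) (ρ := ρ) (r := r) (VV b φ p h ρ r u) hback hno
  -- transfer
  obtain ⟨dw, hdw, ηw, hηw, hwin⟩ := SliceWin408.slice_win D hur hV0 hG.expn hg hg0
    (ε := 1) (g1 := h / 2 ^ 77) one_pos le_rfl (by positivity)
  obtain ⟨dn, hdn, ηn, hηn, hnf⟩ := SliceWin408.nf_obj D hur hV0 hG.expn hg hg0 (v0 := v0)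
    hg1 hg1h
  set κ : ℝ := min dw (1 / 4) with hκ
  have hκ0 : 0 < κ := lt_min hdw (by norm_num)
  have hκw : κ ≤ dw := min_le_left _ _
  have hκ4 : κ ≤ 1 / 4 := min_le_right _ _
  set K : ℝ := (κ ^ 4 / (64 * 4 ^ 4)) ^ 2 with hK
  have hK0 : 0 < K := by positivity
  have huR : 0 < R - |u - u0| := by
    have : |u - u0| < R := by rw [abs_lt]; constructor <;> linarith [hG.mem.1, hG.mem.2]
    linarith
  have hBd := bx_diff D hS
  have hBi := bx_im D hS
  refine ⟨K * (h / 2 ^ 77), by positivity, dn, hdn, g1 / 2, by positivity, fun δ hδ => ?_⟩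
  set δ₁ : ℝ := min δ δ₀ with hδ₁
  have hδ₁0 : 0 < δ₁ := lt_min hδ hδ₀
  have hsub : Dm (s₀ + g0.re - δ₁) (s₀ + g0.re + δ₁) (VV b φ p h ρ r u)
      (ρ / 2 + VV b φ p h ρ r u) ⊆ Dm (s₀ + g0.re - δ₀) (s₀ + g0.re + δ₀) (VV b φ p h ρ r u)
      (ρ / 2 + VV b φ p h ρ r u) := by
    intro t ht
    have k1 : δ₁ ≤ δ₀ := min_le_right _ _
    exact ⟨⟨by linarith [ht.1.1], by linarith [ht.1.2]⟩, ht.2⟩
  obtain ⟨n1, n2⟩ := hnot δ₁ hδ₁0 (min_le_right _ _)
  have hlim₁ : ∀ᵐ x : ℝ, x ∈ Ioo (s₀ + g0.re - δ₁) (s₀ + g0.re + δ₁) →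
      Slice812.VLim b h ρ r u (VV b φ p h ρ r u) x h ∨
        Slice812.VLim b h ρ r u (VV b φ p h ρ r u) x (-h) := by
    filter_upwards [hlim] with x hx hxI
    have k1 : δ₁ ≤ δ₀ := min_le_right _ _
    exact hx ⟨by linarith [hxI.1], by linarith [hxI.2]⟩
  obtain ⟨x0, hx0, sx, hsx, -, -, -, hint, -, hNF⟩ := KolX408.kolx (v0 := v0) hh
    (show 0 < ρ / 2 + VV b φ p h ρ r u by linarith) hv0 (hβ.mono hsub)
    (fun z hz => hb z (hsub hz)) hlim₁ n1 n2
  refine ⟨x0 - g0.re, ?_, ?_⟩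
  · rw [abs_lt]
    have k1 : δ₁ ≤ δ := min_le_left _ _
    constructor <;> linarith [hx0.1, hx0.2]
  set sS : ℝ := x0 - g0.re with hsS
  have hxs : sS + g0.re = x0 := by rw [hsS]; ring
  refine ⟨min (min ηw ηn) (min sx (min (κ * d / 64) (κ * (R - |u - u0|) / 64))), ?_, ?_⟩
  · have := hS.d_pos
    exact lt_min (lt_min hηw hηn) (lt_min hsx (lt_min (by positivity) (by positivity)))
  intro σ hσ hσ0
  have m1 : σ < ηw := hσ0.trans_le ((min_le_left _ _).trans (min_le_left _ _))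
  have m2 : σ < ηn := hσ0.trans_le ((min_le_left _ _).trans (min_le_right _ _))
  have m3 : σ < sx := hσ0.trans_le ((min_le_right _ _).trans (min_le_left _ _))
  have m4 : σ < κ * d / 64 :=
    hσ0.trans_le ((min_le_right _ _).trans ((min_le_right _ _).trans (min_le_left _ _)))
  have m5 : σ < κ * (R - |u - u0|) / 64 :=
    hσ0.trans_le ((min_le_right _ _).trans ((min_le_right _ _).trans (min_le_right _ _)))
  constructor
  · obtain ⟨Q, q1, q2, q3, q4, q5⟩ := hwin sS σ hσ m1 x0 σ (by rw [hxs]; simpa using hσ.le)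
      (by linarith) le_rfl
    have k1 := hint σ hσ m3.le
    have k1' : |(be b h ρ r ((x0 : ℂ) + ((VV b φ p h ρ r u - σ : ℝ) : ℂ) * I, (u : ℂ))).im| ≤
      h - h / 2 ^ 76 := k1
    have k2 := (Complex.abs_im_le_norm _).trans q5
    rw [Complex.sub_im] at k2
    have k3 := abs_le.1 k1'
    have k4 := abs_le.1 k2
    have e76 : h / 2 ^ 76 = h / 2 ^ 77 + h / 2 ^ 77 := by ring
    have hQ : Q ∈ Win 4 κ := ⟨q1, q2.trans (by norm_num), hκw.trans q3, by linarith⟩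
    have hR : ((-I, I / 4) : ℂ × ℂ) ∈ Win 4 κ := by
      refine ⟨by simp, ?_, ?_, ?_⟩
      · simp; norm_num
      · have : ((I : ℂ) / 4).im = 1 / 4 := by
          rw [show (I : ℂ) / 4 = ((1 / 4 : ℝ) : ℂ) * I by push_cast; ring]
          simp
        simpa [this] using hκ4
      · simp; linarith
    have hd1 : 2 * ((4 : ℝ) ^ 2 * σ / κ) < d := by
      rw [mul_div_assoc', div_lt_iff₀ hκ0]
      linarith
    have hd2 : 2 * ((4 : ℝ) ^ 2 * σ / κ) < R - |u - u0| := by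
      rw [mul_div_assoc', div_lt_iff₀ hκ0]
      linarith
    obtain ⟨t1, t2⟩ := prod_label (s := sS) (u := u) hBd hBi (A := 4) (by norm_num) hκ0
      (by linarith) hσ hd1 hd2 hQ hR
    rw [← hK] at t1 t2
    have t3 : h / 2 ^ 77 ≤ h - (Bx b h ρ r g (bl (sS, u) σ Q)).im := by
      linarith [k4.1, k3.2]
    have t4 : h / 2 ^ 77 ≤ h + (Bx b h ρ r g (bl (sS, u) σ Q)).im := by
      linarith [k4.2, k3.1]
    have t5 := mul_le_mul_of_nonneg_left t3 hK0.le
    have t6 := mul_le_mul_of_nonneg_left t4 hK0.le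
    have e : ray (sS, u) σ = bl (sS, u) σ (-I, I / 4) := rfl
    rw [e, abs_le]
    constructor
    · linarith
    · linarith
  · intro b0 hb0 hyb
    obtain ⟨Q, q1, q2, q3, q4, -, q6⟩ := hnf sS sx (by
      intro v1 hv1 sc hsc hsc'
      rw [hxs]
      exact hNF g1 hg1 hg1h v1 hv1 sc hsc hsc') σ hσ m2 m3.le b0 (hheights b0 hb0 hyb)
    exact ⟨Q, q1, q2, q3, q4, q6⟩

end Obj

end Crest.Agent.R102.Bal953
end
end

-- ▼ part R102/BalC_953
section

/-!
Row 102, T1-B, EDGE, leaf **BAL**, compactness step (helper953): windows with interior label which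
are not frozen at a zero of `y` have a point near the base point where `|y(B)|` is bounded below.
-/

set_option autoImplicit false

open Set Filter Topology Metric Complex

noncomputable section

namespace Crest.Agent.R102.BalC953

open Crest.Agent.R102.Sup115 (HDu Dp)
open Crest.Agent.R102.S5 (bl ray)
open Crest.Agent.R102.Side426 (PB side_depth side_dist KA KA_pos LA)

/-- the quarter -/
def Qd : Set (ℂ × ℂ) := {z : ℂ | z.im < 0} ×ˢ {z : ℂ | 0 < z.im}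

theorem mem_Qd {q : ℂ × ℂ} : q ∈ Qd ↔ q.1.im < 0 ∧ 0 < q.2.im := Iff.rfl

theorem isOpen_Qd : IsOpen Qd :=
  (isOpen_lt continuous_im continuous_const).prod (isOpen_lt continuous_const continuous_im)

theorem convex_Qd : Convex ℝ Qd := (convex_halfSpace_im_lt 0).prod (convex_halfSpace_im_gt 0)

theorem compact_bounds {K : Set (ℂ × ℂ)} (hK : IsCompact K) (hKQ : K ⊆ Qd) :
    ∃ A δ : ℝ, 1 ≤ A ∧ 0 < δ ∧ δ ≤ 1 ∧ ∀ q ∈ K, ‖q.1‖ ≤ A ∧ ‖q.2‖ ≤ A ∧ δ ≤ -q.1.im ∧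
      δ ≤ q.2.im := by
  obtain ⟨A, hA⟩ := hK.isBounded.exists_norm_le
  have hc : ContinuousOn (fun q : ℂ × ℂ => min (-q.1.im) q.2.im) K := by fun_prop
  rcases K.eq_empty_or_nonempty with rfl | hne
  · exact ⟨1, 1, le_rfl, one_pos, le_rfl, fun q hq => absurd hq (notMem_empty q)⟩
  obtain ⟨q0, hq0, hmin⟩ := hK.exists_isMinOn hne hc
  have h0 := hKQ hq0
  have hpos : 0 < min (-q0.1.im) q0.2.im :=
    lt_min (by linarith [(mem_Qd.1 h0).1]) (mem_Qd.1 h0).2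
  refine ⟨max 1 A, min 1 (min (-q0.1.im) q0.2.im), le_max_left _ _, lt_min one_pos hpos,
    min_le_left _ _, fun q hq => ?_⟩
  have h1 := hA q hq
  have h2 : min (-q0.1.im) q0.2.im ≤ min (-q.1.im) q.2.im := hmin hq
  refine ⟨(norm_fst_le q).trans (h1.trans (le_max_right _ _)),
    (norm_snd_le q).trans (h1.trans (le_max_right _ _)),
    (min_le_right _ _).trans (h2.trans (min_le_left _ _)),
    (min_le_right _ _).trans (h2.trans (min_le_right _ _))⟩

theorem per_int {y : ℂ → ℂ} {h : ℝ} (hper : ∀ z : ℂ, |z.im| < h → y (z + 1) = y z) (m : ℤ) :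
    ∀ z : ℂ, |z.im| < h → y (z + m) = y z := by
  induction m using Int.induction_on with
  | zero => intro z _; simp
  | succ i ih =>
    intro z hz
    have h1 := hper (z + (i : ℤ)) (by simpa using hz)
    have h2 := ih z hz
    push_cast at h1 h2 ⊢
    rw [← add_assoc, h1, h2]
  | pred i ih =>
    intro z hz
    have h1 := hper (z + ((-(i : ℤ) - 1 : ℤ) : ℂ)) (by simpa using hz)
    have h2 := ih z hz
    rw [← h1, ← h2]
    congr 1
    push_cast
    ring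

/-- a holomorphic function on the quarter which is locally constant at one point is constant -/
theorem const_of_eventually {g : ℂ × ℂ → ℂ} (hg : DifferentiableOn ℂ g Qd) {z₀ : ℂ × ℂ}
    (hz₀ : z₀ ∈ Qd) {b : ℂ} (he : ∀ᶠ q in 𝓝 z₀, g q = b) : ∀ Q ∈ Qd, g Q = b := by
  intro Q hQ
  set L : ℂ →ᵃ[ℂ] (ℂ × ℂ) := AffineMap.lineMap z₀ Q with hL
  have hLc : Differentiable ℂ (fun t : ℂ => L t) := by
    have : (fun t : ℂ => L t) = fun t : ℂ => t • (Q - z₀) + z₀ := by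
      ext1 t
      rw [hL, AffineMap.lineMap_apply]
      rfl
    rw [this]
    fun_prop
  set T : Set ℂ := (fun t : ℂ => L t) ⁻¹' Qd with hT
  have hTo : IsOpen T := isOpen_Qd.preimage hLc.continuous
  have hTc : Convex ℝ T := by
    intro t₁ h₁ t₂ h₂ a b ha hb hab
    show L (a • t₁ + b • t₂) ∈ Qd
    have e : L (a • t₁ + b • t₂) = a • L t₁ + b • L t₂ := by
      rw [hL, AffineMap.lineMap_apply_module', AffineMap.lineMap_apply_module',
        AffineMap.lineMap_apply_module', add_smul, smul_assoc, smul_assoc, smul_add, smul_add]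
      have h5 : a • z₀ + b • z₀ = z₀ := by rw [← add_smul, hab, one_smul]
      calc a • t₁ • (Q - z₀) + b • t₂ • (Q - z₀) + z₀
          = a • t₁ • (Q - z₀) + b • t₂ • (Q - z₀) + (a • z₀ + b • z₀) := by rw [h5]
        _ = _ := by abel
    rw [e]
    exact convex_Qd h₁ h₂ ha hb hab
  have hF : DifferentiableOn ℂ (fun t : ℂ => g (L t)) T :=
    hg.comp hLc.differentiableOn (fun t ht => ht)
  have h0 : (0 : ℂ) ∈ T := by
    rw [hT, mem_preimage, hL, AffineMap.lineMap_apply_zero]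
    exact hz₀
  have h1 : (1 : ℂ) ∈ T := by
    rw [hT, mem_preimage, hL, AffineMap.lineMap_apply_one]
    exact hQ
  have he' : (fun t : ℂ => g (L t)) =ᶠ[𝓝 0] fun _ => b := by
    have hc : Tendsto (fun t : ℂ => L t) (𝓝 0) (𝓝 z₀) := by
      have := hLc.continuous.tendsto 0
      rwa [hL, AffineMap.lineMap_apply_zero] at this
    exact hc.eventually he
  have := (hF.analyticOnNhd hTo).eqOn_of_preconnected_of_eventuallyEq analyticOnNhd_const
    hTc.isPreconnected h0 he' h1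
  simpa [hL, AffineMap.lineMap_apply_one] using this

theorem PB_subset {u0 R d u x : ℝ} : PB (x, u) (min d (R - |u - u0|)) ⊆ Dp u0 R d := by
  rintro q ⟨h1, h2, h3, h4⟩
  have k1 : min d (R - |u - u0|) ≤ d := min_le_left _ _
  have k2 : min d (R - |u - u0|) ≤ R - |u - u0| := min_le_right _ _
  have e1 := (Complex.abs_im_le_norm _).trans_lt h1
  simp only [sub_im, ofReal_im, sub_zero] at e1
  refine ⟨by linarith [(abs_lt.1 e1).1], h3, ?_, h4⟩
  rw [mem_ball, dist_eq_norm]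
  have : q.2 - (u0 : ℂ) = (q.2 - (u : ℂ)) + ((u - u0 : ℝ) : ℂ) := by push_cast; ring
  rw [this]
  refine (norm_add_le _ _).trans_lt ?_
  rw [Complex.norm_real, Real.norm_eq_abs]
  linarith

/-- **the compactness step** -/
theorem nondeg {u0 R d h u : ℝ} {B : ℂ × ℂ → ℂ} {y : ℂ → ℂ} (hh : 0 < h) (hd : 0 < d)
    (hu : |u - u0| < R) (hB : DifferentiableOn ℂ B (Dp u0 R d))
    (hb : ∀ q ∈ Dp u0 R d, |(B q).im| < h)
    (hy : DifferentiableOn ℂ y {z : ℂ | |z.im| < h})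
    (hper : ∀ z : ℂ, |z.im| < h → y (z + 1) = y z) (hne : ∃ z : ℂ, |z.im| < h ∧ y z ≠ 0)
    {c₂ d₂ g₂ : ℝ} (hc₂ : 0 < c₂) (hd₂ : 0 < d₂) (hg₂ : 0 < g₂) {x s : ℕ → ℝ}
    (hs : ∀ n, 0 < s n) (hs0 : Tendsto s atTop (𝓝 0))
    (hint : ∀ n, |(B (ray (x n, u) (s n))).im| ≤ h - c₂)
    (hNF : ∀ n, ∀ b0 : ℂ, |b0.im| < h → y b0 = 0 → ∃ Q : ℂ × ℂ, ‖Q.1‖ ≤ 4 ∧ ‖Q.2‖ ≤ 1 ∧
      d₂ ≤ Q.2.im ∧ Q.1.im ≤ -d₂ ∧ g₂ ≤ |(B (bl (x n, u) (s n) Q)).im - b0.im|)
    (hsm : ∀ n, ∀ q ∈ closedBall ((-I, I / 4) : ℂ × ℂ) (1 / 10),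
      ‖y (B (bl (x n, u) (s n) q))‖ < 1 / ((n : ℝ) + 1)) : False := by
  classical
  set ρ : ℝ := min d (R - |u - u0|) with hρ
  have hρ0 : 0 < ρ := lt_min hd (by linarith)
  set m : ℕ → ℤ := fun n => ⌊(B (ray (x n, u) (s n))).re⌋ with hm
  set f : ℕ → ℂ × ℂ → ℂ := fun n q => B (bl (x n, u) (s n) q) - (m n : ℂ) with hf
  set D : ℕ → Set (ℂ × ℂ) := fun n => {q | bl (x n, u) (s n) q ∈ PB (x n, u) ρ} with hD
  have hBP : ∀ n, DifferentiableOn ℂ B (PB (x n, u) ρ) := fun n => hB.mono PB_subset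
  have hbP : ∀ n, ∀ q ∈ PB (x n, u) ρ, |(B q).im| < h := fun n q hq => hb q (PB_subset hq)
  have hfd : ∀ n, DifferentiableOn ℂ (f n) (D n) := by
    intro n
    refine DifferentiableOn.sub_const ?_ _
    refine (hBP n).comp ?_ (fun q hq => hq)
    unfold bl
    fun_prop
  have bl1 : ∀ n q, (bl (x n, u) (s n) q).1 - (((x n, u) : ℝ × ℝ).1 : ℂ) = (s n : ℂ) * q.1 := by
    intro n q; simp [bl]
  have bl2 : ∀ n q, (bl (x n, u) (s n) q).2 - (((x n, u) : ℝ × ℝ).2 : ℂ) = (s n : ℂ) * q.2 := by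
    intro n q; simp [bl]
  have nrm : ∀ n, ∀ z : ℂ, ‖(s n : ℂ) * z‖ = s n * ‖z‖ := by
    intro n z
    rw [norm_mul, Complex.norm_real, Real.norm_of_nonneg (hs n).le]
  have imb1 : ∀ n q, (bl (x n, u) (s n) q).1.im = s n * q.1.im := by
    intro n q; simp [bl]
  have imb2 : ∀ n q, (bl (x n, u) (s n) q).2.im = s n * q.2.im := by
    intro n q; simp [bl]
  -- uniform facts on compacts
  have hev : ∀ A : ℝ, 0 < A → ∀ᶠ n in atTop, 5 * (A * s n) ≤ ρ ∧ A * s n < ρ := by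
    intro A hA
    have h1 : Tendsto (fun n => 5 * (A * s n)) atTop (𝓝 (5 * (A * 0))) :=
      (hs0.const_mul A).const_mul 5
    rw [mul_zero, mul_zero] at h1
    filter_upwards [h1.eventually (gt_mem_nhds hρ0)] with n hn
    have : 0 < A * s n := mul_pos hA (hs n)
    exact ⟨hn.le, by linarith⟩
  have hDK : ∀ K ⊆ Qd, IsCompact K → ∀ᶠ n in atTop, K ⊆ D n := by
    intro K hK hKc
    obtain ⟨A, δ, hA, hδ, hδ1, hb4⟩ := compact_bounds hKc hK
    filter_upwards [hev A (by linarith)] with n hn q hq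
    obtain ⟨a1, a2, a3, a4⟩ := hb4 q hq
    refine ⟨?_, ?_, ?_, ?_⟩
    · rw [bl1, nrm]
      exact lt_of_le_of_lt (by nlinarith [hs n]) hn.2
    · rw [bl2, nrm]
      exact lt_of_le_of_lt (by nlinarith [hs n]) hn.2
    · rw [imb1]; nlinarith [hs n]
    · rw [imb2]; nlinarith [hs n]
  have hbd : ∀ K ⊆ Qd, IsCompact K → ∃ C : ℝ, ∀ᶠ n in atTop, ∀ q ∈ K, ‖f n q‖ ≤ C := by
    intro K hK hKc
    obtain ⟨A, δ, hA, hδ, hδ1, hb4⟩ := compact_bounds hKc hK
    refine ⟨LA A * h * (1 + Real.log (1 / δ)) + (1 + h), ?_⟩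
    filter_upwards [hev A (by linarith)] with n hn q hq
    obtain ⟨a1, a2, a3, a4⟩ := hb4 q hq
    have h1 := side_dist (e := (x n, u)) (ρ := ρ) (B := B) hA (hs n) hn.1 hδ hδ1 hh (hBP n) (hbP n)
      (q := bl (x n, u) (s n) q) (by rw [bl1, nrm]; nlinarith [hs n])
      (by rw [bl2, nrm]; nlinarith [hs n]) (by rw [imb1]; nlinarith [hs n])
      (by rw [imb2]; nlinarith [hs n])
    have h2 : ‖B (ray (x n, u) (s n)) - (m n : ℂ)‖ ≤ 1 + h := by
      refine (Complex.norm_le_abs_re_add_abs_im _).trans ?_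
      have e1 : (B (ray (x n, u) (s n)) - (m n : ℂ)).re =
          Int.fract (B (ray (x n, u) (s n))).re := by
        rw [sub_re, Complex.intCast_re]
        rfl
      have e2 : (B (ray (x n, u) (s n)) - (m n : ℂ)).im = (B (ray (x n, u) (s n))).im := by
        rw [sub_im, Complex.intCast_im, sub_zero]
      rw [e1, e2, abs_of_nonneg (Int.fract_nonneg _)]
      linarith [(Int.fract_lt_one (B (ray (x n, u) (s n))).re).le, hint n]
    have e3 : f n q = (B (bl (x n, u) (s n) q) - B (ray (x n, u) (s n))) +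
        (B (ray (x n, u) (s n)) - (m n : ℂ)) := by rw [hf]; ring
    rw [e3]
    exact (norm_add_le _ _).trans (add_le_add h1 h2)
  obtain ⟨φ, hφ, g, hg, hlim⟩ := Limits151.montel_exh1 isOpen_Qd hfd hDK hbd
  have hz0 : ((-I, I / 4) : ℂ × ℂ) ∈ Qd := by
    rw [mem_Qd]
    have e : ((I : ℂ) / 4).im = 1 / 4 := by
      rw [show (I : ℂ) / 4 = ((1 / 4 : ℝ) : ℂ) * I by push_cast; ring]
      simp
    simp only [e, neg_im, I_im]
    norm_num
  -- the closed ball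
  have hball : ∀ q ∈ closedBall ((-I, I / 4) : ℂ × ℂ) (1 / 10), ‖q.1‖ ≤ 2 ∧ ‖q.2‖ ≤ 2 ∧
      (1 / 10 : ℝ) ≤ -q.1.im ∧ (1 / 10 : ℝ) ≤ q.2.im := by
    intro q hq
    rw [mem_closedBall, dist_eq_norm] at hq
    have a1 := (norm_fst_le _).trans hq
    have a2 := (norm_snd_le _).trans hq
    simp only [Prod.fst_sub, Prod.snd_sub] at a1 a2
    have b1 := (Complex.abs_im_le_norm _).trans a1
    have b2 := (Complex.abs_im_le_norm _).trans a2
    have e : ((I : ℂ) / 4).im = 1 / 4 := by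
      rw [show (I : ℂ) / 4 = ((1 / 4 : ℝ) : ℂ) * I by push_cast; ring]
      simp
    have e' : ‖(I : ℂ) / 4‖ = 1 / 4 := by
      rw [norm_div, Complex.norm_I]; norm_num
    rw [sub_im, neg_im, I_im] at b1
    rw [sub_im, e] at b2
    have c1 := abs_le.1 b1
    have c2 := abs_le.1 b2
    refine ⟨?_, ?_, by linarith [c1.2], by linarith [c2.1]⟩
    · calc ‖q.1‖ = ‖(q.1 - -I) + -I‖ := by ring_nf
        _ ≤ ‖q.1 - -I‖ + ‖-I‖ := norm_add_le _ _
        _ ≤ 2 := by rw [norm_neg, Complex.norm_I]; linarith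
    · calc ‖q.2‖ = ‖(q.2 - I / 4) + I / 4‖ := by ring_nf
        _ ≤ ‖q.2 - I / 4‖ + ‖I / 4‖ := norm_add_le _ _
        _ ≤ 2 := by rw [e']; linarith
  have hballQ : closedBall ((-I, I / 4) : ℂ × ℂ) (1 / 10) ⊆ Qd := by
    intro q hq
    obtain ⟨-, -, a3, a4⟩ := hball q hq
    exact ⟨by show q.1.im < 0; linarith, by show 0 < q.2.im; linarith⟩
  set c₃ : ℝ := c₂ * (1 / 10) ^ 2 / KA 2 with hc₃
  have hc₃0 : 0 < c₃ := div_pos (by positivity) (KA_pos (by norm_num))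
  have him : ∀ q ∈ closedBall ((-I, I / 4) : ℂ × ℂ) (1 / 10), |(g q).im| ≤ h - c₃ := by
    intro q hq
    have h1 := hlim.tendsto_at (hballQ hq)
    have h2 : Tendsto (fun n => |(f (φ n) q).im|) atTop (𝓝 |(g q).im|) :=
      ((Complex.continuous_im.tendsto _).comp h1).abs
    refine le_of_tendsto h2 ?_
    obtain ⟨a1, a2, a3, a4⟩ := hball q hq
    filter_upwards [hφ.tendsto_atTop.eventually (hev 2 (by norm_num))] with n hn
    have h3 := side_depth (e := (x (φ n), u)) (ρ := ρ) (B := B) (A := 2) (by norm_num) (hs (φ n))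
      hn.1 (show (0 : ℝ) < 1 / 10 by norm_num) (hBP _) (fun q hq => (hbP _ q hq).le) hc₂.le
      (hint (φ n)) (q := bl (x (φ n), u) (s (φ n)) q)
      (by rw [bl1, nrm]; nlinarith [hs (φ n)])
      (by rw [bl2, nrm]; nlinarith [hs (φ n)]) (by rw [imb1]; nlinarith [hs (φ n)])
      (by rw [imb2]; nlinarith [hs (φ n)])
    have h4 : (f (φ n) q).im = (B (bl (x (φ n), u) (s (φ n)) q)).im := by
      show (B (bl (x (φ n), u) (s (φ n)) q) - (m (φ n) : ℂ)).im = _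
      rw [sub_im, Complex.intCast_im, sub_zero]
    show |(f (φ n) q).im| ≤ h - c₃
    rw [h4]
    exact h3
  have hyo : IsOpen {z : ℂ | |z.im| < h} :=
    isOpen_lt (continuous_abs.comp Complex.continuous_im) continuous_const
  have hy0 : ∀ q ∈ closedBall ((-I, I / 4) : ℂ × ℂ) (1 / 10), y (g q) = 0 := by
    intro q hq
    have hin : g q ∈ {z : ℂ | |z.im| < h} := by
      have := him q hq
      show |(g q).im| < h
      linarith
    have hca : ContinuousAt y (g q) := (hy.differentiableAt (hyo.mem_nhds hin)).continuousAt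
    have h1 := hca.tendsto.comp (hlim.tendsto_at (hballQ hq))
    have h2 : Tendsto (fun n => y (f (φ n) q)) atTop (𝓝 0) := by
      have h3 : Tendsto (fun n : ℕ => 1 / (((φ n : ℕ) : ℝ) + 1)) atTop (𝓝 0) :=
        tendsto_one_div_add_atTop_nhds_zero_nat.comp hφ.tendsto_atTop
      refine squeeze_zero_norm' ?_ h3
      filter_upwards [hφ.tendsto_atTop.eventually (hDK _ hballQ (isCompact_closedBall _ _))]
        with n hn
      have h4 : |(B (bl (x (φ n), u) (s (φ n)) q)).im| < h := hbP _ _ (hn hq)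
      have h5 := per_int hper (-(m (φ n))) _ h4
      have h6 : f (φ n) q = B (bl (x (φ n), u) (s (φ n)) q) + ((-(m (φ n)) : ℤ) : ℂ) := by
        rw [hf]; push_cast; ring
      rw [h6, h5]
      exact (hsm (φ n) q hq).le
    exact tendsto_nhds_unique h1 h2
  -- the limit is constant
  set b0 : ℂ := g (-I, I / 4) with hb0
  have hz0c : ((-I, I / 4) : ℂ × ℂ) ∈ closedBall ((-I, I / 4) : ℂ × ℂ) (1 / 10) :=
    mem_closedBall_self (by norm_num)
  have hb0h : |b0.im| < h := by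
    have := him _ hz0c
    linarith
  have hyb0 : y b0 = 0 := hy0 _ hz0c
  have hyan : AnalyticOnNhd ℂ y {z : ℂ | |z.im| < h} := hy.analyticOnNhd hyo
  have hconv : Convex ℝ {z : ℂ | |z.im| < h} := by
    have : {z : ℂ | |z.im| < h} = {z | -h < z.im} ∩ {z | z.im < h} := by
      ext z; simp [abs_lt]
    rw [this]
    exact (convex_halfSpace_im_gt _).inter (convex_halfSpace_im_lt _)
  have hloc : ∀ᶠ z in 𝓝 b0, y z = 0 → z = b0 := by
    rcases (hyan b0 hb0h).eventually_eq_zero_or_eventually_ne_zero with h1 | h1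
    · exfalso
      obtain ⟨z, hz, hyz⟩ := hne
      exact hyz (hyan.eqOn_zero_of_preconnected_of_eventuallyEq_zero hconv.isPreconnected hb0h h1
        hz)
    · rw [eventually_nhdsWithin_iff] at h1
      filter_upwards [h1] with z hz hyz
      by_contra hzb
      exact hz hzb hyz
  have hgc : ContinuousAt g (-I, I / 4) :=
    (hg.differentiableAt (isOpen_Qd.mem_nhds hz0)).continuousAt
  have he : ∀ᶠ q in 𝓝 ((-I, I / 4) : ℂ × ℂ), g q = b0 := by
    filter_upwards [hgc.eventually hloc, closedBall_mem_nhds _ (show (0 : ℝ) < 1 / 10 by norm_num)]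
      with q h1 h2
    exact h1 (hy0 q h2)
  have hconst := const_of_eventually hg hz0 he
  -- contradiction with (NF)
  set Kc : Set (ℂ × ℂ) := {Q | ‖Q.1‖ ≤ 4 ∧ ‖Q.2‖ ≤ 1 ∧ d₂ ≤ Q.2.im ∧ Q.1.im ≤ -d₂} with hKc
  have hKcc : IsCompact Kc := by
    refine (isCompact_closedBall (0 : ℂ × ℂ) 4).of_isClosed_subset ?_ ?_
    · have : Kc = {Q : ℂ × ℂ | ‖Q.1‖ ≤ 4} ∩ ({Q | ‖Q.2‖ ≤ 1} ∩ ({Q | d₂ ≤ Q.2.im} ∩
          {Q | Q.1.im ≤ -d₂})) := rfl
      rw [this]
      refine (isClosed_le (by fun_prop) continuous_const).inter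
        ((isClosed_le (by fun_prop) continuous_const).inter
        ((isClosed_le continuous_const (by fun_prop)).inter
        (isClosed_le (by fun_prop) continuous_const)))
    · rintro Q ⟨h1, h2, -, -⟩
      rw [mem_closedBall_zero_iff, Prod.norm_def]
      exact max_le h1 (h2.trans (by norm_num))
  have hKcQ : Kc ⊆ Qd := by
    rintro Q ⟨-, -, h3, h4⟩
    exact ⟨by show Q.1.im < 0; linarith, by show 0 < Q.2.im; linarith⟩
  have hu' := (tendstoLocallyUniformlyOn_iff_tendstoUniformlyOn_of_compact hKcc).1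
    (hlim.mono hKcQ)
  obtain ⟨n, hn⟩ := (Metric.tendstoUniformlyOn_iff.1 hu' g₂ hg₂).exists
  obtain ⟨Q, q1, q2, q3, q4, q5⟩ := hNF (φ n) b0 hb0h hyb0
  have h1 := hn Q ⟨q1, q2, q3, q4⟩
  rw [hconst Q (hKcQ ⟨q1, q2, q3, q4⟩), dist_comm, dist_eq_norm] at h1
  have h2 := (Complex.abs_im_le_norm _).trans_lt h1
  have h3 : (f (φ n) Q - b0).im = (B (bl (x (φ n), u) (s (φ n)) Q)).im - b0.im := by
    simp [hf]
  rw [h3] at h2
  linarith

end Crest.Agent.R102.BalC953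
end
end

-- ▼ part R102/BalP_953

/-!
Row 102, T1-B, EDGE, leaf **BAL** (helper953): `balP : Edge255.BalP`.
-/

set_option autoImplicit false

open Set Filter Topology Metric Complex MeasureTheory

noncomputable section

namespace Crest.Agent.R102.BalP953

open Crest.Agent.R102.Edge255
open Crest.Agent.R102.S5 (bl ray)
open Crest.Agent.R102.PartII150 (Bx)

/-- **(EDGE-BAL)** -/
theorem balP : BalP := by
  intro q η ρ r Bc b φ p m₀ h ψ H K G D hNB hM u0 R d g hS u α β s₀ a₀ c hG hSup hno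
  have hh : 0 < h := D.h_pos
  have hyd : DifferentiableOn ℂ (deriv ψ) (T5.Str h) := by
    intro z hz
    exact ((D.ψ_diff.analyticAt ((Rule982.isOpen_Sg h).mem_nhds
      hz)).deriv).differentiableAt.differentiableWithinAt
  have hper : ∀ z ∈ T5.Str h, deriv ψ (z + 1) = deriv ψ z := fun z hz => hM.yper z hz
  have hne : ∃ z ∈ T5.Str h, deriv ψ z ≠ 0 := by
    refine ⟨0, by change |(0 : ℂ).im| < h; simpa using hh, ?_⟩
    have h1 := (hM.y_pos 0).1
    intro h0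
    simp only [Complex.ofReal_zero] at h1
    rw [h0] at h1
    simp at h1
  obtain ⟨c₂, hc₂, d₂, hd₂, g₂, hg₂, hbal⟩ := Bal953.bal D hS hG hSup hno hyd hper hne
  by_contra hneg
  unfold Edge255.Balanced at hneg
  push Not at hneg
  have key : ∀ n : ℕ, ∃ x s : ℝ, 0 < s ∧ s < 1 / ((n : ℝ) + 1) ∧
      |(Bx b h ρ r g (ray (x, u) s)).im| ≤ h - c₂ ∧
      (∀ b0 ∈ T5.Str h, deriv ψ b0 = 0 → ∃ Q : ℂ × ℂ, ‖Q.1‖ ≤ 4 ∧ ‖Q.2‖ ≤ 1 ∧ d₂ ≤ Q.2.im ∧
        Q.1.im ≤ -d₂ ∧ g₂ ≤ |(Bx b h ρ r g (bl (x, u) s Q)).im - b0.im|) ∧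
      ∀ q ∈ closedBall ((-I, I / 4) : ℂ × ℂ) (1 / 10),
        ‖deriv ψ (Bx b h ρ r g (bl (x, u) s q))‖ < 1 / ((n : ℝ) + 1) := by
    intro n
    have hn : (0 : ℝ) < 1 / ((n : ℝ) + 1) := by positivity
    obtain ⟨δ, hδ, h1⟩ := hneg (min c₂ (1 / ((n : ℝ) + 1))) (lt_min hc₂ hn)
    obtain ⟨x, hx, η₀, hη₀, h2⟩ := hbal δ hδ
    obtain ⟨s, hs, h3⟩ := h1 x hx (min η₀ (1 / ((n : ℝ) + 1))) (lt_min hη₀ hn)
    obtain ⟨h4, h5⟩ := h2 s hs.1 (hs.2.trans_le (min_le_left _ _))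
    refine ⟨x, s, hs.1, hs.2.trans_le (min_le_right _ _), h4, h5, fun q hq => ?_⟩
    by_contra h6
    rw [not_lt] at h6
    exact h3 ⟨h4.trans (sub_le_sub_left (min_le_left _ _) _), q, hq, (min_le_right _ _).trans h6⟩
  choose x s k1 k2 k3 k4 k5 using key
  have hs0 : Tendsto s atTop (𝓝 0) :=
    squeeze_zero (fun n => (k1 n).le) (fun n => (k2 n).le) tendsto_one_div_add_atTop_nhds_zero_nat
  have hu : |u - u0| < R := by rw [abs_lt]; constructor <;> linarith [hG.mem.1, hG.mem.2]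
  exact BalC953.nondeg (u0 := u0) (R := R) (d := d) hh hS.d_pos hu (Bal953.bx_diff D hS)
    (Bal953.bx_im D hS) hyd hper hne hc₂ hd₂ hg₂ k1 hs0 k3 k4 k5

end Crest.Agent.R102.BalP953
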