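import Mathlib
import Crest.Agent.R102.Outer_575

-- ▼ part R102/Sign_985
section

/-!
Row 102, part (C), H3 / (RAT), leaf F2: the sign flips (pure algebra).
-/

set_option linter.unusedSectionVars false

namespace Crest.Agent.R102.Sign985

open PowerSeries

section kummer

variable {K Ω : Type*} [Field K] [Field Ω] [Algebra K Ω] [CharZero K] {ι : Type*} [DecidableEq ι]

theorem adj_integral (α : ι → K) (r : ι → Ω) (hr : ∀ i, r i ^ 2 = algebraMap K Ω (α i))
    (S : Set ι) {x : Ω} (hx : x ∈ Algebra.adjoin K (r '' S)) : IsIntegral K x := by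
  have hle : Algebra.adjoin K (r '' S) ≤ integralClosure K Ω := by
    refine Algebra.adjoin_le ?_
    rintro _ ⟨i, -, rfl⟩
    refine IsIntegral.of_pow (n := 2) (by norm_num) ?_
    rw [hr]
    exact isIntegral_algebraMap
  exact hle hx

theorem adj_inv (α : ι → K) (r : ι → Ω) (hr : ∀ i, r i ^ 2 = algebraMap K Ω (α i))
    (S : Set ι) {x : Ω} (hx : x ∈ Algebra.adjoin K (r '' S)) :
    x⁻¹ ∈ Algebra.adjoin K (r '' S) :=
  (Algebra.adjoin K (r '' S)).inv_mem_of_algebraic (x := ⟨x, hx⟩)
    (adj_integral α r hr S hx).isAlgebraic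

/-- elements of `K(r_S, r_j)` are `u + v r_j` -/
theorem adj_insert (α : ι → K) (r : ι → Ω) (hr : ∀ i, r i ^ 2 = algebraMap K Ω (α i))
    (S : Set ι) (j : ι) {x : Ω} (hx : x ∈ Algebra.adjoin K (r '' (insert j S))) :
    ∃ u ∈ Algebra.adjoin K (r '' S), ∃ v ∈ Algebra.adjoin K (r '' S), x = u + v * r j := by
  set L := Algebra.adjoin K (r '' S) with hL
  refine Algebra.adjoin_induction (p := fun x _ => ∃ u ∈ L, ∃ v ∈ L, x = u + v * r j)
    ?_ ?_ ?_ ?_ hx
  · rintro _ ⟨i, hi, rfl⟩
    rcases Set.mem_insert_iff.mp hi with rfl | hi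
    · exact ⟨0, L.zero_mem, 1, L.one_mem, by ring⟩
    · exact ⟨r i, Algebra.subset_adjoin ⟨i, hi, rfl⟩, 0, L.zero_mem, by ring⟩
  · intro c
    exact ⟨algebraMap K Ω c, L.algebraMap_mem c, 0, L.zero_mem, by ring⟩
  · rintro x y - - ⟨u, hu, v, hv, rfl⟩ ⟨u', hu', v', hv', rfl⟩
    exact ⟨u + u', L.add_mem hu hu', v + v', L.add_mem hv hv', by ring⟩
  · rintro x y - - ⟨u, hu, v, hv, rfl⟩ ⟨u', hu', v', hv', rfl⟩
    refine ⟨u * u' + v * v' * algebraMap K Ω (α j), ?_, u * v' + v * u', ?_, ?_⟩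
    · exact L.add_mem (L.mul_mem hu hu') (L.mul_mem (L.mul_mem hv hv') (L.algebraMap_mem _))
    · exact L.add_mem (L.mul_mem hu hv') (L.mul_mem hv hu')
    · rw [← hr]
      ring

/-- Kummer theory for square roots -/
theorem kummer (α : ι → K) (r : ι → Ω) (hr : ∀ i, r i ^ 2 = algebraMap K Ω (α i))
    (hα : ∀ i, α i ≠ 0) (S : Finset ι) : ∀ x : Ω, (∃ c : K, x ^ 2 = algebraMap K Ω c) →
      x ∈ Algebra.adjoin K (r '' (S : Set ι)) →
      ∃ I ⊆ S, ∃ c : K, x * ∏ i ∈ I, r i = algebraMap K Ω c := by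
  have h2 : (2 : Ω) ≠ 0 := by
    have : CharZero Ω := charZero_of_injective_algebraMap (algebraMap K Ω).injective
    exact two_ne_zero
  induction S using Finset.induction_on with
  | empty =>
    rintro x - hx
    simp only [Finset.coe_empty, Set.image_empty, Algebra.adjoin_empty] at hx
    obtain ⟨c, rfl⟩ := Algebra.mem_bot.mp hx
    exact ⟨∅, le_rfl, c, by simp⟩
  | insert j S hj ih =>
    rintro x ⟨c, hc⟩ hx
    rw [Finset.coe_insert] at hx
    obtain ⟨u, hu, v, hv, rfl⟩ := adj_insert α r hr _ j hx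
    set L := Algebra.adjoin K (r '' (S : Set ι)) with hL
    by_cases hrj : r j ∈ L
    · obtain ⟨I, hI, d, hd⟩ := ih _ ⟨c, hc⟩ (L.add_mem hu (L.mul_mem hv hrj))
      exact ⟨I, hI.trans (Finset.subset_insert j S), d, hd⟩
    · have huv : u * v = 0 := by
        by_contra hne
        apply hrj
        have h3 : r j = (algebraMap K Ω c - u ^ 2 - v ^ 2 * algebraMap K Ω (α j)) *
            (2 * (u * v))⁻¹ := by
          rw [eq_mul_inv_iff_mul_eq₀ (mul_ne_zero h2 hne), ← hc, ← hr]
          ring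
        rw [h3]
        refine L.mul_mem (L.sub_mem (L.sub_mem (L.algebraMap_mem _) (L.pow_mem hu 2))
          (L.mul_mem (L.pow_mem hv 2) (L.algebraMap_mem _))) ?_
        exact adj_inv α r hr _ (L.mul_mem (by
          have : (2 : Ω) = algebraMap K Ω 2 := (map_ofNat _ 2).symm
          rw [this]
          exact L.algebraMap_mem 2) (L.mul_mem hu hv))
      rcases mul_eq_zero.mp huv with h0 | h0
      · subst h0
        have hx2 : v * algebraMap K Ω (α j) ∈ L := L.mul_mem hv (L.algebraMap_mem _)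
        obtain ⟨I, hI, d, hd⟩ := ih (v * algebraMap K Ω (α j)) ⟨c * α j, by
          rw [map_mul, ← hc, ← hr]
          ring⟩ hx2
        refine ⟨insert j I, Finset.insert_subset_insert j hI, d, ?_⟩
        rw [Finset.prod_insert (fun h => hj (hI h)), ← hd, ← hr]
        ring
      · subst h0
        obtain ⟨I, hI, d, hd⟩ := ih u ⟨c, by simpa using hc⟩ hu
        exact ⟨I, hI.trans (Finset.subset_insert j S), d, by simpa using hd⟩

variable [Fintype ι]

/-- if no nonempty product of the `α_i` is a square, then `r_j` is not in the field generated by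
the others -/
theorem notMem (α : ι → K) (r : ι → Ω) (hr : ∀ i, r i ^ 2 = algebraMap K Ω (α i))
    (hns : ∀ I : Finset ι, I.Nonempty → ¬ IsSquare (∏ i ∈ I, α i)) (j : ι) :
    r j ∉ Algebra.adjoin K (r '' ((Finset.univ.erase j : Finset ι) : Set ι)) := by
  have hα : ∀ i, α i ≠ 0 := by
    intro i h0
    refine hns {i} (by simp) ?_
    rw [Finset.prod_singleton, h0]
    exact ⟨0, by simp⟩
  intro hmem
  obtain ⟨I, hI, c, hc⟩ := kummer α r hr hα _ (r j) ⟨α j, hr j⟩ hmem
  have hj : j ∉ I := fun h => by simpa using hI h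
  refine hns (insert j I) (by simp) ⟨c, ?_⟩
  apply (algebraMap K Ω).injective
  rw [map_mul, ← hc, Finset.prod_insert hj, map_mul, map_prod, ← hr]
  simp_rw [← hr]
  rw [Finset.prod_pow]
  ring

theorem flip1 (α : ι → K) (x : ι → Ω) (hx : ∀ i, x i ^ 2 = algebraMap K Ω (α i))
    (hns : ∀ I : Finset ι, I.Nonempty → ¬ IsSquare (∏ i ∈ I, α i)) (j : ι)
    (P : MvPolynomial ι K) (h : MvPolynomial.aeval x P = 0) :
    MvPolynomial.aeval (Function.update x j (- x j)) P = 0 := by
  set L := Algebra.adjoin K (x '' ((Finset.univ.erase j : Finset ι) : Set ι)) with hL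
  have key : ∀ P : MvPolynomial ι K, ∃ u ∈ L, ∃ v ∈ L,
      MvPolynomial.aeval x P = u + v * x j ∧
      MvPolynomial.aeval (Function.update x j (- x j)) P = u - v * x j := by
    intro P
    induction P using MvPolynomial.induction_on with
    | C c => exact ⟨algebraMap K Ω c, L.algebraMap_mem c, 0, L.zero_mem, by simp, by simp⟩
    | add p q hp hq =>
      obtain ⟨u, hu, v, hv, h1, h2⟩ := hp
      obtain ⟨u', hu', v', hv', h1', h2'⟩ := hq
      exact ⟨u + u', L.add_mem hu hu', v + v', L.add_mem hv hv',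
        by rw [map_add, h1, h1']; ring, by rw [map_add, h2, h2']; ring⟩
    | mul_X p i hp =>
      obtain ⟨u, hu, v, hv, h1, h2⟩ := hp
      by_cases hij : i = j
      · subst hij
        refine ⟨v * algebraMap K Ω (α i), L.mul_mem hv (L.algebraMap_mem _), u, hu, ?_, ?_⟩
        · rw [map_mul, h1, MvPolynomial.aeval_X, ← hx]
          ring
        · rw [map_mul, h2, MvPolynomial.aeval_X, Function.update_self, ← hx]
          ring
      · have hi : x i ∈ L := Algebra.subset_adjoin ⟨i, by simpa using hij, rfl⟩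
        refine ⟨u * x i, L.mul_mem hu hi, v * x i, L.mul_mem hv hi, ?_, ?_⟩
        · rw [map_mul, h1, MvPolynomial.aeval_X]
          ring
        · rw [map_mul, h2, MvPolynomial.aeval_X, Function.update_of_ne hij]
          ring
  obtain ⟨u, hu, v, hv, h1, h2⟩ := key P
  have hv0 : v = 0 := by
    by_contra hne
    refine notMem α x hx hns j ?_
    have h3 : x j = - u * v⁻¹ := by
      rw [eq_mul_inv_iff_mul_eq₀ hne]
      rw [h] at h1
      linear_combination -h1
    rw [h3]
    exact L.mul_mem (L.neg_mem hu) (adj_inv α x hx _ hv)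
  rw [h2, hv0]
  rw [h, hv0] at h1
  simp at h1 ⊢
  exact h1.symm

/-- the sign vectors -/
noncomputable def sv (x : ι → Ω) (e : ι → Bool) : ι → Ω := fun i => if e i then x i else - x i

theorem sv_sq (α : ι → K) (x : ι → Ω) (hx : ∀ i, x i ^ 2 = algebraMap K Ω (α i)) (e : ι → Bool) :
    ∀ i, sv x e i ^ 2 = algebraMap K Ω (α i) := by
  intro i
  unfold sv
  split_ifs
  · exact hx i
  · rw [neg_sq]
    exact hx i

theorem flip (α : ι → K) (x : ι → Ω) (hx : ∀ i, x i ^ 2 = algebraMap K Ω (α i))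
    (hns : ∀ I : Finset ι, I.Nonempty → ¬ IsSquare (∏ i ∈ I, α i))
    (P : MvPolynomial ι K) (e e' : ι → Bool) (h : MvPolynomial.aeval (sv x e) P = 0) :
    MvPolynomial.aeval (sv x e') P = 0 := by
  -- change the coordinates of `e` one after the other
  have key : ∀ S : Finset ι, MvPolynomial.aeval (sv x (fun i => if i ∈ S then e' i else e i)) P
      = 0 := by
    intro S
    induction S using Finset.induction_on with
    | empty => simpa using h
    | insert j S hj ih =>
      by_cases hc : e' j = e j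
      · have : (fun i => if i ∈ insert j S then e' i else e i) =
            fun i => if i ∈ S then e' i else e i := by
          funext i
          by_cases hij : i = j
          · subst hij
            simp [hj, hc]
          · simp [hij]
        rw [this]
        exact ih
      · have h1 := flip1 α _ (sv_sq α x hx _) hns j P ih
        have h2 : Function.update (sv x fun i => if i ∈ S then e' i else e i) j
            (-(sv x fun i => if i ∈ S then e' i else e i) j) =
            sv x (fun i => if i ∈ insert j S then e' i else e i) := by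
          funext i
          by_cases hij : i = j
          · subst hij
            rw [Function.update_self]
            simp only [sv, hj, if_false, Finset.mem_insert_self, if_true]
            cases h3 : e i <;> cases h4 : e' i <;> simp_all
          · rw [Function.update_of_ne hij]
            simp [sv, hij]
        rw [h2] at h1
        exact h1
  have := key Finset.univ
  simpa using this

end kummer

section squares

variable {k : Type*} [Field k] [CharZero k]

/-- no nonempty product of distinct `1 - a_i X`, `a_i ≠ 0`, is a square of a polynomial -/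
theorem not_sq_poly {ι : Type*} [DecidableEq ι] (a : ι → k) (ha : Function.Injective a)
    (ha0 : ∀ i, a i ≠ 0) (I : Finset ι) (hI : I.Nonempty) (q : Polynomial k)
    (hq : q ^ 2 = ∏ i ∈ I, (1 - Polynomial.C (a i) * Polynomial.X)) : False := by
  obtain ⟨i0, hi0⟩ := hI
  have h1 : (q ^ 2).eval (a i0)⁻¹ = 0 := by
    rw [hq, Polynomial.eval_prod]
    refine Finset.prod_eq_zero hi0 ?_
    simp [ha0 i0]
  have h2 : q.eval (a i0)⁻¹ = 0 := by
    rw [Polynomial.eval_pow] at h1
    exact pow_eq_zero_iff (by norm_num) |>.mp h1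
  have h3 : (Polynomial.derivative (q ^ 2)).eval (a i0)⁻¹ = 0 := by
    rw [Polynomial.derivative_pow]
    simp [h2]
  rw [hq, ← Finset.mul_prod_erase _ _ hi0, Polynomial.derivative_mul, Polynomial.eval_add,
    Polynomial.eval_mul, Polynomial.eval_mul] at h3
  have h4 : (1 - Polynomial.C (a i0) * Polynomial.X).eval (a i0)⁻¹ = 0 := by simp [ha0 i0]
  rw [h4, zero_mul, add_zero, Polynomial.eval_prod] at h3
  rcases mul_eq_zero.mp h3 with h5 | h5
  · simp at h5
    exact ha0 i0 h5
  · obtain ⟨i, hi, hi2⟩ := Finset.prod_eq_zero_iff.mp h5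
    have hne : i ≠ i0 := (Finset.mem_erase.mp hi).1
    simp only [Polynomial.eval_sub, Polynomial.eval_one, Polynomial.eval_mul, Polynomial.eval_C,
      Polynomial.eval_X] at hi2
    apply hne
    apply ha
    have h0 := ha0 i0
    field_simp at hi2
    linear_combination -hi2

theorem not_isSquare {ι : Type*} [DecidableEq ι] (a : ι → k) (ha : Function.Injective a)
    (ha0 : ∀ i, a i ≠ 0) (I : Finset ι) (hI : I.Nonempty) :
    ¬ IsSquare (∏ i ∈ I, algebraMap (Polynomial k) (FractionRing (Polynomial k))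
      (1 - Polynomial.C (a i) * Polynomial.X)) := by
  rintro ⟨x, hx⟩
  rw [← map_prod] at hx
  have hint : IsIntegral (Polynomial k) (x ^ 2) := by
    rw [sq, ← hx]
    exact isIntegral_algebraMap
  obtain ⟨q, rfl⟩ := IsIntegrallyClosed.exists_algebraMap_eq_of_isIntegral_pow
    (by norm_num : 0 < 2) hint
  refine not_sq_poly a ha ha0 I hI q ?_
  apply IsFractionRing.injective (Polynomial k) (FractionRing (Polynomial k))
  rw [hx, sq, map_mul]

end squares

section main

variable {H : Type*} [CommRing H] [IsDomain H] [CharZero H]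

/-- **Leaf F2**: the sign flips. -/
theorem sign_flips {N : ℕ} (a : Fin N → H) (ha : Function.Injective a) (ha0 : ∀ j, a j ≠ 0)
    (r : Fin N → H⟦X⟧) (hr : ∀ j, r j ^ 2 = 1 - C (a j) * X)
    (hr0 : ∀ j, constantCoeff (r j) = 1) :
    ∃ B : Subring ((Fin N → Bool) → H⟦X⟧),
      (∀ h : H, (fun _ => C h) ∈ B) ∧ ((fun _ => X) ∈ B) ∧
      (∀ j, (fun e : Fin N → Bool => if e j then r j else - r j) ∈ B) ∧
      (∀ j, ∃ s : H⟦X⟧, r j * s = 1 ∧ (fun e : Fin N → Bool => if e j then s else - s) ∈ B) ∧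
      ∀ b ∈ B, ∀ e e', b e = 0 → b e' = 0 := by
  classical
  let k := FractionRing H
  have hck : CharZero k := charZero_of_injective_algebraMap (IsFractionRing.injective H k)
  let K := FractionRing (Polynomial k)
  let Ω := FractionRing (PowerSeries k)
  -- the embedding of `H[[X]]` in `Ω`
  let i0 : H⟦X⟧ →+* k⟦X⟧ := PowerSeries.map (algebraMap H k)
  have hi0C : ∀ h : H, i0 (C h) = C (algebraMap H k h) := fun h => PowerSeries.map_C _ _
  have hi0X : i0 X = X := PowerSeries.map_X _
  have hi0 : Function.Injective i0 :=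
    PowerSeries.map_injective _ (IsFractionRing.injective H k)
  let i1 : k⟦X⟧ →+* Ω := algebraMap _ _
  have hi1 : Function.Injective i1 := IsFractionRing.injective _ _
  let i : H⟦X⟧ →+* Ω := i1.comp i0
  have hi : Function.Injective i := hi1.comp hi0
  -- the embedding of `K` in `Ω`
  let j0 : Polynomial k →+* k⟦X⟧ := Polynomial.coeToPowerSeries.ringHom
  have hj0 : Function.Injective j0 := Polynomial.coe_injective k
  let j1 : Polynomial k →+* Ω := i1.comp j0
  have hj1 : Function.Injective j1 := hi1.comp hj0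
  let j : K →+* Ω := IsFractionRing.lift (A := Polynomial k) (g := j1) hj1
  have hj : ∀ p : Polynomial k, j (algebraMap _ K p) = i1 (p : k⟦X⟧) := fun p =>
    IsFractionRing.lift_algebraMap hj1 p
  let _ : Algebra K Ω := j.toAlgebra
  have halg : ∀ p : Polynomial k, algebraMap K Ω (algebraMap _ K p) = i1 (p : k⟦X⟧) := hj
  let α : Fin N → K := fun m => algebraMap (Polynomial k) K
    (1 - Polynomial.C (algebraMap H k (a m)) * Polynomial.X)
  let x : Fin N → Ω := fun m => i (r m)
  have hxα : ∀ m, x m ^ 2 = algebraMap K Ω (α m) := by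
    intro m
    have h1 : i0 (1 - C (a m) * X) =
        ((1 - Polynomial.C (algebraMap H k (a m)) * Polynomial.X : Polynomial k) : k⟦X⟧) := by
      rw [map_sub, map_one, map_mul, hi0C, hi0X]
      simp
    rw [halg, ← map_pow, hr, ← h1]
    rfl
  have hns : ∀ I : Finset (Fin N), I.Nonempty → ¬ IsSquare (∏ i ∈ I, α i) := fun I hI =>
    not_isSquare (fun m => algebraMap H k (a m)) ((IsFractionRing.injective H k).comp ha)
      (fun m h0 => ha0 m ((map_eq_zero_iff _ (IsFractionRing.injective H k)).mp h0)) I hI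
  have hα0 : ∀ m, α m ≠ 0 := by
    intro m h0
    refine hns {m} (by simp) ?_
    rw [Finset.prod_singleton, h0]
    exact ⟨0, by simp⟩
  have hsv : ∀ e m, sv x e m = i (if e m then r m else - r m) := by
    intro e m
    unfold sv
    split_ifs
    · rfl
    · simp [x]
  let B : Subring ((Fin N → Bool) → H⟦X⟧) :=
    { carrier := {b | ∃ P : MvPolynomial (Fin N) K, ∀ e, i (b e) = MvPolynomial.aeval (sv x e) P}
      mul_mem' := by
        rintro b c ⟨P, hP⟩ ⟨Q, hQ⟩
        exact ⟨P * Q, fun e => by rw [Pi.mul_apply, map_mul, map_mul, hP, hQ]⟩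
      one_mem' := ⟨1, fun e => by simp⟩
      add_mem' := by
        rintro b c ⟨P, hP⟩ ⟨Q, hQ⟩
        exact ⟨P + Q, fun e => by rw [Pi.add_apply, map_add, map_add, hP, hQ]⟩
      zero_mem' := ⟨0, fun e => by simp⟩
      neg_mem' := by
        rintro b ⟨P, hP⟩
        exact ⟨-P, fun e => by rw [Pi.neg_apply, map_neg, map_neg, hP]⟩ }
  refine ⟨B, ?_, ?_, ?_, ?_, ?_⟩
  · intro h
    refine ⟨MvPolynomial.C (algebraMap (Polynomial k) K (Polynomial.C (algebraMap H k h))),
      fun e => ?_⟩
    rw [MvPolynomial.aeval_C, halg]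
    have h1 : i0 (C h) = ((Polynomial.C (algebraMap H k h) : Polynomial k) : k⟦X⟧) := by
      rw [hi0C, Polynomial.coe_C]
    rw [← h1]
    rfl
  · refine ⟨MvPolynomial.C (algebraMap (Polynomial k) K Polynomial.X), fun e => ?_⟩
    rw [MvPolynomial.aeval_C, halg]
    have h1 : i0 X = ((Polynomial.X : Polynomial k) : k⟦X⟧) := by
      rw [hi0X, Polynomial.coe_X]
    rw [← h1]
    rfl
  · intro m
    exact ⟨MvPolynomial.X m, fun e => by rw [MvPolynomial.aeval_X, hsv]⟩
  · intro m
    have hu : IsUnit (r m) := by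
      rw [PowerSeries.isUnit_iff_constantCoeff, hr0]
      exact isUnit_one
    obtain ⟨s, hs⟩ := hu.exists_right_inv
    refine ⟨s, hs, MvPolynomial.C (α m)⁻¹ * MvPolynomial.X m, fun e => ?_⟩
    have hne : sv x e m ≠ 0 := by
      intro h0
      have := sv_sq α x hxα e m
      rw [h0] at this
      have h2 : algebraMap K Ω (α m) = 0 := by rw [← this]; simp
      exact hα0 m ((map_eq_zero_iff _ (algebraMap K Ω).injective).mp h2)
    rw [map_mul, MvPolynomial.aeval_C, MvPolynomial.aeval_X, map_inv₀, ← sv_sq α x hxα e m]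
    have h3 : i (if e m then s else - s) * sv x e m = 1 := by
      rw [hsv, ← map_mul]
      split_ifs
      · rw [mul_comm, hs, map_one]
      · rw [neg_mul_neg, mul_comm, hs, map_one]
    rw [eq_comm, inv_mul_eq_iff_eq_mul₀ (pow_ne_zero 2 hne), sq, mul_assoc,
      mul_comm (sv x e m) (i _), h3, mul_one]
  · rintro b ⟨P, hP⟩ e e' h0
    apply hi
    rw [map_zero, hP]
    refine flip α x hxα hns P e e' ?_
    rw [← hP, h0, map_zero]

end main

end Crest.Agent.R102.Sign985
end

-- ▼ part R102/FCTA_575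

/-!
Row 102, part (C), leaf H3: formal collapse theorem, part A (sign flips of inner chains).
-/

set_option linter.unusedSectionVars false

namespace Crest.Agent.R102.H3

open PowerSeries Finset

section bs

variable {K H S S' : Type*} [Field K] [CharZero K] [CommRing H] [Algebra K H] [CommRing S]
  [CommRing S']

theorem X_dvd_CX2 (θ : S) : (X : S⟦X⟧) ∣ C θ * X ^ 2 :=
  (dvd_pow_self X two_ne_zero).mul_left _

theorem X_dvd_X2 : (X : S⟦X⟧) ∣ X ^ 2 := dvd_pow_self X two_ne_zero

/-- the base point of inner chains: `F ↦ ∑ ι(F_i) θ^i X^{2i}` -/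
noncomputable def bs (ι : H →+* S) (θ : S) : H⟦X⟧ →+* S⟦X⟧ :=
  evS ((C).comp ι) (C θ * X ^ 2) (X_dvd_CX2 θ)

/-- `H⟦w⟧⟦ε⟧ → S⟦ω⟧`, `w ↦ ω²`, `ε ↦ θ ω²` -/
noncomputable def emb (ι : H →+* S) (θ : S) : H⟦X⟧⟦X⟧ →+* S⟦X⟧ :=
  evS (evS ((C).comp ι) (X ^ 2) X_dvd_X2) (C θ * X ^ 2) (X_dvd_CX2 θ)

/-- even series: `H⟦w⟧ → H⟦ω⟧`, `w ↦ ω²` -/
noncomputable def evn : H⟦X⟧ →+* H⟦X⟧ := evS C (X ^ 2) X_dvd_X2

@[simp] theorem bs_C (ι : H →+* S) (θ : S) (h : H) : bs ι θ (C h) = C (ι h) := by
  rw [bs, evS_C]; rfl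

@[simp] theorem bs_X (ι : H →+* S) (θ : S) : bs ι θ X = C θ * X ^ 2 := by
  rw [bs, evS_X]

theorem X_dvd_map_X (π : S →+* S') : (X : S'⟦X⟧) ∣ PowerSeries.map π X := by
  rw [map_X]

theorem map_bs (π : S →+* S') (ι : H →+* S) (θ : S) :
    (PowerSeries.map π).comp (bs ι θ) = bs (π.comp ι) (π θ) := by
  refine evS_unique _ _ _ (fun a => ?_) ?_
  · simp
  · simp

theorem map_emb (π : S →+* S') (ι : H →+* S) (θ : S) (u : H⟦X⟧⟦X⟧) :
    PowerSeries.map π (emb ι θ u) = emb (π.comp ι) (π θ) u := by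
  have h : (PowerSeries.map π).comp (emb ι θ) = emb (π.comp ι) (π θ) := by
    refine evS_unique _ _ _ (fun a => ?_) ?_
    · rw [RingHom.comp_apply, emb, evS_C, comp_evS (PowerSeries.map π) (X_dvd_map_X π)]
      refine evS_congr _ _ ?_ (by simp) a
      refine RingHom.ext fun b => ?_
      simp
    · rw [RingHom.comp_apply, emb, evS_X]
      simp
  rw [← h]
  rfl

theorem bs_expand (ι : H →+* S) (θ : S) (F : H⟦X⟧) :
    X ^ 4 ∣ bs ι θ F - (C (ι (constantCoeff F)) + X ^ 2 * C (θ * ι (coeff 1 F))) := by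
  have h := evS_eq ((C).comp ι) (X_dvd_CX2 θ) F 2
  rw [Finset.sum_range_succ, Finset.sum_range_one] at h
  have e : bs ι θ F - (C (ι (constantCoeff F)) + X ^ 2 * C (θ * ι (coeff 1 F)))
      = X ^ 4 * ((C θ) ^ 2 * evS ((C).comp ι) (C θ * X ^ 2) (X_dvd_CX2 θ)
        (PowerSeries.mk fun n => coeff (n + 2) F)) := by
    rw [bs, h]
    simp only [coeff_zero_eq_constantCoeff, RingHom.comp_apply, pow_zero, mul_one, pow_one,
      map_mul]
    ring
  rw [e]
  exact Dvd.intro _ rfl

theorem coeff_dn_cD (d : Derivation K H H) (i n : ℕ) (F : H⟦X⟧) :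
    coeff n (dn (cD d) i F) = dn d i (coeff n F) := by
  have h : ∀ i, coeff n ((cD d)^[i] F) = d^[i] (coeff n F) := by
    intro i
    induction i with
    | zero => rfl
    | succ i ih => rw [Function.iterate_succ_apply', coeff_cD, ih, Function.iterate_succ_apply']
  rw [dn, dn, coeff_smul, h]

/-- the mirrors are near the base point -/
theorem near_bs (d : Derivation K H H) (ι : H →+* S) (θ : S) (g : H) (G : ℕ → H⟦X⟧)
    (hG : ∀ j, constantCoeff (G j) = g) :
    Near (cD d) (bs ι θ) G (fun j => θ * ι (coeff 1 (G j))) (ι g) (ι (d g)) (ι (dn d 2 g)) where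
  n0 j := by
    have h := bs_expand ι θ (G j)
    rw [hG] at h
    exact (pow_dvd_pow X (by norm_num)).trans h
  n1 j := by
    have h := bs_expand ι θ (cD d (G j))
    have e : constantCoeff (cD d (G j)) = d g := by
      rw [← coeff_zero_eq_constantCoeff_apply, coeff_cD, coeff_zero_eq_constantCoeff_apply, hG]
    rw [e] at h
    have h2 := dvd_add ((pow_dvd_pow X (by norm_num : 2 ≤ 4)).trans h)
      (Dvd.intro (C (θ * ι (coeff 1 (cD d (G j))))) rfl : (X : S⟦X⟧) ^ 2 ∣ X ^ 2 * _)
    convert h2 using 1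
    ring
  n2 j := by
    have h := bs_expand ι θ (dn (cD d) 2 (G j))
    have e : constantCoeff (dn (cD d) 2 (G j)) = dn d 2 g := by
      rw [← coeff_zero_eq_constantCoeff_apply, coeff_dn_cD, coeff_zero_eq_constantCoeff_apply, hG]
    rw [e] at h
    have h1 : (X : S⟦X⟧) ∣ X ^ 4 := dvd_pow_self X (by norm_num)
    have h2 := dvd_add (h1.trans h)
      ((dvd_pow_self X two_ne_zero).mul_right (C (θ * ι (coeff 1 (dn (cD d) 2 (G j))))) :
        (X : S⟦X⟧) ∣ X ^ 2 * _)
    convert h2 using 1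
    ring

/-- the initial line -/
theorem inv_line (d : Derivation K H H) (ι : H →+* S) (θ : S) {zH g : H} {mh kh : H⟦X⟧}
    (hline : Ty d g = evn mh * (C zH + X) + evn kh) :
    Inv (bs ι θ (C zH)) (ι g) (ι (d g)) (ι (dn d 2 g)) 0 (PowerSeries.map ι (evn mh))
      (PowerSeries.map ι (evn kh)) := by
  have hm := evS_eq (C : H →+* H⟦X⟧) (X_dvd_X2) mh 1
  have hk := evS_eq (C : H →+* H⟦X⟧) (X_dvd_X2) kh 1
  rw [Finset.sum_range_one, pow_zero, mul_one, pow_one] at hm hk
  set p := evS (C : H →+* H⟦X⟧) (X ^ 2) X_dvd_X2 (PowerSeries.mk fun n => coeff (n + 1) mh)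
  set q := evS (C : H →+* H⟦X⟧) (X ^ 2) X_dvd_X2 (PowerSeries.mk fun n => coeff (n + 1) kh)
  change evn mh = _ at hm
  change evn kh = _ at hk
  set a := coeff 0 mh
  set b := coeff 0 kh
  rw [hm, hk] at hline
  have e0 := congrArg (coeff 0) hline
  have e1 := congrArg (coeff 1) hline
  have e2 := congrArg (coeff 2) hline
  have f1 : ((C a + X ^ 2 * p) * (C zH + X) + (C b + X ^ 2 * q) : H⟦X⟧)
      = C (a * zH + b) + X * C a + X ^ 2 * (p * C zH + q) + X ^ 3 * p := by
    rw [map_add, map_mul]; ring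
  rw [f1] at e0 e1 e2
  have c0 : a * zH + b = g := by
    simpa using e0.symm
  have c1 : a = d g := by
    have := e1.symm
    rw [coeff_Ty, dn_one] at this
    rw [← this]
    have h3 : coeff 1 (X * C a : H⟦X⟧) = a := by
      rw [coeff_succ_X_mul]; simp
    have h4 : coeff 1 (C (a * zH + b) : H⟦X⟧) = 0 := by
      rw [coeff_C]; simp
    have h5 : coeff 1 (X ^ 3 * p : H⟦X⟧) = 0 := by
      rw [coeff_X_pow_mul']; simp
    have h6 : coeff 1 (X ^ 2 * (p * C zH + q) : H⟦X⟧) = 0 := by
      rw [coeff_X_pow_mul']; simp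
    rw [map_add (coeff 1) (C (a * zH + b) + X * C a + X ^ 2 * (p * C zH + q)) (X ^ 3 * p),
      map_add (coeff 1) (C (a * zH + b) + X * C a) (X ^ 2 * (p * C zH + q)),
      map_add (coeff 1) (C (a * zH + b)) (X * C a), h3, h4, h5, h6]
    ring
  have c2 : coeff 0 (p * C zH + q) = dn d 2 g := by
    have := e2.symm
    rw [coeff_Ty] at this
    rw [← this]
    have h3 : coeff 2 (X * C a : H⟦X⟧) = 0 := by
      rw [coeff_succ_X_mul, coeff_C]; simp
    have h4 : coeff 2 (C (a * zH + b) : H⟦X⟧) = 0 := by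
      rw [coeff_C]; simp
    have h5 : coeff 2 (X ^ 3 * p : H⟦X⟧) = 0 := by
      rw [coeff_X_pow_mul']; simp
    have h6 : coeff 2 (X ^ 2 * (p * C zH + q) : H⟦X⟧) = coeff 0 (p * C zH + q) := by
      rw [coeff_X_pow_mul']; simp
    rw [map_add (coeff 2) (C (a * zH + b) + X * C a + X ^ 2 * (p * C zH + q)) (X ^ 3 * p),
      map_add (coeff 2) (C (a * zH + b) + X * C a) (X ^ 2 * (p * C zH + q)),
      map_add (coeff 2) (C (a * zH + b)) (X * C a), h3, h4, h5, h6]
    ring
  constructor
  · rw [hm, c1, mul_zero, map_zero, mul_zero, add_zero]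
    refine ⟨PowerSeries.map ι p, ?_⟩
    rw [map_add, map_mul, map_pow, map_X, map_C]
    ring
  · rw [hm, hk, bs_C]
    have h7 : X ∣ (p * C zH + q) - C (dn d 2 g) := by
      rw [X_dvd_iff, map_sub, constantCoeff_C, ← coeff_zero_eq_constantCoeff_apply, c2, sub_self]
    obtain ⟨w, hw⟩ := h7
    have h8 : p * C zH + q = C (dn d 2 g) + X * w := by rw [← hw]; ring
    refine ⟨PowerSeries.map ι w, ?_⟩
    have h9 : PowerSeries.map ι (C a + X ^ 2 * p) * C (ι zH) + PowerSeries.map ι (C b + X ^ 2 * q)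
        = PowerSeries.map ι (C (a * zH + b) + X ^ 2 * (p * C zH + q)) := by
      simp only [map_add, map_mul, map_pow, map_X, map_C]
      ring
    rw [h9, h8, c0]
    simp only [map_add, map_mul, map_pow, map_X, map_C]
    simp
    ring

end bs

section obs

variable {K H Λ Λ' : Type*} [Field K] [CommRing H] [CommRing Λ] [CommRing Λ'] {N : ℕ} {α : Type*}

/-- evaluation of polynomials in the slope of the first line and the observables at the vertices -/
noncomputable def obs (i : K →+* Λ) (μ : Λ) (Φ : ℕ → H →+* Λ) (x : Fin N → α → H) :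
    MvPolynomial (Option (Fin N × α)) K →+* Λ :=
  MvPolynomial.eval₂Hom i (fun o => o.elim μ (fun p => Φ p.1 (x p.1 p.2)))

theorem comp_obs (χ : Λ →+* Λ') (i : K →+* Λ) (μ : Λ) (Φ : ℕ → H →+* Λ) (x : Fin N → α → H) :
    χ.comp (obs i μ Φ x) = obs (χ.comp i) (χ μ) (fun j => χ.comp (Φ j)) x := by
  refine MvPolynomial.ringHom_ext (fun c => ?_) (fun o => ?_)
  · simp [obs]
  · cases o with
    | none => simp [obs]
    | some p => simp [obs]

theorem obs_congr (i : K →+* Λ) {μ μ' : Λ} {Φ Φ' : ℕ → H →+* Λ} (x : Fin N → α → H)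
    (hμ : μ = μ') (hΦ : ∀ j < N, Φ j = Φ' j) : obs i μ Φ x = obs i μ' Φ' x := by
  refine MvPolynomial.ringHom_ext (fun c => ?_) (fun o => ?_)
  · simp [obs]
  · cases o with
    | none => simp [obs, hμ]
    | some p => simp [obs, hΦ p.1 p.1.2]

end obs

end Crest.Agent.R102.H3

namespace Crest.Agent.R102.H3

open PowerSeries Finset

section flip

variable {K H : Type*} [Field K] [CharZero K] [CommRing H] [IsDomain H] [Algebra K H]

/-- the signed roots -/
noncomputable def sgr {N : ℕ} (r : ℕ → H⟦X⟧) (e : Fin N → Bool) (j : ℕ) : H⟦X⟧ :=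
  if h : j < N then (if e ⟨j, h⟩ then r j else - r j) else 1

theorem sgr_of_lt {N : ℕ} (r : ℕ → H⟦X⟧) (e : Fin N → Bool) {j : ℕ} (h : j < N) :
    sgr r e j = if e ⟨j, h⟩ then r j else - r j := dif_pos h

/-- the structure map `K → H⟦θ⟧⟦ω⟧` -/
noncomputable def kK (K H : Type*) [Field K] [CommRing H] [Algebra K H] : K →+* H⟦X⟧⟦X⟧ :=
  ((C).comp (C)).comp (algebraMap K H)

/-- all sign patterns -/
theorem flip_chain (d : Derivation K H H) {zH g : H} (hz : d zH = 1) (hg1 : IsUnit (d g))
    (hg2 : IsUnit (dn d 2 g)) (N : ℕ) (G : ℕ → H⟦X⟧) (hG : ∀ j, constantCoeff (G j) = g)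
    (hGN : ∀ j, N ≤ j → coeff 1 (G j) = 0)
    (hν : ∀ i < N, ∀ j < N, i ≠ j → coeff 1 (G i) ≠ coeff 1 (G j))
    (hν0 : ∀ j < N, coeff 1 (G j) ≠ 0) {mh kh : H⟦X⟧}
    (hline : Ty d g = evn mh * (C zH + X) + evn kh)
    (r : ℕ → H⟦X⟧) (hr : ∀ j < N, C (dn d 2 g) * r j ^ 2 = C (dn d 2 g) - X * C (coeff 1 (G j)))
    (hr0 : ∀ j < N, constantCoeff (r j) = 1)
    {Y m k : ℕ → H⟦X⟧⟦X⟧} (hm0 : m 0 = PowerSeries.map C (evn mh))
    (hk0 : k 0 = PowerSeries.map C (evn kh))
    (hY : ∀ j < N, constantCoeff (Y j) = 2 * ∑ i ∈ range j, r i + r j)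
    (hc : Chain (cD d) (C zH) G N (fun j => pt (cD d) (bs C X) (X * Y j) (X_dvd_X_mul (Y j))) m k)
    {α : Type*} (x : Fin N → α → H⟦X⟧) (e : Fin N → Bool) :
    ∃ Ye me ke : ℕ → H⟦X⟧⟦X⟧, me 0 = PowerSeries.map C (evn mh) ∧
      ke 0 = PowerSeries.map C (evn kh) ∧
      (∀ j < N, constantCoeff (Ye j) = 2 * ∑ i ∈ range j, sgr r e i + sgr r e j) ∧
      Chain (cD d) (C zH) G N
        (fun j => pt (cD d) (bs C X) (X * Ye j) (X_dvd_X_mul (Ye j))) me ke ∧
      ∀ (P : Polynomial (MvPolynomial (Option (Fin N × α)) K)) (u : H⟦X⟧⟦X⟧),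
        P.eval₂ (obs (kK K H) (PowerSeries.map C (evn mh))
          (fun j => pt (cD d) (bs C X) (X * Y j) (X_dvd_X_mul (Y j))) x) (emb C X u) = 0 ↔
        P.eval₂ (obs (kK K H) (PowerSeries.map C (evn mh))
          (fun j => pt (cD d) (bs C X) (X * Ye j) (X_dvd_X_mul (Ye j))) x) (emb C X u) = 0 := by
  classical
  have hchar : CharZero H := charZero_of_injective_algebraMap (algebraMap K H).injective
  obtain ⟨v2, hv2⟩ := hg2
  set g2 := dn d 2 g with hg2d
  -- the parameters of the sign ring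
  let a : Fin N → H := fun j => (↑(v2⁻¹) : H) * coeff 1 (G j)
  have ha : Function.Injective a := by
    intro i j hij
    by_contra hne
    have h1 : coeff 1 (G i) = coeff 1 (G j) := v2⁻¹.isUnit.mul_right_injective hij
    exact hν i i.2 j j.2 (fun h => hne (Fin.ext h)) h1
  have ha0 : ∀ j, a j ≠ 0 := by
    intro j hj
    exact hν0 j j.2 ((v2⁻¹.isUnit.mul_right_eq_zero).1 hj)
  have hra : ∀ j : Fin N, (r j) ^ 2 = 1 - C (a j) * X := by
    intro j
    have h1 := hr j j.2
    have hu : IsUnit (C g2 : H⟦X⟧) := by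
      rw [← hv2]; exact v2.isUnit.map _
    refine hu.mul_right_injective ?_
    change C g2 * _ = C g2 * _
    rw [h1]
    have h2 : (C g2 : H⟦X⟧) * C (a j) = C (coeff 1 (G j)) := by
      rw [← map_mul]
      congr 1
      simp only [a, ← mul_assoc, ← hv2]
      simp
    rw [mul_sub, mul_one, ← mul_assoc, h2]
    ring
  obtain ⟨B, hBC, hBX, hBr, hBs, hB0⟩ :=
    Sign985.sign_flips a ha ha0 (fun j => r j) hra (fun j => hr0 j j.2)
  -- the ring `B`
  let ιB : H →+* B := RingHom.codRestrict (RingHom.pi fun _ => (C : H →+* H⟦X⟧)) B hBC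
  let θB : B := ⟨fun _ => X, hBX⟩
  let rB : ℕ → B := fun j => if h : j < N then ⟨_, hBr ⟨j, h⟩⟩ else 1
  let π : (Fin N → Bool) → (B →+* H⟦X⟧) := fun e => (Pi.evalRingHom _ e).comp B.subtype
  have hπι : ∀ e, (π e).comp ιB = C := fun e => rfl
  have hπθ : ∀ e, π e θB = X := fun e => rfl
  have hπr : ∀ e j, π e (rB j) = sgr r e j := by
    intro e j
    by_cases h : j < N
    · simp only [rB, dif_pos h, sgr]
      rfl
    · simp only [rB, dif_neg h, sgr]
      simp
  have hBext : ∀ b b' : B, (∀ e, π e b = π e b') → b = b' := fun b b' h =>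
    Subtype.ext (funext h)
  have h2H : IsUnit (2 : H) := by
    have : (2 : H) = algebraMap K H 2 := by rw [map_ofNat]
    rw [this]
    exact (Ne.isUnit two_ne_zero).map _
  have h2B : IsUnit (2 : B) := by
    have : (2 : B) = ιB 2 := by rw [map_ofNat]
    rw [this]
    exact h2H.map _
  have hg1B : IsUnit (ιB (d g)) := hg1.map _
  have hg2B : IsUnit (ιB g2) := by rw [← hv2]; exact v2.isUnit.map _
  have hruB : ∀ j, IsUnit (rB j) := by
    intro j
    by_cases h : j < N
    · obtain ⟨s, hs, hsB⟩ := hBs ⟨j, h⟩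
      refine IsUnit.of_mul_eq_one ⟨_, hsB⟩ ?_
      refine hBext _ _ fun e => ?_
      rw [map_mul, hπr, map_one, sgr_of_lt r e h]
      change _ * (if e ⟨j, h⟩ then s else - s) = 1
      split_ifs
      · exact hs
      · rw [neg_mul_neg]; exact hs
    · simp only [rB, dif_neg h, isUnit_one]
  have hrB : ∀ j, ιB g2 * rB j ^ 2 = ιB g2 - θB * ιB (coeff 1 (G j)) := by
    intro j
    refine hBext _ _ fun e => ?_
    rw [map_mul, map_pow, hπr, map_sub, map_mul, hπθ]
    have e1 : ∀ h, π e (ιB h) = C h := fun h => rfl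
    rw [e1, e1]
    by_cases h : j < N
    · rw [sgr_of_lt r e h, ← hr j h]
      split_ifs <;> ring
    · rw [sgr, dif_neg h, hGN j (not_lt.1 h)]
      simp
  have hNB := near_bs d ιB θB g G hG
  have hIB := inv_line (S := B) d ιB θB hline
  have hzz : cD d (C zH) = (1 : H⟦X⟧) := by rw [cD_C, hz, map_one]
  obtain ⟨YB, mB, kB, hmB0, hkB0, hYB, hcB, hIBj⟩ :=
    inner_exists (z := C zH) hzz h2B hg1B hg2B hNB rB hruB hrB _ _ hIB
  -- the projections
  have hproj : ∀ e, Chain (cD d) (C zH) G N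
      (fun j => pt (cD d) (bs C X) (X * PowerSeries.map (π e) (YB j)) (X_dvd_X_mul _))
      (fun j => PowerSeries.map (π e) (mB j)) (fun j => PowerSeries.map (π e) (kB j)) := by
    intro e
    have h := (hcB N).map (PowerSeries.map (π e))
    have e1 : ∀ j, (PowerSeries.map (π e)).comp
        (pt (cD d) (bs ιB θB) (X * YB j) (X_dvd_X_mul (YB j)))
        = pt (cD d) (bs C X) (X * PowerSeries.map (π e) (YB j)) (X_dvd_X_mul _) := by
      intro j
      rw [comp_pt (cD d) (PowerSeries.map (π e)) (X_dvd_map_X _)]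
      refine pt_congr _ _ _ ?_ (by simp)
      rw [map_bs, hπι, hπθ]
    simp only [e1] at h
    exact h
  have hm0e : ∀ e, PowerSeries.map (π e) (mB 0) = PowerSeries.map C (evn mh) := by
    intro e
    rw [hmB0, ← RingHom.comp_apply, ← PowerSeries.map_comp, hπι]
  have hk0e : ∀ e, PowerSeries.map (π e) (kB 0) = PowerSeries.map C (evn kh) := by
    intro e
    rw [hkB0, ← RingHom.comp_apply, ← PowerSeries.map_comp, hπι]
  have hYe : ∀ e, ∀ j, constantCoeff (PowerSeries.map (π e) (YB j))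
      = 2 * ∑ i ∈ range j, sgr r e i + sgr r e j := by
    intro e j
    have : constantCoeff (PowerSeries.map (π e) (YB j)) = π e (constantCoeff (YB j)) := by
      rw [← coeff_zero_eq_constantCoeff_apply, coeff_map, coeff_zero_eq_constantCoeff_apply]
    rw [this, hYB, map_add, map_mul, map_sum, map_ofNat, hπr]
    simp only [hπr]
  -- the given chain is the `+` chain
  let ep : Fin N → Bool := fun _ => true
  have hsp : ∀ j < N, sgr r ep j = r j := by
    intro j h
    rw [sgr_of_lt r ep h, if_pos rfl]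
  have hIH := inv_line (S := H⟦X⟧) d (C : H →+* H⟦X⟧) X hline
  have hNH := near_bs d (C : H →+* H⟦X⟧) (X : H⟦X⟧) g G hG
  have h2HH : IsUnit (2 : H⟦X⟧) := by
    have : (2 : H⟦X⟧) = C 2 := by rw [map_ofNat]
    rw [this]
    exact h2H.map _
  have hruH : ∀ j < N, IsUnit (r j) := by
    intro j hj
    rw [PowerSeries.isUnit_iff_constantCoeff, hr0 j hj]
    exact isUnit_one
  have huniq := inner_unique (z := C zH) hzz h2HH (hg1.map C) (show IsUnit (C g2 : H⟦X⟧) by rw [← hv2]; exact v2.isUnit.map C)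
    hNH r N hruH (fun j hj => hr j hj) (Y := Y) (m := m) (k := k)
    (Y' := fun j => PowerSeries.map (π ep) (YB j)) (m' := fun j => PowerSeries.map (π ep) (mB j))
    (k' := fun j => PowerSeries.map (π ep) (kB j)) (by rw [hm0, hm0e]) (by rw [hk0, hk0e])
    (by rw [hm0, hk0]; exact hIH) hY (fun j hj => ?_) hc (hproj ep)
  swap
  · change constantCoeff (PowerSeries.map (π ep) (YB j)) = _
    rw [hYe ep j, hsp j hj]
    congr 2
    refine Finset.sum_congr rfl fun i hi => hsp i ((Finset.mem_range.1 hi).trans hj)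
  have hYp : ∀ j < N, Y j = PowerSeries.map (π ep) (YB j) := huniq.2
  -- the relation in `B`
  have hcoef : ∀ (b : B⟦X⟧) (e e' : Fin N → Bool), PowerSeries.map (π e) b = 0 →
      PowerSeries.map (π e') b = 0 := by
    intro b e e' h
    ext n : 1
    rw [coeff_map, map_zero]
    have h1 := congrArg (coeff n) h
    rw [coeff_map, map_zero] at h1
    exact hB0 ((coeff (R := B) n b : B) : (Fin N → Bool) → H⟦X⟧) (coeff (R := B) n b).2 e e' h1
  have hev : ∀ (e : Fin N → Bool) (P : Polynomial (MvPolynomial (Option (Fin N × α)) K))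
      (u : H⟦X⟧⟦X⟧),
      P.eval₂ (obs (kK K H) (PowerSeries.map C (evn mh))
          (fun j => pt (cD d) (bs C X) (X * PowerSeries.map (π e) (YB j)) (X_dvd_X_mul _)) x)
          (emb C X u)
        = PowerSeries.map (π e) (P.eval₂ (obs ((C).comp (ιB.comp (algebraMap K H)))
            (PowerSeries.map ιB (evn mh))
            (fun j => pt (cD d) (bs ιB θB) (X * YB j) (X_dvd_X_mul (YB j))) x)
            (emb ιB θB u)) := by
    intro e P u
    rw [Polynomial.hom_eval₂, comp_obs, map_emb, hπι, hπθ]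
    have e1 : (PowerSeries.map (π e)).comp ((C).comp (ιB.comp (algebraMap K H))) = kK K H := by
      refine RingHom.ext fun c => ?_
      simp only [RingHom.comp_apply, map_C, kK]
      rfl
    have e2 : PowerSeries.map (π e) (PowerSeries.map ιB (evn mh)) = PowerSeries.map C (evn mh) := by
      rw [← RingHom.comp_apply, ← PowerSeries.map_comp, hπι]
    have e3 : ∀ j, (PowerSeries.map (π e)).comp
        (pt (cD d) (bs ιB θB) (X * YB j) (X_dvd_X_mul (YB j)))
        = pt (cD d) (bs C X) (X * PowerSeries.map (π e) (YB j)) (X_dvd_X_mul _) := by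
      intro j
      rw [comp_pt (cD d) (PowerSeries.map (π e)) (X_dvd_map_X _)]
      refine pt_congr _ _ _ ?_ (by simp)
      rw [map_bs, hπι, hπθ]
    rw [e1, e2]
    simp only [e3]
  refine ⟨fun j => PowerSeries.map (π e) (YB j), fun j => PowerSeries.map (π e) (mB j),
    fun j => PowerSeries.map (π e) (kB j), hm0e e, hk0e e, fun j _ => hYe e j, hproj e, ?_⟩
  intro P u
  have e4 : obs (kK K H) (PowerSeries.map C (evn mh))
      (fun j => pt (cD d) (bs C X) (X * Y j) (X_dvd_X_mul (Y j))) x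
      = obs (kK K H) (PowerSeries.map C (evn mh))
      (fun j => pt (cD d) (bs C X) (X * PowerSeries.map (π ep) (YB j)) (X_dvd_X_mul _)) x := by
    refine obs_congr _ x rfl fun j hj => ?_
    exact pt_congr _ _ _ rfl (by rw [hYp j hj])
  rw [e4, hev, hev]
  exact ⟨fun h => hcoef _ _ _ h, fun h => hcoef _ _ _ h⟩

end flip

end Crest.Agent.R102.H3
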