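import Crest.Agent.R102.RatGlueA_798
import Crest.Agent.R102.FCTA_575
import Crest.Agent.R102.Rat1C_389
import Crest.Agent.R102.Rat1A_389

-- ▼ part R102/HolXY_289
section

/-!
# Row 102, block CT, leaf HOLXY (575 #26102)

Rings of holomorphic functions of two variables `(c, ω)`: partial derivatives, composition,
restriction to `ω = 0`, Taylor series in `ω`, injectivity, the flip `ω ↦ -ω`, parity, and the
"words" form of the identity theorem.
-/

set_option autoImplicit false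
set_option linter.unusedSectionVars false

open Set Filter Topology TopologicalSpace PowerSeries

noncomputable section

namespace Crest.Agent.R102.HolXY289

open Crest.Agent.R102.H3 Crest.Agent.R102.Glue798

/-! ### (1) partial derivatives and coordinates -/

/-- `∂/∂c` -/
def Dc (U : Opens (ℂ × ℂ)) : Derivation ℂ (Hol U) (Hol U) := pdH U (1, 0)

/-- `∂/∂ω` -/
def Dw (U : Opens (ℂ × ℂ)) : Derivation ℂ (Hol U) (Hol U) := pdH U (0, 1)

/-- the coordinate `c` -/
def cH (U : Opens (ℂ × ℂ)) : Hol U := Hol.ofFun (fun p => p.1) (fun _ _ => analyticAt_fst)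

/-- the coordinate `ω` -/
def wH (U : Opens (ℂ × ℂ)) : Hol U := Hol.ofFun (fun p => p.2) (fun _ _ => analyticAt_snd)

variable {U : Opens (ℂ × ℂ)}

theorem Dc_apply (f : Hol U) (x : U) :
    (Dc U f : U → ℂ) x = fderiv ℂ (ext0 (f : U → ℂ)) x (1, 0) := rfl

theorem Dw_apply (f : Hol U) (x : U) :
    (Dw U f : U → ℂ) x = fderiv ℂ (ext0 (f : U → ℂ)) x (0, 1) := rfl

@[simp] theorem cH_apply (x : U) : (cH U : U → ℂ) x = (x : ℂ × ℂ).1 := rfl

@[simp] theorem wH_apply (x : U) : (wH U : U → ℂ) x = (x : ℂ × ℂ).2 := rfl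

theorem ext0_cH {x : ℂ × ℂ} (hx : x ∈ U) : ext0 (cH U : U → ℂ) =ᶠ[𝓝 x] fun p => p.1 :=
  eventually_ext0_eq (F := fun p : ℂ × ℂ => p.1) (f := (cH U : U → ℂ)) (fun _ => rfl) hx

theorem ext0_wH {x : ℂ × ℂ} (hx : x ∈ U) : ext0 (wH U : U → ℂ) =ᶠ[𝓝 x] fun p => p.2 :=
  eventually_ext0_eq (F := fun p : ℂ × ℂ => p.2) (f := (wH U : U → ℂ)) (fun _ => rfl) hx

theorem fderiv_fst_apply (x v : ℂ × ℂ) : fderiv ℂ (fun p : ℂ × ℂ => p.1) x v = v.1 := by
  have : HasFDerivAt (fun p : ℂ × ℂ => p.1) (ContinuousLinearMap.fst ℂ ℂ ℂ) x := hasFDerivAt_fst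
  rw [this.fderiv]; rfl

theorem fderiv_snd_apply (x v : ℂ × ℂ) : fderiv ℂ (fun p : ℂ × ℂ => p.2) x v = v.2 := by
  have : HasFDerivAt (fun p : ℂ × ℂ => p.2) (ContinuousLinearMap.snd ℂ ℂ ℂ) x := hasFDerivAt_snd
  rw [this.fderiv]; rfl

@[simp] theorem Dc_cH : Dc U (cH U) = 1 := by
  ext x
  rw [Dc_apply, (ext0_cH x.2).fderiv_eq, fderiv_fst_apply]; rfl

@[simp] theorem Dw_cH : Dw U (cH U) = 0 := by
  ext x
  rw [Dw_apply, (ext0_cH x.2).fderiv_eq, fderiv_fst_apply]; rfl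

@[simp] theorem Dc_wH : Dc U (wH U) = 0 := by
  ext x
  rw [Dc_apply, (ext0_wH x.2).fderiv_eq, fderiv_snd_apply]; rfl

@[simp] theorem Dw_wH : Dw U (wH U) = 1 := by
  ext x
  rw [Dw_apply, (ext0_wH x.2).fderiv_eq, fderiv_snd_apply]; rfl



/-! ### (2) composition -/



/-! ### (3) restriction to `ω = 0` -/

variable {D : Opens ℂ}

theorem an_slice0 (h : ∀ c ∈ D, ((c, 0) : ℂ × ℂ) ∈ U) (f : Hol U) :
    AnalyticOnNhd ℂ (fun c => ext0 (f : U → ℂ) (c, 0)) D := by
  intro c hc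
  have h1 : AnalyticAt ℂ (fun c : ℂ => ((c, 0) : ℂ × ℂ)) c := analyticAt_id.prod analyticAt_const
  exact AnalyticAt.fun_comp (g := ext0 (f : U → ℂ)) (Hol.an f _ (h c hc)) h1

/-- restriction to `ω = 0` -/
def res0 (h : ∀ c ∈ D, ((c, 0) : ℂ × ℂ) ∈ U) : Hol U →ₐ[ℂ] Hol D where
  toFun f := ⟨fun c => (f : U → ℂ) ⟨((c : ℂ), 0), h c c.2⟩,
    analyticOnNhd_ext0 (F := fun c => ext0 (f : U → ℂ) (c, 0))
      (fun c => ext0_of_mem _ (h c c.2)) (an_slice0 h f)⟩
  map_one' := rfl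
  map_mul' _ _ := rfl
  map_zero' := rfl
  map_add' _ _ := rfl
  commutes' _ := rfl

@[simp] theorem res0_apply (h : ∀ c ∈ D, ((c, 0) : ℂ × ℂ) ∈ U) (f : Hol U) (c : D) :
    (res0 h f : D → ℂ) c = (f : U → ℂ) ⟨((c : ℂ), 0), h c c.2⟩ := rfl

@[simp] theorem res0_cH (h : ∀ c ∈ D, ((c, 0) : ℂ × ℂ) ∈ U) : res0 h (cH U) = zH D := rfl

@[simp] theorem res0_wH (h : ∀ c ∈ D, ((c, 0) : ℂ × ℂ) ∈ U) : res0 h (wH U) = 0 := rfl



/-! ### (4) Taylor series in `ω` -/


/-- the Taylor series in `ω` -/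
def Tay (h : ∀ c ∈ D, ((c, 0) : ℂ × ℂ) ∈ U) : Hol U →ₐ[ℂ] (Hol D)⟦X⟧ :=
  { (PowerSeries.map (res0 h : Hol U →+* Hol D)).comp (Ty (Dw U)) with
    commutes' := fun r => by
      change PowerSeries.map (res0 h : Hol U →+* Hol D) (Ty (Dw U) (algebraMap ℂ (Hol U) r)) = _
      rw [Ty_algebraMap, map_C]
      rw [PowerSeries.algebraMap_apply]
      congr 1 }

theorem Tay_apply (h : ∀ c ∈ D, ((c, 0) : ℂ × ℂ) ∈ U) (f : Hol U) :
    Tay h f = PowerSeries.map (res0 h : Hol U →+* Hol D) (Ty (Dw U) f) := rfl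

theorem coeff_Tay (h : ∀ c ∈ D, ((c, 0) : ℂ × ℂ) ∈ U) (f : Hol U) (n : ℕ) :
    coeff n (Tay h f) = res0 h (dn (Dw U) n f) := by
  rw [Tay_apply, coeff_map, coeff_Ty]; rfl










/-! ### identity theorem on slices -/

theorem iteratedDeriv_slice (f : Hol U) (c : ℂ) (n : ℕ) :
    ∀ w : ℂ, ((c, w) : ℂ × ℂ) ∈ U →
      iteratedDeriv n (fun w => ext0 (f : U → ℂ) (c, w)) w =
        ext0 ((Dw U)^[n] f : U → ℂ) (c, w) := by
  induction n with
  | zero => intro w hw; simp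
  | succ n ih =>
    intro w hw
    rw [iteratedDeriv_succ]
    have hcont : Continuous (fun w : ℂ => ((c, w) : ℂ × ℂ)) := by fun_prop
    have hev : iteratedDeriv n (fun w => ext0 (f : U → ℂ) (c, w)) =ᶠ[𝓝 w]
        fun w => ext0 ((Dw U)^[n] f : U → ℂ) (c, w) := by
      have : ∀ᶠ w' in 𝓝 w, ((c, w') : ℂ × ℂ) ∈ U :=
        hcont.continuousAt.eventually (U.isOpen.mem_nhds hw)
      filter_upwards [this] with w' hw' using ih w' hw'
    rw [hev.deriv_eq, Function.iterate_succ_apply', ext0_of_mem _ hw, Dw_apply]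
    have h2 : HasDerivAt (fun w : ℂ => ((c, w) : ℂ × ℂ)) ((0, 1) : ℂ × ℂ) w :=
      (hasDerivAt_const w c).prodMk (hasDerivAt_id w)
    have h3 : HasFDerivAt (ext0 ((Dw U)^[n] f : U → ℂ))
        (fderiv ℂ (ext0 ((Dw U)^[n] f : U → ℂ)) (c, w)) (c, w) :=
      (Hol.an ((Dw U)^[n] f) _ hw).differentiableAt.hasFDerivAt
    exact (h3.comp_hasDerivAt w h2).deriv

theorem ofScalars_zero' : (FormalMultilinearSeries.ofScalars ℂ (fun _ : ℕ => (0 : ℂ)) :
    FormalMultilinearSeries ℂ ℂ ℂ) = 0 := by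
  ext n
  simp [FormalMultilinearSeries.ofScalars]

/-- a function of one variable all of whose derivatives at a point vanish is zero near it -/
theorem eventually_zero_of_iter {φ : ℂ → ℂ} {w : ℂ} (hφ : AnalyticAt ℂ φ w)
    (h : ∀ n, iteratedDeriv n φ w = 0) : ∀ᶠ z in 𝓝 w, φ z = 0 := by
  have h1 := hφ.hasFPowerSeriesAt
  have h2 : (fun n : ℕ => iteratedDeriv n φ w / (n.factorial : ℂ)) = fun _ => 0 := by
    funext n; rw [h n, zero_div]
  rw [h2, ofScalars_zero'] at h1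
  exact h1.eventually_eq_zero

/-- vanishing on a slice -/
theorem slice_zero (f : Hol U) {c w0 : ℂ} {S : Set ℂ} (hS : IsPreconnected S) (h0 : w0 ∈ S)
    (hSU : ∀ w ∈ S, ((c, w) : ℂ × ℂ) ∈ U)
    (hz : ∀ n, ext0 ((Dw U)^[n] f : U → ℂ) (c, w0) = 0) :
    ∀ w ∈ S, ext0 (f : U → ℂ) (c, w) = 0 := by
  have han : AnalyticOnNhd ℂ (fun w => ext0 (f : U → ℂ) (c, w)) S := by
    intro w hw
    have h1 : AnalyticAt ℂ (fun w : ℂ => ((c, w) : ℂ × ℂ)) w := analyticAt_const.prod analyticAt_id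
    exact AnalyticAt.fun_comp (g := ext0 (f : U → ℂ)) (Hol.an f _ (hSU w hw)) h1
  have h1 := eventually_zero_of_iter (han w0 h0)
    (fun n => (iteratedDeriv_slice f c n w0 (hSU w0 h0)).trans (hz n))
  exact han.eqOn_zero_of_preconnected_of_eventuallyEq_zero hS h0 h1

theorem iter_of_Tay_zero (h : ∀ c ∈ D, ((c, 0) : ℂ × ℂ) ∈ U) {f : Hol U} (hf : Tay h f = 0)
    {c : ℂ} (hc : c ∈ D) (n : ℕ) : ext0 ((Dw U)^[n] f : U → ℂ) (c, 0) = 0 := by
  have h1 := coeff_Tay h f n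
  rw [hf, map_zero, dn, map_smul] at h1
  have h2 : (n.factorial : ℂ)⁻¹ ≠ 0 := inv_ne_zero (Nat.cast_ne_zero.2 n.factorial_ne_zero)
  have h3 : res0 h ((Dw U)^[n] f) = 0 := (smul_eq_zero.1 h1.symm).resolve_left h2
  have h4 := congrArg (fun F : Hol D => (F : D → ℂ) ⟨c, hc⟩) h3
  rw [ext0_of_mem _ (h c hc)]
  exact h4

/-- **Taylor expansion is injective** if all the slices of `U` are preconnected and contain `0` -/
theorem Tay_injective_of_slices (h : ∀ c ∈ D, ((c, 0) : ℂ × ℂ) ∈ U)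
    (hD : ∀ p ∈ U, p.1 ∈ D) (hS : ∀ c ∈ D, IsPreconnected {w : ℂ | ((c, w) : ℂ × ℂ) ∈ U}) :
    Function.Injective (Tay h) := by
  rw [injective_iff_map_eq_zero]
  intro f hf
  ext x
  have hx : (x : ℂ × ℂ).1 ∈ D := hD x x.2
  have := slice_zero f (hS _ hx) (h _ hx) (fun w hw => hw)
    (fun n => iter_of_Tay_zero h hf hx n) (x : ℂ × ℂ).2 x.2
  have e := ext0_apply (f : U → ℂ) x
  rw [← e]
  exact this

/-- `D × ball 0 ρ` -/
theorem Tay_injective (h : ∀ c ∈ D, ((c, 0) : ℂ × ℂ) ∈ U) {ρ : ℝ}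
    (hU : ∀ p : ℂ × ℂ, p ∈ U ↔ p.1 ∈ D ∧ p.2 ∈ Metric.ball (0 : ℂ) ρ) :
    Function.Injective (Tay h) := by
  refine Tay_injective_of_slices h (fun p hp => ((hU p).1 hp).1) (fun c hc => ?_)
  have : {w : ℂ | ((c, w) : ℂ × ℂ) ∈ U} = Metric.ball (0 : ℂ) ρ := by
    ext w
    exact ⟨fun hw => ((hU _).1 hw).2, fun hw => (hU _).2 ⟨hc, hw⟩⟩
  rw [this]
  exact (convex_ball _ _).isPreconnected

/-- preconnected `U` -/
theorem Tay_injective_of_preconnected (h : ∀ c ∈ D, ((c, 0) : ℂ × ℂ) ∈ U)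
    (hU : IsPreconnected (U : Set (ℂ × ℂ))) (hD : (D : Set ℂ).Nonempty) :
    Function.Injective (Tay h) := by
  rw [injective_iff_map_eq_zero]
  intro f hf
  obtain ⟨c0, hc0⟩ := hD
  refine Hol.eq_zero_of_eventually hU f ⟨(c0, 0), h c0 hc0⟩ ?_
  obtain ⟨r, hr, hball⟩ := Metric.isOpen_iff.1 U.isOpen (c0, 0) (h c0 hc0)
  obtain ⟨r', hr', hball'⟩ := Metric.isOpen_iff.1 D.isOpen c0 hc0
  have hprod : ∀ p : ℂ × ℂ, p ∈ Metric.ball ((c0, 0) : ℂ × ℂ) r ↔
      p.1 ∈ Metric.ball c0 r ∧ p.2 ∈ Metric.ball (0 : ℂ) r := by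
    intro p
    rw [← ball_prod_same]
    exact Iff.rfl
  filter_upwards [Metric.ball_mem_nhds ((c0, 0) : ℂ × ℂ) hr,
    Metric.ball_mem_nhds ((c0, 0) : ℂ × ℂ) hr'] with p hp hp'
  have hp1 : p.1 ∈ D := by
    apply hball'
    have : dist p (c0, 0) < r' := hp'
    rw [Prod.dist_eq, max_lt_iff] at this
    exact this.1
  have hpp := (hprod p).1 hp
  refine slice_zero f (S := Metric.ball (0 : ℂ) r) (convex_ball _ _).isPreconnected
    (Metric.mem_ball_self hr) (fun w hw => hball ((hprod _).2 ⟨hpp.1, hw⟩))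
    (fun n => iter_of_Tay_zero h hf hp1 n) p.2 hpp.2

/-! ### (5) the flip `ω ↦ -ω` -/

/-- `f(c, ω) ↦ f(c, -ω)` -/
def flip (hs : ∀ p ∈ U, ((p.1, -p.2) : ℂ × ℂ) ∈ U) : Hol U →ₐ[ℂ] Hol U where
  toFun f := ⟨fun p => (f : U → ℂ) ⟨((p : ℂ × ℂ).1, -(p : ℂ × ℂ).2), hs p p.2⟩, by
    refine analyticOnNhd_ext0 (F := fun p => ext0 (f : U → ℂ) (p.1, -p.2))
      (fun p => ext0_of_mem _ (hs p p.2)) (fun p hp => ?_)
    have h1 : AnalyticAt ℂ (fun p : ℂ × ℂ => ((p.1, -p.2) : ℂ × ℂ)) p :=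
      analyticAt_fst.prod analyticAt_snd.neg
    exact AnalyticAt.fun_comp (g := ext0 (f : U → ℂ)) (Hol.an f _ (hs p hp)) h1⟩
  map_one' := rfl
  map_mul' _ _ := rfl
  map_zero' := rfl
  map_add' _ _ := rfl
  commutes' _ := rfl

@[simp] theorem flip_apply (hs : ∀ p ∈ U, ((p.1, -p.2) : ℂ × ℂ) ∈ U) (f : Hol U) (p : U) :
    (flip hs f : U → ℂ) p = (f : U → ℂ) ⟨((p : ℂ × ℂ).1, -(p : ℂ × ℂ).2), hs p p.2⟩ := rfl


@[simp] theorem flip_cH (hs : ∀ p ∈ U, ((p.1, -p.2) : ℂ × ℂ) ∈ U) : flip hs (cH U) = cH U := rfl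

@[simp] theorem flip_wH (hs : ∀ p ∈ U, ((p.1, -p.2) : ℂ × ℂ) ∈ U) : flip hs (wH U) = -wH U := rfl

theorem pd_flip (hs : ∀ p ∈ U, ((p.1, -p.2) : ℂ × ℂ) ∈ U) (f : Hol U) (v : ℂ × ℂ) :
    pdH U v (flip hs f) = flip hs (pdH U (v.1, -v.2) f) := by
  ext x
  rw [pdH_apply, flip_apply, pdH_apply]
  have h1 : ext0 (flip hs f : U → ℂ) =ᶠ[𝓝 (x : ℂ × ℂ)]
      fun p => ext0 (f : U → ℂ) (p.1, -p.2) :=
    eventually_ext0_eq (fun p => ext0_of_mem _ (hs p p.2)) x.2
  rw [h1.fderiv_eq]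
  have h2 : HasFDerivAt (fun p : ℂ × ℂ => ((p.1, -p.2) : ℂ × ℂ))
      ((ContinuousLinearMap.fst ℂ ℂ ℂ).prod (-(ContinuousLinearMap.snd ℂ ℂ ℂ))) (x : ℂ × ℂ) :=
    hasFDerivAt_fst.prodMk hasFDerivAt_snd.neg
  have h3 : HasFDerivAt (ext0 (f : U → ℂ))
      (fderiv ℂ (ext0 (f : U → ℂ)) ((x : ℂ × ℂ).1, -(x : ℂ × ℂ).2))
      ((x : ℂ × ℂ).1, -(x : ℂ × ℂ).2) := (Hol.an f _ (hs x x.2)).differentiableAt.hasFDerivAt
  have h4 := (h3.comp (x : ℂ × ℂ) h2).fderiv
  have h5 : (fun p : ℂ × ℂ => ext0 (f : U → ℂ) (p.1, -p.2)) =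
      ext0 (f : U → ℂ) ∘ fun p : ℂ × ℂ => ((p.1, -p.2) : ℂ × ℂ) := rfl
  rw [h5, h4]
  rfl


theorem pdH_neg (v : ℂ × ℂ) (f : Hol U) : pdH U (-v) f = -pdH U v f := by
  ext x
  rw [pdH_apply, map_neg]
  rfl

theorem Dw_flip (hs : ∀ p ∈ U, ((p.1, -p.2) : ℂ × ℂ) ∈ U) (f : Hol U) :
    Dw U (flip hs f) = -flip hs (Dw U f) := by
  have := pd_flip hs f (0, 1)
  have e : (((0, 1) : ℂ × ℂ).1, -((0, 1) : ℂ × ℂ).2) = -((0, 1) : ℂ × ℂ) := by simp
  rw [e, pdH_neg, map_neg] at this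
  exact this

theorem iter_flip (hs : ∀ p ∈ U, ((p.1, -p.2) : ℂ × ℂ) ∈ U) (f : Hol U) (n : ℕ) :
    (Dw U)^[n] (flip hs f) = (-1 : ℂ) ^ n • flip hs ((Dw U)^[n] f) := by
  induction n with
  | zero => simp
  | succ n ih =>
    rw [Function.iterate_succ_apply', ih, (Dw U).map_smul, Dw_flip, Function.iterate_succ_apply',
      pow_succ, mul_smul, neg_one_smul, smul_neg]

theorem res0_flip (h : ∀ c ∈ D, ((c, 0) : ℂ × ℂ) ∈ U)
    (hs : ∀ p ∈ U, ((p.1, -p.2) : ℂ × ℂ) ∈ U) (f : Hol U) :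
    res0 h (flip hs f) = res0 h f := by
  ext c
  rw [res0_apply, flip_apply, res0_apply]
  exact congrArg (f : U → ℂ) (Subtype.ext (Prod.ext rfl neg_zero))

theorem coeff_Tay_flip (h : ∀ c ∈ D, ((c, 0) : ℂ × ℂ) ∈ U)
    (hs : ∀ p ∈ U, ((p.1, -p.2) : ℂ × ℂ) ∈ U) (f : Hol U) (n : ℕ) :
    coeff n (Tay h (flip hs f)) = (-1) ^ n * coeff n (Tay h f) := by
  rw [coeff_Tay, coeff_Tay, dn, dn, iter_flip, map_smul, map_smul, map_smul, res0_flip]
  have e : ((-1 : Hol D)) ^ n = algebraMap ℂ (Hol D) ((-1) ^ n) := by simp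
  rw [e, ← Algebra.smul_def, smul_comm]





/-! ### even functions -/

theorem coeff_evn {H : Type*} [CommRing H] (F : H⟦X⟧) (n : ℕ) :
    coeff n (evn F) = if Even n then coeff (n / 2) F else 0 := by
  have h := X_pow_dvd_evS C X_dvd_X2 F (n + 1)
  rw [X_pow_dvd_iff] at h
  have h1 := h n (Nat.lt_succ_self n)
  rw [map_sub, sub_eq_zero] at h1
  change coeff n (evS C (X ^ 2) X_dvd_X2 F) = _
  rw [h1, map_sum]
  have h2 : ∀ m, coeff n (C (coeff m F) * ((X : H⟦X⟧) ^ 2) ^ m) =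
      if n = 2 * m then coeff m F else 0 := by
    intro m
    rw [← pow_mul, coeff_C_mul, coeff_X_pow]
    split_ifs <;> simp
  simp only [h2]
  split_ifs with hn
  · obtain ⟨k, rfl⟩ := hn
    rw [Finset.sum_eq_single k]
    · rw [if_pos (by ring)]
      congr 2
      omega
    · intro m _ hm
      rw [if_neg (by omega)]
    · intro hk
      exact absurd (Finset.mem_range.2 (by omega)) hk
  · refine Finset.sum_eq_zero fun m _ => ?_
    rw [if_neg]
    rintro rfl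
    exact hn (even_two_mul m)

theorem eq_evn_iff {H : Type*} [CommRing H] (G : H⟦X⟧) :
    (∃ F, G = evn F) ↔ ∀ n, ¬ Even n → coeff n G = 0 := by
  constructor
  · rintro ⟨F, rfl⟩ n hn
    rw [coeff_evn, if_neg hn]
  · intro h
    refine ⟨PowerSeries.mk fun n => coeff (2 * n) G, ?_⟩
    ext n
    rw [coeff_evn]
    split_ifs with hn
    · rw [coeff_mk]
      obtain ⟨k, rfl⟩ := hn
      have : 2 * ((k + k) / 2) = k + k := by omega
      rw [this]
    · exact h n hn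

theorem neg_one_pow_mul_apply (n : ℕ) (f : Hol D) (x : D) :
    (((-1) ^ n * f : Hol D) : D → ℂ) x = (-1) ^ n * (f : D → ℂ) x := by
  simp

/-- an even function has an even Taylor series -/
theorem Tay_even (h : ∀ c ∈ D, ((c, 0) : ℂ × ℂ) ∈ U)
    (hs : ∀ p ∈ U, ((p.1, -p.2) : ℂ × ℂ) ∈ U) {f : Hol U} (hf : flip hs f = f) :
    ∃ F, Tay h f = evn F := by
  rw [eq_evn_iff]
  intro n hn
  have h1 := coeff_Tay_flip h hs f n
  rw [hf] at h1
  ext x
  have h2 := congrArg (fun F : Hol D => (F : D → ℂ) x) h1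
  simp only [neg_one_pow_mul_apply, (Nat.not_even_iff_odd.1 hn).neg_one_pow] at h2
  have h3 : (2 : ℂ) * ((coeff n (Tay h f) : Hol D) : D → ℂ) x = 0 := by linear_combination h2
  simpa using h3



/-! ### words -/

/-- if all mixed derivatives of `f` at one point of the preconnected set `U` vanish, `f = 0` -/
theorem eq_zero_of_mixed (hU : IsPreconnected (U : Set (ℂ × ℂ))) (f : Hol U) (p : U)
    (h : ∀ m n : ℕ, evH p ((Dc U)^[m] ((Dw U)^[n] f)) = 0) : f = 0 := by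
  refine Hol.eq_zero_of_eventually hU f p ?_
  obtain ⟨r, hr, hball⟩ := Metric.isOpen_iff.1 U.isOpen (p : ℂ × ℂ) p.2
  have hprod : ∀ q : ℂ × ℂ, q ∈ Metric.ball (p : ℂ × ℂ) r ↔
      q.1 ∈ Metric.ball (p : ℂ × ℂ).1 r ∧ q.2 ∈ Metric.ball (p : ℂ × ℂ).2 r := by
    intro q
    have : Metric.ball (p : ℂ × ℂ) r =
        Metric.ball (p : ℂ × ℂ).1 r ×ˢ Metric.ball (p : ℂ × ℂ).2 r := by
      rw [ball_prod_same]
    rw [this]
    exact Iff.rfl
  -- the horizontal line through `p`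
  have hline : ∀ g : Hol U, (∀ m : ℕ, evH p ((Dc U)^[m] g) = 0) →
      ∀ c ∈ Metric.ball (p : ℂ × ℂ).1 r, ext0 (g : U → ℂ) (c, (p : ℂ × ℂ).2) = 0 := by
    intro g hg
    have hmem : ∀ c ∈ Metric.ball (p : ℂ × ℂ).1 r, ((c, (p : ℂ × ℂ).2) : ℂ × ℂ) ∈ U := fun c hc =>
      hball ((hprod _).2 ⟨hc, Metric.mem_ball_self hr⟩)
    have key : ∀ n : ℕ, ∀ c ∈ Metric.ball (p : ℂ × ℂ).1 r,
        iteratedDeriv n (fun c => ext0 (g : U → ℂ) (c, (p : ℂ × ℂ).2)) c =
          ext0 ((Dc U)^[n] g : U → ℂ) (c, (p : ℂ × ℂ).2) := by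
      intro n
      induction n with
      | zero => intro c _; simp
      | succ n ih =>
        intro c hc
        rw [iteratedDeriv_succ]
        have hev : iteratedDeriv n (fun c => ext0 (g : U → ℂ) (c, (p : ℂ × ℂ).2)) =ᶠ[𝓝 c]
            fun c => ext0 ((Dc U)^[n] g : U → ℂ) (c, (p : ℂ × ℂ).2) := by
          filter_upwards [Metric.isOpen_ball.mem_nhds hc] with c' hc' using ih c' hc'
        rw [hev.deriv_eq, Function.iterate_succ_apply', ext0_of_mem _ (hmem c hc), Dc_apply]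
        have h2 : HasDerivAt (fun c : ℂ => ((c, (p : ℂ × ℂ).2) : ℂ × ℂ)) ((1, 0) : ℂ × ℂ) c :=
          (hasDerivAt_id c).prodMk (hasDerivAt_const c _)
        have h3 : HasFDerivAt (ext0 ((Dc U)^[n] g : U → ℂ))
            (fderiv ℂ (ext0 ((Dc U)^[n] g : U → ℂ)) (c, (p : ℂ × ℂ).2)) (c, (p : ℂ × ℂ).2) :=
          (Hol.an ((Dc U)^[n] g) _ (hmem c hc)).differentiableAt.hasFDerivAt
        exact (h3.comp_hasDerivAt c h2).deriv
    have han : AnalyticOnNhd ℂ (fun c => ext0 (g : U → ℂ) (c, (p : ℂ × ℂ).2))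
        (Metric.ball (p : ℂ × ℂ).1 r) := by
      intro c hc
      have h1 : AnalyticAt ℂ (fun c : ℂ => ((c, (p : ℂ × ℂ).2) : ℂ × ℂ)) c :=
        analyticAt_id.prod analyticAt_const
      exact AnalyticAt.fun_comp (g := ext0 (g : U → ℂ)) (Hol.an g _ (hmem c hc)) h1
    have hz : ∀ n, iteratedDeriv n (fun c => ext0 (g : U → ℂ) (c, (p : ℂ × ℂ).2))
        (p : ℂ × ℂ).1 = 0 := by
      intro n
      rw [key n _ (Metric.mem_ball_self hr)]
      have := hg n
      rw [evH_apply] at this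
      have e := ext0_apply ((Dc U)^[n] g : U → ℂ) p
      rw [this] at e
      exact e
    have h1 := eventually_zero_of_iter (han _ (Metric.mem_ball_self hr)) hz
    exact han.eqOn_zero_of_preconnected_of_eventuallyEq_zero (convex_ball _ _).isPreconnected
      (Metric.mem_ball_self hr) h1
  filter_upwards [Metric.ball_mem_nhds (p : ℂ × ℂ) hr] with q hq
  have hqq := (hprod q).1 hq
  refine slice_zero f (c := q.1) (S := Metric.ball (p : ℂ × ℂ).2 r)
    (convex_ball _ _).isPreconnected (Metric.mem_ball_self hr)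
    (fun w hw => hball ((hprod _).2 ⟨hqq.1, hw⟩)) (fun n => ?_) q.2 hqq.2
  exact hline ((Dw U)^[n] f) (fun m => h m n) q.1 hqq.1

section words

variable {ι : Type*} (del : ι → Derivation ℂ (Hol U) (Hol U))

/-- the elements all of whose words vanish at `p` form an ideal stable under the derivations -/
def wordIdeal (p : U) : Ideal (Hol U) where
  carrier := {g | ∀ l : List ι, evH p (l.foldl (fun x i => del i x) g) = 0}
  add_mem' := by
    intro a b ha hb l
    have key : ∀ (l : List ι) (a b : Hol U), l.foldl (fun x i => del i x) (a + b) =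
        l.foldl (fun x i => del i x) a + l.foldl (fun x i => del i x) b := by
      intro l
      induction l with
      | nil => intro a b; rfl
      | cons i l ih =>
        intro a b
        rw [List.foldl_cons, List.foldl_cons, List.foldl_cons, map_add, ih]
    rw [key, map_add, ha l, hb l, add_zero]
  zero_mem' := by
    intro l
    have key : ∀ l : List ι, l.foldl (fun x i => del i x) (0 : Hol U) = 0 := by
      intro l
      induction l with
      | nil => rfl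
      | cons i l ih => rw [List.foldl_cons, map_zero, ih]
    rw [key, map_zero]
  smul_mem' := by
    intro a g hg l
    have keya : ∀ (l : List ι) (a b : Hol U), l.foldl (fun x i => del i x) (a + b) =
        l.foldl (fun x i => del i x) a + l.foldl (fun x i => del i x) b := by
      intro l
      induction l with
      | nil => intro a b; rfl
      | cons i l ih =>
        intro a b
        rw [List.foldl_cons, List.foldl_cons, List.foldl_cons, map_add, ih]
    have key : ∀ (l : List ι) (a g : Hol U),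
        (∀ l' : List ι, evH p (l'.foldl (fun x i => del i x) g) = 0) →
        evH p (l.foldl (fun x i => del i x) (a * g)) = 0 := by
      intro l
      induction l with
      | nil =>
        intro a g hg
        have := hg []
        rw [List.foldl_nil] at this ⊢
        rw [map_mul, this, mul_zero]
      | cons i l ih =>
        intro a g hg
        rw [List.foldl_cons, Derivation.leibniz, smul_eq_mul, smul_eq_mul, keya, map_add,
          ih a (del i g) (fun l' => hg (i :: l')), mul_comm g, ih (del i a) g hg, add_zero]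
    exact key l a g hg


theorem wordIdeal_stable {p : U} {g : Hol U} (hg : g ∈ wordIdeal del p) (i : ι) :
    del i g ∈ wordIdeal del p := fun l => hg (i :: l)

theorem ev_of_mem {p : U} {g : Hol U} (hg : g ∈ wordIdeal del p) : evH p g = 0 := hg []

/-- **words form of the identity theorem**: `∂_c` and `∂_ω` are combinations of the derivations
`del i` with coefficients in `Hol U` -/
theorem eq_zero_of_words [Fintype ι] (hU : IsPreconnected (U : Set (ℂ × ℂ))) (a b : ι → Hol U)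
    (hc : ∀ g, Dc U g = ∑ i, a i * del i g) (hw : ∀ g, Dw U g = ∑ i, b i * del i g)
    (f : Hol U) (p : U)
    (h : ∀ l : List ι, evH p (l.foldl (fun x i => del i x) f) = 0) : f = 0 := by
  have hf : f ∈ wordIdeal del p := h
  have sc : ∀ g ∈ wordIdeal del p, Dc U g ∈ wordIdeal del p := by
    intro g hg
    rw [hc]
    exact Ideal.sum_mem _ fun i _ => Ideal.mul_mem_left _ _ (wordIdeal_stable del hg i)
  have sw : ∀ g ∈ wordIdeal del p, Dw U g ∈ wordIdeal del p := by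
    intro g hg
    rw [hw]
    exact Ideal.sum_mem _ fun i _ => Ideal.mul_mem_left _ _ (wordIdeal_stable del hg i)
  have iw : ∀ n : ℕ, (Dw U)^[n] f ∈ wordIdeal del p := by
    intro n
    induction n with
    | zero => exact hf
    | succ n ih => rw [Function.iterate_succ_apply']; exact sw _ ih
  have ic : ∀ m n : ℕ, (Dc U)^[m] ((Dw U)^[n] f) ∈ wordIdeal del p := by
    intro m n
    induction m with
    | zero => exact iw n
    | succ m ih => rw [Function.iterate_succ_apply']; exact sc _ ih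
  exact eq_zero_of_mixed hU f p fun m n => ev_of_mem del (ic m n)

/-- the same with `foldr` -/
theorem eq_zero_of_words' [Fintype ι] (hU : IsPreconnected (U : Set (ℂ × ℂ))) (a b : ι → Hol U)
    (hc : ∀ g, Dc U g = ∑ i, a i * del i g) (hw : ∀ g, Dw U g = ∑ i, b i * del i g)
    (f : Hol U) (p : U)
    (h : ∀ l : List ι, evH p (l.foldr (fun i x => del i x) f) = 0) : f = 0 := by
  refine eq_zero_of_words del hU a b hc hw f p fun l => ?_
  have := h l.reverse
  rwa [List.foldr_reverse] at this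

end words

end Crest.Agent.R102.HolXY289
end
end

-- ▼ part R102/Rat1D_389

/-!
Row 102, [H3], theorem (RAT), RAT-1, part D: normalisation of the deformed mirrors; a deformation
which does not move the mirrors is trivial.
-/

set_option linter.unusedSectionVars false
set_option autoImplicit false

namespace Crest.Agent.R102.H3

open PowerSeries Finset

section normalise

variable {K H A0 : Type*} [Field K] [CharZero K] [CommRing H] [Algebra K H] [CommRing A0]
  [Algebra K A0]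

/-- the points as algebra homomorphisms -/
theorem pt_algebraMap {S : Type*} [CommRing S] [Algebra K S] (d : Derivation K H H)
    (φ : H →+* S⟦X⟧) {y : S⟦X⟧} (hy : X ∣ y) (c : K) :
    pt d φ y hy (algebraMap K H c) = φ (algebraMap K H c) :=
  pt_const d φ hy (Derivation.map_algebraMap d c)

/-- **normalisation**: `z` undeformed -/
theorem normalise (d : Derivation K H H) {z : H} (hz : d z = 1) (ε : H →ₐ[K] K)
    (d0 : Derivation K A0 A0) (z0 : A0)
    (hz0 : d0 z0 = 1) (ρ : A0 →ₐ[K] H) (hρz : ρ z0 = z) (Φ : A0 →ₐ[K] H⟦X⟧)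
    (hΦd : ∀ a, Φ (d0 a) = cD d (Φ a)) (hΦc : ∀ a, constantCoeff (Φ a) = ρ a) :
    ∃ (F : A0 →ₐ[K] H⟦X⟧) (w : K⟦X⟧) (hw : X ∣ w), (∀ a, F (d0 a) = cD d (F a)) ∧
      F z0 = C z ∧ (∀ a, constantCoeff (F a) = ρ a) ∧
      ∀ a, PowerSeries.map (ε : H →+* K) (Φ a) =
        pt (cD d) (PowerSeries.map (ε : H →+* K)) w hw (F a) := by
  have hzz : cD d (C z) = (1 : H⟦X⟧) := by rw [cD_C, hz, map_one]
  set c : H⟦X⟧ := Φ z0 - C z with hc
  have hdc : cD d c = 0 := by
    rw [hc, map_sub, ← hΦd, hz0, map_one, hzz, sub_self]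
  have hcX : X ∣ c := by
    rw [X_dvd_iff, hc, map_sub, hΦc, constantCoeff_C, hρz, sub_self]
  have hcX' : X ∣ -c := (dvd_neg).2 hcX
  set w : K⟦X⟧ := PowerSeries.map (ε : H →+* K) c with hwd
  have hw : X ∣ w := by
    have h := map_dvd (PowerSeries.map (ε : H →+* K)) hcX
    rwa [map_X] at h
  -- the homomorphism
  set P : H⟦X⟧ →+* H⟦X⟧ := pt (cD d) (RingHom.id H⟦X⟧) (-c) hcX' with hP
  let F : A0 →ₐ[K] H⟦X⟧ :=
    { (P.comp (Φ : A0 →+* H⟦X⟧)) with
      commutes' := by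
        intro r
        change P (Φ (algebraMap K A0 r)) = _
        rw [AlgHom.commutes, hP, pt_algebraMap]
        rfl }
  have hF : ∀ a, F a = P (Φ a) := fun a => rfl
  have hPd : ∀ f, cD d (P f) = P (cD d f) := by
    intro f
    have h1 := cD_pt (cD d) d (RingHom.id H⟦X⟧) 1 (fun f => by simp) hcX' f
    rw [map_neg, hdc, neg_zero, add_zero, mul_one] at h1
    exact h1
  refine ⟨F, w, hw, fun a => ?_, ?_, fun a => ?_, fun a => ?_⟩
  · rw [hF, hF, hPd, hΦd]
  · have h1 : Φ z0 = C z + c := by rw [hc]; ring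
    rw [hF, h1, map_add, hP, pt_coord (cD d) _ hcX' hzz, pt_const (cD d) _ hcX' hdc]
    simp
  · rw [hF, hP, constantCoeff_pt]
    exact hΦc a
  · set χ : H⟦X⟧ →+* K⟦X⟧ := pt (cD d) (PowerSeries.map (ε : H →+* K)) w hw with hχ
    have h1 : χ (-c) = -w := by
      rw [map_neg, hχ, pt_const (cD d) _ hw hdc]
    have h2 : X ∣ χ (-c) := by rw [h1]; exact (dvd_neg).2 hw
    have h3 := map_pt_of_dvd (cD d) χ (RingHom.id H⟦X⟧) hcX' h2
    have h4 : χ (F a) = (χ.comp P) (Φ a) := rfl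
    rw [h4, hP, h3, RingHom.comp_id]
    have h5 : pt (cD d) χ (χ (-c)) h2 =
        pt (cD d) (PowerSeries.map (ε : H →+* K)) (w + (-w)) (dvd_add hw ((dvd_neg).2 hw)) := by
      rw [← pt_pt (cD d) (PowerSeries.map (ε : H →+* K)) hw ((dvd_neg).2 hw)]
      exact pt_congr (cD d) _ _ rfl h1
    rw [h5]
    have h6 : pt (cD d) (PowerSeries.map (ε : H →+* K)) (w + (-w)) (dvd_add hw ((dvd_neg).2 hw))
        = pt (cD d) (PowerSeries.map (ε : H →+* K)) 0 (dvd_zero _) :=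
      pt_congr (cD d) _ _ rfl (add_neg_cancel w)
    rw [h6, pt_zero]

end normalise

section kills

variable {K H A A0 : Type*} [Field K] [CharZero K] [CommRing H] [Algebra K H]
  [CommRing A] [Algebra K A] [CommRing A0] [Algebra K A0]

theorem coeff_one_mul' {R : Type*} [CommRing R] (f g : R⟦X⟧) :
    coeff 1 (f * g) = constantCoeff f * coeff 1 g + constantCoeff g * coeff 1 f := by
  rw [coeff_mul, Finset.Nat.antidiagonal_succ]
  simp
  ring

theorem coeff_one_pt (d : Derivation K H H) (φ : H →+* K) (w : K⟦X⟧) (hw : X ∣ w) (f : H⟦X⟧) :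
    coeff 1 (pt (cD d) (PowerSeries.map φ) w hw f) =
      φ (coeff 1 f) + φ (d (constantCoeff f)) * coeff 1 w := by
  obtain ⟨q, hq⟩ := pt_eq (cD d) (PowerSeries.map φ) hw f 2
  have hw0 : constantCoeff w = 0 := X_dvd_iff.1 hw
  rw [hq, Finset.sum_range_succ, Finset.sum_range_one, dn_zero, dn_one, pow_zero, mul_one,
    pow_one, map_add, map_add, coeff_one_mul', coeff_one_mul', pow_two, coeff_one_mul',
    map_mul, hw0, coeff_map, constantCoeff_map]
  have h : constantCoeff (cD d f) = d (constantCoeff f) := by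
    rw [← coeff_zero_eq_constantCoeff_apply, coeff_cD, coeff_zero_eq_constantCoeff_apply]
  rw [h]
  ring

/-- a deformation which does not move the mirrors is trivial on the chain -/
theorem kills (d : Derivation K H H) {z : H} (hz : d z = 1)
    (d0 : Derivation K A0 A0) (z0 g0 : A0)
    (F : ℕ → A0 →ₐ[K] H⟦X⟧) (hFd : ∀ i a, F i (d0 a) = cD d (F i a))
    (hFz : ∀ i, F i z0 = C z)
    (N : ℕ) (ε : ℕ → H →+* K) (ψ : A →ₐ[K] K⟦X⟧)
    (σ : ℕ → A0 →ₐ[K] A) (mA kA μA τA : ℕ → A)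
    (hAinc : ∀ i < N, σ i g0 = mA i * σ i z0 + kA i)
    (hAinc' : ∀ i < N, σ i g0 = mA (i + 1) * σ i z0 + kA (i + 1))
    (hArefl : ∀ i < N, mA (i + 1) * mA i = (σ i (d0 g0)) ^ 2)
    (hμA : ∀ i < N, μA i * mA i = 1) (hτA : ∀ i < N, τA i * (σ i (d0 g0) - mA i) = 1)
    (h0 : coeff 1 (ψ (mA 0)) = 0) (h0' : coeff 1 (ψ (kA 0)) = 0)
    (w : ℕ → K⟦X⟧) (hw : ∀ i, X ∣ w i)
    (hψ : ∀ i < N, ∀ a, ψ (σ i a) = pt (cD d) (PowerSeries.map (ε i)) (w i) (hw i) (F i a))
    (hν : ∀ i < N, coeff 1 (F i g0) = 0) :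
    (∀ i ≤ N, coeff 1 (ψ (mA i)) = 0 ∧ coeff 1 (ψ (kA i)) = 0) ∧
      ∀ i < N, coeff 1 (ψ (σ i z0)) = 0 ∧ ∀ r, coeff 1 (ψ (σ i (d0^[r] g0))) = 0 := by
  have hδ : ∀ a b, coeff 1 (ψ (a * b)) =
      constantCoeff (ψ a) * coeff 1 (ψ b) + constantCoeff (ψ b) * coeff 1 (ψ a) := by
    intro a b
    rw [map_mul, coeff_one_mul']
  have hF1 : ∀ i < N, ∀ r, coeff 1 (F i (d0^[r] g0)) = 0 := by
    intro i hi r
    induction r with
    | zero => exact hν i hi
    | succ r ih => rw [Function.iterate_succ_apply', hFd, coeff_cD, ih, map_zero]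
  have hδz : ∀ i < N, coeff 1 (ψ (σ i z0)) = coeff 1 (w i) := by
    intro i hi
    rw [hψ i hi, coeff_one_pt, hFz, constantCoeff_C, hz, map_one, one_mul, coeff_C]
    simp
  have hδg : ∀ i < N, ∀ r, coeff 1 (ψ (σ i (d0^[r] g0))) =
      constantCoeff (ψ (σ i (d0^[r + 1] g0))) * coeff 1 (w i) := by
    intro i hi r
    rw [hψ i hi, coeff_one_pt, hF1 i hi, map_zero, zero_add, hψ i hi, constantCoeff_pt,
      constantCoeff_map, Function.iterate_succ_apply', hFd, constantCoeff_cD]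
  have key : ∀ i ≤ N, (coeff 1 (ψ (mA i)) = 0 ∧ coeff 1 (ψ (kA i)) = 0) ∧
      ∀ j < i, coeff 1 (w j) = 0 := by
    intro i
    induction i with
    | zero => intro _; exact ⟨⟨h0, h0'⟩, fun j hj => absurd hj (by omega)⟩
    | succ i ih =>
      intro hi
      have hi' : i < N := hi
      obtain ⟨⟨h1, h2⟩, h3⟩ := ih hi'.le
      have e1 := congrArg (fun a => coeff 1 (ψ a)) (hAinc i hi')
      simp only [map_add] at e1
      rw [hδ, h1, h2, hδz i hi'] at e1
      have e2 := hδg i hi' 0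
      rw [Function.iterate_zero, id, zero_add, Function.iterate_one] at e2
      rw [e2] at e1
      have e3 := congrArg (fun a => constantCoeff (ψ a)) (hτA i hi')
      simp only [map_mul, map_sub, map_one] at e3
      have hwi : coeff 1 (w i) = 0 := by
        linear_combination constantCoeff (ψ (τA i)) * e1 - coeff 1 (w i) * e3
      have e4 := congrArg (fun a => coeff 1 (ψ a)) (hArefl i hi')
      simp only [pow_two] at e4
      have e5 := hδg i hi' 1
      rw [Function.iterate_one, hwi, mul_zero] at e5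
      rw [hδ, hδ, h1, e5] at e4
      have e6 := congrArg (fun a => constantCoeff (ψ a)) (hμA i hi')
      simp only [map_mul, map_one] at e6
      have hm' : coeff 1 (ψ (mA (i + 1))) = 0 := by
        linear_combination constantCoeff (ψ (μA i)) * e4 - coeff 1 (ψ (mA (i + 1))) * e6
      have e7 := congrArg (fun a => coeff 1 (ψ a)) (hAinc' i hi')
      simp only [map_add] at e7
      rw [hδ, hm', hδz i hi', hwi, e2, hwi] at e7
      have hk' : coeff 1 (ψ (kA (i + 1))) = 0 := by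
        linear_combination -e7
      refine ⟨⟨hm', hk'⟩, fun j hj => ?_⟩
      rcases Nat.lt_succ_iff_lt_or_eq.1 hj with h4 | h4
      · exact h3 j h4
      · rw [h4]; exact hwi
  refine ⟨fun i hi => (key i hi).1, fun i hi => ⟨?_, fun r => ?_⟩⟩
  · rw [hδz i hi]; exact (key N le_rfl).2 i hi
  · rw [hδg i hi, (key N le_rfl).2 i hi, mul_zero]

/-- the elements killed by `coeff 1 ∘ ψ` -/
theorem kills_adjoin (ψ : A →ₐ[K] K⟦X⟧) (s : Set A) (h : ∀ a ∈ s, coeff 1 (ψ a) = 0) {P Q y : A}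
    (hP : P ∈ Algebra.adjoin K s) (hQ : Q ∈ Algebra.adjoin K s) (hy : Q * y = P)
    (hQ0 : constantCoeff (ψ Q) ≠ 0) : coeff 1 (ψ y) = 0 := by
  have h1 : ∀ a ∈ Algebra.adjoin K s, coeff 1 (ψ a) = 0 := by
    intro a ha
    induction ha using Algebra.adjoin_induction with
    | mem x hx => exact h x hx
    | algebraMap r =>
      rw [AlgHom.commutes, PowerSeries.algebraMap_apply, coeff_C]
      simp
    | add x y _ _ hx hy => rw [map_add, map_add, hx, hy, add_zero]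
    | mul x y _ _ hx hy => rw [map_mul, coeff_one_mul', hx, hy, mul_zero, mul_zero, add_zero]
  have h2 := congrArg (fun a => coeff 1 (ψ a)) hy
  simp only [map_mul] at h2
  rw [coeff_one_mul', h1 P hP, h1 Q hQ, mul_zero, add_zero] at h2
  exact (mul_eq_zero.1 h2).resolve_left hQ0

end kills

end Crest.Agent.R102.H3
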