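import Mathlib
import Crest.Agent.R102.Hol_575
import Crest.Agent.R102.Form_575

-- ▼ part R102/F1_201
section

/-!
# Row 102, [H3], F1 (helper201): linear ODEs on a disc and formal deformations

(F1a) `lin_ode` : a linear ODE with holomorphic coefficients on a disc has a solution on the disc
with any prescribed value at any point of the disc; `lin_ode_unique`.
-/

set_option autoImplicit false

open Set Filter Topology Metric

noncomputable section

namespace Crest.Agent.R102.F1201

section LinODE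

variable {E : Type*} [NormedAddCommGroup E] [NormedSpace ℂ E]

/-- growth of a primitive along a segment. -/
theorem prim_bound {V : Set ℂ} (hVc : Convex ℝ V) {b0 : ℂ} (hb : b0 ∈ V)
    {g G : ℂ → E} (hG : ∀ z ∈ V, HasDerivAt G (g z) z) (h0 : G b0 = 0) {C : ℝ} {m : ℕ}
    (hg : ∀ z ∈ V, ‖g z‖ ≤ C * ‖z - b0‖ ^ m) {z : ℂ} (hz : z ∈ V) :
    ‖G z‖ ≤ C * ‖z - b0‖ ^ (m + 1) / (m + 1) := by
  set γ : ℝ → ℂ := fun t => b0 + (t : ℂ) * (z - b0) with hγ
  have hseg : ∀ t ∈ Icc (0 : ℝ) 1, γ t ∈ V := by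
    intro t ht
    have := hVc.add_smul_sub_mem hb hz ht
    simpa [hγ, Complex.real_smul] using this
  have hγd : ∀ t : ℝ, HasDerivAt γ (z - b0) t := by
    intro t
    have h1 : HasDerivAt (fun t : ℝ => (t : ℂ)) 1 t := Complex.ofRealCLM.hasDerivAt
    have h2 := (h1.mul_const (z - b0)).const_add b0
    rw [one_mul] at h2
    exact h2
  have hd : ∀ t ∈ Icc (0 : ℝ) 1, HasDerivAt (fun t => G (γ t)) ((z - b0) • g (γ t)) t := by
    intro t ht
    exact (hG (γ t) (hseg t ht)).scomp t (hγd t)
  have key := image_norm_le_of_norm_deriv_right_le_deriv_boundary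
    (f := fun t : ℝ => G (γ t)) (f' := fun t => (z - b0) • g (γ t)) (a := 0) (b := 1)
    (fun t ht => (hd t ht).continuousAt.continuousWithinAt)
    (fun t ht => (hd t (Ico_subset_Icc_self ht)).hasDerivWithinAt)
    (B := fun t => C * ‖z - b0‖ ^ (m + 1) * t ^ (m + 1) / (m + 1))
    (B' := fun t => C * ‖z - b0‖ ^ (m + 1) * t ^ m)
    (by simp [hγ, h0])
    (by
      intro t
      have h1 := ((hasDerivAt_pow (m + 1) t).const_mul (C * ‖z - b0‖ ^ (m + 1))).div_const
        ((m : ℝ) + 1)
      refine h1.congr_deriv ?_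
      have : (m : ℝ) + 1 ≠ 0 := by positivity
      rw [Nat.add_sub_cancel]
      push_cast
      field_simp)
    (by
      intro t ht
      have h1 := hg (γ t) (hseg t (Ico_subset_Icc_self ht))
      have h2 : ‖γ t - b0‖ = t * ‖z - b0‖ := by
        simp [hγ, abs_of_nonneg ht.1]
      rw [h2] at h1
      calc ‖(z - b0) • g (γ t)‖ = ‖z - b0‖ * ‖g (γ t)‖ := norm_smul _ _
        _ ≤ ‖z - b0‖ * (C * (t * ‖z - b0‖) ^ m) := by gcongr
        _ = C * ‖z - b0‖ ^ (m + 1) * t ^ m := by ring)
    (right_mem_Icc.mpr zero_le_one)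
  simpa [hγ] using key

/-- the solution operator of `G' = g`, `G b0 = 0` on a ball. -/
theorem exists_prim [CompleteSpace E] {z0 : ℂ} {r : ℝ} (b0 : ℂ) {g : ℂ → E}
    (hg : DifferentiableOn ℂ g (ball z0 r)) :
    ∃ G : ℂ → E, G b0 = 0 ∧ ∀ z ∈ ball z0 r, HasDerivAt G (g z) z :=
  hg.isExactOn_ball.with_val_at b0 0

theorem diffOn_of {V : Set ℂ} {g G : ℂ → E} (hG : ∀ z ∈ V, HasDerivAt G (g z) z) :
    DifferentiableOn ℂ G V :=
  fun z hz => (hG z hz).differentiableAt.differentiableWithinAt


/-- **(F1a)** a linear ODE with holomorphic coefficients on a disc. -/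
theorem lin_ode [CompleteSpace E] {z0 : ℂ} {r : ℝ} {b0 : ℂ} (hb : b0 ∈ ball z0 r)
    {A : ℂ → E →L[ℂ] E} {f : ℂ → E} (hA : DifferentiableOn ℂ A (ball z0 r))
    (hf : DifferentiableOn ℂ f (ball z0 r)) (c : E) :
    ∃ u : ℂ → E, u b0 = c ∧ ∀ z ∈ ball z0 r, HasDerivAt u (A z (u z) + f z) z := by
  classical
  -- the Picard terms
  have hstep : ∀ g : ℂ → E, ∃ G : ℂ → E, DifferentiableOn ℂ g (ball z0 r) →
      (G b0 = 0 ∧ ∀ z ∈ ball z0 r, HasDerivAt G (g z) z) := by
    intro g
    by_cases hg : DifferentiableOn ℂ g (ball z0 r)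
    · obtain ⟨G, hG⟩ := exists_prim b0 hg
      exact ⟨G, fun _ => hG⟩
    · exact ⟨0, fun h => absurd h hg⟩
  choose P hP using hstep
  obtain ⟨v, hv0, hvs⟩ : ∃ v : ℕ → ℂ → E, v 0 = (fun z => c + P f z) ∧
      ∀ m, v (m + 1) = P (fun z => A z (v m z)) :=
    ⟨fun m => Nat.rec (fun z => c + P f z) (fun _ w => P (fun z => A z (w z))) m, rfl,
      fun _ => rfl⟩
  have hvd : ∀ m, DifferentiableOn ℂ (v m) (ball z0 r) := by
    intro m
    induction m with
    | zero =>
      rw [hv0]
      exact (diffOn_of (hP f hf).2).const_add c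
    | succ m ih =>
      rw [hvs]
      exact diffOn_of (hP _ (hA.clm_apply ih)).2
  have hvb : ∀ m, v (m + 1) b0 = 0 := fun m => by
    rw [hvs]; exact (hP _ (hA.clm_apply (hvd m))).1
  have hvD : ∀ m, ∀ z ∈ ball z0 r, HasDerivAt (v (m + 1)) (A z (v m z)) z := fun m => by
    rw [hvs]; exact (hP _ (hA.clm_apply (hvd m))).2
  have hv0b : v 0 b0 = c := by rw [hv0]; simp [(hP f hf).1]
  have hv0D : ∀ z ∈ ball z0 r, HasDerivAt (v 0) (f z) z := by
    intro z hz
    rw [hv0]
    exact ((hP f hf).2 z hz).const_add c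
  refine ⟨fun z => ∑' m, v m z, ?_, ?_⟩
  · show ∑' m, v m b0 = c
    rw [tsum_eq_single 0, hv0b]
    intro m hm
    obtain ⟨k, rfl⟩ := Nat.exists_eq_succ_of_ne_zero hm
    exact hvb k
  intro z hz
  -- a smaller ball containing `b0` and `z`
  obtain ⟨ρ, hρ1, hρ2⟩ : ∃ ρ, max (dist z z0) (dist b0 z0) < ρ ∧ ρ < r :=
    exists_between (max_lt (mem_ball.mp hz) (mem_ball.mp hb))
  have hzρ : z ∈ ball z0 ρ := mem_ball.mpr (lt_of_le_of_lt (le_max_left _ _) hρ1)
  have hbρ : b0 ∈ ball z0 ρ := mem_ball.mpr (lt_of_le_of_lt (le_max_right _ _) hρ1)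
  have hsub : closedBall z0 ρ ⊆ ball z0 r := closedBall_subset_ball hρ2
  have hsub' : ball z0 ρ ⊆ ball z0 r := ball_subset_closedBall.trans hsub
  obtain ⟨K, hK⟩ := (isCompact_closedBall z0 ρ).exists_bound_of_continuousOn
    (hA.continuousOn.mono hsub)
  obtain ⟨C, hC⟩ := (isCompact_closedBall z0 ρ).exists_bound_of_continuousOn
    ((hvd 0).continuousOn.mono hsub)
  have hK0 : 0 ≤ K := (norm_nonneg _).trans (hK z (ball_subset_closedBall hzρ))
  have hC0 : 0 ≤ C := (norm_nonneg _).trans (hC z (ball_subset_closedBall hzρ))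
  have hbd : ∀ m, ∀ w ∈ ball z0 ρ,
      ‖v m w‖ ≤ C * K ^ m / m.factorial * ‖w - b0‖ ^ m := by
    intro m
    induction m with
    | zero =>
      intro w hw
      simpa using hC w (ball_subset_closedBall hw)
    | succ m ih =>
      intro w hw
      have h1 := prim_bound (V := ball z0 ρ) (convex_ball z0 ρ) hbρ
        (g := fun z => A z (v m z)) (G := v (m + 1)) (fun y hy => hvD m y (hsub' hy)) (hvb m)
        (C := K * (C * K ^ m / m.factorial)) (m := m) (by
          intro y hy
          calc ‖A y (v m y)‖ ≤ ‖A y‖ * ‖v m y‖ := ContinuousLinearMap.le_opNorm _ _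
            _ ≤ K * (C * K ^ m / m.factorial * ‖y - b0‖ ^ m) := by
              gcongr
              · exact hK y (ball_subset_closedBall hy)
              · exact ih y hy
            _ = _ := by ring) hw
      refine h1.trans (le_of_eq ?_)
      rw [Nat.factorial_succ]
      push_cast
      have h2 : (m.factorial : ℝ) ≠ 0 := by positivity
      have h3 : (m : ℝ) + 1 ≠ 0 := by positivity
      field_simp
      ring
  have hbd' : ∀ m, ∀ w ∈ ball z0 ρ, ‖v m w‖ ≤ C * ((K * (2 * ρ)) ^ m / m.factorial) := by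
    intro m w hw
    refine (hbd m w hw).trans ?_
    have h1 : ‖w - b0‖ ≤ 2 * ρ := by
      rw [← dist_eq_norm]
      have := dist_triangle_right w b0 z0
      have h2 := mem_ball.mp hw
      have h3 := mem_ball.mp hbρ
      linarith
    calc C * K ^ m / m.factorial * ‖w - b0‖ ^ m ≤ C * K ^ m / m.factorial * (2 * ρ) ^ m := by
          gcongr
      _ = _ := by rw [mul_pow]; ring
  have hsum : Summable fun m : ℕ => C * ((K * (2 * ρ)) ^ m / m.factorial) :=
    (Real.summable_pow_div_factorial _).mul_left C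
  have hdiff := Complex.differentiableOn_tsum_of_summable_norm hsum
    (fun m => (hvd m).mono hsub') isOpen_ball hbd'
  have hder := Complex.hasSum_deriv_of_summable_norm hsum
    (fun m => (hvd m).mono hsub') isOpen_ball hbd' hzρ
  have h4 : HasDerivAt (fun w => ∑' m, v m w) (deriv (fun w => ∑' m, v m w) z) z :=
    ((hdiff z hzρ).differentiableAt (isOpen_ball.mem_nhds hzρ)).hasDerivAt
  refine h4.congr_deriv ?_
  rw [← hder.tsum_eq, hder.summable.tsum_eq_zero_add, (hv0D z hz).deriv, add_comm]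
  congr 1
  have hsz : Summable fun m => v m z :=
    Summable.of_norm_bounded hsum fun m => hbd' m z hzρ
  rw [(A z).map_tsum hsz]
  exact tsum_congr fun m => (hvD m z hz).deriv

end LinODE

end Crest.Agent.R102.F1201
end
end

-- ▼ part R102/F1b_201
section

/-!
# Row 102, [H3], F1 (helper201): formal deformations of differential algebras (algebraic part)

`R` a commutative `ℂ`-algebra with a derivation `D` and a point `ev : R →ₐ[ℂ] ℂ` such that linear
systems `D u = A u + f`, `ev u = c` are solvable (`Lin`) and `ev (D^m f) = 0` for all `m` implies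
`f = 0` (`Idt`).  Then every `ψ : A₀ →ₐ[ℂ] ℂ⟦ε⟧` lifting the point `ev ∘ ρ` of a finitely generated
differential algebra `ρ : A₀ → R` extends uniquely to a differential homomorphism
`Φ : A₀ →ₐ[ℂ] R⟦ε⟧` lifting `ρ` (`exists_Phi`).
-/

set_option autoImplicit false

noncomputable section

namespace Crest.Agent.R102.F1201

/-! ## Coefficientwise derivations -/

section DPS

variable {R : Type*} [CommRing R] [Algebra ℂ R]

/-- the coefficientwise derivation of `R⟦ε⟧`. -/
def dPS (D : Derivation ℂ R R) : Derivation ℂ (PowerSeries R) (PowerSeries R) :=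
  Derivation.mk'
    { toFun := fun f => PowerSeries.mk fun k => D (PowerSeries.coeff k f)
      map_add' := fun f g => by ext k; simp
      map_smul' := fun c f => by ext k; simp }
    (fun f g => by
      ext k
      simp only [LinearMap.coe_mk, AddHom.coe_mk, PowerSeries.coeff_mk, PowerSeries.coeff_mul,
        map_sum, Derivation.leibniz, smul_eq_mul, map_add]
      rw [Finset.sum_add_distrib]
      congr 1
      rw [← Finset.Nat.sum_antidiagonal_swap]
      rfl)

theorem coeff_dPS (D : Derivation ℂ R R) (k : ℕ) (f : PowerSeries R) :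
    PowerSeries.coeff k (dPS D f) = D (PowerSeries.coeff k f) := by
  simp [dPS]

end DPS

/-! ## First order Taylor formula for polynomials -/

section Taylor

open MvPolynomial

variable {n : ℕ} {S : Type*} [CommRing S] [Algebra ℂ S]

theorem taylor_aeval (X U : Fin n → S) (e : S) (P : MvPolynomial (Fin n) ℂ) :
    ∃ q : S, aeval (fun i => X i + e * U i) P =
      aeval X P + e * (∑ j, aeval X (pderiv j P) * U j) + e ^ 2 * q := by
  induction P using MvPolynomial.induction_on with
  | C a => exact ⟨0, by simp⟩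
  | add P Q hP hQ =>
    obtain ⟨p, hp⟩ := hP
    obtain ⟨q, hq⟩ := hQ
    refine ⟨p + q, ?_⟩
    rw [map_add, hp, hq]
    simp only [map_add, add_mul, Finset.sum_add_distrib]
    ring
  | mul_X P i hP =>
    obtain ⟨p, hp⟩ := hP
    refine ⟨p * X i + (∑ j, aeval X (pderiv j P) * U j) * U i + e * p * U i, ?_⟩
    rw [map_mul, hp, aeval_X, map_mul, aeval_X]
    have h1 : ∑ j, aeval X (pderiv j (P * MvPolynomial.X i)) * U j =
        (∑ j, aeval X (pderiv j P) * U j) * X i + aeval X P * U i := by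
      simp only [Derivation.leibniz, smul_eq_mul, map_add, map_mul, aeval_X, pderiv_X, add_mul,
        Finset.sum_add_distrib]
      rw [add_comm, Finset.sum_mul]
      congr 1
      · exact Finset.sum_congr rfl fun j _ => by ring
      · rw [Finset.sum_eq_single i]
        · simp
        · intro j _ hj
          simp [Ne.symm hj]
        · intro h; exact absurd (Finset.mem_univ i) h
    rw [h1]
    ring

end Taylor

/-! ## Congruences -/

section Congr

open MvPolynomial

variable {n : ℕ} {S : Type*} [CommRing S] [Algebra ℂ S]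

theorem aeval_sub_mem (I : Ideal S) {X Y : Fin n → S} (h : ∀ i, X i - Y i ∈ I)
    (P : MvPolynomial (Fin n) ℂ) : aeval X P - aeval Y P ∈ I := by
  rw [← Ideal.Quotient.mk_eq_mk_iff_sub_mem]
  have h1 : (Ideal.Quotient.mkₐ ℂ I).comp (aeval X) = (Ideal.Quotient.mkₐ ℂ I).comp (aeval Y) := by
    rw [comp_aeval, comp_aeval]
    congr 1
    funext i
    exact (Ideal.Quotient.mk_eq_mk_iff_sub_mem _ _).mpr (h i)
  exact DFunLike.congr_fun h1 P

variable {R : Type*} [CommRing R] [Algebra ℂ R]

theorem coeff_aeval_congr {X Y : Fin n → PowerSeries R} {k : ℕ}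
    (h : ∀ i, ∀ m ≤ k, PowerSeries.coeff m (X i) = PowerSeries.coeff m (Y i))
    (P : MvPolynomial (Fin n) ℂ) {m : ℕ} (hm : m ≤ k) :
    PowerSeries.coeff m (aeval X P) = PowerSeries.coeff m (aeval Y P) := by
  have h1 := aeval_sub_mem (Ideal.span {(PowerSeries.X : PowerSeries R) ^ (k + 1)}) (X := X)
    (Y := Y) (fun i => by
      rw [Ideal.mem_span_singleton, PowerSeries.X_pow_dvd_iff]
      intro m hm
      rw [map_sub, h i m (by omega), sub_self]) P
  rw [Ideal.mem_span_singleton, PowerSeries.X_pow_dvd_iff] at h1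
  have h2 := h1 m (by omega)
  rw [map_sub, sub_eq_zero] at h2
  exact h2

theorem constantCoeff_aeval {X : Fin n → PowerSeries R} {x : Fin n → R}
    (h : ∀ i, PowerSeries.coeff 0 (X i) = x i) (P : MvPolynomial (Fin n) ℂ) :
    PowerSeries.coeff 0 (aeval X P) = aeval x P := by
  have h1 : (PowerSeries.constantCoeff (R := R)) (aeval X P) = aeval x P := by
    induction P using MvPolynomial.induction_on with
    | C a =>
      rw [← MvPolynomial.algebraMap_eq, AlgHom.commutes, AlgHom.commutes]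
      rw [PowerSeries.algebraMap_apply]
      simp
    | add P Q hP hQ => rw [map_add, map_add, map_add, hP, hQ]
    | mul_X P i hP =>
      rw [map_mul, map_mul, map_mul, hP, aeval_X, aeval_X, ← h i]
      simp
  simpa using h1

theorem coeff_aeval_step {X : Fin n → PowerSeries R} {x u : Fin n → R} {k : ℕ}
    (h : ∀ i, PowerSeries.coeff 0 (X i) = x i) (P : MvPolynomial (Fin n) ℂ) :
    PowerSeries.coeff (k + 1)
      (aeval (fun i => X i + PowerSeries.X ^ (k + 1) * PowerSeries.C (u i)) P) =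
    PowerSeries.coeff (k + 1) (aeval X P) + ∑ j, aeval x (pderiv j P) * u j := by
  obtain ⟨q, hq⟩ := taylor_aeval X (fun i => PowerSeries.C (u i))
    ((PowerSeries.X : PowerSeries R) ^ (k + 1)) P
  rw [hq, map_add, map_add]
  have h1 : PowerSeries.coeff (k + 1) (((PowerSeries.X : PowerSeries R) ^ (k + 1)) ^ 2 * q) = 0 := by
    rw [← pow_mul]
    exact (PowerSeries.X_pow_dvd_iff.mp (Dvd.intro _ rfl)) _ (by omega)
  rw [h1, add_zero]
  congr 1
  have h2 := PowerSeries.coeff_X_pow_mul
    (∑ j, aeval X (pderiv j P) * PowerSeries.C (u j)) (k + 1) 0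
  rw [zero_add] at h2
  rw [h2, map_sum]
  refine Finset.sum_congr rfl fun j _ => ?_
  rw [PowerSeries.coeff_mul_C, constantCoeff_aeval h]

end Congr

/-! ## Existence -/

section Exist

open MvPolynomial

variable {R : Type*} [CommRing R] [Algebra ℂ R]

/-- solvability of linear systems. -/
def Lin (D : Derivation ℂ R R) (ev : R →ₐ[ℂ] ℂ) : Prop :=
  ∀ (n : ℕ) (A : Fin n → Fin n → R) (f : Fin n → R) (c : Fin n → ℂ),
    ∃ u : Fin n → R, (∀ i, ev (u i) = c i) ∧ ∀ i, D (u i) = (∑ j, A i j * u j) + f i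

/-- the identity theorem. -/
def Idt (D : Derivation ℂ R R) (ev : R →ₐ[ℂ] ℂ) : Prop :=
  ∀ f : R, (∀ m : ℕ, ev (D^[m] f) = 0) → f = 0

/-- **(F1b)** existence of formal solutions. -/
theorem exists_formal {D : Derivation ℂ R R} {ev : R →ₐ[ℂ] ℂ} (hlin : Lin D ev) {n : ℕ}
    {x : Fin n → R} {p : Fin n → MvPolynomial (Fin n) ℂ} (hx : ∀ i, D (x i) = aeval x (p i))
    (X0 : Fin n → PowerSeries ℂ) (h0 : ∀ i, PowerSeries.coeff 0 (X0 i) = ev (x i)) :
    ∃ X : Fin n → PowerSeries R, (∀ i, PowerSeries.coeff 0 (X i) = x i) ∧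
      (∀ i, dPS D (X i) = aeval X (p i)) ∧
      ∀ i, PowerSeries.map (ev : R →+* ℂ) (X i) = X0 i := by
  classical
  -- one step
  have hstep : ∀ (k : ℕ) (Y : Fin n → PowerSeries R), ∃ u : Fin n → R,
      (∀ i, ev (u i) = PowerSeries.coeff (k + 1) (X0 i)) ∧
      ∀ i, D (u i) = (∑ j, aeval x (pderiv j (p i)) * u j) +
        PowerSeries.coeff (k + 1) (aeval Y (p i)) := fun k Y =>
    hlin n (fun i j => aeval x (pderiv j (p i)))
      (fun i => PowerSeries.coeff (k + 1) (aeval Y (p i)))
      (fun i => PowerSeries.coeff (k + 1) (X0 i))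
  choose st hst1 hst2 using hstep
  obtain ⟨Y, hY0, hYs⟩ : ∃ Y : ℕ → Fin n → PowerSeries R,
      Y 0 = (fun i => PowerSeries.C (x i)) ∧ ∀ k, Y (k + 1) =
        (fun i => Y k i + PowerSeries.X ^ (k + 1) * PowerSeries.C (st k (Y k) i)) :=
    ⟨fun k => Nat.rec (fun i => PowerSeries.C (x i))
      (fun k Z => fun i => Z i + PowerSeries.X ^ (k + 1) * PowerSeries.C (st k Z i)) k, rfl,
      fun _ => rfl⟩
  have hcs : ∀ k i, PowerSeries.coeff (k + 1)
      ((PowerSeries.X : PowerSeries R) ^ (k + 1) * PowerSeries.C (st k (Y k) i)) =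
        st k (Y k) i := by
    intro k i
    have := PowerSeries.coeff_X_pow_mul (PowerSeries.C (st k (Y k) i)) (k + 1) 0
    rw [zero_add] at this
    rw [this, PowerSeries.coeff_zero_C]
  have hcs' : ∀ k i m, m ≠ k + 1 → PowerSeries.coeff m
      ((PowerSeries.X : PowerSeries R) ^ (k + 1) * PowerSeries.C (st k (Y k) i)) = 0 := by
    intro k i m hm
    rw [PowerSeries.coeff_X_pow_mul', PowerSeries.coeff_C]
    split_ifs with h1 h2
    · exact absurd (by omega) hm
    · rfl
    · rfl
  have hhigh : ∀ k i m, k < m → PowerSeries.coeff m (Y k i) = 0 := by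
    intro k
    induction k with
    | zero =>
      intro i m hm
      rw [hY0]
      show PowerSeries.coeff m (PowerSeries.C (x i)) = 0
      rw [PowerSeries.coeff_C, if_neg (by omega)]
    | succ k ih =>
      intro i m hm
      rw [hYs]
      show PowerSeries.coeff m (Y k i + _) = 0
      rw [map_add, ih i m (by omega), hcs' k i m (by omega), add_zero]
  have hlow : ∀ k i m, m ≤ k → PowerSeries.coeff m (Y (k + 1) i) = PowerSeries.coeff m (Y k i) := by
    intro k i m hm
    rw [hYs]
    show PowerSeries.coeff m (Y k i + _) = _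
    rw [map_add, hcs' k i m (by omega), add_zero]
  have hstab : ∀ k l i m, m ≤ k → k ≤ l →
      PowerSeries.coeff m (Y l i) = PowerSeries.coeff m (Y k i) := by
    intro k l i m hm hkl
    induction l, hkl using Nat.le_induction with
    | base => rfl
    | succ l hl ih => rw [hlow l i m (by omega), ih]
  have hzero : ∀ k i, PowerSeries.coeff 0 (Y k i) = x i := by
    intro k i
    rw [hstab 0 k i 0 le_rfl (Nat.zero_le _), hY0]
    show PowerSeries.coeff 0 (PowerSeries.C (x i)) = x i
    rw [PowerSeries.coeff_zero_C]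
  have htop : ∀ k i, PowerSeries.coeff (k + 1) (Y (k + 1) i) = st k (Y k) i := by
    intro k i
    rw [hYs]
    show PowerSeries.coeff (k + 1) (Y k i + _) = _
    rw [map_add, hhigh k i (k + 1) (by omega), hcs, zero_add]
  -- the equation at order `k`
  have heq : ∀ k i, D (PowerSeries.coeff k (Y k i)) = PowerSeries.coeff k (aeval (Y k) (p i)) := by
    intro k i
    cases k with
    | zero => rw [hzero, hx, constantCoeff_aeval (hzero 0)]
    | succ k =>
      rw [htop, hst2, hYs, coeff_aeval_step (hzero k), add_comm]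
  set X : Fin n → PowerSeries R := fun i => PowerSeries.mk fun k => PowerSeries.coeff k (Y k i)
    with hX
  have hXY : ∀ k i m, m ≤ k → PowerSeries.coeff m (X i) = PowerSeries.coeff m (Y k i) := by
    intro k i m hm
    rw [hX]
    show PowerSeries.coeff m (PowerSeries.mk fun k => PowerSeries.coeff k (Y k i)) = _
    rw [PowerSeries.coeff_mk, hstab m k i m le_rfl hm]
  refine ⟨X, fun i => ?_, fun i => ?_, fun i => ?_⟩
  · rw [hXY 0 i 0 le_rfl, hzero]
  · ext k
    rw [coeff_dPS, hXY k i k le_rfl, heq]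
    exact (coeff_aeval_congr (fun i m hm => hXY k i m hm) (p i) le_rfl).symm
  · ext k
    rw [PowerSeries.coeff_map, hXY k i k le_rfl]
    cases k with
    | zero => rw [hzero, h0]; rfl
    | succ k => rw [htop]; exact hst1 k (Y k) i

end Exist

/-! ## The homomorphism -/

section Phi

open MvPolynomial

variable {R : Type*} [CommRing R] [Algebra ℂ R]

/-- coefficientwise extension of an algebra hom, applied to power series, is an algebra hom. -/
theorem map_aeval_ps {n : ℕ} (ev : R →ₐ[ℂ] ℂ) (X : Fin n → PowerSeries R)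
    (Q : MvPolynomial (Fin n) ℂ) :
    PowerSeries.map (ev : R →+* ℂ) (aeval X Q) =
      aeval (fun i => PowerSeries.map (ev : R →+* ℂ) (X i)) Q := by
  induction Q using MvPolynomial.induction_on with
  | C a =>
    rw [← MvPolynomial.algebraMap_eq, AlgHom.commutes, AlgHom.commutes,
      PowerSeries.algebraMap_apply, PowerSeries.map_C]
    simp [PowerSeries.algebraMap_apply]
  | add P Q hP hQ => rw [map_add, map_add, map_add, hP, hQ]
  | mul_X P i hP => rw [map_mul, map_mul, map_mul, hP, aeval_X, aeval_X]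

/-- the derivation of the polynomial ring. -/
theorem dPS_aeval {D : Derivation ℂ R R} {n : ℕ} {p : Fin n → MvPolynomial (Fin n) ℂ}
    {X : Fin n → PowerSeries R} (hX : ∀ i, dPS D (X i) = aeval X (p i))
    (Q : MvPolynomial (Fin n) ℂ) : dPS D (aeval X Q) = aeval X (mkDerivation ℂ p Q) := by
  induction Q using MvPolynomial.induction_on with
  | C a =>
    rw [← MvPolynomial.algebraMap_eq, AlgHom.commutes, Derivation.map_algebraMap,
      Derivation.map_algebraMap, map_zero]
  | add P Q hP hQ => rw [map_add, map_add, map_add, map_add, hP, hQ]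
  | mul_X P i hP =>
    rw [map_mul, Derivation.leibniz, Derivation.leibniz, aeval_X, hX, hP, mkDerivation_X]
    simp [smul_eq_mul]

theorem aeval_mkDerivation {A₀ : Type*} [CommRing A₀] [Algebra ℂ A₀] {δ : Derivation ℂ A₀ A₀}
    {n : ℕ} {p : Fin n → MvPolynomial (Fin n) ℂ} {x : Fin n → A₀}
    (hx : ∀ i, δ (x i) = aeval x (p i)) (Q : MvPolynomial (Fin n) ℂ) :
    δ (aeval x Q) = aeval x (mkDerivation ℂ p Q) := by
  induction Q using MvPolynomial.induction_on with
  | C a =>
    rw [← MvPolynomial.algebraMap_eq, AlgHom.commutes, Derivation.map_algebraMap,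
      Derivation.map_algebraMap, map_zero]
  | add P Q hP hQ => rw [map_add, map_add, map_add, map_add, hP, hQ]
  | mul_X P i hP =>
    rw [map_mul, Derivation.leibniz, Derivation.leibniz, aeval_X, hx, hP, mkDerivation_X]
    simp [smul_eq_mul]

theorem coeff_iterate_dPS (D : Derivation ℂ R R) (f : PowerSeries R) (m k : ℕ) :
    PowerSeries.coeff k ((dPS D)^[m] f) = D^[m] (PowerSeries.coeff k f) := by
  induction m with
  | zero => rfl
  | succ m ih => rw [Function.iterate_succ_apply', coeff_dPS, ih, Function.iterate_succ_apply']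


/-- **(F1c)** the deformation homomorphism. -/
theorem exists_Phi {D : Derivation ℂ R R} {ev : R →ₐ[ℂ] ℂ} (hlin : Lin D ev) (hid : Idt D ev)
    {A₀ : Type*} [CommRing A₀] [Algebra ℂ A₀] [Algebra.FiniteType ℂ A₀]
    {δ : Derivation ℂ A₀ A₀} {ρ : A₀ →ₐ[ℂ] R} (hρ : ∀ a, ρ (δ a) = D (ρ a))
    {ψ : A₀ →ₐ[ℂ] PowerSeries ℂ} (hψ : ∀ a, PowerSeries.coeff 0 (ψ a) = ev (ρ a)) :
    ∃ Φ : A₀ →ₐ[ℂ] PowerSeries R, (∀ a, Φ (δ a) = dPS D (Φ a)) ∧
      (∀ a, PowerSeries.coeff 0 (Φ a) = ρ a) ∧
      ∀ a, PowerSeries.map (ev : R →+* ℂ) (Φ a) = ψ a := by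
  classical
  obtain ⟨n, π, hπ⟩ := Algebra.FiniteType.iff_quotient_mvPolynomial''.mp
    (inferInstance : Algebra.FiniteType ℂ A₀)
  set x : Fin n → A₀ := fun i => π (X i) with hxdef
  have hπx : π = aeval x := by
    rw [hxdef]
    exact MvPolynomial.algHom_ext (fun i => by simp)
  choose p hp using fun i => hπ (δ (x i))
  have hx : ∀ i, δ (x i) = aeval x (p i) := fun i => by rw [← hπx, hp]
  have hρx : ∀ Q : MvPolynomial (Fin n) ℂ, ρ (aeval x Q) = aeval (fun i => ρ (x i)) Q := by
    intro Q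
    exact DFunLike.congr_fun (comp_aeval x ρ) Q
  obtain ⟨Y, hY1, hY2, hY3⟩ := exists_formal hlin (x := fun i => ρ (x i)) (p := p)
    (fun i => by rw [← hρ, hx, hρx]) (fun i => ψ (x i)) (fun i => hψ (x i))
  have hker : RingHom.ker π.toRingHom ≤ RingHom.ker (aeval Y : MvPolynomial (Fin n) ℂ →ₐ[ℂ]
      PowerSeries R).toRingHom := by
    intro Q hQ
    have hQ' : aeval x Q = 0 := by rw [← hπx]; exact hQ
    show aeval Y Q = 0
    ext k
    apply hid
    intro m
    rw [← coeff_iterate_dPS]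
    have h1 : (dPS D)^[m] (aeval Y Q) = aeval Y ((mkDerivation ℂ p)^[m] Q) := by
      induction m with
      | zero => rfl
      | succ m ih =>
        rw [Function.iterate_succ_apply', ih, dPS_aeval hY2, Function.iterate_succ_apply']
    have h2 : ∀ m, aeval x ((mkDerivation ℂ p)^[m] Q) = 0 := by
      intro m
      induction m with
      | zero => exact hQ'
      | succ m ih =>
        rw [Function.iterate_succ_apply', ← aeval_mkDerivation hx, ih, map_zero]
    rw [h1]
    have h3 := map_aeval_ps ev Y ((mkDerivation ℂ p)^[m] Q)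
    have h4 : aeval (fun i => PowerSeries.map (ev : R →+* ℂ) (Y i)) ((mkDerivation ℂ p)^[m] Q) =
        ψ (aeval x ((mkDerivation ℂ p)^[m] Q)) := by
      rw [show (fun i => PowerSeries.map (ev : R →+* ℂ) (Y i)) = fun i => ψ (x i) from
        funext hY3]
      exact (DFunLike.congr_fun (comp_aeval x ψ) _).symm
    rw [h4, h2, map_zero] at h3
    have h5 := congrArg (PowerSeries.coeff k) h3
    rw [PowerSeries.coeff_map, map_zero] at h5
    exact h5
  refine ⟨AlgHom.liftOfSurjective π hπ (aeval Y) hker, ?_, ?_, ?_⟩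
  · intro a
    obtain ⟨Q, rfl⟩ := hπ a
    rw [AlgHom.liftOfSurjective_apply, dPS_aeval hY2]
    have : δ (π Q) = π (mkDerivation ℂ p Q) := by
      rw [hπx, aeval_mkDerivation hx]
    rw [this, AlgHom.liftOfSurjective_apply]
  · intro a
    obtain ⟨Q, rfl⟩ := hπ a
    rw [AlgHom.liftOfSurjective_apply, constantCoeff_aeval hY1, hπx, hρx]
  · intro a
    obtain ⟨Q, rfl⟩ := hπ a
    rw [AlgHom.liftOfSurjective_apply, map_aeval_ps, hπx]
    rw [show (fun i => PowerSeries.map (ev : R →+* ℂ) (Y i)) = fun i => ψ (x i) from funext hY3]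
    exact (DFunLike.congr_fun (comp_aeval x ψ) _).symm

end Phi

end Crest.Agent.R102.F1201
end
end

-- ▼ part R102/F1c_201
section

/-!
# Row 102, [H3], F1 (helper201): the instance for holomorphic functions on a disc.
-/

set_option autoImplicit false

open Set Filter Topology Metric

noncomputable section

namespace Crest.Agent.R102.F1201

/-! ## The ring of holomorphic functions on a set -/

section Hol

variable {E : Type*} [NormedAddCommGroup E] [NormedSpace ℂ E]

/-- holomorphic functions on `U` (functions on the subtype, so equality = equality on `U`). -/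
def Hol (U : Set E) : Subalgebra ℂ (U → ℂ) where
  carrier := {f | ∃ g : E → ℂ, DifferentiableOn ℂ g U ∧ ∀ z : U, f z = g z}
  mul_mem' := by
    rintro f1 f2 ⟨g1, h1, e1⟩ ⟨g2, h2, e2⟩
    exact ⟨fun z => g1 z * g2 z, h1.mul h2, fun z => by simp [e1, e2]⟩
  add_mem' := by
    rintro f1 f2 ⟨g1, h1, e1⟩ ⟨g2, h2, e2⟩
    exact ⟨fun z => g1 z + g2 z, h1.add h2, fun z => by simp [e1, e2]⟩
  algebraMap_mem' c := ⟨fun _ => c, differentiableOn_const c, fun z => rfl⟩

variable {U : Set E}

/-- a representative on the whole space. -/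
def rep (f : Hol U) : E → ℂ := Classical.choose f.2


theorem rep_apply (f : Hol U) (z : U) : (f : U → ℂ) z = rep f z :=
  (Classical.choose_spec f.2).2 z









/-- evaluation. -/
def evH (z : U) : Hol U →ₐ[ℂ] ℂ := (Pi.evalAlgHom ℂ (fun _ : U => ℂ) z).comp (Hol U).val

theorem evH_apply (z : U) (f : Hol U) : evH z f = rep f z := by
  rw [← rep_apply]; rfl

end Hol

section Der

variable {U : Set ℂ}









end Der

/-! ## Linear systems -/

section Sys

/-- **(F1a'), matrix form**: a linear system with holomorphic coefficients on a disc. -/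
theorem lin_sys {z0 : ℂ} {r : ℝ} {b0 : ℂ} (hb : b0 ∈ ball z0 r) {n : ℕ}
    {a : Fin n → Fin n → ℂ → ℂ} {f : Fin n → ℂ → ℂ}
    (ha : ∀ i j, DifferentiableOn ℂ (a i j) (ball z0 r))
    (hf : ∀ i, DifferentiableOn ℂ (f i) (ball z0 r)) (c : Fin n → ℂ) :
    ∃ u : Fin n → ℂ → ℂ, (∀ i, u i b0 = c i) ∧
      ∀ i, ∀ z ∈ ball z0 r, HasDerivAt (u i) ((∑ j, a i j z * u j z) + f i z) z := by
  classical
  set Ac : ℂ → (Fin n → ℂ) →L[ℂ] (Fin n → ℂ) := fun z => ∑ i, ∑ j,
    a i j z • ((ContinuousLinearMap.proj j : (Fin n → ℂ) →L[ℂ] ℂ).smulRight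
      (Pi.single i (1 : ℂ) : Fin n → ℂ)) with hAc
  have hAd : DifferentiableOn ℂ Ac (ball z0 r) := by
    rw [hAc]
    refine DifferentiableOn.fun_sum fun i _ => DifferentiableOn.fun_sum fun j _ => ?_
    exact (ha i j).smul_const _
  have hFd : DifferentiableOn ℂ (fun z => fun i => f i z) (ball z0 r) :=
    differentiableOn_pi.mpr hf
  obtain ⟨u, hu0, hu⟩ := lin_ode hb hAd hFd c
  refine ⟨fun i z => u z i, fun i => congrFun hu0 i, fun i z hz => ?_⟩
  have h1 := (hasDerivAt_pi.mp (hu z hz)) i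
  refine h1.congr_deriv ?_
  rw [Pi.add_apply]
  congr 1
  rw [hAc]
  simp only [sum_apply, smul_apply, ContinuousLinearMap.smulRight_apply, ContinuousLinearMap.proj_apply, Finset.sum_apply,
    Pi.smul_apply, smul_eq_mul]
  rw [Finset.sum_eq_single i]
  · exact Finset.sum_congr rfl fun j _ => by simp
  · intro k _ hk
    exact Finset.sum_eq_zero fun j _ => by simp [Ne.symm hk]
  · intro h; exact absurd (Finset.mem_univ i) h




end Sys

end Crest.Agent.R102.F1201
end
end

-- ▼ part R102/F1d_201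

/-!
# Row 102, [H3], F1 (helper201): the deformation homomorphism over `H3.Hol`, `H3.cD`.
-/

set_option autoImplicit false

open Set Filter Topology Metric TopologicalSpace

noncomputable section

namespace Crest.Agent.R102.H3

/-- the open ball. -/
def bO (z0 : ℂ) (r : ℝ) : Opens ℂ := ⟨ball z0 r, isOpen_ball⟩

@[simp] theorem coe_bO (z0 : ℂ) (r : ℝ) : ((bO z0 r : Opens ℂ) : Set ℂ) = ball z0 r := rfl


theorem bO_preconnected (z0 : ℂ) (r : ℝ) : IsPreconnected ((bO z0 r : Opens ℂ) : Set ℂ) :=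
  (convex_ball z0 r).isPreconnected

theorem cD_eq_dPS {T : Type*} [CommRing T] [Algebra ℂ T] (δ : Derivation ℂ T T)
    (F : PowerSeries T) : cD δ F = F1201.dPS δ F := by
  ext k
  rw [coeff_cD, F1201.coeff_dPS]

theorem lin_H {z0 : ℂ} {r : ℝ} (b0 : bO z0 r) : F1201.Lin (DH (bO z0 r)) (evH b0) := by
  intro n A f c
  have hd : ∀ g : Hol (bO z0 r), DifferentiableOn ℂ (ext0 (g : bO z0 r → ℂ)) (ball z0 r) :=
    fun g => (Hol.an g).differentiableOn
  obtain ⟨u, hu0, hu⟩ := F1201.lin_sys (z0 := z0) (r := r) b0.2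
    (a := fun i j => ext0 (A i j : bO z0 r → ℂ)) (f := fun i => ext0 (f i : bO z0 r → ℂ))
    (fun i j => hd _) (fun i => hd _) c
  have hud : ∀ i, AnalyticOnNhd ℂ (u i) (bO z0 r) := fun i =>
    DifferentiableOn.analyticOnNhd (fun z hz =>
      (hu i z hz).differentiableAt.differentiableWithinAt) isOpen_ball
  refine ⟨fun i => Hol.ofFun (u i) (hud i), fun i => ?_, fun i => ?_⟩
  · rw [evH_apply, Hol.ofFun_apply, hu0]
  · rw [DH_ofFun]
    ext x
    rw [Hol.ofFun_apply, (hu i x x.2).deriv, ← evH_apply x, map_add, map_sum]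
    simp only [map_mul, evH_apply, Hol.ofFun_apply, ext0_apply]

/-- all iterated derivatives zero at one point. -/
theorem idt_H {V : Opens ℂ} (hV : IsPreconnected (V : Set ℂ)) (b0 : V) :
    F1201.Idt (DH V) (evH b0) := by
  intro f hf
  refine Hol.eq_zero_of_eventually hV f b0 ?_
  have hder : ∀ m : ℕ, ∀ z : V, iteratedDeriv m (ext0 (f : V → ℂ)) z =
      ((DH V)^[m] f : V → ℂ) z := by
    intro m
    induction m with
    | zero => intro z; rw [iteratedDeriv_zero, ext0_apply]; rfl
    | succ m ih =>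
      intro z
      rw [iteratedDeriv_succ, Function.iterate_succ_apply', DH_apply]
      exact (eventually_ext0_eq ih z.2).deriv_eq.symm
  have htop : analyticOrderAt (ext0 (f : V → ℂ)) b0 = ⊤ := by
    rw [ENat.eq_top_iff_forall_ge]
    intro n
    rw [natCast_le_analyticOrderAt_iff_iteratedDeriv_eq_zero (Hol.an f b0 b0.2)]
    intro i _
    rw [hder i b0, ← evH_apply, hf i]
  exact analyticOrderAt_eq_top.mp htop

/-- **(F1)** the deformation homomorphism over `Hol (ball)`. -/
theorem exists_Phi_H {z0 : ℂ} {r : ℝ} (b0 : bO z0 r)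
    {A₀ : Type*} [CommRing A₀] [Algebra ℂ A₀] [Algebra.FiniteType ℂ A₀]
    {δ : Derivation ℂ A₀ A₀} {ρ : A₀ →ₐ[ℂ] Hol (bO z0 r)}
    (hρ : ∀ a, ρ (δ a) = DH (bO z0 r) (ρ a))
    {ψ : A₀ →ₐ[ℂ] PowerSeries ℂ} (hψ : ∀ a, PowerSeries.constantCoeff (ψ a) = evH b0 (ρ a)) :
    ∃ Φ : A₀ →ₐ[ℂ] PowerSeries (Hol (bO z0 r)), (∀ a, Φ (δ a) = cD (DH (bO z0 r)) (Φ a)) ∧
      (∀ a, PowerSeries.constantCoeff (Φ a) = ρ a) ∧
      ∀ a, PowerSeries.map (evH b0 : Hol (bO z0 r) →+* ℂ) (Φ a) = ψ a := by
  obtain ⟨Φ, h1, h2, h3⟩ := F1201.exists_Phi (lin_H b0) (idt_H (bO_preconnected z0 r) b0) hρ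
    (ψ := ψ) (fun a => by rw [PowerSeries.coeff_zero_eq_constantCoeff_apply]; exact hψ a)
  exact ⟨Φ, fun a => by rw [cD_eq_dPS]; exact h1 a,
    fun a => by rw [← PowerSeries.coeff_zero_eq_constantCoeff_apply]; exact h2 a, h3⟩


end Crest.Agent.R102.H3
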