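import Crest.Agent.R102.FCTB_575
import Crest.Agent.R102.Rat1A_389
import Crest.Agent.R102.TayOm_781
import Crest.Agent.R102.RatGlueA_798
import Crest.Agent.R102.F7_389
import Crest.Agent.R102.F1d_201

-- ▼ part R102/FCT_575
section

/-!
Row 102, part (C), leaf H3: the formal collapse theorem.
-/

set_option linter.unusedSectionVars false

namespace Crest.Agent.R102.H3

open PowerSeries Finset

section aux

variable {K H S : Type*} [Field K] [CharZero K] [CommRing H] [Algebra K H] [CommRing S]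

theorem pt_const575 (d : Derivation K H H) (φ : H →+* S⟦X⟧) {y : S⟦X⟧} (hy : X ∣ y) {f : H}
    (hf : d f = 0) : pt d φ y hy f = φ f := by
  refine eq_of_forall_X_pow_dvd fun M => ?_
  obtain ⟨q, hq⟩ := pt_eq d φ hy f (M + 1)
  have h2 : ∀ m, dn d (m + 1) f = 0 := by
    intro m
    rw [dn, Function.iterate_succ_apply, hf]
    have h3 : ∀ k, d^[k] (0 : H) = 0 := by
      intro k
      induction k with
      | zero => rfl
      | succ k ih => rw [Function.iterate_succ_apply', ih, map_zero]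
    rw [h3, smul_zero]
  rw [hq, Finset.sum_range_succ']
  simp only [h2, map_zero, zero_mul, Finset.sum_const_zero, zero_add, dn_zero, pow_zero,
    mul_one, add_sub_cancel_left]
  exact ((pow_dvd_pow X (by omega : M ≤ M + 1)).trans (X_pow_dvd_pow hy _)).mul_right _

/-- divide a polynomial with power series coefficients by the maximal power of `X` -/
theorem exists_primitive {k : Type*} [Field k] (Q : Polynomial k⟦X⟧) (hQ : Q ≠ 0) :
    ∃ (v : ℕ) (Q' : Polynomial k⟦X⟧), Q = Polynomial.C (X ^ v) * Q' ∧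
      Q'.map (constantCoeff (R := k)) ≠ 0 := by
  classical
  have hex : ∃ v, ¬ Polynomial.C ((X : k⟦X⟧) ^ (v + 1)) ∣ Q := by
    by_contra hcon
    push Not at hcon
    apply hQ
    ext i : 1
    rw [Polynomial.coeff_zero]
    refine eq_of_forall_X_pow_dvd fun M => ?_
    rw [sub_zero]
    have h1 := (Polynomial.C_dvd_iff_dvd_coeff _ _).1 (hcon M) i
    exact (pow_dvd_pow X (Nat.le_succ M)).trans h1
  set v := Nat.find hex with hv
  have h1 := Nat.find_spec hex
  rw [← hv] at h1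
  have h0 : Polynomial.C ((X : k⟦X⟧) ^ v) ∣ Q := by
    rcases Nat.eq_zero_or_pos v with h | h
    · rw [h, pow_zero, Polynomial.C_1]; exact one_dvd _
    · have h2 := Nat.find_min hex (m := v - 1) (by omega)
      push Not at h2
      rwa [Nat.sub_add_cancel h] at h2
  obtain ⟨Q', hQ'⟩ := h0
  refine ⟨v, Q', hQ', fun h => h1 ?_⟩
  have h3 : Polynomial.C (X : k⟦X⟧) ∣ Q' := by
    rw [Polynomial.C_dvd_iff_dvd_coeff]
    intro i
    rw [X_dvd_iff, ← Polynomial.coeff_map, h, Polynomial.coeff_zero]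
  obtain ⟨Q'', hQ''⟩ := h3
  refine ⟨Q'', ?_⟩
  rw [hQ', hQ'', pow_succ, Polynomial.C_mul]
  ring

end aux

section fct

variable {K H : Type*} [Field K] [CharZero K] [CommRing H] [IsDomain H] [Algebra K H]

/-- **The formal collapse theorem.** -/
theorem fct (d : Derivation K H H) {zH g : H} (hz : d zH = 1) (hg1 : IsUnit (d g))
    (hg2 : IsUnit (dn d 2 g)) (N : ℕ) (hN : 0 < N) (G : ℕ → H⟦X⟧)
    (hG : ∀ j, constantCoeff (G j) = g)
    (hGN : ∀ j, N ≤ j → coeff 1 (G j) = 0)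
    (hν : ∀ i < N, ∀ j < N, i ≠ j → coeff 1 (G i) ≠ coeff 1 (G j))
    (hν0 : ∀ j < N, coeff 1 (G j) ≠ 0) {mh kh : H⟦X⟧}
    (hline : Ty d g = evn mh * (C zH + X) + evn kh)
    (r : ℕ → H⟦X⟧) (hr : ∀ j < N, C (dn d 2 g) * r j ^ 2 = C (dn d 2 g) - X * C (coeff 1 (G j)))
    (hr0 : ∀ j < N, constantCoeff (r j) = 1)
    {Y m k : ℕ → H⟦X⟧⟦X⟧} (hm0 : m 0 = PowerSeries.map C (evn mh))
    (hk0 : k 0 = PowerSeries.map C (evn kh))
    (hY : ∀ j < N, constantCoeff (Y j) = 2 * ∑ i ∈ range j, r i + r j)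
    (hc : Chain (cD d) (C zH) G N (fun j => pt (cD d) (bs C X) (X * Y j) (X_dvd_X_mul (Y j))) m k)
    {α : Type*} (x : Fin N → α → H⟦X⟧) (u : H⟦X⟧⟦X⟧)
    (P : Polynomial (MvPolynomial (Option (Fin N × α)) K))
    (hrel : P.eval₂ (obs (kK K H) (PowerSeries.map C (evn mh))
      (fun j => pt (cD d) (bs C X) (X * Y j) (X_dvd_X_mul (Y j))) x) (emb C X u) = 0)
    (hne : P.map (obs (kK K H) (PowerSeries.map C (evn mh))
      (fun j => pt (cD d) (bs C X) (X * Y j) (X_dvd_X_mul (Y j))) x) ≠ 0) :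
    ∃ q : Polynomial (Polynomial H), q ≠ 0 ∧
      q.eval₂ (Polynomial.eval₂RingHom (Ty d) (evn mh)) (evn (constantCoeff u)) = 0 := by
  classical
  have hzz : cD d (C zH) = (1 : H⟦X⟧) := by rw [cD_C, hz, map_one]
  obtain ⟨Ye, me, ke, hme0, hke0, hYe, hce, hiff⟩ :=
    flip_chain d hz hg1 hg2 N G hG hGN hν hν0 hline r hr hr0 hm0 hk0 hY hc x (alt (N := N))
  have hone := collapse0 d hz hg1 hg2 N G hG hline r hr0 hme0 hke0 hYe hce
  have hrele := (hiff P u).1 hrel
  -- the flipped points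
  set Φe : ℕ → H⟦X⟧ →+* H⟦X⟧⟦X⟧ :=
    fun j => pt (cD d) (bs C X) (X * Ye j) (X_dvd_X_mul (Ye j)) with hΦe
  -- `S4 = Frac(H⟦ω⟧)`
  let S4 := FractionRing H⟦X⟧
  let al : H⟦X⟧ →+* S4 := algebraMap H⟦X⟧ S4
  have hal : Function.Injective al := IsFractionRing.injective H⟦X⟧ S4
  let sw : H⟦X⟧⟦X⟧ →+* S4⟦X⟧ := (PowerSeries.map al).comp swap
  have hswi : Function.Injective sw :=
    (PowerSeries.map_injective al hal).comp swap_injective
  have hccsw : ∀ F : H⟦X⟧⟦X⟧, constantCoeff (sw F)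
      = al (PowerSeries.map (constantCoeff (R := H)) F) := by
    intro F
    have : constantCoeff (sw F) = al (constantCoeff (swap F)) := by
      change constantCoeff (PowerSeries.map al (swap F)) = _
      rw [← coeff_zero_eq_constantCoeff_apply, coeff_map, coeff_zero_eq_constantCoeff_apply]
    rw [this, constantCoeff_swap]
  have hρpt : ∀ j < N, (PowerSeries.map (constantCoeff (R := H))).comp (Φe j)
      = (Ty d).comp (constantCoeff (R := H)) := by
    intro j hj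
    rw [hΦe]
    simp only
    rw [comp_pt (cD d) (PowerSeries.map (constantCoeff (R := H)))
      (X_dvd_map_X (constantCoeff (R := H)))]
    refine RingHom.ext fun F => ?_
    rw [RingHom.comp_apply, ← pt_zero_one]
    have f1 : (constantCoeff (R := H)).comp (C (R := H)) = RingHom.id H := by
      refine RingHom.ext fun a => ?_
      simp
    have f2 : (constantCoeff (R := H)) (X : H⟦X⟧) = 0 := by simp
    refine congrArg (fun Ψ : H⟦X⟧ →+* H⟦X⟧ => Ψ F) (pt_congr (cD d) _ _ ?_ ?_)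
    · rw [map_bs, f1, f2]
    · rw [map_mul, map_X, hone j hj]
  -- the base point of the outer ring
  set Φ0 : H⟦X⟧ →+* S4⟦X⟧ := sw.comp (Φe 0) with hΦ0
  have hccΦ0 : ∀ F, constantCoeff (Φ0 F) = al (Ty d (constantCoeff F)) := by
    intro F
    rw [hΦ0, RingHom.comp_apply, hccsw]
    congr 1
    exact congrArg (fun Ψ : H⟦X⟧ →+* H⟦X⟧ => Ψ F) (hρpt 0 hN)
  set muW : S4⟦X⟧ := sw (PowerSeries.map C (evn mh)) with hmuW
  have hccmuW : constantCoeff muW = al (evn mh) := by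
    rw [hmuW, hccsw]
    refine congrArg al ?_
    ext n
    simp
  set eW : S4⟦X⟧ := sw (C X * X ^ 2) with heW
  have hXeW : X ∣ eW := by
    have : eW = X * sw (X ^ 2) := by
      rw [heW, map_mul]
      congr 1
      change PowerSeries.map al (swap (C X)) = X
      rw [swap_C_X, map_X]
    rw [this]
    exact Dvd.intro _ rfl
  have heW0 : eW ≠ 0 := by
    intro h
    have h1 : (C X * X ^ 2 : H⟦X⟧⟦X⟧) = 0 := hswi (h.trans (map_zero sw).symm)
    have h2 := congrArg (fun F : H⟦X⟧⟦X⟧ => coeff 1 (coeff 2 F)) h1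
    simp only [coeff_C_mul, coeff_X_pow, if_true, mul_one, coeff_one_X, map_zero] at h2
    exact one_ne_zero h2
  -- the evaluation on `H[μ]`
  let ev0 : Polynomial H →+* S4⟦X⟧ := Polynomial.eval₂RingHom (Φ0.comp C) muW
  have hccev0 : ∀ p, constantCoeff (ev0 p) = al (p.eval₂ (Ty d) (evn mh)) := by
    intro p
    change constantCoeff (p.eval₂ (Φ0.comp C) muW) = _
    rw [Polynomial.hom_eval₂, Polynomial.hom_eval₂, hccmuW]
    congr 1
    refine RingHom.ext fun a => ?_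
    simp only [RingHom.comp_apply, hccΦ0, constantCoeff_C]
  have hev0u : ∀ y : nonZeroDivisors (Polynomial H), IsUnit (ev0 y) := by
    intro y
    rw [PowerSeries.isUnit_iff_constantCoeff, hccev0]
    have h1 := eval_line_ne_zero d hg2 hline (y : Polynomial H) (nonZeroDivisors.ne_zero y.2)
    have h2 : al ((y : Polynomial H).eval₂ (Ty d) (evn mh)) ≠ 0 := fun h =>
      h1 (hal (h.trans (map_zero al).symm))
    exact h2.isUnit
  let ικ : KK H →+* S4⟦X⟧ := IsLocalization.lift (M := nonZeroDivisors (Polynomial H)) hev0u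
  have hικ : ∀ p, ικ (algebraMap (Polynomial H) (KK H) p) = ev0 p := fun p =>
    IsLocalization.lift_eq hev0u p
  let ι0 : KK H →+* S4 := (constantCoeff (R := S4)).comp ικ
  let ιW : (KK H)⟦X⟧ →+* S4⟦X⟧ := evS ικ eW hXeW
  have hιWC : ∀ a, ιW (C a) = ικ a := fun a => evS_C ικ hXeW a
  have hιWX : ιW X = eW := evS_X ικ hXeW
  have hιWX' : X ∣ ιW X := by rw [hιWX]; exact hXeW
  have hccιW : ∀ F, constantCoeff (ιW F) = ι0 (constantCoeff F) := fun F =>
    constantCoeff_evS ικ hXeW F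
  have hicomp : ιW.comp phK = Φ0 := by
    have h1 : Φ0 = evS (Φ0.comp C) eW hXeW := by
      refine evS_unique _ _ _ (fun a => rfl) ?_
      rw [hΦ0, RingHom.comp_apply, heW, hΦe]
      simp only
      rw [pt_const575 (cD d) _ _ (cD_X d), bs_X]
    have h2 : ιW.comp phK = evS (Φ0.comp C) eW hXeW := by
      refine evS_unique _ _ _ (fun a => ?_) ?_
      · rw [RingHom.comp_apply, phK, map_C, hιWC]
        change ικ (algebraMap (Polynomial H) (KK H) (Polynomial.C a)) = _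
        rw [hικ]
        change (Polynomial.C a).eval₂ (Φ0.comp C) muW = _
        rw [Polynomial.eval₂_C]
      · rw [RingHom.comp_apply, phK, map_X, hιWX]
    rw [h2, ← h1]
  -- the collapsed chain
  have hccph : ∀ F : H⟦X⟧, constantCoeff (phK F) = iK (constantCoeff F) := by
    intro F
    rw [phK, ← coeff_zero_eq_constantCoeff_apply, coeff_map, coeff_zero_eq_constantCoeff_apply]
  obtain ⟨y, hy, mκ, kκ, hmκ0, hkκ0, hcκ, hmuj⟩ :=
    collapsed_exists d hz hg1.ne_zero G hG (C muK) (phK (G 0) - C muK * phK (C zH))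
      (by simp) (by rw [add_sub_cancel, hccph, hG])
  have hιm0 : ιW (mκ 0) = sw (me 0) := by
    rw [hmκ0, hιWC, hme0, ← hmuW]
    change ικ (algebraMap (Polynomial H) (KK H) Polynomial.X) = _
    rw [hικ]
    change (Polynomial.X : Polynomial H).eval₂ (Φ0.comp C) muW = _
    rw [Polynomial.eval₂_X]
  have hcomp : ∀ F, ιW (phK F) = Φ0 F := fun F =>
    congrArg (fun Ψ : H⟦X⟧ →+* S4⟦X⟧ => Ψ F) hicomp
  have hιk0 : ιW (kκ 0) = sw (ke 0) := by
    have h1 := hce.inc 0 hN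
    have h2 : ιW (C muK) = sw (me 0) := by rw [← hmκ0]; exact hιm0
    rw [hkκ0, map_sub, map_mul, hcomp, hcomp, h2]
    have h3 : Φ0 (G 0) = sw (me 0) * Φ0 (C zH) + sw (ke 0) := by
      have h4 := congrArg sw h1
      rw [map_add, map_mul] at h4
      exact h4
    rw [h3]; ring
  -- translations
  let δ : ℕ → S4⟦X⟧ := fun j => sw (X * Ye j - X * Ye 0)
  have hδ : ∀ j < N, X ∣ δ j := by
    intro j hj
    rw [X_dvd_iff, hccsw]
    have : PowerSeries.map (constantCoeff (R := H)) (X * Ye j - X * Ye 0) = 0 := by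
      rw [map_sub, map_mul, map_mul, hone j hj, hone 0 hN]
      ring
    rw [this, map_zero]
  have hswpt : ∀ j (hj : j < N), sw.comp (Φe j) = pt (cD d) Φ0 (δ j) (hδ j hj) := by
    intro j hj
    have h1 : Φe j = pt (cD d) (Φe 0) (X * Ye j - X * Ye 0)
        (dvd_sub (X_dvd_X_mul _) (X_dvd_X_mul _)) := by
      rw [hΦe]
      simp only
      rw [pt_pt]
      exact pt_congr _ _ _ rfl (by ring)
    rw [h1]
    exact map_pt_of_dvd (cD d) sw (Φe 0) _ (hδ j hj)
  have hιpt : ∀ j, ιW.comp (pt (cD d) phK (y j) (hy j))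
      = pt (cD d) Φ0 (ιW (y j)) (hιWX'.trans (map_dvd ιW (hy j))) := by
    intro j
    rw [comp_pt (cD d) ιW hιWX']
    exact pt_congr _ _ _ hicomp rfl
  have hcκN := hcκ N
  have hmain : ∀ j ≤ N, (ιW (mκ j) = sw (me j) ∧ ιW (kκ j) = sw (ke j)) ∧
      (j < N → ιW.comp (pt (cD d) phK (y j) (hy j)) = sw.comp (Φe j)) := by
    -- the step from lines to vertices
    have hvert : ∀ j < N, ιW (mκ j) = sw (me j) → ιW (kκ j) = sw (ke j) →
        ιW.comp (pt (cD d) phK (y j) (hy j)) = sw.comp (Φe j) := by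
      intro j hj hm hk
      rw [hιpt, hswpt j hj]
      refine pt_congr _ _ _ rfl ?_
      refine outer_unique (cD d) Φ0 hzz (G j) (sw (me j)) (sw (ke j)) ?_
        (hιWX'.trans (map_dvd ιW (hy j))) (hδ j hj) ?_ ?_
      · have h1 : Φ0 (cD d (G j)) - sw (me j) = ιW (phK (cD d (G j)) - mκ j) := by
          rw [map_sub, hcomp, hm]
        rw [h1, hccιW, map_sub, hmuj, hccph]
        have h2 : constantCoeff (cD d (G j)) = d g := by
          rw [← coeff_zero_eq_constantCoeff_apply, coeff_cD, coeff_zero_eq_constantCoeff_apply, hG]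
        rw [h2]
        have h3 : ι0 (iK (d g) - muj (d g) j) ≠ 0 := by
          rw [Ne, _root_.map_eq_zero]
          exact muj_ne hg1.ne_zero j
        exact h3.isUnit
      · have h4 := congrArg ιW (hcκN.inc j hj)
        rw [map_add, map_mul, hm, hk] at h4
        rw [← hιpt]
        exact h4
      · have h4 := congrArg sw (hce.inc j hj)
        rw [map_add, map_mul] at h4
        rw [← hswpt j hj]
        exact h4
    intro j
    induction j with
    | zero => exact fun _ => ⟨⟨hιm0, hιk0⟩, fun h => hvert 0 h hιm0 hιk0⟩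
    | succ j ih =>
      intro hj
      obtain ⟨⟨hm, hk⟩, hv⟩ := ih (by omega)
      have hv := hv (by omega)
      have hvf : ∀ F, ιW (pt (cD d) phK (y j) (hy j) F) = sw (Φe j F) := fun F =>
        congrArg (fun Ψ : H⟦X⟧ →+* S4⟦X⟧ => Ψ F) hv
      -- slope
      have hmju : sw (me j) ≠ 0 := by
        rw [← hm]
        intro h
        have h1 := congrArg constantCoeff h
        rw [hccιW, hmuj, map_zero, _root_.map_eq_zero] at h1
        exact muj_ne_zero hg1.ne_zero j h1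
      have h1 : ιW (mκ (j + 1)) * sw (me j) = sw (me (j + 1)) * sw (me j) := by
        have e1 := congrArg ιW (hcκN.refl j (by omega))
        have e2 := congrArg sw (hce.refl j (by omega))
        rw [map_mul, map_pow, hvf, hm] at e1
        rw [map_mul, map_pow] at e2
        rw [e1, e2]
      have h2 := mul_right_cancel₀ hmju h1
      have h3 : ιW (kκ (j + 1)) = sw (ke (j + 1)) := by
        have e1 := congrArg ιW (hcκN.inc' j (by omega))
        have e2 := congrArg sw (hce.inc' j (by omega))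
        rw [map_add, map_mul, hvf, hvf, h2] at e1
        rw [map_add, map_mul] at e2
        exact add_left_cancel (e1.symm.trans e2)
      exact ⟨⟨h2, h3⟩, fun h => hvert (j + 1) h h2 h3⟩
  -- the relation over `κ`
  let obκ : MvPolynomial (Option (Fin N × α)) K →+* (KK H)⟦X⟧ :=
    obs ((C).comp (iK.comp (algebraMap K H))) (C muK)
      (fun j => pt (cD d) phK (y j) (hy j)) x
  have hob : ιW.comp obκ = sw.comp (obs (kK K H) (PowerSeries.map C (evn mh)) Φe x) := by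
    rw [comp_obs, comp_obs]
    have e1 : ιW.comp ((C).comp (iK.comp (algebraMap K H))) = sw.comp (kK K H) := by
      refine RingHom.ext fun c => ?_
      simp only [RingHom.comp_apply, kK, hιWC]
      change ικ (algebraMap (Polynomial H) (KK H) (Polynomial.C _)) = _
      rw [hικ]
      change (Polynomial.C (algebraMap K H c)).eval₂ (Φ0.comp C) muW = _
      rw [Polynomial.eval₂_C, RingHom.comp_apply, hΦ0, RingHom.comp_apply, hΦe]
      simp only
      rw [pt_const575 (cD d) _ _ (by rw [cD_C, Derivation.map_algebraMap, map_zero]), bs_C]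
    rw [e1]
    refine obs_congr _ x ?_ fun j hj => ?_
    · rw [← hmκ0, hιm0, hme0]
    · exact (hmain j hj.le).2 hj
  let Pκ := P.map obκ
  have hPκ : Pκ.eval₂ ιW (sw (emb C X u)) = 0 := by
    change (P.map obκ).eval₂ ιW _ = 0
    rw [Polynomial.eval₂_map, hob, ← Polynomial.hom_eval₂, hrele, map_zero]
  have hPκ0 : Pκ ≠ 0 := by
    intro h
    apply hne
    ext i : 1
    rw [Polynomial.coeff_map, Polynomial.coeff_zero]
    have h1 : obκ (P.coeff i) = 0 := by
      have := congrArg (fun Q : Polynomial (KK H)⟦X⟧ => Q.coeff i) h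
      simpa [Pκ, Polynomial.coeff_map] using this
    have h2 : sw (obs (kK K H) (PowerSeries.map C (evn mh)) Φe x (P.coeff i)) = 0 := by
      have h3 := congrArg (fun Ψ : MvPolynomial (Option (Fin N × α)) K →+* S4⟦X⟧ =>
        Ψ (P.coeff i)) hob
      simp only [RingHom.comp_apply] at h3
      rw [← h3, h1, map_zero]
    have h4 : obs (kK K H) (PowerSeries.map C (evn mh)) Φe x (P.coeff i) = 0 :=
      hswi (h2.trans (map_zero sw).symm)
    have h5 := (hiff (Polynomial.C (P.coeff i)) u).2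
      (by rw [Polynomial.eval₂_C]; exact h4)
    rwa [Polynomial.eval₂_C] at h5
  -- divide by the power of `ε`
  obtain ⟨v, Q, hQ1, hQ2⟩ := exists_primitive Pκ hPκ0
  have hQ3 : Q.eval₂ ιW (sw (emb C X u)) = 0 := by
    have h1 := hPκ
    rw [hQ1, Polynomial.eval₂_mul, Polynomial.eval₂_C, map_pow, hιWX] at h1
    exact (mul_eq_zero.1 h1).resolve_left (pow_ne_zero _ heW0)
  -- constant coefficients
  have hccu : constantCoeff (sw (emb C X u)) = al (evn (constantCoeff u)) := by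
    rw [hccsw, map_emb]
    congr 1
    have f1 : (constantCoeff (R := H)).comp (C (R := H)) = RingHom.id H := by
      refine RingHom.ext fun a => ?_
      simp
    have f2 : (constantCoeff (R := H)) (X : H⟦X⟧) = 0 := by simp
    rw [f1, f2]
    have h := evS_eq (evS ((C).comp (RingHom.id H)) (X ^ 2) X_dvd_X2) (X_dvd_CX2 (0 : H)) u 1
    rw [Finset.sum_range_one] at h
    change emb (RingHom.id H) 0 u = _ at h
    obtain ⟨w, hw⟩ : ∃ w, emb (RingHom.id H) 0 u
        = evS ((C).comp (RingHom.id H)) (X ^ 2) X_dvd_X2 (coeff 0 u) * (C (0 : H) * X ^ 2) ^ 0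
          + (C (0 : H) * X ^ 2) ^ 1 * w := ⟨_, h⟩
    rw [hw, pow_zero, mul_one, pow_one, map_zero, zero_mul, zero_mul, add_zero,
      coeff_zero_eq_constantCoeff_apply]
    rfl
  have hQ4 : (Q.map (constantCoeff (R := KK H))).eval₂ ι0 (al (evn (constantCoeff u))) = 0 := by
    rw [Polynomial.eval₂_map, ← hccu]
    have h1 : ι0.comp (constantCoeff (R := KK H)) = (constantCoeff (R := S4)).comp ιW :=
      RingHom.ext fun F => (hccιW F).symm
    rw [h1, ← Polynomial.hom_eval₂, hQ3, map_zero]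
  -- clear denominators
  let q := IsLocalization.integerNormalization (nonZeroDivisors (Polynomial H))
    (Q.map (constantCoeff (R := KK H)))
  obtain ⟨b, hb⟩ := IsLocalization.integerNormalization_map_to_map
    (nonZeroDivisors (Polynomial H)) (Q.map (constantCoeff (R := KK H)))
  refine ⟨q, ?_, ?_⟩
  · intro h
    rw [IsFractionRing.integerNormalization_eq_zero_iff] at h
    exact hQ2 h
  · apply hal
    rw [map_zero, Polynomial.hom_eval₂]
    have h1 : al.comp (Polynomial.eval₂RingHom (Ty d) (evn mh))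
        = ι0.comp (algebraMap (Polynomial H) (KK H)) := by
      refine RingHom.ext fun p => ?_
      simp only [RingHom.comp_apply]
      change al (p.eval₂ (Ty d) (evn mh)) = constantCoeff (ικ (algebraMap _ _ p))
      rw [hικ, hccev0]
    rw [h1, ← Polynomial.eval₂_map, hb]
    have h2 : ((b : Polynomial H) • Q.map (constantCoeff (R := KK H)))
        = Polynomial.C (algebraMap (Polynomial H) (KK H) b) * Q.map (constantCoeff (R := KK H)) := by
      rw [Polynomial.C_mul', algebraMap_smul]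
    rw [h2, Polynomial.eval₂_mul, hQ4, mul_zero]

end fct

end Crest.Agent.R102.H3
end

-- ▼ part R102/FCTR_575
section

/-!
Row 102, part (C), leaf H3: comparison of the chain over `R⟦ε⟧` (outer chain) with the chain over
`H⟦θ⟧⟦ω⟧` (inner chain), `ε = θ ω²`; the comparison argument is taken from 389's `H3.rigid`.
Then the formal collapse theorem for chains over `R⟦ε⟧`.
-/

set_option linter.unusedSectionVars false
set_option autoImplicit false

namespace Crest.Agent.R102.H3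

open PowerSeries Finset

section compare

variable {K H R : Type*} [Field K] [CharZero K] [CommRing H] [IsDomain H] [Algebra K H] [CommRing R]

/-- **comparison** of inner and outer chains -/
theorem compare_chains (d : Derivation K H H) {z g : H} (hz : d z = 1) (hg1 : IsUnit (d g))
    (hg2 : IsUnit (dn d 2 g)) (N : ℕ) (G : ℕ → H⟦X⟧) (hG : ∀ i, constantCoeff (G i) = g)
    {mh kh : H⟦X⟧} (hline : Ty d g = evn mh * (C z + X) + evn kh)
    (j : H⟦X⟧ →+* R) (hjX : IsUnit (j X))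
    (β m0 k0 : ℕ → H⟦X⟧) (hβ : ∀ i < N, constantCoeff (β i) = 2 * i + 1)
    (hbase : Chain d z (fun _ => g) N (fun i => pt d C (X * β i) (X_dvd_X_mul (β i))) m0 k0)
    (hm00 : m0 0 = evn mh) (hk00 : k0 0 = evn kh)
    (y : ℕ → R⟦X⟧) (hy : ∀ i, X ∣ y i) (m k : ℕ → R⟦X⟧)
    (hout : Chain (cD d) (C z) G N (fun i => pt (cD d)
      (PowerSeries.map (j.comp (pt d C (X * β i) (X_dvd_X_mul (β i))))) (y i) (hy i)) m k)
    (hm0 : m 0 = C (j (m0 0))) (hk0 : k 0 = C (j (k0 0)))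
    (r : ℕ → H⟦X⟧) (hr1 : ∀ i, constantCoeff (r i) = 1)
    {Y mi ki : ℕ → H⟦X⟧⟦X⟧} (hmi0 : mi 0 = PowerSeries.map C (evn mh))
    (hki0 : ki 0 = PowerSeries.map C (evn kh))
    (hY : ∀ i, constantCoeff (Y i) = 2 * ∑ l ∈ range i, r l + r i)
    (hci : ∀ N, Chain (cD d) (C z) G N
      (fun i => pt (cD d) (bs C X) (X * Y i) (X_dvd_X_mul (Y i))) mi ki) :
    (∀ i ≤ N, kap (j X) (m i) = chi j (mi i) ∧ kap (j X) (k i) = chi j (ki i)) ∧
    ∀ i < N, (kap (j X)).comp (pt (cD d)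
      (PowerSeries.map (j.comp (pt d C (X * β i) (X_dvd_X_mul (β i))))) (y i) (hy i)) =
      (chi j).comp (pt (cD d) (bs C X) (X * Y i) (X_dvd_X_mul (Y i))) := by
  classical
  have h2H : IsUnit (2 : H) := by
    have : (2 : H) = algebraMap K H 2 := by rw [map_ofNat]
    rw [this]
    exact (Ne.isUnit two_ne_zero).map _
  obtain ⟨v2, hv2⟩ := hg2
  set g2 := dn d 2 g with hg2d
  have hzz : cD d (C z) = (1 : H⟦X⟧) := by rw [cD_C, hz, map_one]
  -- its reduction mod `θ` is the base chain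
  set π : H⟦X⟧ →+* H := constantCoeff with hπ
  have hπC : π.comp (C : H →+* H⟦X⟧) = RingHom.id H := RingHom.ext fun a => by simp [hπ]
  have hπX : π X = 0 := by simp [hπ]
  have hred := (hci N).map (PowerSeries.map π)
  have e1 : ∀ i, (PowerSeries.map π).comp
      (pt (cD d) (bs (C : H →+* H⟦X⟧) X) (X * Y i) (X_dvd_X_mul (Y i)))
      = pt (cD d) (bs (RingHom.id H) 0) (X * PowerSeries.map π (Y i)) (X_dvd_X_mul _) := by
    intro i
    rw [comp_pt (cD d) (PowerSeries.map π) (X_dvd_map_X _)]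
    refine pt_congr _ _ _ ?_ (by simp)
    rw [map_bs, hπC, hπX]
  simp only [e1] at hred
  have hbase' : Chain (cD d) (C z) G N
      (fun i => pt (cD d) (bs (RingHom.id H) 0) (X * β i) (X_dvd_X_mul (β i))) m0 k0 := by
    have hG' : ∀ i, π (G i) = g := hG
    refine ⟨fun i hi => ?_, fun i hi => ?_, fun i hi => ?_⟩
    · simp only [pt_bs_zero, RingHom.comp_apply]
      rw [← hπ, hG', show π (C z) = z from constantCoeff_C z]
      exact hbase.inc i hi
    · simp only [pt_bs_zero, RingHom.comp_apply]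
      rw [← hπ, hG', show π (C z) = z from constantCoeff_C z]
      exact hbase.inc' i hi
    · simp only [pt_bs_zero, RingHom.comp_apply]
      rw [constantCoeff_cD, ← hπ, hG']
      exact hbase.refl i hi
  have hN0 := near_bs d (RingHom.id H) (0 : H) g G hG
  have hI0 := inv_line (S := H) d (RingHom.id H) 0 hline
  have hmap0 : ∀ f : H⟦X⟧, PowerSeries.map (RingHom.id H) f = f := fun f => by
    ext n; simp
  have huniq := inner_unique (z := C z) hzz h2H (hg1.map (RingHom.id H))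
    (show IsUnit ((RingHom.id H) g2) by rw [← hv2]; exact v2.isUnit) hN0 (fun _ => 1) N
    (fun _ _ => isUnit_one) (fun i _ => by simp)
    (Y := fun i => PowerSeries.map π (Y i)) (m := fun i => PowerSeries.map π (mi i))
    (k := fun i => PowerSeries.map π (ki i)) (Y' := β) (m' := m0) (k' := k0) ?_ ?_ ?_ ?_ ?_
    hred hbase'
  rotate_left
  · rw [hmi0, hm00, ← RingHom.comp_apply, ← PowerSeries.map_comp, hπC, hmap0]
  · rw [hki0, hk00, ← RingHom.comp_apply, ← PowerSeries.map_comp, hπC, hmap0]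
  · rw [hmi0, hki0, ← RingHom.comp_apply, ← RingHom.comp_apply, ← PowerSeries.map_comp, hπC]
    exact hI0
  · intro i hi
    have : constantCoeff (PowerSeries.map π (Y i)) = π (constantCoeff (Y i)) := by
      rw [← coeff_zero_eq_constantCoeff_apply, coeff_map, coeff_zero_eq_constantCoeff_apply]
    have hr1' : ∀ x, π (r x) = 1 := hr1
    rw [this, hY, map_add, map_mul, map_sum, map_ofNat]
    simp only [hr1']
  · intro i hi
    rw [hβ i hi]; simp
  obtain ⟨hlines, hYβ⟩ := huniq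
  -- comparison in `R⟦θ⟧`
  set φ : ℕ → H →+* H⟦X⟧ := fun i => pt d C (X * β i) (X_dvd_X_mul (β i)) with hφ
  set ξ : ℕ → H⟦X⟧ →+* R⟦X⟧ := fun i => (kap (j X)).comp (PowerSeries.map (j.comp (φ i))) with hξ
  set e : ℕ → R⟦X⟧ := fun i => chi j (X * (Y i - PowerSeries.map C (β i))) with he
  set w : ℕ → R⟦X⟧ := fun i => kap (j X) (y i) with hw
  have hkX : (X : R⟦X⟧) ∣ kap (j X) X := by rw [kap_X]; exact Dvd.intro_left _ rfl
  have hwd : ∀ i, X ∣ w i := fun i => hkX.trans (map_dvd _ (hy i))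
  have hπX' : PowerSeries.map π (X : H⟦X⟧⟦X⟧) = X := map_X _
  have hπmap : ∀ f : H⟦X⟧, PowerSeries.map π (PowerSeries.map (C : H →+* H⟦X⟧) f) = f := by
    intro f
    rw [← RingHom.comp_apply, ← PowerSeries.map_comp, hπC, hmap0]
  have hed : ∀ i < N, X ∣ e i := by
    intro i hi
    rw [X_dvd_iff, he, constantCoeff_chi, ← hπ, map_mul, map_sub, hYβ i hi, hπmap]
    simp
  have hin : ∀ i (hi : i < N), (chi j).comp
      (pt (cD d) (bs (C : H →+* H⟦X⟧) X) (X * Y i) (X_dvd_X_mul (Y i))) =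
      pt (cD d) (ξ i) (e i) (hed i hi) := by
    intro i hi
    have h1 : pt (cD d) (bs (C : H →+* H⟦X⟧) X) (X * Y i) (X_dvd_X_mul (Y i)) =
        pt (cD d) (pt (cD d) (bs (C : H →+* H⟦X⟧) X) (X * PowerSeries.map C (β i))
          (X_dvd_X_mul _)) (X * (Y i - PowerSeries.map C (β i))) (X_dvd_X_mul _) := by
      rw [pt_pt]
      exact pt_congr _ _ _ rfl (by ring)
    rw [h1, map_pt_of_dvd (cD d) (chi j) _ _ (hed i hi)]
    exact pt_congr _ _ _ (chi_pt d j (β i)) rfl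
  have hou : ∀ i, (kap (j X)).comp (pt (cD d) (PowerSeries.map (j.comp (φ i))) (y i) (hy i)) =
      pt (cD d) (ξ i) (w i) (hwd i) := by
    intro i
    rw [comp_pt (cD d) (kap (j X)) hkX]
  have hξ0 : ∀ i (F : H⟦X⟧), constantCoeff (ξ i F) = j (φ i (constantCoeff F)) := by
    intro i F
    rw [hξ]
    simp only [RingHom.comp_apply]
    rw [kap, constantCoeff_evS, constantCoeff_C]
    rw [← coeff_zero_eq_constantCoeff_apply, coeff_map, coeff_zero_eq_constantCoeff_apply]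
    rfl
  have hchi0 : ∀ i ≤ N, constantCoeff (chi j (mi i)) = j (m0 i) := by
    intro i hi
    rw [constantCoeff_chi, ← hπ, (hlines i hi).1]
  have hunit : ∀ i < N, IsUnit (constantCoeff (ξ i (cD d (G i)) - chi j (mi i))) := by
    intro i hi
    rw [map_sub, hξ0, hchi0 i hi.le, ← map_sub, constantCoeff_cD, hG]
    obtain ⟨q, hq⟩ := pt_eq d (C : H →+* H⟦X⟧) (X_dvd_X_mul (β i)) (d g) 2
    rw [Finset.sum_range_succ, Finset.sum_range_one] at hq
    simp only [dn_zero, dn_one, pow_zero, mul_one, pow_one] at hq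
    rw [two_dn_two] at hq
    obtain ⟨w1, hw1⟩ := ((hlines i hi.le).2.2).i1
    rw [(hlines i hi.le).1] at hw1
    have hβc : X ∣ β i - C (2 * (i : H) + 1) := by
      rw [X_dvd_iff, map_sub, constantCoeff_C, hβ i hi, sub_self]
    obtain ⟨w2, hw2⟩ := hβc
    have e1 : m0 i = C (d g) + X * C (2 * g2 * (2 * i)) + X ^ 2 * w1 := by
      rw [← hw1]
      simp
    have e2 : β i = C (2 * (i : H) + 1) + X * w2 := by rw [← hw2]; ring
    have e3 : φ i (d g) - m0 i = X * (C (2 * g2) + X * (2 * C g2 * w2 + β i ^ 2 * q - w1)) := by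
      change pt d C (X * β i) (X_dvd_X_mul (β i)) (d g) - m0 i = _
      rw [hq, e1]
      have e4 : (C (2 * g2) : H⟦X⟧) * (X * β i) = X * (C (2 * g2) * C (2 * (i : H) + 1)) +
          X ^ 2 * (2 * C g2 * w2) := by
        conv_lhs => rw [e2]
        simp only [map_mul, map_ofNat]
        ring
      rw [e4]
      simp only [map_mul, map_add, map_ofNat, map_natCast, map_one]
      ring
    rw [e3, map_mul]
    refine hjX.mul (IsUnit.map j ?_)
    rw [PowerSeries.isUnit_iff_constantCoeff]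
    simp only [map_add, map_mul, constantCoeff_C, constantCoeff_X, zero_mul, add_zero]
    rw [← hv2]
    exact h2H.mul v2.isUnit
  have hcomp : ∀ i ≤ N, kap (j X) (m i) = chi j (mi i) ∧ kap (j X) (k i) = chi j (ki i) := by
    intro i
    induction i with
    | zero =>
      intro _
      rw [hm0, hk0, hmi0, hki0, hm00, hk00, kap_C, kap_C, chi_map_C, chi_map_C]
      exact ⟨rfl, rfl⟩
    | succ i ih =>
      intro hi
      obtain ⟨ihm, ihk⟩ := ih (by omega)
      have hi' : i < N := by omega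
      have o1 := (hout.map (kap (j X))).inc i hi'
      have o2 := (hout.map (kap (j X))).inc' i hi'
      have o3 := (hout.map (kap (j X))).refl i hi'
      have n1 := ((hci N).map (chi j)).inc i hi'
      have n2 := ((hci N).map (chi j)).inc' i hi'
      have n3 := ((hci N).map (chi j)).refl i hi'
      rw [hou i] at o1 o2 o3
      rw [hin i hi'] at n1 n2 n3
      rw [ihm, ihk] at o1
      have hwe : w i = e i := outer_unique (cD d) (ξ i) hzz (G i) (chi j (mi i)) (chi j (ki i))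
        (hunit i hi') (hwd i) (hed i hi') o1 n1
      have hpt : pt (cD d) (ξ i) (w i) (hwd i) = pt (cD d) (ξ i) (e i) (hed i hi') :=
        pt_congr _ _ _ rfl hwe
      rw [hpt] at o1 o2 o3
      have hmu : IsUnit (chi j (mi i)) := by
        rw [PowerSeries.isUnit_iff_constantCoeff, hchi0 i hi'.le]
        have h5 := (hlines i hi'.le).2.2
        rw [(hlines i hi'.le).1] at h5
        exact (h5.isUnit_m (hg1.map (RingHom.id H))).map j
      have em : kap (j X) (m (i + 1)) = chi j (mi (i + 1)) := by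
        rw [ihm] at o3
        exact hmu.mul_left_injective (o3.trans n3.symm)
      refine ⟨em, ?_⟩
      rw [em] at o2
      exact add_left_cancel (o2.symm.trans n2)
  refine ⟨hcomp, fun i hi' => ?_⟩
  obtain ⟨ihm, ihk⟩ := hcomp i hi'.le
  have o1 := (hout.map (kap (j X))).inc i hi'
  have n1 := ((hci N).map (chi j)).inc i hi'
  rw [hou i] at o1
  rw [hin i hi'] at n1
  rw [ihm, ihk] at o1
  have hwe : w i = e i := outer_unique (cD d) (ξ i) hzz (G i) (chi j (mi i)) (chi j (ki i))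
    (hunit i hi') (hwd i) (hed i hi') o1 n1
  rw [hou i, hin i hi']
  exact pt_congr _ _ _ rfl hwe

end compare

section fctR

variable {K H R : Type*} [Field K] [CharZero K] [CommRing H] [IsDomain H] [Algebra K H] [CommRing R]

theorem coeff_kap (u : R) (F : R⟦X⟧) (n : ℕ) : coeff n (kap u F) = u ^ (2 * n) * coeff n F := by
  obtain ⟨q, hq⟩ : ∃ q, F = (∑ m ∈ range (n + 1), C (coeff m F) * X ^ m) + X ^ (n + 1) * q := by
    have h : X ^ (n + 1) ∣ F - ∑ m ∈ range (n + 1), C (coeff m F) * X ^ m := by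
      rw [X_pow_dvd_iff]
      intro m hm
      rw [map_sub, map_sum, Finset.sum_eq_single m]
      · rw [coeff_C_mul, coeff_X_pow_self, mul_one, sub_self]
      · intro b _ hb
        rw [coeff_C_mul, coeff_X_pow, if_neg (Ne.symm hb), mul_zero]
      · intro hm'
        exact absurd (Finset.mem_range.2 hm) hm'
    obtain ⟨q, hq⟩ := h
    exact ⟨q, by rw [← hq]; ring⟩
  have h1 : kap u F = (∑ m ∈ range (n + 1), C (coeff m F * u ^ (2 * m)) * X ^ m) +
      X ^ (n + 1) * (C (u ^ (2 * (n + 1))) * kap u q) := by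
    conv_lhs => rw [hq]
    rw [map_add, map_sum, map_mul, map_pow, kap_X]
    congr 1
    · refine Finset.sum_congr rfl fun m _ => ?_
      rw [map_mul, map_pow, kap_C, kap_X, mul_pow, ← map_pow, map_mul (C (R := R)), pow_mul]
      ring
    · rw [mul_pow, ← map_pow, pow_mul]
      ring
  rw [h1, map_add, map_sum, Finset.sum_eq_single n]
  · rw [coeff_C_mul, coeff_X_pow_self, mul_one, coeff_X_pow_mul', if_neg (by omega), add_zero,
      mul_comm]
  · intro b _ hb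
    rw [coeff_C_mul, coeff_X_pow, if_neg (Ne.symm hb), mul_zero]
  · intro hm'
    exact absurd (Finset.mem_range.2 (Nat.lt_succ_self n)) hm'

theorem kap_injective {u : R} (hu : IsUnit u) : Function.Injective (kap u) := by
  intro F G h
  ext n
  have h1 := congrArg (coeff n) h
  rw [coeff_kap, coeff_kap] at h1
  exact (hu.pow _).mul_right_injective h1


theorem kap_map_evn (j : H⟦X⟧ →+* R) (u : H⟦X⟧⟦X⟧) :
    kap (j X) (PowerSeries.map (j.comp evn) u) = chi j (emb C X u) := by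
  have hXd : (X : R⟦X⟧) ∣ C (j X ^ 2) * X := Dvd.intro_left _ rfl
  have h1 := evS_unique ((kap (j X)).comp (PowerSeries.map (j.comp (evn : H⟦X⟧ →+* H⟦X⟧))))
    ((C).comp (j.comp evn)) (y := C (j X ^ 2) * X) hXd ?_ ?_
  · have h2 := evS_unique ((chi j).comp (emb (C : H →+* H⟦X⟧) X))
      ((C).comp (j.comp evn)) (y := C (j X ^ 2) * X) hXd ?_ ?_
    · rw [← RingHom.comp_apply, ← RingHom.comp_apply, h1, h2]
    · intro a
      rw [RingHom.comp_apply, emb, evS_C]
      -- both sides are `H⟦w⟧ → R⟦θ⟧`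
      have e : evS ((C).comp (C : H →+* H⟦X⟧)) (X ^ 2) X_dvd_X2 =
          (PowerSeries.map (C : H →+* H⟦X⟧)).comp (evn : H⟦X⟧ →+* H⟦X⟧) := by
        symm
        refine evS_unique _ _ _ (fun b => ?_) ?_
        · rw [RingHom.comp_apply, evn, evS_C, map_C]; rfl
        · rw [RingHom.comp_apply, evn, evS_X, map_pow, map_X]
      rw [e, RingHom.comp_apply, chi_map_C]
      rfl
    · rw [RingHom.comp_apply, emb, evS_X, map_mul, map_pow, chi_C_X, chi_X, ← map_pow]
      ring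
  · intro a
    rw [RingHom.comp_apply, map_C, kap_C]; rfl
  · rw [RingHom.comp_apply, map_X, kap_X]

/-- **The formal collapse theorem over `R⟦ε⟧`.** -/
theorem fctR (d : Derivation K H H) {z g : H} (hz : d z = 1) (hg1 : IsUnit (d g))
    (hg2 : IsUnit (dn d 2 g)) (N : ℕ) (hN : 0 < N) (G : ℕ → H⟦X⟧)
    (hG : ∀ i < N, constantCoeff (G i) = g)
    (hν : ∀ i < N, ∀ l < N, i ≠ l → coeff 1 (G i) ≠ coeff 1 (G l))
    (hν0 : ∀ i < N, coeff 1 (G i) ≠ 0) {mh kh : H⟦X⟧}
    (hline : Ty d g = evn mh * (C z + X) + evn kh)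
    (j : H⟦X⟧ →+* R) (hj : Function.Injective j) (hjX : IsUnit (j X))
    (β m0 k0 : ℕ → H⟦X⟧) (hβ : ∀ i < N, constantCoeff (β i) = 2 * i + 1)
    (hbase : Chain d z (fun _ => g) N (fun i => pt d C (X * β i) (X_dvd_X_mul (β i))) m0 k0)
    (hm00 : m0 0 = evn mh) (hk00 : k0 0 = evn kh)
    (y : ℕ → R⟦X⟧) (hy : ∀ i, X ∣ y i) (m k : ℕ → R⟦X⟧)
    (hout : Chain (cD d) (C z) G N (fun i => pt (cD d)
      (PowerSeries.map (j.comp (pt d C (X * β i) (X_dvd_X_mul (β i))))) (y i) (hy i)) m k)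
    (hm0 : m 0 = C (j (m0 0))) (hk0 : k 0 = C (j (k0 0)))
    {α : Type*} (x : Fin N → α → H⟦X⟧) (u : H⟦X⟧⟦X⟧)
    (P : Polynomial (MvPolynomial (Option (Fin N × α)) K))
    (hrel : P.eval₂ (obs ((C).comp (j.comp (algebraMap K H⟦X⟧))) (C (j (evn mh)))
      (fun i => pt (cD d)
      (PowerSeries.map (j.comp (pt d C (X * β i) (X_dvd_X_mul (β i))))) (y i) (hy i)) x)
      (PowerSeries.map (j.comp evn) u) = 0)
    (hne : P.map (obs ((C).comp (j.comp (algebraMap K H⟦X⟧))) (C (j (evn mh)))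
      (fun i => pt (cD d)
      (PowerSeries.map (j.comp (pt d C (X * β i) (X_dvd_X_mul (β i))))) (y i) (hy i)) x) ≠ 0) :
    ∃ q : Polynomial (Polynomial H), q ≠ 0 ∧
      q.eval₂ (Polynomial.eval₂RingHom (Ty d) (evn mh)) (evn (constantCoeff u)) = 0 := by
  classical
  have h2H : IsUnit (2 : H) := by
    have : (2 : H) = algebraMap K H 2 := by rw [map_ofNat]
    rw [this]
    exact (Ne.isUnit two_ne_zero).map _
  have h2HH : IsUnit (2 : H⟦X⟧) := by
    have : (2 : H⟦X⟧) = C 2 := by rw [map_ofNat]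
    rw [this]
    exact h2H.map _
  set G' : ℕ → H⟦X⟧ := fun i => if i < N then G i else C g with hG'
  have hG'lt : ∀ i < N, G' i = G i := fun i hi => by simp [hG', hi]
  have hG'0 : ∀ i, constantCoeff (G' i) = g := by
    intro i
    by_cases h : i < N
    · rw [hG'lt i h, hG i h]
    · simp [hG', h]
  have hG'N : ∀ i, N ≤ i → coeff 1 (G' i) = 0 := by
    intro i h
    have : ¬ i < N := by omega
    simp [hG', this, coeff_C]
  obtain ⟨v2, hv2⟩ := id hg2
  set g2 := dn d 2 g with hg2d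
  set a : ℕ → H := fun i => (↑(v2⁻¹) : H) * coeff 1 (G' i) with ha
  choose r hr1 hr2 using fun i => exists_sqrt h2H (a i)
  have hr : ∀ i, C g2 * r i ^ 2 = C g2 - X * C (coeff 1 (G' i)) := by
    intro i
    rw [hr2]
    have h2 : (C g2 : H⟦X⟧) * C (a i) = C (coeff 1 (G' i)) := by
      rw [← map_mul]
      congr 1
      simp only [ha, ← mul_assoc, ← hv2]
      simp
    rw [mul_sub, mul_one, ← mul_assoc, h2]
    ring
  have hru : ∀ i, IsUnit (r i) := by
    intro i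
    rw [PowerSeries.isUnit_iff_constantCoeff, hr1 i]
    exact isUnit_one
  have hzz : cD d (C z) = (1 : H⟦X⟧) := by rw [cD_C, hz, map_one]
  have hNH := near_bs d (C : H →+* H⟦X⟧) (X : H⟦X⟧) g G' hG'0
  have hIH := inv_line (S := H⟦X⟧) d (C : H →+* H⟦X⟧) X hline
  obtain ⟨Y, mi, ki, hmi0, hki0, hY, hci, hIi⟩ :=
    inner_exists (z := C z) hzz h2HH (hg1.map C)
      (show IsUnit (C g2 : H⟦X⟧) by rw [← hv2]; exact v2.isUnit.map C) hNH r hru hr _ _ hIH
  have hout' : Chain (cD d) (C z) G' N (fun i => pt (cD d)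
      (PowerSeries.map (j.comp (pt d C (X * β i) (X_dvd_X_mul (β i))))) (y i) (hy i)) m k := by
    refine ⟨fun i hi => ?_, fun i hi => ?_, fun i hi => ?_⟩
    · rw [hG'lt i hi]; exact hout.inc i hi
    · rw [hG'lt i hi]; exact hout.inc' i hi
    · rw [hG'lt i hi]; exact hout.refl i hi
  obtain ⟨hc1, hc2⟩ := compare_chains d hz hg1 hg2 N G' hG'0 hline j hjX β m0 k0 hβ hbase hm00 hk00
    y hy m k hout' hm0 hk0 r hr1 hmi0 hki0 hY hci
  have hobs : (kap (j X)).comp (obs ((C).comp (j.comp (algebraMap K H⟦X⟧))) (C (j (evn mh)))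
      (fun i => pt (cD d)
      (PowerSeries.map (j.comp (pt d C (X * β i) (X_dvd_X_mul (β i))))) (y i) (hy i)) x) =
      (chi j).comp (obs (kK K H) (PowerSeries.map C (evn mh))
        (fun i => pt (cD d) (bs C X) (X * Y i) (X_dvd_X_mul (Y i))) x) := by
    rw [comp_obs, comp_obs]
    have e1 : (kap (j X)).comp ((C).comp (j.comp (algebraMap K H⟦X⟧))) =
        (chi j).comp (kK K H) := by
      refine RingHom.ext fun c => ?_
      simp only [RingHom.comp_apply, kap_C, kK]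
      have : (C (C (algebraMap K H c)) : H⟦X⟧⟦X⟧) =
          PowerSeries.map C (C (algebraMap K H c)) := by rw [map_C]
      rw [this, chi_map_C, PowerSeries.algebraMap_apply]
    rw [e1]
    refine obs_congr _ x ?_ fun i hi => hc2 i hi
    rw [kap_C, chi_map_C]
  have hchi : Function.Injective (chi j) := by
    intro F F' h
    rw [chi, RingHom.comp_apply, RingHom.comp_apply] at h
    exact swap_injective (PowerSeries.map_injective j hj h)
  refine fct d hz hg1 hg2 N hN G' hG'0 hG'N (fun i hi l hl hil => ?_) (fun i hi => ?_) hline r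
    (fun i _ => hr i) (fun i _ => hr1 i) hmi0 hki0 (fun i _ => hY i) (hci N) x u P ?_ ?_
  · rw [hG'lt i hi, hG'lt l hl]; exact hν i hi l hl hil
  · rw [hG'lt i hi]; exact hν0 i hi
  · apply hchi
    rw [Polynomial.hom_eval₂, ← hobs, ← kap_map_evn, ← Polynomial.hom_eval₂, hrel, map_zero,
      map_zero]
  · intro h
    apply hne
    ext i : 1
    rw [Polynomial.coeff_map, Polynomial.coeff_zero]
    apply kap_injective hjX
    have h1 := congrArg (fun Q : Polynomial H⟦X⟧⟦X⟧ => chi j (Q.coeff i)) h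
    simp only [Polynomial.coeff_map, Polynomial.coeff_zero] at h1
    have h2 := congrArg (fun Ψ : MvPolynomial (Option (Fin N × α)) K →+* R⟦X⟧ =>
      Ψ (P.coeff i)) hobs
    simp only [RingHom.comp_apply] at h2
    rw [h2, h1, map_zero, map_zero]

end fctR

end Crest.Agent.R102.H3
end

-- ▼ part R102/TransA_575

/-!
Row 102, part (C), leaf H3, (T) TRANSFER, part A: the chain of `F7_389` and its Taylor expansion
at `ω = 0`.
-/

set_option linter.unusedSectionVars false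
set_option autoImplicit false

namespace Crest.Agent.R102.CT575

open H3 Glue798 PowerSeries Finset Set Topology TopologicalSpace Metric Filter

noncomputable section

section TOcomp

variable {D V : Opens ℂ} {W : Opens (ℂ × ℂ)}

/-- **composition**, `compH` form -/
theorem TO_compH (hD : D ≤ V) (h0 : ∀ c ∈ D, (c, (0 : ℂ)) ∈ W) (h1 : ∀ p ∈ W, p.1 ∈ D)
    (b : Hol W) (hb : ∀ p : W, (b : W → ℂ) p ∈ V)
    (hb0 : ∀ c (hc : c ∈ D), (b : W → ℂ) ⟨(c, 0), h0 c hc⟩ = c)
    (he : (X : (Hol D)⟦X⟧) ∣ TO h0 b - C (zH D)) (f : Hol V) :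
    TO h0 (compH b hb f) = pt (DH D) C (TO h0 b - C (zH D)) he (Hol.res hD f) := by
  have hG : AnalyticOnNhd ℂ (ext0 (f : V → ℂ)) D := (Hol.an f).mono hD
  have hGb : AnalyticOnNhd ℂ (fun p => ext0 (f : V → ℂ) (ext0 (b : W → ℂ) p)) W := by
    intro x hx
    refine AnalyticAt.fun_comp (g := ext0 (f : V → ℂ)) ?_ (Hol.an b x hx)
    rw [ext0_of_mem _ hx]
    exact Hol.an f _ (hb ⟨x, hx⟩)
  have e1 : compH b hb f = Hol.ofFun _ hGb := by
    ext p
    rw [compH_apply, Hol.ofFun_apply, ext0_apply, ext0_of_mem _ (hb p)]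
  have e2 : Hol.ofFun (ext0 (b : W → ℂ)) (Hol.an b) = b := Hol.ofFun_ext0 b
  have e3 : Hol.res hD f = Hol.ofFun (ext0 (f : V → ℂ)) hG := by
    ext x
    rw [Hol.res_apply, Hol.ofFun_apply, ext0_of_mem _ (hD x.2)]
  have he' : (X : (Hol D)⟦X⟧) ∣ TO h0 (Hol.ofFun (ext0 (b : W → ℂ)) (Hol.an b)) - C (zH D) := by
    rw [e2]; exact he
  have key := TO_comp h0 h1 hG (Hol.an b)
    (fun c hc => by rw [ext0_of_mem _ (h0 c hc)]; exact hb0 c hc) hGb he'
  rw [e1, key, e3]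
  exact congrArg (fun Φ : Hol D →+* (Hol D)⟦X⟧ => Φ _) (pt_congr (DH D) he' he rfl (by rw [e2]))

end TOcomp

/-- the polydisc -/
def UU (c₀ : ℂ) (ρ : ℝ) : Opens (ℂ × ℂ) :=
  ⟨ball c₀ ρ ×ˢ ball (0 : ℂ) ρ, IsOpen.prod isOpen_ball isOpen_ball⟩


theorem UU_h0 {c₀ : ℂ} {ρ : ℝ} (hρ : 0 < ρ) : ∀ c ∈ bO c₀ ρ, (c, (0 : ℂ)) ∈ UU c₀ ρ :=
  fun _ hc => ⟨hc, mem_ball_self hρ⟩

theorem UU_h1 {c₀ : ℂ} {ρ : ℝ} : ∀ p ∈ UU c₀ ρ, p.1 ∈ bO c₀ ρ := fun _ hp => hp.1

theorem UU_preconnected (c₀ : ℂ) (ρ : ℝ) : IsPreconnected ((UU c₀ ρ : Opens (ℂ × ℂ)) : Set (ℂ × ℂ)) :=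
  (convex_ball c₀ ρ).isPreconnected.prod (convex_ball (0 : ℂ) ρ).isPreconnected

/-- the chain near another point -/
theorem chain_move {g : ℂ → ℂ} {c₀ : ℂ} {N : ℕ} {ρ : ℝ} {β m k q q' : ℕ → ℂ × ℂ → ℂ}
    (h : F7389.Chain g c₀ N ρ β m k q q') {t : ℂ} {ρ' : ℝ} (hρ' : 0 < ρ')
    (ht : ball t ρ' ⊆ ball c₀ ρ) (hle : ρ' ≤ ρ) : F7389.Chain g t N ρ' β m k q q' := by
  have hs : ball t ρ' ×ˢ ball (0 : ℂ) ρ' ⊆ ball c₀ ρ ×ˢ ball (0 : ℂ) ρ :=
    Set.prod_mono ht (ball_subset_ball hle)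
  exact
  { ρ_pos := hρ'
    an_β := fun i hi => (h.an_β i hi).mono hs
    an_m := fun i hi => (h.an_m i hi).mono hs
    an_k := fun i hi => (h.an_k i hi).mono hs
    an_q := fun i hi => (h.an_q i hi).mono hs
    an_q' := fun i hi => (h.an_q' i hi).mono hs
    β_zero := h.β_zero
    β_c := fun i hi c hc => h.β_c i hi c (ht hc)
    m_c := fun i hi c hc => h.m_c i hi c (ht hc)
    q_c := fun i hi c hc => h.q_c i hi c (ht hc)
    q'_c := fun i hi c hc => h.q'_c i hi c (ht hc)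
    an_g := fun i hi p hp => h.an_g i hi p (hs hp)
    an_g' := fun p hp => h.an_g' p (hs hp)
    inc := fun i hi p hp => h.inc i hi p (hs hp)
    inc' := fun i hi p hp => h.inc' i hi p (hs hp)
    chord := fun p hp => h.chord p (hs hp)
    refl := fun i hi p hp => h.refl i hi p (hs hp)
    m_ne := fun i hi p hp => h.m_ne i hi p (hs hp)
    q_ne := fun i hi p hp => h.q_ne i hi p (hs hp)
    q'_ne := fun i hi p hp => h.q'_ne i hi p (hs hp)
    q_eq := fun i hi p hp => h.q_eq i hi p (hs hp)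
    q'_eq := fun i hi p hp => h.q'_eq i hi p (hs hp)
    even_m := fun p hp => h.even_m p (hs hp)
    even_k := fun p hp => h.even_k p (hs hp) }

/-- data: chain on the polydisc around `(c₀, 0)`, vertices in `V = ball e r`, `g` analytic there -/
structure Dat (g : ℂ → ℂ) (c₀ : ℂ) (N : ℕ) (ρ : ℝ) (e : ℂ) (r : ℝ)
    (β m k q q' : ℕ → ℂ × ℂ → ℂ) : Prop where
  ch : F7389.Chain g c₀ N ρ β m k q q'
  sub : ball c₀ ρ ⊆ ball e r
  vert : ∀ i ≤ N, ∀ p ∈ ball c₀ ρ ×ˢ ball (0 : ℂ) ρ, p.1 + p.2 * β i p ∈ ball e r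
  ang : AnalyticOnNhd ℂ g (ball e r)

section dat

variable {g : ℂ → ℂ} {c₀ e : ℂ} {N : ℕ} {ρ r : ℝ} {β m k q q' : ℕ → ℂ × ℂ → ℂ}
  (h : Dat g c₀ N ρ e r β m k q q')

/-- functions on the polydisc as elements of `Hol (UU c₀ ρ)` -/
abbrev hU (c₀ : ℂ) (ρ : ℝ) (F : ℂ × ℂ → ℂ) : Hol (UU c₀ ρ) := toH (UU c₀ ρ) F

abbrev omH (c₀ : ℂ) (ρ : ℝ) : Hol (UU c₀ ρ) := hU c₀ ρ (fun p => p.2)

theorem Dat.an_b (h : Dat g c₀ N ρ e r β m k q q') {i : ℕ} (hi : i ≤ N) :
    AnalyticOnNhd ℂ (fun p : ℂ × ℂ => p.1 + p.2 * β i p) (UU c₀ ρ) :=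
  analyticOnNhd_fst.add (analyticOnNhd_snd.mul (h.ch.an_β i hi))

/-- the vertex `b i` -/
def bH (c₀ : ℂ) (ρ : ℝ) (β : ℕ → ℂ × ℂ → ℂ) (i : ℕ) : Hol (UU c₀ ρ) :=
  hU c₀ ρ (fun p => p.1 + p.2 * β i p)

theorem Dat.bH_apply (h : Dat g c₀ N ρ e r β m k q q') {i : ℕ} (hi : i ≤ N) (p : UU c₀ ρ) :
    (bH c₀ ρ β i : UU c₀ ρ → ℂ) p = (p : ℂ × ℂ).1 + (p : ℂ × ℂ).2 * β i p :=
  toH_apply (h.an_b hi) p

theorem Dat.bH_mem (h : Dat g c₀ N ρ e r β m k q q') {i : ℕ} (hi : i ≤ N) (p : UU c₀ ρ) :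
    (bH c₀ ρ β i : UU c₀ ρ → ℂ) p ∈ bO e r := by
  rw [h.bH_apply hi]
  exact h.vert i hi p p.2

/-- the germ -/
def gV (g : ℂ → ℂ) (e : ℂ) (r : ℝ) : Hol (bO e r) := toH (bO e r) g

theorem Dat.gV_apply (h : Dat g c₀ N ρ e r β m k q q') (x : bO e r) :
    (gV g e r : bO e r → ℂ) x = g x := toH_apply h.ang x

theorem Dat.le' (h : Dat g c₀ N ρ e r β m k q q') : bO c₀ ρ ≤ bO e r := h.sub

/-- restriction `Hol V → Hol D` -/
def Dat.rs (h : Dat g c₀ N ρ e r β m k q q') : Hol (bO e r) →ₐ[ℂ] Hol (bO c₀ ρ) := Hol.res h.le'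

/-- Taylor expansion `Hol U → (Hol D)⟦X⟧` -/
def Dat.ta (h : Dat g c₀ N ρ e r β m k q q') : Hol (UU c₀ ρ) →ₐ[ℂ] (Hol (bO c₀ ρ))⟦X⟧ :=
  TO (UU_h0 h.ch.ρ_pos)

theorem Dat.ta_om (h : Dat g c₀ N ρ e r β m k q q') : h.ta (omH c₀ ρ) = X := by
  rw [Dat.ta, omH, hU, toH_eq analyticOnNhd_snd]
  exact TO_om _ analyticOnNhd_snd

theorem Dat.ta_c (h : Dat g c₀ N ρ e r β m k q q') :
    h.ta (hU c₀ ρ (fun p => p.1)) = C (zH (bO c₀ ρ)) := by
  have e : hU c₀ ρ (fun p => p.1) =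
      Hol.pull Prod.fst analyticOnNhd_fst UU_h1 (zH (bO c₀ ρ)) := by
    ext x
    rw [hU, toH_apply analyticOnNhd_fst, Hol.pull_apply]
    rfl
  rw [e, Dat.ta]
  exact TO_fst _ _ _

theorem Dat.bH_eq (h : Dat g c₀ N ρ e r β m k q q') {i : ℕ} (hi : i ≤ N) :
    bH c₀ ρ β i = hU c₀ ρ (fun p => p.1) + omH c₀ ρ * hU c₀ ρ (β i) := by
  ext x
  rw [h.bH_apply hi]
  simp only [Subalgebra.coe_add, Subalgebra.coe_mul, Pi.add_apply, Pi.mul_apply]
  rw [toH_apply analyticOnNhd_fst, toH_apply analyticOnNhd_snd, toH_apply (h.ch.an_β i hi)]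

/-- the scaled vertex -/
def Dat.be (h : Dat g c₀ N ρ e r β m k q q') (i : ℕ) : (Hol (bO c₀ ρ))⟦X⟧ := h.ta (hU c₀ ρ (β i))

theorem Dat.ta_b (h : Dat g c₀ N ρ e r β m k q q') {i : ℕ} (hi : i ≤ N) :
    h.ta (bH c₀ ρ β i) = C (zH (bO c₀ ρ)) + X * h.be i := by
  rw [h.bH_eq hi, map_add, map_mul, h.ta_om, h.ta_c, Dat.be]

/-- pull back by the vertex -/
def Dat.bs (h : Dat g c₀ N ρ e r β m k q q') {i : ℕ} (hi : i ≤ N) :
    Hol (bO e r) →ₐ[ℂ] Hol (UU c₀ ρ) := compH (bH c₀ ρ β i) (h.bH_mem hi)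

theorem Dat.ta_bs (h : Dat g c₀ N ρ e r β m k q q') {i : ℕ} (hi : i ≤ N) (f : Hol (bO e r)) :
    h.ta (h.bs hi f) = pt (DH (bO c₀ ρ)) C (X * h.be i) (X_dvd_X_mul _) (h.rs f) := by
  have he : (X : (Hol (bO c₀ ρ))⟦X⟧) ∣ TO (UU_h0 h.ch.ρ_pos) (bH c₀ ρ β i) - C (zH (bO c₀ ρ)) := by
    have := h.ta_b hi
    rw [Dat.ta] at this
    rw [this]
    exact ⟨h.be i, by ring⟩
  have h1 := TO_compH h.le' (UU_h0 h.ch.ρ_pos) UU_h1 (bH c₀ ρ β i) (h.bH_mem hi)
    (fun c hc => by rw [h.bH_apply hi]; simp) he f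
  have h2 : h.ta (h.bs hi f) = TO (UU_h0 h.ch.ρ_pos) (compH (bH c₀ ρ β i) (h.bH_mem hi) f) := rfl
  rw [h2, h1]
  refine congrArg (fun Φ : Hol (bO c₀ ρ) →+* (Hol (bO c₀ ρ))⟦X⟧ => Φ (h.rs f))
    (pt_congr (DH (bO c₀ ρ)) he _ rfl ?_)
  have := h.ta_b hi
  rw [Dat.ta] at this
  rw [this]
  ring

theorem DH_res {V V' : Opens ℂ} (hV : V' ≤ V) (f : Hol V) :
    DH V' (Hol.res hV f) = Hol.res hV (DH V f) := by
  ext x
  rw [DH_apply, Hol.res_apply, DH_apply]
  have h1 : ext0 (Hol.res hV f : V' → ℂ) =ᶠ[𝓝 (x : ℂ)] ext0 (f : V → ℂ) :=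
    eventually_ext0_eq (fun p => ext0_apply (U := V) (f : V → ℂ) ⟨p, hV p.2⟩) x.2
  exact h1.deriv_eq

theorem Dat.rs_DH (h : Dat g c₀ N ρ e r β m k q q') (f : Hol (bO e r)) :
    h.rs (DH _ f) = DH _ (h.rs f) := (DH_res h.le' f).symm


theorem Dat.bs_z (h : Dat g c₀ N ρ e r β m k q q') {i : ℕ} (hi : i ≤ N) :
    h.bs hi (zH _) = bH c₀ ρ β i := compH_zH _ _

theorem Dat.DgV_apply (h : Dat g c₀ N ρ e r β m k q q') (x : bO e r) :
    (DH _ (gV g e r) : bO e r → ℂ) x = deriv g x := by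
  rw [DH_apply]
  exact (eventually_ext0_eq (fun y => (h.gV_apply y).symm) x.2).deriv_eq

/-! ### the chain in `Hol U` -/

theorem Dat.inc (h : Dat g c₀ N ρ e r β m k q q') {i : ℕ} (hi : i ≤ N) :
    h.bs hi (gV g e r) = hU c₀ ρ (m i) * bH c₀ ρ β i + hU c₀ ρ (k i) := by
  ext x
  simp only [Subalgebra.coe_add, Subalgebra.coe_mul, Pi.add_apply, Pi.mul_apply]
  rw [Dat.bs, compH_apply, h.gV_apply, toH_apply (h.ch.an_m i hi), toH_apply (h.ch.an_k i hi)]
  change g ((bH c₀ ρ β i : UU c₀ ρ → ℂ) x) = _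
  rw [h.bH_apply hi]
  exact h.ch.inc i hi x x.2

theorem Dat.inc' (h : Dat g c₀ N ρ e r β m k q q') {i : ℕ} (hi : i < N) :
    h.bs hi.le (gV g e r) = hU c₀ ρ (m (i + 1)) * bH c₀ ρ β i + hU c₀ ρ (k (i + 1)) := by
  ext x
  simp only [Subalgebra.coe_add, Subalgebra.coe_mul, Pi.add_apply, Pi.mul_apply]
  rw [Dat.bs, compH_apply, h.gV_apply, toH_apply (h.ch.an_m (i + 1) hi),
    toH_apply (h.ch.an_k (i + 1) hi)]
  change g ((bH c₀ ρ β i : UU c₀ ρ → ℂ) x) = _
  rw [h.bH_apply hi.le]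
  exact h.ch.inc' i hi x x.2

theorem Dat.refl (h : Dat g c₀ N ρ e r β m k q q') {i : ℕ} (hi : i < N) :
    hU c₀ ρ (m (i + 1)) * hU c₀ ρ (m i) = h.bs hi.le (DH _ (gV g e r)) ^ 2 := by
  ext x
  simp only [Subalgebra.coe_mul, Pi.mul_apply, Subalgebra.coe_pow, Pi.pow_apply]
  have e1 : (hU c₀ ρ (m i) : UU c₀ ρ → ℂ) x = m i x := toH_apply (h.ch.an_m i hi.le) x
  have e2 : (hU c₀ ρ (m (i + 1)) : UU c₀ ρ → ℂ) x = m (i + 1) x :=
    toH_apply (h.ch.an_m (i + 1) hi) x
  rw [Dat.bs, compH_apply, h.DgV_apply, e1, e2]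
  change _ = deriv g ((bH c₀ ρ β i : UU c₀ ρ → ℂ) x) ^ 2
  rw [h.bH_apply hi.le]
  exact h.ch.refl i hi x x.2

theorem Dat.isUnit_m (h : Dat g c₀ N ρ e r β m k q q') {i : ℕ} (hi : i ≤ N) :
    IsUnit (hU c₀ ρ (m i)) := by
  refine Hol.isUnit _ fun x => ?_
  rw [toH_apply (h.ch.an_m i hi)]
  exact h.ch.m_ne i hi x x.2

theorem Dat.slope (h : Dat g c₀ N ρ e r β m k q q') {i : ℕ} (hi : i ≤ N) :
    h.bs hi (DH _ (gV g e r)) - hU c₀ ρ (m i) = omH c₀ ρ * hU c₀ ρ (q i) := by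
  ext x
  simp only [Subalgebra.coe_sub, Pi.sub_apply, Subalgebra.coe_mul, Pi.mul_apply]
  have e1 : (hU c₀ ρ (m i) : UU c₀ ρ → ℂ) x = m i x := toH_apply (h.ch.an_m i hi) x
  have e2 : (hU c₀ ρ (q i) : UU c₀ ρ → ℂ) x = q i x := toH_apply (h.ch.an_q i hi) x
  have e3 : (omH c₀ ρ : UU c₀ ρ → ℂ) x = (x : ℂ × ℂ).2 := toH_apply analyticOnNhd_snd x
  rw [Dat.bs, compH_apply, h.DgV_apply, e1, e2, e3]
  change deriv g ((bH c₀ ρ β i : UU c₀ ρ → ℂ) x) - _ = _
  rw [h.bH_apply hi]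
  exact h.ch.q_eq i hi x x.2

theorem Dat.isUnit_q (h : Dat g c₀ N ρ e r β m k q q') {i : ℕ} (hi : i ≤ N) :
    IsUnit (hU c₀ ρ (q i)) := by
  refine Hol.isUnit _ fun x => ?_
  rw [toH_apply (h.ch.an_q i hi)]
  exact h.ch.q_ne i hi x x.2

/-! ### the base chain in `(Hol D)⟦X⟧` -/

/-- the germ on `D` -/
def Dat.gD (h : Dat g c₀ N ρ e r β m k q q') : Hol (bO c₀ ρ) := h.rs (gV g e r)


theorem Dat.pt_z (h : Dat g c₀ N ρ e r β m k q q') (Y : (Hol (bO c₀ ρ))⟦X⟧) :
    pt (DH (bO c₀ ρ)) C (X * Y) (X_dvd_X_mul Y) (zH _) = C (zH _) + X * Y :=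
  pt_coord (DH (bO c₀ ρ)) C (X_dvd_X_mul Y) (DH_zH _)

theorem Dat.base (h : Dat g c₀ N ρ e r β m k q q') :
    H3.Chain (DH (bO c₀ ρ)) (zH (bO c₀ ρ)) (fun _ => h.gD) N
      (fun i => pt (DH (bO c₀ ρ)) C (X * h.be i) (X_dvd_X_mul (h.be i)))
      (fun i => h.ta (hU c₀ ρ (m i))) (fun i => h.ta (hU c₀ ρ (k i))) := by
  refine ⟨fun i hi => ?_, fun i hi => ?_, fun i hi => ?_⟩
  · rw [Dat.gD, ← h.ta_bs hi.le, h.inc hi.le, map_add, map_mul, h.ta_b hi.le, h.pt_z]
  · rw [Dat.gD, ← h.ta_bs hi.le, h.inc' hi, map_add, map_mul, h.ta_b hi.le, h.pt_z]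
  · rw [Dat.gD, ← h.rs_DH, ← h.ta_bs hi.le, ← map_mul, h.refl hi, map_pow]

theorem Dat.be_const (h : Dat g c₀ N ρ e r β m k q q') {i : ℕ} (hi : i ≤ N) :
    constantCoeff (h.be i) = 2 * (i : Hol (bO c₀ ρ)) + 1 := by
  ext c
  rw [Dat.be, Dat.ta, constantCoeff_TO, toH_apply (h.ch.an_β i hi), h.ch.β_c i hi c c.2]
  have : (((2 * (i : Hol (bO c₀ ρ)) + 1 : Hol (bO c₀ ρ)) : bO c₀ ρ → ℂ) c) =
      evH c (2 * (i : Hol (bO c₀ ρ)) + 1) := rfl
  rw [this, map_add, map_mul, map_natCast, map_ofNat, map_one]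

theorem Dat.be_zero (h : Dat g c₀ N ρ e r β m k q q') : h.be 0 = 1 := by
  have : hU c₀ ρ (β 0) = 1 := by
    ext x
    rw [toH_apply (h.ch.an_β 0 (Nat.zero_le _)), h.ch.β_zero]
    rfl
  rw [Dat.be, this, map_one]

/-- the first line -/
theorem Dat.hline (h : Dat g c₀ N ρ e r β m k q q') {mh kh : (Hol (bO c₀ ρ))⟦X⟧}
    (hm : h.ta (hU c₀ ρ (m 0)) = evn mh) (hk : h.ta (hU c₀ ρ (k 0)) = evn kh) :
    Ty (DH (bO c₀ ρ)) h.gD = evn mh * (C (zH _) + X) + evn kh := by
  have h1 := congrArg h.ta (h.inc (Nat.zero_le N))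
  have hb : h.ta (bH c₀ ρ β 0) = C (zH _) + X := by
    rw [h.ta_b (Nat.zero_le N), h.be_zero, mul_one]
  rw [h.ta_bs, map_add, map_mul, hb, hm, hk] at h1
  rw [← h1]
  have h2 : pt (DH (bO c₀ ρ)) C (X * h.be 0) (X_dvd_X_mul _) = Ty (DH (bO c₀ ρ)) := by
    refine RingHom.ext fun f => ?_
    rw [pt_apply]
    have h3 := evS_unique (RingHom.id (Hol (bO c₀ ρ))⟦X⟧) (C : Hol (bO c₀ ρ) →+* _)
      (y := X * h.be 0) (X_dvd_X_mul _) (fun a => rfl) (by rw [h.be_zero, mul_one]; rfl)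
    rw [← h3]
    rfl
  exact (congrArg (fun Φ : Hol (bO c₀ ρ) →+* (Hol (bO c₀ ρ))⟦X⟧ => Φ h.gD) h2).symm

theorem Dat.isUnit_dg (h : Dat g c₀ N ρ e r β m k q q') : IsUnit (DH _ h.gD) := by
  refine Hol.isUnit _ fun x => ?_
  rw [Dat.gD, ← h.rs_DH, Dat.rs, Hol.res_apply, h.DgV_apply]
  rw [← h.ch.m_c 0 (Nat.zero_le _) x x.2]
  exact h.ch.m_ne 0 (Nat.zero_le _) _ ⟨x.2, mem_ball_self h.ch.ρ_pos⟩

theorem Dat.D2gV_apply (h : Dat g c₀ N ρ e r β m k q q') (x : bO e r) :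
    (DH _ (DH _ (gV g e r)) : bO e r → ℂ) x = deriv (deriv g) x := by
  rw [DH_apply]
  exact (eventually_ext0_eq (fun y => (h.DgV_apply y).symm) x.2).deriv_eq

theorem Dat.isUnit_d2g (h : Dat g c₀ N ρ e r β m k q q') : IsUnit (dn (DH _) 2 h.gD) := by
  have h2 : (2 : Hol (bO c₀ ρ)) * dn (DH _) 2 h.gD = DH _ (DH _ h.gD) := by rw [two_dn_two]
  have h3 : IsUnit (DH _ (DH _ h.gD)) := by
    refine Hol.isUnit _ fun x => ?_
    rw [Dat.gD, ← h.rs_DH, ← h.rs_DH, Dat.rs, Hol.res_apply, h.D2gV_apply]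
    rw [← h.ch.q_c 0 (Nat.zero_le _) x x.2]
    exact h.ch.q_ne 0 (Nat.zero_le _) _ ⟨x.2, mem_ball_self h.ch.ρ_pos⟩
  rw [← h2] at h3
  exact isUnit_of_mul_isUnit_right h3

end dat

end

end Crest.Agent.R102.CT575
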