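import Crest.Agent.R102.Rat1C_389
import Crest.Agent.R102.TransA_575
import Crest.Agent.R102.Rat1D_389_Mg

-- ▼ part R102/Rat1I_389
section

/-!
Row 102, [H3], (I): identity principle for the deformed chain, with extra vertices on the line `0`
(used by CT).
-/

set_option linter.unusedSectionVars false
set_option autoImplicit false

namespace Crest.Agent.R102.H3

open PowerSeries Finset

section undef

variable {K H T A A0 : Type*} [Field K] [CharZero K] [CommRing H] [Algebra K H] [CommRing T]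
  [Algebra K T] [CommRing A] [Algebra K A] [CommRing A0] [Algebra K A0]

/-- generators of the deformed ring: constants of `B`, lines, vertices, extra vertices on line `0` -/
def gens (inc : A →ₐ[K] T) (B : Subalgebra K A) (N : ℕ) (m k : ℕ → T⟦X⟧) (V : ℕ → A0 → T⟦X⟧)
    {J : Type*} (Ah : J → Type*) (Sh : ∀ j, Ah j → T⟦X⟧) : Set T⟦X⟧ :=
  {s | (∃ b ∈ B, s = C (inc b)) ∨ (∃ i ≤ N, s = m i) ∨ (∃ i ≤ N, s = k i) ∨
    (∃ i < N, ∃ a, s = V i a) ∨ ∃ j x, s = Sh j x}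

/-- **identity principle for the deformed chain** (with extra vertices on the line `0`) -/
theorem chain_identity {ι : Type*} (D : ι → Derivation K T T) (e : T →ₐ[K] K)
    (hid : ∀ t, (∀ l, e (word D l t) = 0) → t = 0)
    (d : Derivation K H H) {z : H} (hz : d z = 1) (φ : ℕ → H →ₐ[K] T)
    (hφ : ∀ a i f, D a (φ i f) = φ i (d f) * D a (φ i z))
    (d0 : Derivation K A0 A0) (z0 g0 : A0) (ρ : A0 →ₐ[K] H)
    (F : ℕ → A0 →ₐ[K] H⟦X⟧) (hFd : ∀ i a, F i (d0 a) = cD d (F i a))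
    (hFz : ∀ i, F i z0 = C z) (hFc : ∀ i a, constantCoeff (F i a) = ρ a)
    (N : ℕ) (y m k : ℕ → T⟦X⟧) (hy : ∀ i, X ∣ y i)
    (hout : Chain (cD d) (C z) (fun i => F i g0) N
      (fun i => pt (cD d) (PowerSeries.map (φ i : H →+* T)) (y i) (hy i)) m k)
    (inc : A →ₐ[K] T) (hinc : Function.Injective inc) (ψ : A →ₐ[K] K⟦X⟧)
    (B : Subalgebra K A) (hBD : ∀ a, ∀ b ∈ B, ∃ b' ∈ B, D a (inc b) = inc b')
    (hψB : ∀ b ∈ B, ψ b = C (e (inc b)))
    (σ : ℕ → A0 →ₐ[K] A) (hσ : ∀ i < N, ∀ a, inc (σ i a) = φ i (ρ a))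
    (mA kA μA τA : ℕ → A) (hmA : ∀ i ≤ N, inc (mA i) = constantCoeff (m i))
    (hkA : ∀ i ≤ N, inc (kA i) = constantCoeff (k i))
    (hμA : ∀ i < N, μA i * mA i = 1) (hτA : ∀ i < N, τA i * (σ i (d0 g0) - mA i) = 1)
    (hB0 : mA 0 ∈ B) (hB0' : kA 0 ∈ B)
    (hm0 : m 0 = C (inc (mA 0))) (hk0 : k 0 = C (inc (kA 0)))
    (w : ℕ → K⟦X⟧) (hw : ∀ i, X ∣ w i)
    (hψ : ∀ i < N, ∀ a, ψ (σ i a) =
      pt (cD d) (PowerSeries.map ((e : T →+* K).comp (φ i : H →+* T))) (w i) (hw i) (F i a))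
    {J : Type*} (Ah : J → Type*) [∀ j, CommRing (Ah j)] [∀ j, Algebra K (Ah j)]
    (dh : ∀ j, Derivation K (Ah j) (Ah j)) (zh gh : ∀ j, Ah j) (Sh : ∀ j, Ah j →ₐ[K] T⟦X⟧)
    (hShd : ∀ j a x, cD (D a) (Sh j x) = Sh j (dh j x) * cD (D a) (Sh j (zh j)))
    (hSinc : ∀ j, Sh j (gh j) = m 0 * Sh j (zh j) + k 0) (th : ∀ j, Ah j →ₐ[K] A)
    (hth : ∀ j x, inc (th j x) = constantCoeff (Sh j x))
    (hψh : ∀ j x, PowerSeries.map (e : T →+* K) (Sh j x) = ψ (th j x)) (τh : J → A)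
    (hτh : ∀ j, τh j * (th j (dh j (gh j)) - mA 0) = 1) {s : T⟦X⟧}
    (hs : s ∈ Algebra.adjoin K (gens inc B N m k (fun i a =>
      pt (cD d) (PowerSeries.map (φ i : H →+* T)) (y i) (hy i) (F i a)) Ah (fun j x => Sh j x)))
    (hs0 : constantCoeff s = 0) : s = 0 := by
  classical
  have hzz : cD d (C z) = (1 : H⟦X⟧) := by rw [cD_C, hz, map_one]
  set Φ : ℕ → H⟦X⟧ →+* T⟦X⟧ :=
    fun i => pt (cD d) (PowerSeries.map (φ i : H →+* T)) (y i) (hy i) with hΦ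
  have hcc : ∀ i f, constantCoeff (Φ i f) = φ i (constantCoeff f) := by
    intro i f
    rw [hΦ]
    simp only
    rw [constantCoeff_pt, constantCoeff_map]
    rfl
  have hρz : ρ z0 = z := by rw [← hFc 0, hFz, constantCoeff_C]
  -- relations in `A`
  have hAinc : ∀ i < N, σ i g0 = mA i * σ i z0 + kA i := by
    intro i hi
    refine hinc ?_
    have h1 := congrArg constantCoeff (hout.inc i hi)
    rw [hcc, hFc, map_add, map_mul, hcc, constantCoeff_C] at h1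
    rw [map_add, map_mul, hσ i hi, hσ i hi, hmA i hi.le, hkA i hi.le, hρz]
    exact h1
  have hAinc' : ∀ i < N, σ i g0 = mA (i + 1) * σ i z0 + kA (i + 1) := by
    intro i hi
    refine hinc ?_
    have h1 := congrArg constantCoeff (hout.inc' i hi)
    rw [hcc, hFc, map_add, map_mul, hcc, constantCoeff_C] at h1
    rw [map_add, map_mul, hσ i hi, hσ i hi, hmA (i + 1) hi, hkA (i + 1) hi, hρz]
    exact h1
  have hArefl : ∀ i < N, mA (i + 1) * mA i = (σ i (d0 g0)) ^ 2 := by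
    intro i hi
    refine hinc ?_
    have h1 := congrArg constantCoeff (hout.refl i hi)
    rw [map_mul, map_pow, hcc, ← hFd, hFc] at h1
    rw [map_mul, map_pow, hσ i hi, hmA (i + 1) hi, hmA i hi.le]
    exact h1
  -- the chain of `ψ`
  set Ψ : ℕ → H⟦X⟧ →+* K⟦X⟧ := fun i =>
    pt (cD d) (PowerSeries.map ((e : T →+* K).comp (φ i : H →+* T))) (w i) (hw i) with hΨ
  have hcψ : Chain (cD d) (C z) (fun i => F i g0) N Ψ (fun i => ψ (mA i)) (fun i => ψ (kA i)) := by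
    refine ⟨fun i hi => ?_, fun i hi => ?_, fun i hi => ?_⟩
    · rw [← hFz i, ← hψ i hi, ← hψ i hi, ← map_mul, ← map_add, ← hAinc i hi]
    · rw [← hFz i, ← hψ i hi, ← hψ i hi, ← map_mul, ← map_add, ← hAinc' i hi]
    · rw [← hFd, ← hψ i hi, ← map_mul, ← map_pow, ← hArefl i hi]
  -- the image of the deformed chain
  have hXe : (X : K⟦X⟧) ∣ PowerSeries.map (e : T →+* K) X := by rw [map_X]
  have hye : ∀ i, X ∣ PowerSeries.map (e : T →+* K) (y i) := fun i =>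
    hXe.trans (map_dvd _ (hy i))
  have hpe : ∀ i, (PowerSeries.map (e : T →+* K)).comp (Φ i) =
      pt (cD d) (PowerSeries.map ((e : T →+* K).comp (φ i : H →+* T)))
        (PowerSeries.map (e : T →+* K) (y i)) (hye i) := by
    intro i
    rw [hΦ]
    simp only
    rw [comp_pt (cD d) (PowerSeries.map (e : T →+* K)) hXe]
    refine pt_congr (cD d) _ _ ?_ rfl
    rw [← PowerSeries.map_comp]
  have hce := (hout.map (PowerSeries.map (e : T →+* K))).congr (fun i _ => hpe i)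
  have hum : ∀ i < N, IsUnit (ψ (mA i)) := fun i hi =>
    (IsUnit.of_mul_eq_one _ (by rw [mul_comm]; exact hμA i hi) : IsUnit (mA i)).map ψ
  have huτ : ∀ i < N, IsUnit (ψ (σ i (d0 g0) - mA i)) := fun i hi =>
    (IsUnit.of_mul_eq_one _ (by rw [mul_comm]; exact hτA i hi) :
      IsUnit (σ i (d0 g0) - mA i)).map ψ
  obtain ⟨hyw, hmk⟩ := outer_chain_unique (cD d) hzz N (fun i => F i g0)
    (fun i => PowerSeries.map ((e : T →+* K).comp (φ i : H →+* T))) w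
    (fun i => PowerSeries.map (e : T →+* K) (y i)) (fun i => ψ (mA i))
    (fun i => PowerSeries.map (e : T →+* K) (m i)) (fun i => ψ (kA i))
    (fun i => PowerSeries.map (e : T →+* K) (k i)) hw hye hcψ hce
    (by rw [hψB _ hB0, hm0, map_C]; rfl) (by rw [hψB _ hB0', hk0, map_C]; rfl) hum (by
      intro i hi
      have h1 := huτ i hi
      rw [PowerSeries.isUnit_iff_constantCoeff, map_sub, map_sub, hψ i hi, constantCoeff_pt,
        hFd] at h1
      rw [map_sub]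
      exact h1)
  -- inverses
  have huT : ∀ i < N, IsUnit (m i) := by
    intro i hi
    rw [PowerSeries.isUnit_iff_constantCoeff, ← hmA i hi.le]
    exact (IsUnit.of_mul_eq_one _ (by rw [mul_comm]; exact hμA i hi) : IsUnit (mA i)).map inc
  have hvT : ∀ i < N, IsUnit (Φ i (F i (d0 g0)) - m i) := by
    intro i hi
    rw [PowerSeries.isUnit_iff_constantCoeff, map_sub, hcc, hFc, ← hσ i hi, ← hmA i hi.le,
      ← map_sub]
    exact (IsUnit.of_mul_eq_one _ (by rw [mul_comm]; exact hτA i hi) :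
      IsUnit (σ i (d0 g0) - mA i)).map inc
  have hμex : ∀ i, ∃ u : T⟦X⟧, i < N → u * m i = 1 := by
    intro i
    by_cases hi : i < N
    · obtain ⟨u, hu⟩ := (huT i hi).exists_left_inv
      exact ⟨u, fun _ => hu⟩
    · exact ⟨0, fun h => absurd h hi⟩
  have hτex : ∀ i, ∃ u : T⟦X⟧, i < N → u * (Φ i (F i (d0 g0)) - m i) = 1 := by
    intro i
    by_cases hi : i < N
    · obtain ⟨u, hu⟩ := (hvT i hi).exists_left_inv
      exact ⟨u, fun _ => hu⟩
    · exact ⟨0, fun h => absurd h hi⟩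
  choose μ hμ using hμex
  choose τ hτ using hτex
  have hτhex : ∀ j, ∃ u : T⟦X⟧, u * (Sh j (dh j (gh j)) - m 0) = 1 := by
    intro j
    have h1 : IsUnit (Sh j (dh j (gh j)) - m 0) := by
      rw [PowerSeries.isUnit_iff_constantCoeff, map_sub, ← hth, ← hmA 0 (Nat.zero_le _),
        ← map_sub]
      exact (IsUnit.of_mul_eq_one _ (by rw [mul_comm]; exact hτh j) :
        IsUnit (th j (dh j (gh j)) - mA 0)).map inc
    exact h1.exists_left_inv
  choose τH hτH using hτhex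
  -- the generators
  let S : Set T⟦X⟧ := {s | (∃ b ∈ B, s = C (inc b)) ∨ (∃ i ≤ N, s = m i) ∨ (∃ i ≤ N, s = k i) ∨
    (∃ i < N, ∃ a, s = Φ i (F i a)) ∨ (∃ i < N, s = μ i) ∨ (∃ i < N, s = τ i) ∨
    (∃ j x, s = Sh j x) ∨ ∃ j, s = τH j}
  set Γ := Algebra.adjoin K S with hΓ
  have gB : ∀ b ∈ B, C (inc b) ∈ Γ := fun b hb => Algebra.subset_adjoin (Or.inl ⟨b, hb, rfl⟩)
  have gm : ∀ i ≤ N, m i ∈ Γ := fun i hi => Algebra.subset_adjoin (Or.inr (Or.inl ⟨i, hi, rfl⟩))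
  have gk : ∀ i ≤ N, k i ∈ Γ := fun i hi =>
    Algebra.subset_adjoin (Or.inr (Or.inr (Or.inl ⟨i, hi, rfl⟩)))
  have gΦ : ∀ i < N, ∀ a, Φ i (F i a) ∈ Γ := fun i hi a =>
    Algebra.subset_adjoin (Or.inr (Or.inr (Or.inr (Or.inl ⟨i, hi, a, rfl⟩))))
  have gμ : ∀ i < N, μ i ∈ Γ := fun i hi =>
    Algebra.subset_adjoin (Or.inr (Or.inr (Or.inr (Or.inr (Or.inl ⟨i, hi, rfl⟩)))))
  have gτ : ∀ i < N, τ i ∈ Γ := fun i hi =>
    Algebra.subset_adjoin (Or.inr (Or.inr (Or.inr (Or.inr (Or.inr (Or.inl ⟨i, hi, rfl⟩))))))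
  have gS : ∀ j x, Sh j x ∈ Γ := fun j x =>
    Algebra.subset_adjoin (Or.inr (Or.inr (Or.inr (Or.inr (Or.inr (Or.inr (Or.inl ⟨j, x, rfl⟩)))))))
  have gτH : ∀ j, τH j ∈ Γ := fun j =>
    Algebra.subset_adjoin (Or.inr (Or.inr (Or.inr (Or.inr (Or.inr (Or.inr (Or.inr ⟨j, rfl⟩)))))))
  -- closure
  have hΔΦ : ∀ a i x, cD (D a) (Φ i (F i x)) =
      Φ i (F i (d0 x)) * cD (D a) (Φ i (F i z0)) := by
    intro a i x
    have h1 := fun f => cD_pt (cD d) (D a) (PowerSeries.map (φ i : H →+* T)) (C (D a (φ i z)))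
      (fun f => cD_map_C d (D a) (φ i : H →+* T) (D a (φ i z)) (hφ a i) f) (hy i) f
    have h2 : cD (D a) (Φ i (F i z0)) = C (D a (φ i z)) + cD (D a) (y i) := by
      have h3 := h1 (F i z0)
      rw [hFz i, hzz, map_one, one_mul] at h3
      rw [hFz i]
      exact h3
    rw [h2, hFd]
    exact h1 (F i x)
  have hcl : ∀ a, ∀ i ≤ N, cD (D a) (m i) ∈ Γ ∧ cD (D a) (k i) ∈ Γ ∧
      ∀ j < i, (∀ x, cD (D a) (Φ j (F j x)) ∈ Γ) ∧ cD (D a) (μ j) ∈ Γ ∧ cD (D a) (τ j) ∈ Γ := by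
    intro a i
    induction i with
    | zero =>
      intro _
      refine ⟨?_, ?_, fun j hj => absurd hj (by omega)⟩
      · rw [hm0, cD_C]
        obtain ⟨b', hb', h⟩ := hBD a _ hB0
        rw [h]; exact gB _ hb'
      · rw [hk0, cD_C]
        obtain ⟨b', hb', h⟩ := hBD a _ hB0'
        rw [h]; exact gB _ hb'
    | succ i ih =>
      intro hi
      have hi' : i < N := hi
      obtain ⟨h1, h2, h3⟩ := ih hi'.le
      have hv := vertex_mem (cD (D a)) d0 (z0 := z0) (g0 := g0)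
        ((Φ i).comp (F i : A0 →+* H⟦X⟧)) (hΔΦ a i) (m := m i) (k := k i) (τ := τ i)
        (by
          have := hout.inc i hi'
          rw [← hFz i] at this
          exact this) (hτ i hi') Γ (gΦ i hi') (gτ i hi') h1 h2
      have hl := line_mem (cD (D a)) d0 (z0 := z0) (g0 := g0)
        ((Φ i).comp (F i : A0 →+* H⟦X⟧)) (m := m i) (m' := m (i + 1)) (k' := k (i + 1))
        (μ := μ i)
        (by
          have := hout.inc' i hi'
          rw [← hFz i] at this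
          exact this)
        (by
          have := hout.refl i hi'
          rw [← hFd i] at this
          exact this) (hμ i hi') Γ (gΦ i hi') hv.2.1 (gm _ hi) (gμ i hi') h1
      refine ⟨hl.1, hl.2.1, fun j hj => ?_⟩
      rcases Nat.lt_succ_iff_lt_or_eq.1 hj with h4 | h4
      · exact h3 j h4
      · subst h4
        exact ⟨hv.2.1, hl.2.2, hv.2.2⟩
  have hhat : ∀ a j, (∀ x, cD (D a) (Sh j x) ∈ Γ) ∧ cD (D a) (τH j) ∈ Γ := by
    intro a j
    have hv := vertex_mem (cD (D a)) (dh j) (z0 := zh j) (g0 := gh j)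
        (Sh j : Ah j →+* T⟦X⟧) (hShd j a) (m := m 0) (k := k 0) (τ := τH j)
        (hSinc j) (hτH j) Γ (gS j) (gτH j) (hcl a 0 (Nat.zero_le _)).1
        (hcl a 0 (Nat.zero_le _)).2.1
    exact ⟨hv.2.1, hv.2.2⟩
  have hS2 : ∀ s ∈ S, ∀ a, cD (D a) s ∈ Γ := by
    rintro s (⟨b, hb, rfl⟩ | ⟨i, hi, rfl⟩ | ⟨i, hi, rfl⟩ | ⟨i, hi, x, rfl⟩ | ⟨i, hi, rfl⟩ |
      ⟨i, hi, rfl⟩ | ⟨j, x, rfl⟩ | ⟨j, rfl⟩) a
    · rw [cD_C]
      obtain ⟨b', hb', h⟩ := hBD a _ hb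
      rw [h]; exact gB _ hb'
    · exact (hcl a i hi).1
    · exact (hcl a i hi).2.1
    · exact ((hcl a N le_rfl).2.2 i hi).1 x
    · exact ((hcl a N le_rfl).2.2 i hi).2.1
    · exact ((hcl a N le_rfl).2.2 i hi).2.2
    · exact (hhat a j).1 x
    · exact (hhat a j).2
  have hΦψ : ∀ i < N, ∀ a, PowerSeries.map (e : T →+* K) (Φ i (F i a)) = ψ (σ i a) := by
    intro i hi a
    have h1 : PowerSeries.map (e : T →+* K) (Φ i (F i a)) =
      ((PowerSeries.map (e : T →+* K)).comp (Φ i)) (F i a) := rfl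
    rw [h1, hpe i, hψ i hi]
    exact congrArg (fun Ξ : H⟦X⟧ →+* K⟦X⟧ => Ξ (F i a))
      (pt_congr (cD d) _ _ rfl (hyw i hi).symm)
  have hS1 : ∀ s ∈ S, ∃ a : A, inc a = constantCoeff s ∧
      PowerSeries.map (e : T →+* K) s = ψ a := by
    rintro s (⟨b, hb, rfl⟩ | ⟨i, hi, rfl⟩ | ⟨i, hi, rfl⟩ | ⟨i, hi, x, rfl⟩ | ⟨i, hi, rfl⟩ |
      ⟨i, hi, rfl⟩ | ⟨j, x, rfl⟩ | ⟨j, rfl⟩)
    · exact ⟨b, by rw [constantCoeff_C], by rw [map_C, hψB b hb]; rfl⟩
    · exact ⟨mA i, hmA i hi, ((hmk i hi).1).symm⟩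
    · exact ⟨kA i, hkA i hi, ((hmk i hi).2).symm⟩
    · exact ⟨σ i x, by rw [hσ i hi, hcc, hFc], hΦψ i hi x⟩
    · refine ⟨μA i, ?_, ?_⟩
      · have h1 := congrArg constantCoeff (hμ i hi)
        have h2 := congrArg inc (hμA i hi)
        rw [map_mul, map_one, ← hmA i hi.le] at h1
        rw [map_mul, map_one] at h2
        calc inc (μA i) = inc (μA i) * (constantCoeff (μ i) * inc (mA i)) := by rw [h1, mul_one]
          _ = (inc (μA i) * inc (mA i)) * constantCoeff (μ i) := by ring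
          _ = _ := by rw [h2, one_mul]
      · have h1 := congrArg (PowerSeries.map (e : T →+* K)) (hμ i hi)
        have h2 := congrArg ψ (hμA i hi)
        rw [map_mul, map_one, ← (hmk i hi.le).1] at h1
        rw [map_mul, map_one] at h2
        calc PowerSeries.map (e : T →+* K) (μ i)
            = PowerSeries.map (e : T →+* K) (μ i) * (ψ (μA i) * ψ (mA i)) := by rw [h2, mul_one]
          _ = (PowerSeries.map (e : T →+* K) (μ i) * ψ (mA i)) * ψ (μA i) := by ring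
          _ = _ := by rw [h1, one_mul]
    · refine ⟨τA i, ?_, ?_⟩
      · have h1 := congrArg constantCoeff (hτ i hi)
        have h2 := congrArg inc (hτA i hi)
        rw [map_mul, map_one, map_sub, hcc, hFc, ← hσ i hi, ← hmA i hi.le, ← map_sub] at h1
        rw [map_mul, map_one] at h2
        calc inc (τA i) = inc (τA i) * (constantCoeff (τ i) * inc (σ i (d0 g0) - mA i)) := by
              rw [h1, mul_one]
          _ = (inc (τA i) * inc (σ i (d0 g0) - mA i)) * constantCoeff (τ i) := by ring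
          _ = _ := by rw [h2, one_mul]
      · have h1 := congrArg (PowerSeries.map (e : T →+* K)) (hτ i hi)
        have h2 := congrArg ψ (hτA i hi)
        rw [map_mul, map_one, map_sub, hΦψ i hi, ← (hmk i hi.le).1, ← map_sub] at h1
        rw [map_mul, map_one] at h2
        calc PowerSeries.map (e : T →+* K) (τ i)
            = PowerSeries.map (e : T →+* K) (τ i) * (ψ (τA i) * ψ (σ i (d0 g0) - mA i)) := by
              rw [h2, mul_one]
          _ = (PowerSeries.map (e : T →+* K) (τ i) * ψ (σ i (d0 g0) - mA i)) * ψ (τA i) := by ring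
          _ = _ := by rw [h1, one_mul]
    · exact ⟨th j x, hth j x, hψh j x⟩
    · refine ⟨τh j, ?_, ?_⟩
      · have h1 := congrArg constantCoeff (hτH j)
        have h2 := congrArg inc (hτh j)
        rw [map_mul, map_one, map_sub, ← hth, ← hmA 0 (Nat.zero_le _), ← map_sub] at h1
        rw [map_mul, map_one] at h2
        calc inc (τh j) = inc (τh j) *
              (constantCoeff (τH j) * inc (th j (dh j (gh j)) - mA 0)) := by
              rw [h1, mul_one]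
          _ = (inc (τh j) * inc (th j (dh j (gh j)) - mA 0)) * constantCoeff (τH j) := by ring
          _ = _ := by rw [h2, one_mul]
      · have h1 := congrArg (PowerSeries.map (e : T →+* K)) (hτH j)
        have h2 := congrArg ψ (hτh j)
        rw [map_mul, map_one, map_sub, hψh j, ← (hmk 0 (Nat.zero_le _)).1, ← map_sub] at h1
        rw [map_mul, map_one] at h2
        calc PowerSeries.map (e : T →+* K) (τH j)
            = PowerSeries.map (e : T →+* K) (τH j) *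
              (ψ (τh j) * ψ (th j (dh j (gh j)) - mA 0)) := by
              rw [h2, mul_one]
          _ = (PowerSeries.map (e : T →+* K) (τH j) * ψ (th j (dh j (gh j)) - mA 0)) *
              ψ (τh j) := by ring
          _ = _ := by rw [h1, one_mul]
  have hle : Algebra.adjoin K (gens inc B N m k (fun i a =>
      pt (cD d) (PowerSeries.map (φ i : H →+* T)) (y i) (hy i) (F i a)) Ah (fun j x => Sh j x))
      ≤ Γ := by
    refine Algebra.adjoin_le ?_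
    rintro s (⟨b, hb, rfl⟩ | ⟨i, hi, rfl⟩ | ⟨i, hi, rfl⟩ | ⟨i, hi, x, rfl⟩ | ⟨j, x, rfl⟩)
    · exact gB b hb
    · exact gm i hi
    · exact gk i hi
    · exact gΦ i hi x
    · exact gS j x
  exact gam' D (e : T →+* K) hid (fun c => e.commutes c) inc hinc ψ S hS1 hS2 (hle hs) hs0


end undef

end Crest.Agent.R102.H3
end

-- ▼ part R102/TransB_575

/-!
Row 102, part (C), leaf H3, (T) TRANSFER, part B: the ring `O = (Hol U)[1/ω]` and its maps to
`Hol W` and to `R = Frac (Hol D)⟦ω⟧`.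
-/

set_option linter.unusedSectionVars false
set_option autoImplicit false

namespace Crest.Agent.R102.CT575

open H3 Glue798 PowerSeries Finset Set Topology TopologicalSpace Metric Filter

noncomputable section

section push

variable {K HV HD O R : Type*} [Field K] [CharZero K] [CommRing HV] [Algebra K HV] [CommRing HD]
  [Algebra K HD] [CommRing O] [CommRing R]

theorem X_dvd_mapX (lr : O →+* R) {y : O⟦X⟧} (hy : X ∣ y) : X ∣ PowerSeries.map lr y := by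
  have h := map_dvd (PowerSeries.map lr) hy
  rwa [map_X] at h

theorem map_cD {dV : Derivation K HV HV} {dD : Derivation K HD HD} (rs : HV →+* HD)
    (hrs : ∀ f, rs (dV f) = dD (rs f)) (F : HV⟦X⟧) :
    PowerSeries.map rs (cD dV F) = cD dD (PowerSeries.map rs F) := by
  ext n
  rw [coeff_map, coeff_cD, coeff_cD, coeff_map, hrs]

/-- vertices pushed forward -/
theorem pt_push (dV : Derivation K HV HV) (dD : Derivation K HD HD) (rs : HV →+* HD)
    (hrs : ∀ f, rs (dV f) = dD (rs f)) (φ : HV →+* O) {y : O⟦X⟧} (hy : X ∣ y) (lr : O →+* R)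
    (χ : HD →+* R) (hχ : lr.comp φ = χ.comp rs) (F : HV⟦X⟧) :
    PowerSeries.map lr (pt (cD dV) (PowerSeries.map φ) y hy F) =
      pt (cD dD) (PowerSeries.map χ) (PowerSeries.map lr y) (X_dvd_mapX lr hy)
        (PowerSeries.map rs F) := by
  have h1 := comp_pt (cD dV) (PowerSeries.map lr) (X_dvd_map_X lr) (PowerSeries.map φ) hy
  have h2 := pt_comp (cD dV) (cD dD) (PowerSeries.map rs) (map_cD rs hrs) (PowerSeries.map χ)
    (X_dvd_mapX lr hy)
  have h3 := congrArg (fun Ψ : HV⟦X⟧ →+* R⟦X⟧ => Ψ F) h1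
  have h4 := congrArg (fun Ψ : HV⟦X⟧ →+* R⟦X⟧ => Ψ F) h2
  simp only [RingHom.comp_apply] at h3 h4
  rw [h3, h4]
  refine congrArg (fun Ψ : HV⟦X⟧ →+* R⟦X⟧ => Ψ F) (pt_congr (cD dV) _ _ ?_ rfl)
  rw [← PowerSeries.map_comp, ← PowerSeries.map_comp, hχ]

/-- chains pushed forward -/
theorem chain_push (dV : Derivation K HV HV) (dD : Derivation K HD HD) (rs : HV →+* HD)
    (hrs : ∀ f, rs (dV f) = dD (rs f)) {z : HV} {G : ℕ → HV⟦X⟧} {N : ℕ} {φ : ℕ → HV →+* O}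
    {y m k : ℕ → O⟦X⟧} {hy : ∀ i, X ∣ y i}
    (h : H3.Chain (cD dV) (C z) G N (fun i => pt (cD dV) (PowerSeries.map (φ i)) (y i) (hy i)) m k)
    (lr : O →+* R) (χ : ℕ → HD →+* R) (hχ : ∀ i < N, lr.comp (φ i) = (χ i).comp rs) :
    H3.Chain (cD dD) (C (rs z)) (fun i => PowerSeries.map rs (G i)) N
      (fun i => pt (cD dD) (PowerSeries.map (χ i)) (PowerSeries.map lr (y i))
        (X_dvd_mapX lr (hy i)))
      (fun i => PowerSeries.map lr (m i)) (fun i => PowerSeries.map lr (k i)) := by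
  have hz : (C (rs z) : HD⟦X⟧) = PowerSeries.map rs (C z) := by rw [map_C]
  refine ⟨fun i hi => ?_, fun i hi => ?_, fun i hi => ?_⟩
  · rw [hz, ← pt_push dV dD rs hrs (φ i) (hy i) lr (χ i) (hχ i hi),
      ← pt_push dV dD rs hrs (φ i) (hy i) lr (χ i) (hχ i hi), h.inc i hi, map_add, map_mul]
  · rw [hz, ← pt_push dV dD rs hrs (φ i) (hy i) lr (χ i) (hχ i hi),
      ← pt_push dV dD rs hrs (φ i) (hy i) lr (χ i) (hχ i hi), h.inc' i hi, map_add, map_mul]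
  · rw [← map_cD rs hrs, ← pt_push dV dD rs hrs (φ i) (hy i) lr (χ i) (hχ i hi), ← map_mul,
      h.refl i hi, map_pow]

end push

section loc

variable {g : ℂ → ℂ} {c₀ e : ℂ} {N : ℕ} {ρ r : ℝ} {β m k q q' : ℕ → ℂ × ℂ → ℂ}

/-- `O = (Hol U)[1/ω]` -/
abbrev OO (c₀ : ℂ) (ρ : ℝ) : Type := Localization.Away (omH c₀ ρ)

/-- `R = Frac (Hol D)⟦ω⟧` -/
abbrev RR (c₀ : ℂ) (ρ : ℝ) : Type := FractionRing (Hol (bO c₀ ρ))⟦X⟧

/-- the small polydisc `W`, `ω ≠ 0` there -/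
def WW (c₀ : ℂ) (ρ : ℝ) : Opens (ℂ × ℂ) :=
  ⟨ball c₀ ρ ×ˢ ball ((ρ / 2 : ℝ) : ℂ) (ρ / 4), IsOpen.prod isOpen_ball isOpen_ball⟩

theorem WW_le {c₀ : ℂ} {ρ : ℝ} (hρ : 0 < ρ) : WW c₀ ρ ≤ UU c₀ ρ := by
  rintro p ⟨h1, h2⟩
  refine ⟨h1, ?_⟩
  have h3 : ‖p.2 - ((ρ / 2 : ℝ) : ℂ)‖ < ρ / 4 := by rw [← dist_eq_norm]; exact h2
  have h4 : ‖((ρ / 2 : ℝ) : ℂ)‖ = ρ / 2 := by
    rw [Complex.norm_real, Real.norm_of_nonneg (by linarith)]
  have h5 : ‖p.2‖ ≤ ‖p.2 - ((ρ / 2 : ℝ) : ℂ)‖ + ‖((ρ / 2 : ℝ) : ℂ)‖ := by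
    simpa using norm_add_le (p.2 - ((ρ / 2 : ℝ) : ℂ)) ((ρ / 2 : ℝ) : ℂ)
  change dist p.2 0 < ρ
  rw [dist_zero_right]
  linarith

theorem WW_ne {c₀ : ℂ} {ρ : ℝ} (hρ : 0 < ρ) {p : ℂ × ℂ} (hp : p ∈ WW c₀ ρ) : p.2 ≠ 0 := by
  intro h0
  have h3 : dist p.2 ((ρ / 2 : ℝ) : ℂ) < ρ / 4 := hp.2
  rw [h0, dist_zero_left, Complex.norm_real, Real.norm_of_nonneg (by linarith)] at h3
  linarith

theorem WW_preconnected (c₀ : ℂ) (ρ : ℝ) : IsPreconnected ((WW c₀ ρ : Opens (ℂ × ℂ)) : Set (ℂ × ℂ)) :=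
  (convex_ball c₀ ρ).isPreconnected.prod (convex_ball ((ρ / 2 : ℝ) : ℂ) (ρ / 4)).isPreconnected

theorem WW_nonempty {c₀ : ℂ} {ρ : ℝ} (hρ : 0 < ρ) : Nonempty (WW c₀ ρ) :=
  ⟨⟨(c₀, ((ρ / 2 : ℝ) : ℂ)), mem_ball_self hρ, mem_ball_self (by linarith)⟩⟩


theorem bO_nonempty {c₀ : ℂ} {ρ : ℝ} (hρ : 0 < ρ) : Nonempty (bO c₀ ρ) :=
  ⟨⟨c₀, mem_ball_self hρ⟩⟩

/-- `TO = Tay` -/
theorem TO_eq_Tay {V : Opens ℂ} {W : Opens (ℂ × ℂ)} (h0 : ∀ c ∈ V, (c, (0 : ℂ)) ∈ W) (F : Hol W) :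
    TO h0 F = HolXY289.Tay h0 F := by
  have e1 : dirD W ((0, 1) : ℂ × ℂ) = HolXY289.Dw W := by
    refine Derivation.ext fun f => ?_
    ext x
    rfl
  have e2 : (Hol.pull (fun c : ℂ => (c, (0 : ℂ))) (analyticOnNhd_id.prod analyticOnNhd_const) h0 :
      Hol W →+* Hol V) = (HolXY289.res0 h0 : Hol W →+* Hol V) := by
    refine RingHom.ext fun f => ?_
    ext x
    change (Hol.pull (fun c : ℂ => (c, (0 : ℂ))) (analyticOnNhd_id.prod analyticOnNhd_const) h0 f :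
      V → ℂ) x = _
    rw [Hol.pull_apply]
    rfl
  change PowerSeries.map (Hol.pull (fun c : ℂ => (c, (0 : ℂ)))
    (analyticOnNhd_id.prod analyticOnNhd_const) h0 : Hol W →+* Hol V) (Ty (dirD W (0, 1)) F) = _
  rw [e1, e2]
  rfl

theorem TO_injective {c₀ : ℂ} {ρ : ℝ} (hρ : 0 < ρ) :
    Function.Injective (TO (UU_h0 (c₀ := c₀) hρ)) := by
  intro F G h
  rw [TO_eq_Tay, TO_eq_Tay] at h
  exact HolXY289.Tay_injective (UU_h0 (c₀ := c₀) hρ) (ρ := ρ) (fun p => Iff.rfl) h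

theorem Dat.ta_injective (h : Dat g c₀ N ρ e r β m k q q') : Function.Injective h.ta :=
  TO_injective h.ch.ρ_pos

theorem UU_flip {c₀ : ℂ} {ρ : ℝ} : ∀ p ∈ UU c₀ ρ, ((p.1, -p.2) : ℂ × ℂ) ∈ UU c₀ ρ := by
  rintro p ⟨h1, h2⟩
  refine ⟨h1, ?_⟩
  change dist (-p.2) 0 < ρ
  rw [dist_zero_right, norm_neg, ← dist_zero_right]
  exact h2

/-- the flip `ω ↦ -ω` -/
abbrev fl (c₀ : ℂ) (ρ : ℝ) : Hol (UU c₀ ρ) →ₐ[ℂ] Hol (UU c₀ ρ) := HolXY289.flip UU_flip

theorem Dat.even (h : Dat g c₀ N ρ e r β m k q q') {F : Hol (UU c₀ ρ)} (hF : fl c₀ ρ F = F) :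
    ∃ E, h.ta F = evn E := by
  obtain ⟨E, hE⟩ := HolXY289.Tay_even (UU_h0 (c₀ := c₀) h.ch.ρ_pos) UU_flip hF
  exact ⟨E, by rw [Dat.ta, TO_eq_Tay]; exact hE⟩

theorem Dat.fl_m (h : Dat g c₀ N ρ e r β m k q q') : fl c₀ ρ (hU c₀ ρ (m 0)) = hU c₀ ρ (m 0) := by
  ext p
  rw [HolXY289.flip_apply, toH_apply (h.ch.an_m 0 (Nat.zero_le _)),
    toH_apply (h.ch.an_m 0 (Nat.zero_le _))]
  exact h.ch.even_m p p.2

theorem Dat.fl_k (h : Dat g c₀ N ρ e r β m k q q') : fl c₀ ρ (hU c₀ ρ (k 0)) = hU c₀ ρ (k 0) := by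
  ext p
  rw [HolXY289.flip_apply, toH_apply (h.ch.an_k 0 (Nat.zero_le _)),
    toH_apply (h.ch.an_k 0 (Nat.zero_le _))]
  exact h.ch.even_k p p.2

theorem isDomain_D (c₀ : ℂ) {ρ : ℝ} (hρ : 0 < ρ) : IsDomain (Hol (bO c₀ ρ)) :=
  haveI := bO_nonempty (c₀ := c₀) hρ
  Hol.isDomain (bO_preconnected c₀ ρ)


theorem isDomain_W (c₀ : ℂ) {ρ : ℝ} (hρ : 0 < ρ) : IsDomain (Hol (WW c₀ ρ)) :=
  haveI := WW_nonempty (c₀ := c₀) hρ
  Hol.isDomain (WW_preconnected c₀ ρ)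

/-- restriction `Hol U → Hol W` -/
def Dat.rw (h : Dat g c₀ N ρ e r β m k q q') : Hol (UU c₀ ρ) →ₐ[ℂ] Hol (WW c₀ ρ) :=
  Hol.res (WW_le h.ch.ρ_pos)

theorem Dat.rw_injective (h : Dat g c₀ N ρ e r β m k q q') : Function.Injective h.rw :=
  haveI := WW_nonempty (c₀ := c₀) h.ch.ρ_pos
  Glue798.res_injective (WW_le h.ch.ρ_pos) (UU_preconnected c₀ ρ)

theorem Dat.isUnit_rw (h : Dat g c₀ N ρ e r β m k q q') : IsUnit (h.rw (omH c₀ ρ)) := by
  refine Hol.isUnit _ fun x => ?_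
  rw [Dat.rw, Hol.res_apply, toH_apply analyticOnNhd_snd]
  exact WW_ne h.ch.ρ_pos x.2

/-- `O → Hol W` -/
def Dat.lw (h : Dat g c₀ N ρ e r β m k q q') : OO c₀ ρ →+* Hol (WW c₀ ρ) :=
  IsLocalization.Away.lift (omH c₀ ρ) (g := (h.rw : Hol (UU c₀ ρ) →+* Hol (WW c₀ ρ))) h.isUnit_rw

theorem Dat.lw_alg (h : Dat g c₀ N ρ e r β m k q q') (a : Hol (UU c₀ ρ)) :
    h.lw (algebraMap _ (OO c₀ ρ) a) = h.rw a :=
  IsLocalization.Away.lift_eq (omH c₀ ρ) h.isUnit_rw a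

theorem loc_lift_injective {A B : Type*} [CommRing A] [CommRing B] (x : A) (f : A →+* B)
    (hx : IsUnit (f x)) (hf : Function.Injective f) :
    Function.Injective (IsLocalization.Away.lift (S := Localization.Away x) x hx) := by
  rw [injective_iff_map_eq_zero]
  intro s hs
  obtain ⟨n, a, ha⟩ := IsLocalization.Away.surj x s
  have h1 := congrArg (IsLocalization.Away.lift (S := Localization.Away x) x hx) ha
  rw [map_mul, hs, zero_mul, IsLocalization.Away.lift_eq] at h1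
  have h2 : a = 0 := hf (h1.symm.trans (map_zero f).symm)
  rw [h2, map_zero] at ha
  have h3 : IsUnit (algebraMap A (Localization.Away x) x) :=
    IsLocalization.Away.algebraMap_isUnit x
  exact ((h3.pow n).mul_left_eq_zero).1 ha

theorem Dat.lw_injective (h : Dat g c₀ N ρ e r β m k q q') : Function.Injective h.lw :=
  loc_lift_injective _ _ _ h.rw_injective

/-- `(Hol D)⟦ω⟧ → R` -/
def jR (c₀ : ℂ) (ρ : ℝ) : (Hol (bO c₀ ρ))⟦X⟧ →+* RR c₀ ρ := algebraMap _ _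

theorem jR_injective {c₀ : ℂ} {ρ : ℝ} : Function.Injective (jR c₀ ρ) :=
  IsFractionRing.injective _ _

theorem isUnit_jX {c₀ : ℂ} {ρ : ℝ} (hρ : 0 < ρ) : IsUnit (jR c₀ ρ X) := by
  have h1 := isDomain_D c₀ hρ
  have h2 : (X : (Hol (bO c₀ ρ))⟦X⟧) ∈ nonZeroDivisors _ :=
    mem_nonZeroDivisors_of_ne_zero PowerSeries.X_ne_zero
  exact IsLocalization.map_units (RR c₀ ρ) (⟨X, h2⟩ : nonZeroDivisors (Hol (bO c₀ ρ))⟦X⟧)

/-- `Hol U → R` -/
def Dat.tr (h : Dat g c₀ N ρ e r β m k q q') : Hol (UU c₀ ρ) →+* RR c₀ ρ :=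
  (jR c₀ ρ).comp (h.ta : Hol (UU c₀ ρ) →+* (Hol (bO c₀ ρ))⟦X⟧)

theorem Dat.tr_injective (h : Dat g c₀ N ρ e r β m k q q') : Function.Injective h.tr :=
  jR_injective.comp h.ta_injective

theorem Dat.isUnit_tr (h : Dat g c₀ N ρ e r β m k q q') : IsUnit (h.tr (omH c₀ ρ)) := by
  have : h.tr (omH c₀ ρ) = jR c₀ ρ X := by
    rw [Dat.tr, RingHom.comp_apply, RingHom.coe_coe, h.ta_om]
  rw [this]
  exact isUnit_jX h.ch.ρ_pos

/-- `O → R` -/
def Dat.lr (h : Dat g c₀ N ρ e r β m k q q') : OO c₀ ρ →+* RR c₀ ρ :=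
  IsLocalization.Away.lift (omH c₀ ρ) (g := h.tr) h.isUnit_tr

theorem Dat.lr_alg (h : Dat g c₀ N ρ e r β m k q q') (a : Hol (UU c₀ ρ)) :
    h.lr (algebraMap _ (OO c₀ ρ) a) = h.tr a :=
  IsLocalization.Away.lift_eq (omH c₀ ρ) h.isUnit_tr a

end loc

end

end Crest.Agent.R102.CT575
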