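import Mathlib
import Crest.Agent.R102.TransB_575

-- ▼ part R102/CTEnd_289
section

/-!
# Row 102, block CT, leaf END (575 #25983 (4))

Pencil argument: a polynomial relation between `m`, `bh` with coefficients functions of `c + om`
restricts to a point of the graph, and the pencil of lines through this point makes the
graph of `gh` algebraic.
-/

open Filter Topology

namespace Crest.Agent.R102.CTEnd289

theorem coef_zero {M : ℕ} (a : Fin M → ℂ) (S : Set ℂ) (hS : S.Infinite)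
    (h : ∀ t ∈ S, ∑ n, a n * t ^ (n : ℕ) = 0) : ∀ n, a n = 0 := by
  classical
  set p : Polynomial ℂ := ∑ n : Fin M, Polynomial.C (a n) * Polynomial.X ^ (n : ℕ) with hp
  have hp0 : p = 0 := by
    apply Polynomial.eq_zero_of_infinite_isRoot
    refine hS.mono fun t ht => ?_
    have := h t ht
    simp only [Set.mem_ofPred_eq, Polynomial.IsRoot.def, hp, Polynomial.eval_finsetSum,
      Polynomial.eval_mul, Polynomial.eval_C, Polynomial.eval_pow, Polynomial.eval_X]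
    exact this
  intro n
  have h1 : p.coeff (n : ℕ) = a n := by
    simp only [hp, Polynomial.finsetSum_coeff, Polynomial.coeff_C_mul, Polynomial.coeff_X_pow]
    rw [Finset.sum_eq_single n]
    · simp
    · intro b _ hb
      have : ¬ ((n : ℕ) = (b : ℕ)) := fun h => hb (Fin.ext h.symm)
      simp [this]
    · intro hn
      exact absurd (Finset.mem_univ n) hn
  rw [← h1, hp0, Polynomial.coeff_zero]

/-- the derivative of `m` in the direction of the pencil -/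
theorem dir_ne {g : ℂ → ℂ} {c0 : ℂ} {m k : ℂ × ℂ → ℂ}
    (hg2 : deriv (deriv g) c0 ≠ 0) (hm : AnalyticAt ℂ m (c0, 0))
    (h1 : ∀ᶠ p in 𝓝 ((c0, 0) : ℂ × ℂ), g (p.1 + p.2) = m p * (p.1 + p.2) + k p)
    (h2 : ∀ᶠ p in 𝓝 ((c0, 0) : ℂ × ℂ), g (p.1 - p.2) = m p * (p.1 - p.2) + k p)
    (h0 : ∀ᶠ c in 𝓝 c0, m (c, 0) = deriv g c) :
    fderiv ℂ m (c0, 0) (1, -1) ≠ 0 := by
  have hd : HasFDerivAt m (fderiv ℂ m (c0, 0)) (c0, 0) := hm.differentiableAt.hasFDerivAt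
  -- first direction
  have e1 : fderiv ℂ m (c0, 0) (1, 0) = deriv (deriv g) c0 := by
    have hc : HasDerivAt (fun c : ℂ => ((c, 0) : ℂ × ℂ)) ((1, 0) : ℂ × ℂ) c0 :=
      (hasDerivAt_id c0).prodMk (hasDerivAt_const c0 (0 : ℂ))
    have h := hd.comp_hasDerivAt c0 hc
    have h' : deriv (fun c : ℂ => m (c, 0)) c0 = fderiv ℂ m (c0, 0) (1, 0) := h.deriv
    rw [← h']
    exact Filter.EventuallyEq.deriv_eq h0
  -- second direction
  have e2 : fderiv ℂ m (c0, 0) (0, 1) = 0 := by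
    have hc : HasDerivAt (fun w : ℂ => ((c0, w) : ℂ × ℂ)) ((0, 1) : ℂ × ℂ) 0 :=
      (hasDerivAt_const (0 : ℂ) c0).prodMk (hasDerivAt_id (0 : ℂ))
    have hcn : HasDerivAt (fun w : ℂ => ((c0, -w) : ℂ × ℂ)) ((0, -1) : ℂ × ℂ) 0 :=
      (hasDerivAt_const (0 : ℂ) c0).prodMk (hasDerivAt_neg (0 : ℂ))
    have h := hd.comp_hasDerivAt (0 : ℂ) hc
    have hd' : HasFDerivAt m (fderiv ℂ m (c0, 0)) ((fun w : ℂ => ((c0, -w) : ℂ × ℂ)) 0) := by
      simpa using hd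
    have hn := hd'.comp_hasDerivAt (0 : ℂ) hcn
    have hev : (fun w : ℂ => m (c0, w)) =ᶠ[𝓝 0] fun w : ℂ => m (c0, -w) := by
      have t1 : Tendsto (fun w : ℂ => ((c0, w) : ℂ × ℂ)) (𝓝 0) (𝓝 (c0, 0)) := hc.continuousAt
      have t2 : Tendsto (fun w : ℂ => ((c0, -w) : ℂ × ℂ)) (𝓝 0) (𝓝 (c0, 0)) := by
        have := hcn.continuousAt
        simpa [ContinuousAt] using this
      filter_upwards [t1.eventually h1, t1.eventually h2, t2.eventually h1, t2.eventually h2]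
        with w a1 a2 a3 a4
      by_cases hw : w = 0
      · simp [hw]
      · have b1 : g (c0 + w) = m (c0, w) * (c0 + w) + k (c0, w) := a1
        have b2 : g (c0 - w) = m (c0, w) * (c0 - w) + k (c0, w) := a2
        have b3 : g (c0 + -w) = m (c0, -w) * (c0 + -w) + k (c0, -w) := a3
        have b4 : g (c0 - -w) = m (c0, -w) * (c0 - -w) + k (c0, -w) := a4
        rw [← sub_eq_add_neg] at b3
        rw [sub_neg_eq_add] at b4
        have : (m (c0, w) - m (c0, -w)) * (2 * w) = 0 := by linear_combination b2 - b1 + b4 - b3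
        rcases mul_eq_zero.mp this with h | h
        · exact sub_eq_zero.mp h
        · exact absurd h (by simpa using hw)
    have d1 : deriv (fun w : ℂ => m (c0, w)) 0 = fderiv ℂ m (c0, 0) (0, 1) := h.deriv
    have d2 : deriv (fun w : ℂ => m (c0, -w)) 0 = fderiv ℂ m (c0, 0) (0, -1) := hn.deriv
    have d3 := hev.deriv_eq
    rw [d1, d2] at d3
    have d4 : fderiv ℂ m (c0, 0) (0, -1) = - fderiv ℂ m (c0, 0) (0, 1) := by
      rw [← map_neg]; simp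
    rw [d4] at d3
    have : (2 : ℂ) * fderiv ℂ m (c0, 0) (0, 1) = 0 := by linear_combination d3
    simpa using this
  have e3 : ((1, -1) : ℂ × ℂ) = (1, 0) - (0, 1) := by simp
  rw [e3, map_sub, e1, e2, sub_zero]
  exact hg2

/-- product of two analytic germs on `ℂ × ℂ` is not zero -/
theorem freq_mul {F Q : ℂ × ℂ → ℂ} {x : ℂ × ℂ} (hF : AnalyticAt ℂ F x) (hQ : AnalyticAt ℂ Q x)
    (hF0 : ¬ ∀ᶠ p in 𝓝 x, F p = 0) (hQ0 : ¬ ∀ᶠ p in 𝓝 x, Q p = 0) :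
    ∃ᶠ p in 𝓝 x, F p ≠ 0 ∧ Q p ≠ 0 := by
  intro hcon
  obtain ⟨r, hr, hball⟩ := Metric.eventually_nhds_iff_ball.mp
    (hF.eventually_analyticAt.and (hQ.eventually_analyticAt.and hcon))
  have hpre : IsPreconnected (Metric.ball x r) := (convex_ball x r).isPreconnected
  have hQa : AnalyticOnNhd ℂ Q (Metric.ball x r) := fun p hp => (hball p hp).2.1
  apply hF0
  filter_upwards [Metric.ball_mem_nhds x hr] with p hp
  by_contra hFp
  apply hQ0
  have hnear : ∀ᶠ p' in 𝓝 p, Q p' = 0 := by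
    have c1 : ∀ᶠ p' in 𝓝 p, F p' ≠ 0 := (hball p hp).1.continuousAt.eventually_ne hFp
    filter_upwards [c1, Metric.isOpen_ball.mem_nhds hp] with p' h1 h2
    by_contra h3
    exact (hball p' h2).2.2 ⟨h1, h3⟩
  have hz := hQa.eqOn_zero_of_preconnected_of_eventuallyEq_zero hpre hp hnear
  filter_upwards [Metric.ball_mem_nhds x hr] with p' hp'
  exact hz hp'

/-- the polynomial -/
noncomputable def RR {I M : ℕ} (a : Fin I → Fin M → ℂ) (β y : ℂ) : MvPolynomial (Fin 2) ℂ :=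
  ∑ i, ∑ n, MvPolynomial.C (a i n) * (MvPolynomial.X 1 - MvPolynomial.C y) ^ (n : ℕ) *
    (MvPolynomial.X 0 - MvPolynomial.C β) ^ (M - (n : ℕ)) * MvPolynomial.X 0 ^ (i : ℕ)

theorem RR_eval {I M : ℕ} (a : Fin I → Fin M → ℂ) (β y z w : ℂ) :
    MvPolynomial.eval ![z, w] (RR a β y) =
      ∑ i, ∑ n, a i n * (w - y) ^ (n : ℕ) * (z - β) ^ (M - (n : ℕ)) * z ^ (i : ℕ) := by
  simp [RR]

theorem RR_line {I M : ℕ} (a : Fin I → Fin M → ℂ) (β y z t : ℂ) :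
    MvPolynomial.eval ![z, y + t * (z - β)] (RR a β y) =
      (z - β) ^ M * ∑ i, ∑ n, a i n * t ^ (n : ℕ) * z ^ (i : ℕ) := by
  rw [RR_eval, Finset.mul_sum]
  refine Finset.sum_congr rfl fun i _ => ?_
  rw [Finset.mul_sum]
  refine Finset.sum_congr rfl fun n _ => ?_
  have hn : (n : ℕ) + (M - (n : ℕ)) = M := Nat.add_sub_cancel' n.isLt.le
  have e : (z - β) ^ M = (z - β) ^ (n : ℕ) * (z - β) ^ (M - (n : ℕ)) := by rw [← pow_add, hn]
  rw [e, add_sub_cancel_left, mul_pow]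
  ring

theorem RR_ne {I M : ℕ} (a : Fin I → Fin M → ℂ) (β y : ℂ) {i0 : Fin I} {n0 : Fin M}
    (h : a i0 n0 ≠ 0) : RR a β y ≠ 0 := by
  intro h0
  apply h
  have key : ∀ z : ℂ, z ≠ β → ∀ t : ℂ, ∑ i, ∑ n, a i n * t ^ (n : ℕ) * z ^ (i : ℕ) = 0 := by
    intro z hz t
    have := RR_line a β y z t
    rw [h0, map_zero] at this
    rcases mul_eq_zero.mp this.symm with h | h
    · exact absurd h (pow_ne_zero _ (sub_ne_zero.mpr hz))
    · exact h
  have key2 : ∀ z : ℂ, z ≠ β → ∀ n : Fin M, ∑ i, a i n * z ^ (i : ℕ) = 0 := by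
    intro z hz
    refine coef_zero (fun n => ∑ i, a i n * z ^ (i : ℕ)) Set.univ Set.infinite_univ ?_
    intro t _
    rw [← key z hz t, Finset.sum_comm]
    refine Finset.sum_congr rfl fun n _ => ?_
    rw [Finset.sum_mul]
    exact Finset.sum_congr rfl fun i _ => by ring
  have hinf : ({β}ᶜ : Set ℂ).Infinite := (Set.finite_singleton β).infinite_compl
  exact coef_zero (fun i => a i n0) _ hinf (fun z hz => key2 z (by simpa using hz) n0) i0

theorem ct_end {g gh : ℂ → ℂ} {c0 : ℂ} {m k bh : ℂ × ℂ → ℂ}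
    (_hg : AnalyticAt ℂ g c0) (hg2 : deriv (deriv g) c0 ≠ 0)
    (hm : AnalyticAt ℂ m (c0, 0)) (_hk : AnalyticAt ℂ k (c0, 0)) (hb : AnalyticAt ℂ bh (c0, 0))
    (h1 : ∀ᶠ p in 𝓝 ((c0, 0) : ℂ × ℂ), g (p.1 + p.2) = m p * (p.1 + p.2) + k p)
    (h2 : ∀ᶠ p in 𝓝 ((c0, 0) : ℂ × ℂ), g (p.1 - p.2) = m p * (p.1 - p.2) + k p)
    (h0 : ∀ᶠ c in 𝓝 c0, m (c, 0) = deriv g c)
    (hgh : AnalyticAt ℂ gh (bh (c0, 0)))
    (h3 : ∀ᶠ p in 𝓝 ((c0, 0) : ℂ × ℂ), gh (bh p) = m p * bh p + k p)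
    (htr : deriv gh (bh (c0, 0)) ≠ m (c0, 0)) {I M : ℕ} {q : Fin I → Fin M → ℂ → ℂ}
    (hq : ∀ i n, AnalyticAt ℂ (q i n) c0) (hq0 : ∃ i n, ¬ ∀ᶠ z in 𝓝 c0, q i n z = 0)
    (hrel : ∀ᶠ p in 𝓝 ((c0, 0) : ℂ × ℂ),
      ∑ i, ∑ n, q i n (p.1 + p.2) * m p ^ (n : ℕ) * bh p ^ (i : ℕ) = 0) :
    ∃ R : MvPolynomial (Fin 2) ℂ, R ≠ 0 ∧
      ∀ᶠ z in 𝓝 (bh (c0, 0)), MvPolynomial.eval ![z, gh z] R = 0 := by
  obtain ⟨i0, n0, hqn⟩ := hq0
  have hdir := dir_ne hg2 hm h1 h2 h0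
  have tc : Tendsto (fun c : ℂ => ((c, 0) : ℂ × ℂ)) (𝓝 c0) (𝓝 (c0, 0)) := by
    have : Continuous (fun c : ℂ => ((c, 0) : ℂ × ℂ)) := by fun_prop
    exact this.tendsto c0
  have hsum : AnalyticAt ℂ (fun p : ℂ × ℂ => p.1 + p.2) (c0, 0) := analyticAt_fst.add analyticAt_snd
  have hF : AnalyticAt ℂ (fun p : ℂ × ℂ => bh p - (p.1 + p.2)) (c0, 0) := hb.sub hsum
  have hQ : AnalyticAt ℂ (fun p : ℂ × ℂ => q i0 n0 (p.1 + p.2)) (c0, 0) := by
    have : AnalyticAt ℂ (q i0 n0) ((fun p : ℂ × ℂ => p.1 + p.2) (c0, 0)) := by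
      simpa using hq i0 n0
    exact AnalyticAt.comp (g := q i0 n0) (f := fun p : ℂ × ℂ => p.1 + p.2) this hsum
  have hF0 : ¬ ∀ᶠ p in 𝓝 ((c0, 0) : ℂ × ℂ), bh p - (p.1 + p.2) = 0 := by
    intro hz
    apply htr
    have hb0 : bh (c0, 0) = c0 := by
      have := hz.self_of_nhds
      simpa [sub_eq_zero] using this
    have hgg : gh =ᶠ[𝓝 c0] g := by
      filter_upwards [tc.eventually hz, tc.eventually h1, tc.eventually h3] with c a1 a2 a3
      have b1 : bh (c, 0) = c := by simpa [sub_eq_zero] using a1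
      simp only [add_zero] at a2
      rw [b1] at a3
      rw [a3, a2]
    rw [hb0, hgg.deriv_eq]
    exact h0.self_of_nhds.symm
  have hQ0 : ¬ ∀ᶠ p in 𝓝 ((c0, 0) : ℂ × ℂ), q i0 n0 (p.1 + p.2) = 0 := by
    intro hz
    apply hqn
    filter_upwards [tc.eventually hz] with c hc
    simpa using hc
  have hfreq := freq_mul hF hQ hF0 hQ0
  -- the ball where `gh` is analytic
  obtain ⟨r, hr, hghr⟩ := Metric.eventually_nhds_iff_ball.mp hgh.eventually_analyticAt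
  have evb : ∀ᶠ p in 𝓝 ((c0, 0) : ℂ × ℂ), bh p ∈ Metric.ball (bh (c0, 0)) r :=
    hb.continuousAt.eventually (Metric.ball_mem_nhds _ hr)
  have evd : ∀ᶠ p in 𝓝 ((c0, 0) : ℂ × ℂ), fderiv ℂ m p (1, -1) ≠ 0 := by
    have hc : ContinuousAt (fun p : ℂ × ℂ => fderiv ℂ m p (1, -1)) (c0, 0) :=
      hm.fderiv.continuousAt.clm_apply continuousAt_const
    exact hc.eventually_ne hdir
  obtain ⟨p, ⟨hFp, hQp⟩, hpm, hpb, hp1, hp3, hprel, hpball, hpd⟩ :=
    (hfreq.and_eventually (hm.eventually_analyticAt.and (hb.eventually_analyticAt.and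
      ((eventually_eventually_nhds.mpr h1).and ((eventually_eventually_nhds.mpr h3).and
        ((eventually_eventually_nhds.mpr hrel).and (evb.and evd))))))).exists
  set β : ℂ := p.1 + p.2 with hβ
  -- the pencil
  let γ : ℂ → ℂ × ℂ := fun s => (p.1 + s, p.2 - s)
  have hγ0 : γ 0 = p := by simp [γ]
  have hγd : HasDerivAt γ ((1, -1) : ℂ × ℂ) 0 := by
    have a1 : HasDerivAt (fun s : ℂ => p.1 + s) 1 0 := (hasDerivAt_id (0 : ℂ)).const_add p.1
    have a2 : HasDerivAt (fun s : ℂ => p.2 - s) (-1) 0 := (hasDerivAt_id (0 : ℂ)).const_sub p.2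
    exact a1.prodMk a2
  have hγt : Tendsto γ (𝓝 0) (𝓝 p) := by
    have := hγd.continuousAt
    rwa [ContinuousAt, hγ0] at this
  have hγa : AnalyticAt ℂ γ 0 := by
    apply AnalyticAt.prod
    · exact analyticAt_const.add analyticAt_id
    · exact analyticAt_const.sub analyticAt_id
  have hγs : ∀ s, (γ s).1 + (γ s).2 = β := by
    intro s; simp only [γ, hβ]; ring
  have hmd : HasDerivAt (fun s => m (γ s)) (fderiv ℂ m p (1, -1)) 0 := by
    have : HasFDerivAt m (fderiv ℂ m p) (γ 0) := by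
      rw [hγ0]; exact hpm.differentiableAt.hasFDerivAt
    exact this.comp_hasDerivAt 0 hγd
  have hBa : AnalyticAt ℂ (fun s => bh (γ s)) 0 := by
    have : AnalyticAt ℂ bh (γ 0) := by rw [hγ0]; exact hpb
    exact this.fun_comp hγa
  have hB0 : bh (γ 0) = bh p := by rw [hγ0]
  have hBd : HasDerivAt (fun s => bh (γ s)) (deriv (fun s => bh (γ s)) 0) 0 :=
    hBa.differentiableAt.hasDerivAt
  have hghd : HasDerivAt gh (deriv gh (bh (γ 0))) (bh (γ 0)) := by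
    rw [hB0]; exact (hghr _ hpball).differentiableAt.hasDerivAt
  have hEq : ∀ᶠ s in 𝓝 (0 : ℂ), gh (bh (γ s)) = g β + m (γ s) * (bh (γ s) - β) := by
    filter_upwards [hγt.eventually hp1, hγt.eventually hp3] with s a1 a3
    rw [hγs s] at a1
    rw [a3]
    linear_combination -a1
  have hdB : deriv (fun s => bh (γ s)) 0 ≠ 0 := by
    intro hz
    rw [hz] at hBd
    have l1 : HasDerivAt (fun s => gh (bh (γ s))) (deriv gh (bh (γ 0)) * 0) 0 :=
      HasDerivAt.comp (0 : ℂ) hghd hBd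
    have l2 : HasDerivAt (fun s => g β + m (γ s) * (bh (γ s) - β))
        (fderiv ℂ m p (1, -1) * (bh (γ 0) - β) + m (γ 0) * 0) 0 :=
      (hmd.mul (hBd.sub_const β)).const_add (g β)
    have l3 := (l2.congr_of_eventuallyEq hEq).unique l1
    rw [mul_zero, mul_zero, add_zero, hB0] at l3
    rcases mul_eq_zero.mp l3 with h | h
    · exact hpd h
    · exact hFp h
  have hstrict : HasStrictDerivAt (fun s => bh (γ s)) (deriv (fun s => bh (γ s)) 0) 0 :=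
    hBa.hasStrictDerivAt
  have hmap : map (fun s => bh (γ s)) (𝓝 0) = 𝓝 (bh (γ 0)) := hstrict.map_nhds_eq hdB
  -- the polynomial
  refine ⟨RR (fun i n => q i n β) β (g β), RR_ne _ _ _ (i0 := i0) (n0 := n0) hQp, ?_⟩
  have hnear : ∀ᶠ z in 𝓝 (bh p),
      MvPolynomial.eval ![z, gh z] (RR (fun i n => q i n β) β (g β)) = 0 := by
    rw [← hB0, ← hmap, eventually_map]
    filter_upwards [hEq, hγt.eventually hprel] with s a1 a2
    rw [a1, RR_line]
    rw [hγs s] at a2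
    rw [a2, mul_zero]
  have hfa : AnalyticOnNhd ℂ
      (fun z => MvPolynomial.eval ![z, gh z] (RR (fun i n => q i n β) β (g β)))
      (Metric.ball (bh (c0, 0)) r) := by
    intro z hz
    have hgz := hghr z hz
    have he : (fun z => MvPolynomial.eval ![z, gh z] (RR (fun i n => q i n β) β (g β))) =
        fun z => ∑ i, ∑ n, q i n β * (gh z - g β) ^ (n : ℕ) * (z - β) ^ (M - (n : ℕ)) *
          z ^ (i : ℕ) := by
      funext z; exact RR_eval _ _ _ _ _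
    rw [he]
    refine Finset.analyticAt_fun_sum _ fun i _ => Finset.analyticAt_fun_sum _ fun n _ => ?_
    exact ((analyticAt_const.mul ((hgz.sub analyticAt_const).pow _)).mul
      ((analyticAt_id.sub analyticAt_const).pow _)).mul (analyticAt_id.pow _)
  have hz := hfa.eqOn_zero_of_preconnected_of_eventuallyEq_zero
    (convex_ball _ _).isPreconnected hpball hnear
  filter_upwards [Metric.ball_mem_nhds _ hr] with z hz'
  exact hz hz'

end Crest.Agent.R102.CTEnd289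
end

-- ▼ part R102/TayEnd_201

/-!
# Row 102, [H3], (CT): leaves TAYEND and EVEN (helper201)
-/

set_option autoImplicit false
set_option linter.unusedSectionVars false

namespace Crest.Agent.R102.TayEnd201

open H3 Glue798 PowerSeries Finset Set Topology TopologicalSpace Metric Filter CT575

noncomputable section

variable {t : ℂ} {ρ ρ' : ℝ}

theorem UU_le (h : ρ' ≤ ρ) : UU t ρ' ≤ UU t ρ :=
  prod_mono (ball_subset_ball h) (ball_subset_ball h)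

theorem bO_le (h : ρ' ≤ ρ) : bO t ρ' ≤ bO t ρ := ball_subset_ball h

/-- restriction of functions of one variable -/
def rD (t : ℂ) (h : ρ' ≤ ρ) : Hol (bO t ρ) →ₐ[ℂ] Hol (bO t ρ') := Hol.res (bO_le h)

/-- restriction of functions of two variables -/
def rU (t : ℂ) (h : ρ' ≤ ρ) : Hol (UU t ρ) →ₐ[ℂ] Hol (UU t ρ') := Hol.res (UU_le h)

/-- the Taylor expansion commutes with restriction -/
theorem TO_res (hρ : 0 < ρ) (hρ' : 0 < ρ') (h : ρ' ≤ ρ) (F : Hol (UU t ρ)) :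
    TO (UU_h0 hρ') (rU t h F) =
      PowerSeries.map (rD t h : Hol (bO t ρ) →+* Hol (bO t ρ')) (TO (UU_h0 hρ) F) := by
  refine PowerSeries.ext fun n => ?_
  ext c
  rw [coeff_map]
  change _ = (Hol.res (bO_le h) (coeff n (TO (UU_h0 hρ) F)) : bO t ρ' → ℂ) c
  rw [Hol.res_apply, coeff_TO, coeff_TO]
  congr 1
  apply Filter.EventuallyEq.iteratedDeriv_eq
  have h1 : ∀ᶠ w in 𝓝 (0 : ℂ), w ∈ ball (0 : ℂ) ρ' := ball_mem_nhds 0 hρ'
  filter_upwards [h1] with w hw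
  have h2 : ((c : ℂ), w) ∈ UU t ρ' := ⟨c.2, hw⟩
  change ext0 (Hol.res (UU_le h) F : UU t ρ' → ℂ) ((c : ℂ), w) = ext0 (F : UU t ρ → ℂ) ((c : ℂ), w)
  rw [ext0_of_mem _ h2, ext0_of_mem _ (UU_le h h2), Hol.res_apply]

theorem Ty_res (h : ρ' ≤ ρ) (a : Hol (bO t ρ)) :
    Ty (DH (bO t ρ')) (rD t h a) =
      PowerSeries.map (rD t h : Hol (bO t ρ) →+* Hol (bO t ρ')) (Ty (DH (bO t ρ)) a) := by
  refine PowerSeries.ext fun n => ?_
  rw [coeff_map, coeff_Ty, coeff_Ty]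
  have h1 : ∀ n (a : Hol (bO t ρ)), (DH (bO t ρ'))^[n] (rD t h a) =
      rD t h ((DH (bO t ρ))^[n] a) := by
    intro n
    induction n with
    | zero => intro a; rfl
    | succ n ih =>
      intro a
      rw [Function.iterate_succ_apply, Function.iterate_succ_apply]
      have := DH_res (bO_le (t := t) h) a
      change DH (bO t ρ') (rD t h a) = rD t h (DH (bO t ρ) a) at this
      rw [this, ih]
  rw [dn, dn, h1]
  exact (map_smul (rD t h) _ _).symm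

/-- the function `c + ω` -/
def sH (t : ℂ) (ρ' : ℝ) : Hol (UU t ρ') := hU t ρ' (fun p => p.1 + p.2)

theorem an_s (s : Set (ℂ × ℂ)) : AnalyticOnNhd ℂ (fun p : ℂ × ℂ => p.1 + p.2) s :=
  fun _ _ => analyticAt_fst.add analyticAt_snd

theorem sH_apply (p : UU t ρ') : (sH t ρ' : UU t ρ' → ℂ) p = (p : ℂ × ℂ).1 + (p : ℂ × ℂ).2 :=
  toH_apply (an_s _) p

theorem sH_mem (p : UU t (ρ / 2)) : (sH t (ρ / 2) : UU t (ρ / 2) → ℂ) p ∈ bO t ρ := by
  rw [sH_apply]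
  have h1 : dist (p : ℂ × ℂ).1 t < ρ / 2 := p.2.1
  have h2 : dist (p : ℂ × ℂ).2 0 < ρ / 2 := p.2.2
  rw [dist_eq_norm] at h1 h2
  rw [sub_zero] at h2
  change dist ((p : ℂ × ℂ).1 + (p : ℂ × ℂ).2) t < ρ
  rw [dist_eq_norm]
  calc ‖(p : ℂ × ℂ).1 + (p : ℂ × ℂ).2 - t‖ = ‖((p : ℂ × ℂ).1 - t) + (p : ℂ × ℂ).2‖ := by ring_nf
    _ ≤ _ := norm_add_le _ _
    _ < ρ := by linarith

/-- `a ↦ a (c + ω)` -/
def SS (t : ℂ) (ρ : ℝ) : Hol (bO t ρ) →ₐ[ℂ] Hol (UU t (ρ / 2)) := compH (sH t (ρ / 2)) sH_mem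

theorem TO_sH (hρ' : 0 < ρ') : TO (UU_h0 hρ') (sH t ρ') = C (zH (bO t ρ')) + X := by
  have e1 : sH t ρ' = hU t ρ' (fun p => p.1) + omH t ρ' := by
    ext p
    rw [sH_apply]
    change _ = (hU t ρ' (fun p => p.1) : UU t ρ' → ℂ) p + (omH t ρ' : UU t ρ' → ℂ) p
    rw [toH_apply analyticOnNhd_fst, toH_apply analyticOnNhd_snd]
  have e2 : hU t ρ' (fun p => p.1) =
      Hol.pull Prod.fst analyticOnNhd_fst UU_h1 (zH (bO t ρ')) := by
    ext x
    rw [hU, toH_apply analyticOnNhd_fst, Hol.pull_apply]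
    rfl
  rw [e1, map_add, e2, TO_fst]
  congr 1
  rw [omH, hU, toH_eq analyticOnNhd_snd]
  exact TO_om _ analyticOnNhd_snd

theorem pt_X {H : Type*} [CommRing H] [Algebra ℂ H] (d : Derivation ℂ H H) {y : H⟦X⟧}
    (hy : X ∣ y) (he : y = X) : pt d C y hy = Ty d := by
  subst he
  refine RingHom.ext fun f => ?_
  rw [pt_apply]
  have h3 := evS_unique (RingHom.id H⟦X⟧) (C : H →+* _) (y := X) hy (fun a => rfl) rfl
  rw [← h3]
  rfl

theorem TO_SS (hρ : 0 < ρ) (a : Hol (bO t ρ)) :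
    TO (UU_h0 (half_pos hρ)) (SS t ρ a) =
      Ty (DH (bO t (ρ / 2))) (rD t (half_le_self hρ.le) a) := by
  have h1 := TO_sH (t := t) (half_pos hρ)
  have he0 : TO (UU_h0 (half_pos hρ)) (sH t (ρ / 2)) - C (zH (bO t (ρ / 2))) = X := by
    rw [h1]; ring
  have he : (X : (Hol (bO t (ρ / 2)))⟦X⟧) ∣ TO (UU_h0 (half_pos hρ)) (sH t (ρ / 2)) -
      C (zH (bO t (ρ / 2))) := ⟨1, by rw [he0, mul_one]⟩
  have key := TO_compH (bO_le (t := t) (half_le_self hρ.le)) (UU_h0 (half_pos hρ)) UU_h1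
    (sH t (ρ / 2)) sH_mem (fun c hc => by rw [sH_apply]; simp) he a
  have h2 := pt_X (DH (bO t (ρ / 2))) he he0
  refine key.trans ?_
  exact congrArg (fun Φ : Hol (bO t (ρ / 2)) →+* (Hol (bO t (ρ / 2)))⟦X⟧ =>
    Φ (rD t (half_le_self hρ.le) a)) h2

/-- **TAYEND** -/
theorem tayend (hρ : 0 < ρ) (f h : Hol (UU t ρ)) (q : Polynomial (Polynomial (Hol (bO t ρ))))
    (hq : q.eval₂ (Polynomial.eval₂RingHom (Ty (DH (bO t ρ))) (TO (UU_h0 hρ) f))
      (TO (UU_h0 hρ) h) = 0) :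
    ∀ᶠ p in 𝓝 ((t, 0) : ℂ × ℂ), ∑ i ∈ range (q.natDegree + 1),
      ∑ n ∈ range ((q.coeff i).natDegree + 1),
        ext0 (((q.coeff i).coeff n : Hol (bO t ρ)) : bO t ρ → ℂ) (p.1 + p.2) *
          ext0 (f : UU t ρ → ℂ) p ^ n * ext0 (h : UU t ρ → ℂ) p ^ i = 0 := by
  have hρ' := half_pos hρ
  have hle : ρ / 2 ≤ ρ := half_le_self hρ.le
  -- the element of `Hol U'`
  set Q : Hol (UU t (ρ / 2)) := ∑ i ∈ range (q.natDegree + 1),
      ∑ n ∈ range ((q.coeff i).natDegree + 1),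
        SS t ρ ((q.coeff i).coeff n) * (rU t hle f) ^ n * (rU t hle h) ^ i with hQ
  have hQ0 : Q = 0 := by
    apply TO_injective (c₀ := t) hρ'
    rw [map_zero, hQ, map_sum]
    have h1 := congrArg (PowerSeries.map (rD t hle : Hol (bO t ρ) →+* Hol (bO t (ρ / 2)))) hq
    rw [map_zero, Polynomial.eval₂_eq_sum_range, map_sum] at h1
    rw [← h1]
    refine Finset.sum_congr rfl fun i _ => ?_
    rw [map_sum, Polynomial.coe_eval₂RingHom, Polynomial.eval₂_eq_sum_range, Finset.sum_mul,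
      map_sum]
    refine Finset.sum_congr rfl fun n _ => ?_
    rw [map_mul, map_mul, map_mul, map_mul, map_pow, map_pow, map_pow, map_pow, TO_SS hρ,
      TO_res hρ hρ' hle, TO_res hρ hρ' hle, Ty_res]
  have hnh : (UU t (ρ / 2) : Set (ℂ × ℂ)) ∈ 𝓝 ((t, 0) : ℂ × ℂ) :=
    (UU t (ρ / 2)).isOpen.mem_nhds ⟨mem_ball_self hρ', mem_ball_self hρ'⟩
  filter_upwards [hnh] with p hp
  have h2 := congrArg (evH (⟨p, hp⟩ : UU t (ρ / 2))) hQ0
  rw [map_zero, hQ, map_sum] at h2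
  rw [← h2]
  refine Finset.sum_congr rfl fun i _ => ?_
  rw [map_sum]
  refine Finset.sum_congr rfl fun n _ => ?_
  rw [map_mul, map_mul, map_pow, map_pow]
  have e1 : ∀ F : Hol (UU t ρ), evH (⟨p, hp⟩ : UU t (ρ / 2)) (rU t hle F) =
      ext0 (F : UU t ρ → ℂ) p := by
    intro F
    change (Hol.res (UU_le hle) F : UU t (ρ / 2) → ℂ) ⟨p, hp⟩ = _
    rw [Hol.res_apply, ext0_of_mem _ (UU_le hle hp)]
  have e2 : ∀ a : Hol (bO t ρ), evH (⟨p, hp⟩ : UU t (ρ / 2)) (SS t ρ a) =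
      ext0 (a : bO t ρ → ℂ) (p.1 + p.2) := by
    intro a
    rw [evH_apply, SS, compH_apply]
    have h3 := sH_mem (t := t) (ρ := ρ) ⟨p, hp⟩
    rw [sH_apply] at h3
    rw [ext0_of_mem _ h3]
    refine congrArg (a : bO t ρ → ℂ) (Subtype.ext ?_)
    exact sH_apply _
  rw [e1, e1, e2]

/-- **EVEN** -/
theorem even_of (hρ : 0 < ρ) (u m k : Hol (UU t ρ)) (gh : ℂ → ℂ)
    (hgh : AnalyticAt ℂ gh ((u : UU t ρ → ℂ) ⟨(t, 0), UU_h0 hρ t (mem_ball_self hρ)⟩))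
    (hm : fl t ρ m = m) (hk : fl t ρ k = k)
    (hinc : ∀ᶠ p in 𝓝 ((t, 0) : ℂ × ℂ), gh (ext0 (u : UU t ρ → ℂ) p) =
      ext0 (m : UU t ρ → ℂ) p * ext0 (u : UU t ρ → ℂ) p + ext0 (k : UU t ρ → ℂ) p)
    (htr : deriv gh (ext0 (u : UU t ρ → ℂ) (t, 0)) ≠ ext0 (m : UU t ρ → ℂ) (t, 0)) :
    fl t ρ u = u := by
  have hc : ((t, 0) : ℂ × ℂ) ∈ UU t ρ := UU_h0 hρ t (mem_ball_self hρ)
  rw [← ext0_of_mem (u : UU t ρ → ℂ) hc] at hgh
  set y := ext0 (u : UU t ρ → ℂ) (t, 0) with hy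
  -- the flip
  have hflip : Tendsto (fun p : ℂ × ℂ => ((p.1, -p.2) : ℂ × ℂ)) (𝓝 (t, 0)) (𝓝 (t, 0)) := by
    have : Continuous (fun p : ℂ × ℂ => ((p.1, -p.2) : ℂ × ℂ)) := by fun_prop
    simpa using this.tendsto ((t, 0) : ℂ × ℂ)
  have hfl : ∀ F : Hol (UU t ρ), fl t ρ F = F → ∀ p ∈ UU t ρ,
      ext0 (F : UU t ρ → ℂ) (p.1, -p.2) = ext0 (F : UU t ρ → ℂ) p := by
    intro F hF p hp
    have h1 := congrArg (fun G : Hol (UU t ρ) => (G : UU t ρ → ℂ) ⟨p, hp⟩) hF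
    simp only [HolXY289.flip_apply] at h1
    rw [ext0_of_mem _ (UU_flip p hp), ext0_of_mem _ hp]
    exact h1
  have hcu : ContinuousAt (ext0 (u : UU t ρ → ℂ)) (t, 0) := (Hol.an u _ hc).continuousAt
  have hcm : ContinuousAt (ext0 (m : UU t ρ → ℂ)) (t, 0) := (Hol.an m _ hc).continuousAt
  -- strict differentiability
  have hs := hgh.hasStrictDerivAt
  have hd : (0 : ℝ) < ‖ext0 (m : UU t ρ → ℂ) (t, 0) - deriv gh y‖ / 2 := by
    have : 0 < ‖ext0 (m : UU t ρ → ℂ) (t, 0) - deriv gh y‖ :=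
      norm_pos_iff.2 (sub_ne_zero.2 (Ne.symm htr))
    linarith
  set d := ‖ext0 (m : UU t ρ → ℂ) (t, 0) - deriv gh y‖ / 2 with hdd
  have h1 : ∀ᶠ z in 𝓝 ((y, y) : ℂ × ℂ), ‖gh z.1 - gh z.2 - (z.1 - z.2) • deriv gh y‖ ≤
      d * ‖z.1 - z.2‖ := by
    have := hs.hasStrictFDerivAt.isLittleO.def hd
    simpa using this
  have h2 : Tendsto (fun p : ℂ × ℂ => ((ext0 (u : UU t ρ → ℂ) p,
      ext0 (u : UU t ρ → ℂ) (p.1, -p.2)) : ℂ × ℂ)) (𝓝 (t, 0)) (𝓝 (y, y)) :=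
    hcu.tendsto.prodMk_nhds (hcu.tendsto.comp hflip)
  have h3 := h2.eventually h1
  have h4 : ∀ᶠ p in 𝓝 ((t, 0) : ℂ × ℂ), d < ‖ext0 (m : UU t ρ → ℂ) p - deriv gh y‖ := by
    have h5 : ContinuousAt (fun p => ‖ext0 (m : UU t ρ → ℂ) p - deriv gh y‖) (t, 0) :=
      (hcm.sub continuousAt_const).norm
    refine h5.eventually (lt_mem_nhds ?_)
    rw [hdd]
    linarith
  have h6 : ∀ᶠ p in 𝓝 ((t, 0) : ℂ × ℂ), p ∈ UU t ρ := (UU t ρ).isOpen.mem_nhds hc
  have hloc : ∀ᶠ p in 𝓝 ((t, 0) : ℂ × ℂ),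
      ext0 (u : UU t ρ → ℂ) (p.1, -p.2) = ext0 (u : UU t ρ → ℂ) p := by
    filter_upwards [h3, h4, h6, hinc, hflip.eventually hinc] with p a1 a2 a3 a4 a5
    rw [hfl m hm p a3, hfl k hk p a3] at a5
    set A := ext0 (u : UU t ρ → ℂ) p
    set B := ext0 (u : UU t ρ → ℂ) (p.1, -p.2)
    have a6 : gh A - gh B - (A - B) • deriv gh y =
        (ext0 (m : UU t ρ → ℂ) p - deriv gh y) * (A - B) := by
      rw [a4, a5, smul_eq_mul]; ring
    rw [a6, norm_mul] at a1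
    by_contra hne
    have a7 : 0 < ‖A - B‖ := norm_pos_iff.2 (sub_ne_zero.2 (Ne.symm hne))
    have a8 := le_of_mul_le_mul_right a1 a7
    linarith
  -- identity theorem
  have hz : fl t ρ u - u = 0 := by
    refine Hol.eq_zero_of_eventually (UU_preconnected t ρ) _ (x := ⟨(t, 0), hc⟩) ?_
    filter_upwards [hloc, h6] with p a1 a3
    rw [ext0_of_mem _ a3]
    change (fl t ρ u : UU t ρ → ℂ) ⟨p, a3⟩ - (u : UU t ρ → ℂ) ⟨p, a3⟩ = 0
    rw [HolXY289.flip_apply, sub_eq_zero]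
    rw [ext0_of_mem _ (UU_flip p a3), ext0_of_mem _ a3] at a1
    exact a1
  exact sub_eq_zero.1 hz

end

end Crest.Agent.R102.TayEnd201
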