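import Crest.Agent.R102.CoreC_575
import Crest.Agent.R102.RATDefs2_926
import Crest.Agent.R102.TayEnd_201_Mg

/-!
Row 102, part (C), leaf H3: the collapse theorem `CTStmt`.
-/

set_option linter.unusedSectionVars false
set_option autoImplicit false

namespace Crest.Agent.R102.CT575

open H3 Glue798 PowerSeries Finset Set Topology TopologicalSpace Metric Filter

noncomputable section

/-- algebra homs to `ℂ` and polynomials in two elements -/
theorem map_aeval2 {A0 : Type} [CommRing A0] [Algebra ℂ A0] (τ : A0 →ₐ[ℂ] ℂ) (z0 g0 : A0)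
    (P : MvPolynomial (Fin 2) ℂ) {z w : ℂ} (hz : τ z0 = z) (hw : τ g0 = w) :
    τ (MvPolynomial.aeval ![z0, g0] P) = MvPolynomial.eval ![z, w] P := by
  rw [MvPolynomial.comp_aeval_apply]
  have : (fun i => τ (![z0, g0] i)) = ![z, w] := by
    funext i
    fin_cases i
    · exact hz
    · exact hw
  rw [this, MvPolynomial.aeval_def]
  rfl

/-- translation of the observables: `k₀ = g (b₀) - m₀ b₀` -/
def el {N : ℕ} (hN : 0 < N) {A0 : Type} [CommRing A0] (z0 g0 : A0) :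
    MvPolynomial (Fin 2 ⊕ (Fin N × A0)) ℂ →+* MvPolynomial (Option (Fin N × A0)) ℂ :=
  (MvPolynomial.aeval (Sum.elim ![MvPolynomial.X none,
      MvPolynomial.X (some (⟨0, hN⟩, g0)) - MvPolynomial.X none * MvPolynomial.X (some (⟨0, hN⟩, z0))]
    (fun p => MvPolynomial.X (some p))) :
    MvPolynomial (Fin 2 ⊕ (Fin N × A0)) ℂ →ₐ[ℂ] MvPolynomial (Option (Fin N × A0)) ℂ)

/-- a ring hom composed with the translation -/
theorem comp_el {N : ℕ} (hN : 0 < N) {A0 : Type} [CommRing A0] (z0 g0 : A0)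
    (Φ : MvPolynomial (Option (Fin N × A0)) ℂ →+* ℂ) (f : Fin 2 ⊕ (Fin N × A0) → ℂ)
    (hC : ∀ c, Φ (MvPolynomial.C c) = c) (h0 : Φ (MvPolynomial.X none) = f (Sum.inl 0))
    (h1 : Φ (MvPolynomial.X (some (⟨0, hN⟩, g0))) - f (Sum.inl 0) *
      Φ (MvPolynomial.X (some (⟨0, hN⟩, z0))) = f (Sum.inl 1))
    (h2 : ∀ p, Φ (MvPolynomial.X (some p)) = f (Sum.inr p)) :
    Φ.comp (el hN z0 g0) = MvPolynomial.eval f := by
  refine MvPolynomial.ringHom_ext (fun c => ?_) (fun o => ?_)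
  · rw [RingHom.comp_apply, el, RingHom.coe_coe, MvPolynomial.algHom_C, MvPolynomial.eval_C]
    exact hC c
  · rw [RingHom.comp_apply, el, RingHom.coe_coe, MvPolynomial.aeval_X, MvPolynomial.eval_X]
    rcases o with j | p
    · rw [Sum.elim_inl]
      revert j
      rw [Fin.forall_fin_two]
      refine ⟨h0, ?_⟩
      rw [← h1, ← h0]
      simp only [Matrix.cons_val_one, Matrix.cons_val_fin_one, map_sub, map_mul]
    · rw [Sum.elim_inr]
      exact h2 p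

section

variable {g : ℂ → ℂ} {c₀ e : ℂ} {N : ℕ} {ρ r : ℝ} {β m k q q' : ℕ → ℂ × ℂ → ℂ}

theorem Dat.obU_el (h : Dat g c₀ N ρ e r β m k q q') (hN : 0 < N) (A : Subalgebra ℂ (Hol (bO e r)))
    (z0 g0 : A) (hz : (z0 : Hol (bO e r)) = zH _) (hg : (g0 : Hol (bO e r)) = gV g e r)
    (x : UU c₀ ρ) :
    ((evH x : Hol (UU c₀ ρ) →+* ℂ).comp (h.obU A.val)).comp (el hN z0 g0) =
      MvPolynomial.eval (RAT.obs A N β m k (x : ℂ × ℂ)) := by
  have hX : ∀ o, h.obU A.val (MvPolynomial.X o) =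
      o.elim (hU c₀ ρ (m 0)) (fun p => h.bt p.1 (A.val p.2)) := by
    intro o
    rw [Dat.obU, H3.obs]
    exact MvPolynomial.eval₂Hom_X' _ _ _
  have hCc : ∀ c : ℂ, (h.obU (A0 := A) A.val) (MvPolynomial.C c) =
      algebraMap ℂ (Hol (UU c₀ ρ)) c := by
    intro c
    rw [Dat.obU, H3.obs]
    exact MvPolynomial.eval₂Hom_C _ _ _
  have hb : ∀ (i : Fin N) (a : A), evH x (h.bt i (A.val a)) =
      ext0 ((a : Hol (bO e r)) : bO e r → ℂ) ((x : ℂ × ℂ).1 + (x : ℂ × ℂ).2 * β i x) := by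
    intro i a
    rw [h.bt_eq i.2.le, Dat.bs]
    change ((compH (bH c₀ ρ β i) (h.bH_mem i.2.le) (A.val a) : Hol (UU c₀ ρ)) : UU c₀ ρ → ℂ) x = _
    rw [compH_apply, ext0_of_mem _ (h.vert i i.2.le x x.2)]
    refine congrArg (fun z => ((a : Hol (bO e r)) : bO e r → ℂ) z) (Subtype.ext ?_)
    exact h.bH_apply i.2.le x
  have hm : evH x (hU c₀ ρ (m 0)) = m 0 x := toH_apply (h.ch.an_m 0 (Nat.zero_le _)) x
  have hk : evH x (hU c₀ ρ (k 0)) = k 0 x := toH_apply (h.ch.an_k 0 (Nat.zero_le _)) x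
  have e1 : A.val g0 = gV g e r := hg
  have e2 : A.val z0 = zH _ := hz
  refine comp_el hN z0 g0 _ _ (fun c => ?_) ?_ ?_ fun p => ?_
  · rw [RingHom.comp_apply, hCc]
    rfl
  · rw [RingHom.comp_apply, hX]
    exact hm
  · rw [RingHom.comp_apply, RingHom.comp_apply, hX, hX]
    have h3 : evH x (h.bt (0 : ℕ) (A.val g0)) - m 0 x * evH x (h.bt (0 : ℕ) (A.val z0)) = k 0 x := by
      rw [e1, e2, h.bt_eq (Nat.zero_le N), h.inc (Nat.zero_le N), h.bs_z, map_add, map_mul,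
        hm, hk]
      ring
    exact h3
  · rw [RingHom.comp_apply, hX]
    exact hb p.1 p.2

end

set_option maxHeartbeats 1600000 in
/-- **CT** -/
theorem ct : RAT.CTStmt := by
  intro g c₀ r A G hFT t N ρ β m k q q' hN hch hvert y r' ι gh hFar hyt hyl hsl u hu hut hinc hRel
  classical
  have hG : ∀ z : bO c₀ r, (G : bO c₀ r → ℂ) z = g z := hFT.G_eq
  have hang : AnalyticOnNhd ℂ g (ball c₀ r) := fun z hz =>
    (Hol.an G z hz).congr (eventually_ext0_eq (fun x => (hG x).symm) hz)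
  have hGV : G = gV g c₀ r := by
    ext z
    rw [gV, toH_apply hang, hG]
  have hsub : ball t ρ ⊆ ball c₀ r := by
    intro c hc
    have := (hvert (c, 0) ⟨hc, mem_ball_self hch.ρ_pos⟩).1
    simpa using this
  have htr : t ∈ ball c₀ r := hsub (mem_ball_self hch.ρ_pos)
  have hy : y ∈ ball y r' := mem_ball_self hFar.r'_pos
  let del : Derivation ℂ A A := resD (DH (bO c₀ r)) A hFT.stable
  let z0 : A := ⟨zH _, hFT.z_mem⟩
  let g0 : A := ⟨G, hFT.G_mem⟩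
  have hιd : ∀ a, ι (del a) = DH _ (ι a) := fun a => (hFar.d_eq a (del a) rfl).symm
  have hιz : ι z0 = zH _ := hFar.z_eq _
  have hιg : ∀ z : bO y r', (ι g0 : bO y r' → ℂ) z = gh z := hFar.G_eq _
  by_cases hi : AlgebraicIndependent ℂ ![z0, g0]
  swap
  · rw [algebraicIndependent_iff] at hi
    push Not at hi
    obtain ⟨P, hP, hP0⟩ := hi
    refine ⟨P, hP0, ?_⟩
    filter_upwards [isOpen_ball.mem_nhds htr] with z hz
    have h1 := map_aeval2 ((evH (⟨z, hz⟩ : bO c₀ r)).comp A.val) z0 g0 P (z := z) (w := g z)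
      rfl (by
        change (G : bO c₀ r → ℂ) ⟨z, hz⟩ = g z
        exact hG ⟨z, hz⟩)
    rw [← h1, hP, map_zero]
  exfalso
  -- analytic facts at `y`
  have hgh : AnalyticOnNhd ℂ gh (ball y r') := fun z hz =>
    (Hol.an (ι g0) z hz).congr (eventually_ext0_eq (fun x => (hιg x).symm) hz)
  have hdg : ∀ z : bO y r', (ι (del g0) : bO y r' → ℂ) z = deriv gh z := by
    intro z
    rw [hιd, DH_apply]
    exact (eventually_ext0_eq (fun x => (hιg x).symm) z.2).deriv_eq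
  have hm0 : m 0 (t, 0) = deriv g t := hch.m_c 0 (Nat.zero_le _) t (mem_ball_self hch.ρ_pos)
  obtain ⟨P, hPe, i₁, hPi⟩ := hRel
  have hc : ((t, 0) : ℂ × ℂ) ∈ ball t ρ ×ˢ ball (0 : ℂ) ρ :=
    ⟨mem_ball_self hch.ρ_pos, mem_ball_self hch.ρ_pos⟩
  have hcu : ContinuousAt u (t, 0) := hu.continuousAt
  have hcm : ContinuousAt (m 0) (t, 0) := (hch.an_m 0 (Nat.zero_le _) _ hc).continuousAt
  have ev1 : ∀ᶠ x in 𝓝 ((t, 0) : ℂ × ℂ), u x ∈ ball y r' := by
    refine hcu.eventually ?_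
    rw [hut]
    exact isOpen_ball.mem_nhds hy
  have ev2 : ∀ᶠ x in 𝓝 ((t, 0) : ℂ × ℂ), deriv gh (u x) - m 0 x ≠ 0 := by
    have h1 : ContinuousAt (fun x => deriv gh (u x) - m 0 x) (t, 0) := by
      refine ContinuousAt.sub ?_ hcm
      have h2 : ContinuousAt (deriv gh) (u (t, 0)) := by
        rw [hut]; exact (hgh y hy).deriv.continuousAt
      exact ContinuousAt.comp (f := u) (g := deriv gh) h2 hcu
    refine h1.eventually_ne ?_
    rw [hut, hm0]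
    exact sub_ne_zero.2 hsl
  obtain ⟨ρ₁, hρ₁, hall⟩ := Metric.eventually_nhds_iff_ball.mp
    (hu.eventually_analyticAt.and (ev1.and (ev2.and (hinc.and hPe))))
  -- the radius
  obtain ⟨ρ₂, hρ₂, h21, h2ρ⟩ : ∃ ρ₂ : ℝ, 0 < ρ₂ ∧ ρ₂ ≤ ρ₁ ∧ ρ₂ ≤ ρ :=
    ⟨min ρ₁ ρ, lt_min hρ₁ hch.ρ_pos, min_le_left _ _, min_le_right _ _⟩
  have hin : ∀ x ∈ UU t ρ₂, x ∈ ball ((t, 0) : ℂ × ℂ) ρ₁ := by
    intro x hx
    rw [← ball_prod_same]
    exact ⟨ball_subset_ball h21 hx.1, ball_subset_ball h21 hx.2⟩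
  have hsub2 : ball t ρ₂ ⊆ ball t ρ := ball_subset_ball h2ρ
  have hs2 : ball t ρ₂ ×ˢ ball (0 : ℂ) ρ₂ ⊆ ball t ρ ×ˢ ball (0 : ℂ) ρ :=
    Set.prod_mono hsub2 (ball_subset_ball h2ρ)
  have h : Dat g t N ρ₂ c₀ r β m k q q' :=
    { ch := chain_move hch hρ₂ hsub2 h2ρ
      sub := hsub2.trans hsub
      vert := fun i hi' p hp => (hvert p (hs2 hp)).2 i hi'
      ang := hang }
  have hUan : AnalyticOnNhd ℂ u (UU t ρ₂) := fun x hx => (hall x (hin x hx)).1
  have hua : ∀ p : UU t ρ₂, (hU t ρ₂ u : UU t ρ₂ → ℂ) p = u p := fun p => toH_apply hUan p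
  have hub : ∀ p : UU t ρ₂, (hU t ρ₂ u : UU t ρ₂ → ℂ) p ∈ bO y r' := fun p => by
    rw [hua]; exact (hall p (hin p p.2)).2.1
  have hma : ∀ p : UU t ρ₂, (hU t ρ₂ (m 0) : UU t ρ₂ → ℂ) p = m 0 p :=
    fun p => toH_apply (h.ch.an_m 0 (Nat.zero_le _)) p
  have hka : ∀ p : UU t ρ₂, (hU t ρ₂ (k 0) : UU t ρ₂ → ℂ) p = k 0 p :=
    fun p => toH_apply (h.ch.an_k 0 (Nat.zero_le _)) p
  have hc2 : ((t, 0) : ℂ × ℂ) ∈ UU t ρ₂ := UU_h0 hρ₂ t (mem_ball_self hρ₂)
  have hUn : (UU t ρ₂ : Set (ℂ × ℂ)) ∈ 𝓝 ((t, 0) : ℂ × ℂ) := (UU t ρ₂).isOpen.mem_nhds hc2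
  have hfl : fl t ρ₂ (hU t ρ₂ u) = hU t ρ₂ u := by
    refine TayEnd201.even_of hρ₂ (hU t ρ₂ u) (hU t ρ₂ (m 0)) (hU t ρ₂ (k 0)) gh ?_ h.fl_m h.fl_k
      ?_ ?_
    · rw [hua]
      change AnalyticAt ℂ gh (u (t, 0))
      rw [hut]
      exact hgh y hy
    · filter_upwards [hUn, hinc] with p hp hp2
      rw [ext0_of_mem _ hp, ext0_of_mem _ hp, ext0_of_mem _ hp, hua, hma, hka]
      exact hp2
    · rw [ext0_of_mem _ hc2, ext0_of_mem _ hc2, hua, hma]
      change deriv gh (u (t, 0)) ≠ m 0 (t, 0)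
      rw [hut, hm0]
      exact hsl
  have hincH : compH (hU t ρ₂ u) hub (ι g0) = hU t ρ₂ (m 0) * hU t ρ₂ u + hU t ρ₂ (k 0) := by
    ext p
    simp only [Subalgebra.coe_add, Subalgebra.coe_mul, Pi.add_apply, Pi.mul_apply]
    rw [compH_apply, hιg, hma, hka]
    change gh ((hU t ρ₂ u : UU t ρ₂ → ℂ) p) = _
    rw [hua]
    exact (hall p (hin p p.2)).2.2.2.1
  have hunit : IsUnit (compH (hU t ρ₂ u) hub (ι (del g0)) - hU t ρ₂ (m 0)) := by
    refine Hol.isUnit _ fun p => ?_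
    simp only [Subalgebra.coe_sub, Pi.sub_apply]
    rw [compH_apply, hdg, hma]
    change deriv gh ((hU t ρ₂ u : UU t ρ₂ → ℂ) p) - _ ≠ 0
    rw [hua]
    exact (hall p (hin p p.2)).2.2.1
  have hft : Algebra.FiniteType ℂ A := (Subalgebra.fg_iff_finiteType A).1 hFT.fg
  have hel := h.obU_el hN A z0 g0 rfl hGV
  obtain ⟨Q, hQ0, hQ⟩ := h.coreC hN (del := del) (z0 := z0) (g0 := g0) hi (ρ₀ := A.val)
    Subtype.val_injective hGV (fun a => rfl) rfl hιd hιz (hU t ρ₂ u) hub hfl hincH hunit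
    (P.map (el hN z0 g0)) (by
      rw [Polynomial.eval₂_map]
      ext x
      change evH x (Polynomial.eval₂ _ _ _) = 0
      have h1 := Polynomial.hom_eval₂ P ((h.obU A.val).comp (el hN z0 g0))
        (evH x : Hol (UU t ρ₂) →+* ℂ) (hU t ρ₂ u)
      rw [RingHom.coe_coe] at h1
      rw [h1, ← RingHom.comp_assoc, hel]
      have h2 : evH x (hU t ρ₂ u) = u x := hua x
      rw [h2]
      exact (hall x (hin x x.2)).2.2.2.2) (by
      intro h0
      rw [Polynomial.map_map] at h0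
      apply hPi
      filter_upwards [hUn] with x hx
      have h1 := congrArg (fun R : Polynomial (Hol (UU t ρ₂)) =>
        evH (⟨x, hx⟩ : UU t ρ₂) (R.coeff i₁)) h0
      simp only [Polynomial.coeff_map, Polynomial.coeff_zero, map_zero] at h1
      have h2 := congrArg (fun f : MvPolynomial (Fin 2 ⊕ (Fin N × A)) ℂ →+* ℂ => f (P.coeff i₁))
        (hel ⟨x, hx⟩)
      rw [← h2]
      exact h1)
  -- the end
  have hty := TayEnd201.tayend hρ₂ (hU t ρ₂ (m 0)) (hU t ρ₂ u) Q hQ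
  set M : ℕ := (range (Q.natDegree + 1)).sup (fun i => (Q.coeff i).natDegree) + 1 with hM
  have hMle : ∀ i : Fin (Q.natDegree + 1), (Q.coeff i).natDegree + 1 ≤ M := by
    intro i
    rw [hM]
    exact Nat.succ_le_succ (Finset.le_sup (f := fun i => (Q.coeff i).natDegree)
      (Finset.mem_range.2 i.2))
  have hrel : ∀ᶠ p in 𝓝 ((t, 0) : ℂ × ℂ), ∑ i : Fin (Q.natDegree + 1), ∑ n : Fin M,
      ext0 (((Q.coeff i).coeff n : Hol (bO t ρ₂)) : bO t ρ₂ → ℂ) (p.1 + p.2) * m 0 p ^ (n : ℕ) *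
        u p ^ (i : ℕ) = 0 := by
    filter_upwards [hty, hUn] with p hp hpU
    rw [← hp, ← Fin.sum_univ_eq_sum_range (fun i => ∑ n ∈ range ((Q.coeff i).natDegree + 1),
        ext0 (((Q.coeff i).coeff n : Hol (bO t ρ₂)) : bO t ρ₂ → ℂ) (p.1 + p.2) *
          ext0 (hU t ρ₂ (m 0) : UU t ρ₂ → ℂ) p ^ n * ext0 (hU t ρ₂ u : UU t ρ₂ → ℂ) p ^ i)]
    refine Finset.sum_congr rfl fun i _ => ?_
    rw [Fin.sum_univ_eq_sum_range (fun n => ext0 (((Q.coeff i).coeff n : Hol (bO t ρ₂)) :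
      bO t ρ₂ → ℂ) (p.1 + p.2) * m 0 p ^ n * u p ^ (i : ℕ)) M]
    rw [ext0_of_mem _ hpU, ext0_of_mem _ hpU, hua, hma]
    symm
    refine Finset.sum_subset (Finset.range_subset_range.2 (hMle i)) fun n _ hn => ?_
    have h1 : (Q.coeff i).coeff n = 0 := by
      apply Polynomial.coeff_eq_zero_of_natDegree_lt
      rw [Finset.mem_range, not_lt] at hn
      omega
    have h2 : ∀ z : ℂ, ext0 ((0 : Hol (bO t ρ₂)) : bO t ρ₂ → ℂ) z = 0 := by
      intro z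
      by_cases hz : z ∈ bO t ρ₂
      · rw [ext0_of_mem _ hz]; rfl
      · rw [ext0_of_not_mem _ hz]
    rw [h1, h2, zero_mul, zero_mul]
  have hq2 : deriv (deriv g) t ≠ 0 := by
    rw [← hch.q_c 0 (Nat.zero_le _) t (mem_ball_self hch.ρ_pos)]
    exact hch.q_ne 0 (Nat.zero_le _) _ hc
  have hSn : ball t ρ ×ˢ ball (0 : ℂ) ρ ∈ 𝓝 ((t, 0) : ℂ × ℂ) :=
    (IsOpen.prod isOpen_ball isOpen_ball).mem_nhds hc
  obtain ⟨R, hR0, hR⟩ := CTEnd289.ct_end (g := g) (gh := gh) (c0 := t) (m := m 0) (k := k 0)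
    (bh := u) (hang t htr) hq2 (hch.an_m 0 (Nat.zero_le _) _ hc) (hch.an_k 0 (Nat.zero_le _) _ hc)
    hu (by
      filter_upwards [hSn] with p hp
      have := hch.inc 0 (Nat.zero_le _) p hp
      simpa only [hch.β_zero, mul_one] using this)
    (by
      filter_upwards [hSn] with p hp
      exact hch.chord p hp)
    (by
      filter_upwards [ball_mem_nhds t hch.ρ_pos] with c hc'
      exact hch.m_c 0 (Nat.zero_le _) c hc')
    (by rw [hut]; exact hgh y hy) hinc (by rw [hut, hm0]; exact hsl)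
    (q := fun (i : Fin (Q.natDegree + 1)) (n : Fin M) =>
      ext0 (((Q.coeff i).coeff n : Hol (bO t ρ₂)) : bO t ρ₂ → ℂ))
    (fun i n => Hol.an _ t (mem_ball_self hρ₂))
    (by
      have h1 : Q.coeff Q.natDegree ≠ 0 := by
        rw [Polynomial.coeff_natDegree]; exact Polynomial.leadingCoeff_ne_zero.2 hQ0
      have h2 : (Q.coeff Q.natDegree).coeff (Q.coeff Q.natDegree).natDegree ≠ 0 := by
        rw [Polynomial.coeff_natDegree]; exact Polynomial.leadingCoeff_ne_zero.2 h1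
      refine ⟨⟨Q.natDegree, Nat.lt_succ_self _⟩, ⟨(Q.coeff Q.natDegree).natDegree,
        Nat.lt_of_succ_le (hMle ⟨Q.natDegree, Nat.lt_succ_self _⟩)⟩, fun h3 => h2 ?_⟩
      exact Hol.eq_zero_of_eventually (bO_preconnected t ρ₂) _ ⟨t, mem_ball_self hρ₂⟩ h3)
    hrel
  rw [hut] at hR
  apply hR0
  rw [algebraicIndependent_iff] at hi
  apply hi
  apply hFar.inj
  rw [map_zero]
  refine Hol.eq_zero_of_eventually (bO_preconnected y r') _ ⟨y, hy⟩ ?_
  filter_upwards [hR, isOpen_ball.mem_nhds hy] with z hz hzb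
  have h1 := map_aeval2 ((evH (⟨z, hzb⟩ : bO y r')).comp ι) z0 g0 R (z := z) (w := gh z)
    (by rw [AlgHom.comp_apply, hιz]; rfl) (by
      change (ι g0 : bO y r' → ℂ) ⟨z, hzb⟩ = gh z
      exact hιg ⟨z, hzb⟩)
  rw [ext0_of_mem _ (show z ∈ bO y r' from hzb)]
  exact h1.trans hz

end

end Crest.Agent.R102.CT575
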