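import Crest.Agent.R102.EdgeDefs_255
import Crest.Agent.R102.LimA_985
import Crest.Agent.R102.ExitB_812
import Mathlib.Analysis.Complex.BorelCaratheodory

-- ▼ part R102/IntrShift_198
section

/-!
Row 102, T1-B, EDGE (helper198): transfer of `Edge255.Intr` (label margin and non degeneracy for
`y = ψ'`) between neighbouring windows.
-/

set_option autoImplicit false

open Set Filter Topology Metric Complex

noncomputable section

namespace Crest.Agent.R102.IntrShift198

open Crest.Agent.R102.Edge255 (Curve Intr z0)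
open Crest.Agent.R102.S5 (Half bl ray)
open Crest.Agent.R102.LimA985 (label_lim)

/-- the model product domain -/
def D0 (R : ℝ) : Set (ℂ × ℂ) :=
  {q | |q.1.re| < 2 * R ∧ -(2 * R) < q.1.im ∧ q.1.im < 0 ∧ ‖q.2‖ < 2 * R ∧ 0 < q.2.im}

theorem isOpen_D0 (R : ℝ) : IsOpen (D0 R) := by
  have h1 : IsOpen {q : ℂ × ℂ | |q.1.re| < 2 * R} :=
    isOpen_lt (by fun_prop) continuous_const
  have h2 : IsOpen {q : ℂ × ℂ | -(2 * R) < q.1.im} := isOpen_lt continuous_const (by fun_prop)
  have h3 : IsOpen {q : ℂ × ℂ | q.1.im < 0} := isOpen_lt (by fun_prop) continuous_const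
  have h4 : IsOpen {q : ℂ × ℂ | ‖q.2‖ < 2 * R} := isOpen_lt (by fun_prop) continuous_const
  have h5 : IsOpen {q : ℂ × ℂ | 0 < q.2.im} := isOpen_lt continuous_const (by fun_prop)
  exact h1.inter (h2.inter (h3.inter (h4.inter h5)))

theorem convex_D0 (R : ℝ) : Convex ℝ (D0 R) := by
  intro p hp q hq a b ha hb hab
  obtain ⟨p1, p2, p3, p4, p5⟩ := hp
  obtain ⟨q1, q2, q3, q4, q5⟩ := hq
  have e1 : (a • p + b • q).1.re = a * p.1.re + b * q.1.re := by simp
  have e2 : (a • p + b • q).1.im = a * p.1.im + b * q.1.im := by simp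
  have e3 : (a • p + b • q).2.im = a * p.2.im + b * q.2.im := by simp
  have e4 : (a • p + b • q).2 = a • p.2 + b • q.2 := rfl
  have hp1 := abs_lt.1 p1
  have hq1 := abs_lt.1 q1
  refine ⟨?_, ?_, ?_, ?_, ?_⟩
  · rw [e1, abs_lt]
    rcases eq_or_lt_of_le ha with h0 | h0
    · have hb1 : b = 1 := by linarith
      rw [← h0, hb1]
      constructor <;> linarith
    · constructor
      · nlinarith
      · nlinarith
  · rw [e2]
    rcases eq_or_lt_of_le ha with h0 | h0
    · have hb1 : b = 1 := by linarith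
      rw [← h0, hb1]
      linarith
    · nlinarith
  · rw [e2]
    rcases eq_or_lt_of_le ha with h0 | h0
    · have hb1 : b = 1 := by linarith
      rw [← h0, hb1]
      linarith
    · nlinarith
  · rw [e4]
    have h1 : ‖a • p.2 + b • q.2‖ ≤ a * ‖p.2‖ + b * ‖q.2‖ := by
      refine (norm_add_le _ _).trans ?_
      rw [norm_smul, norm_smul, Real.norm_eq_abs, Real.norm_eq_abs, abs_of_nonneg ha,
        abs_of_nonneg hb]
    refine lt_of_le_of_lt h1 ?_
    rcases eq_or_lt_of_le ha with h0 | h0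
    · have hb1 : b = 1 := by linarith
      rw [← h0, hb1]
      linarith
    · nlinarith
  · rw [e3]
    rcases eq_or_lt_of_le ha with h0 | h0
    · have hb1 : b = 1 := by linarith
      rw [← h0, hb1]
      linarith
    · nlinarith

/-- `ψ'` is `1`-periodic on the strip -/
theorem deriv_add_one {h : ℝ} {ψ H : ℂ → ℂ} (hC : Curve h ψ H) {z : ℂ} (hz : z ∈ T5.Str h) :
    deriv ψ (z + 1) = deriv ψ z := by
  have hopen : IsOpen (T5.Str h) := isOpen_lt (by fun_prop) continuous_const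
  have h1 : (fun w => ψ (w + 1)) =ᶠ[𝓝 z] fun w => ψ w + 2 * Real.pi := by
    filter_upwards [hopen.mem_nhds hz] with w hw using hC.ψ_per w hw
  have h2 := h1.deriv_eq
  rw [deriv_comp_add_const] at h2
  rw [h2, deriv_add_const]

theorem mem_Str_add {h : ℝ} {z : ℂ} (n : ℤ) (hz : z ∈ T5.Str h) : z + n ∈ T5.Str h := by
  change |(z + n).im| < h
  have : (z + n).im = z.im := by simp
  rw [this]
  exact hz

theorem deriv_add_int {h : ℝ} {ψ H : ℂ → ℂ} (hC : Curve h ψ H) (n : ℤ) :
    ∀ z ∈ T5.Str h, deriv ψ (z + n) = deriv ψ z := by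
  induction n using Int.induction_on with
  | zero => intro z _; simp
  | succ n ih =>
    intro z hz
    have h1 := deriv_add_one hC (mem_Str_add (n : ℤ) hz)
    have e : z + (((n : ℤ) + 1 : ℤ) : ℂ) = z + ((n : ℤ) : ℂ) + 1 := by push_cast; ring
    rw [e, h1, ih z hz]
  | pred n ih =>
    intro z hz
    have h1 := deriv_add_one hC (mem_Str_add (-(n : ℤ) - 1 : ℤ) hz)
    have e : z + ((-(n : ℤ) - 1 : ℤ) : ℂ) + 1 = z + ((-(n : ℤ) : ℤ) : ℂ) := by push_cast; ring
    rw [e] at h1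
    rw [← h1, ih z hz]

theorem bl_mem {e : ℝ × ℝ} {s R : ℝ} (hs : 0 < s) {q : ℂ × ℂ} (hq : q ∈ D0 R) :
    bl e s q ∈ Half e (2 * R * s) 0 := by
  obtain ⟨q1, q2, q3, q4, q5⟩ := hq
  have e1 : (bl e s q).1.re - e.1 = s * q.1.re := by simp [bl]
  have e2 : (bl e s q).1.im = s * q.1.im := by simp [bl]
  have e3 : (bl e s q).2 - (e.2 : ℂ) = s * q.2 := by simp [bl]
  have e4 : (bl e s q).2.im = s * q.2.im := by simp [bl]
  refine ⟨?_, ?_, ?_, ?_, ?_⟩
  · rw [e1, abs_mul, abs_of_pos hs]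
    nlinarith
  · rw [e2]
    nlinarith
  · rw [e3, norm_mul, Complex.norm_real, Real.norm_eq_abs, abs_of_pos hs]
    nlinarith
  · rw [e4]
    positivity
  · rw [e2, e4]
    nlinarith

theorem z0_ball {R : ℝ} {t1 t2 l : ℝ} (ht1 : |t1| ≤ R) (ht2 : |t2| ≤ R) (hl0 : 0 < l)
    (hl : l ≤ R) {q : ℂ × ℂ} (hq : q ∈ closedBall z0 (1 / 10)) :
    ((t1 : ℂ) + l * q.1, (t2 : ℂ) + l * q.2) ∈ D0 R := by
  rw [mem_closedBall, Prod.dist_eq, max_le_iff] at hq
  obtain ⟨h1, h2⟩ := hq
  rw [dist_eq_norm] at h1 h2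
  have a1 : |q.1.re| ≤ 1 / 10 := by
    have := (Complex.abs_re_le_norm (q.1 - z0.1)).trans h1
    simpa [z0] using this
  have a2 : |q.1.im + 1| ≤ 1 / 10 := by
    have := (Complex.abs_im_le_norm (q.1 - z0.1)).trans h1
    simpa [z0] using this
  have a3 : |q.2.im - 1 / 4| ≤ 1 / 10 := by
    have h3 := (Complex.abs_im_le_norm (q.2 - z0.2)).trans h2
    have e : (q.2 - z0.2).im = q.2.im - 1 / 4 := by
      have : (z0.2).im = 1 / 4 := by
        have : z0.2 = ((1 / 4 : ℝ) : ℂ) * I := by simp [z0]; ring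
        rw [this]; simp
      rw [Complex.sub_im, this]
    rwa [e] at h3
  have a4 : ‖q.2‖ ≤ 7 / 20 := by
    have h3 : ‖q.2‖ ≤ ‖q.2 - z0.2‖ + ‖z0.2‖ := by
      have := norm_add_le (q.2 - z0.2) z0.2
      rwa [sub_add_cancel] at this
    have h4 : ‖z0.2‖ = 1 / 4 := by simp [z0]
    linarith
  have b1 := abs_le.1 a1
  have b2 := abs_le.1 a2
  have b3 := abs_le.1 a3
  have c1 := abs_le.1 ht1
  have c2 := abs_le.1 ht2
  have e1 : ((t1 : ℂ) + l * q.1).re = t1 + l * q.1.re := by simp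
  have e2 : ((t1 : ℂ) + l * q.1).im = l * q.1.im := by simp
  have e3 : ((t2 : ℂ) + l * q.2).im = l * q.2.im := by simp
  refine ⟨?_, ?_, ?_, ?_, ?_⟩
  · simp only [e1]
    rw [abs_lt]
    constructor <;> nlinarith
  · simp only [e2]
    nlinarith
  · simp only [e2]
    nlinarith
  · simp only
    refine lt_of_le_of_lt (norm_add_le _ _) ?_
    rw [norm_mul, Complex.norm_real, Complex.norm_real, Real.norm_eq_abs, Real.norm_eq_abs,
      abs_of_pos hl0]
    nlinarith [norm_nonneg q.2]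
  · simp only [e3]
    nlinarith

/-- limits of functions along an ultrafilter in a compact set -/
theorem ulim {X : Type*} [TopologicalSpace X] {K : Set X} (hK : IsCompact K) (u : Ultrafilter ℕ)
    {f : ℕ → X} (hf : ∀ n, f n ∈ K) : ∃ a ∈ K, Tendsto f u (𝓝 a) := by
  obtain ⟨a, ha, hle⟩ := hK.ultrafilter_le_nhds (u.map f) (by
    rw [le_principal_iff]
    change f ⁻¹' K ∈ (u : Filter ℕ)
    exact Filter.univ_mem' hf)
  exact ⟨a, ha, hle⟩

/-- identity theorem on the convex model domain, along complex lines -/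
theorem zero_of_zero {R : ℝ} {g : ℂ × ℂ → ℂ} (hg : DifferentiableOn ℂ g (D0 R)) {p : ℂ × ℂ}
    (hp : p ∈ D0 R) (h0 : ∀ᶠ q in 𝓝 p, g q = 0) {q : ℂ × ℂ} (hq : q ∈ D0 R) : g q = 0 := by
  set L : ℂ → ℂ × ℂ := fun ζ => p + ζ • (q - p) with hL
  have hLd : Differentiable ℂ L := by
    intro ζ
    exact ((differentiable_const p).add (differentiable_id.smul_const (q - p))) ζ
  set S : Set ℂ := L ⁻¹' D0 R with hS
  have hSo : IsOpen S := (isOpen_D0 R).preimage hLd.continuous
  have hSc : Convex ℝ S := by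
    intro x hx y hy a b ha hb hab
    have e : L (a • x + b • y) = a • L x + b • L y := by
      simp only [hL]
      have : a • (p + x • (q - p)) + b • (p + y • (q - p)) =
          (a + b) • p + (a • x + b • y) • (q - p) := by
        rw [add_smul, add_smul]
        simp only [smul_add, smul_assoc]
        abel
      rw [this, hab, one_smul]
    change L (a • x + b • y) ∈ D0 R
    rw [e]
    exact convex_D0 R hx hy ha hb hab
  have hd : DifferentiableOn ℂ (fun ζ => g (L ζ)) S := hg.comp hLd.differentiableOn (fun ζ hζ => hζ)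
  have ha : AnalyticOnNhd ℂ (fun ζ => g (L ζ)) S := hd.analyticOnNhd hSo
  have hz : (0 : ℂ) ∈ S := by
    change L 0 ∈ D0 R
    simpa [hL] using hp
  have h1 : (1 : ℂ) ∈ S := by
    change L 1 ∈ D0 R
    simpa [hL] using hq
  have hev : ∀ᶠ ζ in 𝓝 (0 : ℂ), g (L ζ) = 0 := by
    have ht : Tendsto L (𝓝 0) (𝓝 p) := by
      have := hLd.continuous.tendsto 0
      simpa [hL] using this
    exact ht.eventually h0
  have := ha.eqOn_zero_of_preconnected_of_eventuallyEq_zero hSc.isPreconnected hz hev h1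
  simpa [hL] using this

/-- **TRANSFER OF `Intr`** -/
theorem intr_shift {h κ R : ℝ} {ψ H : ℂ → ℂ} (hC : Curve h ψ H) (hκ : 0 < κ) (hR : 1 ≤ R) :
    ∃ κ' > 0, ∀ (B : ℂ × ℂ → ℂ) (e e' : ℝ × ℝ) (s s' : ℝ), 0 < s → s / R ≤ s' → s' ≤ R * s →
      |e'.1 - e.1| ≤ R * s → |e'.2 - e.2| ≤ R * s →
      DifferentiableOn ℂ B (Half e (2 * R * s) 0) →
      (∀ q ∈ Half e (2 * R * s) 0, |(B q).im| < h) → Intr h κ ψ B e s →
      Intr h κ' ψ B e' s' := by
  by_contra hcon
  push Not at hcon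
  have hR0 : 0 < R := by linarith
  have hn : ∀ n : ℕ, (0 : ℝ) < 1 / ((n : ℝ) + 1) := fun n => by positivity
  choose B e e' s s' hs hs1 hs2 he1 he2 hBd hBi hI hI' using fun n => hcon _ (hn n)
  set u : Ultrafilter ℕ := hyperfilter ℕ with hu
  have hule : (u : Filter ℕ) ≤ atTop := Nat.hyperfilter_le_atTop
  -- the blow-ups
  set N : ℕ → ℤ := fun n => ⌊(B n (ray (e n) (s n))).re⌋ with hN
  set f : ℕ → ℂ × ℂ → ℂ := fun n q => B n (bl (e n) (s n) q) - N n with hf
  have hfim : ∀ n q, (f n q).im = (B n (bl (e n) (s n) q)).im := by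
    intro n q; simp [hf]
  have hfd : ∀ n, DifferentiableOn ℂ (f n) (D0 R) := by
    intro n
    have h1 : Differentiable ℂ (bl (e n) (s n)) := by
      unfold bl
      fun_prop
    exact ((hBd n).comp h1.differentiableOn (fun q hq => bl_mem (hs n) hq)).sub_const _
  have hfi : ∀ n, ∀ q ∈ D0 R, |(f n q).im| < h := by
    intro n q hq
    rw [hfim]
    exact hBi n _ (bl_mem (hs n) hq)
  have hz0 : z0 ∈ D0 R := by
    have := z0_ball (R := R) (t1 := 0) (t2 := 0) (l := 1) (by simp; linarith) (by simp; linarith)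
      one_pos hR (q := z0) (mem_closedBall_self (by norm_num))
    simpa using this
  obtain ⟨β, hβd, hβl, hβi⟩ := label_lim u (isOpen_D0 R) (convex_D0 R).isPreconnected
    (B := f) (h := h) (h' := h - κ) (R := 1) (by linarith)
    (fun x hx => by
      obtain ⟨r, hr, hrD⟩ := Metric.isOpen_iff.1 (isOpen_D0 R) x hx
      exact ⟨r, hr, hrD, Eventually.of_forall fun n =>
        ⟨(hfd n).mono hrD, fun y hy => (hfi n y (hrD hy)).le⟩⟩) hz0
    (Eventually.of_forall fun n => by
      refine ⟨?_, ?_⟩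
      · rw [hfim]
        exact (hI n).1
      · have e1 : (f n z0).re = Int.fract (B n (ray (e n) (s n))).re := by
          simp only [hf, hN, Complex.sub_re, Complex.intCast_re]
          rfl
        rw [e1, abs_of_nonneg (Int.fract_nonneg _)]
        exact (Int.fract_lt_one _).le)
  -- values of `ψ'`
  have hψd : DifferentiableOn ℂ (deriv ψ) (T5.Str h) := by
    have hopen : IsOpen (T5.Str h) := isOpen_lt (by fun_prop) continuous_const
    exact (hC.ψ_diff.analyticOnNhd hopen).deriv.differentiableOn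
  have hStr : IsOpen (T5.Str h) := isOpen_lt (by fun_prop) continuous_const
  have hψv : ∀ n, ∀ q ∈ D0 R, deriv ψ (B n (bl (e n) (s n) q)) = deriv ψ (f n q) := by
    intro n q hq
    have h1 := deriv_add_int hC (N n) (f n q) (hfi n q hq)
    rw [← h1]
    congr 1
    simp [hf]
  -- parameters
  set t1 : ℕ → ℝ := fun n => ((e' n).1 - (e n).1) / s n with ht1
  set t2 : ℕ → ℝ := fun n => ((e' n).2 - (e n).2) / s n with ht2
  set l : ℕ → ℝ := fun n => s' n / s n with hl
  have hb1 : ∀ n, t1 n ∈ Icc (-R) R := by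
    intro n
    have h1 := abs_le.1 (he1 n)
    have h2 := hs n
    simp only [ht1]
    constructor
    · rw [le_div_iff₀ h2]; linarith
    · rw [div_le_iff₀ h2]; linarith
  have hb2 : ∀ n, t2 n ∈ Icc (-R) R := by
    intro n
    have h1 := abs_le.1 (he2 n)
    have h2 := hs n
    simp only [ht2]
    constructor
    · rw [le_div_iff₀ h2]; linarith
    · rw [div_le_iff₀ h2]; linarith
  have hb3 : ∀ n, l n ∈ Icc (1 / R) R := by
    intro n
    have h2 := hs n
    simp only [hl]
    constructor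
    · rw [le_div_iff₀ h2]
      have := hs1 n
      calc 1 / R * s n = s n / R := by ring
        _ ≤ _ := this
    · rw [div_le_iff₀ h2]; exact hs2 n
  have hbl : ∀ n, ∀ q : ℂ × ℂ, bl (e' n) (s' n) q =
      bl (e n) (s n) ((t1 n : ℂ) + l n * q.1, (t2 n : ℂ) + l n * q.2) := by
    intro n q
    have h2 : (s n : ℂ) ≠ 0 := by exact_mod_cast (hs n).ne'
    unfold bl
    ext1
    · simp only [ht1, hl]
      push_cast
      field_simp
      ring
    · simp only [ht2, hl]
      push_cast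
      field_simp
      ring
  obtain ⟨T1, hT1, hT1l⟩ := ulim isCompact_Icc u hb1
  obtain ⟨T2, hT2, hT2l⟩ := ulim isCompact_Icc u hb2
  obtain ⟨Λ, hΛ, hΛl⟩ := ulim isCompact_Icc u hb3
  have hΛ0 : 0 < Λ := lt_of_lt_of_le (by positivity) hΛ.1
  -- the limit non degeneracy
  choose qn hqn hqκ using fun n => (hI n).2
  obtain ⟨qs, hqs, hqsl⟩ := ulim (isCompact_closedBall z0 (1 / 10)) u hqn
  have hself : ∀ q ∈ closedBall z0 (1 / 10), q ∈ D0 R := by
    intro q hq
    have := z0_ball (R := R) (t1 := 0) (t2 := 0) (l := 1) (by simp; linarith) (by simp; linarith)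
      one_pos hR (q := q) hq
    simpa using this
  have hpt : ∀ {g : ℕ → ℂ × ℂ} {x : ℂ × ℂ}, x ∈ D0 R → Tendsto g u (𝓝 x) →
      Tendsto (fun n => f n (g n)) u (𝓝 (β x)) := by
    intro g x hx hg
    refine hβl.tendsto_comp (hβd.continuousOn x hx) hx ?_
    rw [(isOpen_D0 R).nhdsWithin_eq hx]
    exact hg
  have hκs : κ ≤ ‖deriv ψ (β qs)‖ := by
    have h1 := hpt (hself qs hqs) hqsl
    have h2 : ContinuousAt (deriv ψ) (β qs) :=
      (hψd.differentiableAt (hStr.mem_nhds (hβi qs (hself qs hqs)))).continuousAt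
    have h3 : Tendsto (fun n => ‖deriv ψ (f n (qn n))‖) u (𝓝 ‖deriv ψ (β qs)‖) :=
      (h2.tendsto.comp h1).norm
    refine ge_of_tendsto h3 (Eventually.of_forall fun n => ?_)
    have h4 := hqκ n
    rwa [hψv n _ (hself _ (hqn n))] at h4
  have hmove : ∀ q ∈ closedBall z0 (1 / 10),
      ((T1 : ℂ) + Λ * q.1, (T2 : ℂ) + Λ * q.2) ∈ D0 R ∧
      Tendsto (fun n => f n ((t1 n : ℂ) + l n * q.1, (t2 n : ℂ) + l n * q.2)) u
        (𝓝 (β ((T1 : ℂ) + Λ * q.1, (T2 : ℂ) + Λ * q.2))) := by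
    intro q hq
    have hm := z0_ball (abs_le.2 hT1) (abs_le.2 hT2) hΛ0 hΛ.2 hq
    refine ⟨hm, hpt hm ?_⟩
    have a1 : Tendsto (fun n => (t1 n : ℂ)) u (𝓝 (T1 : ℂ)) :=
      (Complex.continuous_ofReal.tendsto _).comp hT1l
    have a2 : Tendsto (fun n => (t2 n : ℂ)) u (𝓝 (T2 : ℂ)) :=
      (Complex.continuous_ofReal.tendsto _).comp hT2l
    have a3 : Tendsto (fun n => (l n : ℂ)) u (𝓝 (Λ : ℂ)) :=
      (Complex.continuous_ofReal.tendsto _).comp hΛl
    exact (a1.add (a3.mul_const _)).prodMk_nhds (a2.add (a3.mul_const _))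
  have hmem : ∀ n, ∀ q ∈ closedBall z0 (1 / 10),
      ((t1 n : ℂ) + l n * q.1, (t2 n : ℂ) + l n * q.2) ∈ D0 R := by
    intro n q hq
    have h3 := hb3 n
    exact z0_ball (abs_le.2 (hb1 n)) (abs_le.2 (hb2 n)) (lt_of_lt_of_le (by positivity) h3.1)
      h3.2 hq
  have hz0b : z0 ∈ closedBall z0 (1 / 10) := mem_closedBall_self (by norm_num)
  have hone : Tendsto (fun n : ℕ => 1 / ((n : ℝ) + 1)) u (𝓝 0) :=
    tendsto_one_div_add_atTop_nhds_zero_nat.mono_left hule
  -- the alternative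
  have halt : ∀ᶠ n : ℕ in (u : Filter ℕ),
      (h - 1 / ((n : ℝ) + 1) < |(B n (ray (e' n) (s' n))).im|) ∨
      (∀ q ∈ closedBall z0 (1 / 10), ‖deriv ψ (B n (bl (e' n) (s' n) q))‖ < 1 / ((n : ℝ) + 1)) := by
    refine Eventually.of_forall fun n => ?_
    by_contra hc
    push Not at hc
    exact hI' n ⟨hc.1, hc.2⟩
  rcases Ultrafilter.eventually_or.1 halt with hA | hA
  · -- the label reaches the edge
    obtain ⟨hm, hl'⟩ := hmove z0 hz0b
    have h1 : Tendsto (fun n => |(f n ((t1 n : ℂ) + l n * z0.1, (t2 n : ℂ) + l n * z0.2)).im|) u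
        (𝓝 |(β ((T1 : ℂ) + Λ * z0.1, (T2 : ℂ) + Λ * z0.2)).im|) :=
      ((Complex.continuous_im.tendsto _).comp hl').abs
    have h2 : Tendsto (fun n : ℕ => h - 1 / ((n : ℝ) + 1)) u (𝓝 (h - 0)) :=
      tendsto_const_nhds.sub hone
    have h3 := le_of_tendsto_of_tendsto h2 h1 (hA.mono fun n hn => by
      change h - 1 / ((n : ℝ) + 1) ≤ |(f n ((t1 n : ℂ) + l n * z0.1, (t2 n : ℂ) + l n * z0.2)).im|
      rw [hfim, ← hbl]
      exact hn.le)
    have h4 := hβi _ hm
    linarith
  · -- `ψ'` vanishes identically on the limit label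
    have hz : ∀ q ∈ closedBall z0 (1 / 10),
        deriv ψ (β ((T1 : ℂ) + Λ * q.1, (T2 : ℂ) + Λ * q.2)) = 0 := by
      intro q hq
      obtain ⟨hm, hl'⟩ := hmove q hq
      have h2 : ContinuousAt (deriv ψ) (β ((T1 : ℂ) + Λ * q.1, (T2 : ℂ) + Λ * q.2)) :=
        (hψd.differentiableAt (hStr.mem_nhds (hβi _ hm))).continuousAt
      have h3 := (h2.tendsto.comp hl').norm
      have h4 : ‖deriv ψ (β ((T1 : ℂ) + Λ * q.1, (T2 : ℂ) + Λ * q.2))‖ ≤ 0 := by
        refine le_of_tendsto_of_tendsto h3 hone (hA.mono fun n hn => ?_)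
        have h5 := hn q hq
        rw [hbl, hψv n _ (hmem n q hq)] at h5
        exact h5.le
      exact norm_le_zero_iff.1 h4
    set g : ℂ × ℂ → ℂ := fun x => deriv ψ (β x) with hg
    have hgd : DifferentiableOn ℂ g (D0 R) := hψd.comp hβd (fun x hx => hβi x hx)
    have hp := (hmove z0 hz0b).1
    have hnear : ∀ᶠ x in 𝓝 ((T1 : ℂ) + Λ * z0.1, (T2 : ℂ) + Λ * z0.2), g x = 0 := by
      have hc : Continuous (fun x : ℂ × ℂ => ((x.1 - T1) / Λ, (x.2 - T2) / Λ)) := by fun_prop
      have hΛc : (Λ : ℂ) ≠ 0 := by exact_mod_cast hΛ0.ne'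
      have hv : (fun x : ℂ × ℂ => ((x.1 - T1) / Λ, (x.2 - T2) / Λ))
          ((T1 : ℂ) + Λ * z0.1, (T2 : ℂ) + Λ * z0.2) = z0 := by
        simp only [add_sub_cancel_left]
        ext1
        · simp only; field_simp
        · simp only; field_simp
      have ht := hc.tendsto' _ _ hv
      have hb : closedBall z0 (1 / 10) ∈ 𝓝 z0 := closedBall_mem_nhds _ (by norm_num)
      filter_upwards [ht hb] with x hx
      have h1 := hz _ hx
      simp only [hg]
      rw [← h1]
      congr 2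
      ext1
      · simp only; field_simp; ring
      · simp only; field_simp; ring
    have h0 := zero_of_zero hgd hp hnear (hself qs hqs)
    simp only [hg] at h0
    rw [h0, norm_zero] at hκs
    linarith

end Crest.Agent.R102.IntrShift198
end
end

-- ▼ part R102/IntrMove_802

/-!
Row 102, EDGE (helper802): **interior windows can be moved laterally** by a small real vector
(`intr_move`), uniformly: `Intr h κ` at `(e, s)` gives `Intr h κ'` at `(e', s)`, `|e - e'| ≤ τ s`.
-/

set_option autoImplicit false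

open Set Filter Topology Metric Complex

noncomputable section

namespace Crest.Agent.R102.IntrMove802

open Crest.Agent.R102.Edge255 Crest.Agent.R102.S5


/-- uniform continuity of a continuous periodic function on a closed strip -/
theorem unif_strip {h : ℝ} {y : ℂ → ℂ} (hy : ContinuousOn y (T5.Str h))
    (hper : ∀ z ∈ T5.Str h, y (z + 1) = y z) {h' : ℝ} (hh' : h' < h) {ε : ℝ} (hε : 0 < ε) :
    ∃ δ > 0, ∀ z w : ℂ, |z.im| ≤ h' → |w.im| ≤ h' → ‖z - w‖ ≤ δ → ‖y z - y w‖ ≤ ε := by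
  set K : Set ℂ := {z : ℂ | z.re ∈ Icc (-1 : ℝ) 2 ∧ z.im ∈ Icc (-h') h'} with hK
  have hKc : IsCompact K := by
    have : K = Complex.equivRealProdCLM.symm '' (Icc (-1 : ℝ) 2 ×ˢ Icc (-h') h') := by
      ext z
      simp only [hK, mem_ofPred_eq, mem_image, mem_prod]
      constructor
      · rintro ⟨h1, h2⟩
        exact ⟨(z.re, z.im), ⟨h1, h2⟩, by apply Complex.ext <;> simp⟩
      · rintro ⟨p, ⟨h1, h2⟩, rfl⟩
        simpa using ⟨h1, h2⟩
    rw [this]
    exact (isCompact_Icc.prod isCompact_Icc).image Complex.equivRealProdCLM.symm.continuous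
  have hKs : K ⊆ T5.Str h := by
    intro z hz
    change |z.im| < h
    exact lt_of_le_of_lt (abs_le.2 hz.2) hh'
  have huc := hKc.uniformContinuousOn_of_continuous (hy.mono hKs)
  rw [Metric.uniformContinuousOn_iff_le] at huc
  obtain ⟨δ, hδ, hd⟩ := huc ε hε
  refine ⟨min δ 1, lt_min hδ one_pos, fun z w hz hw hzw => ?_⟩
  have hz1 := abs_le.1 hz
  have hw1 := abs_le.1 hw
  have hperI : ∀ (n : ℤ) (x : ℂ), x ∈ T5.Str h → y (x + n) = y x := by
    intro n
    induction n using Int.induction_on with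
    | zero => intro x _; simp
    | succ k ih =>
      intro x hx
      have h1 : x + (k : ℤ) ∈ T5.Str h := by
        change |(x + (k : ℤ)).im| < h
        have h0 : |x.im| < h := hx
        simpa using h0
      have h2 := hper _ h1
      rw [ih x hx] at h2
      rw [← h2]; congr 1; push_cast; ring
    | pred k ih =>
      intro x hx
      have h1 : x + ((-(k : ℤ) - 1 : ℤ) : ℂ) ∈ T5.Str h := by
        change |(x + ((-(k : ℤ) - 1 : ℤ) : ℂ)).im| < h
        have : (x + ((-(k : ℤ) - 1 : ℤ) : ℂ)).im = x.im := by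
          rw [Complex.add_im, Complex.intCast_im, add_zero]
        rw [this]; exact hx
      have h2 := hper _ h1
      rw [← h2, ← ih x hx]; congr 1; push_cast; ring
  set n : ℤ := -⌊z.re⌋ with hn
  have hzs : z ∈ T5.Str h := lt_of_le_of_lt hz hh'
  have hws : w ∈ T5.Str h := lt_of_le_of_lt hw hh'
  rw [← hperI n z hzs, ← hperI n w hws, ← dist_eq_norm]
  have hf1 := Int.floor_le z.re
  have hf2 := Int.lt_floor_add_one z.re
  have hre : |z.re - w.re| ≤ 1 := by
    have h1 := Complex.abs_re_le_norm (z - w)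
    rw [Complex.sub_re] at h1
    exact h1.trans (hzw.trans (min_le_right _ _))
  have hre' := abs_le.1 hre
  refine hd _ ⟨⟨?_, ?_⟩, ?_⟩ _ ⟨⟨?_, ?_⟩, ?_⟩ ?_
  · simp [hn]; linarith
  · simp [hn]; linarith
  · simpa using ⟨hz1.1, hz1.2⟩
  · simp [hn]; linarith
  · simp [hn]; linarith
  · simpa using ⟨hw1.1, hw1.2⟩
  · rw [dist_eq_norm]
    have : z + n - (w + n) = z - w := by ring
    rw [this]
    exact hzw.trans (min_le_left _ _)


end Crest.Agent.R102.IntrMove802
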