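import Crest.Agent.R102.SlowS_486
import Crest.Agent.R102.EdgeDefs_255
import Crest.Agent.R102.Chain_859
import Crest.Agent.R102.MarcSum_292

-- ▼ part R102/SlowR_486
section

/-! Row 102, EDGE / SLOW (helper486): the root column of `stay`. -/

set_option autoImplicit false

open Set Filter Topology Metric Complex

noncomputable section

namespace Crest.Agent.R102.SlowR

open Crest.Agent.R102.S5 (ray bl Half)
open Crest.Agent.R102.TreeS174 (KD)
open Crest.Agent.R102.Edge255 (z0 SlowAt Wg)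
open Crest.Agent.R102.SlowS

/-- ray points of the neighbouring windows in the big compact -/
theorem ray_mem_KD {K₀ : ℝ} (hK : 1 ≤ K₀) {p p0 : ℝ × ℝ} {s s1 : ℝ} (hs1 : 0 < s1)
    (hs : s1 / K₀ ≤ s) (hs' : s ≤ s1) (h : dist p p0 ≤ s1) :
    ray p s ∈ KD (8 * K₀) p0.1 p0.2 s1 := by
  have hK0 : 0 < K₀ := by linarith
  rw [div_le_iff₀ hK0] at hs
  rw [Prod.dist_eq, Real.dist_eq, Real.dist_eq] at h
  have h1 : |p.1 - p0.1| ≤ s1 := (le_max_left _ _).trans h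
  have h2 : |p.2 - p0.2| ≤ s1 := (le_max_right _ _).trans h
  have hs0 : 0 ≤ s := by nlinarith
  have h3 := TreeS174.ray_2norm p.1 p0.2 p.2 hs0
  have h4 : s1 ≤ K₀ * s1 := by nlinarith
  refine ⟨?_, ?_, ?_, ?_, ?_⟩
  · rw [show p = (p.1, p.2) from rfl, TreeS174.ray_1re]; linarith
  · exact h3.trans (by linarith)
  · rw [show p = (p.1, p.2) from rfl, TreeS174.ray_1im]; linarith
  · rw [show p = (p.1, p.2) from rfl, TreeS174.ray_1im]; linarith
  · rw [show p = (p.1, p.2) from rfl, TreeS174.ray_2im]; linarith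

/-- **root column and its lateral neighbours** -/
theorem slow_root {K₀ ε : ℝ} (hK₀ : 1 ≤ K₀) (hε : ε ≤ 1 / 4) {K K' : Set (ℂ × ℂ)}
    (hK : kd (8 * K₀) ⊆ K) {ψ : ℂ → ℂ} {φ P B : ℂ × ℂ → ℂ} {p0 : ℝ × ℝ} {s1 : ℝ} (hs1 : 0 < s1)
    (hφ : ContinuousOn φ (KD (8 * K₀) p0.1 p0.2 s1))
    (h : SlowAt ε K K' ψ (fun q => φ (bl p0 s1 q)) (fun q => P (bl p0 s1 q))
      (fun q => B (bl p0 s1 q))) {p : ℝ × ℝ} {s : ℝ} (hs : s1 / K₀ ≤ s) (hs' : s ≤ s1)
    (hp : dist p p0 ≤ s1) : ‖φ (ray p s) - φ (ray p0 s1)‖ ≤ 2 * ε := by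
  have h1 := slow_osc (A := 8 * K₀) (by linarith) (by linarith) hK hs1 hφ h
  have h2 : SlowE.oe (8 * K₀) φ p0 s1 < 1 := by linarith
  exact (SlowE.le_oe h2 (ray_mem_KD hK₀ hs1 hs hs' hp)).trans h1

end Crest.Agent.R102.SlowR
end
end

-- ▼ part R102/SlowJ1_486
section

/-! Row 102, EDGE / SLOW, S-JOIN (helper486): J1, the last line: labels over `(x, u)` which stay
interior for all `x` near `x0` contradict the edge limits. -/

set_option autoImplicit false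

open Set Filter Topology Metric MeasureTheory Complex

noncomputable section

namespace Crest.Agent.R102.SlowJ1

open Crest.Agent.R102.S5 (Half bl ray Cn)
open Crest.Agent.R102.Edge255

lemma ray_fst (e : ℝ × ℝ) (s : ℝ) : (ray e s).1 = (e.1 : ℂ) + s * (-I) := rfl
lemma ray_snd (e : ℝ × ℝ) (s : ℝ) : (ray e s).2 = (e.2 : ℂ) + s * (I / 4) := rfl


lemma ray_im1 (e : ℝ × ℝ) (s : ℝ) : (ray e s).1.im = -s := by simp [ray_fst]
lemma ray_im2 (e : ℝ × ℝ) (s : ℝ) : (ray e s).2.im = s / 4 := by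
  have h : (ray e s).2 = (e.2 : ℂ) + ((s / 4 : ℝ) : ℂ) * I := by
    rw [ray_snd]; push_cast; ring
  rw [h]; simp

lemma ray_mem_Cn (e : ℝ × ℝ) {s : ℝ} (hs : 0 < s) : ray e s ∈ Cn e 4 := by
  refine ⟨?_, ?_, ?_⟩
  · rw [ray_im1]; linarith
  · rw [ray_im1, ray_im2]; linarith
  · have h : (ray e s).1.re = e.1 := by simp [ray_fst]
    have h2 : ‖(ray e s).2 - (e.2 : ℂ)‖ = s / 4 := by
      rw [ray_snd, add_sub_cancel_left, norm_mul, norm_div, Complex.norm_I, Complex.norm_real,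
        Real.norm_eq_abs, abs_of_pos hs]
      norm_num
      ring
    rw [h, ray_im1, h2]
    simp
    linarith

lemma tendsto_ray (e : ℝ × ℝ) :
    Tendsto (ray e) (𝓝[>] 0) (𝓝[Cn e 4] ((e.1 : ℂ), (e.2 : ℂ))) := by
  refine tendsto_nhdsWithin_iff.2 ⟨?_, ?_⟩
  · have h : Continuous (ray e) := by unfold ray bl; fun_prop
    have h2 := h.tendsto 0
    have h3 : ray e 0 = ((e.1 : ℂ), (e.2 : ℂ)) := by simp [ray, bl]
    rw [h3] at h2
    exact h2.mono_left nhdsWithin_le_nhds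
  · filter_upwards [self_mem_nhdsWithin] with s hs
    exact ray_mem_Cn e hs

/-- **J1** -/
theorem not_lims {h κ s1 x0 s₀ u δ : ℝ} {B : ℂ × ℂ → ℂ}
    (hlim : ∀ᵐ x : ℝ, |x - s₀| < δ → ∃ b : ℂ, |b.im| = h ∧
      ∀ M : ℝ, Tendsto B (𝓝[Cn (x, u) M] ((x : ℂ), (u : ℂ))) (𝓝 b))
    (hx0 : |x0 - s₀| < δ) (hs1 : 0 < s1) (hκ : 0 < κ)
    (H : ∀ x : ℝ, |x - x0| < s1 → ∀ᶠ s : ℝ in 𝓝[>] 0, |(B (ray (x, u) s)).im| ≤ h - κ) :
    False := by
  have hpos : 0 < volume (ball x0 (min s1 (δ - |x0 - s₀|))) := by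
    rw [Real.volume_ball]
    have : 0 < min s1 (δ - |x0 - s₀|) := lt_min hs1 (by linarith)
    positivity
  obtain ⟨x, hx, hxP⟩ : ∃ x ∈ ball x0 (min s1 (δ - |x0 - s₀|)), |x - s₀| < δ →
      ∃ b : ℂ, |b.im| = h ∧
      ∀ M : ℝ, Tendsto B (𝓝[Cn (x, u) M] ((x : ℂ), (u : ℂ))) (𝓝 b) := by
    by_contra hc
    push Not at hc
    have : volume (ball x0 (min s1 (δ - |x0 - s₀|))) = 0 := by
      refine measure_mono_null ?_ hlim
      intro x hx
      simp only [mem_compl_iff, mem_ofPred_eq]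
      intro h1
      obtain ⟨h2, h3⟩ := hc x hx
      obtain ⟨b, hb, hb2⟩ := h1 h2
      obtain ⟨M, hM⟩ := h3 b hb
      exact hM (hb2 M)
    exact hpos.ne' this
  rw [mem_ball, Real.dist_eq, lt_min_iff] at hx
  have hxs : |x - s₀| < δ := by
    calc |x - s₀| = |(x - x0) + (x0 - s₀)| := by ring_nf
      _ ≤ |x - x0| + |x0 - s₀| := abs_add_le _ _
      _ < δ := by linarith [hx.2]
  obtain ⟨b, hb, hT⟩ := hxP hxs
  have h1 : Tendsto (fun s : ℝ => |(B (ray (x, u) s)).im|) (𝓝[>] 0) (𝓝 |b.im|) :=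
    (continuous_abs.comp Complex.continuous_im).continuousAt.tendsto.comp
      ((hT 4).comp (tendsto_ray (x, u)))
  have h2 : |b.im| ≤ h - κ := le_of_tendsto h1 (H x hx.1)
  linarith

end Crest.Agent.R102.SlowJ1
end
end

-- ▼ part R102/Stay_859
section

/-!
# R102/Stay_859: chain + Marcinkiewicz sum: the labels stay (slow label regime)
-/

open Set Metric MeasureTheory

namespace Crest.Agent.R102.Chain859

/-- what the chain says at a window over `u`, in the form of the kernel sum -/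
def Alt (C : Set ℝ) (th κ s1 u s x : ℝ) : Prop :=
  ∃ r y : ℝ, s ≤ r ∧ |y - u| ≤ r ∧
    x ≤ (4 * s / s1) ^ th + κ⁻¹ ^ 2 * ((s / r) ^ th * (infDist y C / r) ^ 2)

lemma geo_sum {q : ℝ} (hq0 : 0 ≤ q) (hq1 : q < 1) (N : ℕ) :
    ∑ i ∈ Finset.range N, q ^ i ≤ 1 / (1 - q) := by
  have h := geom_sum_mul_neg q N
  have h1 : 0 < 1 - q := by linarith
  rw [le_div_iff₀ h1, h]
  have : 0 ≤ q ^ N := by positivity
  linarith

/-- **END**: the sum of the alternatives -/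
lemma sum_alt {th κ : ℝ} (hth : 0 < th) :
    ∃ M : ℝ, 0 < M ∧ ∀ (C : Set ℝ) (u δ r1 s0 s1 : ℝ) (e : ℝ → ℝ), u ∈ closure C → 0 < r1 →
      0 ≤ δ → 0 < s0 → 0 < s1 → s1 ≤ r1 →
      ∫⁻ t in Ioo (-r1) r1, ENNReal.ofReal (infDist (u + t) C / t ^ 2) ≤ ENNReal.ofReal δ →
      ∀ N : ℕ, (∀ i < N, Alt C th κ s1 u (s0 / 2 ^ i) (e (s0 / 2 ^ i))) →
      ∑ i ∈ Finset.range N, e (s0 / 2 ^ i) ≤ M * (δ + (s0 / s1) ^ th) := by
  obtain ⟨C0, hC0, H⟩ := MarcSum292.kernel_sum hth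
  set q : ℝ := (1 / 2 : ℝ) ^ th with hq
  have hq0 : 0 < q := by rw [hq]; positivity
  have hq1 : q < 1 := Real.rpow_lt_one (by norm_num) (by norm_num) hth
  have hq2 : 0 < 1 - q := by linarith
  refine ⟨4 ^ th * (1 / (1 - q)) + κ⁻¹ ^ 2 * C0, by positivity, ?_⟩
  intro C u δ r1 s0 s1 e hu hr1 hδ hs0 hs1 hsr hint N hN
  have hch : ∀ i : ℕ, ∃ r y : ℝ, s0 / 2 ^ i ≤ r ∧ |y - u| ≤ r ∧ (i < N →
      e (s0 / 2 ^ i) ≤ (4 * (s0 / 2 ^ i) / s1) ^ th +
        κ⁻¹ ^ 2 * (((s0 / 2 ^ i) / r) ^ th * (infDist y C / r) ^ 2)) := by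
    intro i
    by_cases hi : i < N
    · obtain ⟨r, y, h1, h2, h3⟩ := hN i hi
      exact ⟨r, y, h1, h2, fun _ => h3⟩
    · refine ⟨s0 / 2 ^ i, u, le_rfl, ?_, fun h => absurd h hi⟩
      rw [sub_self, abs_zero]; positivity
  choose r y h1 h2 h3 using hch
  have hK := H C u δ r1 s0 hu hr1 hδ hs0 hint N r y h1 h2
  have hterm : ∀ i ∈ Finset.range N, e (s0 / 2 ^ i) ≤
      4 ^ th * (s0 / s1) ^ th * q ^ i +
        κ⁻¹ ^ 2 * (((s0 / 2 ^ i) / r i) ^ th * (infDist (y i) C / r i) ^ 2) := by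
    intro i hi
    have h4 := h3 i (Finset.mem_range.1 hi)
    have h5 : (4 * (s0 / 2 ^ i) / s1) ^ th = 4 ^ th * (s0 / s1) ^ th * q ^ i := by
      have : 4 * (s0 / 2 ^ i) / s1 = 4 * (s0 / s1) * (1 / 2) ^ i := by
        rw [one_div, inv_pow]; field_simp
      rw [this, Real.mul_rpow (by positivity) (by positivity),
        Real.mul_rpow (by norm_num) (by positivity), hq, ← Real.rpow_natCast,
        ← Real.rpow_mul (by norm_num), mul_comm (i : ℝ), Real.rpow_mul (by norm_num),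
        Real.rpow_natCast]
    rw [h5] at h4
    exact h4
  have hle : (s0 / r1) ^ th ≤ (s0 / s1) ^ th := by
    apply Real.rpow_le_rpow (by positivity) _ hth.le
    gcongr
  have hg := geo_sum hq0.le hq1 N
  have h00 : 0 ≤ (s0 / s1) ^ th := by positivity
  calc ∑ i ∈ Finset.range N, e (s0 / 2 ^ i)
      ≤ ∑ i ∈ Finset.range N, (4 ^ th * (s0 / s1) ^ th * q ^ i +
        κ⁻¹ ^ 2 * (((s0 / 2 ^ i) / r i) ^ th * (infDist (y i) C / r i) ^ 2)) :=
        Finset.sum_le_sum hterm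
    _ = 4 ^ th * (s0 / s1) ^ th * ∑ i ∈ Finset.range N, q ^ i +
        κ⁻¹ ^ 2 * ∑ i ∈ Finset.range N, ((s0 / 2 ^ i) / r i) ^ th * (infDist (y i) C / r i) ^ 2 := by
        rw [Finset.sum_add_distrib, Finset.mul_sum, Finset.mul_sum]
    _ ≤ 4 ^ th * (s0 / s1) ^ th * (1 / (1 - q)) + κ⁻¹ ^ 2 * (C0 * (δ + (s0 / r1) ^ th)) := by
        gcongr
    _ ≤ 4 ^ th * (s0 / s1) ^ th * (1 / (1 - q)) + κ⁻¹ ^ 2 * (C0 * (δ + (s0 / s1) ^ th)) := by
        gcongr
    _ ≤ (4 ^ th * (1 / (1 - q)) + κ⁻¹ ^ 2 * C0) * (δ + (s0 / s1) ^ th) := by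
        have : 0 ≤ 4 ^ th * (1 / (1 - q)) * δ := by positivity
        nlinarith

/-- **(CHAIN) + (END).** -/
theorem stay {E : Type*} [NormedAddCommGroup E] {th Cl k κ : ℝ} (hth : 0 < th) (hth1 : th < 1)
    (hCl : 0 ≤ Cl) (hk : 0 < k) (hκ : 0 < κ) :
    ∃ K : ℝ, 4 ≤ K ∧ ∃ δ : ℝ, 0 < δ ∧ ∀ (C : Set ℝ) (e : ℝ × ℝ → ℝ → ℝ) (b : ℝ × ℝ → ℝ → E)
      (b0 : E) (A ε s1 r1 : ℝ) (p0 : ℝ × ℝ), 16 ≤ A → 32 * Cl * ε ≤ k → ε < 1 → 0 < s1 → s1 ≤ r1 →
      (∀ p s, 0 ≤ e p s ∧ e p s ≤ 1) →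
      (∀ p s, V b b0 s1 p0 k p s → infDist p.2 C ≤ κ * s → e p s ≤ ε) →
      (∀ p s s', V b b0 s1 p0 k p s → infDist p.2 C ≤ κ * s → s / 2 ≤ s' → s' ≤ s →
        ‖b p s - b p s'‖ ≤ Cl * e p s) →
      (∀ p p' s, V b b0 s1 p0 k p s → infDist p.2 C ≤ κ * s → dist p p' ≤ s →
        ‖b p s - b p' s‖ ≤ Cl * (dist p p' / s) * e p s) →
      (∀ p s, V b b0 s1 p0 (3 * k / 4) p s → infDist p.2 C ≤ κ * s → dist p p0 ≤ s1 / 2 →
        (s / s1) ^ th ≤ e p s →
        ∃ p' s', V b b0 s1 p0 k p' s' ∧ A * e p s < rho th p s p' s' * e p' s') →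
      p0.2 ∈ closure C →
      ∫⁻ t in Ioo (-r1) r1, ENNReal.ofReal (infDist (p0.2 + t) C / t ^ 2) ≤ ENNReal.ofReal δ →
      (∀ s, s1 / K ≤ s → s ≤ s1 → ‖b p0 s - b0‖ ≤ k / 16) →
      ∀ x, |x - p0.1| ≤ s1 / K → ∀ s, 0 < s → s ≤ s1 → ‖b (x, p0.2) s - b0‖ ≤ k / 2 := by
  obtain ⟨M, hM, HM⟩ := sum_alt (κ := κ) hth
  -- the constants
  obtain ⟨δ, hδ, hδM⟩ : ∃ δ : ℝ, 0 < δ ∧ Cl * (M * δ) ≤ k / 8 := by
    refine ⟨k / (8 * (Cl + 1) * M), by positivity, ?_⟩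
    rw [show Cl * (M * (k / (8 * (Cl + 1) * M))) = (Cl / (Cl + 1)) * (k / 8) by field_simp]
    have : Cl / (Cl + 1) ≤ 1 := by rw [div_le_one (by positivity)]; linarith
    nlinarith
  obtain ⟨K, hK4, hKM⟩ : ∃ K : ℝ, 4 ≤ K ∧ (1 / K) ^ th ≤ δ := by
    refine ⟨max 4 (1 / δ ^ (1 / th)), le_max_left _ _, ?_⟩
    have h1 : 0 < δ ^ (1 / th) := by positivity
    have h2 : 1 / max 4 (1 / δ ^ (1 / th)) ≤ δ ^ (1 / th) := by
      rw [div_le_iff₀ (by positivity)]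
      calc (1 : ℝ) = δ ^ (1 / th) * (1 / δ ^ (1 / th)) := by field_simp
        _ ≤ _ := by
          gcongr
          exact le_max_right _ _
    calc (1 / max 4 (1 / δ ^ (1 / th))) ^ th ≤ (δ ^ (1 / th)) ^ th :=
          Real.rpow_le_rpow (by positivity) h2 hth.le
      _ = δ := by
          rw [← Real.rpow_mul hδ.le, one_div_mul_cancel hth.ne', Real.rpow_one]
  refine ⟨K, hK4, δ, hδ, ?_⟩
  intro C e b b0 A ε s1 r1 p0 hA hε hε1 hs1 hsr he hsmall hvert hlat hrec hu hint hroot x hx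
  have hK0 : 0 < K := by linarith
  set s0 : ℝ := s1 / K with hs0def
  have hs0 : 0 < s0 := by positivity
  have hs0' : s0 ≤ s1 / 4 := by rw [hs0def]; gcongr
  set p : ℝ × ℝ := (x, p0.2) with hp
  have hCn : C.Nonempty := closure_nonempty_iff.1 ⟨_, hu⟩
  have hinf0 : infDist p0.2 C = 0 := (mem_closure_iff_infDist_zero hCn).1 hu
  have hdist : dist p p0 ≤ s0 := by
    rw [Prod.dist_eq]
    refine max_le ?_ ?_
    · rw [Real.dist_eq]; exact hx
    · rw [dist_self]; exact hs0.le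
  have hng : ∀ s, 0 < s → infDist p.2 C ≤ κ * s := by
    intro s hs
    show infDist p0.2 C ≤ κ * s
    rw [hinf0]; positivity
  -- start
  have hCε : Cl * ε ≤ k / 32 := by linarith
  have start : ∀ s, s0 ≤ s → s ≤ s1 → ‖b p s - b0‖ ≤ k / 8 := by
    intro s h1 h2
    have hs : 0 < s := lt_of_lt_of_le hs0 h1
    have hV : V b b0 s1 p0 k p0 s := by
      refine ⟨hs, h2, by rw [dist_self]; exact hs1.le, ?_⟩
      intro s' h3 h4
      exact (hroot s' (h1.trans h3) h4).trans (by linarith)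
    have hg0 : infDist p0.2 C ≤ κ * s := by rw [hinf0]; positivity
    have h3 := hlat p0 p s hV hg0 (by rw [dist_comm]; exact hdist.trans h1)
    have h4 := hsmall p0 s hV hg0
    have h5 : dist p0 p / s ≤ 1 := by
      rw [div_le_one hs, dist_comm]; exact hdist.trans h1
    have h6 : ‖b p0 s - b p s‖ ≤ Cl * ε := by
      calc ‖b p0 s - b p s‖ ≤ Cl * (dist p0 p / s) * e p0 s := h3
        _ ≤ Cl * 1 * ε := by
            have := (he p0 s).1
            have h7 : 0 ≤ dist p0 p / s := by positivity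
            gcongr
        _ = Cl * ε := by ring
    have h7 : ‖b p s - b0‖ ≤ ‖b p s - b p0 s‖ + ‖b p0 s - b0‖ := norm_sub_le_norm_sub_add_norm_sub _ _ _
    rw [norm_sub_rev] at h6
    have := hroot s h1 h2
    linarith
  -- alternative at a window
  have alt : ∀ s, 0 < s → s ≤ s0 → V b b0 s1 p0 (k / 2) p s →
      Alt C th κ s1 p0.2 s (e p s) := by
    intro s hs hss hV
    have hes := he p s
    rcases hes.1.eq_or_lt with h0 | h0
    · refine ⟨s, p0.2, le_rfl, by rw [sub_self, abs_zero]; exact hs.le, ?_⟩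
      rw [← h0]
      positivity
    obtain ⟨n, hn⟩ := pow_unbounded_of_one_lt (1 / e p s) (show (1 : ℝ) < 2 by norm_num)
    rw [div_lt_iff₀ h0] at hn
    have hCe : 0 ≤ Cl * e p s := mul_nonneg hCl hes.1
    have := chain hth hth1 hCl hκ hA hε hε1 he hsmall hvert hlat hrec n p s
      (V_up hV (by linarith) le_rfl hV.2.1) (V_up hV (by linarith) le_rfl hV.2.1) (hng s hs)
      (hdist.trans (by linarith)) hn.le
    rcases this with h | ⟨p', s', hV', ht, h⟩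
    · refine ⟨s, p0.2, le_rfl, by rw [sub_self, abs_zero]; exact hs.le, ?_⟩
      have h1 : (s / s1) ^ th ≤ (4 * s / s1) ^ th := by
        apply Real.rpow_le_rpow (by positivity) _ hth.le
        gcongr
        linarith
      have h2 : 0 ≤ κ⁻¹ ^ 2 * ((s / s) ^ th * (infDist p0.2 C / s) ^ 2) := by positivity
      linarith
    · have hs' := hV'.1
      rcases ht with hgap | hfar
      · refine ⟨rr p s p' s', p'.2, le_rr_left _ _ _ _, ?_, ?_⟩
        · have h1 := dist_le_rr p s p' s'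
          have h2 : |p'.2 - p0.2| ≤ dist p p' := by
            rw [Prod.dist_eq]
            refine le_trans ?_ (le_max_right _ _)
            rw [dist_comm, Real.dist_eq]
          exact h2.trans h1
        · have hr : 0 < rr p s p' s' := rr_pos _ _ hs
          have h1 : s' ≤ κ⁻¹ * infDist p'.2 C := by
            rw [inv_mul_eq_div, le_div_iff₀ hκ, mul_comm]; exact hgap.le
          have h2 : (s' / rr p s p' s') ^ 2 ≤ κ⁻¹ ^ 2 * (infDist p'.2 C / rr p s p' s') ^ 2 := by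
            rw [← mul_pow]
            apply pow_le_pow_left₀ (by positivity)
            rw [← mul_div_assoc]
            gcongr
          have h3 : 0 ≤ (4 * s / s1) ^ th := by positivity
          calc e p s ≤ rho th p s p' s' := h
            _ = (s / rr p s p' s') ^ th * (s' / rr p s p' s') ^ 2 := rfl
            _ ≤ (s / rr p s p' s') ^ th * (κ⁻¹ ^ 2 * (infDist p'.2 C / rr p s p' s') ^ 2) := by
                gcongr
            _ ≤ _ := by
                have h4 : (s / rr p s p' s') ^ th * (κ⁻¹ ^ 2 * (infDist p'.2 C / rr p s p' s') ^ 2)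
                  = κ⁻¹ ^ 2 * ((s / rr p s p' s') ^ th * (infDist p'.2 C / rr p s p' s') ^ 2) := by
                  ring
                linarith
      · refine ⟨s, p0.2, le_rfl, by rw [sub_self, abs_zero]; exact hs.le, ?_⟩
        have hr : 0 < rr p s p' s' := rr_pos _ _ hs
        have h1 : s1 / 4 ≤ rr p s p' s' := by
          have h2 := dist_le_rr p s p' s'
          have h3 : dist p' p0 ≤ dist p p' + dist p p0 := by
            calc dist p' p0 ≤ dist p' p + dist p p0 := dist_triangle _ _ _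
              _ = _ := by rw [dist_comm p' p]
          linarith
        have h2 := (h.trans (rho_le hth.le hs hs'))
        have h3 : (s / rr p s p' s') ^ th ≤ (4 * s / s1) ^ th := by
          apply Real.rpow_le_rpow (by positivity) _ hth.le
          rw [div_le_div_iff₀ hr hs1]
          nlinarith
        have h4 : 0 ≤ κ⁻¹ ^ 2 * ((s / s) ^ th * (infDist p0.2 C / s) ^ 2) := by positivity
        linarith
  -- induction
  have hratio : (s0 / s1) ^ th ≤ δ := by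
    rw [show s0 / s1 = 1 / K by rw [hs0def]; field_simp]
    exact hKM
  have main : ∀ N : ℕ, (∀ i < N, Alt C th κ s1 p0.2 (s0 / 2 ^ i) (e p (s0 / 2 ^ i))) ∧
      ∀ s, s0 / 2 ^ N ≤ s → s ≤ s1 →
        ‖b p s - b0‖ ≤ k / 8 + Cl * ∑ i ∈ Finset.range N, e p (s0 / 2 ^ i) := by
    intro N
    induction N with
    | zero =>
      refine ⟨fun i hi => absurd hi (Nat.not_lt_zero _), ?_⟩
      intro s h1 h2
      rw [pow_zero, div_one] at h1
      simpa using start s h1 h2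
    | succ N ih =>
      obtain ⟨ih1, ih2⟩ := ih
      have hsum := HM C p0.2 δ r1 s0 s1 (fun t => e p t) hu (lt_of_lt_of_le hs1 hsr) hδ.le hs0 hs1
        hsr hint N ih1
      have hsum2 : Cl * ∑ i ∈ Finset.range N, e p (s0 / 2 ^ i) ≤ k / 4 := by
        calc Cl * ∑ i ∈ Finset.range N, e p (s0 / 2 ^ i)
            ≤ Cl * (M * (δ + (s0 / s1) ^ th)) := by gcongr
          _ ≤ Cl * (M * (δ + δ)) := by gcongr
          _ ≤ k / 4 := by linarith
      set sN := s0 / 2 ^ N with hsN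
      have hsN0 : 0 < sN := by positivity
      have hsN1 : sN ≤ s0 := by
        rw [hsN]
        exact div_le_self hs0.le (one_le_pow₀ (by norm_num))
      have hVN : V b b0 s1 p0 (k / 2) p sN := by
        refine ⟨hsN0, by linarith, hdist.trans (by linarith), ?_⟩
        intro s' h1 h2
        have := ih2 s' h1 h2
        linarith
      have haltN := alt sN hsN0 hsN1 hVN
      refine ⟨?_, ?_⟩
      · intro i hi
        rcases Nat.lt_succ_iff_lt_or_eq.1 hi with h | h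
        · exact ih1 i h
        · rw [h]; exact haltN
      · intro s h1 h2
        have heN := (he p sN).1
        rw [Finset.sum_range_succ, mul_add]
        have hCeN : 0 ≤ Cl * e p sN := mul_nonneg hCl heN
        rcases le_total sN s with h | h
        · have := ih2 s h h2
          linarith
        · have h3 := ih2 sN le_rfl (by linarith)
          have h4 := hvert p sN s (V_up hVN (by linarith) le_rfl hVN.2.1) (hng sN hsN0)
            (by rw [hsN, div_div, ← pow_succ]; exact h1) h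
          have h5 : ‖b p s - b0‖ ≤ ‖b p s - b p sN‖ + ‖b p sN - b0‖ :=
            norm_sub_le_norm_sub_add_norm_sub _ _ _
          rw [norm_sub_rev] at h4
          linarith
  intro s hs hs'
  obtain ⟨N, hN⟩ := pow_unbounded_of_one_lt (s0 / s) (show (1 : ℝ) < 2 by norm_num)
  have hN' : s0 / 2 ^ N ≤ s := by
    rw [div_lt_iff₀ hs] at hN
    rw [div_le_iff₀ (by positivity)]
    linarith
  obtain ⟨h1, h2⟩ := main N
  have hsum := HM C p0.2 δ r1 s0 s1 (fun t => e p t) hu (lt_of_lt_of_le hs1 hsr) hδ.le hs0 hs1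
    hsr hint N h1
  have hsum2 : Cl * ∑ i ∈ Finset.range N, e p (s0 / 2 ^ i) ≤ k / 4 := by
    calc Cl * ∑ i ∈ Finset.range N, e p (s0 / 2 ^ i)
        ≤ Cl * (M * (δ + (s0 / s1) ^ th)) := by gcongr
      _ ≤ Cl * (M * (δ + δ)) := by gcongr
      _ ≤ k / 4 := by linarith
  have := h2 s hN' hs'
  linarith

end Crest.Agent.R102.Chain859
end

-- ▼ part R102/SlowJ_486

/-! Row 102, EDGE / SLOW (helper486, second of the join J): `SlowP` from the collapse `ColPhi` and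
the record statement `NoRecP` (literals of 859). -/

set_option autoImplicit false

open Set Filter Topology Metric MeasureTheory Complex

noncomputable section

namespace Crest.Agent.R102.SlowJ486

open Crest.Agent.R102.Sup115 (E2)
open Crest.Agent.R102.S5 (ray bl Half Cn)
open Crest.Agent.R102.TreeS174 (KD)
open Crest.Agent.R102.Edge255
open Crest.Agent.R102.SlowE (oe)
open Crest.Agent.R102.SlowS (kd)
open Crest.Agent.R102.Chain859 (V rho)

/-! ### pieces -/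

/-- small truncated Marcinkiewicz integral -/
theorem small_MI {U : Set ℝ} {u : ℝ} (h : Marc295.MI U 1 u < ⊤) {δ : ℝ} (hδ : 0 < δ) :
    ∃ r1 > 0, r1 ≤ 1 ∧ ∫⁻ t in Ioo (-r1) r1, ENNReal.ofReal (infDist (u + t) U / t ^ 2) ≤
      ENNReal.ofReal δ := by
  have h1 : ∫⁻ t, ENNReal.ofReal (infDist (u + t) U / t ^ 2) ∂(volume.restrict (Ioo (-1 : ℝ) 1))
      ≠ ⊤ := h.ne
  obtain ⟨d, hd, H⟩ := exists_pos_setLIntegral_lt_of_measure_lt h1
    (ε := ENNReal.ofReal δ) (by simp [hδ])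
  obtain ⟨r, hr, hr1, hrd⟩ : ∃ r > 0, r ≤ (1 : ℝ) ∧ ENNReal.ofReal (2 * r) < d := by
    rcases eq_or_ne d ⊤ with htop | htop
    · exact ⟨1, one_pos, le_rfl, by rw [htop]; exact ENNReal.ofReal_lt_top⟩
    · have hd' : 0 < d.toReal := ENNReal.toReal_pos hd.ne' htop
      refine ⟨min 1 (d.toReal / 4), by positivity, min_le_left _ _, ?_⟩
      rw [ENNReal.ofReal_lt_iff_lt_toReal (by positivity) htop]
      have := min_le_right 1 (d.toReal / 4)
      linarith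
  refine ⟨r, hr, hr1, ?_⟩
  have hsub : Ioo (-r) r ⊆ Ioo (-1 : ℝ) 1 := Ioo_subset_Ioo (by linarith) hr1
  have h2 := H (Ioo (-r) r) (by
    rw [Measure.restrict_apply measurableSet_Ioo, inter_eq_left.2 hsub, Real.volume_Ioo]
    have : r - -r = 2 * r := by ring
    rw [this]; exact hrd)
  rw [Measure.restrict_restrict measurableSet_Ioo, inter_eq_left.2 hsub] at h2
  exact h2.le

/-- the deep compacts of the tree windows are in `L` -/
theorem KD_sub {X L : Set (ℂ × ℂ)} {a g ρ δ : ℝ} {p0 p : ℝ × ℝ} {A s s1 : ℝ}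
    (hE : E2 X L a g ρ δ p0) (ha : 0 ≤ a) (hg : 0 < g) (hA : 8 ≤ A) (hs : 0 < s) (hs1 : s ≤ s1)
    (hp : dist p p0 ≤ s1) (hδ : (A + 1) * s1 < δ) : KD A p.1 p.2 s ⊆ L := by
  refine Subset.trans ?_ hE.line
  intro q hq
  obtain ⟨q1, q2, q3, q4, q5⟩ := hq
  rw [Prod.dist_eq, Real.dist_eq, Real.dist_eq] at hp
  have h1 : |p.1 - p0.1| ≤ s1 := (le_max_left _ _).trans hp
  have h2 : |p.2 - p0.2| ≤ s1 := (le_max_right _ _).trans hp
  have hAs : A * s ≤ A * s1 := by nlinarith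
  have h6 : 0 < -q.1.im := by
    by_contra hc
    push Not at hc
    nlinarith
  have h7 : 0 < q.2.im := by
    by_contra hc
    push Not at hc
    nlinarith
  refine ⟨?_, ?_, ?_, h7, ?_⟩
  · calc |q.1.re - p0.1| = |(q.1.re - p.1) + (p.1 - p0.1)| := by ring_nf
      _ ≤ |q.1.re - p.1| + |p.1 - p0.1| := abs_add_le _ _
      _ < δ := by nlinarith
  · nlinarith
  · have e : q.2 - (p0.2 : ℂ) = (q.2 - (p.2 : ℂ)) + ((p.2 - p0.2 : ℝ) : ℂ) := by push_cast; ring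
    rw [e]
    refine lt_of_le_of_lt (norm_add_le _ _) ?_
    rw [Complex.norm_real, Real.norm_eq_abs]
    nlinarith
  · have : 0 ≤ (a + g) * q.2.im := by positivity
    linarith

/-! ### the two inputs (literals of 859 #31770) -/

/-- good bases of precision `ρ` -/
structure Base (a g : ℝ) (X L : Set (ℂ × ℂ)) (u s₀ ρ δ : ℝ) (U : Set ℝ) : Prop where
  ρ_pos : 0 < ρ
  δ_pos : 0 < δ
  closed : IsClosed U
  mem : u ∈ U
  e2 : ∀ u' ∈ U, ∀ s : ℝ, |s - s₀| < δ → E2 X L a g ρ δ (s, u')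

/-- eventual quantification over the root windows -/
def EvS (h a g κ : ℝ) (ψ : ℂ → ℂ) (B : ℂ × ℂ → ℂ) (X L : Set (ℂ × ℂ)) (u s₀ : ℝ)
    (P : Set ℝ → ℝ → ℝ → Prop) : Prop :=
  ∃ ρ₁ > 0, ∀ (ρ δ : ℝ) (U : Set ℝ), ρ ≤ ρ₁ → Base a g X L u s₀ ρ δ U → ∃ δ₁ > 0, ∀ x : ℝ,
    |x - s₀| < δ₁ → ∀ σ > 0, (∀ s ∈ Ioo 0 σ, Intr h κ ψ B (x, u) s) → ∃ s₂ > 0, ∀ s1 : ℝ,
      0 < s1 → s1 ≤ s₂ → P U x s1

def ColPhi : Prop :=
  ∀ (u0 R d h : ℝ) (ψ H A : ℂ → ℂ) (φ p B : ℂ × ℂ → ℂ) (X L : Set (ℂ × ℂ)),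
    ED u0 R d h ψ H A φ p B X L → ∀ u s₀ a g : ℝ, u ∈ Ioo (u0 - R) (u0 + R) → u ≠ 0 →
    0 ≤ a → 0 < g → Rigid u0 R d h ψ φ p B X L u s₀ a g →
    ∀ κ > 0, ∃ k > 0, ∃ κ' > 0, ∀ ε > 0, ∀ K ⊆ Wg (a + g), IsCompact K → ∀ K' ⊆ Wg a,
    IsCompact K' → EvS h a g κ ψ B X L u s₀ (fun U x s1 =>
      ∀ (p' : ℝ × ℝ) (s' : ℝ), V (fun q s => φ (ray q s)) (φ (ray (x, u) s1)) s1 (x, u) k p' s' →
        infDist p'.2 U ≤ s' → Intr h κ' ψ B p' s' ∧
        SlowAt ε K K' ψ (fun q => φ (bl p' s' q)) (fun q => p (bl p' s' q))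
          (fun q => B (bl p' s' q)))

def NoRecP : Prop :=
  ∀ (u0 R d h : ℝ) (ψ H A : ℂ → ℂ) (φ p B : ℂ × ℂ → ℂ) (X L : Set (ℂ × ℂ)),
    ED u0 R d h ψ H A φ p B X L → ∀ u s₀ a g : ℝ, u ∈ Ioo (u0 - R) (u0 + R) → u ≠ 0 →
    0 ≤ a → 0 < g → Rigid u0 R d h ψ φ p B X L u s₀ a g →
    ∃ AK ≥ 8, ∀ κ > 0, ∃ k₁ > 0, ∀ k, 0 < k → k ≤ k₁ → EvS h a g κ ψ B X L u s₀
      (fun U x s1 => ∀ (p' : ℝ × ℝ) (s' : ℝ),
        V (fun q s => φ (ray q s)) (φ (ray (x, u) s1)) s1 (x, u) (3 * k / 4) p' s' →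
        infDist p'.2 U ≤ s' → dist p' (x, u) ≤ s1 / 2 →
        (s' / s1) ^ (1 / 2 : ℝ) ≤ oe AK φ p' s' →
        ∃ (p'' : ℝ × ℝ) (s'' : ℝ),
          V (fun q s => φ (ray q s)) (φ (ray (x, u) s1)) s1 (x, u) k p'' s'' ∧
          16 * oe AK φ p' s' < rho (1 / 2) p' s' p'' s'' * oe AK φ p'' s'')

/-- **the join** -/
theorem slowP_of (hC : ColPhi) (hN : NoRecP) : SlowP := by
  intro u0 R d h ψ H Ar φ p B X L D u s₀ a g hu hu0 hG hR hEL hB
  obtain ⟨ha, hg, hGood⟩ := hG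
  obtain ⟨κ, hκ, hBal⟩ := hB
  obtain ⟨δL, hδL, hlim⟩ := hEL
  obtain ⟨kc, hkc, κ', hκ', hCol⟩ := hC u0 R d h ψ H Ar φ p B X L D u s₀ a g hu hu0 ha hg hR κ hκ
  obtain ⟨AK, hAK, hNR⟩ := hN u0 R d h ψ H Ar φ p B X L D u s₀ a g hu hu0 ha hg hR
  obtain ⟨k₁, hk₁, hNR⟩ := hNR κ hκ
  set k : ℝ := min kc k₁ with hk
  have hk0 : 0 < k := lt_min hkc hk₁
  have hkkc : k ≤ kc := min_le_left _ _
  have hNRk := hNR k hk0 (min_le_right _ _)
  obtain ⟨Ks, hKs, δs, hδs, hstay⟩ := Chain859.stay (E := ℂ) (th := 1 / 2) (Cl := 16) (k := k)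
    (κ := 1) (by norm_num) (by norm_num) (by norm_num) hk0 one_pos
  -- the precision of the collapse
  set εs : ℝ := min (1 / 2) (k / 512) with hεs
  have hεs0 : 0 < εs := by positivity
  have hεs1 : εs ≤ 1 / 2 := min_le_left _ _
  have hεs2 : εs ≤ k / 512 := min_le_right _ _
  set K : Set (ℂ × ℂ) := kd AK ∪ kd (8 * Ks) with hK
  have hKc : IsCompact K :=
    (SlowS.isCompact_kd hAK).union (SlowS.isCompact_kd (by linarith))
  have hKW : K ⊆ Wg (a + g) :=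
    union_subset (SlowS.kd_sub_Wg hAK (by linarith)) (SlowS.kd_sub_Wg (by linarith) (by linarith))
  obtain ⟨ρa, hρa, hEa⟩ := hCol (εs / 2) (by positivity) K hKW hKc ∅ (empty_subset _)
    isCompact_empty
  obtain ⟨ρb, hρb, hEb⟩ := hNRk
  obtain ⟨δ, hδ, U, huU, ⟨hUc, hMI⟩, hE2⟩ := hGood (min ρa ρb) (lt_min hρa hρb)
  have hbase : Base a g X L u s₀ (min ρa ρb) δ U := ⟨lt_min hρa hρb, hδ, hUc, huU, hE2⟩
  obtain ⟨δa, hδa, hEa⟩ := hEa _ _ _ (min_le_left _ _) hbase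
  obtain ⟨δb, hδb, hEb⟩ := hEb _ _ _ (min_le_right _ _) hbase
  obtain ⟨x, hx, σ, hσ, hcol⟩ := hBal (min (min δa δb) (min δL δ))
    (lt_min (lt_min hδa hδb) (lt_min hδL hδ))
  have hxa : |x - s₀| < δa := lt_of_lt_of_le hx ((min_le_left _ _).trans (min_le_left _ _))
  have hxb : |x - s₀| < δb := lt_of_lt_of_le hx ((min_le_left _ _).trans (min_le_right _ _))
  have hxL : |x - s₀| < δL := lt_of_lt_of_le hx ((min_le_right _ _).trans (min_le_left _ _))
  have hxδ : |x - s₀| < δ := lt_of_lt_of_le hx ((min_le_right _ _).trans (min_le_right _ _))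
  obtain ⟨sa, hsa, hEa⟩ := hEa x hxa σ hσ hcol
  obtain ⟨sb, hsb, hEb⟩ := hEb x hxb σ hσ hcol
  obtain ⟨r1, hr1, -, hint⟩ := small_MI hMI hδs
  -- the root scale
  obtain ⟨s1, hs1, hs1a, hs1b, hs1r, hs1A, hs1K⟩ : ∃ s1 > 0, s1 ≤ sa ∧ s1 ≤ sb ∧ s1 ≤ r1 ∧
      (AK + 1) * s1 < δ ∧ (8 * Ks + 1) * s1 < δ := by
    have hA1 : 0 < AK + 1 := by linarith
    have hK1 : 0 < 8 * Ks + 1 := by linarith
    refine ⟨min (min (min sa sb) r1) (min (δ / (2 * (AK + 1))) (δ / (2 * (8 * Ks + 1)))),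
      by positivity, (min_le_left _ _).trans ((min_le_left _ _).trans (min_le_left _ _)),
      (min_le_left _ _).trans ((min_le_left _ _).trans (min_le_right _ _)),
      (min_le_left _ _).trans (min_le_right _ _), ?_, ?_⟩
    · have h1 : min (min (min sa sb) r1) (min (δ / (2 * (AK + 1))) (δ / (2 * (8 * Ks + 1))))
          ≤ δ / (2 * (AK + 1)) := (min_le_right _ _).trans (min_le_left _ _)
      calc (AK + 1) * _ ≤ (AK + 1) * (δ / (2 * (AK + 1))) := by gcongr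
        _ = δ / 2 := by field_simp
        _ < δ := by linarith
    · have h1 : min (min (min sa sb) r1) (min (δ / (2 * (AK + 1))) (δ / (2 * (8 * Ks + 1))))
          ≤ δ / (2 * (8 * Ks + 1)) := (min_le_right _ _).trans (min_le_right _ _)
      calc (8 * Ks + 1) * _ ≤ (8 * Ks + 1) * (δ / (2 * (8 * Ks + 1))) := by gcongr
        _ = δ / 2 := by field_simp
        _ < δ := by linarith
  have hCs := hEa s1 hs1 hs1a
  have hNs := hEb s1 hs1 hs1b
  set b0 : ℂ := φ (ray (x, u) s1) with hb0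
  set b : ℝ × ℝ → ℝ → ℂ := fun q s => φ (ray q s) with hb
  have hE0 : E2 X L a g (min ρa ρb) δ (x, u) := hE2 u huU x hxδ
  have hVmono : ∀ {q : ℝ × ℝ} {s : ℝ}, V b b0 s1 (x, u) k q s → V b b0 s1 (x, u) kc q s :=
    fun h => ⟨h.1, h.2.1, h.2.2.1, fun s' h1 h2 => (h.2.2.2 s' h1 h2).trans hkkc⟩
  have hKDL : ∀ {q : ℝ × ℝ} {s : ℝ}, V b b0 s1 (x, u) k q s → KD AK q.1 q.2 s ⊆ L :=
    fun h => KD_sub hE0 ha hg hAK h.1 h.2.1 h.2.2.1 hs1A
  have hsmall : ∀ (q : ℝ × ℝ) (s : ℝ), V b b0 s1 (x, u) k q s → infDist q.2 U ≤ 1 * s →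
      oe AK φ q s ≤ εs := by
    intro q s hV hU
    rw [one_mul] at hU
    have h1 := (hCs q s (hVmono hV) hU).2
    have h2 := SlowS.slow_osc hAK (ε := εs / 2) (by linarith) (K := K) subset_union_left hV.1
      (D.φ_diff.continuousOn.mono (hKDL hV)) h1
    linarith
  have hlt : ∀ (q : ℝ × ℝ) (s : ℝ), V b b0 s1 (x, u) k q s → infDist q.2 U ≤ 1 * s →
      oe AK φ q s < 1 := fun q s hV hU => by linarith [hsmall q s hV hU]
  have hV0 : V b b0 s1 (x, u) k (x, u) s1 := by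
    refine ⟨hs1, le_rfl, by rw [dist_self]; exact hs1.le, ?_⟩
    intro s' h1 h2
    have h3 : s' = s1 := le_antisymm h2 h1
    rw [h3, hb0, hb]
    simp only [sub_self, norm_zero]
    exact hk0.le
  have hU0 : infDist u U = 0 := infDist_zero_of_mem huU
  have hroot : ∀ s, s1 / Ks ≤ s → s ≤ s1 → ‖b (x, u) s - b0‖ ≤ k / 16 := by
    intro s h1 h2
    have h3 := (hCs (x, u) s1 (hVmono hV0) (by rw [hU0]; exact hs1.le)).2
    have h4 := SlowR.slow_root (K₀ := Ks) (ε := εs / 2) (by linarith) (by linarith)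
      (K := K) subset_union_right hs1
      (D.φ_diff.continuousOn.mono (KD_sub hE0 ha hg (by linarith) hs1 le_rfl
        (by rw [dist_self]; exact hs1.le) hs1K)) h3 (p := (x, u)) h1 h2
        (by rw [dist_self]; exact hs1.le)
    refine h4.trans ?_
    linarith
  have hfin := hstay U (fun q s => oe AK φ q s) b b0 16 εs s1 r1 (x, u) le_rfl (by linarith)
    (by linarith) hs1 hs1r (fun q s => ⟨SlowE.oe_nonneg _ _ _ _, SlowE.oe_le_one _ _ _ _⟩) hsmall
    (fun q s s' hV hU h1 h2 => by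
      have h3 := SlowE.hvert hAK (φ := φ) hV.1 (hlt q s hV hU) h1 h2
      have h4 := SlowE.oe_nonneg AK φ q s
      simp only [hb]
      linarith)
    (fun q q' s hV hU h1 =>
      SlowE.hlat hAK hV.1 (D.φ_diff.mono (hKDL hV)) (hlt q s hV hU) h1)
    (fun q s hV hU h1 h2 => hNs q s hV (by linarith) h1 h2)
    (subset_closure huU) hint hroot
  refine SlowJ1.not_lims (s1 := s1 / Ks) hlim hxL (by positivity) hκ' ?_
  intro x' hx'
  have h5 := hfin x' hx'.le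
  filter_upwards [Ioc_mem_nhdsGT hs1] with s hs
  have hV : V b b0 s1 (x, u) k (x', u) s := by
    refine ⟨hs.1, hs.2, ?_, ?_⟩
    · have h6 : s1 / Ks ≤ s1 := div_le_self hs1.le (by linarith)
      rw [Prod.dist_eq, Real.dist_eq, Real.dist_eq]
      refine max_le (hx'.le.trans h6) ?_
      simp only [sub_self, abs_zero]
      exact hs1.le
    · intro s' h6 h7
      refine (h5 s' (lt_of_lt_of_le hs.1 h6) h7).trans ?_
      linarith
  exact (hCs (x', u) s (hVmono hV) (by rw [hU0]; exact hs.1.le)).1.1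

end Crest.Agent.R102.SlowJ486
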