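import Crest.Agent.R102.EdgeDefs_255
import Crest.Agent.R102.IntrMove_802_Mg
import Crest.Agent.R102.SlowJ_486

-- ▼ part R102/Coll_841
section

/-!
Row 102, T1-B, block EDGE / SLOW, leaf **N1** (helper841): uniform collapse from `Rigid`.

`cols_of`  : windows `(x' n, u' n; s n)` below balanced roots `(x n, u; s1 n)` with interior column up
             to the root, base moved to `u'' n ∈ U n`, are `Cols` (input of `Rigid`, `NormP`);
`uc`       : the `ε`-`δ` form of the collapse;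
`slow_move`: `SlowAt` at `(x', u'')` gives `SlowAt` at `(x', u')`, `|u' - u''| ≤ s`.
-/

set_option autoImplicit false

open Set Filter Topology Metric MeasureTheory Complex

noncomputable section

namespace Crest.Agent.R102.Coll841

open Crest.Agent.R102.Sup115 (HDu Dp E2 MaxiX GoodU)
open Crest.Agent.R102.S5 (Half bl ray Cn)
open Crest.Agent.R102.Edge255

theorem intr_mono {h κ κ' : ℝ} {ψ : ℂ → ℂ} {B : ℂ × ℂ → ℂ} {e : ℝ × ℝ} {s : ℝ} (hk : κ' ≤ κ)
    (hI : Intr h κ ψ B e s) : Intr h κ' ψ B e s := by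
  obtain ⟨q, hq, hy⟩ := hI.2
  exact ⟨hI.1.trans (by linarith), q, hq, hk.trans hy⟩

theorem half_sub {u0 R d : ℝ} {e : ℝ × ℝ} {r : ℝ} (h1 : r ≤ d)
    (h2 : |e.2 - u0| + r ≤ R) : Half e r 0 ⊆ Dp u0 R d := by
  rintro q ⟨_, h3, h4, h5, h6⟩
  refine ⟨by linarith, by simpa using h6, ?_, h5⟩
  rw [mem_ball, dist_eq_norm]
  have : q.2 - (u0 : ℂ) = (q.2 - (e.2 : ℂ)) + ((e.2 - u0 : ℝ) : ℂ) := by push_cast; ring
  rw [this]
  calc _ ≤ ‖q.2 - (e.2 : ℂ)‖ + ‖((e.2 - u0 : ℝ) : ℂ)‖ := norm_add_le _ _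
    _ < r + |e.2 - u0| := by
        rw [Complex.norm_real, Real.norm_eq_abs]; linarith
    _ ≤ R := by linarith

/-- the big compact window -/
def K2 (m c : ℝ) : Set (ℂ × ℂ) :=
  {q | ‖q.1‖ ≤ 2 ∧ ‖q.2‖ ≤ 2 ∧ c ≤ q.2.im ∧ q.1.im ≤ (m - c) * q.2.im}

theorem isCompact_K2 (m c : ℝ) : IsCompact (K2 m c) := by
  refine Metric.isCompact_of_isClosed_isBounded ?_ ?_
  · have h1 : IsClosed {q : ℂ × ℂ | ‖q.1‖ ≤ 2} := isClosed_le (by fun_prop) continuous_const
    have h2 : IsClosed {q : ℂ × ℂ | ‖q.2‖ ≤ 2} := isClosed_le (by fun_prop) continuous_const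
    have h3 : IsClosed {q : ℂ × ℂ | c ≤ q.2.im} := isClosed_le continuous_const (by fun_prop)
    have h4 : IsClosed {q : ℂ × ℂ | q.1.im ≤ (m - c) * q.2.im} :=
      isClosed_le (by fun_prop) (by fun_prop)
    exact h1.inter (h2.inter (h3.inter h4))
  · refine (Metric.isBounded_closedBall (x := (0 : ℂ × ℂ)) (r := 2)).subset ?_
    rintro q ⟨h1, h2, _⟩
    rw [mem_closedBall, dist_zero_right, Prod.norm_def]
    exact max_le h1 h2

theorem K2_anti {m c c' : ℝ} (hc : 0 ≤ c') (h : c' ≤ c) : K2 m c ⊆ K2 m c' := by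
  rintro q ⟨h1, h2, h3, h4⟩
  refine ⟨h1, h2, h.trans h3, h4.trans ?_⟩
  exact mul_le_mul_of_nonneg_right (by linarith) (by linarith)

/-- shift by a real vector -/
def sh (v : ℝ × ℝ) (q : ℂ × ℂ) : ℂ × ℂ := (q.1 + (v.1 : ℂ), q.2 + (v.2 : ℂ))

theorem bl_sh {e e' : ℝ × ℝ} {s : ℝ} (hs : s ≠ 0) (q : ℂ × ℂ) :
    bl e' s q = bl e s (sh ((e'.1 - e.1) / s, (e'.2 - e.2) / s) q) := by
  have hs' : (s : ℂ) ≠ 0 := by exact_mod_cast hs
  simp only [bl, sh, Prod.mk.injEq]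
  constructor <;> · push_cast; field_simp; ring

theorem sh_mem_K2 {m c : ℝ} {v : ℝ × ℝ} (h1 : |v.1| ≤ 1) (h2 : |v.2| ≤ 1) {q : ℂ × ℂ}
    (hq : q ∈ Kc m c) : sh v q ∈ K2 m c := by
  obtain ⟨a1, a2, a3, a4⟩ := hq
  refine ⟨?_, ?_, ?_, ?_⟩
  · calc ‖q.1 + (v.1 : ℂ)‖ ≤ ‖q.1‖ + ‖(v.1 : ℂ)‖ := norm_add_le _ _
      _ ≤ 1 + 1 := add_le_add a1 (by rw [Complex.norm_real]; exact h1)
      _ = 2 := by norm_num
  · calc ‖q.2 + (v.2 : ℂ)‖ ≤ ‖q.2‖ + ‖(v.2 : ℂ)‖ := norm_add_le _ _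
      _ ≤ 1 + 1 := add_le_add a2 (by rw [Complex.norm_real]; exact h2)
      _ = 2 := by norm_num
  · simpa [sh] using a3
  · simpa [sh] using a4

theorem sh_z0_mem {m c : ℝ} (hm : 0 ≤ m) (hc : c ≤ 1 / 8) {v : ℝ × ℝ} (h1 : |v.1| ≤ 1)
    (h2 : |v.2| ≤ 1) : sh v z0 ∈ K2 m c := by
  refine ⟨?_, ?_, ?_, ?_⟩
  · calc ‖z0.1 + (v.1 : ℂ)‖ ≤ ‖z0.1‖ + ‖(v.1 : ℂ)‖ := norm_add_le _ _
      _ ≤ 1 + 1 := add_le_add (by simp [z0]) (by rw [Complex.norm_real]; exact h1)
      _ = 2 := by norm_num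
  · calc ‖z0.2 + (v.2 : ℂ)‖ ≤ ‖z0.2‖ + ‖(v.2 : ℂ)‖ := norm_add_le _ _
      _ ≤ 1 + 1 := add_le_add (by simp [z0]; norm_num) (by rw [Complex.norm_real]; exact h2)
      _ = 2 := by norm_num
  · simp [sh, z0]; linarith
  · simp [sh, z0]; nlinarith

theorem bl_mem_half {e : ℝ × ℝ} {σ m c : ℝ} (hσ : 0 < σ) (hc : 0 < c) {q : ℂ × ℂ}
    (hq : q ∈ K2 m c) : bl e σ q ∈ Half e (4 * σ) m := by
  obtain ⟨a1, a2, a3, a4⟩ := hq
  have hre := (Complex.abs_re_le_norm q.1).trans a1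
  have him := (Complex.abs_im_le_norm q.1).trans a1
  refine ⟨?_, ?_, ?_, ?_, ?_⟩
  · have : ((bl e σ q).1.re - e.1) = σ * q.1.re := by simp [bl]
    rw [this, abs_mul, abs_of_pos hσ]; nlinarith
  · have : (bl e σ q).1.im = σ * q.1.im := by simp [bl]
    rw [this]; nlinarith [(abs_le.1 him).1]
  · have : (bl e σ q).2 - (e.2 : ℂ) = (σ : ℂ) * q.2 := by simp [bl]
    rw [this, norm_mul, Complex.norm_real, Real.norm_eq_abs, abs_of_pos hσ]; nlinarith
  · have : (bl e σ q).2.im = σ * q.2.im := by simp [bl]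
    rw [this]; exact mul_pos hσ (by linarith)
  · have h1 : (bl e σ q).1.im = σ * q.1.im := by simp [bl]
    have h2 : (bl e σ q).2.im = σ * q.2.im := by simp [bl]
    rw [h1, h2]
    have : 0 < q.2.im := by linarith
    nlinarith [mul_pos hc this]

theorem continuous_bl (e : ℝ × ℝ) (s : ℝ) : Continuous (bl e s) := by
  unfold bl; fun_prop

/-- a bound of the line on `K2` at a root window -/
theorem exists_T {φ p : ℂ × ℂ → ℂ} {L : Set (ℂ × ℂ)} (hφ : DifferentiableOn ℂ φ L)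
    (hp : DifferentiableOn ℂ p L) {e : ℝ × ℝ} {σ m c : ℝ} (hσ : 0 < σ) (hc : 0 < c)
    (hL : Half e (4 * σ) m ⊆ L) :
    ∃ T : ℝ, 1 ≤ T ∧ ∀ q ∈ K2 m c, 2 * ‖φ (bl e σ q)‖ + ‖p (bl e σ q)‖ ≤ T := by
  have hmap : MapsTo (bl e σ) (K2 m c) L := fun q hq => hL (bl_mem_half hσ hc hq)
  have h1 : ContinuousOn (fun q => φ (bl e σ q)) (K2 m c) :=
    hφ.continuousOn.comp (continuous_bl e σ).continuousOn hmap
  have h2 : ContinuousOn (fun q => p (bl e σ q)) (K2 m c) :=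
    hp.continuousOn.comp (continuous_bl e σ).continuousOn hmap
  obtain ⟨C1, hC1⟩ := (isCompact_K2 m c).exists_bound_of_continuousOn h1
  obtain ⟨C2, hC2⟩ := (isCompact_K2 m c).exists_bound_of_continuousOn h2
  refine ⟨max 1 (2 * C1 + C2), le_max_left _ _, fun q hq => le_trans ?_ (le_max_right _ _)⟩
  have := hC1 q hq
  have := hC2 q hq
  linarith

/-- **columns**: windows below balanced roots, base moved to `U` -/
theorem cols_of {u0 R d h : ℝ} {ψ H A : ℂ → ℂ} {φ p B : ℂ × ℂ → ℂ} {X L : Set (ℂ × ℂ)}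
    (hED : ED u0 R d h ψ H A φ p B X L) {u s₀ a g κ κ₁ : ℝ} (hκ : 0 < κ) (hκ₁ : 0 < κ₁) (ha : 0 ≤ a) (hg : 0 < g) {x s1 σ : ℕ → ℝ}
    {x' u' u'' s : ℕ → ℝ} (hxt : Tendsto x atTop (𝓝 s₀)) (hσt : Tendsto σ atTop (𝓝 0))
    (hσd : ∀ n, 8 * σ n ≤ d) (hσR : ∀ n, |u - u0| + 8 * σ n ≤ R)
    (hbal : ∀ n, ∀ t ∈ Ioc 0 (σ n), Intr h κ ψ B (x n, u) t)
    (hs : ∀ n, 0 < s n) (hs1 : ∀ n, s n ≤ s1 n) (h1σ : ∀ n, 2 * s1 n ≤ σ n)
    (hx' : ∀ n, |x' n - x n| ≤ s1 n) (hu' : ∀ n, |u' n - u| ≤ s1 n)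
    (hu'' : ∀ n, |u'' n - u' n| ≤ s n)
    (hcol : ∀ n, ∀ t ∈ Icc (s n) (s1 n), Intr h κ₁ ψ B (x' n, u' n) t)
    (hL0 : ∀ n, Half (x n, u) (4 * σ n) (a + g) ⊆ L)
    (hL : ∀ n, Half (x' n, u'' n) (4 * σ n) (a + g) ⊆ L) {T : ℕ → ℝ}
    (hT : ∀ c > 0, ∀ᶠ n in atTop, ∀ q ∈ K2 (a + g) c,
      2 * ‖φ (bl (x n, u) (σ n) q)‖ + ‖p (bl (x n, u) (σ n) q)‖ ≤ T n)
    (hsm : ∀ τ > 0, Tendsto (fun n => (s1 n / σ n) ^ (τ : ℝ) * T n) atTop (𝓝 0)) :
    ∃ κ' > 0, Cols u0 R d h a g κ' ψ φ p B X L u s₀ (fun n => (x' n, u'' n)) s σ := by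
  obtain ⟨k1, hk1, H1⟩ := IntrShift198.intr_shift (R := 2) hED.curve hκ (by norm_num)
  obtain ⟨k2, hk2, H2⟩ := IntrShift198.intr_shift (R := 2) hED.curve hκ₁ (by norm_num)
  have hs1p : ∀ n, 0 < s1 n := fun n => (hs n).trans_le (hs1 n)
  have hσp : ∀ n, 0 < σ n := fun n => by have := hs1p n; have := h1σ n; linarith
  have hBd : DifferentiableOn ℂ B (Dp u0 R d) := hED.B_diff.mono hED.Dp_X
  have hBi : ∀ q ∈ Dp u0 R d, |(B q).im| < h := fun q hq => hED.B_im q (hED.Dp_X hq)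
  have hs1t : Tendsto s1 atTop (𝓝 0) :=
    squeeze_zero (fun n => (hs1p n).le) (fun n => by have := h1σ n; have := hs1p n; linarith) hσt
  have hux : ∀ n, |u'' n - u| ≤ 2 * s1 n := fun n => by
    have h1 := abs_le.1 (hu' n)
    have h2 := abs_le.1 (hu'' n)
    have h3 := hs1 n
    exact abs_le.2 ⟨by linarith, by linarith⟩
  have hx't : Tendsto x' atTop (𝓝 s₀) := by
    have : Tendsto (fun n => x n + (x' n - x n)) atTop (𝓝 (s₀ + 0)) :=
      hxt.add (squeeze_zero_norm hx' hs1t)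
    simpa using this
  have hu''t : Tendsto u'' atTop (𝓝 u) := by
    have : Tendsto (fun n => u + (u'' n - u)) atTop (𝓝 (u + 0)) :=
      tendsto_const_nhds.add (squeeze_zero_norm hux (by simpa using hs1t.const_mul 2))
    simpa using this
  refine ⟨min k1 k2, lt_min hk1 hk2, ?_⟩
  refine ⟨hx't.prodMk_nhds hu''t, hs, fun n => ?_, fun n => ?_, fun n => ?_, hL, fun n t ht => ?_,
    fun c hc => ?_⟩
  · have := hs1 n; have := h1σ n; have := hs1p n; linarith
  · have := hσd n; have := hσp n; linarith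
  · intro z hz
    rw [mem_ball, dist_eq_norm] at hz ⊢
    have h1 : z - (u0 : ℂ) = (z - ((u'' n : ℝ) : ℂ)) + ((u'' n - u0 : ℝ) : ℂ) := by
      push_cast; ring
    have h2 : |u'' n - u0| ≤ 2 * s1 n + |u - u0| := by
      calc |u'' n - u0| = |(u'' n - u) + (u - u0)| := by ring_nf
        _ ≤ |u'' n - u| + |u - u0| := abs_add_le _ _
        _ ≤ _ := by have := hux n; linarith
    rw [h1]
    calc _ ≤ ‖z - ((u'' n : ℝ) : ℂ)‖ + ‖((u'' n - u0 : ℝ) : ℂ)‖ := norm_add_le _ _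
      _ < 4 * σ n + |u'' n - u0| := by
          rw [Complex.norm_real, Real.norm_eq_abs]; exact add_lt_add_left hz _
      _ ≤ R := by have := hσR n; have := h1σ n; have := hσp n; linarith
  · have ht0 : 0 < t := (hs n).trans_le ht.1
    have htσ : t ≤ σ n := ht.2
    rcases le_total t (s1 n) with h1 | h1
    · -- below the root
      refine intr_mono (min_le_right _ _) (H2 B (x' n, u' n) (x' n, u'' n) t t ht0 ?_ ?_ ?_ ?_
        (hBd.mono ?_) (fun q hq => hBi q ?_) (hcol n t ⟨ht.1, h1⟩))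
      · linarith
      · linarith
      · simp; linarith
      · simpa using (hu'' n).trans (by linarith [ht.1])
      all_goals
        have key : Half (x' n, u' n) (2 * 2 * t) 0 ⊆ Dp u0 R d := by
          refine half_sub ?_ ?_
          · have := hσd n; linarith
          · have h2 : |u' n - u0| ≤ s1 n + |u - u0| := by
              calc |u' n - u0| = |(u' n - u) + (u - u0)| := by ring_nf
                _ ≤ |u' n - u| + |u - u0| := abs_add_le _ _
                _ ≤ _ := by have := hu' n; linarith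
            have := hσR n; have := h1σ n; have := hσp n
            show |u' n - u0| + 2 * 2 * t ≤ R
            linarith
      · exact key
      · exact key hq
    · refine intr_mono (min_le_left _ _) (H1 B (x n, u) (x' n, u'' n) t t ht0 ?_ ?_ ?_ ?_
        (hBd.mono ?_) (fun q hq => hBi q ?_) (hbal n t ⟨ht0, htσ⟩))
      · linarith
      · linarith
      · show |x' n - x n| ≤ 2 * t
        exact (hx' n).trans (by linarith)
      · show |u'' n - u| ≤ 2 * t
        exact (hux n).trans (by linarith)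
      all_goals
        have key : Half (x n, u) (2 * 2 * t) 0 ⊆ Dp u0 R d := by
          refine half_sub ?_ ?_
          · have := hσd n; linarith
          · have := hσR n; have := h1σ n; have := hσp n
            show |u - u0| + 2 * 2 * t ≤ R
            linarith
      · exact key
      · exact key hq
  · -- outer bound
    have hc' : 0 < min c (1 / 8) := lt_min hc (by norm_num)
    have hbd : ∀ n, ∀ q ∈ Kc (a + g) c, ∀ T' : ℝ, (∀ q ∈ K2 (a + g) (min c (1 / 8)),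
        2 * ‖φ (bl (x n, u) (σ n) q)‖ + ‖p (bl (x n, u) (σ n) q)‖ ≤ T') →
        ‖φ (bl (x' n, u'' n) (σ n) q) - ((φ (ray (x' n, u'' n) (σ n))).re : ℂ)‖ +
        ‖p (bl (x' n, u'' n) (σ n) q)‖ ≤ T' + T' := by
      intro n q hq T' hT'
      have hv1 : |(x' n - x n) / σ n| ≤ 1 := by
        rw [abs_div, abs_of_pos (hσp n), div_le_one (hσp n)]
        have := hx' n; have := h1σ n; have := hs1p n; linarith
      have hv2 : |(u'' n - u) / σ n| ≤ 1 := by
        rw [abs_div, abs_of_pos (hσp n), div_le_one (hσp n)]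
        have := hux n; have := h1σ n; linarith
      have e1 := bl_sh (e := (x n, u)) (e' := (x' n, u'' n)) (hσp n).ne' q
      have e2 := bl_sh (e := (x n, u)) (e' := (x' n, u'' n)) (hσp n).ne' z0
      have m1 := hT' _ (K2_anti hc'.le (min_le_left _ _)
        (sh_mem_K2 (v := ((x' n - x n) / σ n, (u'' n - u) / σ n)) hv1 hv2 hq))
      have m2 := hT' _ (sh_z0_mem (m := a + g) (c := min c (1 / 8)) (by linarith)
        (min_le_right _ _) (v := ((x' n - x n) / σ n, (u'' n - u) / σ n)) hv1 hv2)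
      have e3 : ray (x' n, u'' n) (σ n) = bl (x' n, u'' n) (σ n) z0 := rfl
      rw [e3, e1, e2]
      have n1 := norm_nonneg (φ (bl (x n, u) (σ n) (sh ((x' n - x n) / σ n, (u'' n - u) / σ n) q)))
      have n2 := norm_nonneg (φ (bl (x n, u) (σ n) (sh ((x' n - x n) / σ n, (u'' n - u) / σ n) z0)))
      have n3 := norm_nonneg (p (bl (x n, u) (σ n) (sh ((x' n - x n) / σ n, (u'' n - u) / σ n) z0)))
      have n4 : ‖(((φ (bl (x n, u) (σ n)
          (sh ((x' n - x n) / σ n, (u'' n - u) / σ n) z0))).re : ℝ) : ℂ)‖ ≤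
          ‖φ (bl (x n, u) (σ n) (sh ((x' n - x n) / σ n, (u'' n - u) / σ n) z0))‖ := by
        rw [Complex.norm_real]; exact Complex.abs_re_le_norm _
      have n5 := norm_sub_le (φ (bl (x n, u) (σ n)
        (sh ((x' n - x n) / σ n, (u'' n - u) / σ n) q)))
        (((φ (bl (x n, u) (σ n) (sh ((x' n - x n) / σ n, (u'' n - u) / σ n) z0))).re : ℝ) : ℂ)
      dsimp only at m1 m2 ⊢
      linarith
    have hex : ∀ n, ∃ T' : ℝ, ∀ q ∈ K2 (a + g) (min c (1 / 8)),
        2 * ‖φ (bl (x n, u) (σ n) q)‖ + ‖p (bl (x n, u) (σ n) q)‖ ≤ T' := fun n => by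
      obtain ⟨T', _, h⟩ := exists_T (m := a + g) hED.φ_diff hED.p_diff (hσp n) hc' (hL0 n)
      exact ⟨T', h⟩
    choose T' hT' using hex
    classical
    refine ⟨fun n => if (∀ q ∈ K2 (a + g) (min c (1 / 8)),
        2 * ‖φ (bl (x n, u) (σ n) q)‖ + ‖p (bl (x n, u) (σ n) q)‖ ≤ T n) then T n + T n
        else T' n + T' n, fun n q hq => ?_, fun τ hτ => ?_⟩
    · by_cases hh : (∀ q ∈ K2 (a + g) (min c (1 / 8)),
        2 * ‖φ (bl (x n, u) (σ n) q)‖ + ‖p (bl (x n, u) (σ n) q)‖ ≤ T n)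
      · simp only [if_pos hh]
        exact hbd n q hq _ hh
      · simp only [if_neg hh]
        exact hbd n q hq _ (hT' n)
    · have hz : Tendsto (fun n => (s1 n / σ n) ^ (τ : ℝ) * T n * 2) atTop (𝓝 0) := by
        simpa using (hsm τ hτ).mul_const 2
      have hTn : ∀ᶠ n in atTop, 0 ≤ T n := by
        filter_upwards [hT _ hc'] with n hn
        have := hn _ (sh_z0_mem (m := a + g) (c := min c (1 / 8)) (by linarith)
          (min_le_right _ _) (v := (0, 0)) (by simp) (by simp))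
        exact le_trans (by positivity) this
      refine squeeze_zero' (hTn.mp ?_) ?_ hz
      · filter_upwards [hT _ hc'] with n hn hn0
        rw [if_pos hn]
        have : 0 ≤ s n / σ n := (div_pos (hs n) (hσp n)).le
        positivity
      · filter_upwards [hT _ hc', hTn] with n hn hn0
        rw [if_pos hn]
        have h1 : s n / σ n ≤ s1 n / σ n := div_le_div_of_nonneg_right (hs1 n) (hσp n).le
        have h2 : (s n / σ n) ^ (τ : ℝ) ≤ (s1 n / σ n) ^ (τ : ℝ) :=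
          Real.rpow_le_rpow (div_pos (hs n) (hσp n)).le h1 hτ.le
        nlinarith [mul_le_mul_of_nonneg_right h2 hn0]

/-! ### `SlowAt` at a shifted centre -/

theorem psi_unif {h : ℝ} {ψ H : ℂ → ℂ} (hC : Curve h ψ H) {h' : ℝ} (hh' : h' < h) {ε : ℝ}
    (hε : 0 < ε) : ∃ δ > 0, ∀ z w : ℂ, |z.im| ≤ h' → |w.im| ≤ h' → ‖z - w‖ ≤ δ →
      ‖ψ z - ψ w‖ ≤ ε := by
  have hy : ContinuousOn (fun z => ψ z - 2 * Real.pi * z) (T5.Str h) :=
    hC.ψ_diff.continuousOn.sub (by fun_prop)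
  have hper : ∀ z ∈ T5.Str h, (fun z => ψ z - 2 * Real.pi * z) (z + 1) =
      (fun z => ψ z - 2 * Real.pi * z) z := by
    intro z hz
    simp only [hC.ψ_per z hz]
    ring
  obtain ⟨δ, hδ, hd⟩ := IntrMove802.unif_strip hy hper hh' (half_pos hε)
  have hpi := Real.pi_pos
  refine ⟨min δ (ε / 2 / (2 * Real.pi)), lt_min hδ (by positivity), fun z w hz hw hzw => ?_⟩
  have h1 := hd z w hz hw (hzw.trans (min_le_left _ _))
  have h2 : ψ z - ψ w = ((ψ z - 2 * Real.pi * z) - (ψ w - 2 * Real.pi * w)) +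
      ((2 * Real.pi : ℝ) : ℂ) * (z - w) := by push_cast; ring
  rw [h2]
  refine (norm_add_le _ _).trans ?_
  have h3 : ‖((2 * Real.pi : ℝ) : ℂ) * (z - w)‖ ≤ ε / 2 := by
    rw [norm_mul, Complex.norm_real, Real.norm_eq_abs, abs_of_pos (by positivity)]
    have := hzw.trans (min_le_right _ _)
    rw [le_div_iff₀ (by positivity)] at this
    linarith
  linarith

/-- real shifts of a set -/
def Sh (K : Set (ℂ × ℂ)) : Set (ℂ × ℂ) :=
  (fun x : (ℂ × ℂ) × (ℝ × ℝ) => sh x.2 x.1) '' (K ×ˢ (Icc (-1 : ℝ) 1 ×ˢ Icc (-1 : ℝ) 1))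

theorem isCompact_Sh {K : Set (ℂ × ℂ)} (hK : IsCompact K) : IsCompact (Sh K) := by
  refine (hK.prod (isCompact_Icc.prod isCompact_Icc)).image ?_
  unfold sh; fun_prop

theorem Sh_sub {K : Set (ℂ × ℂ)} {m : ℝ} (hK : K ⊆ Wg m) : Sh K ⊆ Wg m := by
  rintro _ ⟨x, ⟨hx, _⟩, rfl⟩
  have := hK hx
  simpa [Wg, sh] using this

theorem mem_Sh {K : Set (ℂ × ℂ)} {q : ℂ × ℂ} (hq : q ∈ K) {v : ℝ × ℝ} (h1 : |v.1| ≤ 1)
    (h2 : |v.2| ≤ 1) : sh v q ∈ Sh K :=
  ⟨(q, v), ⟨hq, abs_le.1 h1, abs_le.1 h2⟩, rfl⟩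

theorem z0_mem {m : ℝ} (hm : 0 ≤ m) : z0 ∈ Wg m := by
  refine ⟨?_, ?_⟩
  · simp [z0]
  · simp [z0]; linarith


theorem slow_move {h κ ε : ℝ} {ψ H : ℂ → ℂ} (hC : Curve h ψ H) (hκ : 0 < κ) (hε : 0 < ε) :
    ∃ ε₁ > 0, ∀ (K K' : Set (ℂ × ℂ)) (F P G : ℂ × ℂ → ℂ) (v : ℝ × ℝ), |v.1| ≤ 1 → |v.2| ≤ 1 →
      |(G z0).im| ≤ h - κ → SlowAt ε₁ (Sh (K ∪ {z0})) (Sh (K' ∪ {z0})) ψ F P G →
      SlowAt ε K K' ψ (fun q => F (sh v q)) (fun q => P (sh v q)) (fun q => G (sh v q)) := by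
  set η : ℝ := min (ε / 3) 1 with hη
  have hη0 : 0 < η := lt_min (by positivity) one_pos
  have hη1 : η ≤ 1 := min_le_right _ _
  have hηε : 3 * η ≤ ε := by have := min_le_left (ε / 3) 1; linarith
  obtain ⟨δ, hδ, hd⟩ := psi_unif hC (h' := h - κ / 2) (by linarith) (show 0 < η / 4 by positivity)
  refine ⟨min (min η δ) (κ / 2), lt_min (lt_min hη0 hδ) (half_pos hκ), ?_⟩
  intro K K' F P G v hv1 hv2 hG hS
  set ε₁ := min (min η δ) (κ / 2) with hε₁
  have l1 : ε₁ ≤ η := (min_le_left _ _).trans (min_le_left _ _)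
  have l2 : ε₁ ≤ δ := (min_le_left _ _).trans (min_le_right _ _)
  have l3 : ε₁ ≤ κ / 2 := min_le_right _ _
  have mz : sh v z0 ∈ Sh (K ∪ {z0}) := mem_Sh (Or.inr rfl) hv1 hv2
  have mz' : sh v z0 ∈ Sh (K' ∪ {z0}) := mem_Sh (Or.inr rfl) hv1 hv2
  have b1 := hS.2 _ mz'
  have b2 : ‖ψ (G z0) - ψ (G (sh v z0))‖ ≤ η / 4 := by
    refine hd _ _ (by linarith) ?_ (by rw [norm_sub_rev]; exact b1.trans l2)
    have h1 : |(G (sh v z0)).im| ≤ |(G z0).im| + ‖G (sh v z0) - G z0‖ := by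
      have h2 := Complex.abs_im_le_norm (G (sh v z0) - G z0)
      rw [Complex.sub_im] at h2
      have h3 := abs_sub_abs_le_abs_sub (G (sh v z0)).im (G z0).im
      linarith
    linarith
  have b3 : ‖cexp (2 * I * (ψ (G z0) - ψ (G (sh v z0)))) - 1‖ ≤ η := by
    have h1 : ‖2 * I * (ψ (G z0) - ψ (G (sh v z0)))‖ ≤ η / 2 := by
      rw [norm_mul, norm_mul, Complex.norm_I]
      simp only [Complex.norm_ofNat, mul_one]
      linarith
    have h2 := Complex.norm_exp_sub_one_le (h1.trans (by linarith : η / 2 ≤ 1))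
    linarith
  refine ⟨fun q hq => ⟨?_, ?_⟩, fun q hq => ?_⟩
  · have a1 := (hS.1 _ (mem_Sh (Or.inl hq) hv1 hv2)).1
    have e1 : cexp (2 * I * (F (sh v q) - ψ (G (sh v z0)))) =
        cexp (2 * I * (F (sh v q) - ψ (G z0))) * cexp (2 * I * (ψ (G z0) - ψ (G (sh v z0)))) := by
      rw [← Complex.exp_add]; congr 1; ring
    have e2 : cexp (2 * I * (F (sh v q) - ψ (G z0))) * cexp (2 * I * (ψ (G z0) - ψ (G (sh v z0))))
        - 1 = (cexp (2 * I * (F (sh v q) - ψ (G z0))) - 1) *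
          cexp (2 * I * (ψ (G z0) - ψ (G (sh v z0)))) +
          (cexp (2 * I * (ψ (G z0) - ψ (G (sh v z0)))) - 1) := by ring
    show ‖cexp (2 * I * (F (sh v q) - ψ (G (sh v z0)))) - 1‖ ≤ ε
    rw [e1, e2]
    refine (norm_add_le _ _).trans ?_
    rw [norm_mul]
    have e3 : ‖cexp (2 * I * (ψ (G z0) - ψ (G (sh v z0))))‖ ≤ 2 := by
      have h4 := norm_add_le (cexp (2 * I * (ψ (G z0) - ψ (G (sh v z0)))) - 1) 1
      rw [sub_add_cancel, norm_one] at h4
      linarith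
    have e4 : ‖cexp (2 * I * (F (sh v q) - ψ (G z0))) - 1‖ *
        ‖cexp (2 * I * (ψ (G z0) - ψ (G (sh v z0))))‖ ≤ η * 2 :=
      mul_le_mul (a1.trans l1) e3 (norm_nonneg _) hη0.le
    linarith
  · have a1 := (hS.1 _ (mem_Sh (Or.inl hq) hv1 hv2)).2
    have a2 := (hS.1 _ mz).2
    have e1 : P (sh v q) - P (sh v z0) = (P (sh v q) - P z0) - (P (sh v z0) - P z0) := by ring
    show ‖P (sh v q) - P (sh v z0)‖ ≤ ε
    rw [e1]
    refine (norm_sub_le _ _).trans ?_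
    linarith
  · have a1 := hS.2 _ (mem_Sh (Or.inl hq) hv1 hv2)
    have e1 : G (sh v q) - G (sh v z0) = (G (sh v q) - G z0) - (G (sh v z0) - G z0) := by ring
    show ‖G (sh v q) - G (sh v z0)‖ ≤ ε
    rw [e1]
    refine (norm_sub_le _ _).trans ?_
    linarith

/-! ### the `ε`-`δ` form of the collapse -/

theorem exp_decay {k T : ℝ} (hk : 0 < k) : Real.exp (-(k * T)) * T ≤ 1 / k := by
  have h1 : k * T ≤ Real.exp (k * T) := by
    have := Real.add_one_le_exp (k * T); linarith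
  rw [Real.exp_neg, le_div_iff₀ hk, mul_assoc, inv_mul_le_iff₀ (Real.exp_pos _)]
  linarith

theorem small_tendsto {s1 σ T : ℕ → ℝ} (hσ : ∀ n, 0 < σ n) (hs : ∀ n, 0 < s1 n)
    (hT : ∀ n, 0 < T n) (h : ∀ n, s1 n ≤ σ n * Real.exp (-((n : ℝ) * T n))) :
    ∀ τ > 0, Tendsto (fun n => (s1 n / σ n) ^ (τ : ℝ) * T n) atTop (𝓝 0) := by
  intro τ hτ
  have h1 : Tendsto (fun n : ℕ => 1 / ((n : ℝ) * τ)) atTop (𝓝 0) := by
    have : Tendsto (fun n : ℕ => (n : ℝ) * τ) atTop atTop :=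
      tendsto_natCast_atTop_atTop.atTop_mul_const hτ
    exact tendsto_const_nhds.div_atTop this
  refine squeeze_zero' (Eventually.of_forall fun n => ?_) ?_ h1
  · have := (div_pos (hs n) (hσ n)).le
    have := (hT n).le
    positivity
  · filter_upwards [eventually_gt_atTop 0] with n hn
    have hn' : (0 : ℝ) < n := by exact_mod_cast hn
    have h2 : s1 n / σ n ≤ Real.exp (-((n : ℝ) * T n)) := by
      rw [div_le_iff₀ (hσ n)]; linarith [h n]
    have h3 : (s1 n / σ n) ^ (τ : ℝ) ≤ Real.exp (-((n : ℝ) * τ * T n)) := by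
      calc (s1 n / σ n) ^ (τ : ℝ) ≤ (Real.exp (-((n : ℝ) * T n))) ^ (τ : ℝ) :=
            Real.rpow_le_rpow (div_pos (hs n) (hσ n)).le h2 hτ.le
        _ = Real.exp (-((n : ℝ) * τ * T n)) := by
            rw [← Real.exp_mul]; congr 1; ring
    exact (mul_le_mul_of_nonneg_right h3 (hT n).le).trans (exp_decay (by positivity))

/-- **(UC)** uniform collapse, label form -/
theorem uc {u0 R d h : ℝ} {ψ H A : ℂ → ℂ} {φ p B : ℂ × ℂ → ℂ} {X L : Set (ℂ × ℂ)}
    (hED : ED u0 R d h ψ H A φ p B X L) {u s₀ a g κ κ₁ ε : ℝ} (hu : u ∈ Ioo (u0 - R) (u0 + R))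
    (ha : 0 ≤ a) (hg : 0 < g) (hRig : Rigid u0 R d h ψ φ p B X L u s₀ a g) (hκ : 0 < κ)
    (hκ₁ : 0 < κ₁) (hε : 0 < ε) {K K' : Set (ℂ × ℂ)} (hK : K ⊆ Wg (a + g)) (hKc : IsCompact K)
    (hK' : K' ⊆ Wg a) (hKc' : IsCompact K') :
    ∃ ρ₁ > 0, ∀ (ρ δ : ℝ) (U : Set ℝ), ρ ≤ ρ₁ → 0 < ρ → 0 < δ → IsClosed U → u ∈ U →
      (∀ u' ∈ U, ∀ s : ℝ, |s - s₀| < δ → E2 X L a g ρ δ (s, u')) →
      ∃ δ₁ > 0, ∀ x : ℝ, |x - s₀| < δ₁ → ∀ σ > 0, (∀ s ∈ Ioo 0 σ, Intr h κ ψ B (x, u) s) →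
      ∃ s₂ > 0, ∀ s1 : ℝ, 0 < s1 → s1 ≤ s₂ → ∀ (p' : ℝ × ℝ) (s' : ℝ), 0 < s' → s' ≤ s1 →
        dist p' (x, u) ≤ s1 → infDist p'.2 U ≤ s' → (∀ t ∈ Icc s' s1, Intr h κ₁ ψ B p' t) →
        SlowAt ε K K' ψ (fun q => φ (bl p' s' q)) (fun q => p (bl p' s' q))
          (fun q => B (bl p' s' q)) := by
  by_contra hcon
  push Not at hcon
  have hn : ∀ n : ℕ, (0 : ℝ) < 1 / ((n : ℝ) + 1) := fun n => by positivity
  choose ρ δ U hρ1 hρ hδ hU huU hE hcon using fun n : ℕ => hcon _ (hn n)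
  choose x hx σ hσ hbal hcon using fun n : ℕ => hcon n (min (δ n / 4) (1 / ((n : ℝ) + 1)))
    (lt_min (by have := hδ n; linarith) (hn n))
  -- the distance of `u` to the boundary
  set r₀ : ℝ := (R - |u - u0|) / 8 with hr₀
  have hr₀p : 0 < r₀ := by
    have : |u - u0| < R := abs_lt.2 ⟨by linarith [hu.1], by linarith [hu.2]⟩
    rw [hr₀]; linarith
  set σ' : ℕ → ℝ := fun n => min (min (σ n / 2) (δ n / 8)) (min (min (d / 8) r₀)
    (1 / ((n : ℝ) + 1))) with hσ'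
  have hσ'p : ∀ n, 0 < σ' n := fun n => by
    have h1 := hσ n; have h2 := hδ n; have h3 := hED.d_pos
    simp only [hσ', lt_min_iff]
    exact ⟨⟨by linarith, by linarith⟩, ⟨by linarith, hr₀p⟩, hn n⟩
  have q1 : ∀ n, σ' n ≤ σ n / 2 := fun n => (min_le_left _ _).trans (min_le_left _ _)
  have q2 : ∀ n, σ' n ≤ δ n / 8 := fun n => (min_le_left _ _).trans (min_le_right _ _)
  have q3 : ∀ n, σ' n ≤ d / 8 := fun n =>
    (min_le_right _ _).trans ((min_le_left _ _).trans (min_le_left _ _))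
  have q4 : ∀ n, σ' n ≤ r₀ := fun n =>
    (min_le_right _ _).trans ((min_le_left _ _).trans (min_le_right _ _))
  have q5 : ∀ n, σ' n ≤ 1 / ((n : ℝ) + 1) := fun n => (min_le_right _ _).trans (min_le_right _ _)
  have hinv : Tendsto (fun n : ℕ => 1 / ((n : ℝ) + 1)) atTop (𝓝 0) :=
    tendsto_one_div_add_atTop_nhds_zero_nat
  have hσt : Tendsto σ' atTop (𝓝 0) := squeeze_zero (fun n => (hσ'p n).le) q5 hinv
  have hρt : Tendsto ρ atTop (𝓝 0) := squeeze_zero (fun n => (hρ n).le) hρ1 hinv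
  have hxt : Tendsto x atTop (𝓝 s₀) := by
    have : Tendsto (fun n => s₀ + (x n - s₀)) atTop (𝓝 (s₀ + 0)) :=
      tendsto_const_nhds.add (squeeze_zero_norm
        (fun n => ((hx n).trans_le (min_le_right _ _)).le) hinv)
    simpa using this
  have hL0 : ∀ n, Half (x n, u) (4 * σ' n) (a + g) ⊆ L := fun n => by
    have hx1 : |x n - s₀| < δ n := (hx n).trans_le ((min_le_left _ _).trans
      (by have := hδ n; linarith))
    refine Subset.trans ?_ (hE n u (huU n) (x n) hx1).line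
    rintro q ⟨a1, a2, a3, a4, a5⟩
    have := q2 n; have := hδ n
    exact ⟨by linarith, by linarith, by linarith, a4, a5⟩
  have hc : ∀ n : ℕ, (0 : ℝ) < 1 / ((n : ℝ) + 8) := fun n => by positivity
  choose T hT1 hT using fun n => exists_T (m := a + g) hED.φ_diff hED.p_diff (hσ'p n) (hc n)
    (hL0 n)
  have hTp : ∀ n, 0 < T n := fun n => lt_of_lt_of_le one_pos (hT1 n)
  -- the root scale
  choose s1 hs1p hs1 p' s' hs' hs's1 hp' hinf hcol hbad using fun n =>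
    hcon n (σ' n * Real.exp (-((n : ℝ) * T n)) / 2) (by have := hσ'p n; positivity)
  have hs1σ : ∀ n, 2 * s1 n ≤ σ' n := fun n => by
    have h1 := hs1 n
    have h2 : Real.exp (-((n : ℝ) * T n)) ≤ 1 := Real.exp_le_one_iff.2 (by
      have := (hTp n).le; have : (0 : ℝ) ≤ n := Nat.cast_nonneg n
      nlinarith [mul_nonneg this (hTp n).le])
    nlinarith [hσ'p n, mul_le_mul_of_nonneg_left h2 (hσ'p n).le]
  have hsm := small_tendsto (s1 := s1) (σ := σ') (T := T) hσ'p hs1p hTp (fun n => by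
    have h1 := hs1 n
    have h2 : 0 < σ' n * Real.exp (-((n : ℝ) * T n)) := by have := hσ'p n; positivity
    linarith)
  have hU' : ∀ n, ∃ u'' ∈ U n, infDist (p' n).2 (U n) = dist (p' n).2 u'' := fun n =>
    (hU n).exists_infDist_eq_dist ⟨u, huU n⟩ _
  choose u'' hu''U hu'' using hU'
  have hd2 : ∀ n, |u'' n - (p' n).2| ≤ s' n := fun n => by
    have := hinf n
    rw [hu'' n, dist_comm, Real.dist_eq] at this
    exact this
  have hpd : ∀ n, |(p' n).1 - x n| ≤ s1 n ∧ |(p' n).2 - u| ≤ s1 n := fun n => by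
    have := hp' n
    rw [Prod.dist_eq, max_le_iff, Real.dist_eq, Real.dist_eq] at this
    exact this
  have hE' : ∀ n, E2 X L a g (ρ n) (δ n) ((p' n).1, u'' n) := fun n => by
    refine hE n _ (hu''U n) _ ?_
    have h1 := (hx n).trans_le (min_le_left _ _)
    have h2 := (hpd n).1
    have h3 := hs1σ n; have h4 := q2 n; have h5 := hs1p n
    have h6 : |(p' n).1 - s₀| ≤ |(p' n).1 - x n| + |x n - s₀| := abs_sub_le _ _ _
    have := hδ n
    linarith
  have hL : ∀ n, Half ((p' n).1, u'' n) (4 * σ' n) (a + g) ⊆ L := fun n => by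
    refine Subset.trans ?_ (hE' n).line
    rintro q ⟨a1, a2, a3, a4, a5⟩
    have := q2 n; have := hδ n
    exact ⟨by linarith, by linarith, by linarith, a4, a5⟩
  obtain ⟨κ', hκ', hC⟩ := cols_of (s₀ := s₀) hED hκ hκ₁ ha hg hxt hσt
    (fun n => by have := q3 n; linarith) (fun n => by have := q4 n; rw [hr₀] at this; linarith)
    (fun n t ht => hbal n t ⟨ht.1, lt_of_le_of_lt ht.2 (by have := q1 n; have := hσ n; linarith)⟩)
    hs' hs's1 hs1σ (fun n => (hpd n).1) (fun n => (hpd n).2) hd2 (fun n => by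
      simpa using hcol n) hL0 hL (T := T) (fun c hc0 => by
        have h1 : ∀ᶠ n : ℕ in atTop, 1 / ((n : ℝ) + 8) ≤ c := by
          have h2 : Tendsto (fun n : ℕ => 1 / ((n : ℝ) + 8)) atTop (𝓝 0) := by
            have : Tendsto (fun n : ℕ => (n : ℝ) + 8) atTop atTop :=
              tendsto_atTop_add_const_right _ _ tendsto_natCast_atTop_atTop
            exact tendsto_const_nhds.div_atTop this
          exact (h2.eventually (gt_mem_nhds hc0)).mono fun n hn => hn.le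
        filter_upwards [h1] with n hn q hq
        exact hT n q (K2_anti (hc n).le hn hq)) hsm
  obtain ⟨ε₁, hε₁, hmove⟩ := slow_move hED.curve hκ' hε
  have hs1t : Tendsto s1 atTop (𝓝 0) :=
    squeeze_zero (fun n => (hs1p n).le) (fun n => by have := hs1σ n; have := hs1p n; linarith) hσt
  have hst : Tendsto s' atTop (𝓝 0) := squeeze_zero (fun n => (hs' n).le) hs's1 hs1t
  have hsσ : Tendsto (fun n => s' n / σ' n) atTop (𝓝 0) := by
    have h1 := hsm 1 one_pos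
    simp only [Real.rpow_one] at h1
    refine squeeze_zero (fun n => (div_pos (hs' n) (hσ'p n)).le) (fun n => ?_) h1
    have h2 : s' n / σ' n ≤ s1 n / σ' n := div_le_div_of_nonneg_right (hs's1 n) (hσ'p n).le
    have h3 : 0 < s1 n / σ' n := div_pos (hs1p n) (hσ'p n)
    nlinarith [hT1 n]
  have hfin := hRig κ' _ s' σ' ρ δ hκ' hC hsσ hst hρ hρt (fun n => by
    have := q2 n; have := hδ n; linarith) hE' ε₁ hε₁ (Sh (K ∪ {z0}))
    (Sh_sub (union_subset hK (singleton_subset_iff.2 (z0_mem (by linarith)))))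
    (isCompact_Sh (hKc.union isCompact_singleton)) (Sh (K' ∪ {z0}))
    (Sh_sub (union_subset hK' (singleton_subset_iff.2 (z0_mem ha))))
    (isCompact_Sh (hKc'.union isCompact_singleton))
  obtain ⟨n, hn⟩ := hfin.exists
  refine hbad n ?_
  have hv2 : |((p' n).2 - u'' n) / s' n| ≤ 1 := by
    rw [abs_div, abs_of_pos (hs' n), div_le_one (hs' n), abs_sub_comm]
    exact hd2 n
  have h3 := hmove K K' _ _ _ (0, ((p' n).2 - u'' n) / s' n) (by simp) hv2
    (hC.col n (s' n) ⟨le_rfl, (hs's1 n).trans (by have := hs1σ n; have := hs1p n; linarith)⟩).1 hn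
  have e1 : ∀ q, bl ((p' n).1, u'' n) (s' n) (sh (0, ((p' n).2 - u'' n) / s' n) q) =
      bl (p' n) (s' n) q := fun q => by
    rw [bl_sh (e := ((p' n).1, u'' n)) (e' := p' n) (hs' n).ne' q]
    simp
  simpa only [e1] using h3

end Crest.Agent.R102.Coll841
end
end

-- ▼ part R102/Boot_172
section

/-!
Row 102, T1-B, EDGE / SLOW, leaf N1, **bootstrap** `φ ⟹ label` on one column (helper172).

* `mod_cont`  : uniform continuity of `ψ`, `ψ'` on closed substrips (periodicity);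
* `inj_near`  : injectivity of `ψ` near a label;
* `near_zero` : `exp (2 i z)` near `1`, `‖z‖ ≤ 1` : `z` near `0`;
* `boot`      : the label stays near `b0` as long as the angle stays near `φ0`, given the collapse
  at every scale down to which the label is near `b0`.
-/

set_option autoImplicit false

open Set Filter Topology Metric MeasureTheory Complex

noncomputable section

namespace Crest.Agent.R102.Boot172

open Crest.Agent.R102.Edge255

/-! ### the curve -/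

section Curve

variable {h : ℝ} {ψ H : ℂ → ℂ}

lemma str_mem {b : ℂ} {c : ℝ} (hc : 0 < c) (hb : |b.im| ≤ h - c) : b ∈ T5.Str h := by
  show |b.im| < h
  linarith

lemma per_nat (D : Curve h ψ H) (n : ℕ) : ∀ z ∈ T5.Str h, ψ (z + n) = ψ z + 2 * Real.pi * n := by
  induction n with
  | zero => intro z _; simp
  | succ n ih =>
    intro z hz
    have hz' : z + n ∈ T5.Str h := by
      have hz1 : |z.im| < h := hz
      show |(z + n).im| < h
      simpa using hz1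
    have := D.ψ_per (z + n) hz'
    push_cast
    rw [show z + ((n : ℂ) + 1) = z + n + 1 by ring, this, ih z hz]
    ring

lemma per_int (D : Curve h ψ H) (n : ℤ) : ∀ z ∈ T5.Str h, ψ (z + n) = ψ z + 2 * Real.pi * n := by
  intro z hz
  obtain ⟨m, hm | hm⟩ := n.eq_nat_or_neg
  · subst hm
    simpa using per_nat D m z hz
  · subst hm
    have hz' : z - m ∈ T5.Str h := by
      have hz1 : |z.im| < h := hz
      show |(z - m).im| < h
      simpa using hz1
    have := per_nat D m (z - m) hz'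
    rw [sub_add_cancel] at this
    push_cast
    rw [this, show z + -(m : ℂ) = z - m by ring]
    ring

lemma dper_int (D : Curve h ψ H) (n : ℤ) : ∀ z ∈ T5.Str h, deriv ψ (z + n) = deriv ψ z := by
  intro z hz
  have ho : T5.Str h ∈ 𝓝 z := (T5.isOpen_Str h).mem_nhds hz
  have h1 : (fun w => ψ (w + n)) =ᶠ[𝓝 z] fun w => ψ w + 2 * Real.pi * n := by
    filter_upwards [ho] with w hw
    exact per_int D n w hw
  have h2 := h1.deriv_eq
  rw [deriv_add_const] at h2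
  rw [← h2]
  exact (deriv_comp_add_const (f := ψ) (n : ℂ) z).symm

/-- uniform continuity of `ψ` and `ψ'` on closed substrips -/
theorem mod_cont (D : Curve h ψ H) {κ ε : ℝ} (hκ : 0 < κ) (hε : 0 < ε) :
    ∃ k > 0, ∀ b b' : ℂ, |b.im| ≤ h - κ → ‖b' - b‖ ≤ k →
      ‖ψ b' - ψ b‖ ≤ ε ∧ ‖deriv ψ b' - deriv ψ b‖ ≤ ε := by
  set C : Set ℂ := {z | |z.re| ≤ 2 ∧ |z.im| ≤ h - κ / 2} with hC
  have hCc : IsCompact C := by
    apply Metric.isCompact_of_isClosed_isBounded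
    · exact (isClosed_le (f := fun z : ℂ => |z.re|) (by fun_prop) continuous_const).inter
        (isClosed_le (f := fun z : ℂ => |z.im|) (by fun_prop) continuous_const)
    · rw [isBounded_iff_forall_norm_le]
      exact ⟨2 + (h - κ / 2), fun z hz => (Complex.norm_le_abs_re_add_abs_im z).trans
        (add_le_add hz.1 hz.2)⟩
  have hCs : C ⊆ T5.Str h := fun z hz => str_mem (half_pos hκ) hz.2
  have hψ : ContinuousOn ψ C := D.ψ_diff.continuousOn.mono hCs
  have hψ' : ContinuousOn (deriv ψ) C :=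
    ((D.ψ_diff.deriv (T5.isOpen_Str h)).continuousOn).mono hCs
  have h1 := Metric.uniformContinuousOn_iff.1 (hCc.uniformContinuousOn_of_continuous hψ) ε hε
  have h2 := Metric.uniformContinuousOn_iff.1 (hCc.uniformContinuousOn_of_continuous hψ') ε hε
  obtain ⟨k1, hk1, h1⟩ := h1
  obtain ⟨k2, hk2, h2⟩ := h2
  refine ⟨min (min (k1 / 2) (k2 / 2)) (min (κ / 2) 1), by positivity, ?_⟩
  intro b b' hb hbb
  have a1 : ‖b' - b‖ ≤ k1 / 2 := hbb.trans ((min_le_left _ _).trans (min_le_left _ _))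
  have a2 : ‖b' - b‖ ≤ k2 / 2 := hbb.trans ((min_le_left _ _).trans (min_le_right _ _))
  have a3 : ‖b' - b‖ ≤ κ / 2 := hbb.trans ((min_le_right _ _).trans (min_le_left _ _))
  have a4 : ‖b' - b‖ ≤ 1 := hbb.trans ((min_le_right _ _).trans (min_le_right _ _))
  set n : ℤ := -⌊b.re⌋ with hn
  have f1 : 0 ≤ b.re + n := by rw [hn]; push_cast; linarith [Int.floor_le b.re]
  have f2 : b.re + n ≤ 1 := by rw [hn]; push_cast; linarith [(Int.lt_floor_add_one b.re).le]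
  have g1 : b + n ∈ C := by
    refine ⟨?_, ?_⟩
    · have : (b + n).re = b.re + n := by simp
      rw [this, abs_of_nonneg f1]; linarith
    · have : (b + n).im = b.im := by simp
      rw [this]; linarith
  have g2 : b' + n ∈ C := by
    have r1 := (abs_le.1 ((Complex.abs_re_le_norm (b' - b)).trans a4))
    have r2 := (abs_le.1 ((Complex.abs_im_le_norm (b' - b)).trans a3))
    rw [Complex.sub_re] at r1
    rw [Complex.sub_im] at r2
    have hb' := abs_le.1 hb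
    refine ⟨?_, ?_⟩
    · have : (b' + n).re = b'.re + n := by simp
      rw [this, abs_le]; constructor <;> linarith [r1.1, r1.2]
    · have : (b' + n).im = b'.im := by simp
      rw [this, abs_le]; constructor <;> linarith [r2.1, r2.2, hb'.1, hb'.2]
  have m1 : b ∈ T5.Str h := str_mem hκ hb
  have m2 : b' ∈ T5.Str h := by
    have := hCs g2
    show |b'.im| < h
    have e : |(b' + n).im| < h := this
    simpa using e
  have d0 : dist (b' + n) (b + n) = ‖b' - b‖ := by rw [dist_eq_norm]; congr 1; ring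
  constructor
  · have := h1 _ g2 _ g1 (by rw [d0]; linarith)
    rw [dist_eq_norm, per_int D n b' m2, per_int D n b m1] at this
    have e : ψ b' + 2 * Real.pi * n - (ψ b + 2 * Real.pi * n) = ψ b' - ψ b := by ring
    rw [e] at this
    exact this.le
  · have := h2 _ g2 _ g1 (by rw [d0]; linarith)
    rw [dist_eq_norm, dper_int D n b' m2, dper_int D n b m1] at this
    exact this.le

/-- injectivity of `ψ` near a label, from `mod_cont` -/
theorem inj_near {κ : ℝ} (D : Curve h ψ H) (hκ : 0 < κ) : ∃ k > 0, k ≤ κ / 2 ∧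
    ∀ b0 : ℂ, |b0.im| ≤ h - κ → κ ≤ ‖deriv ψ b0‖ → ∀ b ∈ closedBall b0 k, ∀ b' ∈ closedBall b0 k,
      κ / 2 * ‖b - b'‖ ≤ ‖ψ b - ψ b'‖ := by
  obtain ⟨k, hk, hk'⟩ := mod_cont D hκ (half_pos hκ)
  refine ⟨min k (κ / 2), by positivity, min_le_right _ _, ?_⟩
  intro b0 hb0 hd b hb b' hb'
  set r := min k (κ / 2) with hr
  have hsub : ∀ z ∈ closedBall b0 r, z ∈ T5.Str h := by
    intro z hz
    rw [mem_closedBall, dist_eq_norm] at hz
    have h1 := (Complex.abs_im_le_norm (z - b0)).trans (hz.trans (min_le_right _ _))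
    rw [Complex.sub_im, abs_le] at h1
    have h2 := abs_le.1 hb0
    refine str_mem (half_pos hκ) (abs_le.2 ⟨?_, ?_⟩) <;> linarith [h1.1, h1.2, h2.1, h2.2]
  have hder : ∀ z ∈ closedBall b0 r,
      HasDerivWithinAt (fun z => ψ z - deriv ψ b0 * z) (deriv ψ z - deriv ψ b0)
        (closedBall b0 r) z := by
    intro z hz
    have h1 := ((D.ψ_diff z (hsub z hz)).differentiableAt
      ((T5.isOpen_Str h).mem_nhds (hsub z hz))).hasDerivAt
    have h2 := h1.sub ((hasDerivAt_id z).const_mul (deriv ψ b0))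
    rw [mul_one] at h2
    exact h2.hasDerivWithinAt
  have hbd : ∀ z ∈ closedBall b0 r, ‖deriv ψ z - deriv ψ b0‖ ≤ κ / 2 := by
    intro z hz
    rw [mem_closedBall, dist_eq_norm] at hz
    exact (hk' b0 z hb0 (hz.trans (min_le_left _ _))).2
  have h3 := (convex_closedBall b0 r).norm_image_sub_le_of_norm_hasDerivWithin_le hder hbd hb' hb
  have h4 : deriv ψ b0 * (b - b') = (ψ b - ψ b')
      - ((ψ b - deriv ψ b0 * b) - (ψ b' - deriv ψ b0 * b')) := by ring
  have h5 : ‖deriv ψ b0‖ * ‖b - b'‖ ≤ ‖ψ b - ψ b'‖ + κ / 2 * ‖b - b'‖ := by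
    rw [← norm_mul, h4]
    exact (norm_sub_le _ _).trans (by gcongr)
  have h6 : κ * ‖b - b'‖ ≤ ‖deriv ψ b0‖ * ‖b - b'‖ := by gcongr
  linarith


/-- `cexp (2 I z)` near `1` and `z` not far from `0`: `z` is near `0` -/
theorem near_zero {z : ℂ} {ε : ℝ} (hε : ε ≤ 1 / 4) (h1 : ‖cexp (2 * I * z) - 1‖ ≤ ε)
    (h2 : ‖z‖ ≤ 1) : ‖z‖ ≤ ε := by
  have hpi := Real.pi_gt_three
  have h3 : Complex.log (cexp (2 * I * z)) = 2 * I * z := by
    apply Complex.log_exp
    · have : (2 * I * z).im = 2 * z.re := by simp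
      rw [this]
      have := abs_le.1 ((Complex.abs_re_le_norm z).trans h2)
      linarith [this.1]
    · have : (2 * I * z).im = 2 * z.re := by simp
      rw [this]
      have := abs_le.1 ((Complex.abs_re_le_norm z).trans h2)
      linarith [this.2]
  have h4 := Complex.norm_log_one_add_half_le_self (z := cexp (2 * I * z) - 1) (by linarith)
  rw [add_sub_cancel, h3] at h4
  have h5 : ‖2 * I * z‖ = 2 * ‖z‖ := by simp
  rw [h5] at h4
  have := norm_nonneg (cexp (2 * I * z) - 1)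
  linarith

/-- **BOOTSTRAP** -/
theorem boot (D : Curve h ψ H) {κ k₀ : ℝ} (hκ : 0 < κ) (hk₀ : 0 < k₀) :
    ∃ k > 0, k ≤ k₀ ∧ k ≤ κ / 2 ∧ ∃ kφ > 0, ∃ ε > 0, ∀ (s s1 : ℝ) (B φ : ℝ → ℂ) (b0 φ0 : ℂ),
      s ≤ s1 → ContinuousOn B (Icc s s1) → |b0.im| ≤ h - κ → κ ≤ ‖deriv ψ b0‖ →
      ‖cexp (2 * I * (φ0 - ψ b0)) - 1‖ ≤ ε → ‖B s1 - b0‖ ≤ k →
      (∀ t ∈ Icc s s1, ‖φ t - φ0‖ ≤ kφ) →
      (∀ t ∈ Icc s s1, (∀ t' ∈ Icc t s1, ‖B t' - b0‖ ≤ k) →
        ‖cexp (2 * I * (φ t - ψ (B t))) - 1‖ ≤ ε) →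
      ∀ t ∈ Icc s s1, ‖B t - b0‖ ≤ k / 2 ∧ κ / 2 * ‖B t - b0‖ ≤ ‖φ t - φ0‖ + 4 * ε ∧
        ‖(φ t - ψ (B t)) - (φ0 - ψ b0)‖ ≤ 4 * ε ∧ κ / 2 ≤ ‖deriv ψ (B t)‖ ∧
        |(B t).im| ≤ h - κ / 2 := by
  obtain ⟨k1, hk1, hk1κ, hinj⟩ := inj_near D hκ
  obtain ⟨k2, hk2, hmod⟩ := mod_cont D hκ (show 0 < min (1 / 4) (κ / 2) by positivity)
  set k : ℝ := min (min k1 k2) k₀ with hk
  have hk0 : 0 < k := by positivity
  have kk1 : k ≤ k1 := (min_le_left _ _).trans (min_le_left _ _)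
  have kk2 : k ≤ k2 := (min_le_left _ _).trans (min_le_right _ _)
  set ε : ℝ := min (1 / 16) (κ * k / 32) with hε
  have hε0 : 0 < ε := by positivity
  have hε1 : ε ≤ 1 / 16 := min_le_left _ _
  have hε2 : ε ≤ κ * k / 32 := min_le_right _ _
  set kφ : ℝ := min (1 / 4) (κ * k / 8) with hkφ
  have hkφ1 : kφ ≤ 1 / 4 := min_le_left _ _
  have hkφ2 : kφ ≤ κ * k / 8 := min_le_right _ _
  refine ⟨k, hk0, min_le_right _ _, kk1.trans hk1κ, kφ, by positivity, ε, hε0, ?_⟩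
  intro s s1 B φ b0 φ0 hs hB hb0 hd hroot htop hφ hcol
  have hφ00 : ‖φ0 - φ0‖ = 0 := by simp
  -- pointwise step
  have key : ∀ t ∈ Icc s s1, (∀ t' ∈ Icc t s1, ‖B t' - b0‖ ≤ k) →
      ‖B t - b0‖ ≤ k / 2 ∧ κ / 2 * ‖B t - b0‖ ≤ ‖φ t - φ0‖ + 4 * ε ∧
        ‖(φ t - ψ (B t)) - (φ0 - ψ b0)‖ ≤ 4 * ε ∧ κ / 2 ≤ ‖deriv ψ (B t)‖ ∧
        |(B t).im| ≤ h - κ / 2 := by
    intro t ht hc
    have hBt := hc t (left_mem_Icc.2 ht.2)
    have c1 := hcol t ht hc
    have c2 := hmod b0 (B t) hb0 (hBt.trans kk2)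
    have c3 : ‖ψ (B t) - ψ b0‖ ≤ 1 / 4 := c2.1.trans (min_le_left _ _)
    have c4 : ‖deriv ψ (B t) - deriv ψ b0‖ ≤ κ / 2 := c2.2.trans (min_le_right _ _)
    set z : ℂ := (φ t - ψ (B t)) - (φ0 - ψ b0) with hz
    have hz1 : ‖z‖ ≤ 1 := by
      have e : z = (φ t - φ0) - (ψ (B t) - ψ b0) := by rw [hz]; ring
      rw [e]
      refine (norm_sub_le _ _).trans ?_
      have := hφ t ht
      linarith
    have hE : ‖cexp (2 * I * z) - 1‖ ≤ 4 * ε := by
      set E1 := cexp (2 * I * (φ t - ψ (B t))) with hE1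
      set E0 := cexp (2 * I * (φ0 - ψ b0)) with hE0
      have e1 : cexp (2 * I * z) = E1 / E0 := by
        rw [hE1, hE0, ← Complex.exp_sub, hz]; congr 1; ring
      have hE0n : 1 / 2 ≤ ‖E0‖ := by
        have h1 : ‖(1 : ℂ)‖ ≤ ‖E0‖ + ‖E0 - 1‖ := by
          have := norm_sub_le E0 (E0 - 1)
          simpa using this
        rw [norm_one] at h1
        linarith
      have hE0' : E0 ≠ 0 := Complex.exp_ne_zero _
      have e2 : E1 / E0 - 1 = ((E1 - 1) - (E0 - 1)) / E0 := by field_simp; ring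
      rw [e1, e2, norm_div, div_le_iff₀ (by linarith)]
      refine (norm_sub_le _ _).trans ?_
      nlinarith
    have hzε : ‖z‖ ≤ 4 * ε := near_zero (by linarith) hE hz1
    have hi := hinj b0 hb0 hd (B t) (by rw [mem_closedBall, dist_eq_norm]; exact hBt.trans kk1)
      b0 (by rw [mem_closedBall, dist_self]; exact hk1.le)
    have hψ : ‖ψ (B t) - ψ b0‖ ≤ ‖φ t - φ0‖ + 4 * ε := by
      have e : ψ (B t) - ψ b0 = (φ t - φ0) - z := by rw [hz]; ring
      rw [e]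
      exact (norm_sub_le _ _).trans (by linarith)
    have hi2 : κ / 2 * ‖B t - b0‖ ≤ ‖φ t - φ0‖ + 4 * ε := hi.trans hψ
    have hi3 : ‖B t - b0‖ ≤ k / 2 := by
      have h1 := hφ t ht
      have h2 : κ / 2 * ‖B t - b0‖ ≤ κ / 2 * (k / 2) := by
        calc κ / 2 * ‖B t - b0‖ ≤ ‖φ t - φ0‖ + 4 * ε := hi2
          _ ≤ κ * k / 8 + 4 * (κ * k / 32) := by linarith
          _ = κ / 2 * (k / 2) := by ring
      exact le_of_mul_le_mul_left h2 (by positivity)
    refine ⟨hi3, hi2, hzε, ?_, ?_⟩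
    · have h1 : ‖deriv ψ b0‖ ≤ ‖deriv ψ (B t)‖ + ‖deriv ψ (B t) - deriv ψ b0‖ := by
        have := norm_sub_le (deriv ψ (B t)) (deriv ψ (B t) - deriv ψ b0)
        simpa using this
      linarith
    · have h1 := (Complex.abs_im_le_norm (B t - b0)).trans hi3
      rw [Complex.sub_im, abs_le] at h1
      have h2 := abs_le.1 hb0
      have h3 : k ≤ κ / 2 := kk1.trans hk1κ
      rw [abs_le]
      constructor <;> linarith [h1.1, h1.2, h2.1, h2.2]
  -- continuity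
  have main : ∀ t ∈ Icc s s1, ∀ t' ∈ Icc t s1, ‖B t' - b0‖ ≤ k := by
    by_contra hcon
    push Not at hcon
    obtain ⟨t0, ht0, t0', ht0', hbad⟩ := hcon
    have ht0s : t0' ∈ Icc s s1 := ⟨ht0.1.trans ht0'.1, ht0'.2⟩
    -- the set of scales above which the label is good
    set S : Set ℝ := {t | t ∈ Icc s s1 ∧ k < ‖B t - b0‖} with hS
    have hSne : S.Nonempty := ⟨t0', ht0s, hbad⟩
    have hSb : BddAbove S := ⟨s1, fun t ht => ht.1.2⟩
    set τ : ℝ := sSup S with hτ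
    have hτ1 : t0' ≤ τ := le_csSup hSb ⟨ht0s, hbad⟩
    have hτ2 : τ ≤ s1 := csSup_le hSne fun t ht => ht.1.2
    have hτI : τ ∈ Icc s s1 := ⟨ht0s.1.trans hτ1, hτ2⟩
    have hcont : ContinuousOn (fun t => ‖B t - b0‖) (Icc s s1) :=
      (hB.sub continuousOn_const).norm
    have habove : ∀ t, τ < t → t ≤ s1 → ‖B t - b0‖ ≤ k := by
      intro t h1 h2
      by_contra h3
      push Not at h3
      exact absurd (le_csSup hSb (show t ∈ S from ⟨⟨hτI.1.trans h1.le, h2⟩, h3⟩)) (not_le.2 h1)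
    have hτle : ‖B τ - b0‖ ≤ k := by
      rcases eq_or_lt_of_le hτ2 with h1 | h1
      · rw [h1]; exact htop
      · have h2 : Tendsto (fun t => ‖B t - b0‖) (𝓝[Ioc τ s1] τ) (𝓝 ‖B τ - b0‖) :=
          (hcont τ hτI).mono (fun t ht => ⟨hτI.1.trans ht.1.le, ht.2⟩)
        have hne : (𝓝[Ioc τ s1] τ).NeBot := by
          rw [← mem_closure_iff_nhdsWithin_neBot, closure_Ioc h1.ne]
          exact left_mem_Icc.2 h1.le
        exact le_of_tendsto h2 (eventually_nhdsWithin_of_forall fun t ht => habove t ht.1 ht.2)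
    have hk2 := (key τ hτI (fun t' ht' => by
      rcases eq_or_lt_of_le ht'.1 with h1 | h1
      · rw [← h1]; exact hτle
      · exact habove t' h1 ht'.2)).1
    -- near τ the label is good: contradiction with the supremum
    have h3 : ∀ᶠ t in 𝓝[Icc s s1] τ, ‖B t - b0‖ < k :=
      (hcont τ hτI).eventually (gt_mem_nhds (by linarith))
    obtain ⟨r, hr, h4⟩ := Metric.mem_nhdsWithin_iff.1 h3
    obtain ⟨t, htS, htτ⟩ := exists_lt_of_lt_csSup hSne (show τ - r < sSup S by rw [← hτ]; linarith)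
    have h5 : t ≤ τ := le_csSup hSb htS
    have h6 : ‖B t - b0‖ < k := h4 ⟨by
      rw [mem_ball, Real.dist_eq, abs_lt]; constructor <;> linarith, htS.1⟩
    exact absurd htS.2 (not_lt.2 h6.le)
  intro t ht
  exact key t ht (main t ht)

end Curve

end Crest.Agent.R102.Boot172
end
end

-- ▼ part R102/ColPhi_841

/-!
Row 102, T1-B, block EDGE / SLOW (helper841): **ColPhi** (literal of 859 / 486) from the uniform
collapse `Coll841.uc` and the bootstrap `Boot172.boot`.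
-/

set_option autoImplicit false

open Set Filter Topology Metric MeasureTheory Complex

noncomputable section

namespace Crest.Agent.R102.ColPhi841

open Crest.Agent.R102.Sup115 (HDu Dp E2 MaxiX GoodU)
open Crest.Agent.R102.S5 (Half bl ray Cn)
open Crest.Agent.R102.Edge255
open Crest.Agent.R102.Coll841
open Crest.Agent.R102.SlowJ486 (Base EvS ColPhi)
open Crest.Agent.R102.Chain859 (V rho)

theorem ball_sub_Wg {m : ℝ} (hm : 0 ≤ m) : closedBall z0 (1 / 10) ⊆ Wg m := by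
  intro q hq
  rw [mem_closedBall, dist_eq_norm, Prod.norm_def, max_le_iff] at hq
  obtain ⟨h1, h2⟩ := hq
  have a1 := (Complex.abs_im_le_norm _).trans h1
  have a2 := (Complex.abs_im_le_norm _).trans h2
  simp only [z0, Prod.fst_sub, Prod.snd_sub, Complex.sub_im, Complex.neg_im, Complex.I_im] at a1 a2
  have e1 : (I / 4 : ℂ).im = 1 / 4 := by simp
  rw [e1] at a2
  have b1 := abs_le.1 a1
  have b2 := abs_le.1 a2
  have hp : 0 < q.2.im := by linarith
  refine ⟨hp, ?_⟩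
  have : 0 ≤ m * q.2.im := mul_nonneg hm hp.le
  linarith

theorem ray_mem {u0 R d : ℝ} {e : ℝ × ℝ} {t : ℝ} (ht : 0 < t) (hd : t < d)
    (hR : |e.2 - u0| + t ≤ R) : ray e t ∈ Dp u0 R d := by
  have h1 : (ray e t).1.im = -t := by simp [ray, bl]
  have h2 : (ray e t).2.im = t / 4 := by simp [ray, bl]; ring
  refine ⟨by rw [h1]; linarith, by rw [h1]; linarith, ?_, ?_⟩
  · rw [mem_ball, dist_eq_norm]
    have e1 : (ray e t).2 - (u0 : ℂ) = ((e.2 - u0 : ℝ) : ℂ) + (t : ℂ) * (I / 4) := by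
      simp [ray, bl]; ring
    rw [e1]
    refine lt_of_le_of_lt (norm_add_le _ _) ?_
    rw [Complex.norm_real, Real.norm_eq_abs, norm_mul, Complex.norm_real, Real.norm_eq_abs,
      abs_of_pos ht]
    have : ‖(I / 4 : ℂ)‖ = 1 / 4 := by simp
    rw [this]; linarith
  · show 0 < (ray e t).2.im
    rw [h2]; positivity

theorem continuous_ray (e : ℝ × ℝ) : Continuous (ray e) := by
  unfold ray bl; fun_prop

theorem colPhi : ColPhi := by
  intro u0 R d h ψ H A φ p B X L hED u s₀ a g hu hu0 ha hg hRig κ hκ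
  have hκ2 : 0 < κ / 2 := half_pos hκ
  obtain ⟨k1, hk1, hmod⟩ := Boot172.mod_cont hED.curve hκ2 (show 0 < κ / 4 by positivity)
  obtain ⟨k, hk, hkk1, hkκ, kφ, hkφ, εb, hεb, hboot⟩ := Boot172.boot hED.curve hκ2 hk1
  refine ⟨kφ, hkφ, κ / 8, by positivity, ?_⟩
  intro ε hε K hK hKc K' hK' hKc'
  have hκ8 : 0 < κ / 8 := by positivity
  -- the two collapses
  obtain ⟨ρa, hρa, Ha⟩ := uc hED hu ha hg hRig hκ hκ8 (lt_min hεb hk)
    (K := {z0}) (K' := closedBall z0 (1 / 10) ∪ Sh {z0})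
    (singleton_subset_iff.2 (z0_mem (by linarith))) isCompact_singleton
    (union_subset (ball_sub_Wg ha) (Sh_sub (singleton_subset_iff.2 (z0_mem ha))))
    ((isCompact_closedBall _ _).union (isCompact_Sh isCompact_singleton))
  obtain ⟨ρb, hρb, Hb⟩ := uc hED hu ha hg hRig hκ hκ8 hε hK hKc hK' hKc'
  refine ⟨min ρa ρb, lt_min hρa hρb, ?_⟩
  intro ρ δ U hρ hBase
  obtain ⟨δa, hδa, Ha⟩ := Ha ρ δ U (hρ.trans (min_le_left _ _)) hBase.ρ_pos hBase.δ_pos
    hBase.closed hBase.mem hBase.e2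
  obtain ⟨δb, hδb, Hb⟩ := Hb ρ δ U (hρ.trans (min_le_right _ _)) hBase.ρ_pos hBase.δ_pos
    hBase.closed hBase.mem hBase.e2
  refine ⟨min δa δb, lt_min hδa hδb, ?_⟩
  intro x hx σ hσ hbal
  obtain ⟨sa, hsa, Ha⟩ := Ha x (hx.trans_le (min_le_left _ _)) σ hσ hbal
  obtain ⟨sb, hsb, Hb⟩ := Hb x (hx.trans_le (min_le_right _ _)) σ hσ hbal
  have hr₀p : 0 < (R - |u - u0|) / 8 := by
    have : |u - u0| < R := abs_lt.2 ⟨by linarith [hu.1], by linarith [hu.2]⟩
    linarith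
  refine ⟨min (min sa sb) (min (σ / 2) (min (d / 8) ((R - |u - u0|) / 8))),
    lt_min (lt_min hsa hsb) (lt_min (half_pos hσ) (lt_min (by have := hED.d_pos; linarith)
      hr₀p)), ?_⟩
  intro s1 hs1 hs1le p' s' hV hinf
  have l1 : s1 ≤ sa := hs1le.trans ((min_le_left _ _).trans (min_le_left _ _))
  have l2 : s1 ≤ sb := hs1le.trans ((min_le_left _ _).trans (min_le_right _ _))
  have l3 : s1 ≤ σ / 2 := hs1le.trans ((min_le_right _ _).trans (min_le_left _ _))
  have l4 : s1 ≤ d / 8 := hs1le.trans ((min_le_right _ _).trans ((min_le_right _ _).trans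
    (min_le_left _ _)))
  have l5 : s1 ≤ (R - |u - u0|) / 8 := hs1le.trans ((min_le_right _ _).trans
    ((min_le_right _ _).trans (min_le_right _ _)))
  have Ha := Ha s1 hs1 l1
  have Hb := Hb s1 hs1 l2
  obtain ⟨hs', hs's1, hp', hcol⟩ := hV
  have hd0 := hED.d_pos
  -- the root window
  have hIr : Intr h κ ψ B (x, u) s1 := hbal s1 ⟨hs1, by linarith⟩
  have hS0 := Ha (x, u) s1 hs1 le_rfl (by simp [hs1.le])
    (by rw [infDist_zero_of_mem (show (x, u).2 ∈ U from hBase.mem)]; exact hs1.le)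
    (fun t ht => by
      obtain rfl : t = s1 := le_antisymm ht.2 ht.1
      exact intr_mono (by linarith) hIr)
  set b0 : ℂ := B (ray (x, u) s1) with hb0
  have hb0im : |b0.im| ≤ h - κ := hIr.1
  have hb0y : κ / 2 ≤ ‖deriv ψ b0‖ := by
    obtain ⟨q, hq, hy⟩ := hIr.2
    have h1 : ‖B (bl (x, u) s1 q) - b0‖ ≤ k1 :=
      ((hS0.2 q (Or.inl hq)).trans (min_le_right _ _)).trans hkk1
    have h2 := (hmod b0 _ (by linarith) h1).2
    have h3 := norm_sub_norm_le (deriv ψ (B (bl (x, u) s1 q))) (deriv ψ b0)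
    linarith
  have hexp0 : ‖cexp (2 * I * (φ (ray (x, u) s1) - ψ b0)) - 1‖ ≤ εb :=
    (hS0.1 z0 rfl).1.trans (min_le_left _ _)
  have hBs1 : ‖B (ray p' s1) - b0‖ ≤ k := by
    rw [Prod.dist_eq, max_le_iff, Real.dist_eq, Real.dist_eq] at hp'
    have hv1 : |(p'.1 - x) / s1| ≤ 1 := by
      rw [abs_div, abs_of_pos hs1, div_le_one hs1]; exact hp'.1
    have hv2 : |(p'.2 - u) / s1| ≤ 1 := by
      rw [abs_div, abs_of_pos hs1, div_le_one hs1]; exact hp'.2
    have h1 := hS0.2 _ (Or.inr (mem_Sh (K := {z0}) rfl (v := ((p'.1 - x) / s1, (p'.2 - u) / s1))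
      hv1 hv2))
    have h2 : ray p' s1 = bl (x, u) s1 (sh ((p'.1 - x) / s1, (p'.2 - u) / s1) z0) :=
      bl_sh (e := (x, u)) (e' := p') hs1.ne' z0
    rw [h2]
    exact h1.trans (min_le_right _ _)
  -- interior windows from the label
  have hInt : ∀ t, 0 < t → ‖B (ray p' t) - b0‖ ≤ k → Intr h (κ / 8) ψ B p' t := by
    intro t _ hb
    refine ⟨?_, z0, by simp, ?_⟩
    · have h1 := (Complex.abs_im_le_norm (B (ray p' t) - b0)).trans hb
      rw [Complex.sub_im] at h1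
      have h2 := abs_sub_abs_le_abs_sub (B (ray p' t)).im b0.im
      linarith
    · have h2 := (hmod b0 _ (by linarith) (hb.trans hkk1)).2
      have h3 := norm_sub_norm_le (deriv ψ b0) (deriv ψ (B (ray p' t)))
      rw [norm_sub_rev] at h3
      show κ / 8 ≤ ‖deriv ψ (B (ray p' t))‖
      linarith
  have hcont : ContinuousOn (fun t => B (ray p' t)) (Icc s' s1) := by
    refine (hED.B_diff.mono hED.Dp_X).continuousOn.comp (continuous_ray p').continuousOn ?_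
    intro t ht
    have ht0 : 0 < t := hs'.trans_le ht.1
    refine ray_mem ht0 (by linarith [ht.2]) ?_
    rw [Prod.dist_eq, max_le_iff, Real.dist_eq, Real.dist_eq] at hp'
    have h1 : |p'.2 - u0| ≤ |p'.2 - u| + |u - u0| := abs_sub_le _ _ _
    have h2 := hp'.2
    have h3 := ht.2
    simp only at h2
    have := abs_nonneg (u - u0)
    linarith
  have hfin := hboot s' s1 (fun t => B (ray p' t)) (fun t => φ (ray p' t)) b0
    (φ (ray (x, u) s1)) hs's1 hcont (by linarith) hb0y hexp0 hBs1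
    (fun t ht => hcol t ht.1 ht.2) (fun t ht hB => by
      have ht0 : 0 < t := hs'.trans_le ht.1
      have h1 := Ha p' t ht0 ht.2 hp' (hinf.trans ht.1)
        (fun t' ht' => hInt t' (ht0.trans_le ht'.1) (hB t' ht'))
      exact ((h1.1 z0 rfl).1).trans (min_le_left _ _))
  have hI : ∀ t ∈ Icc s' s1, Intr h (κ / 8) ψ B p' t := fun t ht =>
    hInt t (hs'.trans_le ht.1) ((hfin t ht).1.trans (by linarith))
  exact ⟨hI s' ⟨le_rfl, hs's1⟩, Hb p' s' hs' hs's1 hp' hinf hI⟩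

end Crest.Agent.R102.ColPhi841
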