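import Crest.Agent.R102.LemG2_864

/-!
Row 102, T1-B, step 5 (1) (helper300): Schottky chains inside a union of cones.

`cone_chain`: `F : ℂ × ℂ → ℂ` omits `0, 1` on the union of two cones with apexes
`(x0 + i l0, u0)`, `(x1 + i l1, u1)`; then `1 + |log |F||` at a point of the second cone at depth
`d` is at most `C (r / d)^S` times its value at depth `r` below the first apex.
-/

set_option autoImplicit false

open Set Filter Metric Complex Topology

namespace Crest.Agent.R102.F300

open Crest.Agent.R102.G864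

/-- `1 + |log ‖F q‖|` -/
noncomputable def HE {E : Type*} (F : E → ℂ) (q : E) : ℝ := 1 + |Real.log ‖F q‖|

theorem one_le_HE {E : Type*} (F : E → ℂ) (q : E) : 1 ≤ HE F q := by
  unfold HE; linarith [abs_nonneg (Real.log ‖F q‖)]

variable {E : Type*} [NormedAddCommGroup E] [NormedSpace ℂ E]

/-- `F` holomorphic on the open set `W`, omits `0` and `1` -/
structure OmE (W : Set E) (F : E → ℂ) : Prop where
  open_ : IsOpen W
  diff : DifferentiableOn ℂ F W
  ne0 : ∀ z ∈ W, F z ≠ 0
  ne1 : ∀ z ∈ W, F z ≠ 1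

theorem HE_step {W : Set E} {F : E → ℂ} (h : OmE W F) {w w' : E} {r : ℝ} (hr : 0 < r)
    (hb : ball w r ⊆ W) (hw : ‖w' - w‖ ≤ r / 2) : HE F w' ≤ K1 * HE F w := by
  have hK := one_le_K1
  have hH := one_le_HE F w
  rcases eq_or_ne w' w with rfl | hne
  · nlinarith
  have hn : 0 < ‖w' - w‖ := norm_pos_iff.2 (sub_ne_zero.2 hne)
  set n : ℝ := ‖w' - w‖ with hnd
  set v : E := ((1 / n : ℝ) : ℂ) • (w' - w) with hv
  have hvn : ‖v‖ = 1 := by
    rw [hv, norm_smul, norm_real, Real.norm_eq_abs, abs_of_pos (by positivity), ← hnd]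
    field_simp
  set f : ℂ → ℂ := fun ζ => F (w + ζ • v) with hf
  have hmaps : ∀ ζ ∈ ball (0 : ℂ) r, w + ζ • v ∈ ball w r := by
    intro ζ hζ
    rw [mem_ball, dist_eq_norm, add_sub_cancel_left, norm_smul, hvn, mul_one]
    rwa [mem_ball, dist_zero_right] at hζ
  have hOm : Om (ball (0 : ℂ) r) f := by
    refine ⟨isOpen_ball, ?_, ?_, ?_⟩
    · intro ζ hζ
      have h1 : DifferentiableAt ℂ F (w + ζ • v) :=
        h.diff.differentiableAt (h.open_.mem_nhds (hb (hmaps ζ hζ)))
      have h2 : DifferentiableAt ℂ (fun ζ : ℂ => w + ζ • v) ζ := by fun_prop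
      exact (h1.comp ζ h2).differentiableWithinAt
    · intro ζ hζ
      exact h.ne0 _ (hb (hmaps ζ hζ))
    · intro ζ hζ
      exact h.ne1 _ (hb (hmaps ζ hζ))
  have h1 := HH_step hOm (w := 0) (w' := (n : ℂ)) hr subset_rfl
    (by rw [sub_zero, norm_real, Real.norm_eq_abs, abs_of_pos hn]; exact hw)
  have e1 : f (n : ℂ) = F w' := by
    rw [hf]
    simp only
    congr 1
    rw [hv, smul_smul, ← ofReal_mul, mul_one_div_cancel hn.ne', ofReal_one, one_smul]
    abel
  have e0 : f 0 = F w := by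
    rw [hf]; simp
  unfold HH at h1
  rw [e1, e0] at h1
  exact h1







end Crest.Agent.R102.F300
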