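import Crest.Agent.R102.TransB_575
import Crest.Agent.R102.Choice_575

-- ▼ part R102/TransC_575
section

/-!
Row 102, part (C), leaf H3, (T) TRANSFER, part C: total vertices, observables, the hat vertex.
-/

set_option linter.unusedSectionVars false
set_option autoImplicit false

namespace Crest.Agent.R102.CT575

open H3 Glue798 PowerSeries Finset Set Topology TopologicalSpace Metric Filter

noncomputable section

/-! ### observables -/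

section obs

variable {K H H' Λ : Type*} [Field K] [CommRing H] [CommRing H'] [CommRing Λ]
  {N : ℕ} {α : Type*}

theorem obs_congr2 (i : K →+* Λ) {μ μ' : Λ} {Φ : ℕ → H →+* Λ} {Φ' : ℕ → H' →+* Λ}
    (x : Fin N → α → H) (x' : Fin N → α → H') (hμ : μ = μ')
    (hΦ : ∀ j : Fin N, ∀ a, Φ j (x j a) = Φ' j (x' j a)) : obs i μ Φ x = obs i μ' Φ' x' := by
  refine MvPolynomial.ringHom_ext (fun c => ?_) (fun o => ?_)
  · simp [obs]
  · cases o with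
    | none => simp [obs, hμ]
    | some p => simp [obs, hΦ p.1 p.2]

theorem obs_mem [Algebra K Λ] (Γ : Subalgebra K Λ) {μ : Λ} {Φ : ℕ → H →+* Λ}
    (x : Fin N → α → H) (hμ : μ ∈ Γ) (hΦ : ∀ j : Fin N, ∀ a, Φ j (x j a) ∈ Γ)
    (Q : MvPolynomial (Option (Fin N × α)) K) : obs (algebraMap K Λ) μ Φ x Q ∈ Γ := by
  induction Q using MvPolynomial.induction_on with
  | C a => rw [obs, MvPolynomial.coe_eval₂Hom, MvPolynomial.eval₂_C]; exact Γ.algebraMap_mem a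
  | add p q hp hq => rw [map_add]; exact add_mem hp hq
  | mul_X p i hp =>
    rw [map_mul]
    refine mul_mem hp ?_
    rw [obs, MvPolynomial.coe_eval₂Hom, MvPolynomial.eval₂_X]
    cases i with
    | none => exact hμ
    | some p => exact hΦ p.1 p.2

theorem eval₂_mem [Algebra K Λ] (Γ : Subalgebra K Λ) {A : Type*} [CommRing A] (f : A →+* Λ)
    (hf : ∀ a, f a ∈ Γ) {u : Λ} (hu : u ∈ Γ) (P : Polynomial A) : P.eval₂ f u ∈ Γ := by
  rw [Polynomial.eval₂_eq_sum_range]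
  exact sum_mem fun i _ => mul_mem (hf _) (pow_mem hu _)

end obs

/-! ### the hat vertex -/

section hat

variable {K Hh S S' : Type*} [Field K] [CharZero K] [CommRing Hh] [Algebra K Hh] [CommRing S]
  [CommRing S']

theorem cDz {dh : Derivation K Hh Hh} {zh : Hh} (hz : dh zh = 1) :
    cD dh (C zh) = (1 : Hh⟦X⟧) := by rw [cD_C, hz, map_one]

theorem hat_unit {dh : Derivation K Hh Hh} (φ : Hh →+* S) (Gh : Hh⟦X⟧) {m0 : S}
    (hu : IsUnit (φ (dh (constantCoeff Gh)) - m0)) :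
    IsUnit (constantCoeff (PowerSeries.map φ (cD dh Gh) - C m0)) := by
  rw [map_sub, H3.constantCoeff_map, H3.constantCoeff_cD, constantCoeff_C]
  exact hu

theorem hat_exists (dh : Derivation K Hh Hh) {zh : Hh} (hz : dh zh = 1) (φ : Hh →+* S)
    (Gh : Hh⟦X⟧) {m0 k0 : S} (h0 : φ (constantCoeff Gh) = m0 * φ zh + k0)
    (hu : IsUnit (φ (dh (constantCoeff Gh)) - m0)) :
    ∃ (y : S⟦X⟧) (hy : X ∣ y), pt (cD dh) (PowerSeries.map φ) y hy Gh =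
      C m0 * pt (cD dh) (PowerSeries.map φ) y hy (C zh) + C k0 := by
  refine outer_step (cD dh) (PowerSeries.map φ) (cDz hz) Gh (C m0) (C k0) ?_ (hat_unit φ Gh hu)
  rw [map_sub, map_add, map_mul, H3.constantCoeff_map, H3.constantCoeff_map, constantCoeff_C,
    constantCoeff_C, constantCoeff_C, sub_eq_zero]
  exact h0

theorem hat_map (dh : Derivation K Hh Hh) {zh : Hh} (φ : Hh →+* S)
    (Gh : Hh⟦X⟧) {m0 k0 : S} {y : S⟦X⟧} (hy : X ∣ y)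
    (hinc : pt (cD dh) (PowerSeries.map φ) y hy Gh =
      C m0 * pt (cD dh) (PowerSeries.map φ) y hy (C zh) + C k0) (σ : S →+* S') :
    pt (cD dh) (PowerSeries.map (σ.comp φ)) (PowerSeries.map σ y) (X_dvd_mapX σ hy) Gh =
      C (σ m0) * pt (cD dh) (PowerSeries.map (σ.comp φ)) (PowerSeries.map σ y)
        (X_dvd_mapX σ hy) (C zh) + C (σ k0) := by
  have h1 : ∀ F, pt (cD dh) (PowerSeries.map (σ.comp φ)) (PowerSeries.map σ y)
      (X_dvd_mapX σ hy) F = PowerSeries.map σ (pt (cD dh) (PowerSeries.map φ) y hy F) := by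
    intro F
    have h2 := congrArg (fun Ψ : Hh⟦X⟧ →+* S'⟦X⟧ => Ψ F)
      (comp_pt (cD dh) (PowerSeries.map σ) (X_dvd_map_X σ) (PowerSeries.map φ) hy)
    simp only [RingHom.comp_apply] at h2
    rw [h2]
    refine congrArg (fun Ψ : Hh⟦X⟧ →+* S'⟦X⟧ => Ψ F) (pt_congr (cD dh) _ _ ?_ rfl)
    rw [← PowerSeries.map_comp]
  rw [h1, h1, hinc, map_add, map_mul, map_C, map_C]

theorem hat_unique (dh : Derivation K Hh Hh) {zh : Hh} (hz : dh zh = 1) (φ : Hh →+* S)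
    (Gh : Hh⟦X⟧) {m0 k0 : S} (hu : IsUnit (φ (dh (constantCoeff Gh)) - m0)) {y y' : S⟦X⟧}
    (hy : X ∣ y) (hy' : X ∣ y')
    (hinc : pt (cD dh) (PowerSeries.map φ) y hy Gh =
      C m0 * pt (cD dh) (PowerSeries.map φ) y hy (C zh) + C k0)
    (hinc' : pt (cD dh) (PowerSeries.map φ) y' hy' Gh =
      C m0 * pt (cD dh) (PowerSeries.map φ) y' hy' (C zh) + C k0) : y = y' :=
  outer_unique (cD dh) (PowerSeries.map φ) (cDz hz) Gh (C m0) (C k0) (hat_unit φ Gh hu) hy hy'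
    hinc hinc'

theorem hat_flip (dh : Derivation K Hh Hh) {zh : Hh} (hz : dh zh = 1) (φ : Hh →+* S)
    (Gh : Hh⟦X⟧) {m0 k0 : S} (hu : IsUnit (φ (dh (constantCoeff Gh)) - m0)) {y : S⟦X⟧}
    (hy : X ∣ y)
    (hinc : pt (cD dh) (PowerSeries.map φ) y hy Gh =
      C m0 * pt (cD dh) (PowerSeries.map φ) y hy (C zh) + C k0)
    (σ : S →+* S) (hσ : σ.comp φ = φ) (hm : σ m0 = m0) (hk : σ k0 = k0) :
    PowerSeries.map σ y = y := by
  have h1 := hat_map dh φ Gh hy hinc σ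
  rw [hm, hk] at h1
  have h2 : pt (cD dh) (PowerSeries.map (σ.comp φ)) (PowerSeries.map σ y) (X_dvd_mapX σ hy) =
      pt (cD dh) (PowerSeries.map φ) (PowerSeries.map σ y) (X_dvd_mapX σ hy) :=
    pt_congr (cD dh) _ _ (by rw [hσ]) rfl
  rw [h2] at h1
  exact hat_unique dh hz φ Gh hu (X_dvd_mapX σ hy) hy h1 hinc

end hat

/-! ### chain rule at a vertex -/

section crule

variable {K H T A0 : Type*} [Field K] [CharZero K] [CommRing H] [Algebra K H] [CommRing T]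
  [Algebra K T]

theorem vertex_rule (d : Derivation K H H) {z : H} (hz : d z = 1) (Da : Derivation K T T)
    (φ : H →+* T) (hφ : ∀ f, Da (φ f) = φ (d f) * Da (φ z)) {d0 : A0 → A0} {F : A0 → H⟦X⟧}
    (hFd : ∀ a, F (d0 a) = cD d (F a)) {z0 : A0} (hFz : F z0 = C z) {y : T⟦X⟧} (hy : X ∣ y)
    (x : A0) : cD Da (pt (cD d) (PowerSeries.map φ) y hy (F x)) =
      pt (cD d) (PowerSeries.map φ) y hy (F (d0 x)) *
        cD Da (pt (cD d) (PowerSeries.map φ) y hy (F z0)) := by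
  have h1 := fun f => cD_pt (cD d) Da (PowerSeries.map φ) (C (Da (φ z)))
    (fun f => cD_map_C d Da φ (Da (φ z)) hφ f) hy f
  have h2 : cD Da (pt (cD d) (PowerSeries.map φ) y hy (F z0)) = C (Da (φ z)) + cD Da y := by
    have h3 := h1 (F z0)
    rw [hFz, cDz hz, map_one, one_mul] at h3
    rw [hFz]
    exact h3
  rw [h2, hFd]
  exact h1 (F x)

end crule

section psi

variable {A0 : Type} [CommRing A0] [Algebra ℂ A0]

/-- `ψ` as a translated point -/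
theorem psi_eq_pt {V : Opens ℂ} (b : V) (del : Derivation ℂ A0 A0) {z0 : A0}
    (φ : A0 →ₐ[ℂ] ℂ⟦X⟧) (Φ : A0 →ₐ[ℂ] (Hol V)⟦X⟧) (hΦd : ∀ a, Φ (del a) = cD (DH V) (Φ a))
    (hs : (X : ℂ⟦X⟧) ∣ C (b : ℂ) - φ z0)
    (hΦ : ∀ a, PowerSeries.map (evH b : Hol V →+* ℂ) (Φ a) = ptA del φ hs a)
    (hw : (X : ℂ⟦X⟧) ∣ φ z0 - C (b : ℂ)) (a : A0) :
    φ a = pt (cD (DH V)) (PowerSeries.map (evH b : Hol V →+* ℂ)) (φ z0 - C (b : ℂ)) hw (Φ a) := by
  have h1 := pt_comp del (cD (DH V)) (Φ : A0 →+* (Hol V)⟦X⟧) hΦd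
    (PowerSeries.map (evH b : Hol V →+* ℂ)) hw
  have h2 := congrArg (fun Ψ : A0 →+* ℂ⟦X⟧ => Ψ a) h1
  simp only [RingHom.comp_apply] at h2
  have h3 : (PowerSeries.map (evH b : Hol V →+* ℂ)).comp (Φ : A0 →+* (Hol V)⟦X⟧) =
      pt del (φ : A0 →+* ℂ⟦X⟧) (C (b : ℂ) - φ z0) hs := RingHom.ext fun x => hΦ x
  have h4 : pt del ((PowerSeries.map (evH b : Hol V →+* ℂ)).comp (Φ : A0 →+* (Hol V)⟦X⟧))
      (φ z0 - C (b : ℂ)) hw = (φ : A0 →+* ℂ⟦X⟧) := by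
    have h5 : pt del ((PowerSeries.map (evH b : Hol V →+* ℂ)).comp (Φ : A0 →+* (Hol V)⟦X⟧))
      (φ z0 - C (b : ℂ)) hw = pt del (pt del (φ : A0 →+* ℂ⟦X⟧) (C (b : ℂ) - φ z0) hs)
      (φ z0 - C (b : ℂ)) hw := pt_congr del _ _ h3 rfl
    rw [h5, pt_pt]
    have h6 : pt del (φ : A0 →+* ℂ⟦X⟧) (C (b : ℂ) - φ z0 + (φ z0 - C (b : ℂ))) (dvd_add hs hw) =
        pt del (φ : A0 →+* ℂ⟦X⟧) 0 (dvd_zero _) := pt_congr del _ _ rfl (by ring)
    rw [h6, pt_zero]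
  rw [h4] at h2
  exact h2.symm

end psi

/-! ### total vertices -/

section dat

variable {g : ℂ → ℂ} {c₀ e : ℂ} {N : ℕ} {ρ r : ℝ} {β m k q q' : ℕ → ℂ × ℂ → ℂ}

/-- the vertex map, total in `i` -/
def Dat.bt (h : Dat g c₀ N ρ e r β m k q q') (i : ℕ) : Hol (bO e r) →ₐ[ℂ] Hol (UU c₀ ρ) :=
  if hi : i ≤ N then h.bs hi else h.bs (Nat.zero_le N)

theorem Dat.bt_eq (h : Dat g c₀ N ρ e r β m k q q') {i : ℕ} (hi : i ≤ N) : h.bt i = h.bs hi :=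
  dif_pos hi

theorem Dat.bt_rule (h : Dat g c₀ N ρ e r β m k q q') (i : ℕ) (v : ℂ × ℂ) (f : Hol (bO e r)) :
    pdH (UU c₀ ρ) v (h.bt i f) = h.bt i (DH _ f) * pdH (UU c₀ ρ) v (h.bt i (zH _)) := by
  by_cases hi : i ≤ N
  · rw [h.bt_eq hi, Dat.bs, pdH_compH, compH_zH]
  · rw [Dat.bt, dif_neg hi, Dat.bs, pdH_compH, compH_zH]

theorem Dat.bt_injective (h : Dat g c₀ N ρ e r β m k q q') (i : ℕ) :
    Function.Injective (h.bt i) := by
  have key : ∀ {i : ℕ} (hi : i ≤ N), Function.Injective (h.bs hi) := by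
    intro i hi
    rw [injective_iff_map_eq_zero]
    intro f hf
    have hc₀ : c₀ ∈ bO e r := h.le' (mem_ball_self h.ch.ρ_pos)
    refine Hol.eq_zero_of_eventually (bO_preconnected e r) f ⟨c₀, hc₀⟩ ?_
    filter_upwards [(bO c₀ ρ).isOpen.mem_nhds (mem_ball_self h.ch.ρ_pos)] with c hc
    have h1 := congrArg (fun F : Hol (UU c₀ ρ) => (F : UU c₀ ρ → ℂ) ⟨(c, 0), UU_h0 h.ch.ρ_pos c hc⟩) hf
    have h2 : (bH c₀ ρ β i : UU c₀ ρ → ℂ) ⟨(c, 0), UU_h0 h.ch.ρ_pos c hc⟩ = c := by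
      rw [h.bH_apply hi]; simp
    have h3 : ext0 (f : bO e r → ℂ) ((bH c₀ ρ β i : UU c₀ ρ → ℂ) ⟨(c, 0), UU_h0 h.ch.ρ_pos c hc⟩)
        = 0 := by
      rw [ext0_of_mem _ (h.bH_mem hi _)]
      exact h1
    rwa [h2] at h3
  by_cases hi : i ≤ N
  · rw [h.bt_eq hi]; exact key hi
  · rw [Dat.bt, dif_neg hi]; exact key _

/-- the vertices in `O` -/
def Dat.bo (h : Dat g c₀ N ρ e r β m k q q') (i : ℕ) : Hol (bO e r) →+* OO c₀ ρ :=
  (algebraMap (Hol (UU c₀ ρ)) (OO c₀ ρ)).comp (h.bt i : Hol (bO e r) →+* Hol (UU c₀ ρ))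

/-- an element of `Hol U` in `O` -/
abbrev aO (c₀ : ℂ) (ρ : ℝ) (F : Hol (UU c₀ ρ)) : OO c₀ ρ := algebraMap _ _ F

theorem Dat.chain_O (h : Dat g c₀ N ρ e r β m k q q') :
    H3.Chain (DH (bO e r)) (zH (bO e r)) (fun _ => gV g e r) N h.bo
      (fun i => aO c₀ ρ (hU c₀ ρ (m i))) (fun i => aO c₀ ρ (hU c₀ ρ (k i))) := by
  refine ⟨fun i hi => ?_, fun i hi => ?_, fun i hi => ?_⟩
  · simp only [Dat.bo, RingHom.comp_apply, RingHom.coe_coe, h.bt_eq hi.le]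
    rw [h.inc hi.le, h.bs_z, map_add, map_mul]
  · simp only [Dat.bo, RingHom.comp_apply, RingHom.coe_coe, h.bt_eq hi.le]
    rw [h.inc' hi, h.bs_z, map_add, map_mul]
  · simp only [Dat.bo, RingHom.comp_apply, RingHom.coe_coe, h.bt_eq hi.le]
    rw [← map_mul, h.refl hi, map_pow]

theorem Dat.unit_mO (h : Dat g c₀ N ρ e r β m k q q') {i : ℕ} (hi : i < N) :
    IsUnit (aO c₀ ρ (hU c₀ ρ (m i))) := (h.isUnit_m hi.le).map _

theorem Dat.unit_tO (h : Dat g c₀ N ρ e r β m k q q') {i : ℕ} (hi : i < N) :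
    IsUnit (h.bo i (DH _ (gV g e r)) - aO c₀ ρ (hU c₀ ρ (m i))) := by
  simp only [Dat.bo, RingHom.comp_apply, RingHom.coe_coe, h.bt_eq hi.le]
  rw [aO, ← map_sub, h.slope hi.le, map_mul]
  exact (IsLocalization.Away.algebraMap_isUnit (omH c₀ ρ)).mul ((h.isUnit_q hi.le).map _)

/-- `j ∘ pt_i : Hol D → R` -/
def Dat.ch' (h : Dat g c₀ N ρ e r β m k q q') (i : ℕ) : Hol (bO c₀ ρ) →+* RR c₀ ρ :=
  (jR c₀ ρ).comp (pt (DH (bO c₀ ρ)) C (X * h.be i) (X_dvd_X_mul (h.be i)))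

theorem Dat.lr_bo (h : Dat g c₀ N ρ e r β m k q q') {i : ℕ} (hi : i < N) :
    h.lr.comp (h.bo i) = (h.ch' i).comp (h.rs : Hol (bO e r) →+* Hol (bO c₀ ρ)) := by
  refine RingHom.ext fun f => ?_
  simp only [RingHom.comp_apply, Dat.bo, h.lr_alg, Dat.tr, RingHom.coe_coe, h.bt_eq hi.le,
    h.ta_bs hi.le, Dat.ch']

/-- vertices in `Hol W` -/
def Dat.bw (h : Dat g c₀ N ρ e r β m k q q') (i : ℕ) : Hol (bO e r) →ₐ[ℂ] Hol (WW c₀ ρ) :=
  h.rw.comp (h.bt i)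

theorem Dat.lw_bo (h : Dat g c₀ N ρ e r β m k q q') (i : ℕ) :
    h.lw.comp (h.bo i) = (h.bw i : Hol (bO e r) →+* Hol (WW c₀ ρ)) := by
  refine RingHom.ext fun f => ?_
  simp only [RingHom.comp_apply, Dat.bo, h.lw_alg, RingHom.coe_coe, Dat.bw, AlgHom.comp_apply]

end dat

end

end Crest.Agent.R102.CT575
end

-- ▼ part R102/CoreA_575

/-!
Row 102, part (C), leaf H3, CT, core A: from the deformed relation over `O⟦ε⟧` to the relation
between `m`, `u` and functions of the first vertex (application of `H3.fctR`).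
-/

set_option linter.unusedSectionVars false
set_option autoImplicit false

namespace Crest.Agent.R102.CT575

open H3 Glue798 PowerSeries Finset Set Topology TopologicalSpace Metric Filter

noncomputable section

section coreA

variable {g : ℂ → ℂ} {c₀ e : ℂ} {N : ℕ} {ρ r : ℝ} {β m k q q' : ℕ → ℂ × ℂ → ℂ}
  {A0 : Type} [CommRing A0] [Algebra ℂ A0]

/-- undeformed observables -/
def Dat.obU (h : Dat g c₀ N ρ e r β m k q q') (ρ₀ : A0 →ₐ[ℂ] Hol (bO e r)) :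
    MvPolynomial (Option (Fin N × A0)) ℂ →+* Hol (UU c₀ ρ) :=
  obs (algebraMap ℂ (Hol (UU c₀ ρ))) (hU c₀ ρ (m 0))
    (fun i => (h.bt i : Hol (bO e r) →+* Hol (UU c₀ ρ))) (fun (_ : Fin N) a => ρ₀ a)

/-- `ℂ → O⟦ε⟧` -/
def iO (c₀ : ℂ) (ρ : ℝ) : ℂ →+* (OO c₀ ρ)⟦X⟧ :=
  (C).comp ((algebraMap (Hol (UU c₀ ρ)) (OO c₀ ρ)).comp (algebraMap ℂ (Hol (UU c₀ ρ))))

/-- deformed observables -/
def Dat.obO (h : Dat g c₀ N ρ e r β m k q q') (F : ℕ → A0 →ₐ[ℂ] (Hol (bO e r))⟦X⟧)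
    (y : ℕ → (OO c₀ ρ)⟦X⟧) (hy : ∀ i, X ∣ y i) :
    MvPolynomial (Option (Fin N × A0)) ℂ →+* (OO c₀ ρ)⟦X⟧ :=
  obs (iO c₀ ρ) (C (aO c₀ ρ (hU c₀ ρ (m 0))))
    (fun i => pt (cD (DH (bO e r))) (PowerSeries.map (h.bo i)) (y i) (hy i))
    (fun (j : Fin N) a => F j a)

theorem Dat.tr_C (h : Dat g c₀ N ρ e r β m k q q') (c : ℂ) :
    h.tr (algebraMap ℂ (Hol (UU c₀ ρ)) c) = jR c₀ ρ (algebraMap ℂ (Hol (bO c₀ ρ))⟦X⟧ c) := by
  rw [Dat.tr, RingHom.comp_apply, RingHom.coe_coe, AlgHom.commutes]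

/-- deformed observables over `R⟦ε⟧` -/
def Dat.obR (h : Dat g c₀ N ρ e r β m k q q') (F : ℕ → A0 →ₐ[ℂ] (Hol (bO e r))⟦X⟧)
    (y : ℕ → (OO c₀ ρ)⟦X⟧) (hy : ∀ i, X ∣ y i) (μ : (Hol (bO c₀ ρ))⟦X⟧) :
    MvPolynomial (Option (Fin N × A0)) ℂ →+* (RR c₀ ρ)⟦X⟧ :=
  obs ((C).comp ((jR c₀ ρ).comp (algebraMap ℂ (Hol (bO c₀ ρ))⟦X⟧))) (C (jR c₀ ρ μ))
    (fun i => pt (cD (DH (bO c₀ ρ))) (PowerSeries.map (h.ch' i)) (PowerSeries.map h.lr (y i))
      (X_dvd_mapX h.lr (hy i)))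
    (fun (j : Fin N) a => PowerSeries.map (h.rs : Hol (bO e r) →+* Hol (bO c₀ ρ)) (F j a))

theorem Dat.lr_obO (h : Dat g c₀ N ρ e r β m k q q') (F : ℕ → A0 →ₐ[ℂ] (Hol (bO e r))⟦X⟧)
    (y : ℕ → (OO c₀ ρ)⟦X⟧) (hy : ∀ i, X ∣ y i) :
    (PowerSeries.map h.lr).comp (h.obO F y hy) = h.obR F y hy (h.ta (hU c₀ ρ (m 0))) := by
  rw [Dat.obO, comp_obs, Dat.obR]
  have e1 : (PowerSeries.map h.lr).comp (iO c₀ ρ) =
      (C).comp ((jR c₀ ρ).comp (algebraMap ℂ (Hol (bO c₀ ρ))⟦X⟧)) := by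
    refine RingHom.ext fun c => ?_
    simp only [RingHom.comp_apply, iO, map_C, h.lr_alg, h.tr_C]
  rw [e1]
  refine obs_congr2 _ _ _ ?_ fun j a => ?_
  · rw [map_C, aO, h.lr_alg, Dat.tr, RingHom.comp_apply, RingHom.coe_coe]
  · rw [RingHom.comp_apply]
    exact pt_push (DH (bO e r)) (DH (bO c₀ ρ)) (h.rs : Hol (bO e r) →+* Hol (bO c₀ ρ))
      (fun f => h.rs_DH f) (h.bo j) (hy j) h.lr (h.ch' j) (h.lr_bo j.2) (F j a)

theorem Dat.cc_obR (h : Dat g c₀ N ρ e r β m k q q') {ρ₀ : A0 →ₐ[ℂ] Hol (bO e r)}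
    (F : ℕ → A0 →ₐ[ℂ] (Hol (bO e r))⟦X⟧) (hFc : ∀ i a, constantCoeff (F i a) = ρ₀ a)
    (y : ℕ → (OO c₀ ρ)⟦X⟧) (hy : ∀ i, X ∣ y i) :
    (constantCoeff (R := RR c₀ ρ)).comp (h.obR F y hy (h.ta (hU c₀ ρ (m 0)))) =
      h.tr.comp (h.obU ρ₀) := by
  rw [Dat.obR, comp_obs, Dat.obU, comp_obs]
  have e1 : (constantCoeff (R := RR c₀ ρ)).comp
      ((C).comp ((jR c₀ ρ).comp (algebraMap ℂ (Hol (bO c₀ ρ))⟦X⟧))) =
      h.tr.comp (algebraMap ℂ (Hol (UU c₀ ρ))) := by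
    refine RingHom.ext fun c => ?_
    simp only [RingHom.comp_apply, h.tr_C, constantCoeff_C]
  rw [e1]
  refine obs_congr2 _ _ _ ?_ fun j a => ?_
  · rw [constantCoeff_C, Dat.tr, RingHom.comp_apply, RingHom.coe_coe]
  · rw [RingHom.comp_apply, constantCoeff_pt, H3.constantCoeff_map, H3.constantCoeff_map, hFc,
      RingHom.comp_apply]
    have h1 := congrArg (fun Ψ : Hol (bO e r) →+* RR c₀ ρ => Ψ (ρ₀ a)) (h.lr_bo j.2)
    simp only [RingHom.comp_apply, Dat.bo, h.lr_alg] at h1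
    exact h1.symm

theorem Dat.rs_injective (h : Dat g c₀ N ρ e r β m k q q') : Function.Injective h.rs :=
  haveI := bO_nonempty (c₀ := c₀) h.ch.ρ_pos
  Glue798.res_injective h.le' (bO_preconnected e r)

/-- **core A** -/
theorem Dat.coreA (h : Dat g c₀ N ρ e r β m k q q') (hN : 0 < N)
    {g0 : A0} {ρ₀ : A0 →ₐ[ℂ] Hol (bO e r)} (hρg : ρ₀ g0 = gV g e r)
    (F : ℕ → A0 →ₐ[ℂ] (Hol (bO e r))⟦X⟧) (hFc : ∀ i a, constantCoeff (F i a) = ρ₀ a)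
    (hν : ∀ i < N, ∀ l < N, i ≠ l → coeff 1 (F i g0) ≠ coeff 1 (F l g0))
    (hν0 : ∀ i < N, coeff 1 (F i g0) ≠ 0)
    (y : ℕ → (OO c₀ ρ)⟦X⟧) (hy : ∀ i, X ∣ y i) (m' k' : ℕ → (OO c₀ ρ)⟦X⟧)
    (hout : H3.Chain (cD (DH (bO e r))) (C (zH (bO e r))) (fun i => F i g0) N
      (fun i => pt (cD (DH (bO e r))) (PowerSeries.map (h.bo i)) (y i) (hy i)) m' k')
    (hm0 : m' 0 = C (aO c₀ ρ (hU c₀ ρ (m 0)))) (hk0 : k' 0 = C (aO c₀ ρ (hU c₀ ρ (k 0))))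
    (uε : (Hol (UU c₀ ρ))⟦X⟧)
    (hfl : PowerSeries.map (fl c₀ ρ : Hol (UU c₀ ρ) →+* Hol (UU c₀ ρ)) uε = uε)
    (P : Polynomial (MvPolynomial (Option (Fin N × A0)) ℂ))
    (hrel : P.eval₂ (h.obO F y hy)
      (PowerSeries.map (algebraMap (Hol (UU c₀ ρ)) (OO c₀ ρ)) uε) = 0)
    (hne : P.map (h.obU ρ₀) ≠ 0) :
    ∃ Q : Polynomial (Polynomial (Hol (bO c₀ ρ))), Q ≠ 0 ∧
      Q.eval₂ (Polynomial.eval₂RingHom (Ty (DH (bO c₀ ρ))) (h.ta (hU c₀ ρ (m 0))))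
        (h.ta (constantCoeff uε)) = 0 := by
  classical
  have hdom := isDomain_D c₀ h.ch.ρ_pos
  obtain ⟨mh, hmh⟩ := h.even h.fl_m
  obtain ⟨kh, hkh⟩ := h.even h.fl_k
  have hE : ∀ n, ∃ E, h.ta (coeff n uε) = evn E := by
    intro n
    refine h.even ?_
    have := congrArg (coeff n) hfl
    rw [coeff_map] at this
    exact this
  choose E hE using hE
  set u' : (Hol (bO c₀ ρ))⟦X⟧⟦X⟧ := PowerSeries.mk E with hu'
  have hu1 : PowerSeries.map ((jR c₀ ρ).comp evn) u' = PowerSeries.map h.tr uε := by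
    ext n
    rw [coeff_map, coeff_map, hu', coeff_mk, RingHom.comp_apply, ← hE]
    rfl
  have hu2 : PowerSeries.map h.lr (PowerSeries.map (algebraMap (Hol (UU c₀ ρ)) (OO c₀ ρ)) uε) =
      PowerSeries.map h.tr uε := by
    ext n
    rw [coeff_map, coeff_map, coeff_map, h.lr_alg]
  have hu3 : evn (constantCoeff u') = h.ta (constantCoeff uε) := by
    rw [hu', ← coeff_zero_eq_constantCoeff_apply, coeff_mk, ← hE,
      coeff_zero_eq_constantCoeff_apply]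
  have key := fctR (DH (bO c₀ ρ)) (z := zH (bO c₀ ρ)) (g := h.gD) (DH_zH _) h.isUnit_dg
    h.isUnit_d2g N hN
    (fun i => PowerSeries.map (h.rs : Hol (bO e r) →+* Hol (bO c₀ ρ)) (F i g0))
    (fun i _ => by rw [H3.constantCoeff_map, hFc, hρg]; rfl)
    (fun i hi l hl hil h1 => by
      rw [coeff_map, coeff_map] at h1
      exact hν i hi l hl hil (h.rs_injective h1))
    (fun i hi h1 => by
      rw [coeff_map] at h1
      exact hν0 i hi (h.rs_injective (h1.trans (map_zero h.rs).symm)))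
    (mh := mh) (kh := kh) (h.hline hmh hkh) (jR c₀ ρ) jR_injective (isUnit_jX h.ch.ρ_pos)
    h.be (fun i => h.ta (hU c₀ ρ (m i))) (fun i => h.ta (hU c₀ ρ (k i)))
    (fun i hi => h.be_const hi.le) h.base hmh hkh
    (fun i => PowerSeries.map h.lr (y i)) (fun i => X_dvd_mapX h.lr (hy i))
    (fun i => PowerSeries.map h.lr (m' i)) (fun i => PowerSeries.map h.lr (k' i))
    (chain_push (DH (bO e r)) (DH (bO c₀ ρ)) (h.rs : Hol (bO e r) →+* Hol (bO c₀ ρ))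
      (fun f => h.rs_DH f) hout h.lr h.ch' (fun i hi => h.lr_bo hi))
    (by rw [hm0, map_C, aO, h.lr_alg]; rfl) (by rw [hk0, map_C, aO, h.lr_alg]; rfl)
    (fun (j : Fin N) a => PowerSeries.map (h.rs : Hol (bO e r) →+* Hol (bO c₀ ρ)) (F j a))
    u' P
  have hobR : h.obR F y hy (evn mh) = (PowerSeries.map h.lr).comp (h.obO F y hy) := by
    rw [h.lr_obO, hmh]
  obtain ⟨Q, hQ0, hQ⟩ := key (by
      change P.eval₂ (h.obR F y hy (evn mh)) _ = 0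
      rw [hobR, hu1, ← hu2, ← Polynomial.hom_eval₂, hrel, map_zero]) (by
      change P.map (h.obR F y hy (evn mh)) ≠ 0
      intro h1
      apply hne
      have h2 : (P.map (h.obR F y hy (evn mh))).map (constantCoeff (R := RR c₀ ρ)) = 0 := by
        rw [h1, Polynomial.map_zero]
      rw [Polynomial.map_map, ← hmh, h.cc_obR F hFc, ← Polynomial.map_map] at h2
      exact (Polynomial.map_eq_zero_iff h.tr_injective).1 h2)
  refine ⟨Q, hQ0, ?_⟩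
  rw [← hmh, hu3] at hQ
  exact hQ

end coreA

end

end Crest.Agent.R102.CT575
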