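import Crest.Agent.R102.Rat1B_389
import Crest.Agent.R102.F1d_201
import Crest.Agent.R102.CoreB_575
import Crest.Agent.R102.RatGlueB_798

-- ▼ part R102/ACon_575
section

/-!
Row 102, part (C), leaf H3, CT: ACON (a finitely generated ring stable under the derivations which
contains the chain) and CONST (constants of the ring of holomorphic functions).
-/

set_option linter.unusedSectionVars false
set_option autoImplicit false

namespace Crest.Agent.R102.CT575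

open H3 PowerSeries Finset TopologicalSpace

section acon

theorem fg_finset_sup {T ι : Type*} [CommRing T] [Algebra ℂ T] (s : Finset ι)
    (R : ι → Subalgebra ℂ T) (h : ∀ i ∈ s, (R i).FG) : (s.sup R).FG := by
  classical
  induction s using Finset.induction_on with
  | empty => rw [Finset.sup_empty]; exact Subalgebra.fg_bot
  | insert a s ha ih =>
    rw [Finset.sup_insert]
    exact (h a (Finset.mem_insert_self _ _)).sup (ih fun i hi => h i (Finset.mem_insert_of_mem hi))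

theorem acon {T A0 : Type} [CommRing T] [Algebra ℂ T] [CommRing A0] [Algebra ℂ A0]
    [Algebra.FiniteType ℂ A0] {ι : Type} (D : ι → Derivation ℂ T T) (d0 : Derivation ℂ A0 A0)
    (z0 g0 : A0) (N : ℕ) (s : ℕ → A0 →ₐ[ℂ] T) (sh : A0 →ₐ[ℂ] T) (m k : ℕ → T)
    (hs : ∀ i, ∀ j < N, ∀ a, D i (s j a) = s j (d0 a) * D i (s j z0))
    (hsh : ∀ i a, D i (sh a) = sh (d0 a) * D i (sh z0))
    (hm0 : ∀ i, ∃ c : ℂ, D i (m 0) = algebraMap ℂ T c)
    (hk0 : ∀ i, ∃ c : ℂ, D i (k 0) = algebraMap ℂ T c)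
    (inc : ∀ j < N, s j g0 = m j * s j z0 + k j)
    (inc' : ∀ j < N, s j g0 = m (j + 1) * s j z0 + k (j + 1))
    (refl : ∀ j < N, m (j + 1) * m j = s j (d0 g0) ^ 2)
    (hum : ∀ j < N, IsUnit (m j)) (hut : ∀ j < N, IsUnit (s j (d0 g0) - m j))
    (hinc : sh g0 = m 0 * sh z0 + k 0) (huh : IsUnit (sh (d0 g0) - m 0)) :
    ∃ A : Subalgebra ℂ T, A.FG ∧ (∀ i, ∀ f ∈ A, D i f ∈ A) ∧ (∀ j < N, ∀ a, s j a ∈ A) ∧
      (∀ a, sh a ∈ A) ∧ (∀ j ≤ N, m j ∈ A ∧ k j ∈ A) ∧ (∀ j < N, ∃ μ ∈ A, μ * m j = 1) ∧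
      (∀ j < N, ∃ τ ∈ A, τ * (s j (d0 g0) - m j) = 1) ∧
      ∃ τ ∈ A, τ * (sh (d0 g0) - m 0) = 1 := by
  classical
  have hμex : ∀ j, ∃ u : T, j < N → u * m j = 1 := by
    intro j
    by_cases hj : j < N
    · obtain ⟨u, hu⟩ := (hum j hj).exists_left_inv
      exact ⟨u, fun _ => hu⟩
    · exact ⟨0, fun h => absurd h hj⟩
  have hτex : ∀ j, ∃ u : T, j < N → u * (s j (d0 g0) - m j) = 1 := by
    intro j
    by_cases hj : j < N
    · obtain ⟨u, hu⟩ := (hut j hj).exists_left_inv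
      exact ⟨u, fun _ => hu⟩
    · exact ⟨0, fun h => absurd h hj⟩
  choose μ hμ using hμex
  choose τ hτ using hτex
  obtain ⟨τh, hτh⟩ := huh.exists_left_inv
  let fin : Finset T := (range (N + 1)).image m ∪ (range (N + 1)).image k ∪
    (range N).image μ ∪ (range N).image τ ∪ {τh}
  let S : Set T := {x | (∃ j < N, ∃ a, x = s j a) ∨ (∃ a, x = sh a) ∨ x ∈ fin}
  set A := Algebra.adjoin ℂ S with hA
  have gs : ∀ j < N, ∀ a, s j a ∈ A := fun j hj a => Algebra.subset_adjoin (Or.inl ⟨j, hj, a, rfl⟩)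
  have gh : ∀ a, sh a ∈ A := fun a => Algebra.subset_adjoin (Or.inr (Or.inl ⟨a, rfl⟩))
  have gf : ∀ x ∈ fin, x ∈ A := fun x hx => Algebra.subset_adjoin (Or.inr (Or.inr hx))
  have gm : ∀ j ≤ N, m j ∈ A := fun j hj => gf _ (by
    simp only [fin, Finset.mem_union, Finset.mem_image, Finset.mem_range]
    exact Or.inl (Or.inl (Or.inl (Or.inl ⟨j, by omega, rfl⟩))))
  have gk : ∀ j ≤ N, k j ∈ A := fun j hj => gf _ (by
    simp only [fin, Finset.mem_union, Finset.mem_image, Finset.mem_range]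
    exact Or.inl (Or.inl (Or.inl (Or.inr ⟨j, by omega, rfl⟩))))
  have gμ : ∀ j < N, μ j ∈ A := fun j hj => gf _ (by
    simp only [fin, Finset.mem_union, Finset.mem_image, Finset.mem_range]
    exact Or.inl (Or.inl (Or.inr ⟨j, hj, rfl⟩)))
  have gτ : ∀ j < N, τ j ∈ A := fun j hj => gf _ (by
    simp only [fin, Finset.mem_union, Finset.mem_image, Finset.mem_range]
    exact Or.inl (Or.inr ⟨j, hj, rfl⟩))
  have gτh : τh ∈ A := gf _ (by
    simp only [fin, Finset.mem_union, Finset.mem_singleton]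
    exact Or.inr trivial)
  -- closure
  have hcl : ∀ a, ∀ i ≤ N, D a (m i) ∈ A ∧ D a (k i) ∈ A ∧
      ∀ j < i, (∀ x, D a (s j x) ∈ A) ∧ D a (μ j) ∈ A ∧ D a (τ j) ∈ A := by
    intro a i
    induction i with
    | zero =>
      intro _
      obtain ⟨c, hc⟩ := hm0 a
      obtain ⟨c', hc'⟩ := hk0 a
      exact ⟨by rw [hc]; exact A.algebraMap_mem c, by rw [hc']; exact A.algebraMap_mem c',
        fun j hj => absurd hj (by omega)⟩
    | succ i ih =>
      intro hi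
      have hi' : i < N := hi
      obtain ⟨h1, h2, h3⟩ := ih hi'.le
      have hv := vertex_mem (D a) d0 (z0 := z0) (g0 := g0) (s i : A0 →+* T) (hs a i hi')
        (m := m i) (k := k i) (τ := τ i) (inc i hi') (hτ i hi') A (gs i hi') (gτ i hi') h1 h2
      have hl := line_mem (D a) d0 (z0 := z0) (g0 := g0) (s i : A0 →+* T)
        (m := m i) (m' := m (i + 1)) (k' := k (i + 1)) (μ := μ i) (inc' i hi') (refl i hi')
        (hμ i hi') A (gs i hi') hv.2.1 (gm _ hi) (gμ i hi') h1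
      refine ⟨hl.1, hl.2.1, fun j hj => ?_⟩
      rcases Nat.lt_succ_iff_lt_or_eq.1 hj with h4 | h4
      · exact h3 j h4
      · subst h4
        exact ⟨hv.2.1, hl.2.2, hv.2.2⟩
  have hhat : ∀ a, (∀ x, D a (sh x) ∈ A) ∧ D a τh ∈ A := by
    intro a
    have hv := vertex_mem (D a) d0 (z0 := z0) (g0 := g0) (sh : A0 →+* T) (hsh a)
      (m := m 0) (k := k 0) (τ := τh) hinc hτh A gh gτh (hcl a 0 (Nat.zero_le _)).1
      (hcl a 0 (Nat.zero_le _)).2.1
    exact ⟨hv.2.1, hv.2.2⟩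
  have hS : ∀ a, ∀ x ∈ S, D a x ∈ A := by
    rintro a x (⟨j, hj, b, rfl⟩ | ⟨b, rfl⟩ | hx)
    · exact ((hcl a N le_rfl).2.2 j hj).1 b
    · exact (hhat a).1 b
    · simp only [fin, Finset.mem_union, Finset.mem_image, Finset.mem_range,
        Finset.mem_singleton] at hx
      rcases hx with (((⟨j, hj, rfl⟩ | ⟨j, hj, rfl⟩) | ⟨j, hj, rfl⟩) | ⟨j, hj, rfl⟩) | rfl
      · exact (hcl a j (by omega)).1
      · exact (hcl a j (by omega)).2.1
      · exact ((hcl a N le_rfl).2.2 j hj).2.1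
      · exact ((hcl a N le_rfl).2.2 j hj).2.2
      · exact (hhat a).2
  refine ⟨A, ?_, fun i f hf => adjoin_stable (D i) S (fun x hx => hS i x hx) hf, gs, gh,
    fun j hj => ⟨gm j hj, gk j hj⟩, fun j hj => ⟨μ j, gμ j hj, hμ j hj⟩,
    fun j hj => ⟨τ j, gτ j hj, hτ j hj⟩, τh, gτh, hτh⟩
  -- finite generation
  have htop : (⊤ : Subalgebra ℂ A0).FG := Algebra.FiniteType.out
  have hr : ∀ f : A0 →ₐ[ℂ] T, f.range.FG := by
    intro f
    rw [← Algebra.map_top]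
    exact htop.map f
  have hfg : (((range N).sup fun j => (s j).range) ⊔ sh.range ⊔ Algebra.adjoin ℂ (fin : Set T)).FG :=
    ((fg_finset_sup _ _ fun j _ => hr (s j)).sup (hr sh)).sup (Subalgebra.fg_adjoin_finset fin)
  have heq : A = ((range N).sup fun j => (s j).range) ⊔ sh.range ⊔
      Algebra.adjoin ℂ (fin : Set T) := by
    apply le_antisymm
    · refine Algebra.adjoin_le ?_
      rintro x (⟨j, hj, b, rfl⟩ | ⟨b, rfl⟩ | hx)
      · have h1 : (s j).range ≤ (range N).sup fun j => (s j).range :=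
          Finset.le_sup (f := fun j => (s j).range) (Finset.mem_range.2 hj)
        exact (h1.trans (le_sup_left.trans le_sup_left)) ⟨b, rfl⟩
      · exact ((le_sup_right (a := (range N).sup fun j => (s j).range)).trans le_sup_left) ⟨b, rfl⟩
      · exact (le_sup_right (a := ((range N).sup fun j => (s j).range) ⊔ sh.range))
          (Algebra.subset_adjoin hx)
    · refine sup_le (sup_le (Finset.sup_le fun j hj => ?_) ?_) ?_
      · rintro x ⟨b, rfl⟩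
        exact gs j (Finset.mem_range.1 hj) b
      · rintro x ⟨b, rfl⟩
        exact gh b
      · exact Algebra.adjoin_le fun x hx => gf x hx
  rw [heq]
  exact hfg

end acon

section const

/-- Taylor series at one point -/
noncomputable def tyAt {V : Opens ℂ} (x : V) : Hol V →+* ℂ⟦X⟧ :=
  (PowerSeries.map (evH x : Hol V →+* ℂ)).comp (Ty (DH V))

theorem tyAt_injective {V : Opens ℂ} (hV : IsPreconnected (V : Set ℂ)) (x : V) :
    Function.Injective (tyAt x) := by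
  rw [injective_iff_map_eq_zero]
  intro f hf
  refine idt_H hV x f fun n => ?_
  have h1 := congrArg (coeff n) hf
  rw [tyAt, RingHom.comp_apply, coeff_map, coeff_Ty, dn, map_zero] at h1
  have h2 : (evH x : Hol V →+* ℂ) ((n.factorial : ℂ)⁻¹ • (DH V)^[n] f) =
      (n.factorial : ℂ)⁻¹ * evH x ((DH V)^[n] f) := by
    rw [RingHom.coe_coe, map_smul, smul_eq_mul]
  rw [h2] at h1
  rcases mul_eq_zero.1 h1 with h3 | h3
  · exact absurd h3 (inv_ne_zero (by exact_mod_cast Nat.factorial_ne_zero n))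
  · exact h3

theorem derivative_tyAt {V : Opens ℂ} (x : V) (f : Hol V) :
    d⁄dX ℂ (tyAt x f) = tyAt x (DH V f) := by
  ext n
  rw [coeff_derivative, tyAt, RingHom.comp_apply, RingHom.comp_apply, coeff_map, coeff_map,
    ← derivative_Ty, coeff_derivative, map_mul]
  congr 1

/-- **CONST** -/
theorem const_of {V : Opens ℂ} (hV : IsPreconnected (V : Set ℂ)) (a b : Hol V) (hb : b ≠ 0)
    (h : DH V a * b = a * DH V b) : ∃ c : ℂ, a = c • b := by
  have hx : ∃ x : V, (b : V → ℂ) x ≠ 0 := by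
    by_contra hcon
    push Not at hcon
    exact hb (Subtype.ext (funext hcon))
  obtain ⟨x, hx⟩ := hx
  have hcb : constantCoeff (tyAt x b) = (b : V → ℂ) x := by
    rw [tyAt, RingHom.comp_apply, ← coeff_zero_eq_constantCoeff_apply, coeff_map,
      coeff_zero_eq_constantCoeff_apply, constantCoeff_Ty]
    rfl
  have hbu : IsUnit (tyAt x b) := by
    rw [PowerSeries.isUnit_iff_constantCoeff, hcb]
    exact hx.isUnit
  obtain ⟨v, hv⟩ := hbu.exists_right_inv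
  set α := tyAt x a with hα
  set β := tyAt x b with hβ
  have h1 : d⁄dX ℂ α * β = α * d⁄dX ℂ β := by
    rw [hα, hβ, derivative_tyAt, derivative_tyAt, ← map_mul, h, map_mul]
  have h2 : d⁄dX ℂ (α * v) = 0 := by
    have e1 : d⁄dX ℂ (β * v) = 0 := by
      rw [hv]; exact Derivation.map_one_eq_zero _
    rw [Derivation.leibniz] at e1 ⊢
    simp only [smul_eq_mul] at e1 ⊢
    have e2 : (α * d⁄dX ℂ v + v * d⁄dX ℂ α) * β = 0 := by
      calc (α * d⁄dX ℂ v + v * d⁄dX ℂ α) * β = α * (β * d⁄dX ℂ v) + v * (d⁄dX ℂ α * β) := by ring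
        _ = α * (β * d⁄dX ℂ v + v * d⁄dX ℂ β) := by rw [h1]; ring
        _ = 0 := by rw [e1, mul_zero]
    exact (hbu.mul_left_eq_zero).1 e2
  have h3 : α * v = C (constantCoeff (α * v)) := by
    refine PowerSeries.derivative.ext ?_ ?_
    · rw [h2]
      simp
    · simp
  refine ⟨constantCoeff (α * v), tyAt_injective hV x ?_⟩
  have h4 : tyAt x (constantCoeff (α * v) • b) = C (constantCoeff (α * v)) * β := by
    have : constantCoeff (α * v) • b = algebraMap ℂ (Hol V) (constantCoeff (α * v)) * b := by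
      rw [Algebra.smul_def]
    rw [this, map_mul]
    congr 1
    rw [tyAt, RingHom.comp_apply, Ty_algebraMap, map_C]
    rfl
  rw [h4, ← h3, ← hα, mul_assoc, mul_comm v β, hv, mul_one]

end const

end Crest.Agent.R102.CT575
end

-- ▼ part R102/CoreC_575

/-!
Row 102, part (C), leaf H3, CT, core C: generic point, deformation, hat mirror; from the algebraic
relation of the hat vertex to a relation with functions of the first vertex.
-/

set_option linter.unusedSectionVars false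
set_option autoImplicit false

namespace Crest.Agent.R102.CT575

open H3 Glue798 PowerSeries Finset Set Topology TopologicalSpace Metric Filter

noncomputable section

section aux

/-- restriction of a derivation to a stable subalgebra -/
def resD {T : Type} [CommRing T] [Algebra ℂ T] (E : Derivation ℂ T T) (A : Subalgebra ℂ T)
    (hA : ∀ f ∈ A, E f ∈ A) : Derivation ℂ A A where
  toFun a := ⟨E a, hA a a.2⟩
  map_add' a b := Subtype.ext (by simp)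
  map_smul' c a := Subtype.ext (by simp)
  map_one_eq_zero' := Subtype.ext (by simp)
  leibniz' a b := Subtype.ext (by simp [smul_eq_mul])

@[simp] theorem resD_coe {T : Type} [CommRing T] [Algebra ℂ T] (E : Derivation ℂ T T)
    (A : Subalgebra ℂ T) (hA : ∀ f ∈ A, E f ∈ A) (a : A) : ((resD E A hA a : A) : T) = E a := rfl

/-- combinations satisfy the chain rule -/
theorem rule_comb {T H : Type} [CommRing T] [Algebra ℂ T] {P Q E : Derivation ℂ T T} {α β : T}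
    (hE : ∀ f, E f = α * P f + β * Q f) {φ : H → T} {d : H → H} {z : H}
    (hP : ∀ f, P (φ f) = φ (d f) * P (φ z)) (hQ : ∀ f, Q (φ f) = φ (d f) * Q (φ z)) (f : H) :
    E (φ f) = φ (d f) * E (φ z) := by
  rw [hE, hE, hP f, hQ f]; ring

end aux

section coreC

variable {g : ℂ → ℂ} {c₀ e : ℂ} {N : ℕ} {ρ r : ℝ} {β m k q q' : ℕ → ℂ × ℂ → ℂ}

theorem Dat.rw_pd (h : Dat g c₀ N ρ e r β m k q q') (v : ℂ × ℂ) (F : Hol (UU c₀ ρ)) :
    pdH (WW c₀ ρ) v (h.rw F) = h.rw (pdH (UU c₀ ρ) v F) := pdH_res (WW_le h.ch.ρ_pos) v F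

theorem Dat.rw_hU (h : Dat g c₀ N ρ e r β m k q q') {F : ℂ × ℂ → ℂ}
    (hF : AnalyticOnNhd ℂ F (UU c₀ ρ)) : h.rw (hU c₀ ρ F) = toH (WW c₀ ρ) F :=
  res_toH (WW_le h.ch.ρ_pos) hF

theorem jcb_toH {W : Opens (ℂ × ℂ)} {F G : ℂ × ℂ → ℂ} (hF : AnalyticOnNhd ℂ F W)
    (hG : AnalyticOnNhd ℂ G W) (x : W) :
    ((jcb (pdH W (1, 0)) (pdH W (0, 1)) (toH W F) (toH W G) : Hol W) : W → ℂ) x = jF F G x := by
  have h1 : ∀ (v : ℂ × ℂ) {F : ℂ × ℂ → ℂ}, AnalyticOnNhd ℂ F W →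
      (pdH W v (toH W F) : W → ℂ) x = fderiv ℂ F x v := by
    intro v F hF
    rw [pdH_toH v hF, toH_apply (Glue798.an_fderiv hF v)]
  change evH x (jcb _ _ _ _) = _
  rw [jcb, map_sub, map_mul, map_mul]
  simp only [evH_apply]
  rw [h1 _ hF, h1 _ hF, h1 _ hG, h1 _ hG]
  rfl

/-- the jacobian of `(m₀, k₀)` is a unit of `Hol W` -/
theorem Dat.unit_jac (h : Dat g c₀ N ρ e r β m k q q') :
    IsUnit (jcb (pdH (WW c₀ ρ) (1, 0)) (pdH (WW c₀ ρ) (0, 1)) (h.rw (hU c₀ ρ (m 0)))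
      (h.rw (hU c₀ ρ (k 0)))) := by
  have hle := WW_le (c₀ := c₀) h.ch.ρ_pos
  refine Hol.isUnit _ fun x => ?_
  rw [h.rw_hU (h.ch.an_m 0 (Nat.zero_le _)), h.rw_hU (h.ch.an_k 0 (Nat.zero_le _)),
    jcb_toH ((h.ch.an_m 0 (Nat.zero_le _)).mono hle) ((h.ch.an_k 0 (Nat.zero_le _)).mono hle),
    jac_m0k0 h.ch (hle x.2)]
  exact mul_ne_zero (mul_ne_zero (WW_ne h.ch.ρ_pos x.2) (h.ch.q_ne 0 (Nat.zero_le _) _ (hle x.2)))
    (h.ch.q_ne 0 (Nat.zero_le _) _ (UU_flip _ (hle x.2)))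

/-- the jacobian of two vertices is nonzero -/
theorem Dat.jac_ne (h : Dat g c₀ N ρ e r β m k q q') {i j : ℕ} (hi : i ≤ N) (hj : j ≤ N)
    (hij : i ≠ j) :
    jcb (pdH (WW c₀ ρ) (1, 0)) (pdH (WW c₀ ρ) (0, 1)) (h.rw (bH c₀ ρ β i))
      (h.rw (bH c₀ ρ β j)) ≠ 0 := by
  have h1 := map_jcb (P := pdH (UU c₀ ρ) (1, 0)) (Q := pdH (UU c₀ ρ) (0, 1))
    (f := bH c₀ ρ β i) (g := bH c₀ ρ β j)
    (P' := pdH (WW c₀ ρ) (1, 0)) (Q' := pdH (WW c₀ ρ) (0, 1)) h.rw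
    (fun a => (h.rw_pd _ a).symm) (fun a => (h.rw_pd _ a).symm)
  rw [← h1]
  intro h0
  have h2 := h.rw_injective (h0.trans (map_zero h.rw).symm)
  have hc : ((c₀, 0) : ℂ × ℂ) ∈ UU c₀ ρ := UU_h0 h.ch.ρ_pos c₀ (mem_ball_self h.ch.ρ_pos)
  have h3 := congrArg (fun F : Hol (UU c₀ ρ) => (F : UU c₀ ρ → ℂ) ⟨(c₀, 0), hc⟩) h2
  have h4 := jcb_toH (h.an_b hi) (h.an_b hj) ⟨((c₀, 0) : ℂ × ℂ), hc⟩
  have h5 := jac_bb h.ch hi hj
  rw [h5] at h4
  have h6 : (2 : ℂ) * ((j : ℂ) - i) = 0 := h4.symm.trans h3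
  rcases mul_eq_zero.1 h6 with h7 | h7
  · exact two_ne_zero h7
  · exact hij (by exact_mod_cast (sub_eq_zero.1 h7).symm)

theorem Dat.exists_pts (h : Dat g c₀ N ρ e r β m k q q') (p : WW c₀ ρ) :
    ∃ b : ℕ → bO e r, ∀ j f, evH (b j) f = evH p (h.bw j f) := by
  have key : ∀ j, ∃ b : bO e r, ∀ f, evH b f = evH p (h.bw j f) := by
    intro j
    have hp : (p : ℂ × ℂ) ∈ UU c₀ ρ := WW_le h.ch.ρ_pos p.2
    by_cases hj : j ≤ N
    · refine ⟨⟨_, h.bH_mem hj ⟨p, hp⟩⟩, fun f => ?_⟩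
      rw [Dat.bw, AlgHom.comp_apply, h.bt_eq hj]
      rfl
    · refine ⟨⟨_, h.bH_mem (Nat.zero_le N) ⟨p, hp⟩⟩, fun f => ?_⟩
      rw [Dat.bw, AlgHom.comp_apply, Dat.bt, dif_neg hj]
      rfl
  choose b hb using key
  exact ⟨b, hb⟩

set_option maxHeartbeats 1600000 in
/-- **core C** -/
theorem Dat.coreC (h : Dat g c₀ N ρ e r β m k q q') (hN : 0 < N)
    {A0 : Type} [CommRing A0] [Algebra ℂ A0] [Algebra.FiniteType ℂ A0]
    {del : Derivation ℂ A0 A0} {z0 g0 : A0} (hi : AlgebraicIndependent ℂ ![z0, g0])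
    {ρ₀ : A0 →ₐ[ℂ] Hol (bO e r)} (hρi : Function.Injective ρ₀)
    (hρg : ρ₀ g0 = gV g e r) (hρd : ∀ a, ρ₀ (del a) = DH _ (ρ₀ a)) (hρz : ρ₀ z0 = zH _)
    {yh : ℂ} {rh : ℝ} {ι : A0 →ₐ[ℂ] Hol (bO yh rh)} (hιd : ∀ a, ι (del a) = DH _ (ι a))
    (hιz : ι z0 = zH _) (uH : Hol (UU c₀ ρ)) (hu : ∀ p : UU c₀ ρ, (uH : UU c₀ ρ → ℂ) p ∈ bO yh rh)
    (hfl : fl c₀ ρ uH = uH)
    (hinc : compH uH hu (ι g0) = hU c₀ ρ (m 0) * uH + hU c₀ ρ (k 0))
    (hunit : IsUnit (compH uH hu (ι (del g0)) - hU c₀ ρ (m 0)))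
    (P : Polynomial (MvPolynomial (Option (Fin N × A0)) ℂ))
    (hrel : P.eval₂ (h.obU ρ₀) uH = 0) (hne : P.map (h.obU ρ₀) ≠ 0) :
    ∃ Q : Polynomial (Polynomial (Hol (bO c₀ ρ))), Q ≠ 0 ∧
      Q.eval₂ (Polynomial.eval₂RingHom (Ty (DH (bO c₀ ρ))) (h.ta (hU c₀ ρ (m 0))))
        (h.ta uH) = 0 := by
  classical
  have hdomW := isDomain_W c₀ h.ch.ρ_pos
  have h0N : (0 : ℕ) ≤ N := Nat.zero_le N
  have hz0 : del z0 = 1 := by
    apply hρi
    rw [hρd, hρz, DH_zH, map_one]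
  -- the derivations
  set P1 := pdH (WW c₀ ρ) (1, 0) with hP1
  set Q1 := pdH (WW c₀ ρ) (0, 1) with hQ1
  set mW : ℕ → Hol (WW c₀ ρ) := fun i => h.rw (hU c₀ ρ (m i)) with hmW
  set kW : ℕ → Hol (WW c₀ ρ) := fun i => h.rw (hU c₀ ρ (k i)) with hkW
  have hj : IsUnit (jcb P1 Q1 (mW 0) (kW 0)) := h.unit_jac
  set E1 := dM P1 Q1 (mW 0) (kW 0) with hE1
  set E2 := dK P1 Q1 (mW 0) (kW 0) with hE2
  let D : Fin 2 → Derivation ℂ (Hol (WW c₀ ρ)) (Hol (WW c₀ ρ)) := ![E1, E2]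
  have hD0 : D 0 = E1 := rfl
  have hD1 : D 1 = E2 := rfl
  have hcomb : ∀ a, ∃ α β : Hol (WW c₀ ρ), ∀ f, D a f = α * P1 f + β * Q1 f := by
    intro a
    fin_cases a
    · refine ⟨Ring.inverse (jcb P1 Q1 (mW 0) (kW 0)) * Q1 (kW 0),
        -(Ring.inverse (jcb P1 Q1 (mW 0) (kW 0)) * P1 (kW 0)), fun f => ?_⟩
      change E1 f = _
      rw [hE1, dM_apply]; ring
    · refine ⟨-(Ring.inverse (jcb P1 Q1 (mW 0) (kW 0)) * Q1 (mW 0)),
        Ring.inverse (jcb P1 Q1 (mW 0) (kW 0)) * P1 (mW 0), fun f => ?_⟩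
      change E2 f = _
      rw [hE2, dK_apply]; ring
  have hrule : ∀ v i (f : Hol (bO e r)), pdH (WW c₀ ρ) v (h.bw i f) =
      h.bw i (DH _ f) * pdH (WW c₀ ρ) v (h.bw i (zH _)) := by
    intro v i f
    simp only [Dat.bw, AlgHom.comp_apply]
    rw [h.rw_pd, h.rw_pd, h.bt_rule, map_mul]
  set φh : Hol (bO yh rh) →ₐ[ℂ] Hol (UU c₀ ρ) := compH uH hu with hφh
  have hφz : φh (zH _) = uH := compH_zH _ _
  have hruleh : ∀ v (f : Hol (bO yh rh)), pdH (WW c₀ ρ) v (h.rw (φh f)) =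
      h.rw (φh (DH _ f)) * pdH (WW c₀ ρ) v (h.rw (φh (zH _))) := by
    intro v f
    rw [h.rw_pd, h.rw_pd, hφh, pdH_compH, compH_zH, map_mul]
  have hDb : ∀ a i f, D a (h.bw i f) = h.bw i (DH _ f) * D a (h.bw i (zH _)) := by
    intro a i f
    obtain ⟨α, β', hαβ⟩ := hcomb a
    exact rule_comb hαβ (φ := fun f => h.bw i f) (d := fun f => DH _ f)
      (fun f => hrule _ i f) (fun f => hrule _ i f) f
  have hDh : ∀ a f, D a (h.rw (φh f)) = h.rw (φh (DH _ f)) * D a (h.rw (φh (zH _))) := by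
    intro a f
    obtain ⟨α, β', hαβ⟩ := hcomb a
    exact rule_comb hαβ (φ := fun f => h.rw (φh f)) (d := fun f => DH _ f)
      (fun f => hruleh _ f) (fun f => hruleh _ f) f
  have hDm : ∀ a, ∃ c : ℂ, D a (mW 0) = algebraMap ℂ _ c := by
    intro a
    fin_cases a
    · exact ⟨1, by rw [map_one]; exact dM_m hj⟩
    · exact ⟨0, by rw [map_zero]; exact dK_m⟩
  have hDk : ∀ a, ∃ c : ℂ, D a (kW 0) = algebraMap ℂ _ c := by
    intro a
    fin_cases a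
    · exact ⟨0, by rw [map_zero]; exact dM_k⟩
    · exact ⟨1, by rw [map_one]; exact dK_k hj⟩
  -- the chain in `Hol W`
  have hbwz : ∀ i ≤ N, h.bw i (zH _) = h.rw (bH c₀ ρ β i) := by
    intro i hi'
    rw [Dat.bw, AlgHom.comp_apply, h.bt_eq hi', h.bs_z]
  have hincW : ∀ i < N, h.bw i (ρ₀ g0) = mW i * h.bw i (ρ₀ z0) + kW i := by
    intro i hi'
    rw [hρg, hρz, hbwz i hi'.le, Dat.bw, AlgHom.comp_apply, h.bt_eq hi'.le, h.inc hi'.le, map_add,
      map_mul]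
  have hincW' : ∀ i < N, h.bw i (ρ₀ g0) = mW (i + 1) * h.bw i (ρ₀ z0) + kW (i + 1) := by
    intro i hi'
    rw [hρg, hρz, hbwz i hi'.le, Dat.bw, AlgHom.comp_apply, h.bt_eq hi'.le, h.inc' hi', map_add,
      map_mul]
  have hreflW : ∀ i < N, mW (i + 1) * mW i = h.bw i (ρ₀ (del g0)) ^ 2 := by
    intro i hi'
    rw [hρd, hρg, Dat.bw, AlgHom.comp_apply, h.bt_eq hi'.le, ← map_pow, ← h.refl hi', map_mul]
  have humW : ∀ i < N, IsUnit (mW i) := fun i hi' => (h.isUnit_m hi'.le).map h.rw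
  have hutW : ∀ i < N, IsUnit (h.bw i (ρ₀ (del g0)) - mW i) := by
    intro i hi'
    rw [hρd, hρg, Dat.bw, AlgHom.comp_apply, h.bt_eq hi'.le, hmW]
    simp only
    rw [← map_sub, h.slope hi'.le, map_mul]
    exact h.isUnit_rw.mul ((h.isUnit_q hi'.le).map h.rw)
  have hinchW : h.rw (φh (ι g0)) = mW 0 * h.rw (φh (ι z0)) + kW 0 := by
    rw [hιz, hφz, hinc, map_add, map_mul]
  have huhW : IsUnit (h.rw (φh (ι (del g0))) - mW 0) := by
    rw [hmW]
    simp only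
    rw [← map_sub]
    exact hunit.map h.rw
  obtain ⟨A, hAfg, hAD, hAs, hAh, hAm, hAμ, hAτ, hAτh⟩ := acon D del z0 g0 N
    (fun i => (h.bw i).comp ρ₀) ((h.rw.comp φh).comp ι) mW kW
    (fun a j _ x => by
      change D a (h.bw j (ρ₀ x)) = h.bw j (ρ₀ (del x)) * D a (h.bw j (ρ₀ z0))
      rw [hρd, hρz]; exact hDb a j _)
    (fun a x => by
      change D a (h.rw (φh (ι x))) = h.rw (φh (ι (del x))) * D a (h.rw (φh (ι z0)))
      rw [hιd, hιz]; exact hDh a _)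
    hDm hDk hincW hincW' hreflW humW hutW hinchW huhW
  -- instances
  have hft : Algebra.FiniteType ℂ A := (Subalgebra.fg_iff_finiteType A).1 hAfg
  -- the maps into `A`
  let t0 : ∀ i, i < N → (A0 →ₐ[ℂ] A) := fun i hi' =>
    ((h.bw i).comp ρ₀).codRestrict A (fun a => hAs i hi' a)
  let t : ℕ → (A0 →ₐ[ℂ] A) := fun i => if hi' : i < N then t0 i hi' else t0 0 hN
  have ht : ∀ i (hi' : i < N), t i = t0 i hi' := fun i hi' => dif_pos hi'
  have htc : ∀ i < N, ∀ a, ((t i a : A) : Hol (WW c₀ ρ)) = h.bw i (ρ₀ a) := fun i hi' a => by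
    rw [ht i hi']; rfl
  let th : A0 →ₐ[ℂ] A := ((h.rw.comp φh).comp ι).codRestrict A (fun a => hAh a)
  have hthc : ∀ a, ((th a : A) : Hol (WW c₀ ρ)) = h.rw (φh (ι a)) := fun a => rfl
  let D1A := resD E1 A (hAD 0)
  let D2A := resD E2 A (hAD 1)
  let m0A : A := ⟨mW 0, (hAm 0 h0N).1⟩
  let k0A : A := ⟨kW 0, (hAm 0 h0N).2⟩
  -- PSI
  have hbwi : ∀ i, Function.Injective (h.bw i) := fun i =>
    h.rw_injective.comp (h.bt_injective i)
  obtain ⟨fA, hfA, hpsi⟩ := Psi867.psi A A0 del z0 g0 hi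
    (fun a b hb hab => by
      have h1 : ρ₀ b ≠ 0 := fun h2 => hb (hρi (h2.trans (map_zero ρ₀).symm))
      have h2 : DH _ (ρ₀ a) * ρ₀ b = ρ₀ a * DH _ (ρ₀ b) := by
        rw [← hρd, ← hρd, ← map_mul, ← map_mul, hab]
      obtain ⟨c, hc⟩ := const_of (bO_preconnected e r) (ρ₀ a) (ρ₀ b) h1 h2
      exact ⟨c, hρi (by rw [hc, map_smul])⟩)
    D1A D2A m0A k0A (Subtype.ext (dM_m hj)) (Subtype.ext dM_k) (Subtype.ext dK_m)
    (Subtype.ext (dK_k hj)) N t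
    (fun j hj' a b hab => by
      have h1 := congrArg (fun x : A => (x : Hol (WW c₀ ρ))) hab
      simp only [htc j hj'] at h1
      exact hρi (hbwi j h1))
    (fun j hj' a => by
      apply Subtype.ext
      change E1 (t j a : Hol (WW c₀ ρ)) = (t j (del a) : Hol (WW c₀ ρ)) * E1 (t j z0 : Hol (WW c₀ ρ))
      rw [htc j hj', htc j hj', htc j hj', hρd, hρz]
      exact hDb 0 j _)
    (fun j hj' a => by
      apply Subtype.ext
      change E2 (t j a : Hol (WW c₀ ρ)) = (t j (del a) : Hol (WW c₀ ρ)) * E2 (t j z0 : Hol (WW c₀ ρ))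
      rw [htc j hj', htc j hj', htc j hj', hρd, hρz]
      exact hDb 1 j _)
    (fun i hi' j hj' hij h0 => by
      have h1 := congrArg (fun x : A => (x : Hol (WW c₀ ρ))) h0
      have h2 : E1 (t i z0 : Hol (WW c₀ ρ)) * E2 (t j z0 : Hol (WW c₀ ρ)) -
          E2 (t i z0 : Hol (WW c₀ ρ)) * E1 (t j z0 : Hol (WW c₀ ρ)) = 0 := h1
      rw [htc i hi', htc j hj', hρz, hbwz i hi'.le, hbwz j hj'.le] at h2
      have h3 := jcb_eq hj (h.rw (bH c₀ ρ β i)) (h.rw (bH c₀ ρ β j))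
      rw [h2, mul_zero] at h3
      exact h.jac_ne hi'.le hj'.le hij h3.symm)
  -- the point
  have hp : ∃ p : WW c₀ ρ, ((fA : Hol (WW c₀ ρ)) : WW c₀ ρ → ℂ) p ≠ 0 := by
    by_contra hcon
    push Not at hcon
    exact hfA (Subtype.ext (Subtype.ext (funext hcon)))
  obtain ⟨p, hp⟩ := hp
  let ev : A →ₐ[ℂ] ℂ := (evH p).comp A.val
  obtain ⟨hA1, hA2, hA3⟩ := hpsi ev hp
  obtain ⟨b, hb⟩ := h.exists_pts p
  obtain ⟨ψ, hψc, hψm, hψk, Φ, hΦ, hν, hν0⟩ := choice (c₀ := e) (r := r) hz0 hρd hρz b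
    (fun j hj' a => by
      rw [hb]
      change evH p (t j a : Hol (WW c₀ ρ)) = _
      rw [htc j hj']) hA1 hA2 hA3
  -- total families
  let cl : ℕ → ℕ := fun i => if i < N then i else 0
  have hcl : ∀ i < N, cl i = i := fun i hi' => if_pos hi'
  have hclN : ∀ i, cl i < N := by
    intro i
    by_cases hi' : i < N
    · rw [hcl i hi']; exact hi'
    · have : cl i = 0 := if_neg hi'
      rw [this]; exact hN
  let F : ℕ → A0 →ₐ[ℂ] (Hol (bO e r))⟦X⟧ := fun i => Φ (cl i)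
  have hFd : ∀ i a, F i (del a) = cD (DH _) (F i a) := fun i a => (hΦ _ (hclN i)).1 a
  have hFc : ∀ i a, constantCoeff (F i a) = ρ₀ a := fun i a => (hΦ _ (hclN i)).2.1 a
  have hFz : ∀ i, F i z0 = C (zH _) := fun i => (hΦ _ (hclN i)).2.2.1
  have hFΦ : ∀ i < N, F i = Φ i := fun i hi' => by
    change Φ (cl i) = Φ i
    rw [hcl i hi']
  let w : ℕ → ℂ⟦X⟧ := fun i => ψ (t (cl i) z0) - C (b (cl i) : ℂ)
  have hw : ∀ i, X ∣ w i := by
    intro i
    obtain ⟨hs, -⟩ := (hΦ _ (hclN i)).2.2.2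
    have := (dvd_neg).2 hs
    rw [neg_sub] at this
    exact this
  have hψb : ∀ i < N, ∀ a hm', ψ ⟨h.bw i (ρ₀ a), hm'⟩ =
      pt (cD (DH (bO e r))) (PowerSeries.map ((evH p : Hol (WW c₀ ρ) →+* ℂ).comp
        (h.bw i : Hol (bO e r) →+* Hol (WW c₀ ρ)))) (w i) (hw i) (F i a) := by
    intro i hi' a hm'
    obtain ⟨hs, hs2⟩ := (hΦ i hi').2.2.2
    have hw' : (X : ℂ⟦X⟧) ∣ (ψ.comp (t i)) z0 - C (b i : ℂ) := by
      have := (dvd_neg).2 hs
      rw [neg_sub] at this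
      exact this
    have h1 := psi_eq_pt (b i) del (ψ.comp (t i)) (Φ i) (hΦ i hi').1 hs hs2 hw' a
    have h2 : (⟨h.bw i (ρ₀ a), hm'⟩ : A) = t i a := Subtype.ext (htc i hi' a).symm
    rw [h2, hFΦ i hi']
    refine h1.trans ?_
    refine congrArg (fun Ψ : (Hol (bO e r))⟦X⟧ →+* ℂ⟦X⟧ => Ψ (Φ i a))
      (pt_congr (cD (DH (bO e r))) _ _ ?_ ?_)
    · congr 1
      exact RingHom.ext fun f => hb i f
    · change (ψ.comp (t i)) z0 - C (b i : ℂ) = ψ (t (cl i) z0) - C (b (cl i) : ℂ)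
      rw [hcl i hi']
      rfl
  -- the hat mirror
  have hpU : (p : ℂ × ℂ) ∈ UU c₀ ρ := WW_le h.ch.ρ_pos p.2
  let bh : bO yh rh := ⟨_, hu ⟨p, hpU⟩⟩
  have hbh : ∀ f, evH bh f = evH p (h.rw (φh f)) := fun f => rfl
  have hφc : ∀ a, constantCoeff ((ψ.comp th) a) = evH bh (ι a) := by
    intro a
    rw [hbh]
    exact hψc (th a)
  have hsh : (X : ℂ⟦X⟧) ∣ C (bh : ℂ) - (ψ.comp th) z0 := X_dvd_shift (by
    rw [hφc, hιz]; rfl)
  obtain ⟨Fh, hFhd, hFhc, hFhz, hFhe⟩ := exists_mirror bh hz0 hιd hιz hφc hsh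
  have hwh : (X : ℂ⟦X⟧) ∣ (ψ.comp th) z0 - C (bh : ℂ) := by
    have := (dvd_neg).2 hsh
    rw [neg_sub] at this
    exact this
  have hψh : ∀ a hm', ψ ⟨h.rw (φh (ι a)), hm'⟩ =
      pt (cD (DH (bO yh rh))) (PowerSeries.map ((evH p : Hol (WW c₀ ρ) →+* ℂ).comp
        ((h.rw.comp φh : Hol (bO yh rh) →ₐ[ℂ] Hol (WW c₀ ρ)) :
          Hol (bO yh rh) →+* Hol (WW c₀ ρ)))) ((ψ.comp th) z0 - C (bh : ℂ)) hwh (Fh a) := by
    intro a hm'
    have h1 := psi_eq_pt bh del (ψ.comp th) Fh hFhd hsh hFhe hwh a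
    refine h1.trans ?_
    refine congrArg (fun Ψ : (Hol (bO yh rh))⟦X⟧ →+* ℂ⟦X⟧ => Ψ (Fh a))
      (pt_congr (cD (DH (bO yh rh))) _ _ ?_ rfl)
    congr 1
  -- the hat vertex
  have hGh : constantCoeff (Fh g0) = ι g0 := hFhc g0
  have huh' : IsUnit ((φh : Hol (bO yh rh) →+* Hol (UU c₀ ρ)) (DH _ (constantCoeff (Fh g0))) -
      hU c₀ ρ (m 0)) := by
    rw [hGh, ← hιd]
    exact hunit
  obtain ⟨yy, hyy, hinch⟩ := hat_exists (DH (bO yh rh)) (DH_zH _)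
    (φh : Hol (bO yh rh) →+* Hol (UU c₀ ρ)) (Fh g0) (m0 := hU c₀ ρ (m 0)) (k0 := hU c₀ ρ (k 0))
    (by
      rw [hGh, RingHom.coe_coe, hφz]
      exact hinc) huh'
  have hyfl : PowerSeries.map (fl c₀ ρ : Hol (UU c₀ ρ) →+* Hol (UU c₀ ρ)) yy = yy :=
    hat_flip (DH (bO yh rh)) (DH_zH _) (φh : Hol (bO yh rh) →+* Hol (UU c₀ ρ)) (Fh g0) huh' hyy
      hinch (fl c₀ ρ : Hol (UU c₀ ρ) →+* Hol (UU c₀ ρ)) (by
        refine RingHom.ext fun f => ?_
        ext x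
        change (f : bO yh rh → ℂ) ⟨(uH : UU c₀ ρ → ℂ) ⟨((x : ℂ × ℂ).1, -(x : ℂ × ℂ).2), _⟩, _⟩ =
          (f : bO yh rh → ℂ) ⟨(uH : UU c₀ ρ → ℂ) x, _⟩
        refine congrArg (fun z => (f : bO yh rh → ℂ) z) (Subtype.ext ?_)
        exact congrArg (fun F : Hol (UU c₀ ρ) => (F : UU c₀ ρ → ℂ) x) hfl)
      h.fl_m h.fl_k
  -- the outer chain over `O⟦ε⟧`
  obtain ⟨y, m', k', hy, hm0, hk0, hout, hcm⟩ := outer_exists (DH (bO e r)) (DH_zH _) N
    (fun i => F i g0) (fun i => by rw [hFc, hρg]) h.bo _ _ h.chain_O (fun i hi' => h.unit_mO hi')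
    (fun i hi' => h.unit_tO hi')
  have hlift := h.coreB hN hρg hρd hρz F hFd hFz hFc y hy m' k' hout hm0 hk0 hcm φh Fh hFhd hFhz
    hFhc yy hyy hinch D p (fun f hf => by
      refine HolXY289.eq_zero_of_words' D (WW_preconnected c₀ ρ)
        ![P1 (mW 0), P1 (kW 0)] ![Q1 (mW 0), Q1 (kW 0)] (fun f => ?_) (fun f => ?_) f p hf
      · rw [Fin.sum_univ_two]
        exact span_P hj f
      · rw [Fin.sum_univ_two]
        exact span_Q hj f)
    hDb hDh hDm hDk A hAs hAh hAm hAμ hAτ hAτh ψ (fun _ => hψm) (fun _ => hψk) w hw hψb _ hwh hψh P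
    (by rw [hφz]; exact hrel)
  rw [hφz] at hlift
  obtain ⟨Q, hQ0, hQ⟩ := h.coreA hN hρg F hFc
    (fun i hi' l hl hil => by rw [hFΦ i hi', hFΦ l hl]; exact hν i hi' l hl hil)
    (fun i hi' => by rw [hFΦ i hi']; exact hν0 i hi') y hy m' k' hout hm0 hk0 (C uH + yy)
    (by
      rw [map_add, map_C, hyfl]
      congr 2) P hlift hne
  refine ⟨Q, hQ0, ?_⟩
  have hcc : constantCoeff (C uH + yy) = uH := by
    rw [map_add, constantCoeff_C, X_dvd_iff.1 hyy, add_zero]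
  rw [hcc] at hQ
  exact hQ

end coreC

end

end Crest.Agent.R102.CT575
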