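import Crest.Agent.R102.VarA_575

/-!
Row 102, part (A) (helper575): realness of `Pq` and the bridge `varData_exists`.
-/

set_option autoImplicit false

open Set Filter Topology Metric Complex MeasureTheory
open scoped Real ContDiff

noncomputable section

namespace Crest.Agent.R102.A929

open Crest.Agent.R102.Var575



/-- defect of the reflection law as a complex number -/
theorem EP_eq_EPr {q : C(ℂ, ℂ)} (hq : ∀ x : ℝ, (q x).im = 0) (a b c : ℝ) :
    EP q a b c = ((EPr (fun x e => (Pq q x e).re) a b c : ℝ) : ℂ) := EP_real hq a b c

end Crest.Agent.R102.A929
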