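import Crest.Agent.R102.FourS_575_Mg
import Crest.Agent.R102.TrigA_929
import Crest.Agent.R102.MeanA_262
import Crest.Agent.R102.RealA_575
import Crest.Agent.R102.EndI_929

-- ▼ part R102/EndD_575
section

/-!
Row 102, part (A) (helper575): the `n`-th mode of the defect of `q`, in the form used by LIN.
-/

set_option autoImplicit false

open Set Filter Topology Metric Complex MeasureTheory
open scoped Real ContDiff

noncomputable section

namespace Crest.Agent.R102.EndA575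

open Crest.Agent.R102.A929
open Crest.Agent.R102.LinA682 (Dat gE gE_eq gE_per gE_diffOn gE_diff dat_pair bp ep KD)

/-- the real family -/
def sv (v : ℂ → ℂ) (x : ℝ) : ℝ := x + (v x).re

section

variable {v : ℂ → ℂ}

lemma sv_cast (hvr : ∀ x : ℝ, (v x).im = 0) (x : ℝ) : ((sv v x : ℝ) : ℂ) = x + v x := by
  unfold sv
  apply Complex.ext <;> simp [hvr]

lemma sv_cast_add (hvr : ∀ x : ℝ, (v x).im = 0) (n : ℕ) (x : ℝ) :
    ((sv v (x + 1 / n) : ℝ) : ℂ) = x + 1 / n + v (x + 1 / n) := by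
  rw [sv_cast hvr]; push_cast; ring

lemma sv_cast_sub (hvr : ∀ x : ℝ, (v x).im = 0) (n : ℕ) (x : ℝ) :
    ((sv v (x - 1 / n) : ℝ) : ℂ) = x - 1 / n + v (x - 1 / n) := by
  rw [sv_cast hvr]; push_cast; ring

lemma gE_real (hvr : ∀ x : ℝ, (v x).im = 0) (q : C(ℂ, ℂ)) (n : ℕ) (x : ℝ) :
    gE q v n x = EP q (sv v (x - 1 / n)) (sv v x) (sv v (x + 1 / n)) := by
  rw [sv_cast_add hvr, sv_cast_sub hvr, sv_cast hvr]
  rfl

lemma sv_per (hvp : ∀ z, v (z + 1) = v z) (x : ℝ) : sv v (x + 1) = sv v x + 1 := by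
  unfold sv
  have := hvp x
  push_cast
  rw [this]; ring

lemma sv_hasDerivAt (hv : Differentiable ℂ v) (x : ℝ) :
    HasDerivAt (sv v) (1 + (deriv v x).re) x := by
  have h1 : HasDerivAt (fun x : ℝ => v x) (deriv v x) x := (hv x).hasDerivAt.comp_ofReal
  have h2 : HasDerivAt (fun x : ℝ => (v x).re) (deriv v x).re x := by
    exact (Complex.reCLM.hasFDerivAt.comp_hasDerivAt x h1)
  exact (hasDerivAt_id x).add h2

lemma sv_continuous (hv : Differentiable ℂ v) : Continuous (sv v) :=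
  continuous_iff_continuousAt.2 (fun x => (sv_hasDerivAt hv x).continuousAt)

lemma cont_dsv (hv : Differentiable ℂ v) : Continuous (fun x : ℝ => 1 + (deriv v x).re) :=
  continuous_const.add (Complex.continuous_re.comp
    ((LinA682.differentiable_deriv hv).continuous.comp Complex.continuous_ofReal))

end

section

variable {ρ C B A : ℝ} {n : ℕ} {qL : C(ℂ, ℂ)} {q1 q2 : ℂ → ℂ} {η : ℝ} {v : ℂ → ℂ}
  {q : C(ℂ, ℂ)} {a : ℤ → ℂ}

lemma ep_plus (hvr : ∀ x : ℝ, (v x).im = 0) (x : ℝ) :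
    ep v (((1 : ℝ) : ℂ) / n) x = (sv v (x + 1 / n) : ℂ) - sv v x := by
  rw [sv_cast_add hvr, sv_cast hvr]
  unfold ep
  push_cast
  ring

lemma ep_minus (hvr : ∀ x : ℝ, (v x).im = 0) (x : ℝ) :
    ep v (((-1 : ℝ) : ℂ) / n) x = -((sv v x : ℂ) - sv v (x - 1 / n)) := by
  rw [sv_cast_sub hvr, sv_cast hvr]
  unfold ep
  have : (x : ℂ) + ((-1 : ℝ) : ℂ) / n = x - 1 / n := by push_cast; ring
  rw [this]
  push_cast
  ring

lemma bp_eq (hvr : ∀ x : ℝ, (v x).im = 0) (x : ℝ) : bp v x = (sv v x : ℂ) := by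
  rw [sv_cast hvr]; rfl

lemma step_est (d1 : Dat ρ C B A n 1 qL q1 q2 η v) (hAn : 2 * A ≤ n) (x : ℝ) :
    0 < sv v (x + 1 / n) - sv v x ∧ sv v (x + 1 / n) - sv v x < 2 / n := by
  have h1 := d1.ep_sub (d1.real_mem x)
  rw [ep_plus d1.vre] at h1
  have e : (sv v (x + 1 / n) : ℂ) - sv v x - ((1 : ℝ) : ℂ) / n =
      ((sv v (x + 1 / n) - sv v x - 1 / n : ℝ) : ℂ) := by push_cast; ring
  rw [e, Complex.norm_real, Real.norm_eq_abs] at h1
  have hn := d1.n_pos
  have h2 : A / n ^ 2 ≤ 1 / (2 * n) := by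
    rw [div_le_div_iff₀ (by positivity) (by positivity)]
    nlinarith
  have h3 := abs_le.1 (h1.trans h2)
  have h4 : 1 / (2 * (n : ℝ)) = (1 / n) / 2 := by ring
  have h5 : 2 / (n : ℝ) = 2 * (1 / n) := by ring
  have h6 : 0 < 1 / (n : ℝ) := by positivity
  rw [h4] at h3
  rw [h5]
  constructor <;> linarith [h3.1, h3.2]

/-- the `n`-th mode of the defect -/
theorem mode_gE (d1 : Dat ρ C B A n 1 qL q1 q2 η v) (d2 : Dat ρ C B A n (-1) qL q1 q2 η v)
    (hAn : 2 * A ≤ n)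
    (hs : Summable fun k => ‖a k‖) (hs1 : ∑' k, ‖a k‖ ≤ 1 / n)
    (hq : ∀ x : ℝ, q x = qL x + ∑' k : ℤ, a k * ee (k * x))
    (hqr : ∀ x : ℝ, (q x).im = 0) (hqp : ∀ x : ℝ, q (x + 1) = q x)
    {ε : ℝ} {M : ℝ → ℝ → ℝ} (hM : IsAct q ε M) (hε : 2 / n ≤ ε) {A₀ R : ℝ}
    (hR : ∀ t : ℝ, |(∑ i ∈ Finset.range n, M (sv v (t + i / n)) (sv v (t + (i + 1) / n))) - A₀| ≤ R) :
    ‖∫ x in (0 : ℝ)..1, gE q v n x * (1 + deriv v x) * ee (-(n * x))‖ ≤ 2 * π * R := by
  have hn := d1.n_pos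
  have hn' : 0 < n := by exact_mod_cast hn
  have hvr := d1.vre
  have h := mode_real d1.hL hqp hM (s := sv v) (s' := fun x => 1 + (deriv v x).re)
    (sv_hasDerivAt d1.dv) (cont_dsv d1.dv) (sv_per d1.vper) hn' (w := 1 / n) (by field_simp)
    (fun x => ⟨(step_est d1 hAn x).1, (step_est d1 hAn x).2.trans_le hε⟩)
    (fun x => by
      have h1 := d1.Xq_lt hs hs1 hq x
      rw [bp_eq hvr, ep_plus hvr] at h1
      exact h1)
    (fun x => by
      have h1 := d2.Xq_lt hs hs1 hq x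
      rw [bp_eq hvr, ep_minus hvr] at h1
      exact h1) (A₀ := A₀) (R := R) (fun t => by
      have h1 := hR t
      simp only [mul_one_div]
      exact h1)
  refine le_trans (le_of_eq ?_) h
  congr 1
  refine intervalIntegral.integral_congr (fun x _ => ?_)
  change gE q v n x * (1 + deriv v x) * ee (-(n * x)) =
    (((EP q (sv v (x - 1 / n)) (sv v x) (sv v (x + 1 / n))).re * (1 + (deriv v x).re) : ℝ) : ℂ) *
      ee (-(n * x))
  congr 1
  rw [gE_real hvr]
  have e1 : EP q (sv v (x - 1 / n)) (sv v x) (sv v (x + 1 / n)) =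
      ((EP q (sv v (x - 1 / n)) (sv v x) (sv v (x + 1 / n))).re : ℂ) := by
    refine eq_re ?_
    rw [EP_real hqr, Complex.ofReal_im]
  have e2 : deriv v x = ((deriv v x).re : ℂ) := eq_re (deriv_im_zero d1.dv hvr x)
  rw [Complex.ofReal_mul, Complex.ofReal_add, Complex.ofReal_one, ← e2, ← e1]

/-- continuity of the integrands -/
lemma cont_gE (d1 : Dat ρ C B A n 1 qL q1 q2 η v) (d2 : Dat ρ C B A n (-1) qL q1 q2 η v)
    (q' : C(ℂ, ℂ)) (h1 : ∀ x : ℝ, ‖Xq q' (bp v x) (ep v (((1 : ℝ) : ℂ) / n) x)‖ < ρ)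
    (h2 : ∀ x : ℝ, ‖Xq q' (bp v x) (ep v (((-1 : ℝ) : ℂ) / n) x)‖ < ρ) :
    Continuous fun x : ℝ => gE q' v n x * (1 + deriv v x) * ee (-(n * x)) := by
  have e : (fun x : ℝ => gE q' v n x * (1 + deriv v x) * ee (-(n * x))) = fun x : ℝ =>
      (Pq q' (bp v x) (ep v (((-1 : ℝ) : ℂ) / n) x) - Pq q' (bp v x) (ep v (((1 : ℝ) : ℂ) / n) x)) *
        (1 + deriv v x) * ee (-(n * x)) := by
    funext x; rw [gE_eq]
  rw [e]
  exact (((d2.cont_Pq q' h2).sub (d1.cont_Pq q' h1)).mul d1.cont_dv).mul Dat.cont_een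

end

end Crest.Agent.R102.EndA575
end
end

-- ▼ part R102/FixA_929
section

/-!
Row 102, part (A) (helper929): the displacement `v` and its second difference `y`, bounds.
-/

set_option autoImplicit false

open Set Filter Topology Metric Complex MeasureTheory
open scoped Real ContDiff ComplexConjugate

noncomputable section

namespace Crest.Agent.R102.A929

/-- the multiplier of `v` -/
def mv (n k : ℕ) : ℂ := ((-(1 / (4 * Real.sin (π * k / n) ^ 2)) : ℝ) : ℂ)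

/-- the displacement -/
def vv (η : ℝ) (n : ℕ) (c : Fin (n / 2) → ℂ) (z : ℂ) : ℂ := Tg η (n / 2) (mv n) (mv n) c z

/-- the second difference of the displacement -/
def yy (η : ℝ) (n : ℕ) (c : Fin (n / 2) → ℂ) (z : ℂ) : ℂ :=
  Tg η (n / 2) (fun _ => 1) (fun _ => 1) c z

section

variable {n k : ℕ} {η : ℝ} {c c' : Fin (n / 2) → ℂ} {z : ℂ}

lemma sin_lb (hk : 1 ≤ k) (hkn : k ≤ n / 2) : 2 * (k : ℝ) / n ≤ Real.sin (π * k / n) := by
  have hn : 0 < n := by omega
  have hn' : (0 : ℝ) < n := by exact_mod_cast hn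
  have h2 : (2 : ℝ) * k ≤ n := by exact_mod_cast (by omega : 2 * k ≤ n)
  have h := Real.mul_le_sin (x := π * k / n) (by positivity) (by
    rw [div_le_div_iff₀ hn' two_pos]
    nlinarith [Real.pi_pos])
  refine le_trans (le_of_eq ?_) h
  field_simp

lemma sin_pos' (hk : 1 ≤ k) (hkn : k ≤ n / 2) : 0 < Real.sin (π * k / n) := by
  have hn : 0 < n := by omega
  have hn' : (0 : ℝ) < n := by exact_mod_cast hn
  have hk' : (0 : ℝ) < k := by exact_mod_cast hk
  exact lt_of_lt_of_le (by positivity) (sin_lb hk hkn)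

lemma norm_mv_le (hk : 1 ≤ k) (hkn : k ≤ n / 2) : ‖mv n k‖ ≤ (n : ℝ) ^ 2 / (16 * (k : ℝ) ^ 2) := by
  have h1 := sin_lb hk hkn
  have h2 := sin_pos' hk hkn
  have hn : 0 < n := by omega
  have hn' : (0 : ℝ) < n := by exact_mod_cast hn
  have hk' : (0 : ℝ) < k := by exact_mod_cast hk
  unfold mv
  rw [Complex.norm_real, norm_neg, Real.norm_of_nonneg (by positivity)]
  have h3 : (2 * (k : ℝ) / n) ^ 2 ≤ Real.sin (π * k / n) ^ 2 :=
    pow_le_pow_left₀ (by positivity) h1 2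
  calc 1 / (4 * Real.sin (π * k / n) ^ 2) ≤ 1 / (4 * (2 * (k : ℝ) / n) ^ 2) :=
        one_div_le_one_div_of_le (by positivity) (by linarith)
    _ = (n : ℝ) ^ 2 / (16 * (k : ℝ) ^ 2) := by field_simp; ring

lemma ee_sub_one (x : ℝ) : ee x - 1 = ee (x / 2) * (2 * I * Real.sin (π * x)) := by
  have h1 : ee (x : ℂ) = ee (x / 2) * ee (x / 2) := by rw [← ee_add]; ring_nf
  have h2 : ee ((x : ℂ) / 2) * ee (-((x : ℂ) / 2)) = 1 := by rw [← ee_add, add_neg_cancel, ee_zero]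
  have h3 : ee ((x : ℂ) / 2) - ee (-((x : ℂ) / 2)) = 2 * I * Real.sin (π * x) := by
    rw [Complex.ofReal_sin, Complex.sin]
    unfold ee
    have e1 : 2 * (π : ℂ) * I * ((x : ℂ) / 2) = ((π * x : ℝ) : ℂ) * I := by push_cast; ring
    have e2 : 2 * (π : ℂ) * I * (-((x : ℂ) / 2)) = -((π * x : ℝ) : ℂ) * I := by push_cast; ring
    rw [e1, e2]
    have : I ^ 2 = -1 := Complex.I_sq
    linear_combination (-(Complex.exp (-((π * x : ℝ) : ℂ) * I) - Complex.exp (((π * x : ℝ) : ℂ) * I))) * this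
  rw [← h3, mul_sub, ← h1, h2]

lemma norm_ee_sub_one (x : ℝ) : ‖ee x - 1‖ = 2 * |Real.sin (π * x)| := by
  rw [ee_sub_one, norm_mul, norm_ee]
  have : ((x : ℂ) / 2).im = 0 := by simp
  rw [this, norm_mul, Complex.norm_real, Real.norm_eq_abs]
  simp

lemma norm_mv_mul (hk : 1 ≤ k) (hkn : k ≤ n / 2) (s : ℝ) (hs : |s| = 1) :
    ‖mv n k * ee (((k : ℝ) / n * s : ℝ)) - mv n k‖ ≤ (n : ℝ) / (4 * k) := by
  have h1 := sin_lb hk hkn
  have h2 := sin_pos' hk hkn
  have hn : 0 < n := by omega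
  have hn' : (0 : ℝ) < n := by exact_mod_cast hn
  have hk' : (0 : ℝ) < k := by exact_mod_cast hk
  have e1 : mv n k * ee (((k : ℝ) / n * s : ℝ)) - mv n k =
      mv n k * (ee (((k : ℝ) / n * s : ℝ)) - 1) := by ring
  rw [e1, norm_mul, norm_ee_sub_one]
  have e2 : |Real.sin (π * ((k : ℝ) / n * s))| = Real.sin (π * k / n) := by
    have hs' : s = 1 ∨ s = -1 := by
      rcases abs_cases s with h | h
      · left; linarith
      · right; linarith
    rcases hs' with rfl | rfl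
    · rw [mul_one, ← mul_div_assoc, abs_of_pos h2]
    · rw [mul_neg_one, mul_neg, Real.sin_neg, abs_neg, ← mul_div_assoc, abs_of_pos h2]
  rw [e2]
  unfold mv
  rw [Complex.norm_real, norm_neg, Real.norm_of_nonneg (by positivity)]
  calc 1 / (4 * Real.sin (π * k / n) ^ 2) * (2 * Real.sin (π * k / n))
      = 1 / (2 * Real.sin (π * k / n)) := by field_simp; norm_num
    _ ≤ 1 / (2 * (2 * (k : ℝ) / n)) := one_div_le_one_div_of_le (by positivity) (by linarith)
    _ = (n : ℝ) / (4 * k) := by field_simp; norm_num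

lemma norm_vv_le (h : z ∈ St η) : ‖vv η n c z‖ ≤ (n : ℝ) ^ 2 * ‖c‖ := by
  refine (norm_Tg_le h).trans (mul_le_mul_of_nonneg_right ?_ (norm_nonneg _))
  have h1 : ∀ k ∈ Finset.range (n / 2), ‖mv n (k + 1)‖ + ‖mv n (k + 1)‖ ≤
      (n : ℝ) ^ 2 / 8 * (1 / ((k : ℝ) + 1) ^ 2) := by
    intro k hk
    have hk' := Finset.mem_range.1 hk
    have := norm_mv_le (n := n) (k := k + 1) (by omega) (by omega)
    push_cast at this
    calc ‖mv n (k + 1)‖ + ‖mv n (k + 1)‖ ≤ (n : ℝ) ^ 2 / (16 * ((k : ℝ) + 1) ^ 2) +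
        (n : ℝ) ^ 2 / (16 * ((k : ℝ) + 1) ^ 2) := add_le_add this this
      _ = _ := by field_simp; ring
  refine (Finset.sum_le_sum h1).trans ?_
  rw [← Finset.mul_sum]
  have h2 := sum_inv_sq_le (n / 2)
  have h3 : (0 : ℝ) ≤ (n : ℝ) ^ 2 / 8 := by positivity
  nlinarith

lemma norm_yy_le (h : z ∈ St η) : ‖yy η n c z‖ ≤ (n : ℝ) * ‖c‖ := by
  refine (norm_Tg_le h).trans (mul_le_mul_of_nonneg_right ?_ (norm_nonneg _))
  simp only [norm_one, Finset.sum_const, Finset.card_range, nsmul_eq_mul]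
  have : 2 * (n / 2) ≤ n := by omega
  have h2 : (2 : ℝ) * ((n / 2 : ℕ) : ℝ) ≤ n := by exact_mod_cast this
  linarith

lemma sqrt_half_le (n : ℕ) : √((n / 2 : ℕ) : ℝ) ≤ √n := by
  refine Real.sqrt_le_sqrt ?_
  exact_mod_cast Nat.div_le_self n 2

lemma norm_dvv_le_aux (hn : 0 < n) (h : z ∈ St η) (s : ℝ) (hs : |s| = 1) :
    ‖vv η n c (z + s / n) - vv η n c z‖ ≤ (n : ℝ) * √n * ‖c‖ := by
  have hn' : (0 : ℝ) < n := by exact_mod_cast hn
  unfold vv
  rw [Tg_shift, Tg_sub_mult]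
  refine (norm_Tg_le h).trans (mul_le_mul_of_nonneg_right ?_ (norm_nonneg _))
  have h1 : ∀ k ∈ Finset.range (n / 2),
      ‖mv n (k + 1) * ee (((k + 1 : ℕ) : ℂ) * (s / n)) - mv n (k + 1)‖ +
      ‖mv n (k + 1) * ee (-(((k + 1 : ℕ) : ℂ) * (s / n))) - mv n (k + 1)‖ ≤
      (n : ℝ) / 2 * (1 / ((k : ℝ) + 1)) := by
    intro k hk
    have hk' := Finset.mem_range.1 hk
    have a1 := norm_mv_mul (n := n) (k := k + 1) (by omega) (by omega) s hs
    have a2 := norm_mv_mul (n := n) (k := k + 1) (by omega) (by omega) (-s) (by rwa [abs_neg])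
    have e1 : ((((k + 1 : ℕ) : ℝ) / n * s : ℝ) : ℂ) = ((k + 1 : ℕ) : ℂ) * (s / n) := by
      push_cast; ring
    have e2 : ((((k + 1 : ℕ) : ℝ) / n * (-s) : ℝ) : ℂ) = -(((k + 1 : ℕ) : ℂ) * (s / n)) := by
      push_cast; ring
    rw [e1] at a1
    rw [e2] at a2
    refine (add_le_add a1 a2).trans (le_of_eq ?_)
    push_cast
    field_simp
    norm_num
  refine (Finset.sum_le_sum h1).trans ?_
  rw [← Finset.mul_sum]
  have h2 := sum_inv_le_sqrt (n / 2)
  have h3 := sqrt_half_le n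
  nlinarith [Real.sqrt_nonneg (n : ℝ)]

lemma norm_dvv_le (hn : 0 < n) (h : z ∈ St η) :
    ‖vv η n c (z + 1 / n) - vv η n c z‖ ≤ (n : ℝ) * √n * ‖c‖ := by
  have := norm_dvv_le_aux (c := c) hn h 1 (by norm_num)
  simpa using this

lemma norm_dvv_le' (hn : 0 < n) (h : z ∈ St η) :
    ‖vv η n c (z - 1 / n) - vv η n c z‖ ≤ (n : ℝ) * √n * ‖c‖ := by
  have := norm_dvv_le_aux (c := c) hn h (-1) (by norm_num)
  have e : z - 1 / (n : ℂ) = z + ((-1 : ℝ) : ℂ) / n := by push_cast; ring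
  rw [e]
  exact this

lemma norm_deriv_vv_le (h : z ∈ St η) :
    ‖deriv (vv η n c) z‖ ≤ 2 * ((n : ℝ) ^ 2 * √n) * ‖c‖ := by
  have e : vv η n c = Tg η (n / 2) (mv n) (mv n) c := rfl
  rw [e, deriv_Tg]
  refine (norm_Tg_le h).trans (mul_le_mul_of_nonneg_right ?_ (norm_nonneg _))
  have h1 : ∀ k ∈ Finset.range (n / 2),
      ‖mv n (k + 1) * (2 * π * I * ((k + 1 : ℕ) : ℂ))‖ +
      ‖mv n (k + 1) * (-(2 * π * I * ((k + 1 : ℕ) : ℂ)))‖ ≤
      (n : ℝ) ^ 2 * (1 / ((k : ℝ) + 1)) := by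
    intro k hk
    have hk' := Finset.mem_range.1 hk
    have a1 := norm_mv_le (n := n) (k := k + 1) (by omega) (by omega)
    rw [norm_mul (mv n (k + 1)), norm_mul (mv n (k + 1)), norm_neg]
    have e1 : ‖(2 * π * I * ((k + 1 : ℕ) : ℂ))‖ = 2 * π * ((k : ℝ) + 1) := by
      rw [norm_mul, norm_mul, norm_mul, Complex.norm_I, Complex.norm_natCast, Complex.norm_real,
        Real.norm_of_nonneg Real.pi_pos.le]
      push_cast
      norm_num
    rw [e1]
    have hk0 : (0 : ℝ) < (k : ℝ) + 1 := by positivity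
    push_cast at a1
    have a2 : ‖mv n (k + 1)‖ * (2 * π * ((k : ℝ) + 1)) ≤
        (n : ℝ) ^ 2 / (16 * ((k : ℝ) + 1) ^ 2) * (2 * π * ((k : ℝ) + 1)) :=
      mul_le_mul_of_nonneg_right a1 (by have := Real.pi_pos; positivity)
    have e2 : (n : ℝ) ^ 2 / (16 * ((k : ℝ) + 1) ^ 2) * (2 * π * ((k : ℝ) + 1)) =
        (π / 8) * ((n : ℝ) ^ 2 * (1 / ((k : ℝ) + 1))) := by
      field_simp
      ring
    rw [e2] at a2
    have h4 : π / 8 ≤ 1 / 2 := by have := Real.pi_le_four; linarith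
    have h5 : 0 ≤ (n : ℝ) ^ 2 * (1 / ((k : ℝ) + 1)) := by positivity
    nlinarith
  refine (Finset.sum_le_sum h1).trans ?_
  rw [← Finset.mul_sum]
  have h2 := sum_inv_le_sqrt (n / 2)
  have h3 := sqrt_half_le n
  have h4 : (0 : ℝ) ≤ (n : ℝ) ^ 2 := by positivity
  nlinarith [Real.sqrt_nonneg (n : ℝ)]

/-- the second difference of `v` is `y` -/
lemma second_diff (hn : 0 < n) : vv η n c (z + 1 / n) - 2 * vv η n c z + vv η n c (z - 1 / n) =
    yy η n c z := by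
  have hn' : (n : ℂ) ≠ 0 := by exact_mod_cast hn.ne'
  unfold vv yy
  have e0 : z - 1 / (n : ℂ) = z + (-(1 / (n : ℂ))) := by ring
  rw [e0, Tg_shift, Tg_shift]
  unfold Tg
  rw [Finset.mul_sum, ← Finset.sum_sub_distrib, ← Finset.sum_add_distrib]
  refine Finset.sum_congr rfl (fun k _ => ?_)
  have hk2 := k.2
  have hs := sin_pos' (n := n) (k := (k : ℕ) + 1) (by omega) (by omega)
  set s : ℝ := Real.sin (π * ((k : ℕ) + 1 : ℕ) / n) with hsdef
  set u : ℂ := ee ((((k : ℕ) + 1 : ℕ) : ℂ) * (1 / n)) with hu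
  have hu' : ee (-((((k : ℕ) + 1 : ℕ) : ℂ) * (1 / n))) = u⁻¹ := ee_neg _
  have hun : ee ((((k : ℕ) + 1 : ℕ) : ℂ) * -(1 / n)) = u⁻¹ := by rw [mul_neg]; exact hu'
  have hunn : ee (-((((k : ℕ) + 1 : ℕ) : ℂ) * -(1 / n))) = u := by rw [mul_neg, neg_neg]
  have hu0 : u ≠ 0 := ee_ne_zero _
  have key : mv n ((k : ℕ) + 1) * (u - 2 + u⁻¹) = 1 := by
    have h1 := ee_sub_one (((k : ℕ) + 1 : ℕ) / n : ℝ)
    have e1 : (((((k : ℕ) + 1 : ℕ) : ℝ) / n : ℝ) : ℂ) = (((k : ℕ) + 1 : ℕ) : ℂ) * (1 / n) := by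
      push_cast; ring
    rw [e1, ← hu] at h1
    have e2 : Real.sin (π * ((((k : ℕ) + 1 : ℕ) : ℝ) / n)) = s := by
      rw [hsdef, mul_div_assoc]
    rw [e2] at h1
    set p : ℂ := ee ((((k : ℕ) + 1 : ℕ) : ℂ) * (1 / n) / 2) with hp
    have hpp : p * p = u := by rw [hp, hu, ← ee_add]; ring_nf
    have h3 : u - 2 + u⁻¹ = (u - 1) ^ 2 * u⁻¹ := by field_simp; ring
    have h4 : (u - 1) ^ 2 * u⁻¹ = -4 * (s : ℂ) ^ 2 := by
      rw [h1, ← hpp]
      have hp0 : p ≠ 0 := ee_ne_zero _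
      have : I ^ 2 = -1 := Complex.I_sq
      field_simp
      linear_combination (4 * (s : ℂ) ^ 2) * this
    rw [h3, h4]
    unfold mv
    rw [← hsdef]
    have hs' : (s : ℂ) ≠ 0 := by exact_mod_cast hs.ne'
    push_cast
    field_simp
  simp only [hu', hun, hunn, ← hu]
  have k1 := key
  set m := mv n ((k : ℕ) + 1)
  have k2 : m * u - 2 * m + m * u⁻¹ = 1 := by linear_combination k1
  linear_combination ((Real.exp (-(2 * π * η * ((k : ℕ) + 1 : ℕ))) : ℂ) * (c k * ee ((((k : ℕ) + 1 : ℕ) : ℂ) * z) + (starRingEnd ℂ) (c k) * ee (-((((k : ℕ) + 1 : ℕ) : ℂ) * z)))) * k2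

end

end Crest.Agent.R102.A929
end
end

-- ▼ part R102/Fix2A_929
section

/-!
Row 102, part (A) (helper929): LEAF FIX, the contraction.
-/

set_option autoImplicit false

open Set Filter Topology Metric Complex MeasureTheory
open scoped Real ContDiff ComplexConjugate

noncomputable section

namespace Crest.Agent.R102.A929

/-- the defect of the reflection law along the family -/
def EV (q : C(ℂ, ℂ)) (η : ℝ) (n : ℕ) (c : Fin (n / 2) → ℂ) (z : ℂ) : ℂ :=
  EP q (z - 1 / n + vv η n c (z - 1 / n)) (z + vv η n c z) (z + 1 / n + vv η n c (z + 1 / n))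

/-- the function whose Fourier coefficients define the contraction -/
def fv (q : C(ℂ, ℂ)) (η : ℝ) (n : ℕ) (c : Fin (n / 2) → ℂ) (z : ℂ) : ℂ :=
  yy η n c z + 4 * n * EV q η n c z

/-- backward increment -/
def em (η : ℝ) (n : ℕ) (c : Fin (n / 2) → ℂ) (z : ℂ) : ℂ :=
  (z + vv η n c z) - (z - 1 / n + vv η n c (z - 1 / n))

/-- forward increment -/
def ep (η : ℝ) (n : ℕ) (c : Fin (n / 2) → ℂ) (z : ℂ) : ℂ :=
  (z + 1 / n + vv η n c (z + 1 / n)) - (z + vv η n c z)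

/-- the standing assumptions -/
structure Ctx (q : C(ℂ, ℂ)) (q1 q2 : ℂ → ℂ) (ρ C B η r : ℝ) (n : ℕ) : Prop where
  hL : LocQ ρ C
  hS : Sm q q1 q2 (St (η + 2 / n)) B
  hn : 0 < n
  η0 : 0 ≤ η
  r1 : (n : ℝ) ^ 2 * r ≤ 1 / n
  r2 : (n : ℝ) * √n * r ≤ 1 / n
  n2 : 2 / (n : ℝ) ≤ 1
  nρ : CX B * (2 / n) < ρ

section

variable {q : C(ℂ, ℂ)} {q1 q2 : ℂ → ℂ} {ρ C B η r : ℝ} {n : ℕ} {c c' : Fin (n / 2) → ℂ} {z : ℂ}

lemma vv_sub : vv η n c' z - vv η n c z = vv η n (c' - c) z := Tg_sub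

lemma yy_sub : yy η n c' z - yy η n c z = yy η n (c' - c) z := Tg_sub

lemma vv_zero : vv η n 0 z = 0 := Tg_zero

lemma yy_zero : yy η n 0 z = 0 := Tg_zero

lemma St_add (hz : z ∈ St η) (s : ℝ) : z + s ∈ St η := by
  simp only [St, mem_ofPred_eq, Complex.add_im, Complex.ofReal_im, add_zero] at hz ⊢
  exact hz

lemma St_p (hz : z ∈ St η) : z + 1 / n ∈ St η := by
  have := St_add hz (1 / n)
  push_cast at this
  exact this

lemma St_m (hz : z ∈ St η) : z - 1 / n ∈ St η := by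
  have := St_add hz (-(1 / n))
  push_cast at this
  rw [← sub_eq_add_neg] at this
  exact this

lemma St_addc {w : ℂ} {δ : ℝ} (hz : z ∈ St η) (hw : ‖w‖ ≤ δ) : z + w ∈ St (η + δ) := by
  simp only [St, mem_ofPred_eq, Complex.add_im] at hz ⊢
  exact (abs_add_le _ _).trans (add_le_add hz ((Complex.abs_im_le_norm w).trans hw))

lemma St_mono {η' : ℝ} (h : η ≤ η') : St η ⊆ St η' := fun _ hz => le_trans hz h

lemma Ctx.vle (h : Ctx q q1 q2 ρ C B η r n) (hc : ‖c‖ ≤ r) (hz : z ∈ St η) :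
    ‖vv η n c z‖ ≤ 1 / n := by
  refine (norm_vv_le hz).trans (le_trans ?_ h.r1)
  exact mul_le_mul_of_nonneg_left hc (by positivity)

lemma Ctx.dvp (h : Ctx q q1 q2 ρ C B η r n) (hc : ‖c‖ ≤ r) (hz : z ∈ St η) :
    ‖vv η n c (z + 1 / n) - vv η n c z‖ ≤ 1 / n := by
  refine (norm_dvv_le h.hn hz).trans (le_trans ?_ h.r2)
  exact mul_le_mul_of_nonneg_left hc (by positivity)

lemma Ctx.dvm (h : Ctx q q1 q2 ρ C B η r n) (hc : ‖c‖ ≤ r) (hz : z ∈ St η) :
    ‖vv η n c (z - 1 / n) - vv η n c z‖ ≤ 1 / n := by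
  refine (norm_dvv_le' h.hn hz).trans (le_trans ?_ h.r2)
  exact mul_le_mul_of_nonneg_left hc (by positivity)

lemma Ctx.mem (h : Ctx q q1 q2 ρ C B η r n) (hc : ‖c‖ ≤ r) (hz : z ∈ St η) :
    z + vv η n c z ∈ St (η + 2 / n) := by
  have hn : (0 : ℝ) < n := by exact_mod_cast h.hn
  refine St_mono ?_ (St_addc hz (h.vle hc hz))
  have : 1 / (n : ℝ) ≤ 2 / n := by gcongr; norm_num
  linarith

lemma norm_inv_nat : ‖(1 / (n : ℂ))‖ = 1 / n := by
  rw [norm_div, norm_one, Complex.norm_natCast]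

lemma Ctx.em_le (h : Ctx q q1 q2 ρ C B η r n) (hc : ‖c‖ ≤ r) (hz : z ∈ St η) :
    ‖em η n c z‖ ≤ 2 / n := by
  have e : em η n c z = 1 / n - (vv η n c (z - 1 / n) - vv η n c z) := by unfold em; ring
  rw [e]
  refine (norm_sub_le _ _).trans ?_
  rw [norm_inv_nat]
  have := h.dvm hc hz
  have e2 : 2 / (n : ℝ) = 1 / n + 1 / n := by ring
  rw [e2]
  linarith

lemma Ctx.ep_le (h : Ctx q q1 q2 ρ C B η r n) (hc : ‖c‖ ≤ r) (hz : z ∈ St η) :
    ‖ep η n c z‖ ≤ 2 / n := by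
  have e : ep η n c z = 1 / n + (vv η n c (z + 1 / n) - vv η n c z) := by unfold ep; ring
  rw [e]
  refine (norm_add_le _ _).trans ?_
  rw [norm_inv_nat]
  have := h.dvp hc hz
  have e2 : 2 / (n : ℝ) = 1 / n + 1 / n := by ring
  rw [e2]
  linarith

lemma Ctx.mem_m (h : Ctx q q1 q2 ρ C B η r n) (hc : ‖c‖ ≤ r) (hz : z ∈ St η) :
    z + vv η n c z + -em η n c z ∈ St (η + 2 / n) := by
  have e : z + vv η n c z + -em η n c z = (z - 1 / n) + vv η n c (z - 1 / n) := by unfold em; ring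
  rw [e]
  exact h.mem hc (St_m hz)

lemma Ctx.mem_p (h : Ctx q q1 q2 ρ C B η r n) (hc : ‖c‖ ≤ r) (hz : z ∈ St η) :
    z + vv η n c z + ep η n c z ∈ St (η + 2 / n) := by
  have e : z + vv η n c z + ep η n c z = (z + 1 / n) + vv η n c (z + 1 / n) := by unfold ep; ring
  rw [e]
  exact h.mem hc (St_p hz)

lemma EV_eq : EV q η n c z = Pq q (z + vv η n c z) (-em η n c z) - Pq q (z + vv η n c z) (ep η n c z) :=
  rfl

lemma Ctx.Xm (h : Ctx q q1 q2 ρ C B η r n) (hc : ‖c‖ ≤ r) (hz : z ∈ St η) :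
    ‖Xq q (z + vv η n c z) (-em η n c z)‖ < ρ := by
  have hCX := CX_ge h.hS.B_ge
  refine (h.hS.norm_Xq (h.mem hc hz) (h.mem_m hc hz) (m := 2 / n)
    (by rw [norm_neg]; exact h.em_le hc hz) h.n2).trans_lt (lt_of_le_of_lt ?_ h.nρ)
  rw [norm_neg]
  exact mul_le_mul_of_nonneg_left (h.em_le hc hz) (by linarith)

lemma Ctx.Xp (h : Ctx q q1 q2 ρ C B η r n) (hc : ‖c‖ ≤ r) (hz : z ∈ St η) :
    ‖Xq q (z + vv η n c z) (ep η n c z)‖ < ρ := by
  have hCX := CX_ge h.hS.B_ge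
  refine (h.hS.norm_Xq (h.mem hc hz) (h.mem_p hc hz) (m := 2 / n)
    (h.ep_le hc hz) h.n2).trans_lt (lt_of_le_of_lt ?_ h.nρ)
  exact mul_le_mul_of_nonneg_left (h.ep_le hc hz) (by linarith)

lemma differentiable_vv : Differentiable ℂ (vv η n c) :=
  (differentiable_Tg (α := mv n) (β := mv n) :)

lemma differentiable_yy : Differentiable ℂ (yy η n c) :=
  (differentiable_Tg (η := η) (K := n / 2) (α := fun _ => 1) (β := fun _ => 1) (c := c) :)

lemma differentiable_em : Differentiable ℂ (em η n c) := by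
  unfold em
  have h1 : Differentiable ℂ (vv η n c) := differentiable_vv
  have h2 : Differentiable ℂ (fun z : ℂ => vv η n c (z - 1 / n)) := h1.comp (by fun_prop)
  fun_prop

lemma differentiable_ep : Differentiable ℂ (ep η n c) := by
  unfold ep
  have h1 : Differentiable ℂ (vv η n c) := differentiable_vv
  have h2 : Differentiable ℂ (fun z : ℂ => vv η n c (z + 1 / n)) := h1.comp (by fun_prop)
  fun_prop

lemma Ctx.diffEV (h : Ctx q q1 q2 ρ C B η r n) (hq : Differentiable ℂ q) (hc : ‖c‖ ≤ r) :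
    DifferentiableOn ℂ (EV q η n c) (St η) := by
  intro z hz
  have h1 : DifferentiableAt ℂ (fun z => Pq q (z + vv η n c z) (-em η n c z)) z := by
    refine DifferentiableAt.comp (g := fun p : ℂ × ℂ => Pq q p.1 p.2)
      (f := fun z => (z + vv η n c z, -em η n c z)) z
      (differentiableAt_Pq h.hL hq (p := (z + vv η n c z, -em η n c z)) (h.Xm hc hz)) ?_
    exact (differentiableAt_id.add (differentiable_vv z)).prodMk (differentiable_em z).neg
  have h2 : DifferentiableAt ℂ (fun z => Pq q (z + vv η n c z) (ep η n c z)) z := by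
    refine DifferentiableAt.comp (g := fun p : ℂ × ℂ => Pq q p.1 p.2)
      (f := fun z => (z + vv η n c z, ep η n c z)) z
      (differentiableAt_Pq h.hL hq (p := (z + vv η n c z, ep η n c z)) (h.Xp hc hz)) ?_
    exact (differentiableAt_id.add (differentiable_vv z)).prodMk (differentiable_ep z)
  exact (h1.sub h2).differentiableWithinAt

lemma Ctx.difff (h : Ctx q q1 q2 ρ C B η r n) (hq : Differentiable ℂ q) (hc : ‖c‖ ≤ r) :
    DifferentiableOn ℂ (fv q η n c) (St η) :=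
  differentiable_yy.differentiableOn.add ((h.diffEV hq hc).const_mul _)

lemma vv_add_one : vv η n c (z + 1) = vv η n c z := Tg_add_one

lemma yy_add_one : yy η n c (z + 1) = yy η n c z := Tg_add_one

lemma em_add_one : em η n c (z + 1) = em η n c z := by
  unfold em
  have : z + 1 - 1 / (n : ℂ) = (z - 1 / n) + 1 := by ring
  rw [this, vv_add_one, vv_add_one]
  ring

lemma ep_add_one : ep η n c (z + 1) = ep η n c z := by
  unfold ep
  have : z + 1 + 1 / (n : ℂ) = (z + 1 / n) + 1 := by ring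
  rw [this, vv_add_one, vv_add_one]
  ring

lemma Xq_per (hq : ∀ z, q (z + 1) = q z) (x e : ℂ) : Xq q (x + 1) e = Xq q x e := by
  unfold Xq
  have h1 : dq q (x + 1) e = dq q x e := by
    refine AA.ext' (fun r => ?_)
    rw [dq_apply, dq_apply, hq]
    have : x + 1 + e * ((r : ℝ) : ℂ) = (x + e * ((r : ℝ) : ℂ)) + 1 := by ring
    rw [this, hq]
  rw [h1, hq]

lemma Pq_per (hq : ∀ z, q (z + 1) = q z) (x e : ℂ) : Pq q (x + 1) e = Pq q x e := by
  unfold Pq
  rw [Xq_per hq]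

lemma EV_per (hq : ∀ z, q (z + 1) = q z) : EV q η n c (z + 1) = EV q η n c z := by
  rw [EV_eq, EV_eq, em_add_one, ep_add_one, vv_add_one]
  have : z + 1 + vv η n c z = (z + vv η n c z) + 1 := by ring
  rw [this, Pq_per hq, Pq_per hq]

lemma fv_per (hq : ∀ z, q (z + 1) = q z) : fv q η n c (z + 1) = fv q η n c z := by
  unfold fv
  rw [EV_per hq, yy_add_one]

/-- the basic Lipschitz estimate -/
lemma Ctx.lip (h : Ctx q q1 q2 ρ C B η r n) (hr : 0 ≤ r) (hc : ‖c‖ ≤ r) (hc' : ‖c'‖ ≤ r)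
    (hz : z ∈ St η) : ‖fv q η n c' z - fv q η n c z‖ ≤
      (2 * ((n : ℝ) ^ 3 * √n * r) + 192 * CP C B * (√n / n)) * ‖c' - c‖ := by
  have hn : (0 : ℝ) < n := by exact_mod_cast h.hn
  have hnC : (n : ℂ) ≠ 0 := by exact_mod_cast h.hn.ne'
  set δ : ℝ := ‖c' - c‖ with hδ
  have hδ0 : 0 ≤ δ := norm_nonneg _
  have hw := Real.sqrt_nonneg (n : ℝ)
  have hCP : 0 ≤ CP C B := by
    have := h.hL.C_ge
    have := h.hS.B_ge
    have := CX_ge h.hS.B_ge
    unfold CP
    positivity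
  have hm1 : ‖em η n c' z - em η n c z‖ ≤ (n : ℝ) * √n * δ := by
    have e : em η n c' z - em η n c z = -(vv η n (c' - c) (z - 1 / n) - vv η n (c' - c) z) := by
      rw [← vv_sub, ← vv_sub]; unfold em; ring
    rw [e, norm_neg]
    exact norm_dvv_le' h.hn hz
  have hp1 : ‖ep η n c' z - ep η n c z‖ ≤ (n : ℝ) * √n * δ := by
    have e : ep η n c' z - ep η n c z = (vv η n (c' - c) (z + 1 / n) - vv η n (c' - c) z) := by
      rw [← vv_sub, ← vv_sub]; unfold ep; ring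
    rw [e]
    exact norm_dvv_le h.hn hz
  have hS1 : ‖(z + vv η n c' z) - (z + vv η n c z)‖ ≤ (n : ℝ) ^ 2 * δ := by
    have e : (z + vv η n c' z) - (z + vv η n c z) = vv η n (c' - c) z := by
      rw [← vv_sub]; ring
    rw [e]
    exact norm_vv_le hz
  have P1 := h.hS.PL h.hL (h.mem hc hz) (h.mem_m hc hz) (h.mem hc' hz) (h.mem_m hc' hz)
    (m := 2 / n) (by rw [norm_neg]; exact h.em_le hc hz) (by rw [norm_neg]; exact h.em_le hc' hz)
    h.n2 h.nρ
  have P2 := h.hS.PL h.hL (h.mem hc hz) (h.mem_p hc hz) (h.mem hc' hz) (h.mem_p hc' hz)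
    (m := 2 / n) (h.ep_le hc hz) (h.ep_le hc' hz) h.n2 h.nρ
  have e3 : ‖-em η n c' z - -em η n c z‖ = ‖em η n c' z - em η n c z‖ := by
    rw [← norm_neg]; congr 1; ring
  rw [e3] at P1
  have bnd : ∀ t : ℝ, t ≤ (n : ℝ) * √n * δ →
      CP C B * ((2 / (n : ℝ)) ^ 3 * t + (2 / (n : ℝ)) ^ 4 * ‖(z + vv η n c' z) - (z + vv η n c z)‖) ≤
        24 * CP C B * (√n / n ^ 2) * δ := by
    intro t ht
    have hw1 : 1 ≤ √(n : ℝ) := by
      rw [Real.one_le_sqrt]
      exact_mod_cast h.hn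
    have a1 : (2 / (n : ℝ)) ^ 3 * t ≤ 8 * (√n / n ^ 2) * δ := by
      calc (2 / (n : ℝ)) ^ 3 * t ≤ (2 / (n : ℝ)) ^ 3 * ((n : ℝ) * √n * δ) :=
            mul_le_mul_of_nonneg_left ht (by positivity)
        _ = 8 * (√n / n ^ 2) * δ := by field_simp; ring
    have a2 : (2 / (n : ℝ)) ^ 4 * ‖(z + vv η n c' z) - (z + vv η n c z)‖ ≤
        16 * (√n / n ^ 2) * δ := by
      calc (2 / (n : ℝ)) ^ 4 * ‖(z + vv η n c' z) - (z + vv η n c z)‖
          ≤ (2 / (n : ℝ)) ^ 4 * ((n : ℝ) ^ 2 * δ) := mul_le_mul_of_nonneg_left hS1 (by positivity)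
        _ = 16 * (1 / n ^ 2) * δ := by field_simp; ring
        _ ≤ 16 * (√n / n ^ 2) * δ := by gcongr
    calc CP C B * ((2 / (n : ℝ)) ^ 3 * t +
          (2 / (n : ℝ)) ^ 4 * ‖(z + vv η n c' z) - (z + vv η n c z)‖)
        ≤ CP C B * (8 * (√n / n ^ 2) * δ + 16 * (√n / n ^ 2) * δ) :=
          mul_le_mul_of_nonneg_left (add_le_add a1 a2) hCP
      _ = _ := by ring
  have B1 := P1.trans (bnd _ hm1)
  have B2 := P2.trans (bnd _ hp1)
  -- the algebraic identity
  set s : ℂ := em η n c z + ep η n c z - 2 / n with hs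
  set s' : ℂ := em η n c' z + ep η n c' z - 2 / n with hs'
  set y : ℂ := yy η n c z with hy
  set y' : ℂ := yy η n c' z with hy'
  have y_eq : ep η n c z - em η n c z = y := by
    rw [hy, ← second_diff h.hn]; unfold ep em; ring
  have y_eq' : ep η n c' z - em η n c' z = y' := by
    rw [hy', ← second_diff h.hn]; unfold ep em; ring
  set E1 := Pq q (z + vv η n c' z) (-em η n c' z) - Pq q (z + vv η n c z) (-em η n c z) -
    ((-em η n c' z) ^ 2 - (-em η n c z) ^ 2) / 8 with hE1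
  set E2 := Pq q (z + vv η n c' z) (ep η n c' z) - Pq q (z + vv η n c z) (ep η n c z) -
    ((ep η n c' z) ^ 2 - (ep η n c z) ^ 2) / 8 with hE2
  have id1 : fv q η n c' z - fv q η n c z =
      -((n : ℂ) / 2) * (s' * (y' - y) + (s' - s) * y) + 4 * n * (E1 - E2) := by
    unfold fv
    rw [EV_eq, EV_eq, ← hy, ← hy', hE1, hE2, ← y_eq, ← y_eq', hs, hs']
    field_simp
    ring
  have ns' : ‖s'‖ ≤ 2 * ((n : ℝ) * √n * r) := by
    have e : s' = (vv η n c' (z + 1 / n) - vv η n c' z) - (vv η n c' (z - 1 / n) - vv η n c' z) := by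
      rw [hs']; unfold em ep; field_simp; ring
    rw [e]
    refine (norm_sub_le _ _).trans ?_
    have b1 := norm_dvv_le (c := c') h.hn hz
    have b2 := norm_dvv_le' (c := c') h.hn hz
    have b3 : (n : ℝ) * √n * ‖c'‖ ≤ (n : ℝ) * √n * r := mul_le_mul_of_nonneg_left hc' (by positivity)
    linarith
  have nss : ‖s' - s‖ ≤ 2 * ((n : ℝ) * √n * δ) := by
    have e : s' - s = (em η n c' z - em η n c z) + (ep η n c' z - ep η n c z) := by
      rw [hs, hs']; ring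
    rw [e]
    refine (norm_add_le _ _).trans ?_
    linarith
  have nyy : ‖y' - y‖ ≤ (n : ℝ) * δ := by
    rw [hy, hy', yy_sub]
    exact norm_yy_le hz
  have ny : ‖y‖ ≤ (n : ℝ) * r := by
    refine (norm_yy_le hz).trans ?_
    exact mul_le_mul_of_nonneg_left hc hn.le
  rw [id1]
  have t1 : ‖s' * (y' - y) + (s' - s) * y‖ ≤ 4 * ((n : ℝ) ^ 2 * √n * r * δ) := by
    refine (norm_add_le _ _).trans ?_
    rw [norm_mul, norm_mul]
    have c1 := mul_le_mul ns' nyy (norm_nonneg _) (by positivity)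
    have c2 := mul_le_mul nss ny (norm_nonneg _) (by positivity)
    refine (add_le_add c1 c2).trans (le_of_eq ?_)
    ring
  have t2 : ‖E1 - E2‖ ≤ 48 * CP C B * (√n / n ^ 2) * δ := by
    refine (norm_sub_le _ _).trans ?_
    linarith
  have n1 : ‖-((n : ℂ) / 2)‖ = (n : ℝ) / 2 := by
    rw [norm_neg, norm_div, Complex.norm_natCast]; norm_num
  have n4 : ‖(4 * n : ℂ)‖ = 4 * (n : ℝ) := by
    rw [norm_mul, Complex.norm_natCast]; norm_num
  refine (norm_add_le _ _).trans ?_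
  rw [norm_mul, norm_mul, n1, n4]
  have d1 := mul_le_mul_of_nonneg_left t1 (by positivity : (0 : ℝ) ≤ (n : ℝ) / 2)
  have d2 := mul_le_mul_of_nonneg_left t2 (by positivity : (0 : ℝ) ≤ 4 * (n : ℝ))
  refine (add_le_add d1 d2).trans (le_of_eq ?_)
  field_simp
  ring


/-! ### the contraction -/

/-- the contraction -/
def Phi (q : C(ℂ, ℂ)) (η : ℝ) (n : ℕ) (c : Fin (n / 2) → ℂ) : Fin (n / 2) → ℂ := fun k =>
  (Real.exp (2 * π * η * ((k : ℕ) + 1 : ℕ)) : ℂ) *
    ∫ x in (0 : ℝ)..1, fv q η n c x * ee (-((((k : ℕ) + 1 : ℕ) : ℂ) * x))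

lemma coef_bound {g : ℂ → ℂ} {A : ℝ} (hη : 0 ≤ η) (hg : DifferentiableOn ℂ g (St η))
    (hper : ∀ z ∈ St η, g (z + 1) = g z) (hA : ∀ z ∈ St η, ‖g z‖ ≤ A) (k : ℕ) :
    ‖(Real.exp (2 * π * η * (k + 1 : ℕ)) : ℂ) *
      ∫ x in (0 : ℝ)..1, g x * ee (-(((k + 1 : ℕ) : ℂ) * x))‖ ≤ A := by
  have h := norm_coeff_le hη hg hper hA ((k + 1 : ℕ) : ℤ)
  rw [norm_mul, Complex.norm_real, Real.norm_of_nonneg (Real.exp_nonneg _)]
  have e1 : |((((k + 1 : ℕ) : ℤ)) : ℝ)| = ((k + 1 : ℕ) : ℝ) := by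
    rw [Int.cast_natCast, abs_of_nonneg (Nat.cast_nonneg _)]
  rw [e1] at h
  simp only [Int.cast_natCast] at h
  have h2 := mul_le_mul_of_nonneg_left h (Real.exp_nonneg (2 * π * η * (k + 1 : ℕ)))
  refine h2.trans (le_of_eq ?_)
  have : Real.exp (2 * π * η * (k + 1 : ℕ)) * (A * Real.exp (-(2 * π * η * (k + 1 : ℕ)))) =
      A * (Real.exp (2 * π * η * (k + 1 : ℕ)) * Real.exp (-(2 * π * η * (k + 1 : ℕ)))) := by ring
  rw [this, ← Real.exp_add, add_neg_cancel, Real.exp_zero, mul_one]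

lemma real_mem_St (hη : 0 ≤ η) (x : ℝ) : (x : ℂ) ∈ St η := by
  simp [St, hη]

lemma continuous_real_of_diffOn {g : ℂ → ℂ} (hη : 0 ≤ η) (hg : DifferentiableOn ℂ g (St η)) :
    Continuous (fun x : ℝ => g x) :=
  hg.continuousOn.comp_continuous Complex.continuous_ofReal (fun x => real_mem_St hη x)

lemma continuous_eem (k : ℕ) : Continuous (fun x : ℝ => ee (-(((k + 1 : ℕ) : ℂ) * x))) :=
  continuous_ee.comp (by fun_prop)

lemma Ctx.Phi_sub (h : Ctx q q1 q2 ρ C B η r n) (hq : Differentiable ℂ q)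
    (hqp : ∀ z, q (z + 1) = q z) (hc : ‖c‖ ≤ r) (hc' : ‖c'‖ ≤ r) {A : ℝ} (hA0 : 0 ≤ A)
    (hA : ∀ z ∈ St η, ‖fv q η n c' z - fv q η n c z‖ ≤ A) :
    ‖Phi q η n c' - Phi q η n c‖ ≤ A := by
  refine (pi_norm_le_iff_of_nonneg hA0).2 (fun k => ?_)
  have d1 := h.difff hq hc'
  have d2 := h.difff hq hc
  have h1 := coef_bound h.η0 (d1.sub d2) (fun z _ => by
    simp only [Pi.sub_apply]
    rw [fv_per hqp, fv_per hqp]) (fun z hz => by simpa using hA z hz) (k : ℕ)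
  have e1 : (Phi q η n c' - Phi q η n c) k = (Real.exp (2 * π * η * ((k : ℕ) + 1 : ℕ)) : ℂ) *
      ∫ x in (0 : ℝ)..1, (fv q η n c' - fv q η n c) x * ee (-((((k : ℕ) + 1 : ℕ) : ℂ) * x)) := by
    rw [Pi.sub_apply]
    unfold Phi
    rw [← mul_sub, ← intervalIntegral.integral_sub]
    · congr 2
      ext x
      rw [Pi.sub_apply]; ring
    · exact ((continuous_real_of_diffOn h.η0 d1).mul (continuous_eem _)).intervalIntegrable _ _
    · exact ((continuous_real_of_diffOn h.η0 d2).mul (continuous_eem _)).intervalIntegrable _ _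
  rw [e1]
  exact h1

lemma Ctx.f0 (h : Ctx q q1 q2 ρ C B η r n) (hz : z ∈ St η) :
    ‖fv q η n 0 z‖ ≤ 4 * CP0 ρ C B / n ^ 4 := by
  have hn : (0 : ℝ) < n := by exact_mod_cast h.hn
  have e0 : fv q η n 0 z = 4 * n * (Pq q z (-(1 / n)) - Pq q z (1 / n)) := by
    unfold fv EV EP
    rw [yy_zero, vv_zero, vv_zero, vv_zero]
    ring_nf
  have hz0 : z ∈ St (η + 2 / n) := St_mono (by have : 0 < 2 / (n : ℝ) := by positivity
                                               linarith) hz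
  have hzp : z + 1 / n ∈ St (η + 2 / n) := St_mono (by have : 0 < 2 / (n : ℝ) := by positivity
                                                       linarith) (St_p hz)
  have hzm : z - 1 / n ∈ St (η + 2 / n) := St_mono (by have : 0 < 2 / (n : ℝ) := by positivity
                                                       linarith) (St_m hz)
  have h1 := h.hS.P0 h.hL hz0 hzp hzm (by
    rw [norm_inv_nat]
    have := h.nρ
    have e : 2 * CX B * (1 / (n : ℝ)) = CX B * (2 / n) := by ring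
    rw [e]; exact this)
  rw [e0, norm_mul]
  have n4 : ‖(4 * n : ℂ)‖ = 4 * (n : ℝ) := by
    rw [norm_mul, Complex.norm_natCast]; norm_num
  rw [n4]
  rw [norm_inv_nat] at h1
  refine (mul_le_mul_of_nonneg_left h1 (by positivity)).trans (le_of_eq ?_)
  field_simp

lemma CP0_nonneg (hL : LocQ ρ C) (hB : 1 ≤ B) : 0 ≤ CP0 ρ C B := by
  have := hL.C_ge
  have := hL.ρ_pos
  have := CX_ge hB
  unfold CP0
  positivity

/-- the quantitative assumptions -/
structure Ctx2 (q : C(ℂ, ℂ)) (q1 q2 : ℂ → ℂ) (ρ C B η r : ℝ) (n : ℕ) : Prop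
    extends Ctx q q1 q2 ρ C B η r n where
  hr : 0 < r
  hr0 : 8 * CP0 ρ C B / n ^ 4 ≤ r
  hL2 : 2 * ((n : ℝ) ^ 3 * √n * r) + 192 * CP C B * (√n / n) ≤ 1 / 2

lemma Ctx2.lip' (h : Ctx2 q q1 q2 ρ C B η r n) (hc : ‖c‖ ≤ r) (hc' : ‖c'‖ ≤ r)
    (hz : z ∈ St η) : ‖fv q η n c' z - fv q η n c z‖ ≤ 1 / 2 * ‖c' - c‖ :=
  (h.toCtx.lip h.hr.le hc hc' hz).trans (mul_le_mul_of_nonneg_right h.hL2 (norm_nonneg _))

lemma Ctx2.norm_fv (h : Ctx2 q q1 q2 ρ C B η r n) (hc : ‖c‖ ≤ r) (hz : z ∈ St η) :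
    ‖fv q η n c z‖ ≤ r := by
  have h1 := h.lip' (c := 0) (c' := c) (by rw [norm_zero]; exact h.hr.le) hc hz
  rw [sub_zero] at h1
  have h2 := h.toCtx.f0 hz
  have h3 : 4 * CP0 ρ C B / (n : ℝ) ^ 4 ≤ r / 2 := by
    have := h.hr0
    have e : 8 * CP0 ρ C B / (n : ℝ) ^ 4 = 2 * (4 * CP0 ρ C B / (n : ℝ) ^ 4) := by ring
    rw [e] at this
    linarith
  have h4 : fv q η n c z = (fv q η n c z - fv q η n 0 z) + fv q η n 0 z := by ring
  rw [h4]
  refine (norm_add_le _ _).trans ?_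
  linarith

lemma Ctx2.norm_Phi (h : Ctx2 q q1 q2 ρ C B η r n) (hq : Differentiable ℂ q)
    (hqp : ∀ z, q (z + 1) = q z) (hc : ‖c‖ ≤ r) : ‖Phi q η n c‖ ≤ r :=
  (pi_norm_le_iff_of_nonneg h.hr.le).2 (fun k =>
    coef_bound h.η0 (h.toCtx.difff hq hc) (fun _ _ => fv_per hqp) (fun _ hz => h.norm_fv hc hz) k)

theorem Ctx2.exists_fixed (h : Ctx2 q q1 q2 ρ C B η r n) (hq : Differentiable ℂ q)
    (hqp : ∀ z, q (z + 1) = q z) : ∃ c : Fin (n / 2) → ℂ, ‖c‖ ≤ r ∧ Phi q η n c = c := by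
  have hmaps : MapsTo (Phi q η n) (closedBall 0 r) (closedBall 0 r) := by
    intro c hc
    rw [mem_closedBall_zero_iff] at hc ⊢
    exact h.norm_Phi hq hqp hc
  have hcon : ContractingWith (1 / 2 : NNReal) (hmaps.restrict (Phi q η n) (closedBall 0 r)
      (closedBall 0 r)) := by
    refine ⟨by norm_num, LipschitzWith.of_dist_le_mul (fun c c' => ?_)⟩
    have hc := mem_closedBall_zero_iff.1 c.2
    have hc' := mem_closedBall_zero_iff.1 c'.2
    rw [Subtype.dist_eq, Subtype.dist_eq, MapsTo.val_restrict_apply, MapsTo.val_restrict_apply,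
      dist_eq_norm, dist_eq_norm]
    have := h.toCtx.Phi_sub hq hqp hc' hc (A := 1 / 2 * ‖(c : Fin (n / 2) → ℂ) - c'‖)
      (by positivity) (fun z hz => h.lip' hc' hc hz)
    refine this.trans (le_of_eq ?_)
    simp
  obtain ⟨c, hc, hfix, -⟩ := hcon.exists_fixedPoint' isClosed_closedBall.isComplete hmaps
    (x := 0) (mem_closedBall_self h.hr.le) (edist_ne_top _ _)
  exact ⟨c, mem_closedBall_zero_iff.1 hc, hfix⟩

end

end Crest.Agent.R102.A929
end
end

-- ▼ part R102/Fix3A_929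
section

/-!
Row 102, part (A) (helper929): LEAF FIX.
-/

set_option autoImplicit false

open Set Filter Topology Metric Complex MeasureTheory
open scoped Real ContDiff ComplexConjugate

noncomputable section

namespace Crest.Agent.R102.A929

section

variable {q : C(ℂ, ℂ)} {q1 q2 : ℂ → ℂ} {ρ C B η r : ℝ} {n : ℕ} {c c' : Fin (n / 2) → ℂ} {z : ℂ}

lemma mv_conj (n k : ℕ) : mv n k = conj (mv n k) := by
  unfold mv
  rw [Complex.conj_ofReal]

lemma vv_im (x : ℝ) : (vv η n c x).im = 0 := Tg_real (mv_conj n) x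

lemma vv_re (x : ℝ) : vv η n c x = ((vv η n c x).re : ℂ) := by
  apply Complex.ext
  · simp
  · simp [vv_im]

lemma vv_re_p (x : ℝ) : vv η n c (x + 1 / n) = ((vv η n c ((x + 1 / n : ℝ) : ℂ)).re : ℂ) := by
  rw [← vv_re]; push_cast; rfl

lemma vv_re_m (x : ℝ) : vv η n c (x - 1 / n) = ((vv η n c ((x - 1 / n : ℝ) : ℂ)).re : ℂ) := by
  rw [← vv_re]; push_cast; rfl

lemma EV_real (hq : ∀ x : ℝ, (q x).im = 0) (x : ℝ) : EV q η n c x = ((EV q η n c x).re : ℂ) := by
  have h1 : EV q η n c x = EP q ((x - 1 / n + (vv η n c ((x - 1 / n : ℝ) : ℂ)).re : ℝ) : ℂ)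
      ((x + (vv η n c x).re : ℝ) : ℂ)
      ((x + 1 / n + (vv η n c ((x + 1 / n : ℝ) : ℂ)).re : ℝ) : ℂ) := by
    unfold EV
    rw [vv_re_m, vv_re_p, vv_re x]
    push_cast
    rfl
  rw [EP_eq_EPr hq] at h1
  rw [h1, Complex.ofReal_re]

/-- the orthogonality relations for positive modes -/
lemma Ctx.orth_pos (h : Ctx q q1 q2 ρ C B η r n) (hq : Differentiable ℂ q) (hc : ‖c‖ ≤ r)
    (hfix : Phi q η n c = c) (j : Fin (n / 2)) :
    ∫ x in (0 : ℝ)..1, EV q η n c x * ee (-((((j : ℕ) + 1 : ℕ) : ℂ) * x)) = 0 := by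
  have hn : (n : ℂ) ≠ 0 := by exact_mod_cast h.hn.ne'
  have h1 := congrFun hfix j
  have hE := continuous_real_of_diffOn h.η0 (h.diffEV hq hc)
  have hy : Continuous (fun x : ℝ => yy η n c x) :=
    differentiable_yy.continuous.comp Complex.continuous_ofReal
  have h2 : ∫ x in (0 : ℝ)..1, fv q η n c x * ee (-((((j : ℕ) + 1 : ℕ) : ℂ) * x)) =
      (∫ x in (0 : ℝ)..1, yy η n c x * ee (-((((j : ℕ) + 1 : ℕ) : ℂ) * x))) +
      4 * n * ∫ x in (0 : ℝ)..1, EV q η n c x * ee (-((((j : ℕ) + 1 : ℕ) : ℂ) * x)) := by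
    rw [← intervalIntegral.integral_const_mul, ← intervalIntegral.integral_add]
    · refine intervalIntegral.integral_congr (fun x _ => ?_)
      simp only [fv]
      ring
    · exact (hy.mul (continuous_eem _)).intervalIntegrable _ _
    · exact ((hE.mul (continuous_eem _)).const_mul _).intervalIntegrable _ _
  have h3 : ∫ x in (0 : ℝ)..1, yy η n c x * ee (-((((j : ℕ) + 1 : ℕ) : ℂ) * x)) =
      (Real.exp (-(2 * π * η * ((j : ℕ) + 1 : ℕ))) : ℂ) * (1 * c j) :=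
    coeff_Tg (α := fun _ => 1) (β := fun _ => 1) j
  unfold Phi at h1
  rw [h2, h3, mul_add, one_mul, ← mul_assoc, ← Complex.ofReal_mul, ← Real.exp_add,
    add_neg_cancel, Real.exp_zero, Complex.ofReal_one, one_mul] at h1
  have h4 : (Real.exp (2 * π * η * ((j : ℕ) + 1 : ℕ)) : ℂ) *
      (4 * n * ∫ x in (0 : ℝ)..1, EV q η n c x * ee (-((((j : ℕ) + 1 : ℕ) : ℂ) * x))) = 0 := by
    linear_combination h1
  have h5 : (Real.exp (2 * π * η * ((j : ℕ) + 1 : ℕ)) : ℂ) ≠ 0 := by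
    exact_mod_cast (Real.exp_pos _).ne'
  rcases mul_eq_zero.1 h4 with h6 | h6
  · exact absurd h6 h5
  · rcases mul_eq_zero.1 h6 with h7 | h7
    · exact absurd h7 (mul_ne_zero (by norm_num) hn)
    · exact h7

lemma deriv_vv_sum (_x : ℝ) : ∃ c' d' : ℕ → ℂ, ∀ x : ℝ, deriv (vv η n c) x =
    ∑ k ∈ Finset.Icc 1 (n / 2), (c' k * ee (k * x) + d' k * ee (-(k * x))) := by
  classical
  set cc : ℕ → ℂ := fun m => if hm : m < n / 2 then c ⟨m, hm⟩ else 0 with hcc
  refine ⟨fun k => (Real.exp (-(2 * π * η * (k : ℕ))) : ℂ) * (mv n k * (2 * π * I * k)) * cc (k - 1),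
    fun k => (Real.exp (-(2 * π * η * (k : ℕ))) : ℂ) * (mv n k * (-(2 * π * I * k))) *
      conj (cc (k - 1)), fun x => ?_⟩
  have e : vv η n c = Tg η (n / 2) (mv n) (mv n) c := rfl
  rw [e, deriv_Tg]
  unfold Tg
  have h1 : Finset.Icc 1 (n / 2) = Finset.Ico (0 + 1) (n / 2 + 1) := by
    ext m; simp
  rw [h1, ← Finset.sum_Ico_add' (fun k : ℕ => ((Real.exp (-(2 * π * η * (k : ℕ))) : ℂ) *
    (mv n k * (2 * π * I * k)) * cc (k - 1) * ee (k * x) +
    (Real.exp (-(2 * π * η * (k : ℕ))) : ℂ) * (mv n k * (-(2 * π * I * k))) *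
      conj (cc (k - 1)) * ee (-(k * x)))) 0 (n / 2) 1, ← Finset.range_eq_Ico, Finset.sum_range]
  refine Finset.sum_congr rfl (fun k _ => ?_)
  have hk : cc ((k : ℕ) + 1 - 1) = c k := by
    rw [hcc]
    simp only [Nat.add_sub_cancel]
    rw [dif_pos k.2]
  rw [hk]
  push_cast
  ring

/-- the orthogonality relations -/
lemma Ctx.orth (h : Ctx q q1 q2 ρ C B η r n) (hq : Differentiable ℂ q)
    (hqp : ∀ z, q (z + 1) = q z) (hqr : ∀ x : ℝ, (q x).im = 0) {M : ℝ → ℝ → ℝ}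
    (hM : IsAct q (2 / n) M) (hr' : (n : ℝ) * √n * r < 1 / n) (hc : ‖c‖ ≤ r)
    (hfix : Phi q η n c = c) (k : ℤ) (hk : 2 * |k| ≤ n) :
    ∫ x in (0 : ℝ)..1, EV q η n c x * ee (-(k * x)) = 0 := by
  have hn : (0 : ℝ) < n := by exact_mod_cast h.hn
  have hE := continuous_real_of_diffOn h.η0 (h.diffEV hq hc)
  set g : ℝ → ℝ := fun x => (EV q η n c x).re with hg
  have hgc : Continuous g := Complex.continuous_re.comp hE
  have hEg : ∀ x : ℝ, EV q η n c x = (g x : ℂ) := fun x => EV_real hqr x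
  have hpos : ∀ k : ℤ, 1 ≤ k → k ≤ (n / 2 : ℕ) →
      ∫ x in (0 : ℝ)..1, (g x : ℂ) * ee (-(k * x)) = 0 := by
    intro k hk1 hk2
    have hk3 : (k - 1).toNat < n / 2 := by omega
    have := h.orth_pos hq hc hfix ⟨(k - 1).toNat, hk3⟩
    have e1 : ((((k - 1).toNat + 1 : ℕ) : ℤ)) = k := by omega
    have e2 : ((((k - 1).toNat + 1 : ℕ) : ℂ)) = (k : ℂ) := by
      rw [← Int.cast_natCast, e1]
    simp only [e2] at this
    rw [← this]
    refine intervalIntegral.integral_congr (fun x _ => ?_)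
    simp only [← hEg]
  by_cases hk0 : k = 0
  · subst hk0
    obtain ⟨c', d', hcd⟩ := deriv_vv_sum (η := η) (n := n) (c := c) 0
    have hmean := mean_EP_complex h.hL (fun x => hqp x) hM (v := vv η n c) differentiable_vv
      (fun z => vv_add_one) vv_im n (fun x => ?_) (fun x => ?_) (fun x => ?_) (fun x => ?_)
    · have h0 := mean_zero hgc hpos (c := c') (d := d') (u := fun x => deriv (vv η n c) x) hcd (by
        rw [← hmean]
        refine intervalIntegral.integral_congr (fun x _ => ?_)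
        rw [← hEg]
        rfl)
      rw [← h0]
      refine intervalIntegral.integral_congr (fun x _ => ?_)
      rw [← hEg, Int.cast_zero, zero_mul, neg_zero, ee_zero, mul_one]
    · have h1 := norm_dvv_le (c := c) h.hn (real_mem_St h.η0 x)
      have h2 : ‖vv η n c (x + 1 / n) - vv η n c x‖ < 1 / n := by
        refine lt_of_le_of_lt (h1.trans ?_) hr'
        exact mul_le_mul_of_nonneg_left hc (by positivity)
      have h3 := (Complex.abs_re_le_norm (vv η n c (x + 1 / n) - vv η n c x)).trans_lt h2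
      rw [Complex.sub_re, abs_lt] at h3
      have e : 2 / (n : ℝ) = 1 / n + 1 / n := by ring
      rw [e]
      constructor <;> linarith [h3.1, h3.2]
    · exact h.Xp hc (real_mem_St h.η0 x)
    · exact h.Xm hc (real_mem_St h.η0 x)
    · have := hEg x
      have h1 : (EV q η n c x).im = 0 := by rw [this, Complex.ofReal_im]
      exact h1
  · have h1 := coeff_neg hpos k hk0 (by omega)
    rw [← h1]
    refine intervalIntegral.integral_congr (fun x _ => ?_)
    simp only [← hEg]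

end

set_option maxHeartbeats 2000000 in
/-- **LEAF FIX** -/
theorem leafFIX : LeafFIX := by
  intro ρ C hL B hB
  have hρ := hL.ρ_pos
  have hCP0 := CP0_nonneg hL hB
  have hCX := CX_ge hB
  have hCP : 0 ≤ CP C B := by
    have := hL.C_ge
    unfold CP
    positivity
  set R : ℝ := 8 * CP0 ρ C B + 1 with hR
  have hR0 : 1 ≤ R := by rw [hR]; linarith
  obtain ⟨n₁, hn₁⟩ := exists_nat_gt (R + 2 + 2 * CX B / ρ + (4 * R + 384 * CP C B) ^ 2)
  refine ⟨2 * R, n₁, by linarith, ?_⟩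
  intro n q q1 q2 η M hn hη hq hqp hqr hS hM
  have hnn : (n₁ : ℝ) ≤ n := by exact_mod_cast hn
  have hx1 : 0 ≤ 2 * CX B / ρ := by positivity
  have hx2 : 0 ≤ (4 * R + 384 * CP C B) ^ 2 := by positivity
  have hn0 : (0 : ℝ) < n := by linarith
  have hn1 : (1 : ℝ) ≤ n := by linarith
  have hn0' : 0 < n := by exact_mod_cast hn0
  have hRn : R < n := by linarith
  have hn2 : (2 : ℝ) < n := by linarith
  have hnρ : 2 * CX B / ρ < n := by linarith
  have hnL : (4 * R + 384 * CP C B) ^ 2 < n := by linarith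
  set w : ℝ := √(n : ℝ) with hw
  have hw0 : 0 ≤ w := Real.sqrt_nonneg _
  have hw2 : w ^ 2 = n := Real.sq_sqrt hn0.le
  have hw1 : 1 ≤ w := by rw [hw, Real.one_le_sqrt]; exact hn1
  have hwn : w ≤ n := by nlinarith
  have hwL : 4 * R + 384 * CP C B < w := by
    rw [hw]
    exact Real.lt_sqrt_of_sq_lt hnL
  set r : ℝ := R / (n : ℝ) ^ 4 with hr
  have hr0 : 0 < r := by positivity
  have e1 : (n : ℝ) ^ 2 * r = R / n ^ 2 := by rw [hr]; field_simp
  have e2 : (n : ℝ) * w * r = R * w / n ^ 3 := by rw [hr]; field_simp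
  have hr2 : (n : ℝ) * w * r < 1 / n := by
    rw [e2, div_lt_div_iff₀ (by positivity) hn0]
    have : R * w * n < n * n * n := by
      have h1 : R * w ≤ R * n := mul_le_mul_of_nonneg_left hwn (by linarith)
      have h2 : R * n < n * n := mul_lt_mul_of_pos_right hRn hn0
      exact mul_lt_mul_of_pos_right (h1.trans_lt h2) hn0
    nlinarith
  have hctx : Ctx2 q q1 q2 ρ C B η r n :=
    { hL := hL
      hS := hS
      hn := hn0'
      η0 := hη
      r1 := by
        rw [e1, div_le_div_iff₀ (by positivity) hn0]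
        nlinarith
      r2 := hr2.le
      n2 := by rw [div_le_one hn0]; exact hn2.le
      nρ := by
        rw [div_lt_iff₀ hρ] at hnρ
        rw [← mul_div_assoc, div_lt_iff₀ hn0]
        linarith
      hr := hr0
      hr0 := by
        rw [hr]
        gcongr
        rw [hR]; linarith
      hL2 := by
        have e3 : 2 * ((n : ℝ) ^ 3 * w * r) + 192 * CP C B * (w / n) =
            (4 * R + 384 * CP C B) / 2 * (w / n) := by
          rw [hr]; field_simp; ring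
        rw [← hw, e3]
        have e4 : w / n = 1 / w := by rw [← hw2]; field_simp
        rw [e4, mul_one_div, div_le_iff₀ (by linarith)]
        linarith }
  obtain ⟨c, hc, hfix⟩ := hctx.exists_fixed hq hqp
  refine ⟨vv η n c, differentiable_vv, fun z => vv_add_one, vv_im, fun z hz => ?_, fun z hz => ?_,
    fun z hz => ?_, fun z hz => ?_, fun k hk => ?_⟩
  · refine (norm_vv_le hz).trans ?_
    calc (n : ℝ) ^ 2 * ‖c‖ ≤ (n : ℝ) ^ 2 * r := mul_le_mul_of_nonneg_left hc (by positivity)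
      _ = R / n ^ 2 := e1
      _ ≤ 2 * R / n ^ 2 := by gcongr; linarith
  · refine (norm_dvv_le hn0' hz).trans ?_
    have e5 : (n : ℝ) ^ (5 / 2 : ℝ) = n ^ 2 * w := by
      rw [hw, Real.sqrt_eq_rpow]
      rw [show (5 / 2 : ℝ) = 2 + 1 / 2 by norm_num, Real.rpow_add hn0, Real.rpow_two]
    rw [e5]
    calc (n : ℝ) * √n * ‖c‖ ≤ (n : ℝ) * w * r := mul_le_mul_of_nonneg_left hc (by positivity)
      _ = R * w / n ^ 3 := e2
      _ = R / (n ^ 2 * w) := by
        rw [div_eq_div_iff (by positivity) (by positivity)]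
        have : (n : ℝ) ^ 3 = n ^ 2 * w ^ 2 := by rw [hw2]; ring
        rw [this]; ring
      _ ≤ 2 * R / (n ^ 2 * w) := by gcongr; linarith
  · refine (norm_deriv_vv_le hz).trans ?_
    calc 2 * ((n : ℝ) ^ 2 * √n) * ‖c‖ ≤ 2 * ((n : ℝ) ^ 2 * w) * r :=
          mul_le_mul_of_nonneg_left hc (by positivity)
      _ = 2 * R * w / n ^ 2 := by rw [hr]; field_simp
      _ ≤ 2 * R * n / n ^ 2 := by gcongr
      _ = 2 * R / n := by field_simp
  · have h1 := hctx.norm_fv hc hz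
    have h2 := norm_yy_le (c := c) hz
    have h3 : ‖yy η n c z‖ ≤ n * r := h2.trans (mul_le_mul_of_nonneg_left hc hn0.le)
    have h4 : 4 * (n : ℂ) * EV q η n c z = fv q η n c z - yy η n c z := by unfold fv; ring
    have h5 : 4 * (n : ℝ) * ‖EV q η n c z‖ ≤ r + n * r := by
      have := norm_sub_le (fv q η n c z) (yy η n c z)
      rw [← h4, norm_mul, norm_mul, Complex.norm_natCast] at this
      norm_num at this
      linarith
    have h6 : ‖EV q η n c z‖ ≤ 2 * R / n ^ 4 := by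
      have h7 : 2 * R / (n : ℝ) ^ 4 = 2 * r := by rw [hr]; ring
      rw [h7]
      have h8 : r ≤ n * r := by
        have := mul_le_mul_of_nonneg_right hn1 hr0.le
        linarith
      have h9 : 4 * (n : ℝ) * ‖EV q η n c z‖ ≤ 4 * n * (2 * r) := by
        have e6 : 4 * (n : ℝ) * (2 * r) = 8 * (n * r) := by ring
        rw [e6]
        have h10 : 0 ≤ n * r := by positivity
        linarith
      have h11 : (0 : ℝ) < 4 * n := by linarith
      exact le_of_mul_le_mul_left h9 h11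
    exact h6
  · exact hctx.toCtx.orth hq hqp hqr hM hr2 hc hfix k hk

end Crest.Agent.R102.A929
end
end

-- ▼ part R102/DB_262

/-!
Row 102, part (A) (helper262): `LeafDB`, bounds of the truncation and of its three derivatives.
-/

set_option autoImplicit false

open Set Filter Topology Metric Complex MeasureTheory
open scoped Real ContDiff

noncomputable section

namespace Crest.Agent.R102.A929

namespace DB262

lemma summable_inv_sq : Summable (fun k : ℤ => 1 / (1 + |(k : ℝ)|) ^ 2) := by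
  have h : Summable (fun n : ℕ => 1 / (1 + (n : ℝ)) ^ 2) := by
    have h1 : Summable (fun n : ℕ => 1 / (n : ℝ) ^ 2) :=
      Real.summable_one_div_nat_pow.2 (by norm_num)
    have h2 := (summable_nat_add_iff 1).2 h1
    refine h2.congr (fun n => ?_)
    push_cast
    ring
  refine Summable.of_nat_of_neg ?_ ?_
  · refine h.congr (fun n => ?_)
    simp
  · refine h.congr (fun n => ?_)
    simp

lemma log_half {n : ℕ} (hn : 64 ≤ n) : 4 / 5 * Real.log n ≤ Real.log (1 + (n : ℝ) / 2) := by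
  have hn' : (64 : ℝ) ≤ n := by exact_mod_cast hn
  have hn0 : (0 : ℝ) < n := by linarith
  have h1 : Real.log ((n : ℝ) / 2) ≤ Real.log (1 + (n : ℝ) / 2) :=
    Real.log_le_log (by positivity) (by linarith)
  have h2 : Real.log ((n : ℝ) / 2) = Real.log n - Real.log 2 :=
    Real.log_div hn0.ne' (by norm_num)
  have h3 : Real.log (64 : ℝ) ≤ Real.log n := Real.log_le_log (by norm_num) hn'
  have h4 : Real.log (64 : ℝ) = 6 * Real.log 2 := by
    have : (64 : ℝ) = 2 ^ 6 := by norm_num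
    rw [this, Real.log_pow]; norm_num
  have h5 : 0 < Real.log 2 := Real.log_pos (by norm_num)
  linarith

lemma key_log {n : ℕ} (hn : 64 ≤ n) {k : ℝ} (hk0 : 0 ≤ k) (hk : k ≤ n / 2) :
    16 * (k / n) * Real.log n ≤ 10 * Real.log (1 + k) := by
  have hn' : (64 : ℝ) ≤ n := by exact_mod_cast hn
  have hn0 : (0 : ℝ) < n := by linarith
  set s : ℝ := 2 * k / n with hs
  have hs0 : 0 ≤ s := by positivity
  have hs1 : s ≤ 1 := by
    rw [hs, div_le_one hn0]; linarith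
  have hx : (1 : ℝ) ∈ Ioi (0 : ℝ) := by norm_num
  have hy : 1 + (n : ℝ) / 2 ∈ Ioi (0 : ℝ) := by rw [mem_Ioi]; positivity
  have hc := (strictConcaveOn_log_Ioi.concaveOn).2 hx hy (show (0 : ℝ) ≤ 1 - s by linarith) hs0
    (by ring)
  simp only [smul_eq_mul, Real.log_one, mul_zero, zero_add, mul_one] at hc
  have e1 : 1 - s + s * (1 + (n : ℝ) / 2) = 1 + k := by
    rw [hs]; field_simp; ring
  rw [e1] at hc
  have h2 := mul_le_mul_of_nonneg_left (log_half hn) hs0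
  have e2 : 16 * (k / n) * Real.log n = 10 * (s * (4 / 5 * Real.log n)) := by
    rw [hs]; ring
  rw [e2]
  linarith

/-- the exponent -/
lemma norm_ee_le {α : ℝ} {N n : ℕ} (hn : 64 ≤ n) (hα : 0 ≤ α) {z : ℂ}
    (hz : z ∈ St (etan α N n + 2 / n)) {k : ℤ} (hk : |k| ≤ ((n / 2 : ℕ) : ℤ)) :
    ‖ee (k * z)‖ ≤ om α N k * (1 + |(k : ℝ)|) ^ 10 * Real.exp (2 * π) := by
  have hn' : (64 : ℝ) ≤ n := by exact_mod_cast hn
  have hn0 : (0 : ℝ) < n := by linarith
  have hπ := Real.pi_pos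
  set κ : ℝ := |(k : ℝ)| with hκ
  have hκ0 : 0 ≤ κ := abs_nonneg _
  have hκn : κ ≤ n / 2 := by
    have h1 : ((|k| : ℤ) : ℝ) ≤ (((n / 2 : ℕ) : ℤ) : ℝ) := by exact_mod_cast hk
    rw [Int.cast_abs] at h1
    have h2 : (((n / 2 : ℕ) : ℤ) : ℝ) ≤ (n : ℝ) / 2 := by
      have := @Nat.cast_div_le ℝ _ _ _ n 2
      push_cast at this ⊢
      exact this
    exact h1.trans h2
  have hzim : |z.im| ≤ etan α N n + 2 / n := hz
  have h1 : -(2 * π * ((k : ℂ) * z).im) ≤ 2 * π * κ * (etan α N n + 2 / n) := by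
    have e1 : ((k : ℂ) * z).im = (k : ℝ) * z.im := by simp
    rw [e1]
    have e2 : -((k : ℝ) * z.im) ≤ κ * |z.im| := by
      rw [hκ, ← abs_mul]; exact neg_le_abs _
    have e3 : κ * |z.im| ≤ κ * (etan α N n + 2 / n) := mul_le_mul_of_nonneg_left hzim hκ0
    nlinarith
  have h2 : 2 * π * κ * (etan α N n + 2 / n) =
      α * (κ / n * min (n : ℝ) N) + 16 * (κ / n) * Real.log n + 4 * π * (κ / n) := by
    unfold etan
    field_simp
    ring
  have h3 : κ / n * min (n : ℝ) N ≤ min κ N := by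
    refine le_min ?_ ?_
    · calc κ / n * min (n : ℝ) N ≤ κ / n * n :=
            mul_le_mul_of_nonneg_left (min_le_left _ _) (by positivity)
        _ = κ := by field_simp
    · have h4 : κ / n ≤ 1 := by
        rw [div_le_one hn0]; linarith
      calc κ / n * min (n : ℝ) N ≤ κ / n * N :=
            mul_le_mul_of_nonneg_left (min_le_right _ _) (by positivity)
        _ ≤ 1 * N := mul_le_mul_of_nonneg_right h4 (Nat.cast_nonneg N)
        _ = N := one_mul _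
  have h4 := mul_le_mul_of_nonneg_left h3 hα
  have h5 := key_log hn hκ0 hκn
  have h6 : 4 * π * (κ / n) ≤ 2 * π := by
    have : κ / n ≤ 1 / 2 := by
      rw [div_le_iff₀ hn0]; linarith
    nlinarith
  have h7 : (1 + κ) ^ 10 = Real.exp (10 * Real.log (1 + κ)) := by
    rw [mul_comm, Real.exp_mul, Real.exp_log (by positivity)]
    norm_cast
  rw [norm_ee, h7]
  unfold om
  rw [← Real.exp_add, ← Real.exp_add]
  refine Real.exp_le_exp.2 ?_
  rw [h2] at h1
  linarith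

/-- the constant -/
def S0 : ℝ := ∑' k : ℤ, 1 / (1 + |(k : ℝ)|) ^ 2


lemma bound {G α : ℝ} {N n : ℕ} {a b : ℤ → ℂ} (hn : 64 ≤ n) (hα : 0 ≤ α) (ha : WB α N G a)
    (hb : ∀ k, ‖b k‖ ≤ (2 * π * (1 + |(k : ℝ)|)) ^ 3 * ‖a k‖) {z : ℂ}
    (hz : z ∈ St (etan α N n + 2 / n)) :
    ‖qTr b n z‖ ≤ (2 * π) ^ 3 * Real.exp (2 * π) * G * S0 := by
  have hG : 0 ≤ G := by
    have := ha 0
    refine le_trans ?_ this
    unfold om
    positivity
  unfold qTr
  refine (norm_sum_le _ _).trans ?_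
  have h1 : ∀ k ∈ Finset.Icc (-((n / 2 : ℕ) : ℤ)) ((n / 2 : ℕ) : ℤ), ‖b k * ee (k * z)‖ ≤
      (2 * π) ^ 3 * Real.exp (2 * π) * G * (1 / (1 + |(k : ℝ)|) ^ 2) := by
    intro k hk
    rw [Finset.mem_Icc] at hk
    have hk' : |k| ≤ ((n / 2 : ℕ) : ℤ) := abs_le.2 hk
    rw [norm_mul]
    have e1 := norm_ee_le hn hα hz hk'
    have e2 := ha k
    set κ : ℝ := |(k : ℝ)| with hκ
    have hκ0 : 0 ≤ κ := abs_nonneg _
    have ho : 0 < om α N k := Real.exp_pos _
    have hE := Real.exp_pos (2 * π)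
    calc ‖b k‖ * ‖ee (k * z)‖ ≤ ((2 * π * (1 + κ)) ^ 3 * ‖a k‖) *
          (om α N k * (1 + κ) ^ 10 * Real.exp (2 * π)) :=
          mul_le_mul (hb k) e1 (norm_nonneg _) (by positivity)
      _ = (2 * π) ^ 3 * Real.exp (2 * π) * (om α N k * (1 + κ) ^ 15 * ‖a k‖) *
          (1 / (1 + κ) ^ 2) := by field_simp
      _ ≤ (2 * π) ^ 3 * Real.exp (2 * π) * G * (1 / (1 + κ) ^ 2) := by
          refine mul_le_mul_of_nonneg_right ?_ (by positivity)
          exact mul_le_mul_of_nonneg_left e2 (by positivity)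
  refine (Finset.sum_le_sum h1).trans ?_
  rw [← Finset.mul_sum]
  refine mul_le_mul_of_nonneg_left ?_ (by positivity)
  exact summable_inv_sq.sum_le_tsum _ (fun k _ => by positivity)

/-- derivative of the truncation -/
lemma hasDerivAt_qTr (a : ℤ → ℂ) (n : ℕ) (z : ℂ) :
    HasDerivAt (qTr a n) (qTr (fun k => 2 * π * I * k * a k) n z) z := by
  unfold qTr
  have h : ∀ k ∈ Finset.Icc (-((n / 2 : ℕ) : ℤ)) ((n / 2 : ℕ) : ℤ),
      HasDerivAt (fun z : ℂ => a k * ee (k * z)) (2 * π * I * k * a k * ee (k * z)) z := by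
    intro k _
    have h1 : HasDerivAt (fun z : ℂ => (k : ℂ) * z) (k : ℂ) z := by
      have := (hasDerivAt_id z).const_mul (k : ℂ)
      simpa using this
    have h2 := HasDerivAt.comp z (hasDerivAt_ee ((k : ℂ) * z)) h1
    have h3 := h2.const_mul (a k)
    refine h3.congr_deriv ?_
    ring
  have h4 := HasDerivAt.fun_sum h
  exact h4

lemma deriv_qTr (a : ℤ → ℂ) (n : ℕ) :
    deriv (qTr a n) = qTr (fun k => 2 * π * I * k * a k) n :=
  funext (fun z => (hasDerivAt_qTr a n z).deriv)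

lemma norm_two_pi_I_k (k : ℤ) (w : ℂ) : ‖(2 * π * I * (k : ℂ) * w)‖ = 2 * π * |(k : ℝ)| * ‖w‖ := by
  rw [norm_mul, norm_mul, norm_mul, norm_mul, Complex.norm_I, Complex.norm_intCast,
    Complex.norm_real, Real.norm_of_nonneg Real.pi_pos.le]
  norm_num

end DB262

open DB262 in
theorem leafDB : LeafDB := by
  intro G
  refine ⟨max 1 ((2 * π) ^ 3 * Real.exp (2 * π) * G * S0), le_max_left _ _, ?_⟩
  intro α N n a hn hα _ ha z hz
  have hπ := Real.pi_pos
  have hπ3 := Real.pi_gt_three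
  have hk1 : ∀ k : ℤ, 1 ≤ 2 * π * (1 + |(k : ℝ)|) := fun k => by
    have := abs_nonneg (k : ℝ)
    nlinarith
  have hkk : ∀ k : ℤ, 2 * π * |(k : ℝ)| ≤ 2 * π * (1 + |(k : ℝ)|) := fun k => by
    nlinarith
  refine ⟨?_, ?_, ?_, ?_⟩
  · refine (bound hn hα ha (b := a) (fun k => ?_) hz).trans (le_max_right _ _)
    have h1 : (1 : ℝ) ≤ (2 * π * (1 + |(k : ℝ)|)) ^ 3 := one_le_pow₀ (hk1 k)
    nlinarith [norm_nonneg (a k)]
  · rw [deriv_qTr]
    refine (bound hn hα ha (fun k => ?_) hz).trans (le_max_right _ _)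
    rw [norm_two_pi_I_k]
    refine mul_le_mul_of_nonneg_right ?_ (norm_nonneg _)
    calc 2 * π * |(k : ℝ)| ≤ 2 * π * (1 + |(k : ℝ)|) := hkk k
      _ = (2 * π * (1 + |(k : ℝ)|)) ^ 1 := (pow_one _).symm
      _ ≤ _ := pow_le_pow_right₀ (hk1 k) (by norm_num)
  · rw [deriv_qTr, deriv_qTr]
    refine (bound hn hα ha (fun k => ?_) hz).trans (le_max_right _ _)
    rw [norm_two_pi_I_k, norm_two_pi_I_k, ← mul_assoc]
    refine mul_le_mul_of_nonneg_right ?_ (norm_nonneg _)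
    have h0 : 0 ≤ 2 * π * |(k : ℝ)| := by positivity
    calc 2 * π * |(k : ℝ)| * (2 * π * |(k : ℝ)|) = (2 * π * |(k : ℝ)|) ^ 2 := by ring
      _ ≤ (2 * π * (1 + |(k : ℝ)|)) ^ 2 := pow_le_pow_left₀ h0 (hkk k) 2
      _ ≤ _ := pow_le_pow_right₀ (hk1 k) (by norm_num)
  · rw [deriv_qTr, deriv_qTr, deriv_qTr]
    refine (bound hn hα ha (fun k => ?_) hz).trans (le_max_right _ _)
    rw [norm_two_pi_I_k, norm_two_pi_I_k, norm_two_pi_I_k, ← mul_assoc, ← mul_assoc]
    refine mul_le_mul_of_nonneg_right ?_ (norm_nonneg _)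
    have h0 : 0 ≤ 2 * π * |(k : ℝ)| := by positivity
    calc 2 * π * |(k : ℝ)| * (2 * π * |(k : ℝ)|) * (2 * π * |(k : ℝ)|) =
          (2 * π * |(k : ℝ)|) ^ 3 := by ring
      _ ≤ (2 * π * (1 + |(k : ℝ)|)) ^ 3 := pow_le_pow_left₀ h0 (hkk k) 3

end Crest.Agent.R102.A929
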