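import Crest.Agent.R102.DEStep_722

/-!
Row 102, EDGE: the one-step disc (DE) iterated over all scales (helper722). Levels
`c_k = c/2 + c/(2(k+1))`, gains `δ_k = c/(2(k+1)(k+2))`, window constants `a δ_{k-1}`.
-/

set_option autoImplicit false
set_option linter.unusedSectionVars false
set_option linter.unusedVariables false

open Set Filter Topology Metric Complex
open scoped Real

noncomputable section

namespace Crest.Agent.R102.DE722


lemma DW_mono {A d d' s : ℝ} (hs : 0 ≤ s) (h : d ≤ d') : DW A d' s ⊆ DW A d s := by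
  rintro q ⟨h1, h2, h3, h4⟩
  have := mul_le_mul_of_nonneg_right h hs
  exact ⟨h1, h2, by linarith, by linarith⟩

lemma KW_mono {σ A c c' d d' s : ℝ} (hs : 0 ≤ s) (hd : 0 ≤ d') (h : d ≤ d') (hc : c ≤ c') :
    KW σ A c' d' s ⊆ KW σ A c d s := by
  rintro q ⟨h1, h2, h3, h4⟩
  have h5 := mul_le_mul_of_nonneg_right h hs
  have h6 : 0 ≤ q.2.im := (mul_nonneg hd hs).trans h3
  have h7 : (σ - c') * q.2.im ≤ (σ - c) * q.2.im := mul_le_mul_of_nonneg_right (by linarith) h6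
  exact ⟨h1, h2, by linarith, by linarith⟩

/-- levels -/
def lv (c : ℝ) (k : ℕ) : ℝ := c / 2 + c / (2 * (k + 1))

/-- gains -/
def gn (c : ℝ) (k : ℕ) : ℝ := c / (2 * (k + 1) * (k + 2))

/-- window constants -/
def wc (a c c₂ : ℝ) : ℕ → ℝ
  | 0 => c₂
  | k + 1 => a * gn c k

lemma lv_zero (c : ℝ) : lv c 0 = c := by unfold lv; norm_num

lemma lv_succ (c : ℝ) (k : ℕ) : lv c k - gn c k = lv c (k + 1) := by
  unfold lv gn
  push_cast
  have h1 : (k : ℝ) + 1 ≠ 0 := by positivity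
  have h2 : (k : ℝ) + 2 ≠ 0 := by positivity
  have h3 : (k : ℝ) + 1 + 1 ≠ 0 := by positivity
  field_simp
  ring

lemma gn_pos {c : ℝ} (hc : 0 < c) (k : ℕ) : 0 < gn c k := by unfold gn; positivity

lemma gn_le {c : ℝ} (hc : 0 < c) (k : ℕ) : gn c k ≤ c := by
  unfold gn
  rw [div_le_iff₀ (by positivity)]
  have h0 : (0 : ℝ) ≤ k := Nat.cast_nonneg k
  have : 1 ≤ 2 * ((k : ℝ) + 1) * (k + 2) := by nlinarith
  nlinarith

lemma lv_ge {c : ℝ} (hc : 0 < c) (k : ℕ) : c / 2 ≤ lv c k := by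
  unfold lv
  have : 0 ≤ c / (2 * ((k : ℝ) + 1)) := by positivity
  linarith

lemma lv_le {c : ℝ} (hc : 0 < c) (k : ℕ) : lv c k ≤ c := by
  unfold lv
  have h0 : (0 : ℝ) ≤ k := Nat.cast_nonneg k
  have : c / (2 * ((k : ℝ) + 1)) ≤ c / 2 := div_le_div_of_nonneg_left hc.le (by norm_num)
    (by linarith)
  linarith

lemma gn_le_lv {c : ℝ} (hc : 0 < c) (k : ℕ) : gn c k ≤ lv c k := by
  have h1 := lv_succ c k
  have h2 := lv_ge hc (k + 1)
  linarith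

lemma wc_pos {a c c₂ : ℝ} (ha : 0 < a) (hc : 0 < c) (hc₂ : 0 < c₂) : ∀ k, 0 < wc a c c₂ k
  | 0 => hc₂
  | k + 1 => mul_pos ha (gn_pos hc k)

lemma wc_le {a c c₂ : ℝ} (ha : 0 < a) (ha1 : a ≤ 1) (hc : 0 < c) (hc1 : c ≤ 1) (hc₂ : c₂ ≤ 1) :
    ∀ k, wc a c c₂ k ≤ 1
  | 0 => hc₂
  | k + 1 => by
    have h1 := gn_le hc k
    have h2 := gn_pos hc k
    show a * gn c k ≤ 1
    nlinarith

lemma wc_ge {a c c₂ : ℝ} (ha : 0 < a) (ha1 : a ≤ 1) (hc : 0 < c) (hc1 : c ≤ 1) (hc₂0 : 0 < c₂)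
    (hc₂ : c₂ ≤ 1) : ∀ k : ℕ, a * c₂ * c / (2 * (k + 1) ^ 2) ≤ wc a c c₂ k
  | 0 => by
    show _ ≤ c₂
    rw [div_le_iff₀ (by positivity)]
    have h1 : a * c ≤ 1 := by nlinarith
    have h2 : a * c₂ * c ≤ c₂ := by nlinarith
    push_cast
    nlinarith
  | k + 1 => by
    show _ ≤ a * gn c k
    unfold gn
    rw [← mul_div_assoc, div_le_div_iff₀ (by positivity) (by positivity)]
    have h0 : (0 : ℝ) ≤ k := Nat.cast_nonneg k
    have h1 : 0 < a * c := mul_pos ha hc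
    push_cast
    have h2 : a * c₂ * c ≤ a * c := by nlinarith
    have h3 : 2 * ((k : ℝ) + 1) * (k + 2) ≤ 2 * (k + 1 + 1) ^ 2 := by nlinarith
    have h4 : 0 ≤ 2 * ((k : ℝ) + 1) * (k + 2) := by positivity
    exact mul_le_mul h2 h3 h4 h1.le

/-- the depth used at step `k` -/
lemma depth_ge {a c c₂ : ℝ} (ha : 0 < a) (ha1 : a ≤ 1) (hc : 0 < c) (hc1 : c ≤ 1)
    (hc₂0 : 0 < c₂) (hc₂ : c₂ ≤ 1) (k : ℕ) :
    a ^ 2 / 4 * c₂ * c ^ 2 / (k + 2) ^ 4 ≤ a * gn c k * wc a c c₂ k := by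
  have h1 := wc_ge ha ha1 hc hc1 hc₂0 hc₂ k
  have h2 : 0 < a * gn c k := mul_pos ha (gn_pos hc k)
  refine le_trans ?_ (mul_le_mul_of_nonneg_left h1 h2.le)
  unfold gn
  have e : a * (c / (2 * ((k : ℝ) + 1) * (k + 2))) * (a * c₂ * c / (2 * (k + 1) ^ 2)) =
      a ^ 2 * c₂ * c ^ 2 / (4 * ((k + 1) ^ 3 * (k + 2))) := by
    field_simp
    ring
  rw [e, show a ^ 2 / 4 * c₂ * c ^ 2 / ((k : ℝ) + 2) ^ 4 =
    a ^ 2 * c₂ * c ^ 2 / (4 * ((k : ℝ) + 2) ^ 4) by field_simp]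
  refine div_le_div_of_nonneg_left (by positivity) (by positivity) ?_
  have h0 : (0 : ℝ) ≤ k := Nat.cast_nonneg k
  have h3 : ((k : ℝ) + 1) ^ 3 ≤ (k + 2) ^ 3 := pow_le_pow_left₀ (by positivity) (by linarith) 3
  have h4 : ((k : ℝ) + 1) ^ 3 * (k + 2) ≤ (k + 2) ^ 3 * (k + 2) :=
    mul_le_mul_of_nonneg_right h3 (by positivity)
  have h5 : ((k : ℝ) + 2) ^ 3 * (k + 2) = (k + 2) ^ 4 := by ring
  linarith

variable {E : Type*} [NormedAddCommGroup E] [NormedSpace ℂ E]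


end Crest.Agent.R102.DE722
end
private theorem rz_f794967251 : type_of% @_root_.Crest.Agent.R102.DE722.wc.eq_1 := @_root_.Crest.Agent.R102.DE722.wc.eq_1 -- L44
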