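import Crest.Agent.R102.Disc5_669
import Crest.Agent.R102.Step5Defs_613

/-!
Row 102, T1-B, EDGE (helper695): the ONE-DISC estimate with summable (`log⁻²`) depths.

`discLog` : on the cone `Half e (C ρ) σ`, a holomorphic function which on the windows of scale `T`
at relative depth `ν / (1 + log (T / s))²` is bounded by `exp (B (T / s) ^ α)` and which is bounded
by `exp N` at the outer scale `ρ`, is bounded by `exp (C (B + N (s / ρ) ^ α))` on the window of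
scale `s`, up to the level `σ - c`.
-/

set_option autoImplicit false

open Set Filter Topology Metric Complex MeasureTheory
open scoped Real

noncomputable section

namespace Crest.Agent.R102.DiscLog695

open Crest.Agent.R102.Disc669
open Crest.Agent.R102.S5 (Half bl)

/-! ### the logarithmic correction -/

/-- `1 - i ζ / s` -/
def ww (s : ℝ) (ζ : ℂ) : ℂ := 1 + (-(I * ζ)) / s

/-- `1 + log (1 - i ζ / s)` -/
def Lam (s : ℝ) (ζ : ℂ) : ℂ := 1 + Complex.log (ww s ζ)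

/-- the correction of the disc -/
def HL (ν s ρ : ℝ) (ζ : ℂ) : ℂ := -(ν : ℂ) * (ζ / Lam s ζ + I * ζ ^ 2 / ρ)

section HL

variable {ν s ρ : ℝ} {ζ : ℂ}

lemma ww_re : (ww s ζ).re = 1 + ζ.im / s := by
  unfold ww
  rw [add_re, one_re, Complex.div_ofReal_re]
  simp

lemma ww_im : (ww s ζ).im = -(ζ.re / s) := by
  unfold ww
  rw [add_im, one_im, Complex.div_ofReal_im, zero_add, neg_im]
  simp
  ring

lemma ww_re_ge (hs : 0 < s) (hζ : 0 ≤ ζ.im) : 1 ≤ (ww s ζ).re := by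
  rw [ww_re]
  have : 0 ≤ ζ.im / s := by positivity
  linarith

lemma ww_norm_ge (hs : 0 < s) (hζ : 0 ≤ ζ.im) : 1 ≤ ‖ww s ζ‖ :=
  (ww_re_ge hs hζ).trans (Complex.re_le_norm _)

lemma ww_norm_le (hs : 0 < s) : ‖ww s ζ‖ ≤ 1 + ‖ζ‖ / s := by
  unfold ww
  refine (norm_add_le _ _).trans ?_
  rw [norm_one, norm_div, norm_neg, norm_mul, norm_I, one_mul, Complex.norm_of_nonneg hs.le]

lemma Lam_re : (Lam s ζ).re = 1 + Real.log ‖ww s ζ‖ := by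
  unfold Lam
  rw [add_re, one_re, Complex.log_re]

lemma Lam_im : (Lam s ζ).im = arg (ww s ζ) := by
  unfold Lam
  rw [add_im, one_im, Complex.log_im, zero_add]

lemma Lam_re_ge (hs : 0 < s) (hζ : 0 ≤ ζ.im) : 1 ≤ (Lam s ζ).re := by
  rw [Lam_re]
  have := Real.log_nonneg (ww_norm_ge hs hζ)
  linarith

lemma Lam_norm_ge (hs : 0 < s) (hζ : 0 ≤ ζ.im) : 1 ≤ ‖Lam s ζ‖ :=
  (Lam_re_ge hs hζ).trans (Complex.re_le_norm _)

lemma Lam_ne (hs : 0 < s) (hζ : 0 ≤ ζ.im) : Lam s ζ ≠ 0 := by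
  intro h
  have := Lam_norm_ge hs hζ
  rw [h, norm_zero] at this
  linarith

lemma normSq_pos (hs : 0 < s) (hζ : 0 ≤ ζ.im) : 0 < normSq (Lam s ζ) :=
  Complex.normSq_pos.2 (Lam_ne hs hζ)

lemma re_mul_arg (hs : 0 < s) : ζ.re * arg (ww s ζ) ≤ 0 := by
  rcases le_total 0 ζ.re with h | h
  · have h1 : (ww s ζ).im ≤ 0 := by
      rw [ww_im]
      have : 0 ≤ ζ.re / s := by positivity
      linarith
    rcases h1.lt_or_eq with h2 | h2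
    · have := Complex.arg_neg_iff.2 h2
      exact mul_nonpos_of_nonneg_of_nonpos h this.le
    · have h3 : ζ.re = 0 := by
        rw [ww_im, neg_eq_zero, div_eq_zero_iff] at h2
        exact h2.resolve_right hs.ne'
      rw [h3, zero_mul]
  · have h1 : 0 ≤ (ww s ζ).im := by
      rw [ww_im]
      have : ζ.re / s ≤ 0 := div_nonpos_of_nonpos_of_nonneg h hs.le
      linarith
    exact mul_nonpos_of_nonpos_of_nonneg h (Complex.arg_nonneg_iff.2 h1)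

lemma P_eq : (ζ / Lam s ζ).im =
    (ζ.im * (1 + Real.log ‖ww s ζ‖) - ζ.re * arg (ww s ζ)) / normSq (Lam s ζ) := by
  rw [Complex.div_im, Lam_re, Lam_im]
  ring

lemma P_nonneg (hs : 0 < s) (hζ : 0 ≤ ζ.im) : 0 ≤ (ζ / Lam s ζ).im := by
  rw [P_eq]
  refine div_nonneg ?_ (normSq_pos hs hζ).le
  have h1 := Real.log_nonneg (ww_norm_ge hs hζ)
  have h2 := re_mul_arg (ζ := ζ) hs
  have h3 : 0 ≤ ζ.im * (1 + Real.log ‖ww s ζ‖) := by positivity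
  linarith

/-- `1 + log ((s + |x|) / s)` -/
def ell (s t : ℝ) : ℝ := 1 + Real.log ((s + t) / s)

lemma ell_ge {t : ℝ} (hs : 0 < s) (ht : 0 ≤ t) : 1 ≤ ell s t := by
  unfold ell
  have : 1 ≤ (s + t) / s := by
    rw [le_div_iff₀ hs]; linarith
  have := Real.log_nonneg this
  linarith

/-- the depth gained on the real side -/
lemma P_real (hs : 0 < s) (x : ℝ) :
    x ^ 2 / (s + |x|) / (4 * ell s |x| ^ 2) ≤ ((x : ℂ) / Lam s x).im := by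
  have hx0 : (0 : ℝ) ≤ ((x : ℂ)).im := by simp
  rw [P_eq]
  simp only [ofReal_im, zero_mul, zero_sub, ofReal_re]
  set w := ww s x with hw
  have hl := ell_ge (t := |x|) hs (abs_nonneg x)
  have hn1 : 1 ≤ ‖w‖ := ww_norm_ge hs hx0
  have hn2 : ‖w‖ ≤ (s + |x|) / s := by
    refine (ww_norm_le hs).trans (le_of_eq ?_)
    rw [Complex.norm_real, Real.norm_eq_abs]
    field_simp
  have hre : 0 ≤ w.re := le_trans zero_le_one (ww_re_ge hs hx0)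
  have harg : |arg w| ≤ π / 2 := Complex.abs_arg_le_pi_div_two_iff.2 hre
  -- upper bound of the denominator
  have hden : normSq (Lam s x) ≤ 4 * ell s |x| ^ 2 := by
    rw [Complex.normSq_apply, Lam_re, Lam_im, ← hw]
    have h1 : Real.log ‖w‖ ≤ Real.log ((s + |x|) / s) := Real.log_le_log (by linarith) hn2
    have h0 : 0 ≤ Real.log ‖w‖ := Real.log_nonneg hn1
    have h2 : 1 + Real.log ‖w‖ ≤ ell s |x| := by unfold ell; linarith
    have h3 : arg w * arg w ≤ 3 := by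
      have : arg w * arg w = |arg w| * |arg w| := (abs_mul_abs_self _).symm
      rw [this]
      have hpi := Real.pi_lt_d2
      nlinarith [abs_nonneg (arg w), Real.pi_pos]
    have h4 : (1 + Real.log ‖w‖) * (1 + Real.log ‖w‖) ≤ ell s |x| ^ 2 := by
      rw [sq]; exact mul_le_mul h2 h2 (by linarith) (by linarith)
    nlinarith
  -- lower bound of the numerator
  have hnum : x ^ 2 / (s + |x|) ≤ -(x * arg w) := by
    have h1 : |Real.sin (arg w)| ≤ |arg w| := Real.abs_sin_le_abs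
    have h2 : |x| / (s + |x|) ≤ |arg w| := by
      refine le_trans ?_ h1
      rw [Complex.sin_arg, abs_div, hw, ww_im, abs_neg, ofReal_re, abs_div, abs_of_pos hs,
        abs_of_nonneg (norm_nonneg _), ← hw]
      rw [div_div]
      refine div_le_div_of_nonneg_left (abs_nonneg x) (by positivity) ?_
      calc s * ‖w‖ ≤ s * ((s + |x|) / s) := mul_le_mul_of_nonneg_left hn2 hs.le
        _ = s + |x| := by field_simp
    have h3 : -(x * arg w) = |x| * |arg w| := by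
      rw [← abs_mul, abs_of_nonpos]
      have := re_mul_arg (ζ := (x : ℂ)) hs
      simpa using this
    rw [h3]
    calc x ^ 2 / (s + |x|) = |x| * (|x| / (s + |x|)) := by rw [← sq_abs]; ring
      _ ≤ |x| * |arg w| := mul_le_mul_of_nonneg_left h2 (abs_nonneg x)
  have hnum0 : 0 ≤ x ^ 2 / (s + |x|) := by positivity
  exact div_le_div₀ (hnum0.trans hnum) hnum (normSq_pos hs hx0) hden

lemma HL_im : (HL ν s ρ ζ).im =
    -(ν * ((ζ / Lam s ζ).im + (ζ.re ^ 2 - ζ.im ^ 2) / ρ)) := by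
  unfold HL
  have h2 : (I * ζ ^ 2 / (ρ : ℂ)).im = (ζ.re ^ 2 - ζ.im ^ 2) / ρ := by
    rw [Complex.div_ofReal_im]
    congr 1
    simp [pow_two]
  have h3 : (-(ν : ℂ) * (ζ / Lam s ζ + I * ζ ^ 2 / ρ)) =
      ((-ν : ℝ) : ℂ) * (ζ / Lam s ζ + I * ζ ^ 2 / ρ) := by push_cast; ring
  rw [h3, Complex.im_ofReal_mul, add_im, h2]
  ring

lemma HL_norm (hν : 0 ≤ ν) (hs : 0 < s) (hρ : 0 < ρ) (hζ : 0 ≤ ζ.im) (hζρ : ‖ζ‖ ≤ ρ) :
    ‖HL ν s ρ ζ‖ ≤ 2 * ν * ‖ζ‖ := by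
  unfold HL
  rw [norm_mul, norm_neg, Complex.norm_of_nonneg hν]
  have h1 : ‖ζ / Lam s ζ‖ ≤ ‖ζ‖ := by
    rw [norm_div]
    exact div_le_self (norm_nonneg _) (Lam_norm_ge hs hζ)
  have h2 : ‖I * ζ ^ 2 / (ρ : ℂ)‖ ≤ ‖ζ‖ := by
    rw [norm_div, norm_mul, norm_I, one_mul, norm_pow, Complex.norm_of_nonneg hρ.le,
      div_le_iff₀ hρ, sq]
    exact mul_le_mul_of_nonneg_left hζρ (norm_nonneg _)
  calc ν * ‖ζ / Lam s ζ + I * ζ ^ 2 / ρ‖ ≤ ν * (‖ζ‖ + ‖ζ‖) :=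
        mul_le_mul_of_nonneg_left ((norm_add_le _ _).trans (add_le_add h1 h2)) hν
    _ = 2 * ν * ‖ζ‖ := by ring

lemma HL_diff (hs : 0 < s) (hζ : 0 ≤ ζ.im) : DifferentiableAt ℂ (HL ν s ρ) ζ := by
  have h1 : DifferentiableAt ℂ (ww s) ζ := by unfold ww; fun_prop
  have h2 : DifferentiableAt ℂ (Lam s) ζ := by
    unfold Lam
    refine (differentiableAt_const _).add (h1.clog ?_)
    exact Or.inl (lt_of_lt_of_le zero_lt_one (ww_re_ge hs hζ))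
  unfold HL
  refine DifferentiableAt.const_mul ?_ _
  refine DifferentiableAt.add ?_ (by fun_prop)
  exact differentiableAt_id.div h2 (Lam_ne hs hζ)

end HL

/-! ### the disc -/

def T1 (σ c ν s ρ η : ℝ) (Tq : ℂ) : ℂ :=
  Tq - ((σ - c / 2 : ℝ) : ℂ) * (η * I) - HL ν s ρ (η * I)

def T2 (ν s ρ η : ℝ) (zq : ℂ) : ℂ := zq - η * I + ((1 / 4 : ℝ) : ℂ) * HL ν s ρ (η * I)

def TT (σ c ν s ρ η : ℝ) (Tq ζ : ℂ) : ℂ :=
  T1 σ c ν s ρ η Tq + ((σ - c / 2 : ℝ) : ℂ) * ζ + HL ν s ρ ζ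

def ZZ (ν s ρ η : ℝ) (zq ζ : ℂ) : ℂ := T2 ν s ρ η zq + ζ - ((1 / 4 : ℝ) : ℂ) * HL ν s ρ ζ

structure GD (σ c ν A c₂ s ρ η : ℝ) (Tq zq : ℂ) : Prop where
  σ0 : 0 ≤ σ
  c0 : 0 < c
  ν0 : 0 < ν
  ν1 : ν ≤ 1 / 64
  ν2 : 8 * (σ + 1) * ν ≤ c
  A0 : 0 < A
  c20 : 0 < c₂
  s0 : 0 < s
  As : A * s ≤ ρ
  sρ : s ≤ ρ
  Tn : ‖Tq‖ ≤ A * s
  zn : ‖zq‖ ≤ A * s
  z2 : c₂ * s ≤ zq.im
  lv : Tq.im ≤ (σ - c) * zq.im
  hη : η = (1 - 2 * ν) * zq.im

section GD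

variable {σ c ν A c₂ s ρ η : ℝ} {Tq zq : ℂ}

lemma GD.ρ0 (h : GD σ c ν A c₂ s ρ η Tq zq) : 0 < ρ := h.s0.trans_le h.sρ

lemma GD.z0 (h : GD σ c ν A c₂ s ρ η Tq zq) : 0 < zq.im :=
  lt_of_lt_of_le (mul_pos h.c20 h.s0) h.z2

lemma GD.zA (h : GD σ c ν A c₂ s ρ η Tq zq) : zq.im ≤ A * s :=
  (Complex.im_le_norm zq).trans h.zn

lemma GD.η0 (h : GD σ c ν A c₂ s ρ η Tq zq) : 0 < η := by
  rw [h.hη]
  have := h.ν1
  exact mul_pos (by linarith) h.z0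

lemma GD.ηz (h : GD σ c ν A c₂ s ρ η Tq zq) : η ≤ zq.im := by
  rw [h.hη]
  have := h.ν0
  have := h.z0
  nlinarith

lemma GD.ηA (h : GD σ c ν A c₂ s ρ η Tq zq) : η ≤ A * s := h.ηz.trans h.zA

lemma GD.ηρ (h : GD σ c ν A c₂ s ρ η Tq zq) : η ≤ ρ := h.ηA.trans h.As

lemma GD.nI (h : GD σ c ν A c₂ s ρ η Tq zq) : ‖(η : ℂ) * I‖ = η := by
  rw [norm_mul, norm_I, mul_one, Complex.norm_of_nonneg h.η0.le]

lemma GD.Hn (h : GD σ c ν A c₂ s ρ η Tq zq) : ‖HL ν s ρ (η * I)‖ ≤ 2 * ν * η := by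
  have h1 := HL_norm (ν := ν) (s := s) (ρ := ρ) (ζ := (η : ℂ) * I) h.ν0.le h.s0 h.ρ0
    (by simpa using h.η0.le) (by rw [h.nI]; exact h.ηρ)
  rwa [h.nI] at h1

lemma GD.Him (h : GD σ c ν A c₂ s ρ η Tq zq) : |(HL ν s ρ (η * I)).im| ≤ 2 * ν * η :=
  (Complex.abs_im_le_norm _).trans h.Hn

lemma GD.T2_im (h : GD σ c ν A c₂ s ρ η Tq zq) : ν * zq.im ≤ (T2 ν s ρ η zq).im := by
  have h1 := abs_le.1 h.Him
  have h2 := h.ηz
  have h3 := h.hη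
  have h4 := h.z0
  have h5 := h.ν0
  have e : (T2 ν s ρ η zq).im = zq.im - η + 1 / 4 * (HL ν s ρ (η * I)).im := by
    unfold T2
    rw [add_im, sub_im, Complex.im_ofReal_mul]
    simp
  rw [e]
  have h6 : ν * η ≤ ν * zq.im := mul_le_mul_of_nonneg_left h2 h5.le
  nlinarith [h1.1]

lemma GD.T1_im (h : GD σ c ν A c₂ s ρ η Tq zq) : (T1 σ c ν s ρ η Tq).im ≤ -(c / 4 * zq.im) := by
  have h1 := abs_le.1 h.Him
  have h2 := h.ηz
  have h3 := h.hη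
  have h4 := h.z0
  have h5 := h.ν0
  have h6 := h.lv
  have h7 := h.ν2
  have h8 := h.σ0
  have h9 := h.c0
  have e : (T1 σ c ν s ρ η Tq).im = Tq.im - (σ - c / 2) * η - (HL ν s ρ (η * I)).im := by
    unfold T1
    rw [sub_im, sub_im, Complex.im_ofReal_mul]
    simp
  rw [e]
  have h10 : ν * η ≤ ν * zq.im := mul_le_mul_of_nonneg_left h2 h5.le
  have e2 : (σ - c / 2) * η = (σ - c / 2) * zq.im - 2 * ν * (σ - c / 2) * zq.im := by
    rw [h3]; ring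
  rw [e2]
  have h11 : 2 * ν * (σ - c / 2) * zq.im ≤ 2 * ν * σ * zq.im := by
    have : 0 ≤ 2 * ν * (c / 2) * zq.im := by positivity
    nlinarith
  have h12 : 8 * (σ + 1) * ν * zq.im ≤ c * zq.im := mul_le_mul_of_nonneg_right h7 h4.le
  nlinarith [h1.1]

lemma GD.T1_norm (h : GD σ c ν A c₂ s ρ η Tq zq) :
    ‖T1 σ c ν s ρ η Tq‖ ≤ (σ + c + 2) * (A * s) := by
  unfold T1
  have h1 := h.Hn
  have h2 := h.Tn
  have h3 := h.ηA
  have h4 := h.σ0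
  have h5 := h.c0
  have h6 := h.ν1
  have h7 := h.η0
  have h8 : |σ - c / 2| ≤ σ + c := abs_le.2 ⟨by linarith, by linarith⟩
  have h9 : ‖((σ - c / 2 : ℝ) : ℂ) * (η * I)‖ ≤ (σ + c) * η := by
    rw [norm_mul, h.nI, Complex.norm_real, Real.norm_eq_abs]
    exact mul_le_mul_of_nonneg_right h8 h7.le
  have h10 : (σ + c) * η ≤ (σ + c) * (A * s) := mul_le_mul_of_nonneg_left h3 (by linarith)
  have h11 : 2 * ν * η ≤ 1 * (A * s) := mul_le_mul (by linarith) h3 h7.le (by linarith)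
  calc _ ≤ ‖Tq‖ + ‖((σ - c / 2 : ℝ) : ℂ) * (η * I)‖ + ‖HL ν s ρ (η * I)‖ :=
        (norm_sub_le _ _).trans (add_le_add_left (norm_sub_le _ _) _)
    _ ≤ (σ + c + 2) * (A * s) := by linarith

lemma GD.T2_norm (h : GD σ c ν A c₂ s ρ η Tq zq) : ‖T2 ν s ρ η zq‖ ≤ 3 * (A * s) := by
  unfold T2
  have h1 := h.Hn
  have h2 := h.zn
  have h3 := h.ηA
  have h6 := h.ν1
  have h7 := h.η0
  have h9 : ‖(η : ℂ) * I‖ = η := h.nI
  have h10 : ‖((1 / 4 : ℝ) : ℂ) * HL ν s ρ (η * I)‖ ≤ 1 / 4 * (2 * ν * η) := by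
    rw [norm_mul, Complex.norm_real, Real.norm_eq_abs, abs_of_pos (by norm_num)]
    exact mul_le_mul_of_nonneg_left h1 (by norm_num)
  have h11 : 2 * ν * η ≤ 1 * (A * s) := mul_le_mul (by linarith) h3 h7.le (by linarith)
  calc _ ≤ ‖zq‖ + ‖(η : ℂ) * I‖ + ‖((1 / 4 : ℝ) : ℂ) * HL ν s ρ (η * I)‖ :=
        (norm_add_le _ _).trans (add_le_add_left (norm_sub_le _ _) _)
    _ ≤ 3 * (A * s) := by linarith


lemma ZZ_at : ZZ ν s ρ η zq (η * I) = zq := by unfold ZZ T2; ring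

lemma TT_im (ζ : ℂ) : (TT σ c ν s ρ η Tq ζ).im =
    (T1 σ c ν s ρ η Tq).im + (σ - c / 2) * ζ.im + (HL ν s ρ ζ).im := by
  unfold TT
  rw [add_im, add_im, Complex.im_ofReal_mul]

lemma ZZ_im (ζ : ℂ) : (ZZ ν s ρ η zq ζ).im =
    (T2 ν s ρ η zq).im + ζ.im - 1 / 4 * (HL ν s ρ ζ).im := by
  unfold ZZ
  rw [sub_im, add_im, Complex.im_ofReal_mul]


lemma GD.ZZ_norm (h : GD σ c ν A c₂ s ρ η Tq zq) {ζ : ℂ} (hζ : 0 ≤ ζ.im) (hζρ : ‖ζ‖ ≤ ρ) :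
    ‖ZZ ν s ρ η zq ζ‖ ≤ (σ + c + 3) * (A + 1) * (s + ‖ζ‖) := by
  unfold ZZ
  have h1 := h.T2_norm
  have h2 := HL_norm (ν := ν) h.ν0.le h.s0 h.ρ0 hζ hζρ
  have h3 := h.ν1
  have h4 := h.σ0
  have h5 := h.c0
  have h6 := h.A0
  have h7 := h.s0
  have h9 : ‖((1 / 4 : ℝ) : ℂ) * HL ν s ρ ζ‖ ≤ 1 / 4 * (2 * ν * ‖ζ‖) := by
    rw [norm_mul, Complex.norm_real, Real.norm_eq_abs, abs_of_pos (by norm_num)]
    exact mul_le_mul_of_nonneg_left h2 (by norm_num)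
  have h10 : 2 * ν * ‖ζ‖ ≤ 1 * ‖ζ‖ := mul_le_mul_of_nonneg_right (by linarith) (norm_nonneg _)
  have h11 : (0 : ℝ) ≤ ‖ζ‖ := norm_nonneg _
  calc _ ≤ ‖T2 ν s ρ η zq‖ + ‖ζ‖ + ‖((1 / 4 : ℝ) : ℂ) * HL ν s ρ ζ‖ :=
        (norm_sub_le _ _).trans (add_le_add_left (norm_add_le _ _) _)
    _ ≤ 3 * (A * s) + ‖ζ‖ + 1 * ‖ζ‖ := by linarith
    _ ≤ _ := by
      have e : (σ + c + 3) * (A + 1) * (s + ‖ζ‖) - (3 * (A * s) + ‖ζ‖ + 1 * ‖ζ‖) =
        (σ + c) * A * s + (σ + c + 3) * s + (σ + c + 3) * A * ‖ζ‖ + (σ + c + 1) * ‖ζ‖ := by ring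
      have : 0 ≤ (σ + c) * A * s + (σ + c + 3) * s + (σ + c + 3) * A * ‖ζ‖ +
        (σ + c + 1) * ‖ζ‖ := by positivity
      linarith

/-- `-Im H` is bounded below -/
lemma GD.H_low (h : GD σ c ν A c₂ s ρ η Tq zq) {ζ : ℂ} (hζ : 0 ≤ ζ.im) (hζρ : ‖ζ‖ ≤ ρ) :
    ν * (ζ.re ^ 2 / ρ) - ν * ζ.im ≤ -(HL ν s ρ ζ).im := by
  rw [HL_im, neg_neg]
  have h1 := P_nonneg h.s0 hζ
  have h2 : ζ.im ^ 2 / ρ ≤ ζ.im := by
    rw [div_le_iff₀ h.ρ0, sq]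
    exact mul_le_mul_of_nonneg_left ((Complex.im_le_norm ζ).trans hζρ) hζ
  have h3 : (ζ.re ^ 2 - ζ.im ^ 2) / ρ = ζ.re ^ 2 / ρ - ζ.im ^ 2 / ρ := by ring
  rw [h3]
  have h4 := h.ν0
  have : ν * (ζ.re ^ 2 / ρ - ζ.im) ≤ ν * ((ζ / Lam s ζ).im + (ζ.re ^ 2 / ρ - ζ.im ^ 2 / ρ)) :=
    mul_le_mul_of_nonneg_left (by linarith) h4.le
  linarith

lemma GD.ZZ_low (h : GD σ c ν A c₂ s ρ η Tq zq) {ζ : ℂ} (hζ : 0 ≤ ζ.im) (hζρ : ‖ζ‖ ≤ ρ) :
    ν * zq.im + ν / 4 * (ζ.im + ζ.re ^ 2 / ρ) ≤ (ZZ ν s ρ η zq ζ).im := by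
  rw [ZZ_im]
  have h1 := h.H_low hζ hζρ
  have h2 := h.T2_im
  have h3 := h.ν1
  have h4 := h.ν0
  nlinarith


lemma key_ineq {s : ℝ} (hs : 0 < s) (x : ℝ) : (s + |x|) / 2 ≤ s + x ^ 2 / (s + |x|) := by
  have hpos : 0 < s + |x| := by positivity
  have : (s + |x|) / 2 - s ≤ x ^ 2 / (s + |x|) := by
    rw [le_div_iff₀ hpos]
    nlinarith [sq_abs x, sq_nonneg s]
  linarith


/-- `Im w` on the real side -/
lemma GD.real_w (h : GD σ c ν A c₂ s ρ η Tq zq) (x : ℝ) :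
    min (ν * c₂) (ν / 16) / 2 * ((s + |x|) / ell s |x| ^ 2) ≤ (ZZ ν s ρ η zq x).im := by
  rw [ZZ_im, HL_im]
  simp only [ofReal_im, add_zero, ofReal_re]
  have hl := ell_ge (t := |x|) h.s0 (abs_nonneg x)
  have h1 := P_real h.s0 x
  have h2 := h.T2_im
  have h3 := h.z2
  have h5 := h.ν0
  have h6 := h.s0
  have h7 := h.c20
  have hx : 0 ≤ |x| := abs_nonneg x
  have h8 : 0 ≤ x ^ 2 / ρ := div_nonneg (sq_nonneg _) h.ρ0.le
  have h9 : ν * (c₂ * s) ≤ ν * zq.im := mul_le_mul_of_nonneg_left h3 (by positivity)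
  have hl2 : 1 ≤ ell s |x| ^ 2 := by nlinarith
  have hl0 : 0 < ell s |x| ^ 2 := by linarith
  set L := ell s |x| ^ 2 with hL
  have h10 : ν * (x ^ 2 / (s + |x|) / (4 * L)) ≤ ν * ((x : ℂ) / Lam s x).im :=
    mul_le_mul_of_nonneg_left h1 h5.le
  have h11 : min (ν * c₂) (ν / 16) ≤ ν * c₂ := min_le_left _ _
  have h12 : min (ν * c₂) (ν / 16) ≤ ν / 16 := min_le_right _ _
  have h13 : 0 ≤ min (ν * c₂) (ν / 16) := by positivity
  set m := min (ν * c₂) (ν / 16) with hm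
  have key : (s + |x|) / 2 ≤ s + x ^ 2 / (s + |x|) := key_ineq h6 x
  have h14 : m / 2 * ((s + |x|) / L) ≤ m * ((s + x ^ 2 / (s + |x|)) / L) := by
    have : (s + |x|) / 2 / L ≤ (s + x ^ 2 / (s + |x|)) / L := by gcongr
    calc m / 2 * ((s + |x|) / L) = m * ((s + |x|) / 2 / L) := by ring
      _ ≤ _ := mul_le_mul_of_nonneg_left this h13
  have h15 : m * ((s + x ^ 2 / (s + |x|)) / L) ≤ ν * c₂ * s +
      1 / 4 * (ν * (x ^ 2 / (s + |x|) / (4 * L))) := by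
    have e : m * ((s + x ^ 2 / (s + |x|)) / L) = m * (s / L) + m * (x ^ 2 / (s + |x|) / L) := by
      ring
    rw [e]
    have a1 : s / L ≤ s := div_le_self h6.le hl2
    have a2 : m * (s / L) ≤ ν * c₂ * s := mul_le_mul h11 a1 (by positivity) (by positivity)
    have a3 : m * (x ^ 2 / (s + |x|) / L) ≤ ν / 16 * (x ^ 2 / (s + |x|) / L) :=
      mul_le_mul_of_nonneg_right h12 (by positivity)
    have a4 : ν / 16 * (x ^ 2 / (s + |x|) / L) = 1 / 4 * (ν * (x ^ 2 / (s + |x|) / (4 * L))) := by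
      field_simp
      try ring
    linarith
  have h16 : (x ^ 2 - 0 ^ 2) / ρ = x ^ 2 / ρ := by ring
  rw [h16]
  have h17 : 0 ≤ ν * (x ^ 2 / ρ) := by positivity
  nlinarith

end GD

/-! ### the estimate -/

lemma isOpen_Half (e : ℝ × ℝ) (η m : ℝ) : IsOpen (Half e η m) := by
  have c1 : Continuous (fun q : ℂ × ℂ => |q.1.re - e.1|) := by fun_prop
  have c2 : Continuous (fun q : ℂ × ℂ => q.1.im) := by fun_prop
  have c3 : Continuous (fun q : ℂ × ℂ => ‖q.2 - (e.2 : ℂ)‖) := by fun_prop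
  have c4 : Continuous (fun q : ℂ × ℂ => q.2.im) := by fun_prop
  exact (isOpen_lt c1 continuous_const).inter ((isOpen_lt continuous_const c2).inter
    ((isOpen_lt c3 continuous_const).inter ((isOpen_lt continuous_const c4).inter
      (isOpen_lt c2 (continuous_const.mul c4)))))

/-- the disc in absolute coordinates -/
def Ph (σ c ν s ρ η : ℝ) (Tq zq : ℂ) (e : ℝ × ℝ) (ζ : ℂ) : ℂ × ℂ :=
  ((e.1 : ℂ) + TT σ c ν s ρ η Tq ζ, (e.2 : ℂ) + ZZ ν s ρ η zq ζ)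

section Ph

variable {σ c ν A c₂ s ρ η : ℝ} {Tq zq : ℂ}



lemma GD.ZZ_diff (h : GD σ c ν A c₂ s ρ η Tq zq) {ζ : ℂ} (hζ : 0 ≤ ζ.im) :
    DifferentiableAt ℂ (ZZ ν s ρ η zq) ζ := by
  have := HL_diff (ν := ν) (ρ := ρ) h.s0 hζ
  unfold ZZ
  fun_prop



end Ph


end Crest.Agent.R102.DiscLog695
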