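import Crest.Agent.R102.SHtest_712
import Crest.Agent.R102.SlopeA_231
import Mathlib
import Crest.Agent.R102.T1EJ1_712
import Crest.Agent.R102.SlopeA_845
import Crest.Agent.R102.LVB_669

-- ▼ part R102/E56_924
section

/-!
# Row 102, T1-E, steps (E5') + (E6) (helper924)

The potential theory block at the end of T1-E (758 #24475, 924 #24838): two superharmonic heights
`V ≤ R` near a real segment, `V ≤ Λ + ε` and `R ≥ Λ + c |Im w| - ε` off the real axis (`Λ` harmonic),
`V ≥ -C` everywhere. Then `R ≥ Λ + cρ/4` on the real segment (`gain`), and `V = R` almost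
everywhere on the real segment is impossible; in fact `{V < R}` has measure at least `η₀` (`kink`).
-/

set_option autoImplicit false

open Set Filter Topology Metric Complex MeasureTheory
open scoped Real
open Crest.Agent.R102.SH712 (NT sh1_re sh2)
open Crest.Agent.R102.LP472 (pk Om Om_re Om_differentiableAt one_sub_pk_le
  setIntegral_pk_le_of_disjoint setIntegral_pk_le_one)

namespace Crest.Agent.R102.E56


/-- lower semicontinuity minus a continuous function -/
theorem lsc_sub {V : ℂ → ℝ} {U : Set ℂ} (hV : LowerSemicontinuousOn V U) {F : ℂ → ℂ}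
    (hF : ContinuousOn F U) : LowerSemicontinuousOn (fun z => V z - (F z).re) U := by
  have h1 : LowerSemicontinuousOn (fun z => -(F z).re) U :=
    (Complex.continuous_re.comp_continuousOn hF).neg.lowerSemicontinuousOn
  have := hV.add h1
  simpa [sub_eq_add_neg] using this

/-- a compact subset of `[x₀ - r, x₀ + r]` avoiding a set of small measure -/
theorem exists_compact (x₀ : ℝ) {r η : ℝ} (hη : 0 < η) (S : Set ℝ)
    (hS : volume S < ENNReal.ofReal η) :
    ∃ K : Set ℝ, IsCompact K ∧ K ⊆ Icc (x₀ - r) (x₀ + r) \ S ∧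
      volume.real (Icc (x₀ - r) (x₀ + r) \ K) ≤ 2 * η := by
  set T := toMeasurable volume S with hT
  have hTm : MeasurableSet T := measurableSet_toMeasurable _ _
  have hST : S ⊆ T := subset_toMeasurable _ _
  have hTv : volume T < ENNReal.ofReal η := by rw [hT, measure_toMeasurable]; exact hS
  set J := Icc (x₀ - r) (x₀ + r) with hJ
  have hJT : MeasurableSet (J \ T) := measurableSet_Icc.diff hTm
  have hfin : volume (J \ T) ≠ ⊤ :=
    ne_top_of_le_ne_top (by rw [hJ, Real.volume_Icc]; exact ENNReal.ofReal_ne_top)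
      (measure_mono (s := J \ T) (t := J) sdiff_subset)
  have hη' : ENNReal.ofReal η ≠ 0 := by
    rw [Ne, ENNReal.ofReal_eq_zero]; linarith
  obtain ⟨K, hKs, hKc, hKm⟩ := hJT.exists_isCompact_sdiff_lt hfin hη'
  refine ⟨K, hKc, hKs.trans (sdiff_subset_sdiff_right hST), ?_⟩
  have h1 : J \ K ⊆ T ∪ ((J \ T) \ K) := by
    rintro x ⟨hx, hxK⟩
    by_cases hxT : x ∈ T
    · exact Or.inl hxT
    · exact Or.inr ⟨⟨hx, hxT⟩, hxK⟩
  have h2 : volume (J \ K) ≤ ENNReal.ofReal (2 * η) := by
    refine (measure_mono h1).trans ((measure_union_le _ _).trans ?_)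
    have h3 : ENNReal.ofReal (2 * η) = ENNReal.ofReal η + ENNReal.ofReal η := by
      rw [← ENNReal.ofReal_add hη.le hη.le]; congr 1; ring
    rw [h3]
    exact add_le_add hTv.le hKm.le
  exact ENNReal.toReal_le_of_le_ofReal (by positivity) h2

/-- (E5') the value inside from a lower bound on a large compact part of the diameter -/
theorem inside {W : Set ℂ} (hW : IsOpen W) {V : ℂ → ℝ} (hlsc : LowerSemicontinuousOn V W)
    (hNT : NT V W) {M : ℝ} (hM : ∀ w ∈ W, |V w| ≤ M) {x₀ r : ℝ} (hr : 0 < r)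
    (hsub : closedBall (x₀ : ℂ) r ⊆ W) {L : ℂ → ℂ} (hL : DifferentiableOn ℂ L W) {B C c₁ : ℝ}
    (hB : 0 ≤ B) (hC : 0 ≤ C) (hc₁ : 0 ≤ c₁) (hLB : ∀ w ∈ W, |(L w).re| ≤ B)
    (hVC : ∀ w ∈ W, -C ≤ V w) {K : Set ℝ} (hK : IsCompact K)
    (hKV : ∀ x : ℝ, x ∈ K → |x - x₀| ≤ r → (L x).re + c₁ ≤ V x) {δ : ℝ} (hδ : 0 < δ)
    (hδr : δ < r) :
    (L (x₀ + δ * I)).re + c₁ - (B + C + c₁) * (2 * δ / r)
      - (B + C + c₁) * (1 - ∫ t in K, pk x₀ δ t) ≤ V (x₀ + δ * I) := by
  set D : ℝ := B + C + c₁ with hD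
  have hD0 : 0 ≤ D := by positivity
  set U : Set ℂ := ball (x₀ : ℂ) r ∩ {z | 0 < z.im} with hU
  have hUo : IsOpen U := isOpen_ball.inter (isOpen_lt continuous_const Complex.continuous_im)
  have hUW : U ⊆ W := (inter_subset_left.trans ball_subset_closedBall).trans hsub
  have hcl : closure U ⊆ closedBall (x₀ : ℂ) r ∩ {z | 0 ≤ z.im} := by
    refine closure_minimal ?_ (isClosed_closedBall.inter
      (isClosed_le continuous_const Complex.continuous_im))
    rintro z ⟨h1, h2⟩
    exact ⟨ball_subset_closedBall h1, (show 0 < z.im from h2).le⟩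
  -- the harmonic minorant
  set g : ℂ → ℂ := fun w => -(2 * I) * (w - x₀) / r + (w - x₀) ^ 2 / (r : ℂ) ^ 2 with hg
  set F : ℂ → ℂ := fun w => L w + c₁ - D * g w - D * (1 - Om K w) with hF
  have hgre : ∀ w : ℂ, (g w).re = 2 * w.im / r + ((w.re - x₀) ^ 2 - w.im ^ 2) / r ^ 2 := by
    intro w
    simp only [hg]
    have h1 : (-(2 * I) * (w - x₀) / (r : ℂ) : ℂ).re = 2 * w.im / r := by
      rw [Complex.div_ofReal_re]
      congr 1
      simp
    have h2 : ((w - x₀) ^ 2 / (r : ℂ) ^ 2 : ℂ).re = ((w.re - x₀) ^ 2 - w.im ^ 2) / r ^ 2 := by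
      rw [← Complex.ofReal_pow, Complex.div_ofReal_re]
      congr 1
      rw [sq, Complex.mul_re]
      simp
      ring
    rw [Complex.add_re, h1, h2]
  have hFre : ∀ w : ℂ, 0 < w.im → (F w).re = (L w).re + c₁ - D * (g w).re
      - D * (1 - ∫ t in K, pk w.re w.im t) := by
    intro w hw
    simp only [hF]
    rw [Complex.sub_re, Complex.sub_re, Complex.add_re, Complex.ofReal_re, Complex.re_ofReal_mul,
      Complex.re_ofReal_mul, Complex.sub_re, Complex.one_re, Om_re hK hw]
  have hFd : ∀ w ∈ U, DifferentiableAt ℂ F w := by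
    intro w hw
    have h1 : DifferentiableAt ℂ L w := hL.differentiableAt (hW.mem_nhds (hUW hw))
    have h2 : DifferentiableAt ℂ (Om K) w := Om_differentiableAt hK hw.2
    have h3 : DifferentiableAt ℂ g w := by
      simp only [hg]
      fun_prop
    exact ((h1.add_const _).sub (h3.const_mul _)).sub ((h2.const_sub 1).const_mul _)
  have hgc : Continuous fun w : ℂ => (g w).re := by
    simp only [hg]
    fun_prop
  have hLc : ContinuousOn (fun w : ℂ => (L w).re) W :=
    Complex.continuous_re.comp_continuousOn hL.continuousOn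
  -- mass bounds
  have hpk1 : ∀ w : ℂ, 0 < w.im → ∫ t in K, pk w.re w.im t ≤ 1 := fun w hw =>
    setIntegral_pk_le_one hw _ _
  have hmain := Slope231.min_principle hUo (isBounded_ball.subset inter_subset_left)
    (G := fun z => V z - (F z).re)
    (lsc_sub (hlsc.mono hUW) (fun w hw => (hFd w hw).continuousAt.continuousWithinAt))
    (by
      intro z hz
      obtain ⟨ρ, hρ, hρU⟩ := Metric.nhds_basis_closedBall.mem_iff.1 (hUo.mem_nhds hz)
      obtain ⟨h1, h2⟩ := sh2 hlsc hNT hM hρ (hρU.trans hUW)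
      refine ⟨ρ, hρ, hρU, ?_⟩
      have h3 : IntervalIntegrable (fun θ : ℝ => (F (circleMap z ρ θ)).re) volume 0 (2 * π) ∧
          (2 * π)⁻¹ * ∫ θ in (0 : ℝ)..(2 * π), (F (circleMap z ρ θ)).re = (F z).re := by
        have hcont : Continuous fun θ : ℝ => F (circleMap z ρ θ) := by
          rw [continuous_iff_continuousAt]
          intro θ
          exact ((hFd _ (hρU (circleMap_mem_closedBall z hρ.le θ))).continuousAt).comp
            (f := circleMap z ρ) (continuous_circleMap z ρ).continuousAt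
        refine ⟨(Complex.continuous_re.comp hcont).intervalIntegrable _ _, ?_⟩
        have h1 : Real.circleAverage F z ρ = F z := by
          apply DiffContOnCl.circleAverage
          rw [abs_of_pos hρ]
          refine ⟨fun w hw => (hFd w (hρU (ball_subset_closedBall hw))).differentiableWithinAt, ?_⟩
          rw [closure_ball z hρ.ne']
          exact fun w hw => (hFd w (hρU hw)).continuousAt.continuousWithinAt
        rw [Real.circleAverage_def] at h1
        have h2 : (∫ θ in (0 : ℝ)..(2 * π), (F (circleMap z ρ θ)).re) =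
            (∫ θ in (0 : ℝ)..(2 * π), F (circleMap z ρ θ)).re := by
          have := Complex.reCLM.intervalIntegral_comp_comm
            (hcont.intervalIntegrable (μ := volume) 0 (2 * π))
          simpa using this
        rw [h2, ← h1]
        simp
      refine ⟨h1.sub h3.1, ?_⟩
      rw [intervalIntegral.integral_sub h1 h3.1, mul_sub, h3.2]
      linarith)
    (by
      intro ζ hζ ε hε
      have hζc := hcl (frontier_subset_closure hζ)
      have hζU : ζ ∉ U := by
        rw [hUo.frontier_eq] at hζ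
        exact hζ.2
      have hζW : ζ ∈ W := hsub hζc.1
      have hLev : ∀ᶠ z in 𝓝[U] ζ, (L z).re < (L ζ).re + ε / 3 :=
        ((hLc ζ hζW).mono_left (nhdsWithin_mono _ hUW)).eventually (gt_mem_nhds (by linarith))
      have hgev : ∀ᶠ z in 𝓝[U] ζ, (g ζ).re - ε / (3 * (D + 1)) < (g z).re :=
        (hgc.continuousAt.mono_left nhdsWithin_le_nhds).eventually (lt_mem_nhds (by
          have : 0 < ε / (3 * (D + 1)) := by positivity
          linarith))
      have hDε : D * (ε / (3 * (D + 1))) ≤ ε / 3 := by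
        have h1 : D * (ε / (3 * (D + 1))) = (ε / 3) * (D / (D + 1)) := by
          field_simp
        have h2 : D / (D + 1) ≤ 1 := by
          rw [div_le_one (by positivity)]; linarith
        rw [h1]
        nlinarith
      have hLB1 := (abs_le.1 (hLB ζ hζW)).2
      by_cases him : 0 < ζ.im
      · -- the arc
        have hnorm : ‖ζ - x₀‖ = r := by
          have h1 := hζc.1
          rw [mem_closedBall, dist_eq_norm] at h1
          refine le_antisymm h1 ?_
          by_contra hcon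
          push Not at hcon
          exact hζU ⟨by rw [mem_ball, dist_eq_norm]; exact hcon, him⟩
        have hsq : (ζ.re - x₀) ^ 2 + ζ.im ^ 2 = r ^ 2 := by
          have h1 : ‖ζ - x₀‖ ^ 2 = r ^ 2 := by rw [hnorm]
          rw [← Complex.normSq_eq_norm_sq, Complex.normSq_apply] at h1
          simp at h1
          nlinarith
        have hle : ζ.im ≤ r := by nlinarith [sq_nonneg (ζ.re - x₀)]
        have hg1 : 1 ≤ (g ζ).re := by
          rw [hgre]
          have h2 : (ζ.re - x₀) ^ 2 - ζ.im ^ 2 = r ^ 2 - 2 * ζ.im ^ 2 := by linarith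
          rw [h2]
          have h3 : 2 * ζ.im / r + (r ^ 2 - 2 * ζ.im ^ 2) / r ^ 2
              = 1 + 2 * (ζ.im / r) * (1 - ζ.im / r) := by
            field_simp
            ring
          rw [h3]
          have h4 : ζ.im / r ≤ 1 := by rw [div_le_one hr]; exact hle
          have h5 : 0 ≤ ζ.im / r := by positivity
          nlinarith [mul_nonneg h5 (sub_nonneg.2 h4)]
        filter_upwards [hLev, hgev, self_mem_nhdsWithin] with z h1 h2 h3
        rw [hFre z h3.2]
        have h4 := hVC z (hUW h3)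
        have h5 := hpk1 z h3.2
        have h6 : D * (1 - ε / (3 * (D + 1))) ≤ D * (g z).re :=
          mul_le_mul_of_nonneg_left (by linarith) hD0
        have h7 : 0 ≤ D * (1 - ∫ t in K, pk z.re z.im t) := mul_nonneg hD0 (by linarith)
        have h8 : D * (1 - ε / (3 * (D + 1))) = D - D * (ε / (3 * (D + 1))) := by ring
        rw [h8] at h6
        linarith
      · -- the real axis
        have him0 : ζ.im = 0 := le_antisymm (not_lt.1 him) hζc.2
        have hζx : ζ = ((ζ.re : ℝ) : ℂ) := by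
          apply Complex.ext <;> simp [him0]
        set x : ℝ := ζ.re with hx
        have hxr : |x - x₀| ≤ r := by
          have h1 := hζc.1
          rw [mem_closedBall, dist_eq_norm, hζx, ← Complex.ofReal_sub, Complex.norm_real,
            Real.norm_eq_abs] at h1
          exact h1
        have hg0 : 0 ≤ (g ζ).re := by
          rw [hgre, him0]
          simp only [mul_zero, zero_div, zero_add, ne_eq, OfNat.ofNat_ne_zero, not_false_eq_true,
            zero_pow, sub_zero]
          positivity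
        have hDg : ∀ z : ℂ, (g ζ).re - ε / (3 * (D + 1)) < (g z).re → -(ε / 3) ≤ D * (g z).re := by
          intro z h2
          have h6 : D * (0 - ε / (3 * (D + 1))) ≤ D * (g z).re :=
            mul_le_mul_of_nonneg_left (by linarith) hD0
          have h8 : D * (0 - ε / (3 * (D + 1))) = - (D * (ε / (3 * (D + 1)))) := by ring
          rw [h8] at h6
          linarith
        by_cases hxK : x ∈ K
        · have hVx := hKV x hxK hxr
          have hVev : ∀ᶠ z in 𝓝[U] ζ, V ζ - ε / 3 < V z :=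
            (hlsc ζ hζW (V ζ - ε / 3) (by linarith)).filter_mono (nhdsWithin_mono _ hUW)
          rw [← hζx] at hVx
          filter_upwards [hLev, hgev, hVev, self_mem_nhdsWithin] with z h1 h2 h3 h4
          rw [hFre z h4.2]
          have h5 := hpk1 z h4.2
          have h7 : 0 ≤ D * (1 - ∫ t in K, pk z.re z.im t) := mul_nonneg hD0 (by linarith)
          have h8 := hDg z h2
          linarith
        · -- outside `K` the Poisson mass tends to zero
          obtain ⟨d, hd, hdK⟩ : ∃ d > 0, ∀ t ∈ K, d ≤ |t - x| := by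
            obtain ⟨d, hd, h⟩ := Metric.isOpen_iff.1 hK.isClosed.isOpen_compl x hxK
            refine ⟨d, hd, fun t ht => ?_⟩
            by_contra hcon
            push Not at hcon
            exact h (by rw [mem_ball, Real.dist_eq]; exact hcon) ht
          have hlim : Tendsto (fun v : ℝ => D * (1 - 2 / π * Real.arctan (d / 2 / v))) (𝓝[>] 0)
              (𝓝 0) := by
            have h0 : Tendsto (fun v : ℝ => d / 2 / v) (𝓝[>] 0) atTop := by
              simp only [div_eq_mul_inv (d / 2)]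
              exact Tendsto.const_mul_atTop (by positivity) tendsto_inv_nhdsGT_zero
            have h1 : Tendsto Real.arctan atTop (𝓝 (π / 2)) :=
              tendsto_nhds_of_tendsto_nhdsWithin Real.tendsto_arctan_atTop
            have h2 := (((h1.comp h0).const_mul (2 / π)).const_sub 1).const_mul D
            have h3 : D * (1 - 2 / π * (π / 2)) = 0 := by
              have := Real.pi_ne_zero
              field_simp; ring
            rw [h3] at h2
            exact h2
          have himt : Tendsto (fun z : ℂ => z.im) (𝓝[U] ζ) (𝓝[>] 0) := by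
            rw [tendsto_nhdsWithin_iff]
            refine ⟨?_, ?_⟩
            · have := Complex.continuous_im.tendsto ζ
              rw [him0] at this
              exact this.mono_left nhdsWithin_le_nhds
            · filter_upwards [self_mem_nhdsWithin] with z hz
              exact hz.2
          have h1 := (hlim.comp himt).eventually (gt_mem_nhds (show 0 < ε / 3 by positivity))
          have h2 : ∀ᶠ z in 𝓝[U] ζ, |z.re - x| < d / 2 := by
            apply mem_nhdsWithin_of_mem_nhds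
            have hc : Continuous fun z : ℂ => |z.re - x| := by fun_prop
            have := hc.tendsto ζ
            simp only [← hx, sub_self, abs_zero] at this
            exact this.eventually (gt_mem_nhds (show (0 : ℝ) < d / 2 by positivity))
          filter_upwards [hLev, hgev, h1, h2, self_mem_nhdsWithin] with z h3 h4 h5 h6 h7
          rw [hFre z h7.2]
          have h8 := hDg z h4
          have h9 := hVC z (hUW h7)
          have h7' : 0 < z.im := h7.2
          have h10 : ∫ t in K, pk z.re z.im t ≤ 1 - 2 / π * Real.arctan (d / 2 / z.im) := by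
            refine setIntegral_pk_le_of_disjoint h7' (by positivity) _ ?_
            intro t ht
            rw [div_mul_cancel₀ _ h7'.ne']
            have h11 := hdK t ht
            have h12 : |t - x| ≤ |z.re - x| + |z.re - t| := by
              have : t - x = (z.re - x) - (z.re - t) := by ring
              rw [this]
              exact abs_sub _ _
            linarith
          simp only [Function.comp] at h5
          have h13 : D * ∫ t in K, pk z.re z.im t ≤
              D * (1 - 2 / π * Real.arctan (d / 2 / z.im)) := mul_le_mul_of_nonneg_left h10 hD0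
          have h14 : D * (1 - ∫ t in K, pk z.re z.im t) = D - D * ∫ t in K, pk z.re z.im t := by
            ring
          rw [h14]
          linarith)
  -- evaluation
  have hmem : (x₀ : ℂ) + δ * I ∈ U := by
    refine ⟨?_, ?_⟩
    · rw [mem_ball, dist_eq_norm]
      simpa [abs_of_pos hδ] using hδr
    · simpa using hδ
  have h1 := hmain _ hmem
  have him : ((x₀ : ℂ) + δ * I).im = δ := by simp
  have hre : ((x₀ : ℂ) + δ * I).re = x₀ := by simp
  rw [hFre _ (by rw [him]; exact hδ), hgre, him, hre] at h1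
  have h2 : D * (2 * δ / r + ((x₀ - x₀) ^ 2 - δ ^ 2) / r ^ 2) ≤ D * (2 * δ / r) := by
    refine mul_le_mul_of_nonneg_left ?_ hD0
    have : ((x₀ - x₀) ^ 2 - δ ^ 2) / r ^ 2 = - (δ ^ 2 / r ^ 2) := by ring
    rw [this]
    have : 0 ≤ δ ^ 2 / r ^ 2 := by positivity
    linarith
  linarith


end Crest.Agent.R102.E56
end

-- ▼ part R102/Pot_712
section

/-!
# Row 102, T1-E (516's good column), joint POT' (helper712)

* `half`: a superharmonic function `≥ m₀` in a disc and `≥ a` almost everywhere on the real diameter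
  is `≥ m₀ + (a - m₀)/8` on the circle of one third of the radius;
* `mm Om r` = lower bound of the heights over `‖w‖ ≤ r`; `mm_circles` (three circles), `mm_concave`;
* `mm_gap`: the two together.
-/

set_option autoImplicit false

open Set Filter Topology Metric Complex MeasureTheory
open scoped Real ComplexConjugate

noncomputable section

namespace Crest.Agent.R102.T1EJ712

open Crest.Agent.R102.SH712 (NT sh1_re)
open Crest.Agent.R102.HtLV712 (no_max)
open Crest.Agent.R102.LP472 (pk one_sub_pk_le)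

/-! ## general lemmas on NT functions -/

theorem NT_add_re {V : ℂ → ℝ} {W : Set ℂ} (h : NT V W) {G : ℂ → ℂ}
    (hG : ∀ w ∈ W, AnalyticAt ℂ G w) : NT (fun z => V z - (G z).re) W := by
  intro w2 hw2 H hH δ hδ h1
  refine h w2 hw2 (fun w => H w + I * G w) (hH.add (analyticAt_const.mul (hG w2 hw2))) δ hδ ⟨?_, ?_⟩
  · have := h1.1
    simp only [Complex.add_im, Complex.I_mul_im] at this ⊢; linarith
  · filter_upwards [h1.2] with w hw
    simp only [Complex.add_im, Complex.I_mul_im] at hw ⊢; linarith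

theorem NT_add_log {V : ℂ → ℝ} {W : Set ℂ} (h : NT V W) (hW : ∀ w ∈ W, w ≠ 0) (β : ℝ) :
    NT (fun z => V z + β * Real.log ‖z‖) W := by
  intro w2 hw2 H hH δ hδ h1
  have hne := hW w2 hw2
  set G : ℂ → ℂ := fun w => Complex.log (w / w2) + Real.log ‖w2‖ with hG
  have hGa : AnalyticAt ℂ G w2 := by
    refine AnalyticAt.add (AnalyticAt.clog (by fun_prop) ?_) analyticAt_const
    rw [div_self hne]; exact Complex.one_mem_slitPlane
  have hGr : ∀ w : ℂ, w ≠ 0 → (G w).re = Real.log ‖w‖ := by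
    intro w hw
    have h2 : ‖w2‖ ≠ 0 := norm_ne_zero_iff.2 hne
    have h3 : ‖w‖ ≠ 0 := norm_ne_zero_iff.2 hw
    simp only [hG, Complex.add_re, Complex.log_re, Complex.ofReal_re, norm_div]
    rw [Real.log_div h3 h2]
    ring
  refine h w2 hw2 (fun w => H w - I * (β * G w)) (hH.sub (analyticAt_const.mul
    (analyticAt_const.mul hGa))) δ hδ ⟨?_, ?_⟩
  · have h3 := h1.1
    simp only [Complex.sub_im, Complex.I_mul_im, Complex.re_ofReal_mul] at h3 ⊢
    rw [hGr w2 hne]; linarith
  · filter_upwards [h1.2, (isOpen_ne.mem_nhds hne : {w : ℂ | w ≠ 0} ∈ 𝓝 w2)] with w hw hw0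
    simp only [Complex.sub_im, Complex.I_mul_im, Complex.re_ofReal_mul] at hw ⊢
    rw [hGr w hw0]; linarith

/-- the minimum principle with a continuous function `h`, `V - h` an NT function -/
theorem minp' {Ω W : Set ℂ} {B : ℝ} (hB : ∀ z ∈ Ω, ‖z‖ ≤ B) (hΩ : IsOpen Ω) (hcl : closure Ω ⊆ W)
    {V h : ℂ → ℝ} (hl : LowerSemicontinuousOn V W) (hc : ContinuousOn h W)
    (hNT : NT (fun z => V z - h z) Ω) (hbd : ∀ ζ ∈ closure Ω, ζ ∉ Ω → h ζ ≤ V ζ) :
    ∀ z ∈ Ω, h z ≤ V z := by
  have hlsc : LowerSemicontinuousOn (fun z => V z - h z) W := by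
    have h1 : LowerSemicontinuousOn (fun z => -h z) W := hc.neg.lowerSemicontinuousOn
    have := hl.add h1
    simpa [sub_eq_add_neg] using this
  have hΩW : Ω ⊆ W := subset_closure.trans hcl
  have key := Crest.Agent.R102.Slope845.minp hB hΩ (hlsc.mono hΩW) hNT (by
    intro ζ hζ hζΩ ε hε
    have h1 := hlsc ζ (hcl hζ) (-ε) (by have := hbd ζ hζ hζΩ; simp only; linarith)
    exact h1.filter_mono (nhdsWithin_mono _ hΩW))
  intro z hz
  have := key z hz
  linarith

/-- a constant lower bound on a circle, except at the two real points -/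
theorem two_pts {V : ℂ → ℝ} {W : Set ℂ} (hlsc : LowerSemicontinuousOn V W) (hNT : NT V W)
    {x0 : ℂ} (hx0 : x0.im = 0) {ρ m M : ℝ} (hρ : 0 < ρ) (hsub : closedBall x0 ρ ⊆ W)
    (hM : ∀ w ∈ W, -M ≤ V w) (hV : ∀ w ∈ sphere x0 ρ, w.im ≠ 0 → m ≤ V w) : m ≤ V x0 := by
  refine le_of_forall_pos_le_add (fun κ hκ => ?_)
  -- the harmonic minorant
  set s : ℝ := 1 - min (1 / 2) (2 * Real.exp (-((M + |m| + 1) / κ))) with hs
  have hτ : 0 < min (1 / 2) (2 * Real.exp (-((M + |m| + 1) / κ))) :=
    lt_min (by norm_num) (by positivity)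
  have hs1 : s < 1 := by linarith
  have hs0 : 1 / 2 ≤ s := by
    have := min_le_left (1 / 2) (2 * Real.exp (-((M + |m| + 1) / κ)))
    linarith
  set Fn : ℂ → ℂ := fun w => m + κ * (Complex.log (1 - s * ((w - x0) / ρ) ^ 2) - Real.log 2) with hFn
  have hρC : (ρ : ℂ) ≠ 0 := by exact_mod_cast hρ.ne'
  have hz : ∀ w ∈ closedBall x0 ρ, ‖(w - x0) / ρ‖ ≤ 1 := by
    intro w hw
    rw [mem_closedBall, dist_eq_norm] at hw
    rw [norm_div, Complex.norm_real, Real.norm_eq_abs, abs_of_pos hρ, div_le_one hρ]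
    exact hw
  have hns : ∀ w ∈ closedBall x0 ρ, ‖(s : ℂ) * ((w - x0) / ρ) ^ 2‖ ≤ s := by
    intro w hw
    rw [norm_mul, norm_pow, Complex.norm_real, Real.norm_eq_abs, abs_of_pos (by linarith)]
    have h2 := hz w hw
    have h3 : ‖(w - x0) / ρ‖ ^ 2 ≤ 1 := pow_le_one₀ (norm_nonneg _) h2
    nlinarith [norm_nonneg ((w - x0) / ρ)]
  have hslit : ∀ w ∈ closedBall x0 ρ, 1 - s * ((w - x0) / ρ) ^ 2 ∈ slitPlane := by
    intro w hw
    rw [Complex.mem_slitPlane_iff]
    left
    have h4 := (Complex.abs_re_le_norm ((s : ℂ) * ((w - x0) / ρ) ^ 2)).trans (hns w hw)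
    have h5 := (abs_le.1 h4).2
    rw [Complex.sub_re, Complex.one_re]
    linarith
  have hdiff : DifferentiableOn ℂ Fn (closedBall x0 ρ) := by
    intro w hw
    have h2 : DifferentiableAt ℂ (fun w : ℂ => Complex.log (1 - s * ((w - x0) / ρ) ^ 2)) w := by
      refine DifferentiableAt.clog ?_ (hslit w hw)
      fun_prop
    exact (((h2.sub_const _).const_mul _).const_add _).differentiableWithinAt
  have hcl : DiffContOnCl ℂ Fn (ball x0 ρ) := by
    apply DifferentiableOn.diffContOnCl
    rw [closure_ball x0 hρ.ne']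
    exact hdiff
  have hre : ∀ w, (Fn w).re = m + κ * (Real.log ‖1 - s * ((w - x0) / ρ) ^ 2‖ - Real.log 2) := by
    intro w
    simp only [hFn, Complex.add_re, Complex.ofReal_re, Complex.re_ofReal_mul, Complex.sub_re,
      Complex.log_re]
  have hkey := sh1_re hlsc hNT hρ hsub hcl (by
    intro w hw
    have hwc : w ∈ closedBall x0 ρ := sphere_subset_closedBall hw
    have hpos : 0 < ‖1 - (s : ℂ) * ((w - x0) / ρ) ^ 2‖ := by
      rw [norm_pos_iff]
      exact slitPlane_ne_zero (hslit w hwc)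
    have hle2 : ‖1 - (s : ℂ) * ((w - x0) / ρ) ^ 2‖ ≤ 2 := by
      refine (norm_sub_le _ _).trans ?_
      rw [norm_one]
      linarith [hns w hwc]
    rw [hre w]
    by_cases him : w.im = 0
    · -- the two real points: `((w - x0)/ρ)² = 1`
      have h1 : ((w - x0) / ρ) ^ 2 = 1 := by
        have h2 : w - x0 = (((w - x0).re : ℝ) : ℂ) := by
          apply Complex.ext
          · simp
          · simp [him, hx0]
        have h3 : |(w - x0).re| = ρ := by
          rw [mem_sphere, dist_eq_norm, h2, Complex.norm_real, Real.norm_eq_abs] at hw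
          simpa using hw
        rw [h2]
        have h4 : (w - x0).re ^ 2 = ρ ^ 2 := by rw [← sq_abs, h3]
        rw [div_pow]
        have h5 : (((w - x0).re : ℝ) : ℂ) ^ 2 = (ρ : ℂ) ^ 2 := by exact_mod_cast h4
        rw [h5]
        field_simp
      rw [h1]
      have h6 : ‖1 - (s : ℂ) * 1‖ = 1 - s := by
        have : (1 : ℂ) - s * 1 = ((1 - s : ℝ) : ℂ) := by push_cast; ring
        rw [this, Complex.norm_real, Real.norm_eq_abs, abs_of_pos (by linarith)]
      rw [h6]
      have h7 : 1 - s ≤ 2 * Real.exp (-((M + |m| + 1) / κ)) := by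
        have := min_le_right (1 / 2) (2 * Real.exp (-((M + |m| + 1) / κ)))
        linarith
      have h8 : Real.log (1 - s) ≤ Real.log 2 + -((M + |m| + 1) / κ) := by
        have h9 := Real.log_le_log (by linarith : 0 < 1 - s) h7
        rwa [Real.log_mul (by norm_num) (by positivity), Real.log_exp] at h9
      have h9 : κ * (Real.log (1 - s) - Real.log 2) ≤ κ * (-((M + |m| + 1) / κ)) :=
        mul_le_mul_of_nonneg_left (by linarith) hκ.le
      have h10 : κ * (-((M + |m| + 1) / κ)) = -(M + |m| + 1) := by field_simp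
      have h11 := hM w (hsub hwc)
      have h12 := le_abs_self m
      linarith
    · have h1 := hV w hw him
      have h2 := Real.log_le_log hpos hle2
      have h3 : κ * (Real.log ‖1 - (s : ℂ) * ((w - x0) / ρ) ^ 2‖ - Real.log 2) ≤ 0 :=
        mul_nonpos_of_nonneg_of_nonpos hκ.le (by linarith)
      linarith) x0 (mem_closedBall_self hρ.le)
  rw [hre x0] at hkey
  simp only [sub_self, zero_div, ne_eq, OfNat.ofNat_ne_zero, not_false_eq_true, zero_pow, mul_zero,
    sub_zero, norm_one, Real.log_one, zero_sub] at hkey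
  have hlog2 : Real.log 2 ≤ 1 := by
    have := Real.log_le_sub_one_of_pos (show (0:ℝ) < 2 by norm_num)
    linarith
  nlinarith

/-! ## the half disc -/

theorem one_sub_arctan {b : ℝ} (hb : 8 ≤ b) : 1 - 2 / π * Real.arctan b ≤ 1 / 12 := by
  have hb0 : 0 < b := by linarith
  have h1 := Real.arctan_inv_of_pos hb0
  have h2 : Real.arctan b⁻¹ ≤ b⁻¹ := by
    have h3 : 0 ≤ b⁻¹ := by positivity
    have h4 : 0 ≤ Real.arctan b⁻¹ := Real.arctan_nonneg.2 h3
    by_contra hc
    push Not at hc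
    have h5 : Real.arctan b⁻¹ < π / 2 := Real.arctan_lt_pi_div_two _
    have h6 := Real.le_tan h4 h5
    rw [Real.tan_arctan] at h6
    linarith
  have h3 : b⁻¹ ≤ 1 / 8 := by
    rw [inv_eq_one_div]
    exact one_div_le_one_div_of_le (by norm_num) hb
  have hpi := Real.pi_gt_three
  have h4 : 2 / π * Real.arctan b = 1 - 2 / π * Real.arctan b⁻¹ := by
    rw [h1]
    have := Real.pi_ne_zero
    field_simp
    ring
  rw [h4]
  have h5 : 2 / π * Real.arctan b⁻¹ ≤ 2 / 3 * (1 / 8) := by
    refine mul_le_mul ?_ (h2.trans h3) (Real.arctan_nonneg.2 (by positivity)) (by norm_num)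
    exact div_le_div_of_nonneg_left (by norm_num) (by norm_num) hpi.le
  linarith

/-- points near the diameter -/
theorem near_diam {V : ℂ → ℝ} {ρ c M : ℝ} (hρ : 0 < ρ) (hc : 0 ≤ c)
    (hlsc : LowerSemicontinuousOn V (ball 0 ρ)) (hNT : NT V (ball 0 ρ))
    (h0 : ∀ w ∈ ball (0 : ℂ) ρ, 0 ≤ V w) (hM : ∀ w ∈ ball (0 : ℂ) ρ, V w ≤ M) {S : Set ℝ}
    (hS : volume S = 0) (hV : ∀ u : ℝ, |u| < ρ → u ∉ S → c ≤ V u) {x y : ℝ} (hx : |x| ≤ 3 * ρ / 4)
    (hy : 0 < y) (hy' : y ≤ ρ / 64) : c / 2 ≤ V (x + y * I) := by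
  have hη : 0 < π * y / 20 := by positivity
  obtain ⟨K, hKc, hKS, hKm⟩ := E56.exists_compact x (r := ρ / 8) hη S (by
    rw [hS]; simpa using hη)
  have hsub : closedBall (x : ℂ) (ρ / 8) ⊆ ball 0 ρ := by
    intro z hz
    rw [mem_closedBall, dist_eq_norm] at hz
    rw [mem_ball_zero_iff]
    have h1 : ‖z‖ ≤ ‖z - x‖ + ‖(x : ℂ)‖ := by
      have := norm_add_le (z - x) (x : ℂ)
      simpa using this
    rw [Complex.norm_real, Real.norm_eq_abs] at h1
    linarith
  have h1 := E56.inside (W := ball 0 ρ) isOpen_ball hlsc hNT (M := M)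
    (fun w hw => by rw [abs_of_nonneg (h0 w hw)]; exact hM w hw) (x₀ := x) (r := ρ / 8)
    (by positivity) hsub (L := fun _ => 0) (differentiableOn_const 0) (B := 0) (C := 0) (c₁ := c)
    le_rfl le_rfl hc (fun w _ => by simp) (fun w hw => by simpa using h0 w hw) hKc
    (fun u hu hux => by
      have h2 := hKS hu
      have h3 : |u| < ρ := by
        have h4 : |u| ≤ |u - x| + |x| := by
          have := abs_add_le (u - x) x
          simpa using this
        linarith
      simpa using hV u h3 h2.2) hy (by linarith)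
  simp only [Complex.zero_re, zero_add] at h1
  have h2 := one_sub_pk_le hy (b := ρ / 8 / y) (by positivity) x hKc.measurableSet
  have h3 : ρ / 8 / y * y = ρ / 8 := by field_simp
  rw [h3] at h2
  have h4 : (π * y)⁻¹ * volume.real (Icc (x - ρ / 8) (x + ρ / 8) \ K) ≤ 1 / 10 := by
    refine (mul_le_mul_of_nonneg_left hKm (by positivity)).trans (le_of_eq ?_)
    have := Real.pi_ne_zero
    field_simp
    norm_num
  have h5 : 1 - 2 / π * Real.arctan (ρ / 8 / y) ≤ 1 / 12 := by
    refine one_sub_arctan ?_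
    rw [le_div_iff₀ hy]
    linarith
  have h6 : 2 * y / (ρ / 8) ≤ 1 / 4 := by
    rw [div_le_iff₀ (by positivity)]
    linarith
  have h7 : c * (2 * y / (ρ / 8)) ≤ c * (1 / 4) := mul_le_mul_of_nonneg_left h6 hc
  have h8 : c * (1 - ∫ t in K, pk x y t) ≤ c * (1 / 10 + 1 / 12) :=
    mul_le_mul_of_nonneg_left (by linarith) hc
  nlinarith

/-- the upper half of the disc -/
theorem half_up {V : ℂ → ℝ} {ρ c M : ℝ} (hρ : 0 < ρ) (hc : 0 ≤ c)
    (hlsc : LowerSemicontinuousOn V (ball 0 ρ)) (hNT : NT V (ball 0 ρ))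
    (h0 : ∀ w ∈ ball (0 : ℂ) ρ, 0 ≤ V w) (hM : ∀ w ∈ ball (0 : ℂ) ρ, V w ≤ M) {S : Set ℝ}
    (hS : volume S = 0) (hV : ∀ u : ℝ, |u| < ρ → u ∉ S → c ≤ V u) {w : ℂ} (hw : ‖w‖ = ρ / 3)
    (him : 0 < w.im) : c / 8 ≤ V w := by
  set R : ℝ := 3 * ρ / 4 with hR
  have hR0 : 0 < R := by positivity
  have hwre : |w.re| ≤ ρ / 3 := hw ▸ Complex.abs_re_le_norm w
  by_cases hy : w.im ≤ ρ / 64
  · have h1 := near_diam hρ hc hlsc hNT h0 hM hS hV (x := w.re) (y := w.im) (by linarith) him hy
    rw [Complex.re_add_im] at h1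
    linarith
  push Not at hy
  set Ω : Set ℂ := ball 0 R ∩ {z | ρ / 64 < z.im} with hΩ
  have hΩo : IsOpen Ω := isOpen_ball.inter (isOpen_lt continuous_const Complex.continuous_im)
  have hcl : closure Ω ⊆ closedBall 0 R ∩ {z | ρ / 64 ≤ z.im} := by
    refine closure_minimal ?_ (isClosed_closedBall.inter
      (isClosed_le continuous_const Complex.continuous_im))
    rintro z ⟨h1, h2⟩
    exact ⟨ball_subset_closedBall h1, (show ρ / 64 < z.im from h2).le⟩
  have hclW : closure Ω ⊆ ball 0 ρ := by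
    intro z hz
    exact closedBall_subset_ball (by rw [hR]; linarith) (hcl hz).1
  set G : ℂ → ℂ := fun z => (c / 2 : ℝ) * (1 - (z / R) ^ 2 + 2 * I * (z / R)) with hG
  have hGd : Differentiable ℂ G := by
    simp only [hG]
    fun_prop
  have hGre : ∀ z : ℂ, (G z).re = c / 2 * (1 - (z.re ^ 2 - z.im ^ 2) / R ^ 2 - 2 * z.im / R) := by
    intro z
    have e1 : z / R = ((z.re / R : ℝ) : ℂ) + ((z.im / R : ℝ) : ℂ) * I := by
      have e2 : z / R = ((z.re : ℂ) + z.im * I) / R := by rw [Complex.re_add_im]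
      rw [e2]
      push_cast
      ring
    simp only [hG, Complex.re_ofReal_mul]
    rw [e1]
    congr 1
    simp [sq]
    field_simp
    ring
  have key := minp' (Ω := Ω) (W := ball 0 ρ) (B := R)
    (fun z hz => by have := hz.1; rw [mem_ball_zero_iff] at this; exact this.le) hΩo hclW
    (V := V) (h := fun z => (G z).re) hlsc
    (Complex.continuous_re.comp hGd.continuous).continuousOn
    (NT_add_re (fun z hz => hNT z (hclW (subset_closure hz))) (fun z _ => hGd.analyticAt z)) (by
      intro ζ hζ hζΩ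
      have hζcl := hcl hζ
      have hn : ‖ζ‖ ≤ R := by simpa using hζcl.1
      have hi : ρ / 64 ≤ ζ.im := hζcl.2
      have hsq : ζ.re ^ 2 + ζ.im ^ 2 = ‖ζ‖ ^ 2 := by
        rw [Complex.sq_norm, Complex.normSq_apply]; ring
      have hiR : ζ.im ≤ R := (Complex.im_le_norm ζ).trans hn
      rw [hGre ζ]
      by_cases h1 : ‖ζ‖ < R
      · -- bottom
        have h2 : ζ.im = ρ / 64 := by
          refine le_antisymm ?_ hi
          by_contra hc'
          push Not at hc'
          exact hζΩ ⟨by simpa using h1, hc'⟩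
        have h3 : |ζ.re| ≤ 3 * ρ / 4 := ((Complex.abs_re_le_norm ζ).trans hn).trans_eq hR
        have h4 := near_diam hρ hc hlsc hNT h0 hM hS hV (x := ζ.re) (y := ζ.im) h3
          (by linarith) h2.le
        rw [Complex.re_add_im] at h4
        refine le_trans ?_ h4
        have h5 : 1 - (ζ.re ^ 2 - ζ.im ^ 2) / R ^ 2 - 2 * ζ.im / R ≤ 1 := by
          have h6 : -(ζ.re ^ 2 - ζ.im ^ 2) / R ^ 2 ≤ ζ.im / R := by
            rw [div_le_div_iff₀ (by positivity) hR0]
            nlinarith [sq_nonneg ζ.re, mul_nonneg (by linarith : 0 ≤ ζ.im) (by linarith : 0 ≤ R - ζ.im)]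
          have h7 : 0 ≤ ζ.im / R := by
            have : 0 ≤ ζ.im := by linarith
            positivity
          have h8 : -(ζ.re ^ 2 - ζ.im ^ 2) / R ^ 2 = -((ζ.re ^ 2 - ζ.im ^ 2) / R ^ 2) := by ring
          have h9 : 2 * ζ.im / R = 2 * (ζ.im / R) := by ring
          rw [h8] at h6
          rw [h9]
          linarith
        nlinarith
      · -- the arc
        have h2 : ‖ζ‖ = R := le_antisymm hn (not_lt.1 h1)
        refine le_trans ?_ (h0 ζ (hclW hζ))
        refine mul_nonpos_of_nonneg_of_nonpos (by positivity) ?_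
        rw [h2] at hsq
        have h3 : ζ.re ^ 2 - ζ.im ^ 2 = R ^ 2 - 2 * ζ.im ^ 2 := by linarith
        rw [h3]
        have h4 : 1 - (R ^ 2 - 2 * ζ.im ^ 2) / R ^ 2 - 2 * ζ.im / R =
            -(2 * (ζ.im / R) * (1 - ζ.im / R)) := by
          field_simp
          ring
        rw [h4]
        have h5 : 0 ≤ ζ.im / R := by
          have : 0 ≤ ζ.im := by linarith
          positivity
        have h6 : ζ.im / R ≤ 1 := (div_le_one hR0).2 hiR
        have : 0 ≤ 2 * (ζ.im / R) * (1 - ζ.im / R) := mul_nonneg (by positivity) (by linarith)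
        linarith)
  have hwΩ : w ∈ Ω := ⟨by rw [mem_ball_zero_iff, hw, hR]; linarith, hy⟩
  refine le_trans ?_ (key w hwΩ)
  rw [hGre w]
  have hsq : w.re ^ 2 + w.im ^ 2 = (ρ / 3) ^ 2 := by
    rw [← hw, Complex.sq_norm, Complex.normSq_apply]; ring
  have h1 : w.re ^ 2 - w.im ^ 2 = (ρ / 3) ^ 2 - 2 * w.im ^ 2 := by linarith
  rw [h1]
  set q : ℝ := w.im / R with hq
  have hq0 : 0 ≤ q := by positivity
  have hq1 : q ≤ 4 / 9 := by
    rw [hq, div_le_iff₀ hR0, hR]
    have := (Complex.im_le_norm w).trans_eq hw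
    linarith
  have h2 : 1 - ((ρ / 3) ^ 2 - 2 * w.im ^ 2) / R ^ 2 - 2 * w.im / R =
      1 - (4 / 9) ^ 2 + 2 * q ^ 2 - 2 * q := by
    rw [hq, hR]
    field_simp
    ring
  rw [h2]
  have h3 : 1 / 4 ≤ 1 - (4 / 9) ^ 2 + 2 * q ^ 2 - 2 * q := by
    nlinarith [mul_nonneg (by linarith : 0 ≤ 4 / 9 - q) (by linarith : 0 ≤ 1 - 4 / 9 - q)]
  have h4 : c / 2 * (1 / 4) ≤ c / 2 * (1 - (4 / 9) ^ 2 + 2 * q ^ 2 - 2 * q) :=
    mul_le_mul_of_nonneg_left h3 (by linarith)
  linarith

/-- **half disc**: normalised form -/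
theorem half0 {V : ℂ → ℝ} {ρ c M : ℝ} (hρ : 0 < ρ) (hc : 0 ≤ c)
    (hlsc : LowerSemicontinuousOn V (ball 0 ρ)) (hNT : NT V (ball 0 ρ))
    (h0 : ∀ w ∈ ball (0 : ℂ) ρ, 0 ≤ V w) (hM : ∀ w ∈ ball (0 : ℂ) ρ, V w ≤ M) {S : Set ℝ}
    (hS : volume S = 0) (hV : ∀ u : ℝ, |u| < ρ → u ∉ S → c ≤ V u) {w : ℂ} (hw : ‖w‖ = ρ / 3) :
    c / 8 ≤ V w := by
  -- the reflected function
  have hset : {z : ℂ | conj z ∈ ball (0 : ℂ) ρ} = ball 0 ρ := by
    ext z
    simp
  have hNT' : NT (fun z => V (conj z)) (ball 0 ρ) := by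
    have := Crest.Agent.R102.Slope845.NT_conj hNT
    rwa [hset] at this
  have hmem : ∀ z ∈ ball (0 : ℂ) ρ, conj z ∈ ball (0 : ℂ) ρ := by
    intro z hz
    simpa [mem_ball_zero_iff] using hz
  have hlsc' : LowerSemicontinuousOn (fun z => V (conj z)) (ball 0 ρ) := by
    intro z hz y hy
    have h1 := hlsc (conj z) (hmem z hz) y hy
    have h2 : Tendsto (fun z : ℂ => conj z) (𝓝[ball 0 ρ] z) (𝓝[ball 0 ρ] (conj z)) :=
      tendsto_nhdsWithin_of_tendsto_nhds_of_eventually_within _
        ((Complex.continuous_conj.tendsto z).mono_left nhdsWithin_le_nhds)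
        (eventually_nhdsWithin_of_forall hmem)
    exact h2.eventually h1
  have hdown : ∀ z : ℂ, ‖z‖ = ρ / 3 → z.im < 0 → c / 8 ≤ V z := by
    intro z hz hzi
    have h1 := half_up hρ hc hlsc' hNT' (fun w hw => h0 _ (hmem w hw))
      (fun w hw => hM _ (hmem w hw)) hS (fun u hu huS => by simpa using hV u hu huS)
      (w := conj z) (by simpa using hz) (by simpa using hzi)
    simpa using h1
  rcases lt_trichotomy w.im 0 with him | him | him
  · exact hdown w hw him
  · -- a real point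
    have h1 : closedBall w (ρ / 128) ⊆ ball 0 ρ := by
      intro z hz
      rw [mem_closedBall, dist_eq_norm] at hz
      rw [mem_ball_zero_iff]
      have h1 : ‖z‖ ≤ ‖z - w‖ + ‖w‖ := by
        have := norm_add_le (z - w) w
        simpa using this
      linarith
    refine two_pts hlsc hNT him (ρ := ρ / 128) (by positivity) h1 (M := 0)
      (fun z hz => by simpa using h0 z hz) (fun z hz hzi => ?_)
    have hz' : ‖z - w‖ = ρ / 128 := by simpa [dist_eq_norm] using hz
    have hzre : |z.re| ≤ 3 * ρ / 4 := by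
      have h2 : |z.re| ≤ ‖z‖ := Complex.abs_re_le_norm z
      have h3 : ‖z‖ ≤ ‖z - w‖ + ‖w‖ := by
        have := norm_add_le (z - w) w
        simpa using this
      linarith
    have hzim : |z.im| ≤ ρ / 64 := by
      have h2 := Complex.abs_im_le_norm (z - w)
      rw [Complex.sub_im, him, sub_zero] at h2
      linarith
    rcases lt_or_gt_of_ne hzi with h2 | h2
    · have h3 := near_diam hρ hc hlsc' hNT' (fun w hw => h0 _ (hmem w hw))
        (fun w hw => hM _ (hmem w hw)) hS (fun u hu huS => by simpa using hV u hu huS)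
        (x := z.re) (y := -z.im) hzre (by linarith)
        (by rw [abs_of_neg h2] at hzim; exact hzim)
      have h4 : conj ((z.re : ℂ) + ((-z.im : ℝ) : ℂ) * I) = z := by
        apply Complex.ext <;> simp
      simp only [h4] at h3
      linarith
    · have h3 := near_diam hρ hc hlsc hNT h0 hM hS hV (x := z.re) (y := z.im) hzre h2
        (by rw [abs_of_pos h2] at hzim; exact hzim)
      rw [Complex.re_add_im] at h3
      linarith
  · exact half_up hρ hc hlsc hNT h0 hM hS hV hw him

/-- **half disc** (516 (7)) -/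
theorem half {V : ℂ → ℝ} {ρ m₀ a M : ℝ} (hρ : 0 < ρ) (ha : m₀ ≤ a)
    (hlsc : LowerSemicontinuousOn V (ball 0 ρ)) (hNT : NT V (ball 0 ρ))
    (h0 : ∀ w ∈ ball (0 : ℂ) ρ, m₀ ≤ V w) (hM : ∀ w ∈ ball (0 : ℂ) ρ, V w ≤ M) {S : Set ℝ}
    (hS : volume S = 0) (hV : ∀ u : ℝ, |u| < ρ → u ∉ S → a ≤ V u) {w : ℂ} (hw : ‖w‖ = ρ / 3) :
    m₀ + (a - m₀) / 8 ≤ V w := by
  have h1 : LowerSemicontinuousOn (fun z => V z - m₀) (ball 0 ρ) := by
    have := hlsc.add (lowerSemicontinuousOn_const (s := ball (0 : ℂ) ρ) (z := -m₀))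
    simpa [sub_eq_add_neg] using this
  have h2 : NT (fun z => V z - m₀) (ball 0 ρ) := by
    have := NT_add_re hNT (G := fun _ => (m₀ : ℂ)) (fun w _ => analyticAt_const)
    simpa using this
  have h3 := half0 hρ (c := a - m₀) (by linarith) h1 h2
    (fun w hw => by have := h0 w hw; linarith) (M := M - m₀)
    (fun w hw => by have := hM w hw; linarith) hS
    (fun u hu huS => by have := hV u hu huS; linarith) hw
  linarith

end Crest.Agent.R102.T1EJ712
end
end

-- ▼ part R102/MM_712

/-!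
# Row 102, T1-E (516's good column), joint POT' (helper712): the function `m(r)`

`mm Om r` = lower bound of the heights over `‖w‖ ≤ r`.
* `mm_circles`: three circles; `mm_concave`: `M τ = mm Om (exp (-τ))` is concave; `mm_mono`;
* `mm_tendsto`: `M → ∞`;
* `mm_gap`: if `V ≥ a` at almost all real `u`, `|u| < ρ`, then `mm (ρ/3) ≥ m₀ + (a - m₀)/8`.
-/

set_option autoImplicit false

open Set Filter Topology Metric Complex MeasureTheory
open scoped Real ComplexConjugate

noncomputable section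

namespace Crest.Agent.R102.T1EJ712

open Crest.Agent.R102.SH712 (NT sh1_re)

theorem LS.of_LV {b : ℝ} {W : Set ℂ} {Om : Set (ℂ × ℂ)} (h : K669.LV b W Om) : LS b W Om :=
  ⟨h.isOpen, h.WO, h.base, fun t0 w0 Q sg H δ hw0 h1 h2 h3 h4 h5 h6 h7 =>
    h.levi t0 w0 hw0 Q sg H h1 h2 h3 h4 h5 δ h6 h7⟩

/-- admissible levels over `‖w‖ ≤ r` -/
def admM (Om : Set (ℂ × ℂ)) (r : ℝ) : Set ℝ :=
  {c | ∀ w : ℂ, ‖w‖ ≤ r → ∀ t : ℂ, t.im < c → (t, w) ∈ Om}

/-- lower bound of the heights over `‖w‖ ≤ r` -/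
def mm (Om : Set (ℂ × ℂ)) (r : ℝ) : ℝ := sSup (admM Om r)

/-- there is a singular point over `‖w‖ ≤ r` -/
def Fin' (Om : Set (ℂ × ℂ)) (r : ℝ) : Prop := ∃ w t : ℂ, ‖w‖ ≤ r ∧ (t, w) ∉ Om

variable {Om : Set (ℂ × ℂ)} {b r r0 : ℝ}

theorem Fin'.mono {r' : ℝ} (h : Fin' Om r) (hr : r ≤ r') : Fin' Om r' := by
  obtain ⟨w, t, h1, h2⟩ := h
  exact ⟨w, t, h1.trans hr, h2⟩

theorem admM_bdd (h : Fin' Om r) : BddAbove (admM Om r) := by
  obtain ⟨w, t, h1, h2⟩ := h
  refine ⟨t.im, fun c hc => ?_⟩
  by_contra h3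
  push Not at h3
  exact h2 (hc w h1 t h3)

theorem admM_base (h : LS b (ball 0 r0) Om) (hr : r < r0) : b ∈ admM Om r := by
  intro w hw t ht
  exact h.base w (by rw [mem_ball_zero_iff]; linarith) t ht


theorem mem_of_lt_mm (h : LS b (ball 0 r0) Om) (hr : r < r0) {w t : ℂ}
    (hw : ‖w‖ ≤ r) (ht : t.im < mm Om r) : (t, w) ∈ Om := by
  obtain ⟨c, hc, hlt⟩ := exists_lt_of_lt_csSup ⟨b, admM_base h hr⟩ ht
  exact hc w hw t hlt

theorem le_mm (hF : Fin' Om r) {c : ℝ} (hc : ∀ w : ℂ, ‖w‖ ≤ r → ∀ t : ℂ, t.im < c → (t, w) ∈ Om) :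
    c ≤ mm Om r := le_csSup (admM_bdd hF) hc

theorem mm_anti (h : LS b (ball 0 r0) Om) {r' : ℝ} (hr : r ≤ r') (hr' : r' < r0)
    (hF : Fin' Om r) : mm Om r' ≤ mm Om r :=
  le_mm hF fun _ hw _ ht => mem_of_lt_mm h hr' (hw.trans hr) ht


/-- **three circles** -/
theorem mm_circles (h : LS b (ball 0 r0) Om) {p : ℝ} (hp : 0 < p) (hper : Per Om p)
    {r1 r2 : ℝ} (hr1 : 0 < r1) (h1r : r1 ≤ r) (h12 : r1 < r2) (hr2 : r ≤ r2) (h20 : r2 < r0)
    (hF : Fin' Om r1) :
    mm Om r1 + (mm Om r2 - mm Om r1) * (Real.log (r / r1) / Real.log (r2 / r1)) ≤ mm Om r := by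
  set m1 := mm Om r1 with hm1
  set m2 := mm Om r2 with hm2
  have hm : m2 ≤ m1 := mm_anti h h12.le h20 hF
  have hr0 : 0 < r := hr1.trans_le h1r
  have hlog : 0 < Real.log (r2 / r1) := Real.log_pos ((one_lt_div hr1).2 h12)
  set β : ℝ := (m1 - m2) / Real.log (r2 / r1) with hβ
  have hβ0 : 0 ≤ β := div_nonneg (by linarith) hlog.le
  set ℓ : ℂ → ℝ := fun w => m1 - β * (Real.log ‖w‖ - Real.log r1) with hℓ
  have hval : ∀ x : ℝ, 0 < x → m1 - β * (Real.log x - Real.log r1) =
      m1 + (m2 - m1) * (Real.log (x / r1) / Real.log (r2 / r1)) := by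
    intro x hx
    rw [Real.log_div hx.ne' hr1.ne', hβ]
    field_simp
    ring
  set Ω : Set ℂ := {w | r1 < ‖w‖ ∧ ‖w‖ < r2} with hΩ
  have hΩo : IsOpen Ω := (isOpen_lt continuous_const continuous_norm).inter
    (isOpen_lt continuous_norm continuous_const)
  have hcl : closure Ω ⊆ {w | r1 ≤ ‖w‖ ∧ ‖w‖ ≤ r2} := by
    refine closure_minimal (fun z hz => ⟨hz.1.le, hz.2.le⟩) ?_
    exact (isClosed_le continuous_const continuous_norm).inter
      (isClosed_le continuous_norm continuous_const)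
  set W : Set ℂ := ball 0 r0 ∩ {w | w ≠ 0} with hW
  have hclW : closure Ω ⊆ W := by
    intro z hz
    have h1 := hcl hz
    refine ⟨by rw [mem_ball_zero_iff]; linarith [h1.2], ?_⟩
    rintro rfl
    have h2 : r1 ≤ ‖(0 : ℂ)‖ := h1.1
    rw [norm_zero] at h2
    linarith
  have hlscV : LowerSemicontinuousOn (Vh Om m1) W :=
    (Vh_lsc h hp hper).mono inter_subset_left
  have hℓc : ContinuousOn ℓ W := by
    intro z hz
    have hz0 : ‖z‖ ≠ 0 := norm_ne_zero_iff.2 hz.2
    have : ContinuousAt ℓ z := by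
      simp only [hℓ]
      exact continuousAt_const.sub (continuousAt_const.mul
        ((continuous_norm.continuousAt.log hz0).sub continuousAt_const))
    exact this.continuousWithinAt
  have hNT : NT (fun z => Vh Om m1 z - ℓ z) Ω := by
    have h1 : NT (fun z => Vh Om m1 z + β * Real.log ‖z‖) Ω := by
      refine NT_add_log (fun z hz => Vh_NT h hp hper z (hclW (subset_closure hz)).1) ?_ β
      exact fun z hz => (hclW (subset_closure hz)).2
    have h2 := NT_add_re h1 (G := fun _ => ((m1 + β * Real.log r1 : ℝ) : ℂ))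
      (fun w _ => analyticAt_const)
    have e : (fun z => Vh Om m1 z - ℓ z) = fun z =>
        Vh Om m1 z + β * Real.log ‖z‖ - (((m1 + β * Real.log r1 : ℝ) : ℂ)).re := by
      funext z
      simp only [hℓ, Complex.ofReal_re]
      ring
    rw [e]
    exact h2
  have hVb : ∀ w ∈ ball (0 : ℂ) r0, ∀ t : ℂ, t.im < b → (t, w) ∈ Om := h.base
  have hV1 : ∀ w : ℂ, ‖w‖ ≤ r1 → m1 ≤ Vh Om m1 w := fun w hw =>
    le_Vh le_rfl fun t ht => mem_of_lt_mm h (h12.trans h20) hw ht
  have hV2 : ∀ w : ℂ, ‖w‖ ≤ r2 → m2 ≤ Vh Om m1 w := fun w hw =>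
    le_Vh hm fun t ht => mem_of_lt_mm h h20 hw ht
  have key := minp' (Ω := Ω) (W := W) (B := r2) (fun z hz => hz.2.le) hΩo hclW hlscV hℓc hNT (by
    intro ζ hζ hζΩ
    have h1 := hcl hζ
    by_cases h3 : r1 < ‖ζ‖
    · have h4 : ‖ζ‖ = r2 := by
        refine le_antisymm h1.2 ?_
        by_contra hc
        push Not at hc
        exact hζΩ ⟨h3, hc⟩
      refine le_trans (le_of_eq ?_) (hV2 ζ h1.2)
      simp only [hℓ]
      rw [hval _ (by rw [h4]; linarith), h4, div_self hlog.ne']
      ring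
    · have h4 : ‖ζ‖ = r1 := le_antisymm (not_lt.1 h3) h1.1
      refine le_trans (le_of_eq ?_) (hV1 ζ h4.le)
      simp only [hℓ]
      rw [h4]
      ring)
  -- the bound for all `‖w‖ ≤ r`
  rw [← hval r hr0]
  refine le_mm (hF.mono h1r) fun w hw t ht => ?_
  have hwr0 : w ∈ ball (0 : ℂ) r0 := by rw [mem_ball_zero_iff]; linarith
  have hlr : Real.log r1 ≤ Real.log r := Real.log_le_log hr1 h1r
  have hle1 : m1 - β * (Real.log r - Real.log r1) ≤ m1 := by
    have := mul_nonneg hβ0 (by linarith : 0 ≤ Real.log r - Real.log r1)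
    linarith
  refine mem_of_lt_Vh (cp := m1) (h.base w hwr0) (ht.trans_le ?_)
  by_cases h3 : ‖w‖ ≤ r1
  · exact hle1.trans (hV1 w h3)
  · push Not at h3
    have hw0 : 0 < ‖w‖ := hr1.trans h3
    have hlw : Real.log ‖w‖ ≤ Real.log r := Real.log_le_log hw0 hw
    have h5 : m1 - β * (Real.log r - Real.log r1) ≤ m1 - β * (Real.log ‖w‖ - Real.log r1) := by
      have := mul_le_mul_of_nonneg_left (by linarith : Real.log ‖w‖ - Real.log r1 ≤
        Real.log r - Real.log r1) hβ0
      linarith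
    refine h5.trans ?_
    rcases lt_or_eq_of_le (hw.trans hr2) with h6 | h6
    · exact key w ⟨h3, h6⟩
    · refine le_trans (le_of_eq ?_) (hV2 w h6.le)
      rw [hval _ hw0, h6, div_self hlog.ne']
      ring

/-- `M τ = m (exp (-τ))` -/
def MM (Om : Set (ℂ × ℂ)) (τ : ℝ) : ℝ := mm Om (Real.exp (-τ))

theorem MM_mono (h : LS b (ball 0 r0) Om) (hF : ∀ r, 0 < r → Fin' Om r) {τ τ' : ℝ}
    (hτ : Real.exp (-τ) < r0) (h1 : τ ≤ τ') : MM Om τ ≤ MM Om τ' :=
  mm_anti h (Real.exp_le_exp.2 (by linarith)) hτ (hF _ (Real.exp_pos _))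

/-- **`M` is concave** -/
theorem MM_concave (h : LS b (ball 0 r0) Om) {p : ℝ} (hp : 0 < p) (hper : Per Om p)
    (hF : ∀ r, 0 < r → Fin' Om r) {τ0 : ℝ} (hτ0 : Real.exp (-τ0) < r0) :
    ConcaveOn ℝ (Ici τ0) (MM Om) := by
  refine LinearOrder.concaveOn_of_lt (convex_Ici τ0) ?_
  intro x hx y hy hxy a c ha hc hac
  have hx' : τ0 ≤ x := hx
  simp only [smul_eq_mul]
  have hx0 : Real.exp (-x) < r0 := (Real.exp_le_exp.2 (by linarith)).trans_lt hτ0
  have hcx : c = 1 - a := by linarith
  have h1 : x ≤ a * x + c * y := by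
    have h3 := mul_pos hc (sub_pos.2 hxy)
    have h4 : a * x + c * y - x = c * (y - x) := by rw [hcx]; ring
    linarith
  have h2 : a * x + c * y ≤ y := by
    have h3 := mul_pos ha (sub_pos.2 hxy)
    have h4 : y - (a * x + c * y) = a * (y - x) := by rw [hcx]; ring
    linarith
  have key := mm_circles h hp hper (r := Real.exp (-(a * x + c * y))) (r1 := Real.exp (-y))
    (r2 := Real.exp (-x)) (Real.exp_pos _) (Real.exp_le_exp.2 (by linarith))
    (Real.exp_lt_exp.2 (by linarith)) (Real.exp_le_exp.2 (by linarith)) hx0 (hF _ (Real.exp_pos _))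
  rw [← Real.exp_sub, ← Real.exp_sub, Real.log_exp, Real.log_exp] at key
  have h3 : (-(a * x + c * y) - -y) / (-x - -y) = a := by
    have : (-x - -y) ≠ 0 := by
      have : 0 < -x - -y := by linarith
      exact this.ne'
    rw [div_eq_iff this, hcx]
    ring
  rw [h3] at key
  show a * mm Om (Real.exp (-x)) + c * mm Om (Real.exp (-y)) ≤ mm Om (Real.exp (-(a * x + c * y)))
  refine le_trans (le_of_eq ?_) key
  rw [hcx]
  ring

/-- `M → ∞` -/
theorem MM_tendsto (hF : ∀ r, 0 < r → Fin' Om r)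
    (hext : ∀ c : ℝ, ∃ δ > 0, ∀ w : ℂ, ‖w‖ < δ → ∀ t : ℂ, t.im < c → (t, w) ∈ Om) :
    Tendsto (MM Om) atTop atTop := by
  refine tendsto_atTop.2 fun c => ?_
  obtain ⟨δ, hδ, h1⟩ := hext c
  filter_upwards [eventually_gt_atTop (-Real.log δ)] with τ hτ
  refine le_mm (hF _ (Real.exp_pos _)) fun w hw t ht => h1 w (hw.trans_lt ?_) t ht
  rw [← Real.lt_log_iff_exp_lt hδ]
  linarith

/-- **the gap** (516 (7)) -/
theorem mm_gap (h : LS b (ball 0 r0) Om) {p : ℝ} (hp : 0 < p) (hper : Per Om p)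
    (hF : ∀ r, 0 < r → Fin' Om r) {ρ m₀ a : ℝ} (hρ : 0 < ρ) (hρ0 : ρ < r0) (ha : m₀ ≤ a)
    (hm : ∀ w : ℂ, ‖w‖ ≤ ρ → ∀ t : ℂ, t.im < m₀ → (t, w) ∈ Om) {S : Set ℝ} (hS : volume S = 0)
    (hV : ∀ u : ℝ, |u| < ρ → u ∉ S → ∀ t : ℂ, t.im < a → (t, (u : ℂ)) ∈ Om) :
    m₀ + (a - m₀) / 8 ≤ mm Om (ρ / 3) := by
  have hsub : ball (0 : ℂ) ρ ⊆ ball 0 r0 := ball_subset_ball hρ0.le
  have hlsc : LowerSemicontinuousOn (Vh Om a) (ball 0 r0) := Vh_lsc h hp hper
  have hNT : NT (Vh Om a) (ball 0 r0) := Vh_NT h hp hper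
  have key : ∀ w : ℂ, ‖w‖ = ρ / 3 → m₀ + (a - m₀) / 8 ≤ Vh Om a w := fun w hw =>
    half hρ ha (hlsc.mono hsub) (fun z hz => hNT z (hsub hz))
      (fun z hz => le_Vh ha fun t ht => hm z (by rw [mem_ball_zero_iff] at hz; exact hz.le) t ht)
      (M := a) (fun z hz => Vh_le (h.base z (hsub hz))) hS
      (fun u hu huS => le_Vh le_rfl fun t ht => hV u hu huS t ht) hw
  -- min principle in the disc
  have hsub3 : closedBall (0 : ℂ) (ρ / 3) ⊆ ball 0 r0 := closedBall_subset_ball (by linarith)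
  have h1 := sh1_re hlsc hNT (by positivity : 0 < ρ / 3) hsub3
    (F := fun _ => ((m₀ + (a - m₀) / 8 : ℝ) : ℂ)) diffContOnCl_const (fun w hw => by
      rw [Complex.ofReal_re]
      exact key w (by simpa using hw))
  refine le_mm (hF _ (by positivity)) fun w hw t ht => ?_
  have h2 := h1 w (by simpa using hw)
  rw [Complex.ofReal_re] at h2
  exact mem_of_lt_Vh (h.base w (hsub3 (by simpa using hw))) (ht.trans_le h2)

end Crest.Agent.R102.T1EJ712
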