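import Crest.Agent.R102.LVB_669
import Mathlib
import Crest.Agent.R102.MM_712
import Crest.Agent.R102.WinW_486

-- ▼ part R102/HF_77
section

/-!
Row 102, T1-E (516), leaf (HF): **the Hartogs figure**.  `Om` has the Levi property (669's `LV`),
`u ≠ 0` real; over the closed disc of centre `u`, radius `|u|/2` the set `Om` contains everything
below height `m`, and, where `‖w‖ ≤ 30 |Im w|`, the column `|Re t - x| < l` up to height `m + 2 g`:
then `Om` contains the points `(t, u)` of the column (shortened by `7 g`) up to height `m + 9 g/10`.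
(helper77)
-/

set_option autoImplicit false

open Set Filter Topology Metric Complex

noncomputable section

namespace Crest.Agent.R102.HF77

open Crest.Agent.R102.K669
open Crest.Agent.R102.Heights150 (pen pen_mono pen_eq pen_le)

/-- the analytic discs -/
def gd (m g : ℝ) (u : ℝ) (w : ℂ) : ℂ :=
  ((m - g : ℝ) : ℂ) * I - I * (g : ℂ) * ((w - u) / ((|u| / 2 : ℝ) : ℂ)) ^ 2

lemma gd_self (m g u : ℝ) : gd m g u (u : ℂ) = ((m - g : ℝ) : ℂ) * I := by
  simp [gd]

lemma gd_im {m g u : ℝ} (w : ℂ) : (gd m g u w).im =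
    m - g - g * (((w.re - u) ^ 2 - w.im ^ 2) / (|u| / 2) ^ 2) := by
  have h1 : ((w - u) / ((|u| / 2 : ℝ) : ℂ)) ^ 2 = (w - u) ^ 2 / (((|u| / 2) ^ 2 : ℝ) : ℂ) := by
    push_cast
    rw [div_pow]
  have h2 : (((w - u) / ((|u| / 2 : ℝ) : ℂ)) ^ 2).re =
      ((w.re - u) ^ 2 - w.im ^ 2) / (|u| / 2) ^ 2 := by
    rw [h1, Complex.div_ofReal_re]
    congr 1
    simp [pow_two, Complex.mul_re]
  rw [gd, Complex.sub_im, mul_assoc I, Complex.I_mul_im, Complex.re_ofReal_mul, h2]
  simp

lemma norm_gd_sub {m g u : ℝ} (hg : 0 ≤ g) (hu : u ≠ 0) {w : ℂ} (hw : ‖w - u‖ ≤ |u| / 2) :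
    ‖gd m g u w - ((m - g : ℝ) : ℂ) * I‖ ≤ g := by
  have hu0 : 0 < |u| / 2 := by positivity
  have h1 : gd m g u w - ((m - g : ℝ) : ℂ) * I =
      -(I * (g : ℂ) * ((w - u) / ((|u| / 2 : ℝ) : ℂ)) ^ 2) := by
    rw [gd]; ring
  rw [h1, norm_neg, norm_mul, norm_mul, Complex.norm_I, one_mul, norm_pow, norm_div,
    Complex.norm_real, Complex.norm_real, Real.norm_eq_abs, Real.norm_eq_abs, abs_of_nonneg hg,
    abs_of_pos hu0]
  have h2 : ‖w - u‖ / (|u| / 2) ≤ 1 := (div_le_one hu0).2 hw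
  have h3 : (‖w - u‖ / (|u| / 2)) ^ 2 ≤ 1 := pow_le_one₀ (by positivity) h2
  nlinarith

lemma pen_key {v lam y : ℝ} (h : lam * v = 1 / 8) :
    7 / 8 * v - (y - lam * y ^ 2) = (v - y) * (1 - lam * v - lam * y) := by
  linear_combination v * h

/-- **Hartogs figure** -/
theorem hf {b : ℝ} {W : Set ℂ} {Om : Set (ℂ × ℂ)} (h : LV b W Om) {u m x l g : ℝ} (hu : u ≠ 0)
    (hW : closedBall (u : ℂ) (|u| / 2) ⊆ W) (hg : 0 < g)
    (hbase : ∀ w ∈ closedBall (u : ℂ) (|u| / 2), ∀ t : ℂ, t.im < m → (t, w) ∈ Om)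
    (hcol : ∀ w ∈ closedBall (u : ℂ) (|u| / 2), ‖w‖ ≤ 30 * |w.im| →
      ∀ t : ℂ, |t.re - x| < l → t.im < m + 2 * g → (t, w) ∈ Om) :
    ∀ t : ℂ, |t.re - x| + 7 * g < l → t.im < m + 9 / 10 * g → (t, (u : ℂ)) ∈ Om := by
  intro t ht1 ht2
  have hu0 : 0 < |u| := abs_pos.2 hu
  set W' : Set ℂ := ball (u : ℂ) (|u| / 2) with hW'
  have hWW : W' ⊆ W := ball_subset_closedBall.trans hW
  have hgd : DifferentiableOn ℂ (gd m g u) W' := by
    unfold gd
    fun_prop
  have him : ∀ w ∈ closedBall (u : ℂ) (|u| / 2), (gd m g u w).im ≤ m := by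
    intro w hw
    have h1 := norm_gd_sub (m := m) hg.le hu (w := w) (by simpa [dist_eq_norm] using hw)
    have h2 := (Complex.abs_im_le_norm (gd m g u w - ((m - g : ℝ) : ℂ) * I)).trans h1
    have h3 : (gd m g u w - ((m - g : ℝ) : ℂ) * I).im = (gd m g u w).im - (m - g) := by simp
    rw [h3] at h2
    linarith [(abs_le.1 h2).2]
  have h' : LV 0 W' (shr W' (gd m g u) Om) := by
    refine h.shear isOpen_ball hWW hgd (fun w hw s hs => ?_)
    refine hbase w (ball_subset_closedBall hw) s ?_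
    linarith [him w (ball_subset_closedBall hw)]
  -- the penalty
  set v : ℝ := 19 / 10 * g with hv
  have hv0 : 0 < v := by positivity
  set lam : ℝ := 1 / (8 * v) with hlam
  have hl : 0 < lam := by positivity
  have e1 : 1 / (8 * lam) = v := by rw [hlam]; field_simp
  have e2 : 1 / (2 * lam) = 4 * v := by rw [hlam]; field_simp; norm_num
  have e3 : lam * v = 1 / 8 := by rw [hlam]; field_simp
  have hp0 : pen lam 0 = 0 := by
    rw [pen_eq (by rw [e2]; linarith)]; ring
  have hpv : pen lam v = 7 / 8 * v := by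
    rw [pen_eq (by rw [e2]; linarith)]
    have : lam * v ^ 2 = (lam * v) * v := by ring
    rw [this, e3]; ring
  have hp := h'.penS t.re hl (by rw [hp0, e1]; exact hv0.le)
  set r0 : ℝ := 7 / 8 * v with hr0
  set R := hgtS (shr W' (gd m g u) Om) (PhS lam t.re) (pen lam 0) (1 / (8 * lam)) with hR
  set ρ : ℝ := 49 / 100 * |u| with hρ
  have hρ0 : 0 < ρ := by positivity
  have hsub : closedBall (u : ℂ) ρ ⊆ W' := closedBall_subset_ball (by rw [hρ]; linarith)
  -- lower bound on the circle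
  have hcirc : ∀ w ∈ sphere (u : ℂ) ρ, r0 ≤ R w := by
    intro w hw
    have hwW : w ∈ W' := hsub (sphere_subset_closedBall hw)
    have hwc : w ∈ closedBall (u : ℂ) (|u| / 2) := ball_subset_closedBall hwW
    refine hp.le_hgt hwW (by rw [e1, hr0]; linarith) (fun τ hτ => ?_)
    have hpen : pen lam τ.im < r0 := by
      have h1 : 0 ≤ lam * (τ.re - t.re) ^ 2 := by positivity
      unfold PhS at hτ
      linarith
    have hτi : τ.im < v := by
      by_contra hcon
      push Not at hcon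
      have h1 := pen_mono hl hcon
      rw [hpv] at h1
      linarith
    rcases lt_or_ge τ.im 0 with hneg | hpos
    · exact h'.base w hwW τ hneg
    have hτr : |τ.re - t.re| < 3 * v := by
      have h1 : 0 ≤ pen lam τ.im := by
        have := pen_mono hl hpos
        rwa [hp0] at this
      have h2 : lam * (τ.re - t.re) ^ 2 < r0 := by
        unfold PhS at hτ
        linarith
      have h3 : (τ.re - t.re) ^ 2 < (3 * v) ^ 2 := by
        have h4 : (τ.re - t.re) ^ 2 = 8 * v * (lam * (τ.re - t.re) ^ 2) := by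
          rw [hlam]; field_simp
        rw [h4]
        have h5 : 8 * v * (lam * (τ.re - t.re) ^ 2) < 8 * v * r0 :=
          mul_lt_mul_of_pos_left h2 (by positivity)
        rw [hr0] at h5
        nlinarith
      exact abs_lt_of_sq_lt_sq h3 (by positivity)
    refine ⟨hwW, ?_⟩
    have hwn : (w.re - u) ^ 2 + w.im ^ 2 = ρ ^ 2 := by
      have h1 : ‖w - u‖ = ρ := by simpa [dist_eq_norm] using hw
      rw [← h1, ← Complex.normSq_eq_norm_sq, Complex.normSq_apply]
      simp [pow_two]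
    have hgim := gd_im (m := m) (g := g) (u := u) w
    have hu2 : (|u| / 2) ^ 2 = |u| ^ 2 / 4 := by ring
    rcases le_or_gt (w.im ^ 2) ((11 / 100) ^ 2 * ρ ^ 2) with hs | hs
    · -- base
      refine hbase w hwc _ ?_
      simp only [Complex.add_im]
      have h1 : 937 / 1000 ≤ ((w.re - u) ^ 2 - w.im ^ 2) / (|u| / 2) ^ 2 := by
        rw [le_div_iff₀ (by positivity), hu2]
        have h2 : (w.re - u) ^ 2 = ρ ^ 2 - w.im ^ 2 := by linarith
        rw [h2]
        have h3 : ρ ^ 2 = 2401 / 10000 * |u| ^ 2 := by rw [hρ]; ring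
        rw [h3] at hs ⊢
        nlinarith [sq_nonneg |u|]
      rw [hgim]
      have h2 : g * (937 / 1000) ≤ g * (((w.re - u) ^ 2 - w.im ^ 2) / (|u| / 2) ^ 2) :=
        mul_le_mul_of_nonneg_left h1 hg.le
      rw [hv] at hτi
      linarith
    · -- column
      have hng := norm_gd_sub (m := m) hg.le hu (w := w) (by simpa [dist_eq_norm] using hwc)
      refine hcol w hwc ?_ _ ?_ ?_
      · have h1 : 11 / 100 * ρ < |w.im| := by
          refine lt_of_pow_lt_pow_left₀ 2 (abs_nonneg _) ?_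
          rw [sq_abs, mul_pow]
          exact hs
        have h2 : ‖w‖ ≤ |u| + ρ := by
          have h3 : ‖w - u‖ = ρ := by simpa [dist_eq_norm] using hw
          have h4 : ‖w‖ ≤ ‖(u : ℂ)‖ + ‖w - u‖ := by
            have := norm_add_le (u : ℂ) (w - u)
            rwa [add_sub_cancel] at this
          rw [Complex.norm_real, Real.norm_eq_abs, h3] at h4
          exact h4
        rw [hρ] at h1 h2
        linarith
      · simp only [Complex.add_re]
        have h1 := (Complex.abs_re_le_norm (gd m g u w - ((m - g : ℝ) : ℂ) * I)).trans hng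
        have h2 : (gd m g u w - ((m - g : ℝ) : ℂ) * I).re = (gd m g u w).re := by simp
        rw [h2] at h1
        have h3 : τ.re + (gd m g u w).re - x =
            (τ.re - t.re) + (gd m g u w).re + (t.re - x) := by ring
        rw [h3]
        have h4 := abs_add_le ((τ.re - t.re) + (gd m g u w).re) (t.re - x)
        have h5 := abs_add_le (τ.re - t.re) (gd m g u w).re
        rw [hv] at hτr
        linarith
      · simp only [Complex.add_im]
        have h1 := him w hwc
        rw [hv] at hτi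
        linarith
  -- minimum principle
  have hI : (I * (r0 : ℂ)).im = r0 := by simp
  have hmin := SH712.sh1 hp.lsc hp.nt hρ0 hsub (H := fun _ => I * (r0 : ℂ))
    diffContOnCl_const (fun w hw => by rw [hI]; exact hcirc w hw) (u : ℂ)
    (mem_closedBall_self hρ0.le)
  have hRu : r0 ≤ R u := by rw [hI] at hmin; exact hmin
  have huW : (u : ℂ) ∈ W' := hsub (mem_closedBall_self hρ0.le)
  -- the point
  set τ : ℂ := t - ((m - g : ℝ) : ℂ) * I with hτ
  have hτre : τ.re = t.re := by simp [hτ]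
  have hτim : τ.im = t.im - (m - g) := by simp [hτ]
  have hτv : τ.im < v := by rw [hτim, hv]; linarith
  have hΦ : PhS lam t.re τ < R u := by
    refine lt_of_lt_of_le ?_ hRu
    unfold PhS
    rw [hτre, sub_self, pen_eq (by rw [e2]; linarith)]
    have h1 : r0 - (τ.im - lam * τ.im ^ 2) = (v - τ.im) * (1 - lam * v - lam * τ.im) :=
      pen_key e3
    have h2 : 0 < (v - τ.im) * (1 - lam * v - lam * τ.im) := by
      refine mul_pos (by linarith) ?_
      have h3 : lam * τ.im ≤ lam * v := mul_le_mul_of_nonneg_left hτv.le hl.le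
      rw [e3] at h3
      rw [e3]
      linarith
    linarith
  have hmem := (hp.reg huW hΦ).2
  rw [gd_self] at hmem
  have : τ + ((m - g : ℝ) : ℂ) * I = t := by rw [hτ]; ring
  rwa [this] at hmem

end Crest.Agent.R102.HF77
end
end

-- ▼ part R102/EndE_712

/-!
# Row 102, T1-E (516's good column): the end, for an abstract Levi set (helper712)

`Om` = main sheet of the lines (LV over `ball 0 r0`, `t`-period 1, even in `w`).  If for all windows
`(τ, S)` of `M = MM Om` there is a good column (`CCol`), then the set of real `u ∈ (0, δ)` with a finite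
top and a regular point on the top line is not a null set (`endE`), hence not countable (`endE'`).
-/

set_option autoImplicit false

open Set Filter Topology Metric Complex MeasureTheory
open scoped Real ComplexConjugate

noncomputable section

namespace Crest.Agent.R102.T1EJ712

/-- window of the concave function `M` (output of `WinW_486.winW`) -/
structure Wdw (M : ℝ → ℝ) (C' δ b τ S : ℝ) : Prop where
  hb : b ≤ τ
  hS : (τ ^ 2)⁻¹ ≤ S
  lin : ∀ β : ℝ, |β| ≤ (C' * Real.log τ) ^ 3 → |M (τ + β) - M τ - S * β| ≤ δ * S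
  rcd : ∀ t'' t' : ℝ, b ≤ t'' → t'' ≤ t' → t' ≤ τ →
    M t' - M t'' ≤ 2 * S * (τ / t'') ^ 2 * (t' - t'')

theorem Wdw.mono {M : ℝ → ℝ} {C' C'' δ δ' b τ S : ℝ} (h : Wdw M C'' δ' b τ S) (hC : C' ≤ C'')
    (hC0 : 0 ≤ C') (hδ : δ' ≤ δ) (hτ : 1 ≤ τ) : Wdw M C' δ b τ S where
  hb := h.hb
  hS := h.hS
  lin := by
    intro β hβ
    have hS0 : 0 ≤ S := le_trans (by positivity) h.hS
    have hl := Real.log_nonneg hτ
    refine (h.lin β (hβ.trans ?_)).trans (mul_le_mul_of_nonneg_right hδ hS0)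
    exact pow_le_pow_left₀ (mul_nonneg hC0 hl) (mul_le_mul_of_nonneg_right hC hl) 3
  rcd := h.rcd

/-- **the good column**: output of (AP) + (COL) + (ST) + (CC); `mm Om (2 s) ≤ MM Om τ`, `s = exp (-τ)` -/
def CCol (Om : Set (ℂ × ℂ)) : Prop :=
  ∃ B0 : ℝ, ∀ K b : ℝ, B0 ≤ b → ∃ C' δ T0 : ℝ, 0 ≤ C' ∧ 0 < δ ∧ ∀ τ S : ℝ, T0 ≤ τ →
    Wdw (MM Om) C' δ b τ S → ∃ x : ℝ, ∀ t w : ℂ, |t.re - x| < K * S →
      t.im < mm Om (2 * Real.exp (-τ)) + K * S → ‖w‖ < 2 * Real.exp (-τ) →
      ‖w‖ ≤ 30 * |w.im| → (t, w) ∈ Om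

/-- finite top with a regular point on the top line -/
def Gd (Om : Set (ℂ × ℂ)) (u : ℝ) : Prop :=
  ∃ U : ℝ, (∀ t : ℂ, t.im < U → (t, (u : ℂ)) ∈ Om) ∧ (∃ t : ℂ, t.im = U ∧ (t, (u : ℂ)) ∉ Om) ∧
    ∃ t : ℂ, t.im = U ∧ (t, (u : ℂ)) ∈ Om

theorem endE {b r0 : ℝ} {Om : Set (ℂ × ℂ)} (h : K669.LV b (ball 0 r0) Om) (hr0 : 0 < r0)
    (hper : Per Om 1) (heven : ∀ t w : ℂ, (t, w) ∈ Om → (t, -w) ∈ Om)
    (hF : ∀ r, 0 < r → Fin' Om r)
    (hext : ∀ c : ℝ, ∃ δ > 0, ∀ w : ℂ, ‖w‖ < δ → ∀ t : ℂ, t.im < c → (t, w) ∈ Om)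
    (hCC : CCol Om) {δ₀ : ℝ} (hδ₀ : 0 < δ₀) :
    volume {u : ℝ | 0 < u ∧ u < δ₀ ∧ Gd Om u} ≠ 0 := by
  intro hnull
  have hLS := LS.of_LV h
  -- the concave function
  set τ0 : ℝ := -Real.log r0 + 1 with hτ0
  have hexp0 : Real.exp (-τ0) < r0 := by
    rw [← Real.lt_log_iff_exp_lt hr0, hτ0]; linarith
  have hconc := MM_concave hLS one_pos hper hF hexp0
  have htend := MM_tendsto hF hext
  obtain ⟨B0, hCC⟩ := hCC
  set bb : ℝ := max B0 (max 1 (τ0 + 2)) with hbb
  have hbb1 : 1 ≤ bb := (le_max_left _ _).trans (le_max_right _ _)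
  have hbb2 : τ0 + 2 ≤ bb := (le_max_right _ _).trans (le_max_right _ _)
  obtain ⟨C', δ, T0, hC', hδ, hcol⟩ := hCC 4000 bb (le_max_left _ _)
  set C2 : ℝ := max C' 1 with hC2
  set T1 : ℝ := max T0 (max 8 (max (τ0 + 1) (-Real.log (δ₀ / 2)))) with hT1
  obtain ⟨τ, S, hτT, hbτ, hτA, hSlow, hlin, hrec⟩ := Crest.Agent.R102.WinW486.winW hconc htend
    (C' := C2) (δ := min δ 1) (le_trans zero_le_one (le_max_right _ _)) (lt_min hδ one_pos)
    (b := bb) hbb1 (by linarith) T1
  have hT0 : T0 ≤ τ := (le_max_left _ _).trans hτT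
  have hT8 : 8 ≤ τ := (le_max_left _ _).trans ((le_max_right _ _).trans hτT)
  have hTτ0 : τ0 + 1 ≤ τ :=
    (le_max_left _ _).trans ((le_max_right _ _).trans ((le_max_right _ _).trans hτT))
  have hTδ : -Real.log (δ₀ / 2) ≤ τ :=
    (le_max_right _ _).trans ((le_max_right _ _).trans ((le_max_right _ _).trans hτT))
  have hS0 : 0 < S := lt_of_lt_of_le (by positivity) hSlow
  have hW : Wdw (MM Om) C2 (min δ 1) bb τ S := ⟨hbτ, hSlow, hlin, hrec⟩
  obtain ⟨x0, hx0⟩ := hcol τ S hT0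
    (hW.mono (le_max_left _ _) hC' (min_le_left _ _) (by linarith))
  -- notation
  set s : ℝ := Real.exp (-τ) with hs
  have hs0 : 0 < s := Real.exp_pos _
  have hsr : 2 * s < r0 := by
    have h1 : Real.exp (-τ) ≤ Real.exp (-τ0) * Real.exp (-1) := by
      rw [← Real.exp_add]; exact Real.exp_le_exp.2 (by linarith)
    have h2 : Real.exp (-1) < 1 / 2 := by
      have := Real.exp_neg_one_lt_half
      linarith
    have h3 : Real.exp (-τ0) * Real.exp (-1) ≤ Real.exp (-τ0) * (1 / 2) :=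
      mul_le_mul_of_nonneg_left h2.le (Real.exp_pos _).le
    rw [hs]; linarith
  have hsδ : 4 / 3 * s < δ₀ := by
    have h1 : s ≤ δ₀ / 2 := by
      rw [hs, ← Real.le_log_iff_exp_le (by positivity)]; linarith
    linarith
  have e2s : MM Om (τ - Real.log 2) = mm Om (2 * s) := by
    unfold MM
    congr 1
    rw [neg_sub, sub_eq_add_neg, Real.exp_add, Real.exp_log (by norm_num)]
  have e49 : MM Om (τ + Real.log (9 / 4)) = mm Om (4 / 3 * s / 3) := by
    unfold MM
    congr 1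
    rw [neg_add, Real.exp_add, Real.exp_neg (Real.log (9 / 4)), Real.exp_log (by norm_num), ← hs]
    ring
  have hlog2 : Real.log 2 ≤ 1 := by
    have := Real.log_le_sub_one_of_pos (show (0:ℝ) < 2 by norm_num)
    linarith
  have hlog2' : 0 ≤ Real.log 2 := Real.log_nonneg (by norm_num)
  have hlog94 : Real.log (9 / 4) ≤ 5 / 4 := by
    have := Real.log_le_sub_one_of_pos (show (0:ℝ) < 9 / 4 by norm_num)
    linarith
  have hlog94' : 0 ≤ Real.log (9 / 4) := Real.log_nonneg (by norm_num)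
  have hwin : 8 ≤ (C2 * Real.log τ) ^ 3 := by
    have h1 : (2 : ℝ) ≤ Real.log τ := by
      rw [Real.le_log_iff_exp_le (by linarith)]
      have h2 : Real.exp 2 = Real.exp 1 * Real.exp 1 := by rw [← Real.exp_add]; norm_num
      have h3 := Real.exp_one_lt_d9
      have h4 := Real.exp_pos 1
      rw [h2]
      nlinarith
    have h2 : (1 : ℝ) ≤ C2 := le_max_right _ _
    have h3 : 2 ≤ C2 * Real.log τ := by nlinarith
    calc (8 : ℝ) = 2 ^ 3 := by norm_num
      _ ≤ _ := pow_le_pow_left₀ (by norm_num) h3 3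
  have hMup : MM Om (τ + Real.log (9 / 4)) - MM Om (τ - Real.log 2) ≤ 5 * S := by
    have h1 := hlin (Real.log (9 / 4)) (by rw [abs_of_nonneg hlog94']; linarith)
    have h2 := hlin (-Real.log 2) (by rw [abs_neg, abs_of_nonneg hlog2']; linarith)
    have h3 := (abs_le.1 h1).2
    have h4 := (abs_le.1 h2).1
    rw [← sub_eq_add_neg] at h4
    have h5 : min δ 1 * S ≤ 1 * S := mul_le_mul_of_nonneg_right (min_le_right _ _) hS0.le
    have h6 : S * Real.log (9 / 4) ≤ S * (5 / 4) := mul_le_mul_of_nonneg_left hlog94 hS0.le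
    have h7 : S * Real.log 2 ≤ S * 1 := mul_le_mul_of_nonneg_left hlog2 hS0.le
    have h8 : S * -Real.log 2 = -(S * Real.log 2) := by ring
    rw [h8] at h4
    linarith
  set m0 : ℝ := mm Om (2 * s) with hm0
  have hm0M : m0 ≤ MM Om τ := by
    rw [← e2s]
    refine MM_mono hLS hF ?_ (by linarith)
    have : Real.exp (-(τ - Real.log 2)) = 2 * s := by
      rw [neg_sub, sub_eq_add_neg, Real.exp_add, Real.exp_log (by norm_num)]
    rw [this]; exact hsr
  -- the Hartogs figure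
  have hcl2 : closedBall (0 : ℂ) (2 * s) ⊆ ball 0 r0 := closedBall_subset_ball hsr
  have hHF : ∀ u : ℝ, 0 < u → u < 4 / 3 * s → ∀ t : ℂ, |t.re - x0| + 7 * (500 * S) < 4000 * S →
      t.im < m0 + 9 / 10 * (500 * S) → (t, (u : ℂ)) ∈ Om := by
    intro u hu hus
    have hball : ∀ w ∈ closedBall (u : ℂ) (|u| / 2), ‖w‖ < 2 * s := by
      intro w hw
      rw [mem_closedBall, dist_eq_norm, abs_of_pos hu] at hw
      have h2 : ‖w‖ ≤ ‖w - u‖ + ‖(u : ℂ)‖ := by
        have := norm_add_le (w - u) (u : ℂ)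
        simpa using this
      rw [Complex.norm_real, Real.norm_eq_abs, abs_of_pos hu] at h2
      linarith
    exact HF77.hf h (u := u) (m := m0) (x := x0) (l := 4000 * S) (g := 500 * S) hu.ne'
      (fun w hw => hcl2 (by simpa using (hball w hw).le)) (by positivity)
      (fun w hw t ht => mem_of_lt_mm hLS hsr (hball w hw).le ht)
      (fun w hw hwi t h1 h2 => hx0 t w h1 (by linarith) (hball w hw) hwi)
  set a : ℝ := m0 + 9 / 10 * (500 * S) with ha
  have ham : m0 ≤ a := by rw [ha]; linarith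
  -- the exceptional null set
  set N : Set ℝ := {u : ℝ | 0 < u ∧ u < δ₀ ∧ Gd Om u} with hN
  have hNnull : volume (N ∪ (Neg.neg ⁻¹' N) ∪ {0}) = 0 := by
    have h1 : volume (Neg.neg ⁻¹' N) = 0 := by
      have := (Measure.measurePreserving_neg (volume : Measure ℝ)).quasiMeasurePreserving.preimage_null hnull
      exact this
    refine measure_union_null (measure_union_null hnull h1) ?_
    simp
  have hpos : ∀ u : ℝ, 0 < u → u < 4 / 3 * s → u ∉ N → ∀ t : ℂ, t.im < a → (t, (u : ℂ)) ∈ Om := by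
    intro u hu0 hu huN t ht
    by_contra hnot
    apply huN
    have hub : (u : ℂ) ∈ ball (0 : ℂ) r0 := by
      rw [mem_ball_zero_iff, Complex.norm_real, Real.norm_eq_abs, abs_of_pos hu0]; linarith
    have hV : Vh Om a (u : ℂ) < a :=
      (Vh_le_of_notMem (hLS.base _ hub) hnot).trans_lt ht
    refine ⟨hu0, hu.trans hsδ, Vh Om a (u : ℂ), fun t ht => mem_of_lt_Vh (hLS.base _ hub) ht,
      Vh_touch hLS.isOpen one_pos hper (hLS.base _ hub) hV, (x0 : ℂ) + Vh Om a (u : ℂ) * I,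
      by simp, ?_⟩
    refine hHF u hu0 hu _ ?_ ?_
    · simp
      linarith
    · simpa using hV
  have hall : ∀ u : ℝ, |u| < 4 / 3 * s → u ∉ N ∪ (Neg.neg ⁻¹' N) ∪ {0} →
      ∀ t : ℂ, t.im < a → (t, (u : ℂ)) ∈ Om := by
    intro u hu huN t ht
    simp only [mem_union, mem_preimage, mem_singleton_iff, not_or] at huN
    rcases lt_trichotomy u 0 with h1 | h1 | h1
    · have h2 := hpos (-u) (by linarith) (by rw [abs_of_neg h1] at hu; exact hu) huN.1.2 t ht
      have h3 := heven _ _ h2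
      simpa using h3
    · exact absurd h1 huN.2
    · exact hpos u h1 (by rw [abs_of_pos h1] at hu; exact hu) huN.1.1 t ht
  have key := mm_gap hLS one_pos hper hF (ρ := 4 / 3 * s) (m₀ := m0) (a := a) (by positivity)
    (by linarith) ham (fun w hw t ht => mem_of_lt_mm hLS hsr (hw.trans (by linarith)) ht) hNnull hall
  rw [← e49] at key
  rw [ha] at key
  linarith

/-- uncountably many irrational `u` -/
theorem endE' {b r0 : ℝ} {Om : Set (ℂ × ℂ)} (h : K669.LV b (ball 0 r0) Om) (hr0 : 0 < r0)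
    (hper : Per Om 1) (heven : ∀ t w : ℂ, (t, w) ∈ Om → (t, -w) ∈ Om)
    (hF : ∀ r, 0 < r → Fin' Om r)
    (hext : ∀ c : ℝ, ∃ δ > 0, ∀ w : ℂ, ‖w‖ < δ → ∀ t : ℂ, t.im < c → (t, w) ∈ Om)
    (hCC : CCol Om) {δ₀ : ℝ} (hδ₀ : 0 < δ₀) :
    ¬ {u : ℝ | Irrational u ∧ 0 < u ∧ u < δ₀ ∧ Gd Om u}.Countable := by
  intro hcount
  refine endE h hr0 hper heven hF hext hCC hδ₀ ?_
  have h1 : {u : ℝ | 0 < u ∧ u < δ₀ ∧ Gd Om u} ⊆
      {u : ℝ | Irrational u ∧ 0 < u ∧ u < δ₀ ∧ Gd Om u} ∪ range ((↑) : ℚ → ℝ) := by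
    intro u hu
    by_cases hi : Irrational u
    · exact Or.inl ⟨hi, hu⟩
    · right
      unfold Irrational at hi
      push Not at hi
      exact hi
  exact measure_mono_null h1
    ((hcount.union (countable_range _)).measure_zero volume)

end Crest.Agent.R102.T1EJ712
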