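import Crest.Agent.R102.MelDefs_490
import Crest.Agent.R102.Solve_39

-- ▼ part R102/ExtIA_289
section

/-!
# Row 102, [T5]/MEL, leaf (ML-EI) = `ExtI`, part A (helper289): the model and its rigidity

`Y0 s = s (1 - 1/(4 s²))^(1/2)`, `Y0 s ^ 2 = s² - 1/4`; the law of the isotropic end `m = 1` is
`(b₀ + b₋)(b₀ + b₊) = 4 b₀²`, `b = x²`.
-/

set_option autoImplicit false

open Set Filter Topology Metric

noncomputable section

namespace Crest.Agent.R102.ExtI289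

open Crest.Agent.R102.T5R Crest.Agent.R102.Mel

/-! ### rigidity -/

theorem quad_bdd {a b c : ℂ} {C : ℝ} (h : ∀ k : ℕ, ‖a * (k : ℂ) ^ 2 + b * k + c‖ ≤ C) :
    a = 0 ∧ b = 0 := by
  have hC : 0 ≤ C := (norm_nonneg _).trans (h 0)
  have ha : a = 0 := by
    by_contra ha
    have hpos : 0 < ‖a‖ := norm_pos_iff.mpr ha
    obtain ⟨n, hn⟩ := exists_nat_gt (2 * C / ‖a‖)
    have hn0 : (0 : ℝ) < n := lt_of_le_of_lt (by positivity) hn
    have h1 : (2 : ℂ) * a * (n : ℂ) ^ 2 = (a * ((0 : ℕ) : ℂ) ^ 2 + b * ((0 : ℕ) : ℂ) + c)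
        - 2 * (a * (n : ℂ) ^ 2 + b * n + c)
        + (a * ((2 * n : ℕ) : ℂ) ^ 2 + b * ((2 * n : ℕ) : ℂ) + c) := by
      push_cast; ring
    have h2 : ‖(2 : ℂ) * a * (n : ℂ) ^ 2‖ ≤ 4 * C := by
      rw [h1]
      refine (norm_add_le _ _).trans ?_
      have e1 := norm_sub_le (a * ((0 : ℕ) : ℂ) ^ 2 + b * ((0 : ℕ) : ℂ) + c)
        (2 * (a * (n : ℂ) ^ 2 + b * n + c))
      rw [norm_mul] at e1
      have e2 : ‖(2 : ℂ)‖ = 2 := by norm_num
      rw [e2] at e1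
      have := h 0
      have := h n
      have := h (2 * n)
      linarith
    rw [norm_mul, norm_mul, norm_pow, Complex.norm_natCast] at h2
    have e2 : ‖(2 : ℂ)‖ = 2 := by norm_num
    rw [e2] at h2
    have h3 : 2 * C < ‖a‖ * n := by
      rw [div_lt_iff₀ hpos] at hn
      linarith
    have hn1 : (1 : ℝ) ≤ n := by
      have : 0 < n := by exact_mod_cast hn0
      exact_mod_cast this
    nlinarith [mul_nonneg hpos.le hn0.le]
  refine ⟨ha, ?_⟩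
  subst ha
  by_contra hb
  have hpos : 0 < ‖b‖ := norm_pos_iff.mpr hb
  obtain ⟨n, hn⟩ := exists_nat_gt (2 * C / ‖b‖)
  have h1 : b * (n : ℂ) = ((0 : ℂ) * (n : ℂ) ^ 2 + b * n + c)
      - ((0 : ℂ) * ((0 : ℕ) : ℂ) ^ 2 + b * ((0 : ℕ) : ℂ) + c) := by
    push_cast; ring
  have h2 : ‖b * (n : ℂ)‖ ≤ 2 * C := by
    rw [h1]
    refine (norm_sub_le _ _).trans ?_
    have := h 0
    have := h n
    linarith
  rw [norm_mul, Complex.norm_natCast] at h2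
  rw [div_lt_iff₀ hpos] at hn
  linarith

/-- the exact solutions of the limit law -/
theorem rigid {y : ℕ → ℂ} {s : ℂ} {C : ℝ} (hy : ∀ k, y k ≠ 0)
    (law : ∀ k, (y (k + 1) ^ 2 + y k ^ 2) * (y (k + 1) ^ 2 + y (k + 2) ^ 2) = 4 * y (k + 1) ^ 4)
    (hb : ∀ k : ℕ, ‖y k ^ 2 - (s + k) ^ 2‖ ≤ C) : y 0 ^ 2 = s ^ 2 - 1 / 4 := by
  have hs : ∀ k, y (k + 1) ^ 2 + y k ^ 2 ≠ 0 := by
    intro k h0
    have := law k
    rw [h0, zero_mul] at this
    exact (mul_ne_zero (by norm_num) (pow_ne_zero 4 (hy (k + 1)))) this.symm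
  set b0 := y 0 ^ 2 with hb0
  set b1 := y 1 ^ 2 with hb1
  have he : b1 + b0 ≠ 0 := hs 0
  set α : ℂ := (b1 - b0) ^ 2 / (2 * (b1 + b0)) with hα
  set β : ℂ := (b1 - b0) * (3 * b0 + b1) / (2 * (b1 + b0)) with hβ
  have hα' : α * (2 * (b1 + b0)) = (b1 - b0) ^ 2 := by
    rw [hα]; field_simp
  have hβ' : β * (2 * (b1 + b0)) = (b1 - b0) * (3 * b0 + b1) := by
    rw [hβ]; field_simp
  have hsum : α + β = b1 - b0 := by
    have : (α + β) * (2 * (b1 + b0)) = (b1 - b0) * (2 * (b1 + b0)) := by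
      rw [add_mul, hα', hβ']; ring
    exact mul_right_cancel₀ (mul_ne_zero two_ne_zero he) this
  have hΔ : β ^ 2 - 4 * α * b0 - α ^ 2 = 0 := by
    have h1 : (β ^ 2 - 4 * α * b0 - α ^ 2) * (2 * (b1 + b0)) ^ 2 = 0 := by
      have e : (β ^ 2 - 4 * α * b0 - α ^ 2) * (2 * (b1 + b0)) ^ 2 =
          (β * (2 * (b1 + b0))) ^ 2 - 4 * (α * (2 * (b1 + b0))) * b0 * (2 * (b1 + b0))
            - (α * (2 * (b1 + b0))) ^ 2 := by ring
      rw [e, hα', hβ']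
      ring
    exact (mul_eq_zero.1 h1).resolve_right (pow_ne_zero 2 (mul_ne_zero two_ne_zero he))
  have key : ∀ k : ℕ, y k ^ 2 = α * (k : ℂ) ^ 2 + β * k + b0 ∧
      y (k + 1) ^ 2 = α * ((k : ℂ) + 1) ^ 2 + β * ((k : ℂ) + 1) + b0 := by
    intro k
    induction k with
    | zero =>
      refine ⟨by simp [hb0], ?_⟩
      have : y (0 + 1) ^ 2 = b1 := rfl
      rw [this]
      push_cast
      linear_combination -hsum
    | succ k ih =>
      obtain ⟨i1, i2⟩ := ih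
      refine ⟨by rw [i2]; push_cast; ring, ?_⟩
      have hl := law k
      have h4 : y (k + 1) ^ 4 = (y (k + 1) ^ 2) ^ 2 := by ring
      have h5 : (y (k + 1 + 1) ^ 2 - (α * (((k + 1 : ℕ) : ℂ) + 1) ^ 2
          + β * (((k + 1 : ℕ) : ℂ) + 1) + b0)) * (y (k + 1) ^ 2 + y k ^ 2) = 0 := by
        have h6 : y (k + 1 + 1) = y (k + 2) := rfl
        rw [h6]
        rw [h4] at hl
        set B0 := y k ^ 2
        set B1 := y (k + 1) ^ 2
        set B2 := y (k + 2) ^ 2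
        push_cast
        rw [i1, i2] at hl ⊢
        linear_combination hl + hΔ
      have h7 := (mul_eq_zero.1 h5).resolve_right (hs k)
      exact sub_eq_zero.1 h7
  have hq : ∀ k : ℕ, ‖(α - 1) * (k : ℂ) ^ 2 + (β - 2 * s) * k + (b0 - s ^ 2)‖ ≤ C := by
    intro k
    have h1 := hb k
    rw [(key k).1] at h1
    have e : α * (k : ℂ) ^ 2 + β * k + b0 - (s + k) ^ 2 =
        (α - 1) * (k : ℂ) ^ 2 + (β - 2 * s) * k + (b0 - s ^ 2) := by ring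
    rwa [e] at h1
  obtain ⟨h1, h2⟩ := quad_bdd hq
  have h1' : α = 1 := sub_eq_zero.1 h1
  have h2' : β = 2 * s := sub_eq_zero.1 h2
  rw [h1', h2'] at hΔ
  linear_combination -(1 / 4 : ℂ) * hΔ

/-! ### the model -/

theorem arg_mem {s : ℂ} (hs : 1 / 2 < s.re) : 1 - 1 / (4 * s ^ 2) ∈ Complex.slitPlane := by
  have hs0 : s ≠ 0 := by
    rintro rfl
    norm_num at hs
  rw [Complex.mem_slitPlane_iff]
  by_contra hcon
  push Not at hcon
  obtain ⟨h1, h2⟩ := hcon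
  -- `1 - 1/(4 s²) = r ≤ 0` real
  set r : ℝ := (1 - 1 / (4 * s ^ 2)).re with hr
  have h3 : (1 : ℂ) - 1 / (4 * s ^ 2) = (r : ℂ) := by
    apply Complex.ext
    · rw [Complex.ofReal_re]
    · rw [Complex.ofReal_im]; exact h2
  have h4 : (4 * (1 - r) : ℂ) * s ^ 2 = 1 := by
    have : (1 : ℂ) - (r : ℂ) = 1 / (4 * s ^ 2) := by rw [← h3]; ring
    have h5 : (4 * (1 - r) : ℂ) * s ^ 2 = 4 * s ^ 2 * (1 - (r : ℂ)) := by ring
    rw [h5, this]
    field_simp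
  have him := congrArg Complex.im h4
  have hre := congrArg Complex.re h4
  have e1 : (4 * (1 - r) : ℂ) = ((4 * (1 - r) : ℝ) : ℂ) := by push_cast; ring
  rw [e1] at him hre
  rw [Complex.re_ofReal_mul] at hre
  rw [Complex.im_ofReal_mul] at him
  simp only [pow_two, Complex.mul_re, Complex.mul_im, Complex.one_re, Complex.one_im] at him hre
  have hr1 : 0 < 4 * (1 - r) := by linarith
  have h6 : s.re * s.im + s.im * s.re = 0 := by
    rcases mul_eq_zero.1 him with h | h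
    · linarith
    · exact h
  have h7 : s.im = 0 := by
    have : s.re * s.im = 0 := by linarith
    rcases mul_eq_zero.1 this with h | h
    · linarith
    · exact h
  rw [h7] at hre
  nlinarith

theorem Y0_sq {s : ℂ} (hs : 1 / 2 < s.re) : Y0 s ^ 2 = s ^ 2 - 1 / 4 := by
  have hs0 : s ≠ 0 := by
    rintro rfl
    norm_num at hs
  have h1 : ((1 - 1 / (4 * s ^ 2)) ^ (1 / 2 : ℂ)) ^ 2 = 1 - 1 / (4 * s ^ 2) := by
    have h := Complex.cpow_nat_inv_pow (1 - 1 / (4 * s ^ 2)) (n := 2) two_ne_zero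
    rw [Nat.cast_ofNat] at h
    rw [one_div (2 : ℂ)]
    exact h
  rw [Y0, mul_pow, h1]
  field_simp

theorem Y0_diff : DifferentiableOn ℂ Y0 {s | 1 / 2 < s.re} := by
  intro s hs
  have hs0 : s ≠ 0 := by
    rintro rfl
    norm_num at hs
  apply DifferentiableAt.differentiableWithinAt
  have h1 : DifferentiableAt ℂ (fun s : ℂ => 1 - 1 / (4 * s ^ 2)) s := by
    apply DifferentiableAt.sub (by fun_prop)
    apply DifferentiableAt.div (by fun_prop) (by fun_prop)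
    exact mul_ne_zero (by norm_num) (pow_ne_zero 2 hs0)
  exact differentiableAt_id.mul (h1.cpow_const (arg_mem hs))

theorem Y0_re_ne {s : ℂ} (hs : 1 / 2 < s.re) : (Y0 s).re ≠ 0 := by
  intro h0
  have h1 := Y0_sq hs
  have hre := congrArg Complex.re h1
  have him := congrArg Complex.im h1
  simp only [pow_two, Complex.mul_re, Complex.mul_im, h0, Complex.sub_re, Complex.sub_im] at hre him
  have e1 : ((1 : ℂ) / 4).re = 1 / 4 := by norm_num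
  have e2 : ((1 : ℂ) / 4).im = 0 := by norm_num
  rw [e1] at hre
  rw [e2] at him
  have h7 : s.im = 0 := by
    have : s.re * s.im = 0 := by linarith
    rcases mul_eq_zero.1 this with h | h
    · linarith
    · exact h
  rw [h7] at hre
  nlinarith [mul_self_nonneg (Y0 s).im]

theorem Y0_one_re : 0 < (Y0 1).re := by
  have : Y0 1 = (((3 / 4 : ℝ) ^ (1 / 2 : ℝ) : ℝ) : ℂ) := by
    rw [Y0, Complex.ofReal_cpow (by norm_num)]
    norm_num
  rw [this, Complex.ofReal_re]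
  positivity

theorem Y0_re_pos {s : ℂ} (hs : 1 / 2 < s.re) : 0 < (Y0 s).re := by
  have hconv : Convex ℝ {s : ℂ | 1 / 2 < s.re} := convex_halfSpace_re_gt _
  have hpre : IsPreconnected {s : ℂ | 1 / 2 < s.re} := hconv.isPreconnected
  have hcont : ContinuousOn (fun s => (Y0 s).re) {s : ℂ | 1 / 2 < s.re} :=
    Complex.continuous_re.comp_continuousOn Y0_diff.continuousOn
  by_contra hcon
  push Not at hcon
  have h1 : (1 : ℂ) ∈ {s : ℂ | 1 / 2 < s.re} := by norm_num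
  have himg := hpre.image _ hcont
  have hoc := himg.ordConnected
  have h0 : (0 : ℝ) ∈ (fun s => (Y0 s).re) '' {s : ℂ | 1 / 2 < s.re} :=
    hoc.out ⟨s, hs, rfl⟩ ⟨1, h1, rfl⟩ ⟨hcon, Y0_one_re.le⟩
  obtain ⟨z, hz, hz0⟩ := h0
  exact Y0_re_ne hz hz0

/-- lower bound for the real part -/
theorem Y0_re_ge {s : ℂ} (hs : 5 / 8 ≤ s.re) : 3 / 8 ≤ (Y0 s).re := by
  have hs' : 1 / 2 < s.re := by linarith
  have hp := Y0_re_pos hs'
  have h1 := Y0_sq hs'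
  have hre := congrArg Complex.re h1
  have him := congrArg Complex.im h1
  simp only [pow_two, Complex.mul_re, Complex.mul_im, Complex.sub_re, Complex.sub_im] at hre him
  have e1 : ((1 : ℂ) / 4).re = 1 / 4 := by norm_num
  have e2 : ((1 : ℂ) / 4).im = 0 := by norm_num
  rw [e1] at hre
  rw [e2] at him
  set p := (Y0 s).re
  set q := (Y0 s).im
  set a := s.re
  set b := s.im
  by_contra hcon
  push Not at hcon
  -- P = p², A = a² - 1/4, P (P - A) + b² (P - a²) = 0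
  have h3 : p * q = a * b := by linarith
  have h4 : p ^ 2 * (p ^ 2 - (a ^ 2 - 1 / 4)) + b ^ 2 * (p ^ 2 - a ^ 2) = 0 := by
    have h5 : p ^ 2 * q ^ 2 = a ^ 2 * b ^ 2 := by
      have : (p * q) ^ 2 = (a * b) ^ 2 := by rw [h3]
      nlinarith
    nlinarith
  have hA : p ^ 2 < a ^ 2 - 1 / 4 := by nlinarith
  have h5 : p ^ 2 * (p ^ 2 - (a ^ 2 - 1 / 4)) < 0 := by
    apply mul_neg_of_pos_of_neg (by positivity)
    linarith
  have h6 : b ^ 2 * (p ^ 2 - a ^ 2) ≤ 0 := by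
    apply mul_nonpos_of_nonneg_of_nonpos (sq_nonneg b)
    nlinarith
  linarith

theorem Y0_norm_le {s : ℂ} {K : ℝ} (hs : 1 / 2 < s.re) (hK : ‖s‖ ≤ K) : ‖Y0 s‖ ≤ K + 1 := by
  have hK0 : 0 ≤ K := (norm_nonneg _).trans hK
  have h1 : ‖Y0 s‖ ^ 2 ≤ (K + 1) ^ 2 := by
    rw [← norm_pow, Y0_sq hs]
    refine (norm_sub_le _ _).trans ?_
    rw [norm_pow]
    have : ‖(1 / 4 : ℂ)‖ = 1 / 4 := by norm_num
    rw [this]
    nlinarith [norm_nonneg s]
  exact le_of_sq_le_sq h1 (by linarith) |> fun h => h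

end Crest.Agent.R102.ExtI289
end
end

-- ▼ part R102/ExtIL_289
section

/-!
# Row 102, [T5]/MEL, leaf (ML-EI) = `ExtI` (helper289)

* `unif` : uniform limit of the chord slope on compact sets of labels in the right half plane;
* `close` : `x l (-i l s) / (-i l) → Y0 s`, uniformly on `5/8 ≤ Re s`, `R₁ ≤ ‖s‖ ≤ K`;
* `step` : one step of the backward recursion;
* `extI_of` : `RLimI → PAn → ExtI`.
-/

set_option autoImplicit false

open Set Filter Topology Metric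

noncomputable section

namespace Crest.Agent.R102.ExtI289

open Crest.Agent.R102.T5R Crest.Agent.R102.Mel

/-- the scale -/
def al (l : ℝ) : ℂ := -Complex.I * l

theorem norm_al {l : ℝ} (hl : 0 < l) : ‖al l‖ = l := by
  rw [al, norm_mul, norm_neg, Complex.norm_I, one_mul, Complex.norm_real, Real.norm_eq_abs,
    abs_of_pos hl]

theorem al_ne {l : ℝ} (hl : 0 < l) : al l ≠ 0 := by
  rw [← norm_pos_iff, norm_al hl]; exact hl

theorem al_mul_im (l : ℝ) (s : ℂ) : (al l * s).im = -(l * s.re) := by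
  simp [al]

theorem isOpen_Sg (κ : ℝ) : IsOpen (Sg κ) := by
  have : Sg κ = {τ : ℂ | τ ≠ 0} ∩ ({τ : ℂ | ‖τ‖ < 1} ∩ {τ : ℂ | τ.im < κ * ‖τ‖}) := by
    ext τ; rfl
  rw [this]
  refine (isOpen_ne).inter ((isOpen_lt (by fun_prop) (by fun_prop)).inter
    (isOpen_lt Complex.continuous_im (by fun_prop)))

/-- points of the right half plane, scaled, are in the slit sector -/
theorem mem_Sg {κ l c1 C1 : ℝ} (hκ : 0 < κ) (hl : 0 < l) (hc1 : 0 < c1) {z : ℂ} (h1 : c1 ≤ z.re)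
    (h2 : ‖z‖ ≤ C1) (hlC : l * C1 < 1) : al l * z ∈ Sg κ := by
  have hz : 0 < ‖z‖ := lt_of_lt_of_le hc1 (h1.trans (Complex.re_le_norm z))
  have hn : ‖al l * z‖ = l * ‖z‖ := by rw [norm_mul, norm_al hl]
  refine ⟨mul_ne_zero (al_ne hl) (norm_pos_iff.1 hz), ?_, ?_⟩
  · rw [hn]
    have := mul_le_mul_of_nonneg_left h2 hl.le
    linarith
  · rw [hn, al_mul_im]
    have e1 : 0 < l * z.re := mul_pos hl (by linarith)
    have e2 : 0 < κ * (l * ‖z‖) := by positivity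
    linarith

theorem seg_re {c1 : ℝ} {x y : ℂ} (hx : c1 ≤ x.re) (hy : c1 ≤ y.re) {u : ℝ} (hu : u ∈ Icc (0 : ℝ) 1) :
    c1 ≤ (x + u * (y - x)).re := by
  simp only [Complex.add_re, Complex.mul_re, Complex.ofReal_re, Complex.ofReal_im, Complex.sub_re,
    zero_mul, sub_zero]
  nlinarith [hu.1, hu.2]

theorem seg_norm {C1 : ℝ} {x y : ℂ} (hx : ‖x‖ ≤ C1) (hy : ‖y‖ ≤ C1) {u : ℝ}
    (hu : u ∈ Icc (0 : ℝ) 1) : ‖x + u * (y - x)‖ ≤ C1 := by
  have e : x + (u : ℂ) * (y - x) = ((1 - u : ℝ) : ℂ) * x + (u : ℂ) * y := by push_cast; ring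
  rw [e]
  refine (norm_add_le _ _).trans ?_
  rw [norm_mul, norm_mul, Complex.norm_real, Complex.norm_real, Real.norm_eq_abs,
    Real.norm_eq_abs, abs_of_nonneg (by linarith [hu.2]), abs_of_nonneg hu.1]
  nlinarith [hu.1, hu.2, mul_le_mul_of_nonneg_left hx (by linarith [hu.2] : 0 ≤ 1 - u),
    mul_le_mul_of_nonneg_left hy hu.1]

theorem adm {κ l c1 C1 : ℝ} (hκ : 0 < κ) (hl : 0 < l) (hc1 : 0 < c1) {x y : ℂ}
    (hx : c1 ≤ x.re) (hy : c1 ≤ y.re) (hx2 : ‖x‖ ≤ C1) (hy2 : ‖y‖ ≤ C1) (hlC : l * C1 < 1) :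
    Adm κ (C1 / c1) (al l * x) (al l * y) := by
  intro u hu
  have e : al l * x + (u : ℂ) * (al l * y - al l * x) = al l * (x + u * (y - x)) := by ring
  rw [e]
  have h1 := seg_re hx hy hu
  have h2 := seg_norm hx2 hy2 hu
  have h3 : c1 ≤ ‖x + u * (y - x)‖ := h1.trans (Complex.re_le_norm _)
  have h4 : c1 ≤ ‖x‖ := hx.trans (Complex.re_le_norm _)
  have hC1 : 0 < C1 := lt_of_lt_of_le hc1 (h4.trans hx2)
  refine ⟨mem_Sg hκ hl hc1 h1 h2 hlC, ?_, ?_⟩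
  · rw [norm_mul, norm_mul, norm_al hl]
    have : ‖x‖ ≤ C1 / c1 * ‖x + u * (y - x)‖ := by
      rw [div_mul_eq_mul_div, le_div_iff₀ hc1]
      exact mul_le_mul hx2 h3 hc1.le hC1.le
    nlinarith
  · rw [norm_mul, norm_mul, norm_al hl]
    have : ‖x + u * (y - x)‖ ≤ C1 / c1 * ‖x‖ := by
      rw [div_mul_eq_mul_div, le_div_iff₀ hc1]
      exact mul_le_mul h2 h4 hc1.le hC1.le
    nlinarith

/-- the limit of the chord slope -/
def mR (x y : ℂ) : ℂ := (x ^ 2 + y ^ 2) / (2 * x ^ 2)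

theorem quot_close {A D P Q : ℂ} {d M e : ℝ} (hd : 0 < d) (hD : d ≤ ‖D‖) (hA : ‖A‖ ≤ M)
    (hP : ‖P - A‖ ≤ e) (hQ : ‖Q - D‖ ≤ e) (he : e ≤ d / 2) :
    Q ≠ 0 ∧ ‖P / Q - A / D‖ ≤ e * (1 + M / d) * (2 / d) := by
  have hQn : d / 2 ≤ ‖Q‖ := by
    have := norm_sub_norm_le D Q
    rw [norm_sub_rev] at this
    linarith
  have hQ0 : Q ≠ 0 := by
    rw [← norm_pos_iff]; linarith
  have hD0 : D ≠ 0 := by
    rw [← norm_pos_iff]; linarith
  have he0 : 0 ≤ e := (norm_nonneg _).trans hP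
  have hM0 : 0 ≤ M := (norm_nonneg _).trans hA
  refine ⟨hQ0, ?_⟩
  have e1 : P / Q - A / D = ((P - A) + (A / D) * (D - Q)) / Q := by
    field_simp
    ring
  rw [e1, norm_div, div_le_iff₀ (by linarith)]
  have h1 : ‖A / D‖ ≤ M / d := by
    rw [norm_div]
    exact div_le_div₀ hM0 hA hd hD
  have h2 : ‖(P - A) + (A / D) * (D - Q)‖ ≤ e * (1 + M / d) := by
    refine (norm_add_le _ _).trans ?_
    rw [norm_mul]
    have h3 : ‖A / D‖ * ‖D - Q‖ ≤ M / d * e := by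
      rw [norm_sub_rev D Q]
      exact mul_le_mul h1 hQ (norm_nonneg _) (by positivity)
    nlinarith
  refine h2.trans ?_
  have h4 : e * (1 + M / d) = e * (1 + M / d) * (2 / d) * (d / 2) := by
    field_simp
  exact h4.le.trans (mul_le_mul_of_nonneg_left hQn (by positivity))

/-- **uniform limit of the chord slope** -/
theorem unif (h : RLimI) {κ β C : ℝ} {q : ℂ → ℂ} {j : ℂ} (hj : j = Complex.I ∨ j = -Complex.I)
    (hq : EndQ κ (-1) β C q) (hlim : Tendsto (fun τ => τ * (j * Complex.exp (q τ))) (𝓝[Sg κ] 0) (𝓝 1))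
    {c1 C1 : ℝ} (hc1 : 0 < c1) (hC : c1 ≤ C1) {ε : ℝ} (hε : 0 < ε) :
    ∃ l0 : ℝ, 0 < l0 ∧ ∀ l : ℝ, 0 < l → l < l0 → l * C1 < 1 ∧ ∀ x y : ℂ, c1 ≤ x.re → c1 ≤ y.re →
      ‖x‖ ≤ C1 → ‖y‖ ≤ C1 →
        Pj q (-j) (al l * x) (al l * y) ≠ 0 ∧
        ‖Rj q j (al l * x) (al l * y) - mR x y‖ ≤ ε := by
  have hC1 : 0 < C1 := lt_of_lt_of_le hc1 hC
  set d : ℝ := c1 / C1 with hd
  have hdpos : 0 < d := by positivity
  set M : ℝ := C1 ^ 3 / c1 ^ 3 with hM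
  have hMpos : 0 < M := by positivity
  set e : ℝ := min (d / 2) (ε / ((1 + M / d) * (2 / d))) with he
  have hepos : 0 < e := by
    rw [he]; apply lt_min <;> positivity
  obtain ⟨δ, hδ, hmain⟩ := h κ β C q j hj hq hlim (C1 / c1) e
    (by rw [le_div_iff₀ hc1]; linarith) hepos
  refine ⟨min (δ / C1) (1 / C1), by positivity, fun l hl hl0 => ?_⟩
  have h1 : l * C1 < δ := by
    have := hl0.trans_le (min_le_left _ _)
    rwa [lt_div_iff₀ hC1] at this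
  have h2 : l * C1 < 1 := by
    have := hl0.trans_le (min_le_right _ _)
    rwa [lt_div_iff₀ hC1] at this
  refine ⟨h2, fun x y hx hy hx2 hy2 => ?_⟩
  have hadm := adm hq.κ_pos hl hc1 hx hy hx2 hy2 h2
  have hnx : ‖al l * x‖ < δ := by
    rw [norm_mul, norm_al hl]
    exact lt_of_le_of_lt (mul_le_mul_of_nonneg_left hx2 hl.le) h1
  obtain ⟨k1, k2⟩ := hmain _ _ hadm hnx
  have hx4 : c1 ≤ ‖x‖ := hx.trans (Complex.re_le_norm _)
  have hxp : 0 < ‖x‖ := by linarith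
  have hx0 : x ≠ 0 := norm_pos_iff.1 hxp
  have ha := al_ne hl
  have s1 : ((al l * x) ^ 2 + (al l * y) ^ 2) * (al l * x + al l * y) / (4 * (al l * x) ^ 3) =
      (x ^ 2 + y ^ 2) * (x + y) / (4 * x ^ 3) := by
    field_simp
  have s2 : (al l * x + al l * y) / (2 * (al l * x)) = (x + y) / (2 * x) := by
    field_simp
  rw [s1] at k1
  rw [s2] at k2
  have hD : d ≤ ‖(x + y) / (2 * x)‖ := by
    have e2 : ‖(2 : ℂ)‖ = 2 := by norm_num
    rw [norm_div, norm_mul, e2, le_div_iff₀ (by positivity)]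
    have h5 : 2 * c1 ≤ ‖x + y‖ := by
      have := Complex.re_le_norm (x + y)
      rw [Complex.add_re] at this
      linarith
    have h6 : d * (2 * ‖x‖) ≤ d * (2 * C1) := by
      apply mul_le_mul_of_nonneg_left _ hdpos.le
      linarith
    have h7 : d * (2 * C1) = 2 * c1 := by
      rw [hd]; field_simp
    linarith
  have hA : ‖(x ^ 2 + y ^ 2) * (x + y) / (4 * x ^ 3)‖ ≤ M := by
    have e4 : ‖(4 : ℂ)‖ = 4 := by norm_num
    rw [norm_div, norm_mul, norm_mul, norm_pow, e4, div_le_iff₀ (by positivity)]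
    have h5 : ‖x ^ 2 + y ^ 2‖ ≤ 2 * C1 ^ 2 := by
      refine (norm_add_le _ _).trans ?_
      rw [norm_pow, norm_pow]
      have := pow_le_pow_left₀ (norm_nonneg x) hx2 2
      have := pow_le_pow_left₀ (norm_nonneg y) hy2 2
      linarith
    have h6 : ‖x + y‖ ≤ 2 * C1 := by
      refine (norm_add_le _ _).trans ?_
      linarith
    have h7 : ‖x ^ 2 + y ^ 2‖ * ‖x + y‖ ≤ 2 * C1 ^ 2 * (2 * C1) :=
      mul_le_mul h5 h6 (norm_nonneg _) (by positivity)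
    have h8 : c1 ^ 3 ≤ ‖x‖ ^ 3 := pow_le_pow_left₀ hc1.le hx4 3
    have h9 : M * (4 * c1 ^ 3) = 4 * C1 ^ 3 := by
      rw [hM]; field_simp
    have h10 : M * (4 * c1 ^ 3) ≤ M * (4 * ‖x‖ ^ 3) := by
      apply mul_le_mul_of_nonneg_left _ hMpos.le
      linarith
    nlinarith
  obtain ⟨r1, r2⟩ := quot_close hdpos hD hA k1 k2 (min_le_left _ _)
  refine ⟨r1, ?_⟩
  have hxy : x + y ≠ 0 := by
    rw [← norm_pos_iff]
    have := Complex.re_le_norm (x + y)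
    rw [Complex.add_re] at this
    linarith
  have s3 : (x ^ 2 + y ^ 2) * (x + y) / (4 * x ^ 3) / ((x + y) / (2 * x)) = mR x y := by
    rw [mR]
    field_simp
    ring
  rw [s3] at r2
  refine r2.trans ?_
  have h11 : e ≤ ε / ((1 + M / d) * (2 / d)) := min_le_right _ _
  rw [le_div_iff₀ (by positivity)] at h11
  linarith

/-- Lipschitz bound for the model -/
theorem mR_lip {c1 C1 e : ℝ} (hc1 : 0 < c1) {x y x' y' : ℂ} (hx : c1 ≤ ‖x‖) (hx' : c1 ≤ ‖x'‖)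
    (hx2 : ‖x‖ ≤ C1) (hx2' : ‖x'‖ ≤ C1) (hy2 : ‖y‖ ≤ C1) (hy2' : ‖y'‖ ≤ C1)
    (h1 : ‖x - x'‖ ≤ e) (h2 : ‖y - y'‖ ≤ e) :
    ‖mR x y - mR x' y'‖ ≤ 2 * C1 ^ 3 / c1 ^ 4 * e := by
  have hC1 : 0 < C1 := lt_of_lt_of_le hc1 (hx.trans hx2)
  have he : 0 ≤ e := (norm_nonneg _).trans h1
  have hx0 : x ≠ 0 := by rw [← norm_pos_iff]; linarith
  have hx0' : x' ≠ 0 := by rw [← norm_pos_iff]; linarith
  have e1 : mR x y - mR x' y' = ((y - y') * x' + y' * (x' - x)) * (y * x' + y' * x) /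
      (2 * x ^ 2 * x' ^ 2) := by
    rw [mR, mR]
    field_simp
    ring
  have hxp : 0 < ‖x‖ := by linarith
  have hxp' : 0 < ‖x'‖ := by linarith
  rw [e1, norm_div, norm_mul]
  have h3 : ‖(y - y') * x' + y' * (x' - x)‖ ≤ 2 * C1 * e := by
    refine (norm_add_le _ _).trans ?_
    rw [norm_mul, norm_mul, norm_sub_rev x' x]
    have a1 : ‖y - y'‖ * ‖x'‖ ≤ e * C1 := mul_le_mul h2 hx2' (norm_nonneg _) he
    have a2 : ‖y'‖ * ‖x - x'‖ ≤ C1 * e := mul_le_mul hy2' h1 (norm_nonneg _) hC1.le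
    linarith
  have h4 : ‖y * x' + y' * x‖ ≤ 2 * C1 ^ 2 := by
    refine (norm_add_le _ _).trans ?_
    rw [norm_mul, norm_mul]
    have a1 : ‖y‖ * ‖x'‖ ≤ C1 * C1 := mul_le_mul hy2 hx2' (norm_nonneg _) hC1.le
    have a2 : ‖y'‖ * ‖x‖ ≤ C1 * C1 := mul_le_mul hy2' hx2 (norm_nonneg _) hC1.le
    nlinarith
  have h5 : 2 * c1 ^ 4 ≤ ‖2 * x ^ 2 * x' ^ 2‖ := by
    rw [norm_mul, norm_mul, norm_pow, norm_pow]
    have e2 : ‖(2 : ℂ)‖ = 2 := by norm_num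
    rw [e2]
    have a1 := pow_le_pow_left₀ hc1.le hx 2
    have a2 := pow_le_pow_left₀ hc1.le hx' 2
    have a3 : c1 ^ 2 * c1 ^ 2 ≤ ‖x‖ ^ 2 * ‖x'‖ ^ 2 :=
      mul_le_mul a1 a2 (by positivity) (by positivity)
    nlinarith
  rw [div_le_iff₀ (lt_of_lt_of_le (by positivity) h5)]
  have h6 : ‖(y - y') * x' + y' * (x' - x)‖ * ‖y * x' + y' * x‖ ≤ 2 * C1 * e * (2 * C1 ^ 2) :=
    mul_le_mul h3 h4 (norm_nonneg _) (by positivity)
  refine h6.trans ?_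
  have h7 : 2 * C1 ^ 3 / c1 ^ 4 * e * (2 * c1 ^ 4) = 2 * C1 * e * (2 * C1 ^ 2) := by
    field_simp
  rw [← h7]
  exact mul_le_mul_of_nonneg_left h5 (by positivity)

theorem mR_norm {c1 C1 : ℝ} (hc1 : 0 < c1) {x y : ℂ} (hx : c1 ≤ ‖x‖)
    (hx2 : ‖x‖ ≤ C1) (hy2 : ‖y‖ ≤ C1) : ‖mR x y‖ ≤ C1 ^ 2 / c1 ^ 2 := by
  rw [mR, norm_div, norm_mul, norm_pow]
  have e2 : ‖(2 : ℂ)‖ = 2 := by norm_num
  rw [e2]
  have h1 : ‖x ^ 2 + y ^ 2‖ ≤ 2 * C1 ^ 2 := by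
    refine (norm_add_le _ _).trans ?_
    rw [norm_pow, norm_pow]
    have := pow_le_pow_left₀ (norm_nonneg x) hx2 2
    have := pow_le_pow_left₀ (norm_nonneg y) hy2 2
    linarith
  have h2 := pow_le_pow_left₀ hc1.le hx 2
  have hx0 : 0 < ‖x‖ := lt_of_lt_of_le hc1 hx
  rw [div_le_div_iff₀ (by positivity) (by positivity)]
  have h3 : ‖x ^ 2 + y ^ 2‖ * c1 ^ 2 ≤ 2 * C1 ^ 2 * ‖x‖ ^ 2 :=
    mul_le_mul h1 h2 (by positivity) (by positivity)
  linarith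

/-! ### the scaled labels -/

/-- scaled label -/
def xl (x : ℝ → ℂ → ℂ) (l : ℝ) (s : ℂ) : ℂ := x l (al l * s) / al l

theorem al_mul_xl (x : ℝ → ℂ → ℂ) {l : ℝ} (hl : 0 < l) (s : ℂ) :
    al l * xl x l s = x l (al l * s) := by
  rw [xl]; field_simp [al_ne hl]

theorem mem_Dl {κ' cc l : ℝ} (hκ : 0 < κ') (hl : 0 < l) {s : ℂ} (hs : 0 < s.re)
    (h1 : 1 < cc * ‖s‖) (h2 : l * ‖s‖ < 1 / 8) : al l * s ∈ Dl κ' cc l := by
  have hs0 : s ≠ 0 := by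
    rintro rfl
    norm_num at hs
  have hn : ‖al l * s‖ = l * ‖s‖ := by rw [norm_mul, norm_al hl]
  refine ⟨mul_ne_zero (al_ne hl) hs0, by rw [hn]; exact h2, ?_, ?_⟩
  · rw [hn, al_mul_im]
    have e1 : 0 < l * s.re := mul_pos hl hs
    have e2 : 0 < κ' * (l * ‖s‖) := by positivity
    linarith
  · rw [hn]
    have : l * 1 < l * (cc * ‖s‖) := mul_lt_mul_of_pos_left h1 hl
    linarith

theorem Rj_neg (q : ℂ → ℂ) (j x y : ℂ) : Rj q (-j) x y = (Rj q j x y)⁻¹ := by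
  rw [Rj, Rj, neg_neg, inv_div]

section side

variable {κ κ' β C cc CC l₀ : ℝ} {q : ℂ → ℂ} {j : ℂ} {M : ℂ → ℂ} {x : ℝ → ℂ → ℂ}

theorem xl_near (S : Side κ κ' (-1) β C cc CC l₀ q j M x) {l : ℝ} (hl : 0 < l) (hl0 : l < l₀)
    {s : ℂ} (hs : 0 < s.re) (h1 : 1 < cc * ‖s‖) (h2 : l * ‖s‖ < 1 / 8) :
    ‖xl x l s - s‖ * ‖s‖ ≤ |CC| := by
  have hm := mem_Dl S.κ'_pos hl hs h1 h2
  have h3 := S.cone.near l hl hl0 _ hm
  have hn : ‖al l * s‖ = l * ‖s‖ := by rw [norm_mul, norm_al hl]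
  have hspos : 0 < ‖s‖ := lt_of_lt_of_le hs (Complex.re_le_norm s)
  rw [hn] at h3
  have e : xl x l s - s = (x l (al l * s) - al l * s) / al l := by
    rw [xl]; field_simp [al_ne hl]
  rw [e, norm_div, norm_al hl, div_mul_eq_mul_div, div_le_iff₀ hl]
  rw [le_div_iff₀ (by positivity)] at h3
  have h4 : ‖x l (al l * s) - al l * s‖ * ‖s‖ * l ≤ CC * l ^ 2 := by linarith
  have h5 : ‖x l (al l * s) - al l * s‖ * ‖s‖ ≤ CC * l := by
    have : ‖x l (al l * s) - al l * s‖ * ‖s‖ * l ≤ CC * l * l := by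
      calc _ ≤ CC * l ^ 2 := h4
        _ = CC * l * l := by ring
    exact le_of_mul_le_mul_right this hl
  exact h5.trans (mul_le_mul_of_nonneg_right (le_abs_self CC) hl.le)

theorem xl_law (S : Side κ κ' (-1) β C cc CC l₀ q j M x) {l : ℝ} (hl : 0 < l) (hl0 : l < l₀)
    {s : ℂ} (hs : 0 < s.re) (h1 : 1 < cc * ‖s‖) (h2 : l * ‖s + 2‖ < 1 / 8)
    (h1' : 1 < cc * ‖s + 1‖) (h1'' : 1 < cc * ‖s + 2‖) (h2' : l * ‖s + 1‖ < 1 / 8)
    (h2'' : l * ‖s‖ < 1 / 8) :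
    Rj q j (al l * xl x l (s + 1)) (al l * xl x l s) *
      Rj q j (al l * xl x l (s + 1)) (al l * xl x l (s + 2)) = 1 := by
  have r1 : 0 < (s + 1).re := by simp; linarith
  have r2 : 0 < (s + 2).re := by simp; linarith
  have m0 := mem_Dl S.κ'_pos hl hs h1 h2''
  have m1 := mem_Dl S.κ'_pos hl r1 h1' h2'
  have m2 := mem_Dl S.κ'_pos hl r2 h1'' h2
  have e0 : al l * (s + 1) + Complex.I * l = al l * s := by rw [al]; ring
  have e2 : al l * (s + 1) - Complex.I * l = al l * (s + 2) := by rw [al]; ring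
  have h := S.rlaw l hl hl0 (al l * (s + 1)) (by rw [e0]; exact m0) m1 (by rw [e2]; exact m2)
  rw [e0, e2, ← al_mul_xl x hl, ← al_mul_xl x hl, ← al_mul_xl x hl] at h
  rcases S.hj with hj | hj
  · rw [hj]; exact h
  · rw [hj, Rj_neg, Rj_neg, ← mul_inv, h, inv_one]

end side

end Crest.Agent.R102.ExtI289
end
end

-- ▼ part R102/ExtIC_289

/-!
# Row 102, [T5]/MEL, leaf (ML-EI) = `ExtI` (helper289): the scaled labels converge to the model
-/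

set_option autoImplicit false

open Set Filter Topology Metric

noncomputable section

namespace Crest.Agent.R102.ExtI289

open Crest.Agent.R102.T5R Crest.Agent.R102.Mel

theorem norm_le_add {s : ℂ} (hs : 0 ≤ s.re) {k : ℝ} (hk : 0 ≤ k) : ‖s‖ ≤ ‖s + k‖ := by
  apply le_of_sq_le_sq _ (norm_nonneg _)
  rw [← Complex.normSq_eq_norm_sq, ← Complex.normSq_eq_norm_sq, Complex.normSq_apply,
    Complex.normSq_apply]
  simp only [Complex.add_re, Complex.add_im, Complex.ofReal_re, Complex.ofReal_im, add_zero]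
  nlinarith [mul_nonneg hs hk, mul_nonneg hk hk]

theorem norm_le_add_nat {s : ℂ} (hs : 0 ≤ s.re) (k : ℕ) : ‖s‖ ≤ ‖s + k‖ := by
  have := norm_le_add hs (k := (k : ℝ)) (Nat.cast_nonneg k)
  simpa using this

theorem ulim {𝒰 : Ultrafilter (ℝ × ℂ)} {f : ℝ × ℂ → ℂ} {r : ℝ}
    (h : ∀ᶠ p in (𝒰 : Filter (ℝ × ℂ)), ‖f p‖ ≤ r) : ∃ y, Tendsto f 𝒰 (𝓝 y) := by
  have hc : IsCompact (closedBall (0 : ℂ) r) := isCompact_closedBall 0 r
  have hle : ((𝒰.map f : Ultrafilter ℂ) : Filter ℂ) ≤ 𝓟 (closedBall (0 : ℂ) r) := by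
    rw [le_principal_iff]
    change f ⁻¹' _ ∈ (𝒰 : Filter (ℝ × ℂ))
    filter_upwards [h] with p hp
    simpa using hp
  obtain ⟨y, _, hy⟩ := hc.ultrafilter_le_nhds _ hle
  exact ⟨y, hy⟩

theorem mR_tendsto {F : Filter (ℝ × ℂ)} {f g : ℝ × ℂ → ℂ} {y z : ℂ} (hf : Tendsto f F (𝓝 y))
    (hg : Tendsto g F (𝓝 z)) (hy : y ≠ 0) :
    Tendsto (fun p => mR (f p) (g p)) F (𝓝 (mR y z)) := by
  unfold mR
  refine ((hf.pow 2).add (hg.pow 2)).div (tendsto_const_nhds.mul (hf.pow 2)) ?_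
  exact mul_ne_zero two_ne_zero (pow_ne_zero 2 hy)

section side

variable {κ κ' β C cc CC l₀ : ℝ} {q : ℂ → ℂ} {j : ℂ} {M : ℂ → ℂ} {x : ℝ → ℂ → ℂ}

/-- **the scaled labels converge to the model** -/
theorem close (h : RLimI) (S : Side κ κ' (-1) β C cc CC l₀ q j M x)
    (hlim : Tendsto (fun τ => τ * (j * Complex.exp (q τ))) (𝓝[Sg κ] 0) (𝓝 1)) :
    ∃ R1 : ℝ, 8 ≤ R1 ∧ 8 ≤ cc * R1 ∧ 8 ≤ κ' * R1 ∧ ∀ K ε : ℝ, 0 < ε → ∃ l1 : ℝ, 0 < l1 ∧
      ∀ l : ℝ, 0 < l → l < l1 → ∀ s : ℂ, 5 / 8 ≤ s.re → R1 ≤ ‖s‖ → ‖s‖ ≤ K →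
        ‖xl x l s - Y0 s‖ ≤ ε := by
  have hcc : 0 < cc := S.cone.c_pos
  have hκ' : 0 < κ' := S.κ'_pos
  set R1 : ℝ := max 8 (max (8 / cc) (max (8 / κ') (8 * |CC|))) with hR1
  have b1 : 8 ≤ R1 := le_max_left _ _
  have b2 : 8 / cc ≤ R1 := (le_max_left _ _).trans (le_max_right _ _)
  have b3 : 8 / κ' ≤ R1 := (le_max_left _ _).trans ((le_max_right _ _).trans (le_max_right _ _))
  have b4 : 8 * |CC| ≤ R1 :=
    (le_max_right _ _).trans ((le_max_right _ _).trans (le_max_right _ _))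
  have b2' : 8 ≤ cc * R1 := by rw [div_le_iff₀ hcc] at b2; linarith
  have b3' : 8 ≤ κ' * R1 := by rw [div_le_iff₀ hκ'] at b3; linarith
  refine ⟨R1, b1, b2', b3', fun K ε hε => ?_⟩
  by_contra hcon
  push Not at hcon
  set Bad : Set (ℝ × ℂ) := {p | 0 < p.1 ∧ 5 / 8 ≤ p.2.re ∧ R1 ≤ ‖p.2‖ ∧ ‖p.2‖ ≤ K ∧
    ε < ‖xl x p.1 p.2 - Y0 p.2‖} with hBad
  set F : Filter (ℝ × ℂ) := comap Prod.fst (𝓝 (0 : ℝ)) ⊓ 𝓟 Bad with hF
  have hne : F.NeBot := by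
    rw [hF, inf_principal_neBot_iff]
    intro U hU
    obtain ⟨V, hV, hVU⟩ := hU
    obtain ⟨e, he, hball⟩ := Metric.mem_nhds_iff.1 hV
    obtain ⟨l, hl, hle, s, hs1, hs2, hs3, hs4⟩ := hcon e he
    refine ⟨(l, s), hVU (hball ?_), hl, hs1, hs2, hs3, hs4⟩
    rw [mem_ball, Real.dist_eq, sub_zero, abs_of_pos hl]
    exact hle
  set 𝒰 : Ultrafilter (ℝ × ℂ) := Ultrafilter.of F with h𝒰
  have hle : (𝒰 : Filter (ℝ × ℂ)) ≤ F := Ultrafilter.of_le F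
  have tl : Tendsto (Prod.fst : ℝ × ℂ → ℝ) 𝒰 (𝓝 0) :=
    tendsto_comap.mono_left (hle.trans inf_le_left)
  have hB : ∀ᶠ p in (𝒰 : Filter (ℝ × ℂ)), p ∈ Bad :=
    (le_principal_iff.1 (hle.trans inf_le_right))
  have evl : ∀ b : ℝ, 0 < b → ∀ᶠ p in (𝒰 : Filter (ℝ × ℂ)), p.1 < b := fun b hb =>
    tl.eventually (gt_mem_nhds hb)
  obtain ⟨s0, hs0⟩ := ulim (𝒰 := 𝒰) (f := Prod.snd) (r := K) (hB.mono fun p hp => hp.2.2.2.1)
  have hs0re : 5 / 8 ≤ s0.re :=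
    ge_of_tendsto ((Complex.continuous_re.tendsto _).comp hs0) (hB.mono fun p hp => hp.2.1)
  have hs0n : R1 ≤ ‖s0‖ := ge_of_tendsto hs0.norm (hB.mono fun p hp => hp.2.2.1)
  have hCC8 : ∀ z w : ℂ, R1 ≤ ‖w‖ → ‖z - w‖ * ‖w‖ ≤ |CC| → ‖z - w‖ ≤ 1 / 8 := by
    intro z w hw hzw
    have h1 : ‖z - w‖ * R1 ≤ ‖z - w‖ * ‖w‖ := mul_le_mul_of_nonneg_left hw (norm_nonneg _)
    have h2 : ‖z - w‖ * R1 ≤ R1 / 8 := by linarith
    have h3 : 0 < R1 := by linarith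
    by_contra hcon
    push Not at hcon
    have := mul_lt_mul_of_pos_right hcon h3
    linarith
  -- good points
  have good : ∀ k : ℕ, ∀ᶠ p in (𝒰 : Filter (ℝ × ℂ)), 0 < p.1 ∧ p.1 < l₀ ∧
      0 < (p.2 + (k : ℂ)).re ∧ 1 < cc * ‖p.2 + (k : ℂ)‖ ∧ p.1 * ‖p.2 + (k : ℂ)‖ < 1 / 8 ∧
      R1 ≤ ‖p.2 + (k : ℂ)‖ ∧ 5 / 8 ≤ (p.2 + (k : ℂ)).re ∧ ‖p.2 + (k : ℂ)‖ ≤ |K| + k := by
    intro k
    have hKk : 0 < 1 / (8 * (|K| + k + 1)) := by positivity
    filter_upwards [hB, evl l₀ S.cone.l₀_pos, evl _ hKk] with p hp hp1 hp2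
    obtain ⟨q1, q2, q3, q4, _⟩ := hp
    have hre : (p.2 + (k : ℂ)).re = p.2.re + k := by simp
    have hk0 : (0 : ℝ) ≤ k := Nat.cast_nonneg k
    have hn : ‖p.2‖ ≤ ‖p.2 + (k : ℂ)‖ := norm_le_add_nat (by linarith) k
    have hn2 : ‖p.2 + (k : ℂ)‖ ≤ |K| + k := by
      refine (norm_add_le _ _).trans ?_
      rw [Complex.norm_natCast]
      have := le_abs_self K
      linarith
    refine ⟨q1, hp1, by rw [hre]; linarith, ?_, ?_, by linarith, by rw [hre]; linarith, hn2⟩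
    · have h1 : cc * R1 ≤ cc * ‖p.2 + (k : ℂ)‖ :=
        mul_le_mul_of_nonneg_left (by linarith) hcc.le
      linarith
    · rw [lt_div_iff₀ (by positivity)] at hp2
      nlinarith
  have hyk : ∀ k : ℕ, ∃ y : ℂ, Tendsto (fun p : ℝ × ℂ => xl x p.1 (p.2 + (k : ℂ))) 𝒰 (𝓝 y) ∧
      ‖y - (s0 + (k : ℂ))‖ * ‖s0 + (k : ℂ)‖ ≤ |CC| ∧ 1 / 2 ≤ y.re := by
    intro k
    have hnear : ∀ᶠ p in (𝒰 : Filter (ℝ × ℂ)),
        ‖xl x p.1 (p.2 + (k : ℂ)) - (p.2 + (k : ℂ))‖ * ‖p.2 + (k : ℂ)‖ ≤ |CC| := by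
      filter_upwards [good k] with p hp
      exact xl_near S hp.1 hp.2.1 hp.2.2.1 hp.2.2.2.1 hp.2.2.2.2.1
    have hbd : ∀ᶠ p in (𝒰 : Filter (ℝ × ℂ)), ‖xl x p.1 (p.2 + (k : ℂ))‖ ≤ 1 / 8 + (|K| + k) := by
      filter_upwards [good k, hnear] with p hp hp2
      have h1 := hCC8 _ _ hp.2.2.2.2.2.1 hp2
      have h2 : ‖xl x p.1 (p.2 + (k : ℂ))‖ ≤
          ‖xl x p.1 (p.2 + (k : ℂ)) - (p.2 + (k : ℂ))‖ + ‖p.2 + (k : ℂ)‖ := by
        have := norm_add_le (xl x p.1 (p.2 + (k : ℂ)) - (p.2 + (k : ℂ))) (p.2 + (k : ℂ))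
        rwa [sub_add_cancel] at this
      have h3 := hp.2.2.2.2.2.2.2
      linarith
    obtain ⟨y, hy⟩ := ulim hbd
    have hsk : Tendsto (fun p : ℝ × ℂ => p.2 + (k : ℂ)) 𝒰 (𝓝 (s0 + k)) := hs0.add_const _
    have h1 : ‖y - (s0 + (k : ℂ))‖ * ‖s0 + (k : ℂ)‖ ≤ |CC| :=
      le_of_tendsto ((hy.sub hsk).norm.mul hsk.norm) hnear
    refine ⟨y, hy, h1, ?_⟩
    have hn : ‖s0‖ ≤ ‖s0 + (k : ℂ)‖ := norm_le_add_nat (by linarith) k
    have h2 := hCC8 _ _ (hs0n.trans hn) h1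
    have h3 := Complex.abs_re_le_norm (y - (s0 + (k : ℂ)))
    have h4 : (y - (s0 + (k : ℂ))).re = y.re - (s0.re + k) := by simp
    rw [h4] at h3
    have h5 := (abs_le.1 (h3.trans h2)).1
    have hk0 : (0 : ℝ) ≤ k := Nat.cast_nonneg k
    linarith
  choose y hy1 hy2 hy3 using hyk
  have hy0 : ∀ k, y k ≠ 0 := by
    intro k h0
    have := hy3 k
    rw [h0] at this
    norm_num at this
  -- convergence of the slopes
  have slope : ∀ k m : ℕ, Tendsto (fun p : ℝ × ℂ =>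
      Rj q j (al p.1 * xl x p.1 (p.2 + (k : ℂ))) (al p.1 * xl x p.1 (p.2 + (m : ℂ)))) 𝒰
      (𝓝 (mR (y k) (y m))) := by
    intro k m
    have h1 := mR_tendsto (hy1 k) (hy1 m) (hy0 k)
    have h2 : Tendsto (fun p : ℝ × ℂ =>
        Rj q j (al p.1 * xl x p.1 (p.2 + (k : ℂ))) (al p.1 * xl x p.1 (p.2 + (m : ℂ))) -
          mR (xl x p.1 (p.2 + (k : ℂ))) (xl x p.1 (p.2 + (m : ℂ)))) 𝒰 (𝓝 0) := by
      rw [tendsto_zero_iff_norm_tendsto_zero, Metric.tendsto_nhds]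
      intro ε' hε'
      set C1 : ℝ := max 1 (max (‖y k‖ + 1) (‖y m‖ + 1)) with hC1
      obtain ⟨l1, hl1, hmain⟩ := unif h S.hj S.endq hlim (c1 := 1 / 4) (C1 := C1) (by norm_num)
        (by have : 1 ≤ C1 := le_max_left _ _; linarith) (ε := ε' / 2) (by linarith)
      have r1 : ∀ᶠ p in (𝒰 : Filter (ℝ × ℂ)), 1 / 4 < (xl x p.1 (p.2 + (k : ℂ))).re :=
        (((Complex.continuous_re.tendsto _).comp (hy1 k))).eventually
          (lt_mem_nhds (by linarith [hy3 k]))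
      have r2 : ∀ᶠ p in (𝒰 : Filter (ℝ × ℂ)), 1 / 4 < (xl x p.1 (p.2 + (m : ℂ))).re :=
        (((Complex.continuous_re.tendsto _).comp (hy1 m))).eventually
          (lt_mem_nhds (by linarith [hy3 m]))
      have r3 : ∀ᶠ p in (𝒰 : Filter (ℝ × ℂ)), ‖xl x p.1 (p.2 + (k : ℂ))‖ < ‖y k‖ + 1 :=
        (hy1 k).norm.eventually (gt_mem_nhds (by linarith))
      have r4 : ∀ᶠ p in (𝒰 : Filter (ℝ × ℂ)), ‖xl x p.1 (p.2 + (m : ℂ))‖ < ‖y m‖ + 1 :=
        (hy1 m).norm.eventually (gt_mem_nhds (by linarith))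
      filter_upwards [hB, evl l1 hl1, r1, r2, r3, r4] with p hp hp1 hp2 hp3 hp4 hp5
      have h5 : ‖y k‖ + 1 ≤ C1 := (le_max_left _ _).trans (le_max_right _ _)
      have h6 : ‖y m‖ + 1 ≤ C1 := (le_max_right _ _).trans (le_max_right _ _)
      have h7 := ((hmain p.1 hp.1 hp1).2 _ _ hp2.le hp3.le (by linarith) (by linarith)).2
      rw [dist_eq_norm, sub_zero, norm_norm]
      linarith
    have h3 := h2.add h1
    rw [zero_add] at h3
    refine h3.congr fun p => ?_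
    ring
  have law : ∀ k, (y (k + 1) ^ 2 + y k ^ 2) * (y (k + 1) ^ 2 + y (k + 2) ^ 2) =
      4 * y (k + 1) ^ 4 := by
    intro k
    have h1 := (slope (k + 1) k).mul (slope (k + 1) (k + 2))
    have h2 : ∀ᶠ p in (𝒰 : Filter (ℝ × ℂ)),
        Rj q j (al p.1 * xl x p.1 (p.2 + ((k + 1 : ℕ) : ℂ))) (al p.1 * xl x p.1 (p.2 + (k : ℂ))) *
        Rj q j (al p.1 * xl x p.1 (p.2 + ((k + 1 : ℕ) : ℂ)))
          (al p.1 * xl x p.1 (p.2 + ((k + 2 : ℕ) : ℂ))) = 1 := by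
      filter_upwards [good k, good (k + 1), good (k + 2)] with p g0 g1 g2
      have e1 : p.2 + ((k + 1 : ℕ) : ℂ) = p.2 + (k : ℂ) + 1 := by push_cast; ring
      have e2 : p.2 + ((k + 2 : ℕ) : ℂ) = p.2 + (k : ℂ) + 2 := by push_cast; ring
      rw [e1] at g1 ⊢
      rw [e2] at g2 ⊢
      exact xl_law S g0.1 g0.2.1 g0.2.2.1 g0.2.2.2.1 g2.2.2.2.2.1 g1.2.2.2.1 g2.2.2.2.1
        g1.2.2.2.2.1 g0.2.2.2.2.1
    have h3 : mR (y (k + 1)) (y k) * mR (y (k + 1)) (y (k + 2)) = 1 :=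
      tendsto_nhds_unique (h1.congr' h2) tendsto_const_nhds
    have h4 := hy0 (k + 1)
    rw [mR, mR] at h3
    field_simp at h3
    linear_combination h3
  have hbd : ∀ k : ℕ, ‖y k ^ 2 - (s0 + (k : ℂ)) ^ 2‖ ≤ |CC| * 3 := by
    intro k
    have e : y k ^ 2 - (s0 + (k : ℂ)) ^ 2 =
        (y k - (s0 + (k : ℂ))) * (y k - (s0 + (k : ℂ)) + 2 * (s0 + (k : ℂ))) := by
      ring
    have hn : ‖s0‖ ≤ ‖s0 + (k : ℂ)‖ := norm_le_add_nat (by linarith) k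
    have h2 := hCC8 _ _ (hs0n.trans hn) (hy2 k)
    rw [e, norm_mul]
    have h3 : ‖y k - (s0 + (k : ℂ)) + 2 * (s0 + (k : ℂ))‖ ≤ 3 * ‖s0 + (k : ℂ)‖ := by
      refine (norm_add_le _ _).trans ?_
      rw [norm_mul]
      have e2 : ‖(2 : ℂ)‖ = 2 := by norm_num
      rw [e2]
      linarith
    have h4 := mul_le_mul_of_nonneg_left h3 (norm_nonneg (y k - (s0 + (k : ℂ))))
    have h5 := hy2 k
    nlinarith
  have hr := rigid hy0 law hbd
  have hY := Y0_sq (s := s0) (by linarith)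
  have hYre := Y0_re_ge hs0re
  have heq : y 0 = Y0 s0 := by
    have h1 : (y 0 - Y0 s0) * (y 0 + Y0 s0) = 0 := by
      have : (y 0 - Y0 s0) * (y 0 + Y0 s0) = y 0 ^ 2 - Y0 s0 ^ 2 := by ring
      rw [this, hr, hY, sub_self]
    have h2 : y 0 + Y0 s0 ≠ 0 := by
      intro h0
      have := congrArg Complex.re h0
      rw [Complex.add_re, Complex.zero_re] at this
      linarith [hy3 0]
    exact sub_eq_zero.1 ((mul_eq_zero.1 h1).resolve_right h2)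
  have hcY : Tendsto (fun p : ℝ × ℂ => Y0 p.2) 𝒰 (𝓝 (Y0 s0)) := by
    have : ContinuousAt Y0 s0 := by
      have ho : IsOpen {s : ℂ | 1 / 2 < s.re} := isOpen_lt continuous_const Complex.continuous_re
      exact (Y0_diff.differentiableAt (ho.mem_nhds (by
        change (1 : ℝ) / 2 < s0.re; linarith))).continuousAt
    exact this.tendsto.comp hs0
  have h0 := hy1 0
  simp only [Nat.cast_zero, add_zero] at h0
  have hfin := (h0.sub hcY).norm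
  rw [heq, sub_self, norm_zero] at hfin
  have := ge_of_tendsto hfin (hB.mono fun p hp => hp.2.2.2.2.le)
  linarith

end side

end Crest.Agent.R102.ExtI289
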