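import Mathlib

/-!
Row 102, part (C), H3, leaf F5: generic smoothness and lifting of `ℂ`-points to formal curves.
-/

namespace Crest.Agent.R102.F5

open PowerSeries

section generic

variable (B A : Type*) [CommRing B] [CommRing A] [IsDomain B] [IsDomain A] [Algebra ℂ B]
  [Algebra ℂ A] [Algebra B A] [IsScalarTower ℂ B A]

/-- generic smoothness (F5b) -/
theorem generic_smooth [Algebra.FiniteType ℂ B] [Algebra.FiniteType ℂ A]
    (hinj : Function.Injective (algebraMap B A)) :
    ∃ f : A, f ≠ 0 ∧ Algebra.Smooth B (Localization.Away f) := by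
  have hNB : IsNoetherianRing B := Algebra.FiniteType.isNoetherianRing ℂ B
  have hft : Algebra.FiniteType B A := Algebra.FiniteType.of_restrictScalars_finiteType ℂ B A
  have hfp : Algebra.FinitePresentation B A := Algebra.FinitePresentation.of_finiteType.mp hft
  let L := Localization.AtPrime (⊥ : Ideal A)
  let K := FractionRing B
  have hL : IsFractionRing A L := by
    have h2 : ∀ M : Submonoid A, M = (⊥ : Ideal A).primeCompl → IsLocalization M L := by
      rintro _ rfl
      infer_instance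
    exact h2 _ Ideal.primeCompl_bot.symm
  let _ : Field L := IsFractionRing.toField A
  have hinj2 : Function.Injective (algebraMap B L) := by
    rw [IsScalarTower.algebraMap_eq B A L]
    exact (IsFractionRing.injective A L).comp hinj
  have : FaithfulSMul B L := (faithfulSMul_iff_algebraMap_injective B L).mpr hinj2
  let _ : Algebra K L := FractionRing.liftAlgebra B L
  have : IsScalarTower B K L := FractionRing.isScalarTower_liftAlgebra B L
  have hKc : CharZero K := by
    have : CharZero B := charZero_of_injective_algebraMap (algebraMap ℂ B).injective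
    exact charZero_of_injective_algebraMap (IsFractionRing.injective B K)
  have : PerfectField K := PerfectField.ofCharZero
  have : Algebra.EssFiniteType B L := Algebra.EssFiniteType.comp B A L
  have : Algebra.EssFiniteType K L := Algebra.EssFiniteType.of_comp B K L
  have : Algebra.FormallySmooth K L := inferInstance
  have : Algebra.FormallySmooth B K := Algebra.FormallySmooth.of_isLocalization (nonZeroDivisors B)
  have hs : Algebra.FormallySmooth B L := Algebra.FormallySmooth.comp B K L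
  have hs' : Algebra.IsSmoothAt B (⊥ : Ideal A) := hs
  obtain ⟨f, hf, hsm⟩ := Algebra.IsSmoothAt.exists_notMem_smooth B (⊥ : Ideal A)
  exact ⟨f, by simpa using hf, hsm⟩

end generic





section lift

theorem isAdicComplete_pow {R : Type*} [CommRing R] (I : Ideal R) [h : IsAdicComplete I R] (k : ℕ)
    (hk : 1 ≤ k) : IsAdicComplete (I ^ k) R := by
  have hle : ∀ n : ℕ, ((I ^ k) ^ n • ⊤ : Submodule R R) ≤ I ^ n • ⊤ := by
    intro n
    rw [← pow_mul]
    exact Submodule.smul_mono_left (Ideal.pow_le_pow_right (by nlinarith))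
  have hH : IsHausdorff (I ^ k) R := by
    refine ⟨fun x hx => ?_⟩
    exact h.toIsHausdorff.haus x fun n => (hx n).mono (hle n)
  have hP : IsPrecomplete (I ^ k) R := by
    refine ⟨fun f hf => ?_⟩
    obtain ⟨L, hL⟩ := h.toIsPrecomplete.prec (f := f) fun {m n} hmn => (hf hmn).mono (hle m)
    refine ⟨L, fun n => ?_⟩
    have h1 := hf (m := n) (n := k * n) (by nlinarith)
    have h2 := hL (k * n)
    rw [pow_mul] at h2
    exact h1.trans h2
  exact { }

variable {B A : Type*} [CommRing B] [CommRing A] [Algebra ℂ B] [Algebra ℂ A] [Algebra B A]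
  [IsScalarTower ℂ B A]

theorem mem_sq_iff (f : ℂ⟦X⟧) : f ∈ (Ideal.span {(X : ℂ⟦X⟧)}) ^ 2 ↔
    constantCoeff f = 0 ∧ coeff 1 f = 0 := by
  rw [Ideal.span_singleton_pow, Ideal.mem_span_singleton, X_pow_dvd_iff]
  constructor
  · intro h
    exact ⟨by simpa using h 0 (by norm_num), h 1 (by norm_num)⟩
  · rintro ⟨h0, h1⟩ m hm
    interval_cases m
    · simpa using h0
    · exact h1

/-- (F5c') lifting of a tangent vector to a formal curve, relative version -/
theorem exists_lift [Algebra.FormallySmooth B A] (ψB : B →ₐ[ℂ] ℂ⟦X⟧) (ev : A →ₐ[ℂ] ℂ)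
    (hev : ∀ b, ev (algebraMap B A b) = constantCoeff (ψB b)) (δ : A →ₗ[ℂ] ℂ)
    (hδ : ∀ a b, δ (a * b) = ev a * δ b + ev b * δ a)
    (hδB : ∀ b, δ (algebraMap B A b) = coeff 1 (ψB b)) :
    ∃ ψ : A →ₐ[ℂ] ℂ⟦X⟧, (∀ b, ψ (algebraMap B A b) = ψB b) ∧
      (∀ a, constantCoeff (ψ a) = ev a) ∧ ∀ a, coeff 1 (ψ a) = δ a := by
  let _ : Algebra B ℂ⟦X⟧ := ψB.toRingHom.toAlgebra
  have : IsScalarTower ℂ B ℂ⟦X⟧ := IsScalarTower.of_algebraMap_eq fun x => (ψB.commutes x).symm
  let I : Ideal ℂ⟦X⟧ := (Ideal.span {(X : ℂ⟦X⟧)}) ^ 2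
  have : IsAdicComplete I ℂ⟦X⟧ := isAdicComplete_pow _ 2 (by norm_num)
  have hδ1 : δ 1 = 0 := by
    have := hδ 1 1
    simp at this
    exact this
  let F : A → ℂ⟦X⟧ := fun a => C (ev a) + C (δ a) * X
  have hF0 : ∀ a, constantCoeff (F a) = ev a := fun a => by simp [F]
  have hF1 : ∀ a, coeff 1 (F a) = δ a := fun a => by simp [F, coeff_C]
  have key : ∀ x y : ℂ⟦X⟧, constantCoeff x = constantCoeff y → coeff 1 x = coeff 1 y →
      Ideal.Quotient.mk I x = Ideal.Quotient.mk I y := by
    intro x y h0 h1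
    rw [Ideal.Quotient.eq]
    exact (mem_sq_iff _).mpr ⟨by simp [h0], by simp [h1]⟩
  have hc1 : ∀ x y : ℂ⟦X⟧, coeff 1 (x * y) = constantCoeff x * coeff 1 y +
      constantCoeff y * coeff 1 x := by
    intro x y
    rw [coeff_mul, Finset.Nat.antidiagonal_succ]
    simp
    ring
  let f : A →ₐ[B] ℂ⟦X⟧ ⧸ I :=
    { toFun := fun a => Ideal.Quotient.mk I (F a)
      map_one' := by
        rw [← map_one (Ideal.Quotient.mk I)]
        exact key _ _ (by rw [hF0]; simp) (by rw [hF1, hδ1]; simp [coeff_one])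
      map_mul' := fun a b => by
        rw [← map_mul (Ideal.Quotient.mk I)]
        refine key _ _ (by rw [map_mul, hF0, hF0, hF0, map_mul]) ?_
        rw [hc1, hF1, hF1, hF1, hF0, hF0, hδ]
      map_zero' := by
        rw [← map_zero (Ideal.Quotient.mk I)]
        exact key _ _ (by rw [hF0]; simp) (by rw [hF1]; simp)
      map_add' := fun a b => by
        rw [← map_add (Ideal.Quotient.mk I)]
        refine key _ _ ?_ ?_
        · rw [hF0, map_add, map_add, hF0, hF0]
        · rw [hF1, map_add, map_add, hF1, hF1]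
      commutes' := fun b => by
        change Ideal.Quotient.mk I (F (algebraMap B A b)) = Ideal.Quotient.mk I (ψB b)
        exact key _ _ (by rw [hF0, hev]) (by rw [hF1, hδB]) }
  obtain ⟨g, hg⟩ := Algebra.FormallySmooth.exists_mkₐ_comp_eq_of_isAdicComplete f
  have hg' : ∀ a, g a - F a ∈ I := by
    intro a
    have := DFunLike.congr_fun hg a
    exact Ideal.Quotient.eq.mp this
  refine ⟨g.restrictScalars ℂ, fun b => g.commutes b, fun a => ?_, fun a => ?_⟩
  · have := ((mem_sq_iff _).mp (hg' a)).1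
    rw [map_sub, sub_eq_zero, hF0] at this
    exact this
  · have := ((mem_sq_iff _).mp (hg' a)).2
    rw [map_sub, sub_eq_zero, hF1] at this
    exact this


/-- the homomorphism to the dual numbers given by a point and a tangent vector -/
noncomputable def dualHom {R : Type*} [CommRing R] [Algebra ℂ R] (e : R →ₐ[ℂ] ℂ) (d : R →ₗ[ℂ] ℂ)
    (h : ∀ a b, d (a * b) = e a * d b + e b * d a) : R →ₐ[ℂ] TrivSqZeroExt ℂ ℂ where
  toFun b := (TrivSqZeroExt.inl (e b) + TrivSqZeroExt.inr (d b))
  map_one' := by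
    have h1 : d 1 = 0 := by
      have := h 1 1
      simp at this
      exact this
    ext <;> simp [-DualNumber.inr_eq_smul_eps, h1]
  map_mul' a b := by
    ext
    · simp [-DualNumber.inr_eq_smul_eps]
    · simp [-DualNumber.inr_eq_smul_eps, h]
      ring
  map_zero' := by ext <;> simp [-DualNumber.inr_eq_smul_eps]
  map_add' a b := by ext <;> simp [-DualNumber.inr_eq_smul_eps]
  commutes' r := by
    have h1 : d 1 = 0 := by
      have := h 1 1
      simp at this
      exact this
    have h2 : d (algebraMap ℂ R r) = 0 := by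
      rw [Algebra.algebraMap_eq_smul_one, map_smul, h1, smul_zero]
    have h3 : (algebraMap ℂ (TrivSqZeroExt ℂ ℂ)) r = TrivSqZeroExt.inl r := rfl
    rw [h3]
    ext
    · simp [-DualNumber.inr_eq_smul_eps]
    · simp [-DualNumber.inr_eq_smul_eps, h2]

@[simp] theorem dualHom_fst {R : Type*} [CommRing R] [Algebra ℂ R] (e : R →ₐ[ℂ] ℂ)
    (d : R →ₗ[ℂ] ℂ) (h : ∀ a b, d (a * b) = e a * d b + e b * d a) (a : R) :
    (dualHom e d h a).fst = e a := by
  simp [dualHom, -DualNumber.inr_eq_smul_eps]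

@[simp] theorem dualHom_snd {R : Type*} [CommRing R] [Algebra ℂ R] (e : R →ₐ[ℂ] ℂ)
    (d : R →ₗ[ℂ] ℂ) (h : ∀ a b, d (a * b) = e a * d b + e b * d a) (a : R) :
    (dualHom e d h a).snd = d a := by
  simp [dualHom, -DualNumber.inr_eq_smul_eps]

/-- extension of derivations along a formally smooth algebra -/
theorem exists_derivation [Algebra.FormallySmooth B A] (ev : A →ₐ[ℂ] ℂ) (δB : B →ₗ[ℂ] ℂ)
    (hδB : ∀ a b, δB (a * b) = ev (algebraMap B A a) * δB b + ev (algebraMap B A b) * δB a) :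
    ∃ δ : A →ₗ[ℂ] ℂ, (∀ a b, δ (a * b) = ev a * δ b + ev b * δ a) ∧
      ∀ b, δ (algebraMap B A b) = δB b := by
  let evB : B →ₐ[ℂ] ℂ := ev.comp (IsScalarTower.toAlgHom ℂ B A)
  let ψB : B →ₐ[ℂ] TrivSqZeroExt ℂ ℂ := dualHom evB δB hδB
  let _ : Algebra B (TrivSqZeroExt ℂ ℂ) := ψB.toRingHom.toAlgebra
  have : IsScalarTower ℂ B (TrivSqZeroExt ℂ ℂ) :=
    IsScalarTower.of_algebraMap_eq fun x => (ψB.commutes x).symm
  let _ : Algebra B ℂ := evB.toRingHom.toAlgebra
  let f : A →ₐ[B] ℂ := { ev with commutes' := fun b => rfl }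
  let g : TrivSqZeroExt ℂ ℂ →ₐ[B] ℂ :=
    { TrivSqZeroExt.fstHom ℂ ℂ ℂ with
      commutes' := fun b => dualHom_fst evB δB hδB b }
  have hg : Function.Surjective g := fun x => ⟨TrivSqZeroExt.inl x, by
    change (TrivSqZeroExt.inl x : TrivSqZeroExt ℂ ℂ).fst = x
    simp⟩
  have hk : IsNilpotent (RingHom.ker (g : TrivSqZeroExt ℂ ℂ →+* ℂ)) := by
    refine ⟨2, ?_⟩
    have h2 : (RingHom.ker (g : TrivSqZeroExt ℂ ℂ →+* ℂ)) ^ 2 =
        RingHom.ker (g : TrivSqZeroExt ℂ ℂ →+* ℂ) * RingHom.ker (g : TrivSqZeroExt ℂ ℂ →+* ℂ) := by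
      rw [show (2 : ℕ) = 1 + 1 from rfl, Submodule.pow_succ, Submodule.pow_one]
    rw [h2, Ideal.zero_eq_bot, eq_bot_iff, Ideal.mul_le]
    intro r hr s hs
    have hr' : r.fst = 0 := hr
    have hs' : s.fst = 0 := hs
    rw [Ideal.mem_bot]
    ext <;> simp [hr', hs']
  let F : A →ₐ[B] TrivSqZeroExt ℂ ℂ := Algebra.FormallySmooth.liftOfSurjective f g hg hk
  have hF : ∀ a, (F a).fst = ev a := fun a =>
    Algebra.FormallySmooth.liftOfSurjective_apply f g hg hk a
  let F' : A →ₐ[ℂ] TrivSqZeroExt ℂ ℂ := F.restrictScalars ℂ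
  refine ⟨(TrivSqZeroExt.sndHom ℂ ℂ).comp F'.toLinearMap, fun a b => ?_, fun b => ?_⟩
  · change (F (a * b)).snd = ev a * (F b).snd + ev b * (F a).snd
    rw [map_mul, TrivSqZeroExt.snd_mul, hF, hF]
    simp
    ring
  · change (F (algebraMap B A b)).snd = δB b
    rw [F.commutes]
    exact dualHom_snd evB δB hδB b


end lift

end Crest.Agent.R102.F5
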