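import Mathlib

-- ▼ part R102/DefsA_929
section

/-!
Row 102, part (A) (helper929): the analytic functional `Qf` on `C([0,1], ℂ) × ℂ` which describes
one reflection in the Lazutkin parameter, and the local functions `dq, Xq, Pq, EP`.

Geometry (real case): `γ' = exp(-2q + iΘ)`, `Θ' = exp q`.  `Pq q x e = exp(-2 q x) (1 - cos β)` where
`β` is the angle between the tangent at `x` and the chord to `x + e`.
-/

set_option autoImplicit false

open Set Filter Topology Metric Complex MeasureTheory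
open scoped Real ContDiff

noncomputable section

namespace Crest.Agent.R102.A929

/-- the Banach algebra `C([0,1], ℂ)` -/
def AA : Type := C(unitInterval, ℂ)

instance : NormedCommRing AA := inferInstanceAs (NormedCommRing C(unitInterval, ℂ))
instance : NormedAlgebra ℂ AA := inferInstanceAs (NormedAlgebra ℂ C(unitInterval, ℂ))
instance : NormedAlgebra ℚ AA := inferInstanceAs (NormedAlgebra ℚ C(unitInterval, ℂ))
instance : CompleteSpace AA := inferInstanceAs (CompleteSpace C(unitInterval, ℂ))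
instance : NormOneClass AA := inferInstanceAs (NormOneClass C(unitInterval, ℂ))
instance : FunLike AA unitInterval ℂ := inferInstanceAs (FunLike C(unitInterval, ℂ) unitInterval ℂ)

lemma AA.ext' {f g : AA} (h : ∀ r : unitInterval, f r = g r) : f = g := ContinuousMap.ext h

lemma AA.continuous_coe (f : AA) : Continuous (fun r : unitInterval => f r) :=
  ContinuousMap.continuous (f : C(unitInterval, ℂ))

lemma AA.norm_coe_le_norm (f : AA) (r : unitInterval) : ‖f r‖ ≤ ‖f‖ :=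
  ContinuousMap.norm_coe_le_norm (f : C(unitInterval, ℂ)) r

lemma AA.norm_le {f : AA} {C : ℝ} (hC : 0 ≤ C) : ‖f‖ ≤ C ↔ ∀ r : unitInterval, ‖f r‖ ≤ C :=
  ContinuousMap.norm_le (f : C(unitInterval, ℂ)) hC

@[simp] lemma AA.add_apply (f g : AA) (r : unitInterval) : (f + g) r = f r + g r := rfl
@[simp] lemma AA.sub_apply (f g : AA) (r : unitInterval) : (f - g) r = f r - g r := rfl
@[simp] lemma AA.neg_apply (f : AA) (r : unitInterval) : (-f) r = -(f r) := rfl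
@[simp] lemma AA.mul_apply (f g : AA) (r : unitInterval) : (f * g) r = f r * g r := rfl
@[simp] lemma AA.smul_apply (c : ℂ) (f : AA) (r : unitInterval) : (c • f) r = c * f r := rfl
@[simp] lemma AA.zero_apply (r : unitInterval) : (0 : AA) r = 0 := rfl
@[simp] lemma AA.one_apply (r : unitInterval) : (1 : AA) r = 1 := rfl

/-- evaluation at a point as an algebra homomorphism -/
def AA.evalHom (r : unitInterval) : AA →ₐ[ℂ] ℂ where
  toFun f := f r
  map_one' := rfl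
  map_mul' _ _ := rfl
  map_zero' := rfl
  map_add' _ _ := rfl
  commutes' _ := rfl

/-- evaluation at a point as a continuous linear map -/
def AA.evalL (r : unitInterval) : AA →L[ℂ] ℂ :=
  LinearMap.mkContinuous (AA.evalHom r).toLinearMap 1 (fun f => by
    rw [one_mul]; exact f.norm_coe_le_norm r)

@[simp] lemma AA.evalL_apply (r : unitInterval) (f : AA) : AA.evalL r f = f r := rfl

/-- the coordinate function `r ↦ r` -/
def iot : AA := (⟨fun r => ((r : ℝ) : ℂ), by fun_prop⟩ : C(unitInterval, ℂ))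

@[simp] lemma iot_apply (r : unitInterval) : iot r = ((r : ℝ) : ℂ) := rfl

lemma norm_iot_le : ‖iot‖ ≤ 1 := by
  refine (AA.norm_le zero_le_one).2 (fun r => ?_)
  rw [iot_apply, Complex.norm_real, Real.norm_eq_abs, abs_of_nonneg r.2.1]
  exact r.2.2

/-- extension of `f` to `ℝ` (constant outside `[0,1]`) -/
def ext (f : AA) : ℝ → ℂ := Set.IccExtend zero_le_one f

lemma continuous_ext (f : AA) : Continuous (ext f) := f.continuous_coe.Icc_extend'

lemma ext_apply (f : AA) (r : unitInterval) : ext f r = f r := by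
  unfold ext
  rw [Set.IccExtend_val]

lemma norm_ext_le (f : AA) (r : ℝ) : ‖ext f r‖ ≤ ‖f‖ := f.norm_coe_le_norm _

lemma ext_add (f g : AA) : ext (f + g) = fun r => ext f r + ext g r := rfl
lemma ext_smul (c : ℂ) (f : AA) : ext (c • f) = fun r => c * ext f r := rfl
lemma ext_mul (f g : AA) : ext (f * g) = fun r => ext f r * ext g r := rfl

lemma ext_iot {r : ℝ} (h : r ∈ Icc (0 : ℝ) 1) : ext iot r = r := by
  unfold ext
  rw [Set.IccExtend_of_mem _ _ h]; rfl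

/-- the Volterra operator as a function -/
def Jf (f : AA) : AA :=
  (⟨fun r => ∫ a in (0 : ℝ)..r, ext f a,
    (intervalIntegral.continuous_primitive
      (fun a b => (continuous_ext f).intervalIntegrable a b) 0).comp continuous_subtype_val⟩ :
      C(unitInterval, ℂ))

lemma Jf_apply (f : AA) (r : unitInterval) : Jf f r = ∫ a in (0 : ℝ)..r, ext f a := rfl

/-- the Volterra operator `(J f)(r) = ∫_0^r f` -/
def J : AA →L[ℂ] AA :=
  LinearMap.mkContinuous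
    { toFun := Jf
      map_add' := fun f g => by
        refine AA.ext' (fun r => ?_)
        rw [Jf_apply, AA.add_apply, Jf_apply, Jf_apply, ext_add]
        exact intervalIntegral.integral_add ((continuous_ext f).intervalIntegrable _ _)
          ((continuous_ext g).intervalIntegrable _ _)
      map_smul' := fun c f => by
        refine AA.ext' (fun r => ?_)
        rw [Jf_apply, RingHom.id_apply, AA.smul_apply, Jf_apply, ext_smul]
        exact intervalIntegral.integral_const_mul _ _ } 1 (fun f => by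
      rw [one_mul]
      refine (AA.norm_le (norm_nonneg _)).2 (fun r => ?_)
      have h1 := intervalIntegral.norm_integral_le_of_norm_le_const (f := ext f) (a := 0)
        (b := (r : ℝ)) (C := ‖f‖) (fun x _ => norm_ext_le f x)
      have h2 : |(r : ℝ) - 0| ≤ 1 := by
        rw [sub_zero, abs_of_nonneg r.2.1]; exact r.2.2
      exact h1.trans (by
        have := mul_le_mul_of_nonneg_left h2 (norm_nonneg f)
        linarith))

lemma J_apply (f : AA) (r : unitInterval) : J f r = ∫ a in (0 : ℝ)..r, ext f a := rfl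

lemma norm_J_apply_le (f : AA) : ‖J f‖ ≤ ‖f‖ := by
  have h : ‖J‖ ≤ 1 := LinearMap.mkContinuous_norm_le _ zero_le_one _
  have := J.le_of_opNorm_le h f
  linarith

/-- integration over `[0,1]` -/
def Lam : AA →L[ℂ] ℂ := (AA.evalL (1 : unitInterval)).comp J

lemma Lam_apply (f : AA) : Lam f = ∫ a in (0 : ℝ)..1, ext f a := rfl

lemma norm_Lam_apply_le (f : AA) : ‖Lam f‖ ≤ ‖f‖ := by
  have h1 : ‖Lam f‖ ≤ ‖J f‖ := (J f).norm_coe_le_norm 1
  exact h1.trans (norm_J_apply_le f)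

/-- cosine in `AA` -/
def cosA (a : AA) : AA :=
  (1 / 2 : ℂ) • (NormedSpace.exp (I • a) + NormedSpace.exp (-(I • a)))

lemma exp_apply (f : AA) (r : unitInterval) : (NormedSpace.exp f : AA) r = Complex.exp (f r) := by
  have h := NormedSpace.map_exp (AA.evalHom r) (AA.evalL r).continuous f
  rw [Complex.exp_eq_exp_ℂ]
  exact h

lemma cosA_apply (a : AA) (r : unitInterval) : cosA a r = Complex.cos (a r) := by
  unfold cosA
  rw [AA.smul_apply, AA.add_apply, exp_apply, exp_apply,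
    AA.neg_apply, AA.smul_apply, Complex.cos]
  rw [mul_comm I]
  ring_nf

/-- `E_r = ∫_0^r exp(d)` -/
def Ef (d : AA) : AA := J (NormedSpace.exp d)

/-- `I_c = ∫ exp(-2d) cos(z E)` -/
def Ic (X : AA × ℂ) : ℂ :=
  Lam (NormedSpace.exp ((-2 : ℂ) • X.1) * cosA (X.2 • Ef X.1))

/-- `I_s = ∫ exp(-2d) sin(z E) / z` -/
def Is (X : AA × ℂ) : ℂ :=
  Lam (NormedSpace.exp ((-2 : ℂ) • X.1) *
    J (NormedSpace.exp X.1 * cosA (X.2 • Ef X.1)))

/-- `b = I_s / I_c`, `tan β = z b` -/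
def bf (X : AA × ℂ) : ℂ := Is X / Ic X

/-- square root near `1` -/
def sq (y : ℂ) : ℂ := Complex.exp (Complex.log (1 + y) / 2)

/-- `φ(y) = 1/(s(1+s))`, `s = √(1+y)` -/
def phi (y : ℂ) : ℂ := 1 / (sq y * (1 + sq y))

/-- the reflection functional -/
def Qf (X : AA × ℂ) : ℂ := bf X ^ 2 * phi (X.2 ^ 2 * bf X ^ 2)

/-- the linear functional `d ↦ ∫ (2 - 3 r) d_r dr` -/
def Lf : AA →L[ℂ] ℂ :=
  Lam.comp ((ContinuousLinearMap.mul ℂ AA ((2 : ℂ) • (1 : AA) - (3 : ℂ) • iot)))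

lemma Lf_apply (d : AA) : Lf d = Lam (((2 : ℂ) • (1 : AA) - (3 : ℂ) • iot) * d) := rfl

/-- increments of `q` along the segment from `x` to `x + e` -/
def dq (q : C(ℂ, ℂ)) (x e : ℂ) : AA :=
  (⟨fun r => q (x + e * ((r : ℝ) : ℂ)) - q x, by fun_prop⟩ : C(unitInterval, ℂ))

@[simp] lemma dq_apply (q : C(ℂ, ℂ)) (x e : ℂ) (r : unitInterval) :
    dq q x e r = q (x + e * ((r : ℝ) : ℂ)) - q x := rfl

/-- the argument of `Qf` -/
def Xq (q : C(ℂ, ℂ)) (x e : ℂ) : AA × ℂ := (dq q x e, e * Complex.exp (q x))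

/-- `exp(-2q(x)) (1 - cos β)` -/
def Pq (q : C(ℂ, ℂ)) (x e : ℂ) : ℂ := e ^ 2 * Qf (Xq q x e)

/-- defect of the reflection law at `b` for the polygon `a, b, c` -/
def EP (q : C(ℂ, ℂ)) (a b c : ℂ) : ℂ := Pq q b (-(b - a)) - Pq q b (c - b)

end Crest.Agent.R102.A929
end
end

-- ▼ part R102/FuncA_929
section

/-!
Row 102, part (A) (helper929): analyticity of the reflection functional `Qf` near `0`, its first
derivative at `0`, and the resulting local estimates.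
-/

set_option autoImplicit false

open Set Filter Topology Metric Complex MeasureTheory
open scoped Real ContDiff

noncomputable section

namespace Crest.Agent.R102.A929

lemma analyticAt_expA (a : AA) : AnalyticAt ℂ (NormedSpace.exp : AA → AA) a :=
  NormedSpace.exp_analytic a

lemma expA_zero : (NormedSpace.exp (0 : AA) : AA) = 1 := NormedSpace.exp_zero

lemma cosA_zero : cosA 0 = 1 := by
  refine AA.ext' (fun r => ?_)
  rw [cosA_apply]
  simp

lemma analyticAt_cosA (a : AA) : AnalyticAt ℂ cosA a := by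
  unfold cosA
  have h1 : AnalyticAt ℂ (fun a : AA => (NormedSpace.exp (I • a) : AA)) a :=
    (analyticAt_expA (I • a)).fun_comp (analyticAt_id.const_smul (c := I))
  have h2 : AnalyticAt ℂ (fun a : AA => (NormedSpace.exp (-(I • a)) : AA)) a :=
    AnalyticAt.fun_comp (g := (NormedSpace.exp : AA → AA)) (f := fun a : AA => -(I • a))
      (analyticAt_expA (-(I • a))) (analyticAt_id.const_smul (c := I)).neg
  exact (h1.add h2).const_smul (c := (1 / 2 : ℂ))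

lemma analyticAt_Ef (d : AA) : AnalyticAt ℂ Ef d :=
  (J.analyticAt _).fun_comp (analyticAt_expA d)

lemma analyticAt_arg (X : AA × ℂ) :
    AnalyticAt ℂ (fun X : AA × ℂ => cosA (X.2 • Ef X.1)) X := by
  refine (analyticAt_cosA _).fun_comp ?_
  exact analyticAt_snd.smul ((analyticAt_Ef X.1).fun_comp analyticAt_fst)

lemma analyticAt_exp2 (X : AA × ℂ) :
    AnalyticAt ℂ (fun X : AA × ℂ => (NormedSpace.exp ((-2 : ℂ) • X.1) : AA)) X :=
  (analyticAt_expA _).fun_comp (analyticAt_fst.const_smul (c := (-2 : ℂ)))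

lemma analyticAt_exp1 (X : AA × ℂ) :
    AnalyticAt ℂ (fun X : AA × ℂ => (NormedSpace.exp X.1 : AA)) X :=
  (analyticAt_expA _).fun_comp analyticAt_fst

lemma analyticAt_Ic (X : AA × ℂ) : AnalyticAt ℂ Ic X :=
  (Lam.analyticAt _).fun_comp ((analyticAt_exp2 X).mul (analyticAt_arg X))

lemma analyticAt_Is (X : AA × ℂ) : AnalyticAt ℂ Is X :=
  (Lam.analyticAt _).fun_comp ((analyticAt_exp2 X).mul
    ((J.analyticAt _).fun_comp ((analyticAt_exp1 X).mul (analyticAt_arg X))))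

lemma J_one : J (1 : AA) = iot := by
  refine AA.ext' (fun r => ?_)
  rw [J_apply]
  have : ∀ a : ℝ, ext (1 : AA) a = 1 := fun a => rfl
  simp [this]

lemma Lam_one : Lam (1 : AA) = 1 := by
  rw [Lam_apply]
  have : ∀ a : ℝ, ext (1 : AA) a = 1 := fun a => rfl
  simp [this]

lemma Lam_iot : Lam iot = 1 / 2 := by
  rw [Lam_apply]
  have : ∫ a in (0 : ℝ)..1, ext iot a = ∫ a in (0 : ℝ)..1, ((a : ℝ) : ℂ) := by
    refine intervalIntegral.integral_congr (fun a ha => ?_)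
    rw [uIcc_of_le zero_le_one] at ha
    exact ext_iot ha
  rw [this, intervalIntegral.integral_ofReal, integral_id]
  norm_num


lemma Ic_zero : Ic 0 = 1 := by
  unfold Ic
  simp [cosA_zero, expA_zero, Lam_one]

lemma Is_zero : Is 0 = 1 / 2 := by
  unfold Is
  simp only [Prod.fst_zero, smul_zero, Prod.snd_zero, zero_smul, cosA_zero, expA_zero, mul_one,
    one_mul, J_one, Lam_iot]

lemma bf_zero : bf 0 = 1 / 2 := by
  unfold bf
  rw [Is_zero, Ic_zero, div_one]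

lemma analyticAt_bf : AnalyticAt ℂ bf 0 :=
  (analyticAt_Is 0).div (analyticAt_Ic 0) (by rw [Ic_zero]; exact one_ne_zero)

lemma sq_zero : sq 0 = 1 := by simp [sq]

lemma analyticAt_sq : AnalyticAt ℂ sq 0 := by
  unfold sq
  refine AnalyticAt.cexp' ?_
  refine AnalyticAt.div ?_ analyticAt_const two_ne_zero
  refine AnalyticAt.clog (analyticAt_const.add analyticAt_id) ?_
  simp [Complex.mem_slitPlane_iff]

lemma phi_zero : phi 0 = 1 / 2 := by
  unfold phi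
  rw [sq_zero]; norm_num

lemma analyticAt_phi : AnalyticAt ℂ phi 0 := by
  unfold phi
  refine analyticAt_const.div (analyticAt_sq.mul (analyticAt_const.add analyticAt_sq)) ?_
  rw [sq_zero]; norm_num

lemma analyticAt_Qf : AnalyticAt ℂ Qf 0 := by
  unfold Qf
  refine (analyticAt_bf.pow 2).mul ?_
  have h : AnalyticAt ℂ phi ((fun X : AA × ℂ => X.2 ^ 2 * bf X ^ 2) 0) := by
    simpa using analyticAt_phi
  exact AnalyticAt.fun_comp (g := phi) (f := fun X : AA × ℂ => X.2 ^ 2 * bf X ^ 2) h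
    ((analyticAt_snd.pow 2).mul (analyticAt_bf.pow 2))

lemma Qf_zero : Qf 0 = 1 / 8 := by
  unfold Qf
  simp only [Prod.snd_zero, bf_zero]
  norm_num [phi_zero]

/-! ### the first derivative at `0` -/

lemma hasFDerivAt_expA_zero : HasFDerivAt (NormedSpace.exp : AA → AA)
    (ContinuousLinearMap.id ℂ AA) 0 := by
  have h := hasFDerivAt_exp_zero (𝕂 := ℂ) (𝔸 := AA)
  exact h

lemma hasFDerivAt_cosA_zero : HasFDerivAt cosA (0 : AA →L[ℂ] AA) 0 := by
  have h1 : HasFDerivAt (fun a : AA => (NormedSpace.exp (I • a) : AA))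
      (I • ContinuousLinearMap.id ℂ AA) 0 := by
    have h := HasFDerivAt.comp (g := (NormedSpace.exp : AA → AA)) (f := fun a : AA => I • a)
      (0 : AA) (by rw [smul_zero]; exact hasFDerivAt_expA_zero) ((hasFDerivAt_id (0 : AA)).const_smul I)
    exact h
  have h2 : HasFDerivAt (fun a : AA => (NormedSpace.exp (-(I • a)) : AA))
      (-(I • ContinuousLinearMap.id ℂ AA)) 0 := by
    have h := HasFDerivAt.comp (g := (NormedSpace.exp : AA → AA)) (f := fun a : AA => -(I • a))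
      (0 : AA) (by rw [smul_zero, neg_zero]; exact hasFDerivAt_expA_zero)
      ((hasFDerivAt_id (0 : AA)).const_smul I).neg
    exact h
  have h3 := (h1.add h2).const_smul (1 / 2 : ℂ)
  have h4 : (1 / 2 : ℂ) • (I • ContinuousLinearMap.id ℂ AA + -(I • ContinuousLinearMap.id ℂ AA)) =
      0 := by rw [add_neg_cancel, smul_zero]
  rw [h4] at h3
  exact h3

lemma hasFDerivAt_arg_zero :
    HasFDerivAt (fun X : AA × ℂ => cosA (X.2 • Ef X.1)) (0 : AA × ℂ →L[ℂ] AA) 0 := by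
  have hd : DifferentiableAt ℂ (fun X : AA × ℂ => X.2 • Ef X.1) 0 :=
    (analyticAt_snd.smul ((analyticAt_Ef (0 : AA × ℂ).1).fun_comp analyticAt_fst)).differentiableAt
  have h := HasFDerivAt.comp (g := cosA) (f := fun X : AA × ℂ => X.2 • Ef X.1) (0 : AA × ℂ)
    (g' := 0) (by
      simp only [Prod.snd_zero, zero_smul]
      exact hasFDerivAt_cosA_zero) hd.hasFDerivAt
  rwa [ContinuousLinearMap.zero_comp] at h

lemma hasFDerivAt_exp2_zero :
    HasFDerivAt (fun X : AA × ℂ => (NormedSpace.exp ((-2 : ℂ) • X.1) : AA))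
      ((-2 : ℂ) • ContinuousLinearMap.fst ℂ AA ℂ) 0 := by
  have h := HasFDerivAt.comp (g := (NormedSpace.exp : AA → AA))
    (f := fun X : AA × ℂ => (-2 : ℂ) • X.1) (0 : AA × ℂ)
    (by simp only [Prod.fst_zero, smul_zero]; exact hasFDerivAt_expA_zero)
    ((hasFDerivAt_fst (𝕜 := ℂ) (p := (0 : AA × ℂ))).const_smul (-2 : ℂ))
  exact h

lemma hasFDerivAt_exp1_zero :
    HasFDerivAt (fun X : AA × ℂ => (NormedSpace.exp X.1 : AA))
      (ContinuousLinearMap.fst ℂ AA ℂ) 0 := by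
  have h := HasFDerivAt.comp (g := (NormedSpace.exp : AA → AA))
    (f := fun X : AA × ℂ => X.1) (0 : AA × ℂ)
    (by simp only [Prod.fst_zero]; exact hasFDerivAt_expA_zero)
    (hasFDerivAt_fst (𝕜 := ℂ) (p := (0 : AA × ℂ)))
  exact h

lemma arg_zero : cosA ((0 : AA × ℂ).2 • Ef (0 : AA × ℂ).1) = 1 := by
  rw [Prod.snd_zero, zero_smul, cosA_zero]

lemma exp2_zero : (NormedSpace.exp ((-2 : ℂ) • (0 : AA × ℂ).1) : AA) = 1 := by
  rw [Prod.fst_zero, smul_zero, expA_zero]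

lemma exp1_zero : (NormedSpace.exp ((0 : AA × ℂ).1) : AA) = 1 := by
  rw [Prod.fst_zero, expA_zero]

lemma hasFDerivAt_Ic_zero :
    HasFDerivAt Ic ((-2 : ℂ) • Lam.comp (ContinuousLinearMap.fst ℂ AA ℂ)) 0 := by
  have h1 := hasFDerivAt_exp2_zero.mul hasFDerivAt_arg_zero
  rw [arg_zero, exp2_zero, one_smul, one_smul, zero_add] at h1
  have h2 := HasFDerivAt.comp (g := Lam) (0 : AA × ℂ) Lam.hasFDerivAt h1
  refine HasFDerivAt.congr_fderiv h2 ?_
  refine ContinuousLinearMap.ext (fun X => ?_)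
  change Lam ((-2 : ℂ) • X.1) = (-2 : ℂ) • Lam X.1
  rw [map_smul]

/-- `∫_0^1 ∫_0^r f = ∫ (1 - r) f` -/
lemma Lam_J (f : AA) : Lam (J f) = Lam f - Lam (iot * f) := by
  have hF : ∀ r : ℝ, HasDerivAt (fun r : ℝ => ∫ a in (0 : ℝ)..r, ext f a) (ext f r) r := fun r =>
    intervalIntegral.integral_hasDerivAt_right ((continuous_ext f).intervalIntegrable _ _)
      ((continuous_ext f).stronglyMeasurableAtFilter _ _) (continuous_ext f).continuousAt
  have hid : ∀ r : ℝ, HasDerivAt (fun r : ℝ => (r : ℂ)) 1 r := fun r =>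
    Complex.ofRealCLM.hasDerivAt
  have h := intervalIntegral.integral_mul_deriv_eq_deriv_mul (a := (0 : ℝ)) (b := 1)
    (u := fun r : ℝ => (r : ℂ)) (u' := fun _ => 1) (v := fun r : ℝ => ∫ a in (0 : ℝ)..r, ext f a)
    (v' := ext f) (fun r _ => hid r) (fun r _ => hF r) (by
      exact (continuous_const).intervalIntegrable _ _) ((continuous_ext f).intervalIntegrable _ _)
  have e1 : Lam (iot * f) = ∫ r in (0 : ℝ)..1, (r : ℂ) * ext f r := by
    rw [Lam_apply]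
    refine intervalIntegral.integral_congr (fun a ha => ?_)
    rw [uIcc_of_le zero_le_one] at ha
    simp only [ext_mul, ext_iot ha]
  have e2 : Lam (J f) = ∫ r in (0 : ℝ)..1, ∫ a in (0 : ℝ)..r, ext f a := by
    rw [Lam_apply]
    refine intervalIntegral.integral_congr (fun a ha => ?_)
    rw [uIcc_of_le zero_le_one] at ha
    change Set.IccExtend zero_le_one (J f) a = _
    rw [Set.IccExtend_of_mem _ _ ha]
    rfl
  rw [e1, h, e2, Lam_apply f]
  simp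

lemma Lf_eq (d : AA) : Lf d = 2 * Lam d - 3 * Lam (iot * d) := by
  rw [Lf_apply, sub_mul, map_sub, smul_mul_assoc, one_mul, map_smul, smul_mul_assoc, map_smul,
    smul_eq_mul, smul_eq_mul]

lemma hasFDerivAt_Is_zero :
    HasFDerivAt Is ((-2 : ℂ) • Lam.comp ((ContinuousLinearMap.mul ℂ AA iot).comp
      (ContinuousLinearMap.fst ℂ AA ℂ)) + (Lam.comp J).comp (ContinuousLinearMap.fst ℂ AA ℂ)) 0 := by
  have h1 := hasFDerivAt_exp1_zero.mul hasFDerivAt_arg_zero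
  rw [arg_zero, exp1_zero, one_smul, one_smul, zero_add] at h1
  have h2 := HasFDerivAt.comp (g := J) (0 : AA × ℂ) J.hasFDerivAt h1
  have h3 := hasFDerivAt_exp2_zero.mul h2
  have e1 : (J ∘ ((fun X : AA × ℂ => (NormedSpace.exp X.1 : AA)) *
      fun X : AA × ℂ => cosA (X.2 • Ef X.1))) (0 : AA × ℂ) = iot := by
    change J ((NormedSpace.exp ((0 : AA × ℂ).1) : AA) * cosA ((0 : AA × ℂ).2 • Ef (0 : AA × ℂ).1)) = _
    rw [arg_zero, exp1_zero, one_mul, J_one]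
  rw [exp2_zero, e1, one_smul] at h3
  have h4 := HasFDerivAt.comp (g := Lam) (0 : AA × ℂ) Lam.hasFDerivAt h3
  refine HasFDerivAt.congr_fderiv h4 ?_
  refine ContinuousLinearMap.ext (fun X => ?_)
  change Lam (J X.1 + iot • ((-2 : ℂ) • X.1)) = (-2 : ℂ) • Lam (iot * X.1) + Lam (J X.1)
  rw [map_add, smul_comm, map_smul, smul_eq_mul iot, add_comm]

lemma hasFDerivAt_bf_zero : HasFDerivAt bf (Lf.comp (ContinuousLinearMap.fst ℂ AA ℂ)) 0 := by
  have hi : HasDerivAt (fun y : ℂ => y⁻¹) (-(1 ^ 2)⁻¹) (Ic 0) := by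
    rw [Ic_zero]; exact hasDerivAt_inv one_ne_zero
  have h1 := HasDerivAt.comp_hasFDerivAt (0 : AA × ℂ) hi hasFDerivAt_Ic_zero
  have h := hasFDerivAt_Is_zero.mul h1
  refine HasFDerivAt.congr_fderiv (HasFDerivAt.congr_of_eventuallyEq h ?_) ?_
  · exact Filter.Eventually.of_forall (fun X => by
      change bf X = Is X * (Ic X)⁻¹
      rw [bf, div_eq_mul_inv])
  · refine ContinuousLinearMap.ext (fun X => ?_)
    change Is 0 * ((-(1 ^ 2)⁻¹ : ℂ) * ((-2 : ℂ) * Lam X.1)) +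
      (Ic 0)⁻¹ * ((-2 : ℂ) * Lam (iot * X.1) + Lam (J X.1)) = Lf X.1
    rw [Ic_zero, Is_zero, Lf_eq, Lam_J]
    ring

lemma hasFDerivAt_Qf_zero :
    HasFDerivAt Qf ((1 / 2 : ℂ) • Lf.comp (ContinuousLinearMap.fst ℂ AA ℂ)) 0 := by
  -- the argument of `phi` has zero derivative
  have hb2 := (hasFDerivAt_bf_zero.mul hasFDerivAt_bf_zero)
  have hs2 : HasFDerivAt (fun X : AA × ℂ => X.2 * X.2)
      ((0 : AA × ℂ).2 • ContinuousLinearMap.snd ℂ AA ℂ + (0 : AA × ℂ).2 •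
        ContinuousLinearMap.snd ℂ AA ℂ) 0 :=
    (hasFDerivAt_snd (𝕜 := ℂ) (p := (0 : AA × ℂ))).mul (hasFDerivAt_snd (𝕜 := ℂ) (p := (0 : AA × ℂ)))
  have h3 := hs2.mul hb2
  have hphi : HasDerivAt phi (deriv phi 0) ((fun X : AA × ℂ => (X.2 * X.2) * (bf X * bf X)) 0) := by
    have : (fun X : AA × ℂ => (X.2 * X.2) * (bf X * bf X)) 0 = 0 := by simp
    rw [this]
    exact analyticAt_phi.differentiableAt.hasDerivAt
  have h4 := HasDerivAt.comp_hasFDerivAt (0 : AA × ℂ) hphi h3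
  have h5 := hb2.mul h4
  refine HasFDerivAt.congr_fderiv (HasFDerivAt.congr_of_eventuallyEq h5 ?_) ?_
  · exact Filter.Eventually.of_forall (fun X => by
      change Qf X = (bf X * bf X) * phi ((X.2 * X.2) * (bf X * bf X))
      rw [Qf]
      ring_nf)
  · refine ContinuousLinearMap.ext (fun X => ?_)
    have e0 : phi (((0 : AA × ℂ).2 * (0 : AA × ℂ).2) * (bf 0 * bf 0)) = 1 / 2 := by
      simp [phi_zero]
    change (bf 0 * bf 0) * (deriv phi 0 * (((0 : AA × ℂ).2 * (0 : AA × ℂ).2) *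
        (bf 0 * Lf X.1 + bf 0 * Lf X.1) + (bf 0 * bf 0) *
        ((0 : AA × ℂ).2 * X.2 + (0 : AA × ℂ).2 * X.2))) +
      phi (((0 : AA × ℂ).2 * (0 : AA × ℂ).2) * (bf 0 * bf 0)) *
        (bf 0 * Lf X.1 + bf 0 * Lf X.1) = (1 / 2 : ℂ) * Lf X.1
    rw [e0, bf_zero]
    simp
    ring

/-- the derivative of `Qf` at `0` -/
def DQ0 : AA × ℂ →L[ℂ] ℂ := (1 / 2 : ℂ) • Lf.comp (ContinuousLinearMap.fst ℂ AA ℂ)

@[simp] lemma DQ0_apply (X : AA × ℂ) : DQ0 X = 1 / 2 * Lf X.1 := rfl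

/-- local properties of the functional `Qf` on the ball of radius `ρ` -/
structure LocQ (ρ C : ℝ) : Prop where
  ρ_pos : 0 < ρ
  ρ_le : ρ ≤ 1
  C_ge : 1 ≤ C
  an : ∀ X : AA × ℂ, ‖X‖ < ρ → AnalyticAt ℂ Qf X
  bd : ∀ X : AA × ℂ, ‖X‖ < ρ → ‖Qf X‖ ≤ C
  lip : ∀ X X' : AA × ℂ, ‖X‖ < ρ → ‖X'‖ < ρ → ‖fderiv ℂ Qf X' - fderiv ℂ Qf X‖ ≤ C * ‖X' - X‖
  d0 : ∀ X : AA × ℂ, ‖X‖ < ρ → ‖fderiv ℂ Qf X - DQ0‖ ≤ C * ‖X‖
  c11 : ∀ (m : ℝ) (X X' : AA × ℂ), m < ρ → ‖X‖ ≤ m → ‖X'‖ ≤ m →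
    ‖Qf X' - Qf X - 1 / 2 * Lf (X'.1 - X.1)‖ ≤ C * m * ‖X' - X‖
  c2 : ∀ X X' : AA × ℂ, ‖X‖ < ρ → ‖X'‖ < ρ →
    ‖Qf X' - Qf X - fderiv ℂ Qf X (X' - X)‖ ≤ C * ‖X' - X‖ ^ 2
  ic : ∀ X : AA × ℂ, ‖X‖ < ρ → ‖Ic X - 1‖ ≤ 1 / 2

theorem exists_locQ : ∃ ρ C : ℝ, LocQ ρ C := by
  have h1 : ∀ᶠ X in 𝓝 (0 : AA × ℂ), AnalyticAt ℂ Qf X := analyticAt_Qf.eventually_analyticAt
  have h2 : ContDiffAt ℂ 1 (fderiv ℂ Qf) 0 :=
    (analyticAt_Qf.contDiffAt (n := 2)).fderiv_right (by norm_num)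
  obtain ⟨K, t, ht, hK⟩ := h2.exists_lipschitzOnWith
  have h3 : ∀ᶠ X in 𝓝 (0 : AA × ℂ), ‖Qf X‖ ≤ 1 := by
    have hc : ContinuousAt (fun X => ‖Qf X‖) (0 : AA × ℂ) :=
      analyticAt_Qf.continuousAt.norm
    have : ‖Qf 0‖ < 1 := by rw [Qf_zero]; norm_num
    filter_upwards [hc.eventually (gt_mem_nhds this)] with X hX
    exact le_of_lt hX
  have h4 : ∀ᶠ X in 𝓝 (0 : AA × ℂ), ‖Ic X - 1‖ < 1 / 2 := by
    have hc : ContinuousAt (fun X => ‖Ic X - 1‖) (0 : AA × ℂ) :=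
      ((analyticAt_Ic 0).continuousAt.sub continuousAt_const).norm
    have : ‖Ic 0 - 1‖ < 1 / 2 := by rw [Ic_zero]; norm_num
    exact hc.eventually (gt_mem_nhds this)
  have h5 : ∀ᶠ X in 𝓝 (0 : AA × ℂ), X ∈ t := ht
  obtain ⟨ρ, hρ, hball⟩ := Metric.eventually_nhds_iff_ball.1 (h1.and (h3.and (h5.and h4)))
  have hf0 : fderiv ℂ Qf 0 = DQ0 := hasFDerivAt_Qf_zero.fderiv
  have hmem : ∀ X : AA × ℂ, ‖X‖ < min ρ 1 → X ∈ ball (0 : AA × ℂ) ρ := fun X hX =>
    mem_ball_zero_iff.2 (hX.trans_le (min_le_left _ _))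
  have hC : (K : ℝ) ≤ (K : ℝ) + 1 := by linarith
  have hK0 : (0 : ℝ) ≤ K := K.2
  have hlip : ∀ X X' : AA × ℂ, ‖X‖ < min ρ 1 → ‖X'‖ < min ρ 1 →
      ‖fderiv ℂ Qf X' - fderiv ℂ Qf X‖ ≤ (K + 1) * ‖X' - X‖ := by
    intro X X' hX hX'
    have h := hK.norm_sub_le (hball X' (hmem X' hX')).2.2.1 (hball X (hmem X hX)).2.2.1
    exact h.trans (mul_le_mul_of_nonneg_right hC (norm_nonneg _))
  have hρ1 : 0 < min ρ 1 := lt_min hρ one_pos
  have hd0 : ∀ X : AA × ℂ, ‖X‖ < min ρ 1 → ‖fderiv ℂ Qf X - DQ0‖ ≤ (K + 1) * ‖X‖ := by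
    intro X hX
    have h := hlip 0 X (by simpa using hρ1) hX
    rwa [hf0, sub_zero] at h
  have hcx : ∀ X X' : AA × ℂ, ‖X‖ < min ρ 1 → ‖X'‖ < min ρ 1 → ∀ Y ∈ segment ℝ X X',
      ‖Y‖ < min ρ 1 := by
    intro X X' hX hX' Y hY
    have := (convex_ball (0 : AA × ℂ) (min ρ 1)).segment_subset (mem_ball_zero_iff.2 hX)
      (mem_ball_zero_iff.2 hX') hY
    exact mem_ball_zero_iff.1 this
  refine ⟨min ρ 1, K + 1, hρ1, min_le_right _ _, by linarith, fun X hX => (hball X (hmem X hX)).1,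
    fun X hX => ((hball X (hmem X hX)).2.1).trans (by linarith), hlip, hd0, ?_, ?_,
    fun X hX => ((hball X (hmem X hX)).2.2.2).le⟩
  · intro m X X' hm hX hX'
    have h := Convex.norm_image_sub_le_of_norm_fderiv_le' (𝕜 := ℂ) (f := Qf) (φ := DQ0)
      (C := (K + 1) * m) (s := closedBall (0 : AA × ℂ) m) (x := X) (y := X')
      (fun Y hY => ((hball Y (hmem Y ((mem_closedBall_zero_iff.1 hY).trans_lt hm))).1).differentiableAt)
      (fun Y hY => by
        have hY' := mem_closedBall_zero_iff.1 hY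
        exact (hd0 Y (hY'.trans_lt hm)).trans (mul_le_mul_of_nonneg_left hY' (by linarith)))
      (convex_closedBall _ _) (mem_closedBall_zero_iff.2 hX) (mem_closedBall_zero_iff.2 hX')
    exact h
  · intro X X' hX hX'
    have h := Convex.norm_image_sub_le_of_norm_fderiv_le' (𝕜 := ℂ) (f := Qf) (φ := fderiv ℂ Qf X)
      (C := (K + 1) * ‖X' - X‖) (s := segment ℝ X X') (x := X) (y := X')
      (fun Y hY => ((hball Y (hmem Y (hcx X X' hX hX' Y hY))).1).differentiableAt)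
      (fun Y hY => by
        have h1 := hlip X Y hX (hcx X X' hX hX' Y hY)
        refine h1.trans (mul_le_mul_of_nonneg_left ?_ (by linarith))
        obtain ⟨a, b, ha, hb, hab, rfl⟩ := hY
        have e : a • X + b • X' - X = b • (X' - X) := by
          have : a = 1 - b := by linarith
          rw [this, sub_smul, one_smul, smul_sub]
          abel
        rw [e, norm_smul, Real.norm_of_nonneg hb]
        exact mul_le_of_le_one_left (norm_nonneg _) (by linarith))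
      (convex_segment _ _) (left_mem_segment _ _ _) (right_mem_segment _ _ _)
    refine h.trans (le_of_eq ?_)
    ring

/-! ### values of `Lf` -/


lemma Lf_iot : Lf iot = 0 := by
  have h := Lam_J iot
  have h2 : Lam (iot * iot) = 1 / 3 := by
    rw [Lam_apply]
    have : ∫ a in (0 : ℝ)..1, ext (iot * iot) a = ∫ a in (0 : ℝ)..1, ((a ^ 2 : ℝ) : ℂ) := by
      refine intervalIntegral.integral_congr (fun a ha => ?_)
      rw [uIcc_of_le zero_le_one] at ha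
      simp only [ext_mul, ext_iot ha]
      push_cast
      ring
    rw [this, intervalIntegral.integral_ofReal, integral_pow]
    norm_num
  rw [Lf_eq, Lam_iot, h2]
  norm_num

lemma norm_Lf_le (d : AA) : ‖Lf d‖ ≤ 5 * ‖d‖ := by
  rw [Lf_eq]
  have h1 := norm_Lam_apply_le d
  have h2 := norm_Lam_apply_le (iot * d)
  have h3 : ‖iot * d‖ ≤ ‖d‖ := by
    refine (norm_mul_le _ _).trans ?_
    have := mul_le_mul_of_nonneg_right norm_iot_le (norm_nonneg d)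
    linarith
  calc ‖2 * Lam d - 3 * Lam (iot * d)‖ ≤ ‖2 * Lam d‖ + ‖3 * Lam (iot * d)‖ := norm_sub_le _ _
    _ = 2 * ‖Lam d‖ + 3 * ‖Lam (iot * d)‖ := by rw [norm_mul, norm_mul]; norm_num
    _ ≤ 5 * ‖d‖ := by linarith

end Crest.Agent.R102.A929
end
end

-- ▼ part R102/LocA_929
section

/-!
Row 102, part (A) (helper929): local estimates (PL), (P0) for `Pq`.
-/

set_option autoImplicit false

open Set Filter Topology Metric Complex MeasureTheory
open scoped Real ContDiff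

noncomputable section

namespace Crest.Agent.R102.A929

lemma schwarz_step {f : ℂ → ℂ} {R M : ℝ} (hR : 0 < R) (hf : DifferentiableOn ℂ f (ball 0 R))
    (hb : ∀ s ∈ ball (0 : ℂ) R, ‖f s‖ ≤ M) (h0 : f 0 = 0) :
    DifferentiableOn ℂ (dslope f 0) (ball 0 R) ∧ (∀ s ∈ ball (0 : ℂ) R, ‖dslope f 0 s‖ ≤ M / R) ∧
      ∀ s, f s = s * dslope f 0 s := by
  refine ⟨(Complex.differentiableOn_dslope (isOpen_ball.mem_nhds (mem_ball_self hR))).2 hf,
    fun s hs => ?_, fun s => ?_⟩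
  · exact Complex.norm_dslope_le_div_of_mapsTo_ball hf (fun z hz => by
      rw [h0, mem_closedBall_zero_iff]; exact hb z hz) hs
  · have := sub_smul_dslope f 0 s
    rw [h0, sub_zero, sub_zero, smul_eq_mul] at this
    exact this.symm

lemma schwarz3 {f : ℂ → ℂ} {R M : ℝ} (hR : 0 < R) (hf : DifferentiableOn ℂ f (ball 0 R))
    (hb : ∀ s ∈ ball (0 : ℂ) R, ‖f s‖ ≤ M) (hodd : ∀ s, f (-s) = - f s) (hd : deriv f 0 = 0) :
    ∀ s ∈ ball (0 : ℂ) R, ‖f s‖ ≤ M / R ^ 3 * ‖s‖ ^ 3 := by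
  have h0 : f 0 = 0 := by
    have := hodd 0
    rw [neg_zero] at this
    have h2 : (2 : ℂ) * f 0 = 0 := by linear_combination this
    simpa using h2
  obtain ⟨d1, b1, e1⟩ := schwarz_step hR hf hb h0
  have z1 : dslope f 0 0 = 0 := by rw [dslope_same]; exact hd
  obtain ⟨d2, b2, e2⟩ := schwarz_step hR d1 b1 z1
  have heven : ∀ s, dslope f 0 (-s) = dslope f 0 s := by
    intro s
    rcases eq_or_ne s 0 with rfl | hs
    · rw [neg_zero]
    · have h3 := e1 s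
      have h4 := e1 (-s)
      rw [hodd s, h3] at h4
      have h5 : s * dslope f 0 (-s) = s * dslope f 0 s := by linear_combination h4
      exact mul_left_cancel₀ hs h5
  have z2 : dslope (dslope f 0) 0 0 = 0 := by
    rw [dslope_same]
    have hD : HasDerivAt (dslope f 0) (deriv (dslope f 0) 0) 0 :=
      (d1.differentiableAt (isOpen_ball.mem_nhds (mem_ball_self hR))).hasDerivAt
    have hN : HasDerivAt (fun s : ℂ => dslope f 0 (-s)) (-(deriv (dslope f 0) 0)) 0 := by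
      have hD' : HasDerivAt (dslope f 0) (deriv (dslope f 0) 0) (-(0 : ℂ)) := by rwa [neg_zero]
      have := HasDerivAt.comp (0 : ℂ) hD' (hasDerivAt_neg (0 : ℂ))
      rw [mul_neg, mul_one] at this
      exact this
    have hE : (fun s : ℂ => dslope f 0 (-s)) = dslope f 0 := funext heven
    rw [hE] at hN
    have h6 := hD.unique hN
    have h2 : (2 : ℂ) * deriv (dslope f 0) 0 = 0 := by linear_combination h6
    simpa using h2
  obtain ⟨d3, b3, e3⟩ := schwarz_step hR d2 b2 z2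
  intro s hs
  have h7 := b3 s hs
  have h8 : f s = s ^ 3 * dslope (dslope (dslope f 0) 0) 0 s := by
    rw [e1 s, e2 s, e3 s]; ring
  rw [h8, norm_mul, norm_pow, mul_comm]
  refine mul_le_mul_of_nonneg_right (h7.trans (le_of_eq ?_)) (by positivity)
  field_simp

/-- `q` is `C^3` with bounds on the convex set `D` (real line or complex strip) -/
structure Sm (q : C(ℂ, ℂ)) (q1 q2 : ℂ → ℂ) (D : Set ℂ) (B : ℝ) : Prop where
  B_ge : 1 ≤ B
  cv : Convex ℝ D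
  b0 : ∀ x ∈ D, ‖q x‖ ≤ B
  b1 : ∀ x ∈ D, ‖q1 x‖ ≤ B
  b2 : ∀ x ∈ D, ‖q2 x‖ ≤ B
  l0 : ∀ x ∈ D, ∀ y ∈ D, ‖q y - q x‖ ≤ B * ‖y - x‖
  l1 : ∀ x ∈ D, ∀ y ∈ D, ‖q1 y - q1 x‖ ≤ B * ‖y - x‖
  t1 : ∀ x e x' e' : ℂ, x ∈ D → x + e ∈ D → x' ∈ D → x' + e' ∈ D → ∀ m : ℝ, ‖e‖ ≤ m → ‖e'‖ ≤ m →
    ‖(q (x' + e') - q x' - e' * q1 x') - (q (x + e) - q x - e * q1 x)‖ ≤
      B * (m * ‖e' - e‖ + m ^ 2 * ‖x' - x‖)
  t2 : ∀ x e : ℂ, x ∈ D → x + e ∈ D →
    ‖q (x + e) - q x - e * q1 x - e ^ 2 * q2 x / 2‖ ≤ B * ‖e‖ ^ 3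

section

variable {q : C(ℂ, ℂ)} {q1 q2 : ℂ → ℂ} {D : Set ℂ} {B ρ C m : ℝ} {x x' e e' : ℂ}

lemma Sm.seg (h : Sm q q1 q2 D B) (hx : x ∈ D) (hxe : x + e ∈ D) (r : unitInterval) :
    x + e * ((r : ℝ) : ℂ) ∈ D := by
  have h1 := h.cv hx hxe (a := 1 - (r : ℝ)) (b := (r : ℝ)) (by linarith [r.2.2]) r.2.1 (by ring)
  have h2 : (1 - (r : ℝ)) • x + (r : ℝ) • (x + e) = x + e * ((r : ℝ) : ℂ) := by
    rw [Complex.real_smul, Complex.real_smul]
    push_cast
    ring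
  rwa [h2] at h1

/-- the part of `dq` of second order -/
def rhoA (q : C(ℂ, ℂ)) (q1 : ℂ → ℂ) (x e : ℂ) : AA := dq q x e - (e * q1 x) • iot

lemma rhoA_apply (r : unitInterval) : rhoA q q1 x e r =
    q (x + e * ((r : ℝ) : ℂ)) - q x - (e * ((r : ℝ) : ℂ)) * q1 x := by
  unfold rhoA
  rw [AA.sub_apply, AA.smul_apply, dq_apply, iot_apply]
  ring

lemma norm_mul_r_le (e : ℂ) (r : unitInterval) : ‖e * ((r : ℝ) : ℂ)‖ ≤ ‖e‖ := by
  rw [norm_mul, Complex.norm_real, Real.norm_of_nonneg r.2.1]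
  exact mul_le_of_le_one_right (norm_nonneg _) r.2.2

lemma Sm.rho_sub (h : Sm q q1 q2 D B) (hx : x ∈ D) (hxe : x + e ∈ D) (hx' : x' ∈ D)
    (hxe' : x' + e' ∈ D) (he : ‖e‖ ≤ m) (he' : ‖e'‖ ≤ m) :
    ‖rhoA q q1 x' e' - rhoA q q1 x e‖ ≤ B * (m * ‖e' - e‖ + m ^ 2 * ‖x' - x‖) := by
  have hB := h.B_ge
  have hm : 0 ≤ m := (norm_nonneg _).trans he
  refine (AA.norm_le (by positivity)).2 (fun r => ?_)
  rw [AA.sub_apply, rhoA_apply, rhoA_apply]
  have h1 := h.t1 x (e * ((r : ℝ) : ℂ)) x' (e' * ((r : ℝ) : ℂ)) hx (h.seg hx hxe r) hx'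
    (h.seg hx' hxe' r) m ((norm_mul_r_le e r).trans he) ((norm_mul_r_le e' r).trans he')
  refine h1.trans (mul_le_mul_of_nonneg_left ?_ (by linarith))
  have h2 : ‖e' * ((r : ℝ) : ℂ) - e * ((r : ℝ) : ℂ)‖ ≤ ‖e' - e‖ := by
    rw [← sub_mul]; exact norm_mul_r_le _ r
  have := mul_le_mul_of_nonneg_left h2 hm
  linarith

lemma dq_zero : dq q x 0 = 0 := AA.ext' (fun r => by simp)

lemma Xq_zero : Xq q x 0 = 0 := by
  unfold Xq
  rw [dq_zero, zero_mul]; rfl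


lemma Sm.Lf_dq_sub (h : Sm q q1 q2 D B) (hx : x ∈ D) (hxe : x + e ∈ D) (hx' : x' ∈ D)
    (hxe' : x' + e' ∈ D) (he : ‖e‖ ≤ m) (he' : ‖e'‖ ≤ m) :
    ‖Lf (dq q x' e' - dq q x e)‖ ≤ 5 * (B * (m * ‖e' - e‖ + m ^ 2 * ‖x' - x‖)) := by
  have h1 : dq q x' e' - dq q x e = (rhoA q q1 x' e' - rhoA q q1 x e) +
      (e' * q1 x' - e * q1 x) • iot := by
    unfold rhoA
    rw [sub_smul]; abel
  rw [h1, map_add, map_smul, Lf_iot, smul_zero, add_zero]
  exact (norm_Lf_le _).trans (mul_le_mul_of_nonneg_left (h.rho_sub hx hxe hx' hxe' he he')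
    (by norm_num))

lemma norm_cexp_sub_le {a b : ℂ} (ha : ‖a‖ ≤ B) (hb : ‖b‖ ≤ B) :
    ‖Complex.exp b - Complex.exp a‖ ≤ Real.exp B * ‖b - a‖ := by
  refine Convex.norm_image_sub_le_of_norm_hasDerivWithin_le (𝕜 := ℂ) (f := Complex.exp)
    (f' := Complex.exp) (s := closedBall 0 B) (fun y _ => (Complex.hasDerivAt_exp y).hasDerivWithinAt)
    (fun y hy => ?_) (convex_closedBall _ _) (mem_closedBall_zero_iff.2 ha)
    (mem_closedBall_zero_iff.2 hb)
  rw [Complex.norm_exp]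
  exact Real.exp_le_exp.2 ((Complex.re_le_norm y).trans (mem_closedBall_zero_iff.1 hy))

/-- the constant in the estimates of `Xq` -/
def CX (B : ℝ) : ℝ := 2 * B + B * Real.exp B

lemma CX_ge (hB : 1 ≤ B) : 2 ≤ CX B := by
  unfold CX
  have : 0 < Real.exp B := Real.exp_pos B
  nlinarith

lemma Sm.Xq_sub (h : Sm q q1 q2 D B) (hx : x ∈ D) (hxe : x + e ∈ D) (hx' : x' ∈ D)
    (hxe' : x' + e' ∈ D) (he : ‖e‖ ≤ m) (he' : ‖e'‖ ≤ m) (hm1 : m ≤ 1) :
    ‖Xq q x' e' - Xq q x e‖ ≤ CX B * (‖e' - e‖ + m * ‖x' - x‖) := by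
  have hB := h.B_ge
  have hm : 0 ≤ m := (norm_nonneg _).trans he
  have hexp : 1 ≤ Real.exp B := Real.one_le_exp (by linarith)
  have hΔe := norm_nonneg (e' - e)
  have hΔx := norm_nonneg (x' - x)
  have a1 : ‖dq q x' e' - dq q x e‖ ≤ 2 * B * (‖e' - e‖ + m * ‖x' - x‖) := by
    have h1 : dq q x' e' - dq q x e = (rhoA q q1 x' e' - rhoA q q1 x e) +
        (e' * q1 x' - e * q1 x) • iot := by
      unfold rhoA
      rw [sub_smul]; abel
    have h2 : ‖e' * q1 x' - e * q1 x‖ ≤ B * ‖e' - e‖ + m * (B * ‖x' - x‖) := by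
      have : e' * q1 x' - e * q1 x = (e' - e) * q1 x' + e * (q1 x' - q1 x) := by ring
      rw [this]
      refine (norm_add_le _ _).trans (add_le_add ?_ ?_)
      · rw [norm_mul, mul_comm]
        exact mul_le_mul_of_nonneg_right (h.b1 x' hx') hΔe
      · rw [norm_mul]
        exact mul_le_mul he (h.l1 x hx x' hx') (norm_nonneg _) hm
    have h3 : ‖(e' * q1 x' - e * q1 x) • iot‖ ≤ B * ‖e' - e‖ + m * (B * ‖x' - x‖) := by
      rw [norm_smul]
      calc ‖e' * q1 x' - e * q1 x‖ * ‖iot‖ ≤ ‖e' * q1 x' - e * q1 x‖ * 1 :=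
            mul_le_mul_of_nonneg_left norm_iot_le (norm_nonneg _)
        _ ≤ _ := by rw [mul_one]; exact h2
    rw [h1]
    refine (norm_add_le _ _).trans ?_
    have h4 := h.rho_sub hx hxe hx' hxe' he he'
    have h5 : m * ‖e' - e‖ ≤ ‖e' - e‖ := mul_le_of_le_one_left hΔe hm1
    have h6 : m ^ 2 * ‖x' - x‖ ≤ m * ‖x' - x‖ := by
      have : m ^ 2 ≤ m := by nlinarith
      exact mul_le_mul_of_nonneg_right this hΔx
    have h7 : B * (m * ‖e' - e‖ + m ^ 2 * ‖x' - x‖) ≤ B * (‖e' - e‖ + m * ‖x' - x‖) :=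
      mul_le_mul_of_nonneg_left (add_le_add h5 h6) (by linarith)
    calc ‖rhoA q q1 x' e' - rhoA q q1 x e‖ + ‖(e' * q1 x' - e * q1 x) • iot‖
        ≤ B * (‖e' - e‖ + m * ‖x' - x‖) + (B * ‖e' - e‖ + m * (B * ‖x' - x‖)) :=
          add_le_add (h4.trans h7) h3
      _ = 2 * B * (‖e' - e‖ + m * ‖x' - x‖) := by ring
  have a2 : ‖e' * Complex.exp (q x') - e * Complex.exp (q x)‖ ≤
      B * Real.exp B * (‖e' - e‖ + m * ‖x' - x‖) := by
    have : e' * Complex.exp (q x') - e * Complex.exp (q x) =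
        (e' - e) * Complex.exp (q x') + e * (Complex.exp (q x') - Complex.exp (q x)) := by ring
    rw [this]
    have h1 : ‖Complex.exp (q x')‖ ≤ Real.exp B := by
      rw [Complex.norm_exp]
      exact Real.exp_le_exp.2 ((Complex.re_le_norm _).trans (h.b0 x' hx'))
    have h2 : ‖Complex.exp (q x') - Complex.exp (q x)‖ ≤ Real.exp B * (B * ‖x' - x‖) :=
      (norm_cexp_sub_le (h.b0 x hx) (h.b0 x' hx')).trans
        (mul_le_mul_of_nonneg_left (h.l0 x hx x' hx') (Real.exp_nonneg _))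
    calc ‖(e' - e) * Complex.exp (q x') + e * (Complex.exp (q x') - Complex.exp (q x))‖
        ≤ ‖e' - e‖ * ‖Complex.exp (q x')‖ + ‖e‖ * ‖Complex.exp (q x') - Complex.exp (q x)‖ := by
          refine (norm_add_le _ _).trans ?_
          rw [norm_mul, norm_mul]
      _ ≤ ‖e' - e‖ * Real.exp B + m * (Real.exp B * (B * ‖x' - x‖)) :=
          add_le_add (mul_le_mul_of_nonneg_left h1 hΔe) (mul_le_mul he h2 (norm_nonneg _) hm)
      _ ≤ B * (‖e' - e‖ * Real.exp B) + m * (Real.exp B * (B * ‖x' - x‖)) := by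
          have : 0 ≤ ‖e' - e‖ * Real.exp B := by positivity
          nlinarith
      _ = B * Real.exp B * (‖e' - e‖ + m * ‖x' - x‖) := by ring
  have hs : 0 ≤ ‖e' - e‖ + m * ‖x' - x‖ := by positivity
  have a3 : ‖Xq q x' e' - Xq q x e‖ =
      max ‖dq q x' e' - dq q x e‖ ‖e' * Complex.exp (q x') - e * Complex.exp (q x)‖ := rfl
  rw [a3]
  refine max_le ?_ ?_
  · refine a1.trans (mul_le_mul_of_nonneg_right ?_ hs)
    unfold CX; nlinarith
  · refine a2.trans (mul_le_mul_of_nonneg_right ?_ hs)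
    unfold CX; nlinarith

lemma Sm.norm_Xq (h : Sm q q1 q2 D B) (hx : x ∈ D) (hxe : x + e ∈ D) (he : ‖e‖ ≤ m)
    (hm1 : m ≤ 1) : ‖Xq q x e‖ ≤ CX B * ‖e‖ := by
  have hm : 0 ≤ m := (norm_nonneg _).trans he
  have h1 := h.Xq_sub (x := x) (e := 0) (x' := x) (e' := e) hx (by simpa using hx) hx hxe
    (m := m) (by simpa using hm) he hm1
  rw [Xq_zero, sub_zero, sub_zero, sub_self, norm_zero, mul_zero, add_zero] at h1
  exact h1

/-- the constant of (PL) -/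
def CP (C B : ℝ) : ℝ := 2 * (5 * B + C * CX B ^ 2) + (5 * B + C * CX B ^ 2)

/-- (PL), first part: `Qf ≈ 1/8` -/
lemma Sm.Qf_sub (hL : LocQ ρ C) (h : Sm q q1 q2 D B) (hx : x ∈ D) (hxe : x + e ∈ D) (he : ‖e‖ ≤ m)
    (hm1 : m ≤ 1) (hmρ : CX B * m < ρ) :
    ‖Qf (Xq q x e) - 1 / 8‖ ≤ (5 * B + C * CX B ^ 2) * m ^ 2 := by
  have hm : 0 ≤ m := (norm_nonneg _).trans he
  have hB := h.B_ge
  have hC := hL.C_ge
  have hCX := CX_ge hB
  have hX : ‖Xq q x e‖ ≤ CX B * m :=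
    (h.norm_Xq hx hxe he hm1).trans (mul_le_mul_of_nonneg_left he (by linarith))
  have h1 := hL.c11 (CX B * m) 0 (Xq q x e) hmρ (by rw [norm_zero]; positivity) hX
  rw [Qf_zero, sub_zero] at h1
  have h2 := h.Lf_dq_sub (x := x) (e := 0) (x' := x) (e' := e) hx (by simpa using hx) hx hxe
    (m := m) (by simpa using hm) he
  rw [sub_zero, sub_self, norm_zero, mul_zero, add_zero] at h2
  have h3 : (Xq q x e).1 - (0 : AA × ℂ).1 = dq q x e - dq q x 0 := by rw [dq_zero]; rfl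
  rw [h3] at h1
  have h4 : Qf (Xq q x e) - 1 / 8 = (Qf (Xq q x e) - 1 / 8 - 1 / 2 * Lf (dq q x e - dq q x 0)) +
      1 / 2 * Lf (dq q x e - dq q x 0) := by ring
  rw [h4]
  refine (norm_add_le _ _).trans ?_
  have h5 : ‖(1 / 2 : ℂ) * Lf (dq q x e - dq q x 0)‖ ≤ 5 * B * m ^ 2 := by
    rw [norm_mul]
    have h6 : ‖(1 / 2 : ℂ)‖ = 1 / 2 := by norm_num
    rw [h6]
    have h7 : m * ‖e‖ ≤ m ^ 2 := by nlinarith
    have h8 : 5 * (B * (m * ‖e‖)) ≤ 5 * (B * m ^ 2) := by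
      have := mul_le_mul_of_nonneg_left h7 (by linarith : (0 : ℝ) ≤ B)
      linarith
    nlinarith [norm_nonneg (Lf (dq q x e - dq q x 0))]
  have h9 : C * (CX B * m) * ‖Xq q x e‖ ≤ C * CX B ^ 2 * m ^ 2 := by
    calc C * (CX B * m) * ‖Xq q x e‖ ≤ C * (CX B * m) * (CX B * m) :=
          mul_le_mul_of_nonneg_left hX (by positivity)
      _ = _ := by ring
  linarith

/-- (PL), second part: Lipschitz estimate of `Qf` -/
lemma Sm.Qf_lip (hL : LocQ ρ C) (h : Sm q q1 q2 D B) (hx : x ∈ D) (hxe : x + e ∈ D) (hx' : x' ∈ D)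
    (hxe' : x' + e' ∈ D) (he : ‖e‖ ≤ m) (he' : ‖e'‖ ≤ m)
    (hm1 : m ≤ 1) (hmρ : CX B * m < ρ) :
    ‖Qf (Xq q x' e') - Qf (Xq q x e)‖ ≤
      (5 * B + C * CX B ^ 2) * (m * ‖e' - e‖ + m ^ 2 * ‖x' - x‖) := by
  have hm : 0 ≤ m := (norm_nonneg _).trans he
  have hB := h.B_ge
  have hC := hL.C_ge
  have hCX := CX_ge hB
  have hX : ‖Xq q x e‖ ≤ CX B * m :=
    (h.norm_Xq hx hxe he hm1).trans (mul_le_mul_of_nonneg_left he (by linarith))
  have hX' : ‖Xq q x' e'‖ ≤ CX B * m :=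
    (h.norm_Xq hx' hxe' he' hm1).trans (mul_le_mul_of_nonneg_left he' (by linarith))
  have h1 := hL.c11 (CX B * m) (Xq q x e) (Xq q x' e') hmρ hX hX'
  have h3 : (Xq q x' e').1 - (Xq q x e).1 = dq q x' e' - dq q x e := rfl
  rw [h3] at h1
  have h2 := h.Lf_dq_sub hx hxe hx' hxe' he he'
  have h4 : Qf (Xq q x' e') - Qf (Xq q x e) =
      (Qf (Xq q x' e') - Qf (Xq q x e) - 1 / 2 * Lf (dq q x' e' - dq q x e)) +
      1 / 2 * Lf (dq q x' e' - dq q x e) := by ring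
  rw [h4]
  refine (norm_add_le _ _).trans ?_
  have hΔ := h.Xq_sub hx hxe hx' hxe' he he' hm1
  have h5 : ‖(1 / 2 : ℂ) * Lf (dq q x' e' - dq q x e)‖ ≤
      5 * B * (m * ‖e' - e‖ + m ^ 2 * ‖x' - x‖) := by
    rw [norm_mul]
    have h6 : ‖(1 / 2 : ℂ)‖ = 1 / 2 := by norm_num
    rw [h6]
    have h7 : 0 ≤ B * (m * ‖e' - e‖ + m ^ 2 * ‖x' - x‖) := by positivity
    linarith
  have h9 : C * (CX B * m) * ‖Xq q x' e' - Xq q x e‖ ≤
      C * CX B ^ 2 * (m * ‖e' - e‖ + m ^ 2 * ‖x' - x‖) := by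
    calc C * (CX B * m) * ‖Xq q x' e' - Xq q x e‖
        ≤ C * (CX B * m) * (CX B * (‖e' - e‖ + m * ‖x' - x‖)) :=
          mul_le_mul_of_nonneg_left hΔ (by positivity)
      _ = _ := by ring
  linarith

/-- (PL) -/
theorem Sm.PL (hL : LocQ ρ C) (h : Sm q q1 q2 D B) (hx : x ∈ D) (hxe : x + e ∈ D) (hx' : x' ∈ D)
    (hxe' : x' + e' ∈ D) (he : ‖e‖ ≤ m) (he' : ‖e'‖ ≤ m) (hm1 : m ≤ 1) (hmρ : CX B * m < ρ) :
    ‖Pq q x' e' - Pq q x e - (e' ^ 2 - e ^ 2) / 8‖ ≤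
      CP C B * (m ^ 3 * ‖e' - e‖ + m ^ 4 * ‖x' - x‖) := by
  have hm : 0 ≤ m := (norm_nonneg _).trans he
  have hB := h.B_ge
  have hC := hL.C_ge
  have hCX := CX_ge hB
  set K : ℝ := 5 * B + C * CX B ^ 2 with hK
  have hK0 : 0 ≤ K := by positivity
  have h1 := h.Qf_sub hL hx' hxe' he' hm1 hmρ
  have h2 := h.Qf_lip hL hx hxe hx' hxe' he he' hm1 hmρ
  have e1 : Pq q x' e' - Pq q x e - (e' ^ 2 - e ^ 2) / 8 =
      (e' ^ 2 - e ^ 2) * (Qf (Xq q x' e') - 1 / 8) + e ^ 2 * (Qf (Xq q x' e') - Qf (Xq q x e)) := by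
    unfold Pq; ring
  rw [e1]
  have h3 : ‖e' ^ 2 - e ^ 2‖ ≤ 2 * m * ‖e' - e‖ := by
    have : e' ^ 2 - e ^ 2 = (e' + e) * (e' - e) := by ring
    rw [this, norm_mul]
    refine mul_le_mul_of_nonneg_right ?_ (norm_nonneg _)
    exact (norm_add_le _ _).trans (by linarith)
  have h4 : ‖e ^ 2‖ ≤ m ^ 2 := by
    rw [norm_pow]; exact pow_le_pow_left₀ (norm_nonneg _) he 2
  calc ‖(e' ^ 2 - e ^ 2) * (Qf (Xq q x' e') - 1 / 8) +
        e ^ 2 * (Qf (Xq q x' e') - Qf (Xq q x e))‖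
      ≤ ‖e' ^ 2 - e ^ 2‖ * ‖Qf (Xq q x' e') - 1 / 8‖ +
        ‖e ^ 2‖ * ‖Qf (Xq q x' e') - Qf (Xq q x e)‖ := by
        refine (norm_add_le _ _).trans ?_
        rw [norm_mul, norm_mul]
    _ ≤ (2 * m * ‖e' - e‖) * (K * m ^ 2) + m ^ 2 * (K * (m * ‖e' - e‖ + m ^ 2 * ‖x' - x‖)) :=
        add_le_add (mul_le_mul h3 h1 (norm_nonneg _) (by positivity))
          (mul_le_mul h4 h2 (norm_nonneg _) (by positivity))
    _ ≤ (2 * K + K) * (m ^ 3 * ‖e' - e‖ + m ^ 4 * ‖x' - x‖) := by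
        have : 0 ≤ K * (m ^ 4 * ‖x' - x‖) := by positivity
        nlinarith
    _ = _ := by rw [hK]; rfl

/-- the constant of (P0) -/
def CP0 (ρ C B : ℝ) : ℝ := (5 + 2 * C) * B + 2 * C / (ρ / (2 * CX B)) ^ 3

/-- (P0): the Lazutkin cancellation of third order -/
theorem Sm.P0 (hL : LocQ ρ C) (h : Sm q q1 q2 D B) (hx : x ∈ D) (hxe : x + e ∈ D)
    (hxe' : x - e ∈ D) (hmρ : 2 * CX B * ‖e‖ < ρ) :
    ‖Pq q x (-e) - Pq q x e‖ ≤ CP0 ρ C B * ‖e‖ ^ 5 := by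
  have hB := h.B_ge
  have hC := hL.C_ge
  have hCX := CX_ge hB
  have hρ := hL.ρ_pos
  have hρ1 := hL.ρ_le
  have he0 := norm_nonneg e
  have he1 : ‖e‖ ≤ 1 := by nlinarith
  set R : ℝ := ρ / (2 * CX B) with hR
  have hR0 : 0 < R := by positivity
  have hR1 : R ≤ 1 := by
    rw [hR, div_le_one (by positivity)]; linarith
  set X1 : AA × ℂ := (q1 x • iot, Complex.exp (q x)) with hX1
  set X2 : AA × ℂ := ((q2 x / 2) • (iot * iot), 0) with hX2
  have hexp : ‖Complex.exp (q x)‖ ≤ Real.exp B := by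
    rw [Complex.norm_exp]
    exact Real.exp_le_exp.2 ((Complex.re_le_norm _).trans (h.b0 x hx))
  have nX1 : ‖X1‖ ≤ CX B := by
    rw [hX1, Prod.norm_mk]
    refine max_le ?_ ?_
    · rw [norm_smul]
      have := mul_le_mul (h.b1 x hx) norm_iot_le (norm_nonneg _) (by linarith)
      unfold CX
      have : 0 < Real.exp B := Real.exp_pos B
      nlinarith
    · unfold CX
      have : 0 < Real.exp B := Real.exp_pos B
      nlinarith
  have niot2 : ‖iot * iot‖ ≤ 1 := by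
    refine (norm_mul_le _ _).trans ?_
    have := norm_iot_le
    nlinarith [norm_nonneg iot]
  have nX2 : ‖X2‖ ≤ CX B := by
    rw [hX2, Prod.norm_mk]
    refine max_le ?_ (by rw [norm_zero]; linarith)
    rw [norm_smul]
    have h1 : ‖q2 x / 2‖ ≤ B := by
      rw [norm_div]
      have := h.b2 x hx
      have h2 : ‖(2 : ℂ)‖ = 2 := by norm_num
      rw [h2]
      linarith
    have := mul_le_mul h1 niot2 (norm_nonneg _) (by linarith)
    unfold CX
    have : 0 < Real.exp B := Real.exp_pos B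
    nlinarith
  have nY : ∀ s : ℂ, ‖s‖ ≤ 1 → ‖s • X1 + s ^ 2 • X2‖ ≤ 2 * CX B * ‖s‖ := by
    intro s hs
    refine (norm_add_le _ _).trans ?_
    rw [norm_smul, norm_smul, norm_pow]
    have h1 : ‖s‖ * ‖X1‖ ≤ ‖s‖ * CX B := mul_le_mul_of_nonneg_left nX1 (norm_nonneg _)
    have h2 : ‖s‖ ^ 2 * ‖X2‖ ≤ ‖s‖ * CX B := by
      have : ‖s‖ ^ 2 ≤ ‖s‖ := by nlinarith [norm_nonneg s]
      exact mul_le_mul this nX2 (norm_nonneg _) (norm_nonneg _)
    linarith
  have hball : ∀ s ∈ ball (0 : ℂ) R, ‖s • X1 + s ^ 2 • X2‖ < ρ := by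
    intro s hs
    rw [mem_ball_zero_iff] at hs
    refine (nY s (hs.le.trans hR1)).trans_lt ?_
    rw [hR, lt_div_iff₀ (by positivity)] at hs
    linarith
  set g : ℂ → ℂ := fun s => Qf (s • X1 + s ^ 2 • X2) with hg
  have hin : ∀ s : ℂ, HasDerivAt (fun s : ℂ => s • X1 + s ^ 2 • X2) (X1 + (2 * s) • X2) s := by
    intro s
    have h1 : HasDerivAt (fun s : ℂ => s • X1) ((1 : ℂ) • X1) s := (hasDerivAt_id s).smul_const X1
    have h2 : HasDerivAt (fun s : ℂ => s ^ 2 • X2) ((2 * s) • X2) s := by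
      have := (hasDerivAt_pow 2 s).smul_const X2
      simpa using this
    have h3 := h1.add h2
    rw [one_smul] at h3
    exact h3
  have gdiff : ∀ s ∈ ball (0 : ℂ) R, DifferentiableAt ℂ g s := by
    intro s hs
    exact ((hL.an _ (hball s hs)).differentiableAt).comp s (hin s).differentiableAt
  have g0 : deriv g 0 = 0 := by
    have h1 : HasFDerivAt Qf DQ0 ((0 : ℂ) • X1 + (0 : ℂ) ^ 2 • X2) := by
      have : (0 : ℂ) • X1 + (0 : ℂ) ^ 2 • X2 = 0 := by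
        rw [zero_smul, zero_pow two_ne_zero, zero_smul, add_zero]
      rw [this]
      exact hasFDerivAt_Qf_zero
    have h2 := h1.comp_hasDerivAt (0 : ℂ) (hin 0)
    have h3 : DQ0 (X1 + (2 * (0 : ℂ)) • X2) = 0 := by
      rw [mul_zero, zero_smul, add_zero, DQ0_apply, hX1]
      simp only [map_smul, Lf_iot, smul_zero, mul_zero]
    rw [h3] at h2
    exact h2.deriv
  set f : ℂ → ℂ := fun s => g (-s) - g s with hf
  have hneg : ∀ s ∈ ball (0 : ℂ) R, -s ∈ ball (0 : ℂ) R := fun s hs => by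
    rw [mem_ball_zero_iff] at hs ⊢; rwa [norm_neg]
  have fdiff : DifferentiableOn ℂ f (ball 0 R) := by
    intro s hs
    have h1 : DifferentiableAt ℂ (fun s : ℂ => g (-s)) s :=
      DifferentiableAt.comp (g := g) (f := fun s : ℂ => -s) s (gdiff _ (hneg s hs))
        differentiableAt_id.neg
    exact (h1.sub (gdiff s hs)).differentiableWithinAt
  have fb : ∀ s ∈ ball (0 : ℂ) R, ‖f s‖ ≤ 2 * C := by
    intro s hs
    refine (norm_sub_le _ _).trans ?_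
    have h1 := hL.bd _ (hball s hs)
    have h2 := hL.bd _ (hball _ (hneg s hs))
    simp only [hg]
    linarith
  have fodd : ∀ s, f (-s) = - f s := by
    intro s
    simp only [hf, neg_neg]; ring
  have fd : deriv f 0 = 0 := by
    have hm0 : (0 : ℂ) ∈ ball (0 : ℂ) R := mem_ball_self hR0
    have h1 : HasDerivAt g 0 0 := by
      have := (gdiff 0 hm0).hasDerivAt
      rwa [g0] at this
    have h2 : HasDerivAt (fun s : ℂ => g (-s)) 0 0 := by
      have h1' : HasDerivAt g 0 (-(0 : ℂ)) := by rwa [neg_zero]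
      have := HasDerivAt.comp (0 : ℂ) h1' (hasDerivAt_neg (0 : ℂ))
      rw [zero_mul] at this
      exact this
    have := (h2.sub h1).deriv
    rw [sub_zero] at this
    exact this
  have hs3 := schwarz3 hR0 fdiff fb fodd fd
  -- comparison of `Xq` with its Taylor polynomial
  have cmp : ∀ e : ℂ, x + e ∈ D → 2 * CX B * ‖e‖ < ρ →
      ‖Qf (Xq q x e) - g e‖ ≤ (5 / 2 + C) * B * ‖e‖ ^ 3 := by
    intro e hxe he
    have he0 := norm_nonneg e
    have he1 : ‖e‖ ≤ 1 := by nlinarith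
    have nd : ‖(Xq q x e - (e • X1 + e ^ 2 • X2))‖ ≤ B * ‖e‖ ^ 3 := by
      have c2 : (Xq q x e - (e • X1 + e ^ 2 • X2)).2 = 0 := by
        simp [Xq, hX1, hX2]
      have c1 : ‖(Xq q x e - (e • X1 + e ^ 2 • X2)).1‖ ≤ B * ‖e‖ ^ 3 := by
        refine (AA.norm_le (by positivity)).2 (fun r => ?_)
        have h1 : (Xq q x e - (e • X1 + e ^ 2 • X2)).1 r =
            q (x + e * ((r : ℝ) : ℂ)) - q x - (e * ((r : ℝ) : ℂ)) * q1 x -
              (e * ((r : ℝ) : ℂ)) ^ 2 * q2 x / 2 := by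
          simp only [Xq, hX1, hX2, Prod.fst_sub, Prod.fst_add, Prod.smul_fst, AA.sub_apply,
            AA.add_apply, AA.smul_apply, AA.mul_apply, dq_apply, iot_apply]
          ring
        rw [h1]
        refine (h.t2 x _ hx (h.seg hx hxe r)).trans ?_
        exact mul_le_mul_of_nonneg_left (pow_le_pow_left₀ (norm_nonneg _) (norm_mul_r_le e r) 3)
          (by linarith)
      rw [Prod.norm_def, c2, norm_zero]
      exact max_le c1 (by positivity)
    have h1 : ‖Xq q x e‖ ≤ 2 * CX B * ‖e‖ := by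
      have := h.norm_Xq hx hxe (m := 1) he1 le_rfl
      nlinarith
    have h2 := nY e he1
    have h3 := hL.c11 (2 * CX B * ‖e‖) (e • X1 + e ^ 2 • X2) (Xq q x e) he h2 h1
    have h4 : ‖(1 / 2 : ℂ) * Lf ((Xq q x e).1 - (e • X1 + e ^ 2 • X2).1)‖ ≤
        5 / 2 * (B * ‖e‖ ^ 3) := by
      rw [norm_mul]
      have h5 : ‖(1 / 2 : ℂ)‖ = 1 / 2 := by norm_num
      have h6 := norm_Lf_le ((Xq q x e).1 - (e • X1 + e ^ 2 • X2).1)
      have h7 : ‖(Xq q x e).1 - (e • X1 + e ^ 2 • X2).1‖ ≤ B * ‖e‖ ^ 3 :=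
        (norm_fst_le (Xq q x e - (e • X1 + e ^ 2 • X2))).trans nd
      rw [h5]
      linarith
    have h8 : C * (2 * CX B * ‖e‖) * ‖Xq q x e - (e • X1 + e ^ 2 • X2)‖ ≤ C * (B * ‖e‖ ^ 3) := by
      have h9 : C * (2 * CX B * ‖e‖) ≤ C := by
        have : 2 * CX B * ‖e‖ ≤ 1 := by linarith
        nlinarith
      exact mul_le_mul h9 nd (norm_nonneg _) (by linarith)
    have h10 : Qf (Xq q x e) - g e = (Qf (Xq q x e) - g e -
        1 / 2 * Lf ((Xq q x e).1 - (e • X1 + e ^ 2 • X2).1)) +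
        1 / 2 * Lf ((Xq q x e).1 - (e • X1 + e ^ 2 • X2).1) := by ring
    rw [h10]
    refine (norm_add_le _ _).trans ?_
    refine (add_le_add (h3.trans h8) h4).trans (le_of_eq ?_)
    ring
  have m1 := cmp e hxe hmρ
  have m2 := cmp (-e) (by rwa [← sub_eq_add_neg]) (by rwa [norm_neg])
  rw [norm_neg] at m2
  have hes : e ∈ ball (0 : ℂ) R := by
    rw [mem_ball_zero_iff, hR, lt_div_iff₀ (by positivity)]
    linarith
  have m3 := hs3 e hes
  have e1 : Pq q x (-e) - Pq q x e = e ^ 2 * ((Qf (Xq q x (-e)) - g (-e)) -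
      (Qf (Xq q x e) - g e) + f e) := by
    unfold Pq
    simp only [hf]
    ring
  rw [e1, norm_mul, norm_pow]
  have m4 : ‖(Qf (Xq q x (-e)) - g (-e)) - (Qf (Xq q x e) - g e) + f e‖ ≤
      CP0 ρ C B * ‖e‖ ^ 3 := by
    refine (norm_add_le _ _).trans ?_
    refine (add_le_add (norm_sub_le _ _) le_rfl).trans ?_
    refine (add_le_add (add_le_add m2 m1) m3).trans (le_of_eq ?_)
    unfold CP0
    ring
  calc ‖e‖ ^ 2 * ‖(Qf (Xq q x (-e)) - g (-e)) - (Qf (Xq q x e) - g e) + f e‖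
      ≤ ‖e‖ ^ 2 * (CP0 ρ C B * ‖e‖ ^ 3) := mul_le_mul_of_nonneg_left m4 (by positivity)
    _ = _ := by ring

end

end Crest.Agent.R102.A929
end
end

-- ▼ part R102/IfaceA_929

/-!
Row 102, part (A) (helper929): interface definitions (action, (R*) in terms of `EP`, exponentials).
-/

set_option autoImplicit false

open Set Filter Topology Metric Complex MeasureTheory
open scoped Real ContDiff

noncomputable section

namespace Crest.Agent.R102.A929

/-- `e(x) = exp(2 π i x)` -/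
def ee (z : ℂ) : ℂ := Complex.exp (2 * π * I * z)

/-- a real function as a function on `ℂ` (constant in the imaginary direction) -/
def ofR (f : ℝ → ℝ) (hf : Continuous f) : C(ℂ, ℂ) := ⟨fun z => (f z.re : ℂ), by fun_prop⟩

/-- `M` is an action for `q` on pairs with step in `(0, ε)`: `M = arc - chord` -/
structure IsAct (q : C(ℂ, ℂ)) (ε : ℝ) (M : ℝ → ℝ → ℝ) : Prop where
  d : ∀ x y : ℝ, x < y → y - x < ε →
    HasFDerivAt (fun p : ℝ × ℝ => M p.1 p.2)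
      ((-(Pq q x ((y : ℂ) - x)).re) • ContinuousLinearMap.fst ℝ ℝ ℝ +
        (Pq q y (-((y : ℂ) - x))).re • ContinuousLinearMap.snd ℝ ℝ ℝ) (x, y)
  per : ∀ x y : ℝ, M (x + 1) (y + 1) = M x y

/-- (R*) in terms of `EP` -/
def RStarP (q : C(ℂ, ℂ)) (ε₁ : ℝ) : Prop :=
  ∀ (n j : ℕ) (x : ℕ → ℝ), 1 ≤ n → 1 ≤ j →
    (∀ i < n, 0 < x (i + 1) - x i ∧ x (i + 1) - x i < ε₁) → x n = x 0 + j →
    (∀ i, 1 ≤ i → i < n → EP q (x (i - 1)) (x i) (x (i + 1)) = 0) →
    EP q ((x (n - 1) : ℂ) - j) (x 0) (x 1) = 0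

/-- the real line as a subset of `ℂ` -/
def RR : Set ℂ := {z | z.im = 0}

/-- closed strip -/
def St (η : ℝ) : Set ℂ := {z | |z.im| ≤ η}

/-- LEAF SMR (real functions) -/
def LeafSMR : Prop :=
  ∀ (f : ℝ → ℝ) (hf : ContDiff ℝ 3 f), (∀ x, f (x + 1) = f x) →
    ∃ (q1 q2 : ℂ → ℂ) (B : ℝ), Sm (ofR f hf.continuous) q1 q2 RR B

/-- LEAF SMS (entire functions with bounded derivatives on a closed strip) -/
def LeafSMS : Prop :=
  ∀ (q : C(ℂ, ℂ)) (η B : ℝ), 0 ≤ η → 1 ≤ B → Differentiable ℂ q →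
    (∀ z ∈ St η, ‖q z‖ ≤ B) → (∀ z ∈ St η, ‖deriv q z‖ ≤ B) →
    (∀ z ∈ St η, ‖deriv (deriv q) z‖ ≤ B) → (∀ z ∈ St η, ‖deriv (deriv (deriv q)) z‖ ≤ B) →
    Sm q (deriv q) (deriv (deriv q)) (St η) (4 * B)

/-- LEAF GEO: the action `M(x, y) = ∫_x^y e^{-2q} - |∫_x^y e^{-2q + iΘ}|`, `Θ' = e^q` -/
def LeafGEO : Prop :=
  ∀ (ρ C : ℝ), LocQ ρ C → ∀ (q : C(ℂ, ℂ)) (ε : ℝ), 0 < ε → (∀ x : ℝ, (q x).im = 0) →
    (∀ x : ℝ, q (x + 1) = q x) → (∀ x e : ℝ, |e| < ε → ‖Xq q x e‖ < ρ) →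
    ∃ M : ℝ → ℝ → ℝ, IsAct q ε M


/-- LEAF FIX: the approximate leaf of rotation number `1/n` -/
def LeafFIX : Prop :=
  ∀ (ρ C : ℝ), LocQ ρ C → ∀ B : ℝ, 1 ≤ B → ∃ (A : ℝ) (n₁ : ℕ), 0 < A ∧ ∀ (n : ℕ)
    (q : C(ℂ, ℂ)) (q1 q2 : ℂ → ℂ) (η : ℝ) (M : ℝ → ℝ → ℝ), n₁ ≤ n → 0 ≤ η →
    Differentiable ℂ q → (∀ z, q (z + 1) = q z) → (∀ x : ℝ, (q x).im = 0) →
    Sm q q1 q2 (St (η + 2 / n)) B → IsAct q (2 / n) M →
    ∃ v : ℂ → ℂ, Differentiable ℂ v ∧ (∀ z, v (z + 1) = v z) ∧ (∀ x : ℝ, (v x).im = 0) ∧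
      (∀ z ∈ St η, ‖v z‖ ≤ A / n ^ 2) ∧
      (∀ z ∈ St η, ‖v (z + 1 / n) - v z‖ ≤ A / (n : ℝ) ^ (5 / 2 : ℝ)) ∧
      (∀ z ∈ St η, ‖deriv v z‖ ≤ A / n) ∧
      (∀ z ∈ St η, ‖EP q (z - 1 / n + v (z - 1 / n)) (z + v z) (z + 1 / n + v (z + 1 / n))‖ ≤
        A / n ^ 4) ∧
      (∀ k : ℤ, 2 * |k| ≤ n → ∫ x in (0 : ℝ)..1,
        EP q (x - 1 / n + v (x - 1 / n)) (x + v x) (x + 1 / n + v (x + 1 / n)) * ee (-(k * x)) = 0)

/-- LEAF LIN: first order change of the `n`-th Fourier coefficient of `EP` under `q = qL + h`,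
`h = ∑ a_k e(k x)`.  The main term comes from `Lf (sin (2π r)) = 3/(2π)`. -/
def LeafLIN : Prop :=
  ∀ (ρ C : ℝ), LocQ ρ C → ∀ B A : ℝ, 1 ≤ B → 0 ≤ A → ∃ (A' : ℝ) (n₂ : ℕ), 0 < A' ∧ ∀ (n : ℕ)
    (q qL : C(ℂ, ℂ)) (q1 q2 : ℂ → ℂ) (η : ℝ) (a : ℤ → ℂ) (v : ℂ → ℂ), n₂ ≤ n → 0 ≤ η →
    Differentiable ℂ qL → (∀ z, qL (z + 1) = qL z) → (∀ x : ℝ, (qL x).im = 0) →
    Sm qL q1 q2 (St (η + 2 / n)) B →
    Summable (fun k => ‖a k‖) → (∑' k, ‖a k‖) ≤ 1 / n →
    (∀ x : ℝ, q x = qL x + ∑' k : ℤ, a k * ee (k * x)) → (∀ x : ℝ, (q x).im = 0) →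
    Differentiable ℂ v → (∀ z, v (z + 1) = v z) → (∀ x : ℝ, (v x).im = 0) →
    (∀ z ∈ St η, ‖v z‖ ≤ A / n ^ 2) →
    (∀ z ∈ St η, ‖v (z + 1 / n) - v z‖ ≤ A / (n : ℝ) ^ (5 / 2 : ℝ)) →
    (∀ z ∈ St η, ‖deriv v z‖ ≤ A / n) →
    ‖(∫ x in (0 : ℝ)..1,
        (EP q (x - 1 / n + v (x - 1 / n)) (x + v x) (x + 1 / n + v (x + 1 / n)) -
          EP qL (x - 1 / n + v (x - 1 / n)) (x + v x) (x + 1 / n + v (x + 1 / n))) *
        (1 + deriv v x) * ee (-(n * x))) + I * (3 / (2 * π)) * (1 / n ^ 2) * a n‖ ≤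
      A' * ((∑' k : ℤ, if |k| ≤ 2 * n then ‖a k‖ * Real.exp (-(2 * π * η * |(n : ℝ) - k|)) else 0)
            / n ^ 3 +
          (∑' k : ℤ, if 2 * n < |k| ∧ |k| ≤ n ^ 2 then
            ‖a k‖ * Real.exp (-(2 * π * η * |(n : ℝ) - k|)) else 0) / n ^ 2 +
          (∑' k : ℤ, if (n : ℤ) ^ 2 < |k| then ‖a k‖ else 0) / n ^ 2 +
          (∑' k, ‖a k‖) ^ 2 / n ^ 2)

end Crest.Agent.R102.A929
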