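import Mathlib
import Crest.Agent.R102.IfaceA_929

-- ▼ part R102/Var_575
section

/-!
Row 102, part (A), leaf VAR (helper575): an approximate leaf of rotation number `1/n` whose
polygons are almost critical has almost constant action; the only dynamical input is the closing
property `(R*)`.
-/

set_option autoImplicit false

open Set Filter Topology Metric Finset
open scoped Real

noncomputable section

namespace Crest.Agent.R102.Var575

/-- defect of the reflection law at `b` (real form) -/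
def EPr (P : ℝ → ℝ → ℝ) (a b c : ℝ) : ℝ := P b (-(b - a)) - P b (c - b)

/-- hypotheses on the real reflection function `P`, the generating function `M` and `(R*)` -/
structure VarData (P M : ℝ → ℝ → ℝ) (m₀ C ε₁ : ℝ) : Prop where
  m_pos : 0 < m₀
  C_pos : 0 < C
  ε_pos : 0 < ε₁
  PL : ∀ m x x' e e' : ℝ, 0 < m → m ≤ m₀ → |e| ≤ m → |e'| ≤ m →
    |P x' e' - P x e - (e' ^ 2 - e ^ 2) / 8| ≤ C * (m ^ 3 * |e' - e| + m ^ 4 * |x' - x|)
  perP : ∀ x e : ℝ, |e| ≤ m₀ → P (x + 1) e = P x e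
  M1 : ∀ x y : ℝ, 0 < y - x → y - x < m₀ → HasDerivAt (fun z => M z y) (-(P x (y - x))) x
  M2 : ∀ x y : ℝ, 0 < y - x → y - x < m₀ → HasDerivAt (fun z => M x z) (P y (-(y - x))) y
  RS : ∀ (n j : ℕ) (x : ℕ → ℝ), 1 ≤ n → 1 ≤ j →
    (∀ i < n, 0 < x (i + 1) - x i ∧ x (i + 1) - x i < ε₁) → x n = x 0 + j →
    (∀ i, 1 ≤ i → i < n → EPr P (x (i - 1)) (x i) (x (i + 1)) = 0) →
    EPr P (x (n - 1) - j) (x 0) (x 1) = 0

/-- action of a polygon -/
def Act (M : ℝ → ℝ → ℝ) (n : ℕ) (s : ℕ → ℝ) : ℝ := ∑ i ∈ range n, M (s i) (s (i + 1))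

/-- first variation of the action in direction `v` -/
def Ph (P : ℝ → ℝ → ℝ) (n : ℕ) (s v : ℕ → ℝ) : ℝ :=
  ∑ i ∈ range n, (P (s (i + 1)) (-(s (i + 1) - s i)) * v (i + 1) -
    P (s i) (s (i + 1) - s i) * v i)

/-- steps comparable to `w` -/
def Stp (n : ℕ) (w : ℝ) (s : ℕ → ℝ) : Prop :=
  ∀ i < n, w / 2 ≤ s (i + 1) - s i ∧ s (i + 1) - s i ≤ 3 * w / 2

variable {P M : ℝ → ℝ → ℝ} {m₀ C ε₁ : ℝ}

lemma Stp.seg {n : ℕ} {w : ℝ} {s v : ℕ → ℝ} (h0 : Stp n w s) (h1 : Stp n w (fun i => s i + v i))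
    {τ : ℝ} (hτ0 : 0 ≤ τ) (hτ1 : τ ≤ 1) : Stp n w (fun i => s i + τ * v i) := by
  intro i hi
  have h2 := h0 i hi
  have h3 := h1 i hi
  constructor <;> dsimp only at * <;> nlinarith [h2.1, h2.2, h3.1, h3.2]

lemma VarData.continuousAt_P (h : VarData P M m₀ C ε₁) {x e : ℝ} (he : |e| < m₀) :
    ContinuousAt (fun p : ℝ × ℝ => P p.1 p.2) (x, e) := by
  have hopen : ∀ᶠ p : ℝ × ℝ in 𝓝 (x, e), |p.2| < m₀ :=
    (isOpen_lt (by fun_prop : Continuous fun p : ℝ × ℝ => |p.2|) continuous_const).mem_nhds he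
  have h1 : Tendsto (fun p : ℝ × ℝ => (p.2 ^ 2 - e ^ 2) / 8) (𝓝 (x, e)) (𝓝 ((e ^ 2 - e ^ 2) / 8)) :=
    (by fun_prop : Continuous fun p : ℝ × ℝ => (p.2 ^ 2 - e ^ 2) / 8).tendsto' _ _ rfl
  have h2 : Tendsto (fun p : ℝ × ℝ => C * (m₀ ^ 3 * |p.2 - e| + m₀ ^ 4 * |p.1 - x|)) (𝓝 (x, e))
      (𝓝 0) := by
    refine (by fun_prop : Continuous fun p : ℝ × ℝ =>
      C * (m₀ ^ 3 * |p.2 - e| + m₀ ^ 4 * |p.1 - x|)).tendsto' _ _ ?_
    simp
  have h3 : Tendsto (fun p : ℝ × ℝ => P p.1 p.2 - P x e - (p.2 ^ 2 - e ^ 2) / 8) (𝓝 (x, e))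
      (𝓝 0) := by
    refine squeeze_zero_norm' ?_ h2
    filter_upwards [hopen] with p hp
    rw [Real.norm_eq_abs]
    exact h.PL m₀ x p.1 e p.2 h.m_pos le_rfl he.le hp.le
  have h4 := h3.add h1
  have h5 : Tendsto (fun p : ℝ × ℝ => P p.1 p.2 - P x e) (𝓝 (x, e)) (𝓝 0) := by
    have h6 : (0 : ℝ) + (e ^ 2 - e ^ 2) / 8 = 0 := by ring
    rw [h6] at h4
    refine h4.congr (fun p => by ring)
  have h7 := h5.add_const (P x e)
  rw [zero_add] at h7
  exact h7.congr (fun p => by ring)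

lemma VarData.hasStrictFDerivAt_M (h : VarData P M m₀ C ε₁) {x y : ℝ} (h0 : 0 < y - x)
    (h1 : y - x < m₀) :
    HasStrictFDerivAt (fun p : ℝ × ℝ => M p.1 p.2)
      ((ContinuousLinearMap.toSpanSingleton ℝ (-(P x (y - x)))).coprod
        (ContinuousLinearMap.toSpanSingleton ℝ (P y (-(y - x))))) (x, y) := by
  have hopen : ∀ᶠ p : ℝ × ℝ in 𝓝 (x, y), 0 < p.2 - p.1 ∧ p.2 - p.1 < m₀ := by
    refine Filter.Eventually.and ?_ ?_
    · exact (isOpen_lt continuous_const (by fun_prop : Continuous fun p : ℝ × ℝ => p.2 - p.1)).mem_nhds h0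
    · exact (isOpen_lt (by fun_prop : Continuous fun p : ℝ × ℝ => p.2 - p.1) continuous_const).mem_nhds h1
  have hc1 : ContinuousAt (fun p : ℝ × ℝ => -(P p.1 (p.2 - p.1))) (x, y) := by
    have h2 : ContinuousAt (fun p : ℝ × ℝ => P p.1 p.2) (x, y - x) :=
      h.continuousAt_P (by rw [abs_of_pos h0]; exact h1)
    have h3 : ContinuousAt (fun p : ℝ × ℝ => (p.1, p.2 - p.1)) (x, y) := by fun_prop
    exact (ContinuousAt.comp (f := fun p : ℝ × ℝ => (p.1, p.2 - p.1)) (x := (x, y)) h2 h3).neg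
  have hc2 : ContinuousAt (fun p : ℝ × ℝ => P p.2 (-(p.2 - p.1))) (x, y) := by
    have h2 : ContinuousAt (fun p : ℝ × ℝ => P p.1 p.2) (y, -(y - x)) :=
      h.continuousAt_P (by rw [abs_neg, abs_of_pos h0]; exact h1)
    have h3 : ContinuousAt (fun p : ℝ × ℝ => (p.2, -(p.2 - p.1))) (x, y) := by fun_prop
    exact ContinuousAt.comp (f := fun p : ℝ × ℝ => (p.2, -(p.2 - p.1))) (x := (x, y)) h2 h3
  have hcs : Continuous (fun c : ℝ => ContinuousLinearMap.toSpanSingleton ℝ c) := by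
    have := (ContinuousLinearMap.toSpanSingletonCLE (𝕜 := ℝ) (E := ℝ)).continuous
    exact this
  refine hasStrictFDerivAt_uncurry_coprod (u := (x, y)) (f := M)
    (f₁ := fun a b => ContinuousLinearMap.toSpanSingleton ℝ (-(P a (b - a))))
    (f₂ := fun a b => ContinuousLinearMap.toSpanSingleton ℝ (P b (-(b - a)))) ?_ ?_ ?_ ?_
  · filter_upwards [hopen] with p hp
    exact (h.M1 p.1 p.2 hp.1 hp.2).hasFDerivAt
  · filter_upwards [hopen] with p hp
    exact (h.M2 p.1 p.2 hp.1 hp.2).hasFDerivAt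
  · exact hcs.continuousAt.comp hc1
  · exact hcs.continuousAt.comp hc2

lemma VarData.hasDerivAt_M (h : VarData P M m₀ C ε₁) {x y : ℝ} (h0 : 0 < y - x)
    (h1 : y - x < m₀) {x' y' : ℝ → ℝ} {a b t : ℝ} (hx : HasDerivAt x' a t) (hy : HasDerivAt y' b t)
    (hx0 : x' t = x) (hy0 : y' t = y) :
    HasDerivAt (fun τ => M (x' τ) (y' τ)) (P y (-(y - x)) * b - P x (y - x) * a) t := by
  subst hx0 hy0
  have h2 := (h.hasStrictFDerivAt_M h0 h1).hasFDerivAt
  have h3 : HasDerivAt (fun τ => (x' τ, y' τ)) (a, b) t := hx.prodMk hy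
  have h4 := HasFDerivAt.comp_hasDerivAt (f := fun τ => (x' τ, y' τ)) t h2 h3
  refine h4.congr_deriv ?_
  simp [ContinuousLinearMap.coprod_apply]
  ring

lemma VarData.hasDerivAt_Act (h : VarData P M m₀ C ε₁) {n : ℕ} {w : ℝ} (hw : 0 < w)
    (hw1 : 3 * w / 2 < m₀) {s v : ℕ → ℝ} {τ : ℝ} (hs : Stp n w (fun i => s i + τ * v i)) :
    HasDerivAt (fun τ => Act M n (fun i => s i + τ * v i)) (Ph P n (fun i => s i + τ * v i) v) τ := by
  unfold Act Ph
  refine HasDerivAt.fun_sum (fun i hi => ?_)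
  have h1 := hs i (Finset.mem_range.1 hi)
  have hd : ∀ j : ℕ, HasDerivAt (fun τ : ℝ => s j + τ * v j) (v j) τ := fun j => by
    simpa using ((hasDerivAt_id τ).mul_const (v j)).const_add (s j)
  exact h.hasDerivAt_M (by linarith [h1.1]) (by linarith [h1.2]) (hd i) (hd (i + 1)) rfl rfl

/-- first variation through the defects -/
lemma Ph_eq (P : ℝ → ℝ → ℝ) (N : ℕ) (s v : ℕ → ℝ) :
    Ph P (N + 1) s v = P (s (N + 1)) (-(s (N + 1) - s N)) * v (N + 1) -
      P (s 0) (s 1 - s 0) * v 0 + ∑ i ∈ range N, EPr P (s i) (s (i + 1)) (s (i + 2)) * v (i + 1) := by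
  unfold Ph
  induction N with
  | zero => simp
  | succ N ih =>
    rw [Finset.sum_range_succ, ih, Finset.sum_range_succ _ N]
    unfold EPr
    ring_nf

/-- summand estimate -/
lemma VarData.term_bound (h : VarData P M m₀ C ε₁) {w : ℝ} (hw : 0 < w) (hw1 : 2 * w ≤ m₀)
    {x y x' y' : ℝ} (h1 : w / 2 ≤ y - x ∧ y - x ≤ 3 * w / 2)
    (h2 : w / 2 ≤ y' - x' ∧ y' - x' ≤ 3 * w / 2) (a b : ℝ) :
    |(P y' (-(y' - x')) * b - P x' (y' - x') * a) - (P y (-(y - x)) * b - P x (y - x) * a) -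
      ((y' - x') ^ 2 - (y - x) ^ 2) / 8 * (b - a)| ≤
      C * (8 * w ^ 3 * |(y' - x') - (y - x)| + 16 * w ^ 4 * |y' - y|) * |b| +
      C * (8 * w ^ 3 * |(y' - x') - (y - x)| + 16 * w ^ 4 * |x' - x|) * |a| := by
  have e1 : |y - x| ≤ 2 * w := by rw [abs_le]; constructor <;> linarith [h1.1, h1.2]
  have e2 : |y' - x'| ≤ 2 * w := by rw [abs_le]; constructor <;> linarith [h2.1, h2.2]
  have k1 := h.PL (2 * w) y y' (-(y - x)) (-(y' - x')) (by linarith) hw1 (by rwa [abs_neg])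
    (by rwa [abs_neg])
  have k2 := h.PL (2 * w) x x' (y - x) (y' - x') (by linarith) hw1 e1 e2
  have q1 : |(-(y' - x')) - (-(y - x))| = |(y' - x') - (y - x)| := by
    rw [← abs_neg]; congr 1; ring
  rw [q1] at k1
  set B1 := P y' (-(y' - x')) - P y (-(y - x)) - ((-(y' - x')) ^ 2 - (-(y - x)) ^ 2) / 8 with hB1
  set B2 := P x' (y' - x') - P x (y - x) - ((y' - x') ^ 2 - (y - x) ^ 2) / 8 with hB2
  have key : (P y' (-(y' - x')) * b - P x' (y' - x') * a) - (P y (-(y - x)) * b - P x (y - x) * a) -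
      ((y' - x') ^ 2 - (y - x) ^ 2) / 8 * (b - a) = B1 * b + (-(B2 * a)) := by
    rw [hB1, hB2]; ring
  rw [key]
  refine (abs_add_le _ _).trans ?_
  rw [abs_neg, abs_mul, abs_mul]
  have r1 : (2 * w) ^ 3 = 8 * w ^ 3 := by ring
  have r2 : (2 * w) ^ 4 = 16 * w ^ 4 := by ring
  rw [r1, r2] at k1 k2
  exact add_le_add (mul_le_mul_of_nonneg_right k1 (abs_nonneg b))
    (mul_le_mul_of_nonneg_right k2 (abs_nonneg a))

/-- sum of squares of increments -/
def TT (n : ℕ) (v : ℕ → ℝ) : ℝ := ∑ i ∈ range n, (v (i + 1) - v i) ^ 2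

/-- total variation -/
def DD (n : ℕ) (v : ℕ → ℝ) : ℝ := ∑ i ∈ range n, |v (i + 1) - v i|

lemma TT_nonneg (n : ℕ) (v : ℕ → ℝ) : 0 ≤ TT n v := Finset.sum_nonneg (fun _ _ => sq_nonneg _)

lemma DD_nonneg (n : ℕ) (v : ℕ → ℝ) : 0 ≤ DD n v := Finset.sum_nonneg (fun _ _ => abs_nonneg _)

lemma abs_sub_le_DD {n i : ℕ} (hi : i ≤ n) (v : ℕ → ℝ) : |v i - v 0| ≤ DD n v := by
  rw [← Finset.sum_range_sub]
  refine (Finset.abs_sum_le_sum_abs _ _).trans ?_
  exact Finset.sum_le_sum_of_subset_of_nonneg (Finset.range_mono hi) (fun _ _ _ => abs_nonneg _)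

lemma DD_sq_le (n : ℕ) (v : ℕ → ℝ) : DD n v ^ 2 ≤ n * TT n v := by
  unfold DD TT
  have h := sq_sum_le_card_mul_sum_sq (s := range n) (f := fun i => |v (i + 1) - v i|)
  simpa [sq_abs] using h

/-- strong monotonicity of the gradient -/
lemma VarData.mono_est (h : VarData P M m₀ C ε₁) {n : ℕ} {w : ℝ} (hw : 0 < w) (hn : n * w = 1)
    (hw1 : 2 * w ≤ m₀) (hw2 : 768 * C * w ≤ 1) {s v : ℕ → ℝ} (hs : Stp n w s)
    (hs' : Stp n w (fun i => s i + v i)) :
    w / 16 * TT n v - 32 * C * w ^ 3 * |v 0| * DD n v ≤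
      Ph P n (fun i => s i + v i) (fun i => v i - v 0) - Ph P n s (fun i => v i - v 0) := by
  have hC := h.C_pos
  have hD := DD_nonneg n v
  have hterm : ∀ i ∈ range n,
      w / 8 * (v (i + 1) - v i) ^ 2 - 2 * C * (8 * w ^ 3 * |v (i + 1) - v i| +
        16 * w ^ 4 * (|v 0| + DD n v)) * DD n v ≤
      (P (s (i + 1) + v (i + 1)) (-((s (i + 1) + v (i + 1)) - (s i + v i))) * (v (i + 1) - v 0) -
        P (s i + v i) ((s (i + 1) + v (i + 1)) - (s i + v i)) * (v i - v 0)) -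
      (P (s (i + 1)) (-(s (i + 1) - s i)) * (v (i + 1) - v 0) -
        P (s i) (s (i + 1) - s i) * (v i - v 0)) := by
    intro i hi
    have hi' := Finset.mem_range.1 hi
    have h1 := hs i hi'
    have h2 := hs' i hi'
    have hb := h.term_bound hw hw1 h1 h2 (v i - v 0) (v (i + 1) - v 0)
    have e1 : (s (i + 1) + v (i + 1)) - (s i + v i) - (s (i + 1) - s i) = v (i + 1) - v i := by ring
    have e2 : s (i + 1) + v (i + 1) - s (i + 1) = v (i + 1) := by ring
    have e3 : s i + v i - s i = v i := by ring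
    simp only [e1, e2, e3] at hb
    have u1 : |v (i + 1) - v 0| ≤ DD n v := abs_sub_le_DD hi' v
    have u0 : |v i - v 0| ≤ DD n v := abs_sub_le_DD hi'.le v
    have w1 : |v (i + 1)| ≤ |v 0| + DD n v := by
      have : v (i + 1) = v 0 + (v (i + 1) - v 0) := by ring
      calc |v (i + 1)| = |v 0 + (v (i + 1) - v 0)| := by rw [← this]
        _ ≤ |v 0| + |v (i + 1) - v 0| := abs_add_le _ _
        _ ≤ _ := by linarith
    have w0 : |v i| ≤ |v 0| + DD n v := by
      have : v i = v 0 + (v i - v 0) := by ring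
      calc |v i| = |v 0 + (v i - v 0)| := by rw [← this]
        _ ≤ |v 0| + |v i - v 0| := abs_add_le _ _
        _ ≤ _ := by linarith
    have hsq : w / 8 * (v (i + 1) - v i) ^ 2 ≤
        ((s (i + 1) + v (i + 1) - (s i + v i)) ^ 2 - (s (i + 1) - s i) ^ 2) / 8 *
          (v (i + 1) - v 0 - (v i - v 0)) := by
      have e4 : ((s (i + 1) + v (i + 1) - (s i + v i)) ^ 2 - (s (i + 1) - s i) ^ 2) / 8 *
          (v (i + 1) - v 0 - (v i - v 0)) =
          ((s (i + 1) + v (i + 1) - (s i + v i)) + (s (i + 1) - s i)) / 8 *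
            (v (i + 1) - v i) ^ 2 := by ring
      rw [e4]
      refine mul_le_mul_of_nonneg_right ?_ (sq_nonneg _)
      have := h1.1
      have := h2.1
      dsimp only at this
      linarith [h1.1, this]
    have hlow := (abs_le.1 hb).1
    have hup : C * (8 * w ^ 3 * |v (i + 1) - v i| + 16 * w ^ 4 * |v (i + 1)|) * |v (i + 1) - v 0| +
        C * (8 * w ^ 3 * |v (i + 1) - v i| + 16 * w ^ 4 * |v i|) * |v i - v 0| ≤
        2 * C * (8 * w ^ 3 * |v (i + 1) - v i| + 16 * w ^ 4 * (|v 0| + DD n v)) * DD n v := by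
      have g1 : C * (8 * w ^ 3 * |v (i + 1) - v i| + 16 * w ^ 4 * |v (i + 1)|) *
          |v (i + 1) - v 0| ≤
          C * (8 * w ^ 3 * |v (i + 1) - v i| + 16 * w ^ 4 * (|v 0| + DD n v)) * DD n v := by
        gcongr
      have g2 : C * (8 * w ^ 3 * |v (i + 1) - v i| + 16 * w ^ 4 * |v i|) * |v i - v 0| ≤
          C * (8 * w ^ 3 * |v (i + 1) - v i| + 16 * w ^ 4 * (|v 0| + DD n v)) * DD n v := by
        gcongr
      linarith
    linarith
  have hsum := Finset.sum_le_sum hterm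
  have hR : ∑ i ∈ range n,
      ((P (s (i + 1) + v (i + 1)) (-((s (i + 1) + v (i + 1)) - (s i + v i))) * (v (i + 1) - v 0) -
        P (s i + v i) ((s (i + 1) + v (i + 1)) - (s i + v i)) * (v i - v 0)) -
      (P (s (i + 1)) (-(s (i + 1) - s i)) * (v (i + 1) - v 0) -
        P (s i) (s (i + 1) - s i) * (v i - v 0))) =
      Ph P n (fun i => s i + v i) (fun i => v i - v 0) - Ph P n s (fun i => v i - v 0) := by
    unfold Ph
    rw [← Finset.sum_sub_distrib]
  rw [hR] at hsum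
  refine le_trans ?_ hsum
  have hL : ∑ i ∈ range n, (w / 8 * (v (i + 1) - v i) ^ 2 - 2 * C * (8 * w ^ 3 * |v (i + 1) - v i| +
        16 * w ^ 4 * (|v 0| + DD n v)) * DD n v) =
      w / 8 * TT n v - 16 * C * w ^ 3 * DD n v ^ 2 -
        32 * C * w ^ 3 * (n * w) * (|v 0| + DD n v) * DD n v := by
    rw [Finset.sum_sub_distrib]
    have e1 : ∑ i ∈ range n, w / 8 * (v (i + 1) - v i) ^ 2 = w / 8 * TT n v := by
      unfold TT; rw [Finset.mul_sum]
    have e2 : ∑ i ∈ range n, 2 * C * (8 * w ^ 3 * |v (i + 1) - v i| +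
        16 * w ^ 4 * (|v 0| + DD n v)) * DD n v =
        16 * C * w ^ 3 * DD n v ^ 2 + 32 * C * w ^ 3 * (n * w) * (|v 0| + DD n v) * DD n v := by
      have : ∀ i ∈ range n, 2 * C * (8 * w ^ 3 * |v (i + 1) - v i| +
        16 * w ^ 4 * (|v 0| + DD n v)) * DD n v = (16 * C * w ^ 3 * DD n v) * |v (i + 1) - v i| +
          32 * C * w ^ 4 * (|v 0| + DD n v) * DD n v := fun i _ => by ring
      rw [Finset.sum_congr rfl this, Finset.sum_add_distrib, ← Finset.mul_sum, Finset.sum_const,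
        Finset.card_range, nsmul_eq_mul]
      have e3 : ∑ i ∈ range n, |v (i + 1) - v i| = DD n v := rfl
      rw [e3]; ring
    rw [e1, e2]; ring
  rw [hL, hn]
  have hDT := DD_sq_le n v
  have hT := TT_nonneg n v
  have h48 : 48 * C * w ^ 3 * DD n v ^ 2 ≤ w / 16 * TT n v := by
    calc 48 * C * w ^ 3 * DD n v ^ 2 ≤ 48 * C * w ^ 3 * (n * TT n v) := by gcongr
      _ = 48 * C * w ^ 2 * (n * w) * TT n v := by ring
      _ = (768 * C * w) * (w / 16) * TT n v := by rw [hn]; ring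
      _ ≤ 1 * (w / 16) * TT n v := by gcongr
      _ = w / 16 * TT n v := by ring
  nlinarith [h48]

lemma Ph_smul (P : ℝ → ℝ → ℝ) (n : ℕ) (s v : ℕ → ℝ) (τ : ℝ) :
    Ph P n s (fun i => τ * v i) = τ * Ph P n s v := by
  unfold Ph
  rw [Finset.mul_sum]
  exact Finset.sum_congr rfl (fun i _ => by ring)

lemma TT_smul (n : ℕ) (v : ℕ → ℝ) (τ : ℝ) : TT n (fun i => τ * v i) = τ ^ 2 * TT n v := by
  unfold TT
  rw [Finset.mul_sum]
  exact Finset.sum_congr rfl (fun i _ => by ring)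

lemma VarData.continuousAt_Act (h : VarData P M m₀ C ε₁) {n : ℕ} {w : ℝ} (hw : 0 < w)
    (hw1 : 2 * w ≤ m₀) {s : ℕ → ℝ} (hs : Stp n w s) : ContinuousAt (Act M n) s := by
  unfold Act
  refine tendsto_finsetSum _ (fun i hi => ?_)
  have h1 := hs i (Finset.mem_range.1 hi)
  have h2 := (h.hasStrictFDerivAt_M (x := s i) (y := s (i + 1)) (by linarith [h1.1])
    (by linarith [h1.2])).continuousAt
  have h3 : ContinuousAt (fun s : ℕ → ℝ => (s i, s (i + 1))) s := by fun_prop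
  exact ContinuousAt.comp (f := fun s : ℕ → ℝ => (s i, s (i + 1))) (x := s) h2 h3

/-- convexity of the action -/
lemma VarData.convex_est (h : VarData P M m₀ C ε₁) {n : ℕ} {w : ℝ} (hw : 0 < w) (hn : n * w = 1)
    (hw1 : 2 * w ≤ m₀) (hw2 : 768 * C * w ≤ 1) {s v : ℕ → ℝ} (hs : Stp n w s)
    (hs' : Stp n w (fun i => s i + v i)) (hv : v 0 = 0) :
    Ph P n s v + w / 32 * TT n v ≤ Act M n (fun i => s i + v i) - Act M n s := by
  have hstp : ∀ τ : ℝ, 0 ≤ τ → τ ≤ 1 → Stp n w (fun i => s i + τ * v i) := fun τ h0 h1 =>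
    hs.seg hs' h0 h1
  set ψ : ℝ → ℝ := fun τ => Act M n (fun i => s i + τ * v i) - τ * Ph P n s v -
    w / 32 * τ ^ 2 * TT n v with hψ
  have hder : ∀ τ : ℝ, 0 ≤ τ → τ ≤ 1 → HasDerivAt ψ (Ph P n (fun i => s i + τ * v i) v -
      Ph P n s v - w / 16 * τ * TT n v) τ := by
    intro τ h0 h1
    have d1 := h.hasDerivAt_Act hw (by linarith) (hstp τ h0 h1)
    have d2 : HasDerivAt (fun τ : ℝ => τ * Ph P n s v) (Ph P n s v) τ := by
      simpa using (hasDerivAt_id τ).mul_const (Ph P n s v)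
    have d3 : HasDerivAt (fun τ : ℝ => w / 32 * τ ^ 2 * TT n v) (w / 16 * τ * TT n v) τ := by
      have := (((hasDerivAt_pow 2 τ).const_mul (w / 32)).mul_const (TT n v))
      refine this.congr_deriv ?_
      push_cast; ring
    exact (d1.sub d2).sub d3
  have hmono : MonotoneOn ψ (Set.Icc 0 1) := by
    refine monotoneOn_of_deriv_nonneg (convex_Icc 0 1)
      (fun τ hτ => (hder τ hτ.1 hτ.2).continuousAt.continuousWithinAt) ?_ ?_
    · rw [interior_Icc]
      exact fun τ hτ => (hder τ hτ.1.le hτ.2.le).differentiableAt.differentiableWithinAt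
    · rw [interior_Icc]
      intro τ hτ
      rw [(hder τ hτ.1.le hτ.2.le).deriv]
      have hm := h.mono_est hw hn hw1 hw2 hs (v := fun i => τ * v i) (hstp τ hτ.1.le hτ.2.le)
      simp only [hv, mul_zero, abs_zero, zero_mul, sub_zero] at hm
      rw [Ph_smul, Ph_smul, TT_smul] at hm
      have h2 : τ * (w / 16 * τ * TT n v) ≤ τ * (Ph P n (fun i => s i + τ * v i) v - Ph P n s v) := by
        linarith [hm]
      have h3 := le_of_mul_le_mul_left h2 hτ.1
      linarith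
  have h01 := hmono (Set.left_mem_Icc.2 zero_le_one) (Set.right_mem_Icc.2 zero_le_one) zero_le_one
  rw [hψ] at h01
  simp only [zero_mul, add_zero, one_mul, one_pow, mul_one] at h01
  have e1 : w / 32 * (0 : ℝ) ^ 2 * TT n v = 0 := by ring
  rw [e1] at h01
  linarith

/-- interior criticality -/
def Crit (P : ℝ → ℝ → ℝ) (n : ℕ) (s : ℕ → ℝ) : Prop :=
  ∀ i, 1 ≤ i → i < n → EPr P (s (i - 1)) (s i) (s (i + 1)) = 0

/-- the Dirichlet problem near an almost critical polygon -/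
lemma VarData.exists_crit (h : VarData P M m₀ C ε₁) {N : ℕ} {w : ℝ} (hw : 0 < w)
    (hn : ((N + 1 : ℕ) : ℝ) * w = 1) (hw1 : 2 * w ≤ m₀) (hw2 : 768 * C * w ≤ 1) {s : ℕ → ℝ}
    (hs : ∀ i < N + 1, |s (i + 1) - s i - w| ≤ w / 8) {r : ℝ} (hr0 : 0 ≤ r)
    (hr : 512 * r ≤ w ^ 4)
    (hE : ∀ i < N, |EPr P (s i) (s (i + 1)) (s (i + 2))| ≤ r) :
    ∃ v : ℕ → ℝ, v 0 = 0 ∧ v (N + 1) = 0 ∧ Stp (N + 1) w (fun i => s i + v i) ∧
      Crit P (N + 1) (fun i => s i + v i) ∧
      |Act M (N + 1) s - Act M (N + 1) (fun i => s i + v i)| ≤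
        32 * ((N + 1 : ℕ) : ℝ) ^ 4 * r ^ 2 := by
  set n : ℕ := N + 1 with hndef
  have hn0 : (0 : ℝ) < (n : ℝ) := by
    rw [hndef]; positivity
  set K : Set (ℕ → ℝ) := Set.pi Set.univ
    (fun i => if 1 ≤ i ∧ i < n then Set.Icc (-(w / 8)) (w / 8) else {0}) with hK
  have hKc : IsCompact K := by
    refine isCompact_univ_pi (fun i => ?_)
    split_ifs
    · exact isCompact_Icc
    · exact isCompact_singleton
  have hmem : ∀ v ∈ K, v 0 = 0 ∧ v n = 0 ∧ ∀ i, |v i| ≤ w / 8 := by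
    intro v hv
    refine ⟨?_, ?_, fun i => ?_⟩
    · have := hv 0 (Set.mem_univ _)
      simpa using this
    · have := hv n (Set.mem_univ _)
      simpa using this
    · have h1 := hv i (Set.mem_univ _)
      dsimp only at h1
      split_ifs at h1 with hc
      · exact abs_le.2 h1
      · rw [Set.mem_singleton_iff] at h1
        rw [h1, abs_zero]; positivity
  have hstp : ∀ v ∈ K, Stp n w (fun i => s i + v i) := by
    intro v hv i hi
    have h1 := abs_le.1 (hs i hi)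
    have h2 := abs_le.1 ((hmem v hv).2.2 i)
    have h3 := abs_le.1 ((hmem v hv).2.2 (i + 1))
    constructor <;> dsimp only <;> linarith [h1.1, h1.2, h2.1, h2.2, h3.1, h3.2]
  have h0K : (fun _ => 0 : ℕ → ℝ) ∈ K := by
    intro i _
    dsimp only
    split_ifs
    · constructor <;> linarith
    · rfl
  have hs0 : Stp n w s := by
    have := hstp _ h0K
    simpa using this
  have hcont : ContinuousOn (fun v : ℕ → ℝ => Act M n (fun i => s i + v i)) K := by
    intro v hv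
    have h1 := h.continuousAt_Act hw hw1 (hstp v hv)
    have h2 : ContinuousAt (fun v : ℕ → ℝ => fun i => s i + v i) v :=
      (continuous_pi (fun i => by fun_prop)).continuousAt
    exact (ContinuousAt.comp (f := fun v : ℕ → ℝ => fun i => s i + v i) (x := v) h1 h2).continuousWithinAt
  obtain ⟨v, hvK, hmin⟩ := hKc.exists_isMinOn ⟨_, h0K⟩ hcont
  obtain ⟨hv0, hvn, hvb⟩ := hmem v hvK
  have hsv := hstp v hvK
  have hle : Act M n (fun i => s i + v i) ≤ Act M n s := by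
    have := hmin h0K
    simpa using this
  -- size of v
  have hD := DD_nonneg n v
  have hT := TT_nonneg n v
  have hPh : |Ph P n s v| ≤ r * n * DD n v := by
    rw [hndef, Ph_eq, ← hndef, hv0, hvn]
    simp only [mul_zero, sub_zero, zero_add]
    refine (Finset.abs_sum_le_sum_abs _ _).trans ?_
    have h1 : ∀ i ∈ range N, |EPr P (s i) (s (i + 1)) (s (i + 2)) * v (i + 1)| ≤ r * DD n v := by
      intro i hi
      have hi' := Finset.mem_range.1 hi
      rw [abs_mul]
      have h2 : |v (i + 1)| ≤ DD n v := by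
        have := abs_sub_le_DD (n := n) (i := i + 1) (by omega) v
        rwa [hv0, sub_zero] at this
      exact mul_le_mul (hE i hi') h2 (abs_nonneg _) hr0
    refine (Finset.sum_le_sum h1).trans ?_
    rw [Finset.sum_const, Finset.card_range, nsmul_eq_mul]
    have h3 : (N : ℝ) ≤ (n : ℝ) := by rw [hndef]; push_cast; linarith
    nlinarith [mul_nonneg hr0 hD, mul_nonneg (mul_nonneg hr0 hD) (sub_nonneg.2 h3)]
  have hconv := h.convex_est hw hn hw1 hw2 hs0 hsv hv0
  have hT1 : w / 32 * TT n v ≤ r * n * DD n v := by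
    have := (abs_le.1 hPh).1
    linarith
  have hDD : DD n v ≤ 32 * (n : ℝ) ^ 3 * r := by
    rcases hD.eq_or_lt with h0 | hpos
    · rw [← h0]; positivity
    · have h1 := DD_sq_le n v
      have h2 : DD n v * DD n v ≤ (32 * (n : ℝ) ^ 3 * r) * DD n v := by
        have hw32 : TT n v ≤ 32 * n * (r * n * DD n v) := by
          have : TT n v = 32 * n * (w / 32 * TT n v) := by
            have : 32 * (n : ℝ) * (w / 32 * TT n v) = (n * w) * TT n v := by ring
            rw [this, hn, one_mul]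
          rw [this]
          exact mul_le_mul_of_nonneg_left hT1 (by positivity)
        calc DD n v * DD n v = DD n v ^ 2 := by ring
          _ ≤ n * TT n v := h1
          _ ≤ n * (32 * n * (r * n * DD n v)) := by gcongr
          _ = _ := by ring
      exact le_of_mul_le_mul_right h2 hpos
  have hn3 : (n : ℝ) ^ 3 * w ^ 4 = w := by
    have : (n : ℝ) ^ 3 * w ^ 4 = (n * w) ^ 3 * w := by ring
    rw [this, hn]; ring
  have hDw : DD n v ≤ w / 16 := by
    have h1 : 32 * (n : ℝ) ^ 3 * r * 16 ≤ w := by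
      calc 32 * (n : ℝ) ^ 3 * r * 16 = (n : ℝ) ^ 3 * (512 * r) := by ring
        _ ≤ (n : ℝ) ^ 3 * w ^ 4 := by gcongr
        _ = w := hn3
    linarith
  refine ⟨v, hv0, hvn, hsv, ?_, ?_⟩
  · intro i hi1 hi2
    set e : ℕ → ℝ := Pi.single i 1 with he
    have hin : ∀ τ : ℝ, |τ| ≤ w / 16 → (fun j => v j + τ * e j) ∈ K := by
      intro τ hτ j _
      dsimp only
      by_cases hj : j = i
      · subst hj
        have h1 : e j = 1 := by rw [he]; simp
        rw [if_pos ⟨hi1, hi2⟩, h1, mul_one]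
        have h2 : |v j| ≤ w / 16 := by
          have := abs_sub_le_DD (n := n) (i := j) hi2.le v
          rw [hv0, sub_zero] at this
          linarith
        have h3 := abs_le.1 h2
        have h4 := abs_le.1 hτ
        constructor <;> linarith [h3.1, h3.2, h4.1, h4.2]
      · have h1 : e j = 0 := by rw [he]; simp [hj]
        rw [h1, mul_zero, add_zero]
        exact hvK j (Set.mem_univ _)
    have hloc : IsLocalMin (fun τ : ℝ => Act M n (fun j => (s j + v j) + τ * e j)) 0 := by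
      have hnb : Set.Icc (-(w / 16)) (w / 16) ∈ 𝓝 (0 : ℝ) := Icc_mem_nhds (by linarith) (by linarith)
      filter_upwards [hnb] with τ hτ
      have h1 := hmin (hin τ (abs_le.2 hτ))
      have e1 : (fun j => s j + v j + (0 : ℝ) * e j) = fun j => s j + v j := by
        funext j; ring
      have e2 : (fun j => s j + v j + τ * e j) = fun j => s j + (v j + τ * e j) := by
        funext j; ring
      rw [e1, e2]
      exact h1
    have hst : Stp n w (fun j => (s j + v j) + (0 : ℝ) * e j) := by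
      have e1 : (fun j => s j + v j + (0 : ℝ) * e j) = fun j => s j + v j := by
        funext j; ring
      rw [e1]; exact hsv
    have hd := h.hasDerivAt_Act hw (by linarith) hst
    have hz := hloc.hasDerivAt_eq_zero hd
    have e1 : (fun j => s j + v j + (0 : ℝ) * e j) = fun j => s j + v j := by
      funext j; ring
    rw [e1, hndef, Ph_eq, ← hndef] at hz
    have e0 : e 0 = 0 := by
      rw [he]; exact Pi.single_eq_of_ne (by omega) _
    have en : e n = 0 := by
      rw [he]; exact Pi.single_eq_of_ne (by omega) _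
    rw [e0, en] at hz
    simp only [mul_zero, sub_zero, zero_add] at hz
    rw [Finset.sum_eq_single (i - 1)] at hz
    · have e3 : i - 1 + 1 = i := by omega
      have e4 : i - 1 + 2 = i + 1 := by omega
      rw [e3, e4] at hz
      have e5 : e i = 1 := by rw [he]; simp
      rw [e5, mul_one] at hz
      exact hz
    · intro j _ hj
      have : e (j + 1) = 0 := by
        rw [he]; exact Pi.single_eq_of_ne (by omega) _
      rw [this, mul_zero]
    · intro hc
      exact absurd (Finset.mem_range.2 (by omega)) hc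
  · rw [abs_le]
    have h1 : r * n * DD n v ≤ 32 * (n : ℝ) ^ 4 * r ^ 2 := by
      calc r * n * DD n v ≤ r * n * (32 * (n : ℝ) ^ 3 * r) := by gcongr
        _ = _ := by ring
    have h2 := (abs_le.1 hPh).1
    have h3 : 0 ≤ w / 32 * TT n v := by positivity
    have h4 : (0 : ℝ) ≤ 32 * (n : ℝ) ^ 4 * r ^ 2 := by positivity
    constructor <;> linarith

/-- the first variation vanishes for directions fixing the ends -/
lemma Ph_crit_zero {N : ℕ} {s v : ℕ → ℝ} (hs : Crit P (N + 1) s) (h0 : v 0 = 0)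
    (h1 : v (N + 1) = 0) : Ph P (N + 1) s v = 0 := by
  rw [Ph_eq, h0, h1, mul_zero, mul_zero, sub_zero, zero_add]
  refine Finset.sum_eq_zero (fun i hi => ?_)
  have := hs (i + 1) (by omega) (by have := Finset.mem_range.1 hi; omega)
  rw [Nat.add_sub_cancel] at this
  have e : i + 1 + 1 = i + 2 := by omega
  rw [e] at this
  rw [this, zero_mul]

/-- the first variation of a closed critical polygon vanishes -/
lemma VarData.Ph_closed_zero (h : VarData P M m₀ C ε₁) {N : ℕ} {w : ℝ} (hw : 0 < w)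
    (hw1 : 2 * w ≤ m₀) {s v : ℕ → ℝ}
    (hst : Stp (N + 1) w s) (hs : Crit P (N + 1) s) (hcl : s (N + 1) = s 0 + 1)
    (hcr : EPr P (s N - 1) (s 0) (s 1) = 0) (hv : v (N + 1) = v 0) :
    Ph P (N + 1) s v = 0 := by
  rw [Ph_eq]
  have h2 : ∑ i ∈ range N, EPr P (s i) (s (i + 1)) (s (i + 2)) * v (i + 1) = 0 := by
    refine Finset.sum_eq_zero (fun i hi => ?_)
    have := hs (i + 1) (by omega) (by have := Finset.mem_range.1 hi; omega)
    rw [Nat.add_sub_cancel] at this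
    have e : i + 1 + 1 = i + 2 := by omega
    rw [e] at this
    rw [this, zero_mul]
  rw [h2, add_zero, hv]
  have h3 := hst N (Nat.lt_succ_self N)
  rw [hcl] at h3 ⊢
  rw [h.perP (s 0) _ (by rw [abs_neg, abs_le]; constructor <;> linarith [h3.1, h3.2])]
  unfold EPr at hcr
  have e1 : -(s 0 - (s N - 1)) = -(s 0 + 1 - s N) := by ring
  rw [e1] at hcr
  have : P (s 0) (-(s 0 + 1 - s N)) * v 0 - P (s 0) (s 1 - s 0) * v 0 =
      (P (s 0) (-(s 0 + 1 - s N)) - P (s 0) (s 1 - s 0)) * v 0 := by ring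
  rw [this, hcr, zero_mul]

/-- two critical polygons stay close to each other -/
lemma VarData.crit_close (h : VarData P M m₀ C ε₁) {N : ℕ} {w : ℝ} (hw : 0 < w)
    (hn : ((N + 1 : ℕ) : ℝ) * w = 1) (hw1 : 2 * w ≤ m₀) (hw2 : 768 * C * w ≤ 1) {s v : ℕ → ℝ}
    (hs : Stp (N + 1) w s) (hs' : Stp (N + 1) w (fun i => s i + v i)) (hc : Crit P (N + 1) s)
    (hc' : Crit P (N + 1) (fun i => s i + v i)) (hv : v (N + 1) = v 0) :
    DD (N + 1) v ≤ |v 0| := by
  set n : ℕ := N + 1 with hndef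
  have hm := h.mono_est hw hn hw1 hw2 hs hs'
  have z1 : Ph P n (fun i => s i + v i) (fun i => v i - v 0) = 0 :=
    Ph_crit_zero hc' (by ring) (by rw [hv]; ring)
  have z2 : Ph P n s (fun i => v i - v 0) = 0 := Ph_crit_zero hc (by ring) (by rw [hv]; ring)
  rw [z1, z2, sub_zero] at hm
  have hD := DD_nonneg n v
  have hT := TT_nonneg n v
  have hC := h.C_pos
  have hn0 : (0 : ℝ) < (n : ℝ) := by rw [hndef]; positivity
  rcases hD.eq_or_lt with h0 | hpos
  · rw [← h0]; exact abs_nonneg _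
  · have h1 := DD_sq_le n v
    have h2 : DD n v * DD n v ≤ |v 0| * DD n v := by
      have h3 : TT n v = 16 * n * (w / 16 * TT n v) := by
        have : 16 * (n : ℝ) * (w / 16 * TT n v) = (n * w) * TT n v := by ring
        rw [this, hn, one_mul]
      calc DD n v * DD n v = DD n v ^ 2 := by ring
        _ ≤ n * TT n v := h1
        _ = n * (16 * n * (w / 16 * TT n v)) := by rw [← h3]
        _ ≤ n * (16 * n * (32 * C * w ^ 3 * |v 0| * DD n v)) :=
            mul_le_mul_of_nonneg_left (mul_le_mul_of_nonneg_left (by linarith) (by positivity))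
              (by positivity)
        _ = (n * w) ^ 2 * (512 * C * w) * (|v 0| * DD n v) := by ring
        _ = (512 * C * w) * (|v 0| * DD n v) := by rw [hn]; ring
        _ ≤ 1 * (|v 0| * DD n v) := by
            gcongr
            nlinarith [mul_pos hC hw]
        _ = |v 0| * DD n v := one_mul _
    exact le_of_mul_le_mul_right h2 hpos

/-- the action of a closed critical polygon varies quadratically -/
lemma VarData.act_quad (h : VarData P M m₀ C ε₁) {N : ℕ} {w : ℝ} (hw : 0 < w)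
    (hn : ((N + 1 : ℕ) : ℝ) * w = 1) (hw1 : 2 * w ≤ m₀) (hw2 : 768 * C * w ≤ 1) {s v : ℕ → ℝ}
    (hs : Stp (N + 1) w s) (hs' : Stp (N + 1) w (fun i => s i + v i)) (hc : Crit P (N + 1) s)
    (hc' : Crit P (N + 1) (fun i => s i + v i)) (hv : v (N + 1) = v 0)
    (hcl : s (N + 1) = s 0 + 1) (hcr : EPr P (s N - 1) (s 0) (s 1) = 0) :
    |Act M (N + 1) (fun i => s i + v i) - Act M (N + 1) s| ≤
      ((N + 1 : ℕ) : ℝ) * (w + C * (32 * w ^ 3 + 128 * w ^ 4)) * |v 0| ^ 2 := by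
  have hclose := h.crit_close hw hn hw1 hw2 hs hs' hc hc' hv
  have hPh0 := h.Ph_closed_zero hw hw1 hs hc hcl hcr hv
  set n : ℕ := N + 1 with hndef
  have hC := h.C_pos
  have hstp : ∀ τ : ℝ, 0 ≤ τ → τ ≤ 1 → Stp n w (fun i => s i + τ * v i) := fun τ h0 h1 =>
    hs.seg hs' h0 h1
  have hvb : ∀ i ≤ n, |v i| ≤ 2 * |v 0| := by
    intro i hi
    have h1 := abs_sub_le_DD hi v
    have : v i = v 0 + (v i - v 0) := by ring
    calc |v i| = |v 0 + (v i - v 0)| := by rw [← this]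
      _ ≤ |v 0| + |v i - v 0| := abs_add_le _ _
      _ ≤ _ := by linarith
  have hδ : ∀ i < n, |v (i + 1) - v i| ≤ |v 0| := by
    intro i hi
    refine le_trans ?_ hclose
    exact Finset.single_le_sum (f := fun i => |v (i + 1) - v i|) (fun _ _ => abs_nonneg _)
      (Finset.mem_range.2 hi)
  have hder : ∀ τ ∈ Set.Icc (0 : ℝ) 1, HasDerivWithinAt
      (fun τ => Act M n (fun i => s i + τ * v i)) (Ph P n (fun i => s i + τ * v i) v)
      (Set.Icc 0 1) τ := fun τ hτ =>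
    (h.hasDerivAt_Act hw (by linarith) (hstp τ hτ.1 hτ.2)).hasDerivWithinAt
  have hbound : ∀ τ ∈ Set.Ico (0 : ℝ) 1, ‖Ph P n (fun i => s i + τ * v i) v‖ ≤
      (n : ℝ) * (w + C * (32 * w ^ 3 + 128 * w ^ 4)) * |v 0| ^ 2 := by
    intro τ hτ
    have e1 : Ph P n (fun i => s i + τ * v i) v = Ph P n (fun i => s i + τ * v i) v -
        Ph P n s v := by rw [hPh0, sub_zero]
    rw [e1, Real.norm_eq_abs]
    unfold Ph
    rw [← Finset.sum_sub_distrib]
    refine (Finset.abs_sum_le_sum_abs _ _).trans ?_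
    have hterm : ∀ i ∈ range n,
        |P (s (i + 1) + τ * v (i + 1)) (-((s (i + 1) + τ * v (i + 1)) - (s i + τ * v i))) *
            v (i + 1) -
          P (s i + τ * v i) ((s (i + 1) + τ * v (i + 1)) - (s i + τ * v i)) * v i -
        (P (s (i + 1)) (-(s (i + 1) - s i)) * v (i + 1) -
          P (s i) (s (i + 1) - s i) * v i)| ≤ (w + C * (32 * w ^ 3 + 128 * w ^ 4)) * |v 0| ^ 2 := by
      intro i hi
      have hi' := Finset.mem_range.1 hi
      have h1 := hs i hi'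
      have h2 := hstp τ hτ.1 hτ.2.le i hi'
      have hb := h.term_bound hw hw1 h1 h2 (v i) (v (i + 1))
      have q1 : (s (i + 1) + τ * v (i + 1)) - (s i + τ * v i) - (s (i + 1) - s i) =
        τ * (v (i + 1) - v i) := by ring
      have q2 : s (i + 1) + τ * v (i + 1) - s (i + 1) = τ * v (i + 1) := by ring
      have q3 : s i + τ * v i - s i = τ * v i := by ring
      simp only [q1, q2, q3] at hb
      have hτa : |τ| ≤ 1 := by rw [abs_of_nonneg hτ.1]; exact hτ.2.le
      have b1 : |τ * (v (i + 1) - v i)| ≤ |v 0| := by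
        rw [abs_mul]
        calc |τ| * |v (i + 1) - v i| ≤ 1 * |v 0| :=
              mul_le_mul hτa (hδ i hi') (abs_nonneg _) zero_le_one
          _ = _ := one_mul _
      have b2 : ∀ j ≤ n, |τ * v j| ≤ 2 * |v 0| := by
        intro j hj
        rw [abs_mul]
        calc |τ| * |v j| ≤ 1 * (2 * |v 0|) :=
              mul_le_mul hτa (hvb j hj) (abs_nonneg _) zero_le_one
          _ = _ := one_mul _
      have hmain : |((s (i + 1) + τ * v (i + 1) - (s i + τ * v i)) ^ 2 -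
          (s (i + 1) - s i) ^ 2) / 8 * (v (i + 1) - v i)| ≤ w * |v 0| ^ 2 := by
        have q4 : ((s (i + 1) + τ * v (i + 1) - (s i + τ * v i)) ^ 2 -
          (s (i + 1) - s i) ^ 2) / 8 * (v (i + 1) - v i) =
          (((s (i + 1) + τ * v (i + 1) - (s i + τ * v i)) + (s (i + 1) - s i)) / 8) *
            (τ * (v (i + 1) - v i)) * (v (i + 1) - v i) := by ring
        rw [q4, abs_mul, abs_mul]
        dsimp only at h2
        have q5 : |((s (i + 1) + τ * v (i + 1) - (s i + τ * v i)) + (s (i + 1) - s i)) / 8| ≤ w := by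
          rw [abs_le]; constructor <;> linarith [h1.1, h1.2, h2.1, h2.2]
        calc _ ≤ w * |v 0| * |v 0| := by
              have := hδ i hi'
              gcongr
          _ = w * |v 0| ^ 2 := by ring
      have herr : C * (8 * w ^ 3 * |τ * (v (i + 1) - v i)| + 16 * w ^ 4 * |τ * v (i + 1)|) *
            |v (i + 1)| +
          C * (8 * w ^ 3 * |τ * (v (i + 1) - v i)| + 16 * w ^ 4 * |τ * v i|) * |v i| ≤
          C * (32 * w ^ 3 + 128 * w ^ 4) * |v 0| ^ 2 := by
        have g1 : C * (8 * w ^ 3 * |τ * (v (i + 1) - v i)| + 16 * w ^ 4 * |τ * v (i + 1)|) *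
            |v (i + 1)| ≤ C * (8 * w ^ 3 * |v 0| + 16 * w ^ 4 * (2 * |v 0|)) * (2 * |v 0|) := by
          have := hvb (i + 1) hi'
          have := b2 (i + 1) hi'
          gcongr
        have g2 : C * (8 * w ^ 3 * |τ * (v (i + 1) - v i)| + 16 * w ^ 4 * |τ * v i|) *
            |v i| ≤ C * (8 * w ^ 3 * |v 0| + 16 * w ^ 4 * (2 * |v 0|)) * (2 * |v 0|) := by
          have := hvb i hi'.le
          have := b2 i hi'.le
          gcongr
        nlinarith [g1, g2]
      have htri : ∀ a b : ℝ, |a| ≤ |a - b| + |b| := fun a b => by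
        calc |a| = |(a - b) + b| := by rw [sub_add_cancel]
          _ ≤ _ := abs_add_le _ _
      refine (htri _ (((s (i + 1) + τ * v (i + 1) - (s i + τ * v i)) ^ 2 -
          (s (i + 1) - s i) ^ 2) / 8 * (v (i + 1) - v i))).trans ?_
      linarith [hb, hmain, herr]
    refine (Finset.sum_le_sum hterm).trans ?_
    rw [Finset.sum_const, Finset.card_range, nsmul_eq_mul]
    linarith
  have hfin := norm_image_sub_le_of_norm_deriv_le_segment_01' hder hbound
  simpa using hfin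

/-- **Leaf VAR.** An approximate leaf `S` of rotation number `w = 1/n` with defect `≤ r` has
constant action up to `32 n^4 r^2`. -/
theorem var_action (h : VarData P M m₀ C ε₁) {n : ℕ} {w : ℝ} (hw : 0 < w) (hn : (n : ℝ) * w = 1)
    (hw1 : 2 * w ≤ m₀) (hw2 : 768 * C * w ≤ 1) (hw3 : 2 * w ≤ ε₁) {S : ℝ → ℝ}
    (hL : Function.Surjective S) (hS1 : ∀ t, S (t + 1) = S t + 1)
    (hS : ∀ t, |S (t + w) - S t - w| ≤ w / 8) {r : ℝ} (hr0 : 0 ≤ r) (hr : 512 * r ≤ w ^ 4)
    (hE : ∀ t, |EPr P (S (t - w)) (S t) (S (t + w))| ≤ r) :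
    ∃ A : ℝ, ∀ t : ℝ,
      |∑ i ∈ range n, M (S (t + i * w)) (S (t + (i + 1) * w)) - A| ≤ 32 * (n : ℝ) ^ 4 * r ^ 2 := by
  obtain ⟨N, rfl⟩ : ∃ N, n = N + 1 := by
    rcases n with _ | N
    · simp at hn
    · exact ⟨N, rfl⟩
  have hC := h.C_pos
  -- the polygons of `S`
  have hs0 : ∀ t : ℝ, ∀ i < N + 1, |S (t + ((i + 1 : ℕ) : ℝ) * w) - S (t + (i : ℝ) * w) - w| ≤ w / 8 := by
    intro t i _
    have := hS (t + i * w)
    have e : t + i * w + w = t + ((i + 1 : ℕ) : ℝ) * w := by push_cast; ring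
    rwa [e] at this
  have hE0 : ∀ t : ℝ, ∀ i < N, |EPr P (S (t + (i : ℝ) * w)) (S (t + ((i + 1 : ℕ) : ℝ) * w))
      (S (t + ((i + 2 : ℕ) : ℝ) * w))| ≤ r := by
    intro t i _
    have := hE (t + ((i + 1 : ℕ) : ℝ) * w)
    have e1 : t + ((i + 1 : ℕ) : ℝ) * w - w = t + (i : ℝ) * w := by push_cast; ring
    have e2 : t + ((i + 1 : ℕ) : ℝ) * w + w = t + ((i + 2 : ℕ) : ℝ) * w := by push_cast; ring
    rwa [e1, e2] at this
  have hex : ∀ t : ℝ, ∃ v : ℕ → ℝ, v 0 = 0 ∧ v (N + 1) = 0 ∧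
      Stp (N + 1) w (fun i => S (t + (i : ℝ) * w) + v i) ∧
      Crit P (N + 1) (fun i => S (t + (i : ℝ) * w) + v i) ∧
      |Act M (N + 1) (fun i => S (t + (i : ℝ) * w)) -
        Act M (N + 1) (fun i => S (t + (i : ℝ) * w) + v i)| ≤
        32 * ((N + 1 : ℕ) : ℝ) ^ 4 * r ^ 2 := fun t =>
    h.exists_crit hw hn hw1 hw2 (s := fun i => S (t + (i : ℝ) * w)) (hs0 t) hr0 hr (hE0 t)
  choose V hV0 hVn hVs hVc hVa using hex
  set sg : ℝ → ℕ → ℝ := fun t i => S (t + (i : ℝ) * w) + V t i with hsg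
  have hsg0 : ∀ t, sg t 0 = S t := fun t => by simp [hsg, hV0]
  have hsgn : ∀ t, sg t (N + 1) = S t + 1 := fun t => by
    simp only [hsg, hVn, add_zero]
    rw [hn, hS1]
  -- closing
  have hclose : ∀ t, EPr P (sg t N - 1) (sg t 0) (sg t 1) = 0 := by
    intro t
    have := h.RS (N + 1) 1 (sg t) (by omega) le_rfl ?_ ?_ (hVc t)
    · simpa using this
    · intro i hi
      have h1 := hVs t i hi
      dsimp only at h1
      constructor
      · have : w / 2 ≤ sg t (i + 1) - sg t i := h1.1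
        linarith
      · have : sg t (i + 1) - sg t i ≤ 3 * w / 2 := h1.2
        linarith
    · rw [hsgn, hsg0]; simp
  set A : ℝ → ℝ := fun t => Act M (N + 1) (sg t) with hA
  set K : ℝ := ((N + 1 : ℕ) : ℝ) * (w + C * (32 * w ^ 3 + 128 * w ^ 4)) with hK
  have hKnn : 0 ≤ K := by rw [hK]; positivity
  have hAq : ∀ t t' : ℝ, |A t' - A t| ≤ K * |S t' - S t| ^ 2 := by
    intro t t'
    have e1 : (fun i => sg t i + (sg t' i - sg t i)) = sg t' := by funext i; ring
    have hq := h.act_quad hw hn hw1 hw2 (s := sg t) (v := fun i => sg t' i - sg t i) (hVs t)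
      (by rw [e1]; exact hVs t') (hVc t) (by rw [e1]; exact hVc t')
      (by simp only [hsgn, hsg0]; ring) (by rw [hsgn, hsg0]) (hclose t)
    rw [e1, hsg0, hsg0] at hq
    exact hq
  -- the action as a function of the starting point
  set R : ℝ → ℝ := Function.surjInv hL with hR
  have hSR : ∀ z, S (R z) = z := fun z => Function.surjInv_eq hL z
  set a : ℝ → ℝ := fun z => A (R z) with ha
  have haq : ∀ z x : ℝ, |a x - a z| ≤ K * |x - z| ^ 2 := by
    intro z x
    have := hAq (R z) (R x)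
    rwa [hSR, hSR] at this
  have hAa : ∀ t, A t = a (S t) := by
    intro t
    have := hAq (R (S t)) t
    rw [hSR, sub_self, abs_zero] at this
    have h2 : |A t - A (R (S t))| = 0 := le_antisymm (by simpa using this) (abs_nonneg _)
    exact sub_eq_zero.1 (abs_eq_zero.1 h2)
  have hAd : ∀ t : ℝ, HasDerivAt a 0 t := by
    intro t
    rw [hasDerivAt_iff_isLittleO]
    simp only [smul_zero, sub_zero]
    have h1 : (fun x : ℝ => a x - a t) =O[𝓝 t] (fun x : ℝ => (x - t) ^ 2) := by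
      refine Asymptotics.IsBigO.of_bound K (Filter.Eventually.of_forall (fun x => ?_))
      rw [Real.norm_eq_abs, Real.norm_eq_abs, abs_of_nonneg (sq_nonneg (x - t))]
      refine (haq t x).trans (le_of_eq ?_)
      rw [sq_abs]
    have h2 : (fun x : ℝ => (x - t) ^ 2) =o[𝓝 t] (fun x : ℝ => x - t) := by
      have h3 : (fun x : ℝ => (x - t) ^ 2) = fun x : ℝ => (x - t) * (x - t) := by
        funext x; ring
      rw [h3]
      have h4 : (fun x : ℝ => x - t) =o[𝓝 t] (fun _ : ℝ => (1 : ℝ)) := by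
        rw [Asymptotics.isLittleO_one_iff]
        have : Continuous fun x : ℝ => x - t := by fun_prop
        exact this.tendsto' t 0 (sub_self t)
      have := h4.mul_isBigO (Asymptotics.isBigO_refl (fun x : ℝ => x - t) (𝓝 t))
      simpa using this
    exact h1.trans_isLittleO h2
  have hAc : ∀ t : ℝ, a t = a 0 := fun t =>
    is_const_of_deriv_eq_zero (fun x => (hAd x).differentiableAt) (fun x => (hAd x).deriv) t 0
  refine ⟨a 0, fun t => ?_⟩
  have e1 : ∑ i ∈ range (N + 1), M (S (t + (i : ℝ) * w)) (S (t + ((i : ℝ) + 1) * w)) =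
      Act M (N + 1) (fun i => S (t + (i : ℝ) * w)) := by
    unfold Act
    refine Finset.sum_congr rfl (fun i _ => ?_)
    push_cast
    rfl
  rw [e1, ← hAc (S t), ← hAa t]
  exact hVa t

end Crest.Agent.R102.Var575
end
end

-- ▼ part R102/VarA_575

/-!
Row 102, part (A) (helper575): `LeafVAR`.
-/

set_option autoImplicit false

open Set Filter Topology Metric Complex MeasureTheory
open scoped Real ContDiff

noncomputable section

namespace Crest.Agent.R102.A929

open Crest.Agent.R102.Var575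

/-- real valued elements of `AA` -/
def IsRe (f : AA) : Prop := ∀ r : unitInterval, (f r).im = 0

lemma IsRe.mul {f g : AA} (hf : IsRe f) (hg : IsRe g) : IsRe (f * g) := fun r => by
  rw [AA.mul_apply, Complex.mul_im, hf r, hg r]; ring

lemma IsRe.smul {f : AA} {c : ℂ} (hc : c.im = 0) (hf : IsRe f) : IsRe (c • f) := fun r => by
  rw [AA.smul_apply, Complex.mul_im, hf r, hc]; ring

lemma IsRe.exp {f : AA} (hf : IsRe f) : IsRe (NormedSpace.exp f) := fun r => by
  rw [exp_apply, Complex.exp_im, hf r, Real.sin_zero, mul_zero]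

lemma IsRe.cosA {f : AA} (hf : IsRe f) : IsRe (cosA f) := fun r => by
  rw [cosA_apply]
  have h : f r = ((f r).re : ℂ) := Complex.ext rfl (by simp [hf r])
  rw [h, ← Complex.ofReal_cos, Complex.ofReal_im]

lemma IsRe.ext_im {f : AA} (hf : IsRe f) (a : ℝ) : (ext f a).im = 0 := by
  unfold ext Set.IccExtend
  exact hf _

lemma im_integral_ext {f : AA} (hf : IsRe f) (b : ℝ) : (∫ a in (0 : ℝ)..b, ext f a).im = 0 := by
  have h1 : (fun a => ext f a) = fun a => (((ext f a).re : ℝ) : ℂ) := by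
    funext a
    exact Complex.ext rfl (by simp [hf.ext_im a])
  rw [h1, intervalIntegral.integral_ofReal, Complex.ofReal_im]

lemma IsRe.J {f : AA} (hf : IsRe f) : IsRe (J f) := fun r => by
  rw [J_apply]; exact im_integral_ext hf _

lemma im_Lam {f : AA} (hf : IsRe f) : (Lam f).im = 0 := by
  rw [Lam_apply]; exact im_integral_ext hf _

lemma im_Ic {X : AA × ℂ} (h1 : IsRe X.1) (h2 : X.2.im = 0) : (Ic X).im = 0 := by
  unfold Ic
  refine im_Lam (IsRe.mul (IsRe.exp (IsRe.smul (by simp) h1)) (IsRe.cosA (IsRe.smul h2 ?_)))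
  exact IsRe.J (IsRe.exp h1)

lemma im_Is {X : AA × ℂ} (h1 : IsRe X.1) (h2 : X.2.im = 0) : (Is X).im = 0 := by
  unfold Is
  refine im_Lam (IsRe.mul (IsRe.exp (IsRe.smul (by simp) h1)) (IsRe.J (IsRe.mul (IsRe.exp h1)
    (IsRe.cosA (IsRe.smul h2 ?_)))))
  exact IsRe.J (IsRe.exp h1)

lemma im_bf {X : AA × ℂ} (h1 : IsRe X.1) (h2 : X.2.im = 0) : (bf X).im = 0 := by
  unfold bf
  rw [Complex.div_im, im_Ic h1 h2, im_Is h1 h2]; ring

lemma im_phi {y : ℝ} (hy : 0 ≤ y) : (phi (y : ℂ)).im = 0 := by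
  have h1 : sq (y : ℂ) = ((Real.exp (Real.log (1 + y) / 2) : ℝ) : ℂ) := by
    unfold sq
    have : (1 : ℂ) + (y : ℂ) = ((1 + y : ℝ) : ℂ) := by push_cast; ring
    rw [this, ← Complex.ofReal_log (by linarith)]
    push_cast
    rfl
  unfold phi
  rw [h1]
  have h2 : (1 : ℂ) / (((Real.exp (Real.log (1 + y) / 2) : ℝ) : ℂ) *
      (1 + ((Real.exp (Real.log (1 + y) / 2) : ℝ) : ℂ))) =
      ((1 / (Real.exp (Real.log (1 + y) / 2) * (1 + Real.exp (Real.log (1 + y) / 2))) : ℝ) : ℂ) := by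
    push_cast; ring
  rw [h2, Complex.ofReal_im]

lemma eq_re {z : ℂ} (h : z.im = 0) : z = (z.re : ℂ) := Complex.ext rfl (by simp [h])

lemma im_Qf {X : AA × ℂ} (h1 : IsRe X.1) (h2 : X.2.im = 0) : (Qf X).im = 0 := by
  have hb := eq_re (im_bf h1 h2)
  have hz := eq_re h2
  unfold Qf
  rw [hb, hz]
  have e1 : ((X.2.re : ℂ)) ^ 2 * ((bf X).re : ℂ) ^ 2 = ((X.2.re ^ 2 * (bf X).re ^ 2 : ℝ) : ℂ) := by
    push_cast; ring
  rw [e1, eq_re (im_phi (y := X.2.re ^ 2 * (bf X).re ^ 2) (by positivity)), ← Complex.ofReal_pow,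
    ← Complex.ofReal_mul, Complex.ofReal_im]

/-- `Pq` is real on real points -/
lemma im_Pq {q : C(ℂ, ℂ)} (hq : ∀ x : ℝ, (q x).im = 0) (x e : ℝ) : (Pq q x e).im = 0 := by
  have h1 : IsRe (Xq q x e).1 := fun r => by
    have e1 : (x : ℂ) + (e : ℂ) * ((r : ℝ) : ℂ) = ((x + e * (r : ℝ) : ℝ) : ℂ) := by push_cast; ring
    show (dq q x e r).im = 0
    rw [dq_apply, Complex.sub_im, hq, e1, hq, sub_zero]
  have h2 : (Xq q x e).2.im = 0 := by
    show ((e : ℂ) * Complex.exp (q x)).im = 0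
    rw [Complex.mul_im, Complex.ofReal_im, Complex.exp_im, hq, Real.sin_zero]; ring
  unfold Pq
  rw [eq_re (im_Qf h1 h2), ← Complex.ofReal_pow, ← Complex.ofReal_mul, Complex.ofReal_im]

/-- the real reflection function -/
def Pr (q : C(ℂ, ℂ)) (x e : ℝ) : ℝ := (Pq q x e).re

lemma Pq_real {q : C(ℂ, ℂ)} (hq : ∀ x : ℝ, (q x).im = 0) (x e : ℝ) :
    Pq q x e = ((Pr q x e : ℝ) : ℂ) := eq_re (im_Pq hq x e)

lemma EP_real {q : C(ℂ, ℂ)} (hq : ∀ x : ℝ, (q x).im = 0) (a b c : ℝ) :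
    EP q a b c = ((EPr (Pr q) a b c : ℝ) : ℂ) := by
  unfold EP EPr
  have e1 : -((b : ℂ) - (a : ℂ)) = ((-(b - a) : ℝ) : ℂ) := by push_cast; ring
  have e2 : (c : ℂ) - (b : ℂ) = ((c - b : ℝ) : ℂ) := by push_cast; ring
  rw [e1, e2, Pq_real hq, Pq_real hq]
  push_cast
  ring

lemma varData_of {ρ C : ℝ} (hL : LocQ ρ C) {q : C(ℂ, ℂ)} {q1 q2 : ℂ → ℂ} {B ε₀ ε₁ : ℝ}
    {M : ℝ → ℝ → ℝ} (hS : Sm q q1 q2 RR B) (hq : ∀ x : ℝ, (q x).im = 0)
    (hper : ∀ x : ℝ, q (x + 1) = q x) (hA : IsAct q ε₀ M) (hε₁ : 0 < ε₁)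
    (hR : RStarP q ε₁) {m₀ : ℝ} (hm : 0 < m₀) (hm1 : m₀ ≤ 1) (hm2 : CX B * m₀ < ρ)
    (hm3 : m₀ ≤ ε₀) : VarData (Pr q) M m₀ (CP C B) ε₁ where
  m_pos := hm
  C_pos := by
    have := hS.B_ge
    have := hL.C_ge
    have := CX_ge hS.B_ge
    unfold CP
    positivity
  ε_pos := hε₁
  PL := by
    intro m x x' e e' hm' hmm he he'
    have hB := hS.B_ge
    have hCX := CX_ge hB
    have mem : ∀ x : ℝ, (x : ℂ) ∈ RR := fun x => by simp [RR]
    have mem2 : ∀ x e : ℝ, (x : ℂ) + (e : ℂ) ∈ RR := fun x e => by simp [RR]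
    have h1 := hS.PL hL (mem x) (mem2 x e) (mem x') (mem2 x' e') (m := m)
      (by rw [Complex.norm_real]; exact he) (by rw [Complex.norm_real]; exact he')
      (hmm.trans hm1) (lt_of_le_of_lt (mul_le_mul_of_nonneg_left hmm (by linarith)) hm2)
    have e1 : ((e' : ℂ) ^ 2 - (e : ℂ) ^ 2) / 8 = (((e' ^ 2 - e ^ 2) / 8 : ℝ) : ℂ) := by
      push_cast; ring
    rw [Pq_real hq, Pq_real hq, e1, ← Complex.ofReal_sub, ← Complex.ofReal_sub,
      ← Complex.ofReal_sub, ← Complex.ofReal_sub, Complex.norm_real, Complex.norm_real,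
      Complex.norm_real] at h1
    exact h1
  perP := by
    intro x e _
    unfold Pr Pq
    have e1 : Xq q ((x + 1 : ℝ) : ℂ) e = Xq q x e := by
      unfold Xq
      refine Prod.ext (AA.ext' (fun r => ?_)) ?_
      · show dq q ((x + 1 : ℝ) : ℂ) e r = dq q x e r
        rw [dq_apply, dq_apply]
        have e2 : ((x + 1 : ℝ) : ℂ) + (e : ℂ) * ((r : ℝ) : ℂ) = ((x + e * (r : ℝ) : ℝ) : ℂ) + 1 := by
          push_cast; ring
        have e3 : ((x + 1 : ℝ) : ℂ) = (x : ℂ) + 1 := by push_cast; ring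
        have e4 : (x : ℂ) + (e : ℂ) * ((r : ℝ) : ℂ) = ((x + e * (r : ℝ) : ℝ) : ℂ) := by
          push_cast; ring
        rw [e2, e3, e4, hper, hper]
      · show (e : ℂ) * Complex.exp (q ((x + 1 : ℝ) : ℂ)) = (e : ℂ) * Complex.exp (q x)
        have e3 : ((x + 1 : ℝ) : ℂ) = (x : ℂ) + 1 := by push_cast; ring
        rw [e3, hper]
    rw [e1]
  M1 := by
    intro x y h0 h1
    have h2 := hA.d x y (by linarith) (by linarith)
    have h3 : HasDerivAt (fun z : ℝ => (z, y)) ((1 : ℝ), (0 : ℝ)) x :=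
      (hasDerivAt_id x).prodMk (hasDerivAt_const x y)
    have h4 := HasFDerivAt.comp_hasDerivAt (f := fun z : ℝ => (z, y)) x h2 h3
    refine h4.congr_deriv ?_
    unfold Pr
    push_cast
    simp
  M2 := by
    intro x y h0 h1
    have h2 := hA.d x y (by linarith) (by linarith)
    have h3 : HasDerivAt (fun z : ℝ => (x, z)) ((0 : ℝ), (1 : ℝ)) y :=
      (hasDerivAt_const y x).prodMk (hasDerivAt_id y)
    have h4 := HasFDerivAt.comp_hasDerivAt (f := fun z : ℝ => (x, z)) y h2 h3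
    refine h4.congr_deriv ?_
    unfold Pr
    push_cast
    simp
  RS := by
    intro n j x hn hj hst hcl hcr
    have h1 := hR n j x hn hj hst hcl (fun i hi1 hi2 => by
      rw [EP_real hq, hcr i hi1 hi2, Complex.ofReal_zero])
    have e1 : ((x (n - 1) : ℝ) : ℂ) - (j : ℂ) = ((x (n - 1) - j : ℝ) : ℂ) := by push_cast; ring
    rw [e1, EP_real hq] at h1
    exact_mod_cast h1


end Crest.Agent.R102.A929
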