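import Crest.Agent.R102.MeanA_262
import Crest.Agent.R102.RealA_575
import Crest.Agent.R102.End1_575
import Crest.Agent.R102.LinB_682
import Crest.Agent.R102.EndI_929
import Crest.Agent.R102.VarA_575

-- ▼ part R102/EndB_575
section

/-!
Row 102, part (A) (helper575): the `n`-th Fourier mode of the defect is controlled by the
oscillation of the action.
-/

set_option autoImplicit false

open Set Filter Topology Metric Complex MeasureTheory
open scoped Real ContDiff ComplexConjugate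

noncomputable section

namespace Crest.Agent.R102.A929

lemma ee_nat (n : ℕ) : ee (n : ℂ) = 1 := by
  have := ee_int (n : ℤ)
  simpa using this

lemma norm_ee_real (n : ℕ) (x : ℝ) : ‖ee (-(n * x))‖ = 1 := by
  rw [norm_ee]; simp

/-- **mode lemma** -/
theorem mode_real {ρ C : ℝ} (hL : LocQ ρ C) {q : C(ℂ, ℂ)} (hqp : ∀ x : ℝ, q (x + 1) = q x)
    {ε : ℝ} {M : ℝ → ℝ → ℝ} (hM : IsAct q ε M) {s s' : ℝ → ℝ} (hs : ∀ x, HasDerivAt s (s' x) x)
    (hs' : Continuous s') (hper : ∀ x, s (x + 1) = s x + 1) {n : ℕ} (hn : 0 < n) {w : ℝ}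
    (hnw : (n : ℝ) * w = 1)
    (hw : ∀ x, 0 < s (x + w) - s x ∧ s (x + w) - s x < ε)
    (hX : ∀ x, ‖Xq q (s x) ((s (x + w) : ℂ) - s x)‖ < ρ)
    (hX' : ∀ x, ‖Xq q (s x) (-((s x : ℂ) - s (x - w)))‖ < ρ) {A₀ R : ℝ}
    (hR : ∀ t, |∑ i ∈ Finset.range n, M (s (t + i * w)) (s (t + (i + 1) * w)) - A₀| ≤ R) :
    ‖∫ x in (0 : ℝ)..1, (((EP q (s (x - w)) (s x) (s (x + w))).re * s' x : ℝ) : ℂ) *
      ee (-(n * x))‖ ≤ 2 * π * R := by
  have hsc : Continuous s := continuous_iff_continuousAt.2 (fun x => (hs x).continuousAt)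
  have hn0 : (0 : ℝ) < n := by exact_mod_cast hn
  have hnw' : (n : ℂ) * (w : ℂ) = 1 := by exact_mod_cast hnw
  set P : ℝ → ℝ := fun x => (Pq q (s x) ((s (x + w) : ℂ) - s x)).re with hP
  set N : ℝ → ℝ := fun x => (Pq q (s x) (-((s x : ℂ) - s (x - w)))).re with hN
  set e : ℝ → ℂ := fun x => ee (-(n * x)) with he
  have hec : Continuous e := continuous_ee.comp (by fun_prop)
  have hed : ∀ x : ℝ, HasDerivAt e (-(2 * π * I * n) * e x) x := by
    intro x
    have h1 : HasDerivAt (fun x : ℝ => -((n : ℂ) * (x : ℂ))) (-(n : ℂ)) x := by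
      have := ((hasDerivAt_id (x : ℂ)).const_mul (n : ℂ)).neg.comp_ofReal
      simpa using this
    have h2 := (hasDerivAt_ee (-((n : ℂ) * (x : ℂ)))).comp x h1
    refine h2.congr_deriv ?_
    simp only [he]
    ring
  have hew : ∀ x : ℝ, e (x + w) = e x := by
    intro x
    simp only [he]
    have : -((n : ℂ) * ((x + w : ℝ) : ℂ)) = -(n * x) + -(((1 : ℕ) : ℂ)) := by
      push_cast
      linear_combination (-1 : ℂ) * hnw'
    have h1 : ee (-(((1 : ℕ) : ℂ))) = 1 := by rw [ee_neg, ee_nat, inv_one]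
    rw [this, ee_add, h1, mul_one]
  have he1 : ∀ x : ℝ, e (x + 1) = e x := by
    intro x
    simp only [he]
    have : -((n : ℂ) * ((x + 1 : ℝ) : ℂ)) = -(n * x) + -((n : ℂ)) := by
      push_cast; ring
    have h1 : ee (-(n : ℂ)) = 1 := by rw [ee_neg, ee_nat, inv_one]
    rw [this, ee_add, h1, mul_one]
  have hen : ∀ x, ‖e x‖ = 1 := fun x => norm_ee_real n x
  have hPc : Continuous P := Complex.continuous_re.comp (continuous_Pq_comp hL q
    (Complex.continuous_ofReal.comp hsc)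
    ((Complex.continuous_ofReal.comp (hsc.comp (continuous_id.add continuous_const))).sub
      (Complex.continuous_ofReal.comp hsc)) hX)
  have hNc : Continuous N := Complex.continuous_re.comp (continuous_Pq_comp hL q
    (Complex.continuous_ofReal.comp hsc)
    ((Complex.continuous_ofReal.comp hsc).sub
      (Complex.continuous_ofReal.comp (hsc.comp (continuous_id.sub continuous_const)))).neg hX')
  set m : ℝ → ℝ := fun x => M (s x) (s (x + w)) with hm
  have hder : ∀ x, HasDerivAt m (-(P x) * s' x + N (x + w) * s' (x + w)) x := by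
    intro x
    have h1 := hM.d (s x) (s (x + w)) (by linarith [(hw x).1]) (hw x).2
    have h2 : HasDerivAt (fun x => (s x, s (x + w))) (s' x, s' (x + w)) x :=
      (hs x).prodMk ((hs (x + w)).comp_add_const x w)
    have h3 := HasFDerivAt.comp_hasDerivAt (f := fun x => (s x, s (x + w)))
      (l := fun p : ℝ × ℝ => M p.1 p.2) x h1 h2
    refine h3.congr_deriv ?_
    simp only [add_apply, smul_apply, ContinuousLinearMap.coe_fst', ContinuousLinearMap.coe_snd',
      smul_eq_mul, hP, hN]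
    rw [add_sub_cancel_right]
  have hmc : Continuous m := continuous_iff_continuousAt.2 (fun x => (hder x).continuousAt)
  have hcont1 : Continuous (fun x => ((-(P x) * s' x : ℝ) : ℂ) * e x) :=
    (Complex.continuous_ofReal.comp (hPc.neg.mul hs')).mul hec
  have hcont2 : Continuous (fun x => ((N x * s' x : ℝ) : ℂ) * e x) :=
    (Complex.continuous_ofReal.comp (hNc.mul hs')).mul hec
  have hcont3 : Continuous (fun x => ((N (x + w) * s' (x + w) : ℝ) : ℂ) * e x) :=
    (Complex.continuous_ofReal.comp ((hNc.mul hs').comp (continuous_id.add continuous_const))).mul hec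
  have hcont4 : Continuous (fun x => ((m x : ℝ) : ℂ) * e x) :=
    (Complex.continuous_ofReal.comp hmc).mul hec
  -- product rule and periodicity
  have hprod : ∀ x, HasDerivAt (fun x => ((m x : ℝ) : ℂ) * e x)
      ((((-(P x) * s' x : ℝ) : ℂ) * e x + ((N (x + w) * s' (x + w) : ℝ) : ℂ) * e x) +
        -(2 * π * I * n) * (((m x : ℝ) : ℂ) * e x)) x := by
    intro x
    have h1 := (hder x).ofReal_comp.mul (hed x)
    refine h1.congr_deriv ?_
    push_cast
    ring
  have hcont13 : Continuous (fun x => ((-(P x) * s' x : ℝ) : ℂ) * e x +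
      ((N (x + w) * s' (x + w) : ℝ) : ℂ) * e x) := hcont1.add hcont3
  have hcont4' : Continuous (fun x => -(2 * π * I * n) * (((m x : ℝ) : ℂ) * e x)) :=
    continuous_const.mul hcont4
  have hcont134 : Continuous (fun x => (((-(P x) * s' x : ℝ) : ℂ) * e x +
      ((N (x + w) * s' (x + w) : ℝ) : ℂ) * e x) + -(2 * π * I * n) * (((m x : ℝ) : ℂ) * e x)) :=
    hcont13.add hcont4'
  have hmper : ∀ x, m (x + 1) = m x := by
    intro x
    simp only [hm]
    have e1 : x + 1 + w = (x + w) + 1 := by ring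
    rw [e1, hper, hper, hM.per]
  have hint := intervalIntegral.integral_eq_sub_of_hasDerivAt (a := (0 : ℝ)) (b := 1)
    (fun x _ => hprod x) (hcont134.intervalIntegrable _ _)
  have hend : ((m 1 : ℝ) : ℂ) * e 1 = ((m 0 : ℝ) : ℂ) * e 0 := by
    have h1 := hmper 0
    have h2 := he1 0
    rw [zero_add] at h1 h2
    rw [h1, h2]
  rw [hend, sub_self, intervalIntegral.integral_add
    (hcont13.intervalIntegrable _ _) (hcont4'.intervalIntegrable _ _),
    intervalIntegral.integral_add (hcont1.intervalIntegrable _ _) (hcont3.intervalIntegrable _ _),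
    intervalIntegral.integral_const_mul] at hint
  -- periodicity of `N x * s' x`
  have hs'per : ∀ x, s' (x + 1) = s' x := by
    intro x
    have h1 : HasDerivAt (fun y => s (y + 1)) (s' (x + 1)) x := (hs (x + 1)).comp_add_const x 1
    have h2 : HasDerivAt (fun y => s (y + 1)) (s' x) x := by
      have : (fun y => s (y + 1)) = fun y => s y + 1 := funext hper
      rw [this]
      exact (hs x).add_const 1
    exact h1.unique h2
  have hNper : Function.Periodic (fun x => ((N x * s' x : ℝ) : ℂ) * e x) 1 := by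
    intro x
    have e1 : N (x + 1) = N x := by
      simp only [hN]
      have e2 : s (x + 1 - w) = s (x - w) + 1 := by
        rw [← hper]; congr 1; ring
      rw [hper, e2]
      have e3 : (-(((s x + 1 : ℝ) : ℂ) - ((s (x - w) + 1 : ℝ) : ℂ))) =
          ((-(s x - s (x - w)) : ℝ) : ℂ) := by push_cast; ring
      have e4 : (-((s x : ℂ) - (s (x - w) : ℂ))) = ((-(s x - s (x - w)) : ℝ) : ℂ) := by
        push_cast; ring
      rw [e3, e4, Complex.ofReal_add, Complex.ofReal_one, Pq_periodic hqp]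
    change ((N (x + 1) * s' (x + 1) : ℝ) : ℂ) * e (x + 1) = ((N x * s' x : ℝ) : ℂ) * e x
    rw [e1, hs'per, he1]
  have hshift : ∫ x in (0 : ℝ)..1, ((N (x + w) * s' (x + w) : ℝ) : ℂ) * e x =
      ∫ x in (0 : ℝ)..1, ((N x * s' x : ℝ) : ℂ) * e x := by
    have h0 : ∫ x in (0 : ℝ)..1, ((N (x + w) * s' (x + w) : ℝ) : ℂ) * e x =
        ∫ x in (0 : ℝ)..1, ((N (x + w) * s' (x + w) : ℝ) : ℂ) * e (x + w) := by
      refine intervalIntegral.integral_congr (fun x _ => ?_)
      change _ * e x = _ * e (x + w)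
      rw [hew]
    have h1 := intervalIntegral.integral_comp_add_right
      (fun x => ((N x * s' x : ℝ) : ℂ) * e x) w (a := 0) (b := 1)
    have h2 := hNper.intervalIntegral_add_eq w 0
    rw [h0]
    refine h1.trans ?_
    rw [zero_add, add_comm (1 : ℝ) w]
    refine h2.trans ?_
    rw [zero_add]
  rw [hshift, ← intervalIntegral.integral_add (hcont1.intervalIntegrable _ _)
    (hcont2.intervalIntegrable _ _)] at hint
  have hE : ∫ x in (0 : ℝ)..1, (((EP q (s (x - w)) (s x) (s (x + w))).re * s' x : ℝ) : ℂ) *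
      ee (-(n * x)) = (2 * π * I * n) * ∫ x in (0 : ℝ)..1, ((m x : ℝ) : ℂ) * e x := by
    have h1 : ∫ x in (0 : ℝ)..1, (((EP q (s (x - w)) (s x) (s (x + w))).re * s' x : ℝ) : ℂ) *
      ee (-(n * x)) = ∫ x in (0 : ℝ)..1, (((-(P x) * s' x : ℝ) : ℂ) * e x +
        ((N x * s' x : ℝ) : ℂ) * e x) := by
      refine intervalIntegral.integral_congr (fun x _ => ?_)
      change (((EP q (s (x - w)) (s x) (s (x + w))).re * s' x : ℝ) : ℂ) * e x =
        ((-(P x) * s' x : ℝ) : ℂ) * e x + ((N x * s' x : ℝ) : ℂ) * e x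
      unfold EP
      rw [Complex.sub_re, ← add_mul]
      congr 1
      simp only [hP, hN]
      push_cast
      ring
    rw [h1]
    linear_combination hint
  rw [hE]
  -- the average
  have hmE : Function.Periodic (fun x => ((m x : ℝ) : ℂ) * e x) 1 := by
    intro x
    change ((m (x + 1) : ℝ) : ℂ) * e (x + 1) = ((m x : ℝ) : ℂ) * e x
    rw [hmper, he1]
  have hewi : ∀ (i : ℕ) (x : ℝ), e (x + i * w) = e x := by
    intro i
    induction i with
    | zero => intro x; simp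
    | succ i ih =>
      intro x
      have : x + ((i + 1 : ℕ) : ℝ) * w = (x + i * w) + w := by push_cast; ring
      rw [this, hew, ih]
  have hmi : ∀ i : ℕ, ∫ x in (0 : ℝ)..1, ((m (x + i * w) : ℝ) : ℂ) * e x =
      ∫ x in (0 : ℝ)..1, ((m x : ℝ) : ℂ) * e x := by
    intro i
    have h0 : ∫ x in (0 : ℝ)..1, ((m (x + i * w) : ℝ) : ℂ) * e x =
        ∫ x in (0 : ℝ)..1, ((m (x + i * w) : ℝ) : ℂ) * e (x + i * w) := by
      refine intervalIntegral.integral_congr (fun x _ => ?_)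
      change _ * e x = _ * e (x + i * w)
      rw [hewi]
    have h1 := intervalIntegral.integral_comp_add_right
      (fun x => ((m x : ℝ) : ℂ) * e x) (i * w) (a := 0) (b := 1)
    have h2 := hmE.intervalIntegral_add_eq (i * w) 0
    rw [h0]
    refine h1.trans ?_
    rw [zero_add, add_comm (1 : ℝ) (i * w)]
    refine h2.trans ?_
    rw [zero_add]
  have hcmi : ∀ i : ℕ, Continuous (fun x : ℝ => ((m (x + i * w) : ℝ) : ℂ) * e x) := fun i =>
    (Complex.continuous_ofReal.comp (hmc.comp (continuous_id.add continuous_const))).mul hec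
  have he0 : ∫ x in (0 : ℝ)..1, e x = 0 := by
    have h1 := intervalIntegral.integral_eq_sub_of_hasDerivAt (a := (0 : ℝ)) (b := 1)
      (fun x _ => hed x) ((continuous_const.mul hec).intervalIntegrable _ _)
    have h2 := he1 0
    rw [zero_add] at h2
    rw [h2, sub_self, intervalIntegral.integral_const_mul] at h1
    refine (mul_eq_zero.1 h1).resolve_left (neg_ne_zero.2 ?_)
    have : (n : ℂ) ≠ 0 := by exact_mod_cast hn.ne'
    have hpi : (π : ℂ) ≠ 0 := by exact_mod_cast Real.pi_ne_zero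
    simp [this, hpi, Complex.I_ne_zero]
  have hsum : ∫ x in (0 : ℝ)..1, (((∑ i ∈ Finset.range n, M (s (x + i * w)) (s (x + (i + 1) * w)) - A₀ :
      ℝ)) : ℂ) * e x = (n : ℂ) * ∫ x in (0 : ℝ)..1, ((m x : ℝ) : ℂ) * e x := by
    have h1 : ∀ x : ℝ, (((∑ i ∈ Finset.range n, M (s (x + i * w)) (s (x + (i + 1) * w)) - A₀ :
        ℝ)) : ℂ) * e x = (∑ i ∈ Finset.range n, ((m (x + i * w) : ℝ) : ℂ) * e x) - A₀ * e x := by
      intro x
      push_cast
      rw [sub_mul, Finset.sum_mul]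
      congr 1
      refine Finset.sum_congr rfl (fun i _ => ?_)
      simp only [hm]
      have : x + (i : ℝ) * w + w = x + ((i : ℝ) + 1) * w := by ring
      rw [this]
    simp_rw [h1]
    rw [intervalIntegral.integral_sub, intervalIntegral.integral_finsetSum]
    · simp_rw [hmi]
      rw [intervalIntegral.integral_const_mul, he0, mul_zero, sub_zero, Finset.sum_const,
        Finset.card_range, nsmul_eq_mul]
    · intro i _
      exact (hcmi i).intervalIntegrable _ _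
    · exact (continuous_finsetSum _ (fun i _ => hcmi i)).intervalIntegrable _ _
    · exact (continuous_const.mul hec).intervalIntegrable _ _
  have hnorm : ‖(n : ℂ) * ∫ x in (0 : ℝ)..1, ((m x : ℝ) : ℂ) * e x‖ ≤ R := by
    rw [← hsum]
    have h1 := intervalIntegral.norm_integral_le_of_norm_le_const (a := (0 : ℝ)) (b := 1) (C := R)
      (f := fun x : ℝ => (((∑ i ∈ Finset.range n, M (s (x + i * w)) (s (x + (i + 1) * w)) - A₀ :
        ℝ)) : ℂ) * e x) (fun x _ => by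
        rw [norm_mul, hen, mul_one, Complex.norm_real]
        exact hR x)
    simpa using h1
  have hfin : (2 * π * I * n) * ∫ x in (0 : ℝ)..1, ((m x : ℝ) : ℂ) * e x =
      (2 * π * I) * ((n : ℂ) * ∫ x in (0 : ℝ)..1, ((m x : ℝ) : ℂ) * e x) := by ring
  rw [hfin, norm_mul]
  have h2pi : ‖(2 * π * I : ℂ)‖ = 2 * π := by
    simp [abs_of_pos Real.pi_pos]
  rw [h2pi]
  exact mul_le_mul_of_nonneg_left hnorm (by positivity)

end Crest.Agent.R102.A929
end
end

-- ▼ part R102/LinC_682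
section

/-!
Row 102, part (A), leaf LIN (helper682): the theorem `leafLIN : LeafLIN`.
-/

set_option autoImplicit false

open Set Filter Topology Metric Complex MeasureTheory
open scoped Real ContDiff

noncomputable section

namespace Crest.Agent.R102.LinA682

open Crest.Agent.R102.A929

/-- the constant of the quadratic remainder -/
def KT (C B : ℝ) : ℝ := 4 * (C * (2 + 2 * Real.exp B) ^ 2 + (C + 5 / 2) * Real.exp B)

namespace Dat

variable {ρ C B A : ℝ} {n : ℕ} {σ : ℝ} {qL : C(ℂ, ℂ)} {q1 q2 : ℂ → ℂ} {η : ℝ} {v : ℂ → ℂ}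
  {q : C(ℂ, ℂ)} {a : ℤ → ℂ}

section

variable (d : Dat ρ C B A n σ qL q1 q2 η v)
include d

lemma bp_real (x : ℝ) : ∃ b : ℝ, bp v x = b := by
  refine ⟨x + (v x).re, ?_⟩
  unfold bp
  apply Complex.ext
  · simp
  · simp [d.vre x]

lemma ep_real (x : ℝ) : ∃ e : ℝ, ep v (σ / n) x = e := by
  refine ⟨(ep v (σ / n) x).re, ?_⟩
  apply Complex.ext
  · simp
  · simp [d.ep_im_real x]

variable (hs : Summable fun k => ‖a k‖) (hs1 : ∑' k, ‖a k‖ ≤ 1 / n)
  (hq : ∀ x : ℝ, q x = qL x + ∑' k : ℤ, a k * ee (k * x))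
include hs hs1 hq

omit hs hq in
lemma s_le : ∑' k, ‖a k‖ ≤ 1 := by
  have h1 := d.two_div_le
  have h2 := d.one_div_pos'
  have e : 2 / (n : ℝ) = 1 / n + 1 / n := by ring
  linarith

/-- the increment of the configuration -/
lemma dX_le (x : ℝ) : ‖Xq q (bp v x) (ep v (σ / n) x) - Xq qL (bp v x) (ep v (σ / n) x)‖ ≤
    (2 + 2 * Real.exp B) * ∑' k, ‖a k‖ := by
  have hz := d.real_mem x
  have hB := Real.exp_pos B
  have h0 : 0 ≤ ∑' k, ‖a k‖ := tsum_nonneg fun _ => norm_nonneg _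
  have h1 := d.s_le hs1
  obtain ⟨b, hb⟩ := d.bp_real x
  obtain ⟨e, he⟩ := d.ep_real x
  have hexp := d.exp_b hz
  have hen := (d.ep_norm hz).trans d.two_div_le
  rw [hb] at hexp
  rw [he] at hen
  rw [hb, he]
  refine max_le ?_ ?_
  · refine (dq_norm hs hq b e).trans ?_
    nlinarith
  · change ‖(e : ℂ) * Complex.exp (q b) - e * Complex.exp (qL b)‖ ≤ _
    have hh := h_norm hs hq b
    have e1 : (e : ℂ) * Complex.exp (q b) - e * Complex.exp (qL b) =
        e * (Complex.exp (qL b) * (Complex.exp (q b - qL b) - 1)) := by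
      rw [mul_sub, ← Complex.exp_add]; ring_nf
    rw [e1, norm_mul, norm_mul]
    have h2 := Complex.norm_exp_sub_one_le (hh.trans h1)
    have h3 : ‖Complex.exp (q b - qL b) - 1‖ ≤ 2 * ∑' k, ‖a k‖ := h2.trans (by linarith)
    have h4 := mul_le_mul hen (mul_le_mul hexp h3 (norm_nonneg _) hB.le)
      (by positivity) zero_le_one
    linarith

lemma Xq_lt (x : ℝ) : ‖Xq q (bp v x) (ep v (σ / n) x)‖ < ρ := by
  have h1 := d.dX_le hs hs1 hq x
  have h2 := d.X_norm (d.real_mem x)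
  have hB := Real.exp_pos B
  have h3 : (2 + 2 * Real.exp B) * ∑' k, ‖a k‖ ≤ (2 + 2 * Real.exp B) * (1 / n) :=
    mul_le_mul_of_nonneg_left hs1 (by positivity)
  calc ‖Xq q (bp v x) (ep v (σ / n) x)‖
      = ‖(Xq q (bp v x) (ep v (σ / n) x) - Xq qL (bp v x) (ep v (σ / n) x)) +
          Xq qL (bp v x) (ep v (σ / n) x)‖ := by rw [sub_add_cancel]
    _ ≤ (2 + 2 * Real.exp B) * (1 / n) + CX B * (2 / n) :=
        (norm_add_le _ _).trans (add_le_add (h1.trans h3) h2)
    _ = (2 * CX B + 2 + 2 * Real.exp B) / n := by ring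
    _ < ρ := d.nρ

/-- the linearised increment -/
lemma T_est (x : ℝ) :
    ‖Pq q (bp v x) (ep v (σ / n) x) - Pq qL (bp v x) (ep v (σ / n) x) -
      (ep v (σ / n) x) ^ 2 * DD qL v (σ / n) x
        (dq q (bp v x) (ep v (σ / n) x) - dq qL (bp v x) (ep v (σ / n) x),
          ep v (σ / n) x * Complex.exp (qL (bp v x)) * (q (bp v x) - qL (bp v x)))‖ ≤
      KT C B * (∑' k, ‖a k‖) ^ 2 / n ^ 2 := by
  have hz := d.real_mem x
  have hB := Real.exp_pos B
  have hC := d.C_pos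
  have hn := d.n_pos
  have h0 : 0 ≤ ∑' k, ‖a k‖ := tsum_nonneg fun _ => norm_nonneg _
  have h1 := d.s_le hs1
  have hX := d.dX_le hs hs1 hq x
  have hlt := d.Xq_lt hs hs1 hq x
  have hlt0 := d.X_lt hz
  have hexp := d.exp_b hz
  have hen := (d.ep_norm hz).trans d.two_div_le
  have hen2 := d.ep_norm hz
  set b := bp v x with hb
  set e := ep v (σ / n) x with he
  set s := ∑' k, ‖a k‖ with hsd
  have hc2 := d.hL.c2 _ _ hlt0 hlt
  have hD : fderiv ℂ Qf (Xq qL b e) = DD qL v (σ / n) x := rfl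
  rw [hD] at hc2
  have hh : ‖q b - qL b‖ ≤ s := by
    obtain ⟨b', hb'⟩ := d.bp_real x
    rw [hb, hb']; exact h_norm hs hq b'
  -- second component
  have e2 : DD qL v (σ / n) x (Xq q b e - Xq qL b e) -
      DD qL v (σ / n) x (dq q b e - dq qL b e, e * Complex.exp (qL b) * (q b - qL b)) =
      DD qL v (σ / n) x
        (0, e * (Complex.exp (qL b) * (Complex.exp (q b - qL b) - 1 - (q b - qL b)))) := by
    rw [← map_sub]
    congr 1
    refine Prod.ext ?_ ?_
    · change dq q b e - dq qL b e - (dq q b e - dq qL b e) = 0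
      rw [sub_self]
    · change e * Complex.exp (q b) - e * Complex.exp (qL b) -
        e * Complex.exp (qL b) * (q b - qL b) = _
      have e3 : Complex.exp (q b) = Complex.exp (qL b) * Complex.exp (q b - qL b) := by
        rw [← Complex.exp_add]; ring_nf
      rw [e3]; ring
  have h5 : ‖DD qL v (σ / n) x
        (0, e * (Complex.exp (qL b) * (Complex.exp (q b - qL b) - 1 - (q b - qL b))))‖ ≤
      (C + 5 / 2) * (Real.exp B * s ^ 2) := by
    refine (d.DD_apply hz _).trans (mul_le_mul_of_nonneg_left ?_ (by positivity))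
    rw [Prod.norm_mk, norm_zero]
    refine max_le (by positivity) ?_
    rw [norm_mul, norm_mul]
    have h6 := Complex.norm_exp_sub_one_sub_id_le (hh.trans h1)
    have h7 : ‖Complex.exp (q b - qL b) - 1 - (q b - qL b)‖ ≤ s ^ 2 :=
      h6.trans (pow_le_pow_left₀ (norm_nonneg _) hh 2)
    have h8 := mul_le_mul hen (mul_le_mul hexp h7 (norm_nonneg _) hB.le)
      (by positivity) zero_le_one
    linarith
  have h9 : C * ‖Xq q b e - Xq qL b e‖ ^ 2 ≤ C * ((2 + 2 * Real.exp B) * s) ^ 2 :=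
    mul_le_mul_of_nonneg_left (pow_le_pow_left₀ (norm_nonneg _) hX 2) hC.le
  have e0 : Pq q b e - Pq qL b e - e ^ 2 * DD qL v (σ / n) x
        (dq q b e - dq qL b e, e * Complex.exp (qL b) * (q b - qL b)) =
      e ^ 2 * ((Qf (Xq q b e) - Qf (Xq qL b e) - DD qL v (σ / n) x (Xq q b e - Xq qL b e)) +
        (DD qL v (σ / n) x (Xq q b e - Xq qL b e) -
          DD qL v (σ / n) x (dq q b e - dq qL b e, e * Complex.exp (qL b) * (q b - qL b)))) := by
    unfold Pq; ring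
  rw [e0, e2, norm_mul]
  have h10 : ‖e ^ 2‖ ≤ 4 / n ^ 2 := by
    rw [norm_pow]
    refine (pow_le_pow_left₀ (norm_nonneg _) hen2 2).trans (le_of_eq ?_)
    ring
  have h11 := (norm_add_le (Qf (Xq q b e) - Qf (Xq qL b e) -
      DD qL v (σ / n) x (Xq q b e - Xq qL b e)) (DD qL v (σ / n) x
        (0, e * (Complex.exp (qL b) * (Complex.exp (q b - qL b) - 1 - (q b - qL b)))))).trans
    (add_le_add (hc2.trans h9) h5)
  refine (mul_le_mul h10 h11 (norm_nonneg _) (by positivity)).trans (le_of_eq ?_)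
  unfold KT
  ring

omit hs1 in
/-- the series of the linearised integrand -/
lemma main_hasSum (x : ℝ) :
    HasSum (fun k : ℤ => a k * (ee (((k - n : ℤ) : ℂ) * x) * HH qL v (σ / n) k x))
      ((ep v (σ / n) x) ^ 2 * DD qL v (σ / n) x
        (dq q (bp v x) (ep v (σ / n) x) - dq qL (bp v x) (ep v (σ / n) x),
          ep v (σ / n) x * Complex.exp (qL (bp v x)) * (q (bp v x) - qL (bp v x))) *
        (1 + deriv v x) * ee (-(n * x))) := by
  obtain ⟨b, hb⟩ := d.bp_real x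
  obtain ⟨e, he⟩ := d.ep_real x
  have h1 := dq_hasSum hs hq b e
  have h2 := (h_hasSum hs hq b).mul_left ((e : ℂ) * Complex.exp (qL b))
  have h3 := (DD qL v (σ / n) x).hasSum (h1.prodMk h2)
  have h4 := ((h3.mul_left ((e : ℂ) ^ 2)).mul_right (1 + deriv v x)).mul_right (ee (-(n * x)))
  rw [hb, he]
  suffices h5 : (fun k : ℤ => a k * (ee (((k - n : ℤ) : ℂ) * x) * HH qL v (σ / n) k x)) =
      fun k : ℤ => (e : ℂ) ^ 2 * DD qL v (σ / n) x ((a k * ee (k * b)) • (eeA (k * e) - 1),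
        (e : ℂ) * Complex.exp (qL b) * (a k * ee (k * b))) * (1 + deriv v x) * ee (-(n * x)) by
    rw [h5]; exact h4
  funext k
  have e1 : ((a k * ee (k * b)) • (eeA (k * e) - 1),
      (e : ℂ) * Complex.exp (qL b) * (a k * ee (k * b))) =
      (a k * ee (k * b)) • (WW qL v (σ / n) k x) := by
    unfold WW
    rw [hb, he]
    refine Prod.ext rfl ?_
    change _ = (a k * ee (k * b)) * (e * Complex.exp (qL b))
    ring
  have e2 : (b : ℂ) = x + v x := by rw [← hb]; rfl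
  have e3 : ee (k * b) = ee (k * x) * ee (k * v x) := by rw [e2, mul_add, ee_add]
  have e4 : ee (((k - n : ℤ) : ℂ) * x) = ee (k * x) * ee (-(n * x)) := by
    rw [← ee_add]; congr 1; push_cast; ring
  rw [e1, map_smul, smul_eq_mul]
  unfold HH
  rw [he, e3, e4]
  ring

/-! ### continuity -/

omit hs hs1 hq in
lemma cont_bp : Continuous fun x : ℝ => bp v x := by
  unfold bp
  have := d.dv.continuous
  fun_prop

omit hs hs1 hq in
lemma cont_ep : Continuous fun x : ℝ => ep v (σ / n) x := by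
  unfold ep
  have := d.dv.continuous
  fun_prop

omit hs hs1 hq in
lemma cont_Pq (q : C(ℂ, ℂ)) (h : ∀ x : ℝ, ‖Xq q (bp v x) (ep v (σ / n) x)‖ < ρ) :
    Continuous fun x : ℝ => Pq q (bp v x) (ep v (σ / n) x) := by
  unfold Pq
  refine (d.cont_ep.pow 2).mul (continuous_iff_continuousAt.2 fun x => ?_)
  exact ContinuousAt.comp (f := fun x : ℝ => Xq q (bp v x) (ep v (σ / n) x))
    (d.hL.an _ (h x)).continuousAt (continuous_Xq q d.cont_bp d.cont_ep).continuousAt

omit hs hs1 hq in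
lemma cont_dv : Continuous fun x : ℝ => 1 + deriv v x :=
  continuous_const.add ((differentiable_deriv d.dv).continuous.comp Complex.continuous_ofReal)

omit d hs hs1 hq in
lemma cont_een : Continuous fun x : ℝ => ee (-(n * x)) := continuous_ee.comp (by fun_prop)

lemma cont_T : Continuous fun x : ℝ =>
    (Pq q (bp v x) (ep v (σ / n) x) - Pq qL (bp v x) (ep v (σ / n) x)) * (1 + deriv v x) *
      ee (-(n * x)) :=
  (((d.cont_Pq q (d.Xq_lt hs hs1 hq)).sub (d.cont_Pq qL fun x => d.X_lt (d.real_mem x))).mul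
    d.cont_dv).mul cont_een

omit hs hs1 hq in
lemma cont_main : Continuous fun x : ℝ => (ep v (σ / n) x) ^ 2 * DD qL v (σ / n) x
        (dq q (bp v x) (ep v (σ / n) x) - dq qL (bp v x) (ep v (σ / n) x),
          ep v (σ / n) x * Complex.exp (qL (bp v x)) * (q (bp v x) - qL (bp v x))) *
        (1 + deriv v x) * ee (-(n * x)) := by
  have hDD : Continuous fun x : ℝ => DD qL v (σ / n) x := by
    unfold DD
    refine continuous_iff_continuousAt.2 fun x => ?_
    exact ContinuousAt.comp (f := fun x : ℝ => Xq qL (bp v x) (ep v (σ / n) x))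
      (d.hL.an _ (d.X_lt (d.real_mem x))).fderiv.continuousAt
      (continuous_Xq qL d.cont_bp d.cont_ep).continuousAt
  have hb := d.cont_bp
  have he := d.cont_ep
  have h1 : Continuous fun x : ℝ => dq q (bp v x) (ep v (σ / n) x) :=
    continuous_dq q d.cont_bp d.cont_ep
  have h2 : Continuous fun x : ℝ => dq qL (bp v x) (ep v (σ / n) x) :=
    continuous_dq qL d.cont_bp d.cont_ep
  have h3 : Continuous fun x : ℝ =>
      ep v (σ / n) x * Complex.exp (qL (bp v x)) * (q (bp v x) - qL (bp v x)) := by fun_prop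
  exact (((he.pow 2).mul (hDD.clm_apply ((h1.sub h2).prodMk h3))).mul d.cont_dv).mul cont_een

/-! ### the one-sided theorem -/

omit hs1 in
lemma int_main : HasSum (fun k : ℤ => a k * FI qL v (σ / n) n k)
    (∫ x in (0 : ℝ)..1, (ep v (σ / n) x) ^ 2 * DD qL v (σ / n) x
        (dq q (bp v x) (ep v (σ / n) x) - dq qL (bp v x) (ep v (σ / n) x),
          ep v (σ / n) x * Complex.exp (qL (bp v x)) * (q (bp v x) - qL (bp v x))) *
        (1 + deriv v x) * ee (-(n * x))) := by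
  have h1 := intervalIntegral.hasSum_integral_of_dominated_convergence (μ := volume) (a := 0)
    (b := 1) (F := fun (k : ℤ) (x : ℝ) =>
      a k * (ee (((k - n : ℤ) : ℂ) * x) * HH qL v (σ / n) k x))
    (fun (k : ℤ) (_ : ℝ) => ‖a k‖ * (K2 C B A / n ^ 2))
    (fun k => by
      have hc1 : Continuous fun x : ℝ => ee (((k - n : ℤ) : ℂ) * x) :=
        continuous_ee.comp (by fun_prop)
      exact (continuous_const.mul (hc1.mul (d.HH_cont k))).aestronglyMeasurable)
    (fun k => Eventually.of_forall fun x _ => by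
      rw [norm_mul, norm_mul, norm_ee_int_mul, one_mul]
      exact mul_le_mul_of_nonneg_left (d.HH_le_real k x) (norm_nonneg _))
    (Eventually.of_forall fun x _ => hs.mul_right _)
    intervalIntegrable_const
    (Eventually.of_forall fun x _ => d.main_hasSum hs hq x)
  have h2 : (fun k : ℤ => a k * FI qL v (σ / n) n k) = fun k : ℤ => ∫ x in (0 : ℝ)..1,
      a k * (ee (((k - n : ℤ) : ℂ) * x) * HH qL v (σ / n) k x) := by
    funext k
    unfold FI
    rw [intervalIntegral.integral_const_mul]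
  rw [h2]
  exact h1

/-- the right hand side of the estimate -/
def RHS (n : ℕ) (η : ℝ) (a : ℤ → ℂ) : ℝ :=
  (∑' k : ℤ, if |k| ≤ 2 * n then ‖a k‖ * Real.exp (-(2 * π * η * |(n : ℝ) - k|)) else 0) / n ^ 3 +
    (∑' k : ℤ, if 2 * n < |k| ∧ |k| ≤ n ^ 2 then
      ‖a k‖ * Real.exp (-(2 * π * η * |(n : ℝ) - k|)) else 0) / n ^ 2 +
    (∑' k : ℤ, if (n : ℤ) ^ 2 < |k| then ‖a k‖ else 0) / n ^ 2 +
    (∑' k, ‖a k‖) ^ 2 / n ^ 2

theorem one_side :
    ‖(∫ x in (0 : ℝ)..1, (Pq q (bp v x) (ep v (σ / n) x) - Pq qL (bp v x) (ep v (σ / n) x)) *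
        (1 + deriv v x) * ee (-(n * x))) - a n * cc n σ n‖ ≤
      (K2 C B A + K3 C B A + 2 * KT C B) * RHS n η a := by
  have hπ := Real.pi_pos
  have hn := d.n_pos
  have hn2 := d.n2'
  have hη := d.hη
  have hK2 := d.K2_nonneg
  have hK3 := d.K3_nonneg
  have hC := d.C_pos
  have hKT : 0 ≤ KT C B := by
    have := Real.exp_pos B
    unfold KT; positivity
  -- quadratic part
  have q1 := intervalIntegral.norm_integral_le_of_norm_le_const (a := 0) (b := 1)
    (f := fun x : ℝ => (Pq q (bp v x) (ep v (σ / n) x) - Pq qL (bp v x) (ep v (σ / n) x)) *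
        (1 + deriv v x) * ee (-(n * x)) - (ep v (σ / n) x) ^ 2 * DD qL v (σ / n) x
        (dq q (bp v x) (ep v (σ / n) x) - dq qL (bp v x) (ep v (σ / n) x),
          ep v (σ / n) x * Complex.exp (qL (bp v x)) * (q (bp v x) - qL (bp v x))) *
        (1 + deriv v x) * ee (-(n * x)))
    (C := KT C B * (∑' k, ‖a k‖) ^ 2 / n ^ 2 * 2) (fun x _ => by
      rw [← sub_mul, ← sub_mul, norm_mul, norm_mul]
      have h1 : ‖ee (-(n * x))‖ = 1 := by
        have h2 : (-(n * x) : ℂ) = ((-(n * x) : ℝ) : ℂ) := by push_cast; ring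
        rw [h2, norm_ee_real]
      rw [h1, mul_one]
      exact mul_le_mul (d.T_est hs hs1 hq x) (d.v2' (d.real_mem x)) (norm_nonneg _)
        (by positivity))
  rw [sub_zero, abs_one, mul_one, intervalIntegral.integral_sub
    ((d.cont_T hs hs1 hq).intervalIntegrable _ _) (d.cont_main.intervalIntegrable _ _)] at q1
  -- linear part
  have l1 := d.int_main hs hq
  have l2 : HasSum (fun k : ℤ => a k * (if k = n then cc n σ k else 0)) (a n * cc n σ n) := by
    have h1 := hasSum_single (f := fun k : ℤ => a k * (if k = n then cc n σ k else 0)) (n : ℤ)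
      (fun k hk => by rw [if_neg hk, mul_zero])
    rwa [if_pos rfl] at h1
  have l3 := l1.sub l2
  set f1 : ℤ → ℝ := fun k =>
    if |k| ≤ 2 * n then ‖a k‖ * Real.exp (-(2 * π * η * |(n : ℝ) - k|)) else 0 with hf1
  set f2 : ℤ → ℝ := fun k => if 2 * n < |k| ∧ |k| ≤ n ^ 2 then
      ‖a k‖ * Real.exp (-(2 * π * η * |(n : ℝ) - k|)) else 0 with hf2
  set f3 : ℤ → ℝ := fun k => if (n : ℤ) ^ 2 < |k| then ‖a k‖ else 0 with hf3
  have hexp : ∀ k : ℤ, Real.exp (-(2 * π * η * |(n : ℝ) - k|)) ≤ 1 := fun k => by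
    rw [Real.exp_le_one_iff]
    have := abs_nonneg ((n : ℝ) - k)
    have : 0 ≤ 2 * π * η * |(n : ℝ) - k| := by positivity
    linarith
  have p1 : ∀ k, 0 ≤ f1 k := fun k => by
    simp only [hf1]; split_ifs <;> positivity
  have p2 : ∀ k, 0 ≤ f2 k := fun k => by
    simp only [hf2]; split_ifs <;> positivity
  have p3 : ∀ k, 0 ≤ f3 k := fun k => by
    simp only [hf3]; split_ifs <;> positivity
  have s1 : Summable f1 := Summable.of_nonneg_of_le p1 (fun k => by
    simp only [hf1]; split_ifs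
    · exact mul_le_of_le_one_right (norm_nonneg _) (hexp k)
    · exact norm_nonneg _) hs
  have s2 : Summable f2 := Summable.of_nonneg_of_le p2 (fun k => by
    simp only [hf2]; split_ifs
    · exact mul_le_of_le_one_right (norm_nonneg _) (hexp k)
    · exact norm_nonneg _) hs
  have s3 : Summable f3 := Summable.of_nonneg_of_le p3 (fun k => by
    simp only [hf3]; split_ifs
    · exact le_rfl
    · exact norm_nonneg _) hs
  have hg := (((s1.hasSum.div_const ((n : ℝ) ^ 3)).add (s2.hasSum.div_const ((n : ℝ) ^ 2))).add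
    (s3.hasSum.div_const ((n : ℝ) ^ 2))).mul_left (K2 C B A + K3 C B A)
  have l4 := l3.norm_le_of_bounded hg (fun k => by
    rw [← mul_sub, norm_mul]
    have hak := norm_nonneg (a k)
    have h1 := p1 k
    have h2 := p2 k
    have h3 := p3 k
    have hcast : ((|k| : ℤ) : ℝ) = |(k : ℝ)| := Int.cast_abs
    by_cases c1 : |k| ≤ 2 * n
    · have hk : |(k : ℝ)| ≤ 2 * n := by
        rw [← hcast]; exact_mod_cast c1
      have e1 : f1 k = ‖a k‖ * Real.exp (-(2 * π * η * |(n : ℝ) - k|)) := by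
        simp only [hf1]; rw [if_pos c1]
      calc ‖a k‖ * ‖FI qL v (σ / n) n k - (if k = n then cc n σ k else 0)‖
          ≤ ‖a k‖ * (K3 C B A / n ^ 3 * Real.exp (-(2 * π * η * |(n : ℝ) - k|))) :=
            mul_le_mul_of_nonneg_left (d.FI_near hk) hak
        _ = K3 C B A * (f1 k / n ^ 3) := by rw [e1]; ring
        _ ≤ (K2 C B A + K3 C B A) * (f1 k / n ^ 3 + f2 k / n ^ 2 + f3 k / n ^ 2) := by
            refine mul_le_mul (by linarith) ?_ (by positivity) (by positivity)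
            have : 0 ≤ f2 k / (n : ℝ) ^ 2 := by positivity
            have : 0 ≤ f3 k / (n : ℝ) ^ 2 := by positivity
            linarith
    · have hkn : k ≠ n := by
        rintro rfl
        apply c1
        rw [abs_of_nonneg (by positivity)]
        omega
      rw [if_neg hkn, sub_zero]
      push Not at c1
      by_cases c2 : |k| ≤ (n : ℤ) ^ 2
      · have hk : |(k : ℝ)| ≤ n ^ 2 := by
          rw [← hcast]; exact_mod_cast c2
        have e1 : f2 k = ‖a k‖ * Real.exp (-(2 * π * η * |(n : ℝ) - k|)) := by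
          simp only [hf2]; rw [if_pos ⟨c1, c2⟩]
        calc ‖a k‖ * ‖FI qL v (σ / n) n k‖
            ≤ ‖a k‖ * (K2 C B A / n ^ 2 * Real.exp (-(2 * π * η * |(n : ℝ) - k|))) :=
              mul_le_mul_of_nonneg_left (d.FI_mid hk) hak
          _ = K2 C B A * (f2 k / n ^ 2) := by rw [e1]; ring
          _ ≤ (K2 C B A + K3 C B A) * (f1 k / n ^ 3 + f2 k / n ^ 2 + f3 k / n ^ 2) := by
              refine mul_le_mul (by linarith) ?_ (by positivity) (by positivity)
              have : 0 ≤ f1 k / (n : ℝ) ^ 3 := by positivity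
              have : 0 ≤ f3 k / (n : ℝ) ^ 2 := by positivity
              linarith
      · have e1 : f3 k = ‖a k‖ := by
          simp only [hf3]; rw [if_pos (not_le.1 c2)]
        calc ‖a k‖ * ‖FI qL v (σ / n) n k‖ ≤ ‖a k‖ * (K2 C B A / n ^ 2) :=
              mul_le_mul_of_nonneg_left (d.FI_far k) hak
          _ = K2 C B A * (f3 k / n ^ 2) := by rw [e1]; ring
          _ ≤ (K2 C B A + K3 C B A) * (f1 k / n ^ 3 + f2 k / n ^ 2 + f3 k / n ^ 2) := by
              refine mul_le_mul (by linarith) ?_ (by positivity) (by positivity)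
              have : 0 ≤ f1 k / (n : ℝ) ^ 3 := by positivity
              have : 0 ≤ f2 k / (n : ℝ) ^ 2 := by positivity
              linarith)
  -- conclusion
  have t1 : 0 ≤ (∑' k, f1 k) / (n : ℝ) ^ 3 := div_nonneg (tsum_nonneg p1) (by positivity)
  have t2 : 0 ≤ (∑' k, f2 k) / (n : ℝ) ^ 2 := div_nonneg (tsum_nonneg p2) (by positivity)
  have t3 : 0 ≤ (∑' k, f3 k) / (n : ℝ) ^ 2 := div_nonneg (tsum_nonneg p3) (by positivity)
  have t4 : 0 ≤ (∑' k, ‖a k‖) ^ 2 / (n : ℝ) ^ 2 := by positivity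
  have hR : RHS n η a = (∑' k, f1 k) / (n : ℝ) ^ 3 + (∑' k, f2 k) / (n : ℝ) ^ 2 +
      (∑' k, f3 k) / (n : ℝ) ^ 2 + (∑' k, ‖a k‖) ^ 2 / n ^ 2 := rfl
  rw [hR]
  set T1 := (∑' k, f1 k) / (n : ℝ) ^ 3
  set T2 := (∑' k, f2 k) / (n : ℝ) ^ 2
  set T3 := (∑' k, f3 k) / (n : ℝ) ^ 2
  set T4 := (∑' k, ‖a k‖) ^ 2 / (n : ℝ) ^ 2 with hT4
  have q2 : KT C B * (∑' k, ‖a k‖) ^ 2 / n ^ 2 * 2 = 2 * KT C B * T4 := by rw [hT4]; ring
  rw [q2] at q1
  have tri : ∀ X Y Z : ℂ, ‖X - Z‖ ≤ ‖X - Y‖ + ‖Y - Z‖ := fun X Y Z => by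
    have : X - Z = (X - Y) + (Y - Z) := by ring
    rw [this]; exact norm_add_le _ _
  refine (tri _ _ _).trans ((add_le_add q1 l4).trans ?_)
  nlinarith [mul_nonneg hK2 t4, mul_nonneg hK3 t4, mul_nonneg hKT t1, mul_nonneg hKT t2,
    mul_nonneg hKT t3]

end

end Dat

/-! ### the leading constant -/

lemma Lf_eeA {m : ℤ} (hm : m ≠ 0) : Lf (eeA m) = -3 / (2 * π * I * m) := by
  have hc : (2 * π * I * m : ℂ) ≠ 0 := by
    have h1 : (m : ℂ) ≠ 0 := by exact_mod_cast hm
    have h2 : (π : ℂ) ≠ 0 := by exact_mod_cast Real.pi_ne_zero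
    exact mul_ne_zero (mul_ne_zero (mul_ne_zero two_ne_zero h2) I_ne_zero) h1
  set c : ℂ := 2 * π * I * m with hcd
  have h1 : Lam (eeA m) = 0 := by
    rw [Lam_apply]
    have h2 := Dat.int_ee m
    rw [if_neg hm] at h2
    rw [← h2]
    refine intervalIntegral.integral_congr fun x hx => ?_
    rw [uIcc_of_le zero_le_one] at hx
    exact ext_apply (eeA m) ⟨x, hx⟩
  have h2 : Lam (iot * eeA m) = 1 / c := by
    rw [Lam_apply]
    have e1 : ∫ x in (0 : ℝ)..1, ext (iot * eeA m) x =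
        ∫ x in (0 : ℝ)..1, (x : ℂ) * Complex.exp (c * x) := by
      refine intervalIntegral.integral_congr fun x hx => ?_
      rw [uIcc_of_le zero_le_one] at hx
      have h3 := ext_apply (eeA m) ⟨x, hx⟩
      simp only at h3
      simp only [ext_mul, ext_iot hx, h3]
      rw [eeA_apply, ee]
      congr 2
      rw [hcd]; ring
    rw [e1]
    have hF : ∀ x : ℝ, HasDerivAt (fun x : ℝ => ((x : ℂ) / c - 1 / c ^ 2) * Complex.exp (c * x))
        ((x : ℂ) * Complex.exp (c * x)) x := by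
      intro x
      have h3 : HasDerivAt (fun x : ℝ => (x : ℂ)) 1 x := Complex.ofRealCLM.hasDerivAt
      have h4 := ((h3.div_const c).sub_const (1 / c ^ 2)).mul ((h3.const_mul c).cexp)
      refine h4.congr_deriv ?_
      field_simp
      ring
    rw [intervalIntegral.integral_eq_sub_of_hasDerivAt (fun x _ => hF x)]
    · have h5 : Complex.exp (c * ((1 : ℝ) : ℂ)) = 1 := by
        rw [Complex.exp_eq_one_iff]
        exact ⟨m, by rw [hcd]; push_cast; ring⟩
      rw [h5]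
      simp
    · refine Continuous.intervalIntegrable ?_ _ _
      fun_prop
  rw [Lf_eq, h1, h2]
  ring

lemma cc_diff (n : ℕ) (hn : 0 < n) :
    Dat.cc n (-1) n - Dat.cc n 1 n = -(I * (3 / (2 * π)) * (1 / n ^ 2)) := by
  have hn' : (n : ℂ) ≠ 0 := by exact_mod_cast hn.ne'
  have h2 : (π : ℂ) ≠ 0 := by exact_mod_cast Real.pi_ne_zero
  unfold Dat.cc
  have e1 : (((n : ℕ) : ℤ) : ℂ) * (((-1 : ℝ) : ℂ) / n) = ((-1 : ℤ) : ℂ) := by
    push_cast; field_simp
  have e2 : (((n : ℕ) : ℤ) : ℂ) * (((1 : ℝ) : ℂ) / n) = ((1 : ℤ) : ℂ) := by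
    push_cast; field_simp
  rw [e1, e2, map_sub, map_sub, Lf_eeA (by norm_num), Lf_eeA (by norm_num)]
  push_cast
  field_simp
  rw [I_sq]
  ring

/-! ### the leaf -/

lemma EP_eq (q : C(ℂ, ℂ)) (v : ℂ → ℂ) (n : ℕ) (x : ℝ) :
    EP q (x - 1 / n + v (x - 1 / n)) (x + v x) (x + 1 / n + v (x + 1 / n)) =
      Pq q (bp v x) (ep v (((-1 : ℝ) : ℂ) / n) x) - Pq q (bp v x) (ep v (((1 : ℝ) : ℂ) / n) x) := by
  have e1 : -((x : ℂ) + v x - (x - 1 / n + v (x - 1 / n))) = ep v (((-1 : ℝ) : ℂ) / n) x := by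
    unfold ep
    have : (x : ℂ) + ((-1 : ℝ) : ℂ) / n = x - 1 / n := by push_cast; ring
    rw [this]; push_cast; ring
  have e2 : (x : ℂ) + 1 / n + v (x + 1 / n) - (x + v x) = ep v (((1 : ℝ) : ℂ) / n) x := by
    unfold ep
    have : (x : ℂ) + ((1 : ℝ) : ℂ) / n = x + 1 / n := by push_cast; ring
    rw [this]; push_cast; ring
  unfold EP
  rw [e1, e2]
  rfl

theorem leafLIN : LeafLIN := by
  intro ρ C hL B A hB hA
  obtain ⟨N, hN⟩ := exists_nat_gt (max A ((2 * CX B + 2 + 2 * Real.exp B) / ρ))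
  have hC : 0 < C := by linarith [hL.C_ge]
  have hρ := hL.ρ_pos
  have hCX := CX_ge hB
  have hKT : 0 ≤ KT C B := by
    have := Real.exp_pos B
    unfold KT; positivity
  have hK2 : 0 ≤ Dat.K2 C B A := by unfold Dat.K2; positivity
  have hK3 : 0 ≤ Dat.K3 C B A := by
    have := Real.pi_pos
    unfold Dat.K3; positivity
  refine ⟨2 * (Dat.K2 C B A + Dat.K3 C B A + 2 * KT C B) + 1, max N 2, by positivity, ?_⟩
  intro n q qL q1 q2 η a v hn hη dqL per _ sm hs hs1 hq _ dv vper vre v0 v1 v2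
  have hn2 : 2 ≤ n := (le_max_right _ _).trans hn
  have hn2' : (2 : ℝ) ≤ n := by exact_mod_cast hn2
  have hnN : (N : ℝ) ≤ n := by exact_mod_cast (le_max_left _ _).trans hn
  have hn0 : (0 : ℝ) < n := by linarith
  have hpow : (n : ℝ) ^ 2 ≤ (n : ℝ) ^ (5 / 2 : ℝ) := by
    rw [← Real.rpow_natCast]
    exact Real.rpow_le_rpow_of_exponent_le (by linarith) (by norm_num)
  have hnA : A ≤ n := ((le_max_left _ _).trans hN.le).trans hnN
  have hnρ : (2 * CX B + 2 + 2 * Real.exp B) / n < ρ := by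
    have h1 := ((le_max_right A ((2 * CX B + 2 + 2 * Real.exp B) / ρ)).trans_lt hN).trans_le hnN
    rw [div_lt_iff₀ hρ] at h1
    rw [div_lt_iff₀ hn0]
    linarith
  have hv1 : ∀ z ∈ St η, ‖v (z + 1 / n) - v z‖ ≤ A / n ^ 2 := fun z hz =>
    (v1 z hz).trans (div_le_div_of_nonneg_left hA (by positivity) hpow)
  have d1 : Dat ρ C B A n 1 qL q1 q2 η v :=
    ⟨hL, hA, by simp, hη, hn2, hnA, hnρ, dqL, per, sm, dv, vper, vre, v0, fun z hz => by
      have h1 := hv1 z hz
      have e : (((1 : ℝ) : ℂ) / n) = 1 / n := by push_cast; rfl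
      rw [e]; exact h1, v2⟩
  have d2 : Dat ρ C B A n (-1) qL q1 q2 η v :=
    ⟨hL, hA, by simp, hη, hn2, hnA, hnρ, dqL, per, sm, dv, vper, vre, v0, fun z hz => by
      have hz' : z + (((-1 : ℝ) : ℂ) / n) ∈ St η := Dat.add_s_mem hz
      have h1 := hv1 _ hz'
      have e : z + (((-1 : ℝ) : ℂ) / n) + 1 / n = z := by push_cast; ring
      rw [e, norm_sub_rev] at h1
      exact h1, v2⟩
  have o1 := d1.one_side hs hs1 hq
  have o2 := d2.one_side hs hs1 hq
  have hR : 0 ≤ Dat.RHS n η a := by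
    unfold Dat.RHS
    have h1 : ∀ (p : ℤ → Prop) [DecidablePred p], 0 ≤ ∑' k : ℤ, if p k then
        ‖a k‖ * Real.exp (-(2 * π * η * |(n : ℝ) - k|)) else 0 := fun p _ =>
      tsum_nonneg fun k => by split_ifs <;> positivity
    have h2 : 0 ≤ ∑' k : ℤ, if (n : ℤ) ^ 2 < |k| then ‖a k‖ else 0 :=
      tsum_nonneg fun k => by split_ifs <;> positivity
    have h3 := h1 fun k => |k| ≤ 2 * n
    have h4 := h1 fun k => 2 * n < |k| ∧ |k| ≤ n ^ 2
    positivity
  have e0 : (∫ x in (0 : ℝ)..1,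
        (EP q (x - 1 / n + v (x - 1 / n)) (x + v x) (x + 1 / n + v (x + 1 / n)) -
          EP qL (x - 1 / n + v (x - 1 / n)) (x + v x) (x + 1 / n + v (x + 1 / n))) *
        (1 + deriv v x) * ee (-(n * x))) =
      (∫ x in (0 : ℝ)..1, (Pq q (bp v x) (ep v (((-1 : ℝ) : ℂ) / n) x) -
        Pq qL (bp v x) (ep v (((-1 : ℝ) : ℂ) / n) x)) * (1 + deriv v x) * ee (-(n * x))) -
      ∫ x in (0 : ℝ)..1, (Pq q (bp v x) (ep v (((1 : ℝ) : ℂ) / n) x) -
        Pq qL (bp v x) (ep v (((1 : ℝ) : ℂ) / n) x)) * (1 + deriv v x) * ee (-(n * x)) := by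
    rw [← intervalIntegral.integral_sub ((d2.cont_T hs hs1 hq).intervalIntegrable _ _)
      ((d1.cont_T hs hs1 hq).intervalIntegrable _ _)]
    refine intervalIntegral.integral_congr fun x _ => ?_
    simp only [EP_eq]
    ring
  rw [e0]
  have hcc := cc_diff n (by omega)
  set I1 := ∫ x in (0 : ℝ)..1, (Pq q (bp v x) (ep v (((1 : ℝ) : ℂ) / n) x) -
        Pq qL (bp v x) (ep v (((1 : ℝ) : ℂ) / n) x)) * (1 + deriv v x) * ee (-(n * x)) with hI1
  set I2 := ∫ x in (0 : ℝ)..1, (Pq q (bp v x) (ep v (((-1 : ℝ) : ℂ) / n) x) -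
        Pq qL (bp v x) (ep v (((-1 : ℝ) : ℂ) / n) x)) * (1 + deriv v x) * ee (-(n * x)) with hI2
  have e1 : I2 - I1 + I * (3 / (2 * π)) * (1 / n ^ 2) * a n =
      (I2 - a n * Dat.cc n (-1) n) - (I1 - a n * Dat.cc n 1 n) := by
    linear_combination (a n) * hcc
  rw [e1]
  refine (norm_sub_le _ _).trans ((add_le_add o2 o1).trans ?_)
  have h5 : (2 * (Dat.K2 C B A + Dat.K3 C B A + 2 * KT C B) + 1) * Dat.RHS n η a ≥
      (Dat.K2 C B A + Dat.K3 C B A + 2 * KT C B) * Dat.RHS n η a +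
      (Dat.K2 C B A + Dat.K3 C B A + 2 * KT C B) * Dat.RHS n η a := by nlinarith
  exact h5

end Crest.Agent.R102.LinA682

end
end

-- ▼ part R102/EndC_575
section

/-!
Row 102, part (A) (helper575): holomorphy, periodicity of the defect of the truncation, and the
difference of the defects of `q` and `qL` on the real line.
-/

set_option autoImplicit false

open Set Filter Topology Metric Complex MeasureTheory
open scoped Real ContDiff

noncomputable section

namespace Crest.Agent.R102.LinA682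

open Crest.Agent.R102.A929

/-- the defect of the family `z ↦ z + v z` -/
def gE (q : C(ℂ, ℂ)) (v : ℂ → ℂ) (n : ℕ) (z : ℂ) : ℂ :=
  EP q (z - 1 / n + v (z - 1 / n)) (z + v z) (z + 1 / n + v (z + 1 / n))

lemma gE_eq (q : C(ℂ, ℂ)) (v : ℂ → ℂ) (n : ℕ) (x : ℂ) :
    gE q v n x =
      Pq q (bp v x) (ep v (((-1 : ℝ) : ℂ) / n) x) - Pq q (bp v x) (ep v (((1 : ℝ) : ℂ) / n) x) := by
  have e1 : -((x : ℂ) + v x - (x - 1 / n + v (x - 1 / n))) = ep v (((-1 : ℝ) : ℂ) / n) x := by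
    unfold ep
    have : (x : ℂ) + ((-1 : ℝ) : ℂ) / n = x - 1 / n := by push_cast; ring
    rw [this]; push_cast; ring
  have e2 : (x : ℂ) + 1 / n + v (x + 1 / n) - (x + v x) = ep v (((1 : ℝ) : ℂ) / n) x := by
    unfold ep
    have : (x : ℂ) + ((1 : ℝ) : ℂ) / n = x + 1 / n := by push_cast; ring
    rw [this]; push_cast; ring
  unfold gE EP
  rw [e1, e2]
  rfl

lemma Xq_per' {q : C(ℂ, ℂ)} (hq : ∀ z, q (z + 1) = q z) (b e : ℂ) : Xq q (b + 1) e = Xq q b e := by
  unfold Xq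
  rw [hq]
  congr 1
  refine AA.ext' fun r => ?_
  rw [dq_apply, dq_apply, hq]
  have : b + 1 + e * ((r : ℝ) : ℂ) = (b + e * ((r : ℝ) : ℂ)) + 1 := by ring
  rw [this, hq]

lemma Pq_per' {q : C(ℂ, ℂ)} (hq : ∀ z, q (z + 1) = q z) (b e : ℂ) : Pq q (b + 1) e = Pq q b e := by
  unfold Pq
  rw [Xq_per' hq]

lemma bp_per {v : ℂ → ℂ} (hv : ∀ z, v (z + 1) = v z) (z : ℂ) : bp v (z + 1) = bp v z + 1 := by
  unfold bp
  rw [hv]; ring

lemma ep_per {v : ℂ → ℂ} (hv : ∀ z, v (z + 1) = v z) (s z : ℂ) : ep v s (z + 1) = ep v s z := by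
  unfold ep
  have : z + 1 + s = (z + s) + 1 := by ring
  rw [this, hv, hv]

lemma gE_per {q : C(ℂ, ℂ)} (hq : ∀ z, q (z + 1) = q z) {v : ℂ → ℂ} (hv : ∀ z, v (z + 1) = v z)
    (n : ℕ) (z : ℂ) : gE q v n (z + 1) = gE q v n z := by
  rw [gE_eq, gE_eq, bp_per hv, ep_per hv, ep_per hv, Pq_per' hq, Pq_per' hq]

/-- the constant of the difference -/
def KD (C B : ℝ) : ℝ := 4 * ((C + 5 / 2) * (2 + 2 * Real.exp B))

lemma Qf_lip' {ρ C : ℝ} (hL : LocQ ρ C) {X X' : AA × ℂ} (hX : ‖X‖ < ρ) (hX' : ‖X'‖ < ρ) :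
    ‖Qf X' - Qf X‖ ≤ (C + 5 / 2) * ‖X' - X‖ := by
  have hC := hL.C_ge
  have hm : max ‖X‖ ‖X'‖ < ρ := max_lt hX hX'
  have h1 := hL.c11 (max ‖X‖ ‖X'‖) X X' hm (le_max_left _ _) (le_max_right _ _)
  have h2 : ‖(1 / 2 : ℂ) * Lf (X'.1 - X.1)‖ ≤ 5 / 2 * ‖X' - X‖ := by
    rw [norm_mul]
    have h3 := norm_Lf_le (X'.1 - X.1)
    have h4 : ‖X'.1 - X.1‖ ≤ ‖X' - X‖ := norm_fst_le (X' - X)
    have h5 : ‖(1 / 2 : ℂ)‖ = 1 / 2 := by norm_num
    rw [h5]
    linarith
  have h3 : C * max ‖X‖ ‖X'‖ * ‖X' - X‖ ≤ C * ‖X' - X‖ := by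
    have h4 : C * max ‖X‖ ‖X'‖ ≤ C * 1 :=
      mul_le_mul_of_nonneg_left (hm.le.trans hL.ρ_le) (by linarith)
    rw [mul_one] at h4
    exact mul_le_mul_of_nonneg_right h4 (norm_nonneg _)
  have h4 : Qf X' - Qf X = (Qf X' - Qf X - 1 / 2 * Lf (X'.1 - X.1)) +
      1 / 2 * Lf (X'.1 - X.1) := by ring
  rw [h4]
  refine (norm_add_le _ _).trans ?_
  linarith

namespace Dat

variable {ρ C B A : ℝ} {n : ℕ} {σ : ℝ} {qL : C(ℂ, ℂ)} {q1 q2 : ℂ → ℂ} {η : ℝ} {v : ℂ → ℂ}
  {q : C(ℂ, ℂ)} {a : ℤ → ℂ}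

lemma diffAt_Pq (d : Dat ρ C B A n σ qL q1 q2 η v) {z : ℂ} (hz : z ∈ St η) :
    DifferentiableAt ℂ (fun z => Pq qL (bp v z) (ep v (σ / n) z)) z := by
  have hb : DifferentiableAt ℂ (bp v) z := by
    unfold bp
    exact differentiableAt_id.add (d.dv z)
  have he : DifferentiableAt ℂ (ep v (σ / n)) z := by
    unfold ep
    refine DifferentiableAt.sub (DifferentiableAt.add (differentiableAt_const _) ?_) (d.dv z)
    exact DifferentiableAt.comp (g := v) z (d.dv _) (differentiableAt_id.add (differentiableAt_const _))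
  unfold Pq
  refine (he.pow 2).mul ?_
  exact DifferentiableAt.comp (g := Qf) (f := fun z => Xq qL (bp v z) (ep v (σ / n) z)) z
    (d.hL.an _ (d.X_lt hz)).differentiableAt (differentiableAt_Xq d.dqL hb he)

lemma Pq_diff (d : Dat ρ C B A n σ qL q1 q2 η v) (hs : Summable fun k => ‖a k‖)
    (hs1 : ∑' k, ‖a k‖ ≤ 1 / n) (hq : ∀ x : ℝ, q x = qL x + ∑' k : ℤ, a k * ee (k * x)) (x : ℝ) :
    ‖Pq q (bp v x) (ep v (σ / n) x) - Pq qL (bp v x) (ep v (σ / n) x)‖ ≤
      KD C B / n ^ 2 * ∑' k, ‖a k‖ := by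
  have h1 := d.dX_le hs hs1 hq x
  have h2 := Qf_lip' d.hL (d.X_lt (d.real_mem x)) (d.Xq_lt hs hs1 hq x)
  have h3 := d.ep_norm (d.real_mem x)
  have hn := d.n_pos
  have hC := d.C_pos
  have hB := Real.exp_pos B
  have h0 : 0 ≤ ∑' k, ‖a k‖ := tsum_nonneg fun _ => norm_nonneg _
  unfold Pq
  rw [← mul_sub, norm_mul, norm_pow]
  calc ‖ep v (σ / n) x‖ ^ 2 * ‖Qf (Xq q (bp v x) (ep v (σ / n) x)) -
        Qf (Xq qL (bp v x) (ep v (σ / n) x))‖
      ≤ (2 / n) ^ 2 * ((C + 5 / 2) * ((2 + 2 * Real.exp B) * ∑' k, ‖a k‖)) := by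
        refine mul_le_mul (pow_le_pow_left₀ (norm_nonneg _) h3 2) (h2.trans ?_) (norm_nonneg _)
          (by positivity)
        exact mul_le_mul_of_nonneg_left h1 (by positivity)
    _ = KD C B / n ^ 2 * ∑' k, ‖a k‖ := by unfold KD; ring

end Dat

section

variable {ρ C B A : ℝ} {n : ℕ} {qL : C(ℂ, ℂ)} {q1 q2 : ℂ → ℂ} {η : ℝ} {v : ℂ → ℂ}
  {q : C(ℂ, ℂ)} {a : ℤ → ℂ}

/-- the two one-sided data -/
theorem dat_pair (hL : LocQ ρ C) (hA : 0 ≤ A) (hη : 0 ≤ η) (n2 : 2 ≤ n) (nA : A ≤ n)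
    (nρ : (2 * CX B + 2 + 2 * Real.exp B) / n < ρ) (dqL : Differentiable ℂ qL)
    (per : ∀ z, qL (z + 1) = qL z) (sm : Sm qL q1 q2 (St (η + 2 / n)) B)
    (dv : Differentiable ℂ v) (vper : ∀ z, v (z + 1) = v z) (vre : ∀ x : ℝ, (v x).im = 0)
    (v0 : ∀ z ∈ St η, ‖v z‖ ≤ A / n ^ 2)
    (v1 : ∀ z ∈ St η, ‖v (z + 1 / n) - v z‖ ≤ A / (n : ℝ) ^ (5 / 2 : ℝ))
    (v2 : ∀ z ∈ St η, ‖deriv v z‖ ≤ A / n) :
    Dat ρ C B A n 1 qL q1 q2 η v ∧ Dat ρ C B A n (-1) qL q1 q2 η v := by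
  have hn2' : (2 : ℝ) ≤ n := by exact_mod_cast n2
  have hn0 : (0 : ℝ) < n := by linarith
  have hpow : (n : ℝ) ^ 2 ≤ (n : ℝ) ^ (5 / 2 : ℝ) := by
    rw [← Real.rpow_natCast]
    exact Real.rpow_le_rpow_of_exponent_le (by linarith) (by norm_num)
  have hv1 : ∀ z ∈ St η, ‖v (z + 1 / n) - v z‖ ≤ A / n ^ 2 := fun z hz =>
    (v1 z hz).trans (div_le_div_of_nonneg_left hA (by positivity) hpow)
  constructor
  · exact ⟨hL, hA, by simp, hη, n2, nA, nρ, dqL, per, sm, dv, vper, vre, v0, fun z hz => by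
      have h1 := hv1 z hz
      have e : (((1 : ℝ) : ℂ) / n) = 1 / n := by push_cast; rfl
      rw [e]; exact h1, v2⟩
  · exact ⟨hL, hA, by simp, hη, n2, nA, nρ, dqL, per, sm, dv, vper, vre, v0, fun z hz => by
      have hz' : z + (((-1 : ℝ) : ℂ) / n) ∈ St η := Dat.add_s_mem hz
      have h1 := hv1 _ hz'
      have e : z + (((-1 : ℝ) : ℂ) / n) + 1 / n = z := by push_cast; ring
      rw [e, norm_sub_rev] at h1
      exact h1, v2⟩

theorem gE_diffOn (d1 : Dat ρ C B A n 1 qL q1 q2 η v) (d2 : Dat ρ C B A n (-1) qL q1 q2 η v) :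
    DifferentiableOn ℂ (gE qL v n) (St η) := by
  intro z hz
  have h1 := (d2.diffAt_Pq hz).sub (d1.diffAt_Pq hz)
  have e : gE qL v n = (fun z => Pq qL (bp v z) (ep v (((-1 : ℝ) : ℂ) / n) z)) -
      fun z => Pq qL (bp v z) (ep v (((1 : ℝ) : ℂ) / n) z) := funext fun z => gE_eq qL v n z
  rw [e]
  exact h1.differentiableWithinAt

theorem gE_diff (d1 : Dat ρ C B A n 1 qL q1 q2 η v) (d2 : Dat ρ C B A n (-1) qL q1 q2 η v)
    (hs : Summable fun k => ‖a k‖) (hs1 : ∑' k, ‖a k‖ ≤ 1 / n)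
    (hq : ∀ x : ℝ, q x = qL x + ∑' k : ℤ, a k * ee (k * x)) (x : ℝ) :
    ‖gE q v n x - gE qL v n x‖ ≤ 2 * KD C B / n ^ 2 * ∑' k, ‖a k‖ := by
  have h1 := d1.Pq_diff hs hs1 hq x
  have h2 := d2.Pq_diff hs hs1 hq x
  rw [gE_eq, gE_eq]
  have e : (Pq q (bp v x) (ep v (((-1 : ℝ) : ℂ) / n) x) -
      Pq q (bp v x) (ep v (((1 : ℝ) : ℂ) / n) x)) -
      (Pq qL (bp v x) (ep v (((-1 : ℝ) : ℂ) / n) x) - Pq qL (bp v x) (ep v (((1 : ℝ) : ℂ) / n) x)) =
      (Pq q (bp v x) (ep v (((-1 : ℝ) : ℂ) / n) x) -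
        Pq qL (bp v x) (ep v (((-1 : ℝ) : ℂ) / n) x)) -
      (Pq q (bp v x) (ep v (((1 : ℝ) : ℂ) / n) x) -
        Pq qL (bp v x) (ep v (((1 : ℝ) : ℂ) / n) x)) := by ring
  rw [e]
  refine (norm_sub_le _ _).trans ((add_le_add h2 h1).trans (le_of_eq ?_))
  ring

end

end Crest.Agent.R102.LinA682
end
end

-- ▼ part R102/SumB_602
section

/-!
Row 102, part (A), LeafSUM: the conjuncts with exponentials (helper602).
-/

set_option autoImplicit false

open Set Filter Topology Metric Complex MeasureTheory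
open scoped Real ContDiff ComplexConjugate

noncomputable section

namespace Crest.Agent.R102.Sum602

open Crest.Agent.R102.A929

/-- two sided geometric sum. -/
lemma geo {s : ℝ} (hs : 0 < s) :
    Summable (fun k : ℤ => Real.exp (-(s * |(k : ℝ)|))) ∧
      ∑' k : ℤ, Real.exp (-(s * |(k : ℝ)|)) ≤ 1 + 2 / s := by
  set r := Real.exp (-s) with hr
  have hr0 : 0 < r := Real.exp_pos _
  have hr1 : r < 1 := by rw [hr]; simpa using hs
  have h1 : HasSum (fun n : ℕ => Real.exp (-(s * |((n : ℤ) : ℝ)|))) (1 - r)⁻¹ := by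
    have h := hasSum_geometric_of_lt_one hr0.le hr1
    have e : (fun n : ℕ => Real.exp (-(s * |((n : ℤ) : ℝ)|))) = fun n : ℕ => r ^ n := by
      funext n
      rw [hr, ← Real.exp_nat_mul, Int.cast_natCast, abs_of_nonneg (by positivity)]
      ring_nf
    rw [e]; exact h
  have h2 : HasSum (fun n : ℕ => Real.exp (-(s * |((-((n : ℤ) + 1) : ℤ) : ℝ)|)))
      (r * (1 - r)⁻¹) := by
    have h := (hasSum_geometric_of_lt_one hr0.le hr1).mul_left r
    have e : (fun n : ℕ => Real.exp (-(s * |((-((n : ℤ) + 1) : ℤ) : ℝ)|))) =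
        fun n : ℕ => r * r ^ n := by
      funext n
      rw [hr, ← Real.exp_nat_mul, ← Real.exp_add]
      push_cast
      rw [abs_neg, abs_of_nonneg (by positivity)]
      ring_nf
    rw [e]; exact h
  have h3 := HasSum.of_nat_of_neg_add_one (f := fun k : ℤ => Real.exp (-(s * |(k : ℝ)|))) h1 h2
  refine ⟨h3.summable, ?_⟩
  rw [h3.tsum_eq]
  have h4 : (1 - r)⁻¹ + r * (1 - r)⁻¹ = 1 + 2 * (r / (1 - r)) := by
    have : 1 - r ≠ 0 := by linarith
    field_simp; ring
  rw [h4]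
  have h5 : r / (1 - r) ≤ 1 / s := by
    rw [div_le_div_iff₀ (by linarith) hs]
    have h6 : s + 1 ≤ Real.exp s := Real.add_one_le_exp s
    have h7 : r * Real.exp s = 1 := by rw [hr, ← Real.exp_add]; simp
    nlinarith
  have : 2 / s = 2 * (1 / s) := by ring
  rw [this]; linarith

/-- shifted two sided geometric sum. -/
lemma geo_shift {s : ℝ} (hs : 0 < s) (j : ℤ) :
    Summable (fun k : ℤ => Real.exp (-(s * |(k : ℝ) - j|))) ∧
      ∑' k : ℤ, Real.exp (-(s * |(k : ℝ) - j|)) ≤ 1 + 2 / s := by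
  obtain ⟨h1, h2⟩ := geo hs
  have he : (fun k : ℤ => Real.exp (-(s * |(k : ℝ) - j|)))
      = (fun k : ℤ => Real.exp (-(s * |(k : ℝ)|))) ∘ (Equiv.subRight j) := by
    funext k; simp
  constructor
  · rw [he]; exact (Equiv.subRight j).summable_iff.2 h1
  · rw [he]
    simp only [Function.comp_def]
    rw [(Equiv.subRight j).tsum_eq (fun k : ℤ => Real.exp (-(s * |(k : ℝ)|)))]
    exact h2

section

variable {α : ℝ} {N n : ℕ} {a : ℤ → ℂ} {G : ℝ}

lemma om_pos (k : ℤ) : 0 < om α N k := Real.exp_pos _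

lemma G_nonneg (h : WB α N G a) : 0 ≤ G := by
  refine le_trans ?_ (h 0)
  have := om_pos (α := α) (N := N) 0
  positivity

/-- `2 π η = (α min(n,N) + 16 log n) / n`. -/
lemma two_pi_etan (hn : 1 ≤ n) :
    2 * π * etan α N n = (α * min (n : ℝ) N + 16 * Real.log n) / n := by
  have hn' : (n : ℝ) ≠ 0 := by positivity
  unfold etan
  field_simp

lemma om_n : om α N n = Real.exp (α * min (n : ℝ) N) := by
  unfold om
  rw [Int.cast_natCast, abs_of_nonneg (by positivity)]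

lemma log_one_le (hn : 3 ≤ n) : 1 ≤ Real.log n := by
  have h3 : (3 : ℝ) ≤ n := by exact_mod_cast hn
  rw [Real.le_log_iff_exp_le (by linarith)]
  exact (Real.exp_one_lt_d9.le.trans (by norm_num)).trans h3

lemma log_le_self' (hn : 1 ≤ n) : Real.log n ≤ n := by
  have h3 : (1 : ℝ) ≤ n := by exact_mod_cast hn
  have := Real.log_le_sub_one_of_pos (show (0:ℝ) < n by linarith)
  linarith

lemma exp_16log (hn : 1 ≤ n) : Real.exp (16 * Real.log n) = (n : ℝ) ^ 16 := by
  have h3 : (0 : ℝ) < n := by exact_mod_cast hn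
  rw [show (16 : ℝ) * Real.log n = (16 : ℕ) * Real.log n by norm_num, Real.exp_nat_mul,
    Real.exp_log h3]

lemma min_nonneg' : 0 ≤ min (n : ℝ) N := le_min (by positivity) (by positivity)

/-- key weight inequality. -/
lemma weight (hα : 0 ≤ α) (hn : 1 ≤ n) (k : ℤ) :
    (om α N k)⁻¹ * Real.exp (-(2 * π * etan α N n * |(n : ℝ) - k|)) ≤
      (om α N n)⁻¹ * Real.exp (-(16 * Real.log n / n * |(k : ℝ) - (n : ℤ)|)) := by
  have hn0 : (0 : ℝ) < n := by exact_mod_cast hn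
  rw [two_pi_etan hn, om_n, om, ← Real.exp_neg, ← Real.exp_neg, ← Real.exp_add, ← Real.exp_add]
  apply Real.exp_le_exp.2
  rw [show |(n : ℝ) - k| = |(k : ℝ) - (n : ℤ)| by rw [abs_sub_comm]; norm_num]
  set D := |(k : ℝ) - (n : ℤ)| with hD
  set m := min (n : ℝ) N with hm
  have hm0 : 0 ≤ m := min_nonneg'
  have key : m ≤ min |(k : ℝ)| N + m * D / n := by
    have hD0 : 0 ≤ D := abs_nonneg _
    by_cases hk : (n : ℝ) ≤ |(k : ℝ)|
    · have : m ≤ min |(k : ℝ)| N := min_le_min hk le_rfl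
      have : 0 ≤ m * D / n := by positivity
      linarith
    · push Not at hk
      have h1 : (n : ℝ) - |(k : ℝ)| ≤ D := by
        rw [hD, abs_sub_comm]
        have := abs_sub_abs_le_abs_sub ((n : ℤ) : ℝ) (k : ℝ)
        rw [show |((n : ℤ) : ℝ)| = n by rw [Int.cast_natCast, abs_of_nonneg hn0.le]] at this
        exact this
      have h2 : m * |(k : ℝ)| / n ≤ min |(k : ℝ)| N := by
        apply le_min
        · rw [div_le_iff₀ hn0, mul_comm]
          exact mul_le_mul_of_nonneg_left (min_le_left _ _) (abs_nonneg _)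
        · rw [div_le_iff₀ hn0]
          exact mul_le_mul (min_le_right _ _) hk.le (abs_nonneg _) (by positivity)
      have h3 : m * ((n : ℝ) - |(k : ℝ)|) / n ≤ m * D / n := by gcongr
      have h4 : m * ((n : ℝ) - |(k : ℝ)|) / n = m - m * |(k : ℝ)| / n := by field_simp
      linarith
  have h5 : α * m ≤ α * min |(k : ℝ)| N + α * (m * D / n) := by
    rw [← mul_add]; exact mul_le_mul_of_nonneg_left key hα
  have h6 : (α * m + 16 * Real.log n) / n * D = α * (m * D / n) + 16 * Real.log n / n * D := by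
    field_simp
  rw [h6]
  linarith

/-- size of the high modes. -/
lemma aHi_le (h : WB α N G a) (k : ℤ) :
    ‖aHi a n k‖ ≤ G * (om α N k)⁻¹ * ((1 + |(k : ℝ)|) ^ 15)⁻¹ := by
  have hG := G_nonneg h
  have ho := om_pos (α := α) (N := N) k
  have hp : 0 < (1 + |(k : ℝ)|) ^ 15 := by positivity
  unfold aHi
  split_ifs with hk
  · rw [norm_zero]; positivity
  · rw [mul_assoc, ← mul_inv, ← div_eq_mul_inv, le_div_iff₀ (by positivity)]
    calc ‖a k‖ * (om α N k * (1 + |(k : ℝ)|) ^ 15) = om α N k * (1 + |(k : ℝ)|) ^ 15 * ‖a k‖ := by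
          ring
      _ ≤ G := h k

lemma aHi_zero {k : ℤ} (hk : |k| ≤ ((n / 2 : ℕ) : ℤ)) : ‖aHi a n k‖ = 0 := by
  unfold aHi; rw [if_pos hk, norm_zero]

lemma half_lt {k : ℤ} (hk : ¬ |k| ≤ ((n / 2 : ℕ) : ℤ)) : (n : ℝ) / 2 ≤ 1 + |(k : ℝ)| := by
  push Not at hk
  have h1 : ((n / 2 : ℕ) : ℤ) + 1 ≤ |k| := hk
  have h2 : (n : ℤ) ≤ 2 * ((n / 2 : ℕ) : ℤ) + 1 := by omega
  have h3 : ((n : ℤ) : ℝ) ≤ 2 * |(k : ℝ)| := by
    have : (n : ℤ) ≤ 2 * |k| := by linarith
    exact_mod_cast this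
  rw [Int.cast_natCast] at h3
  linarith

/-- pointwise bound of the weighted high modes. -/
lemma term_le (h : WB α N G a) (hα : 0 ≤ α) (hn : 1 ≤ n) (k : ℤ) :
    ‖aHi a n k‖ * Real.exp (-(2 * π * etan α N n * |(n : ℝ) - k|)) ≤
      G * 2 ^ 15 / (om α N n * (n : ℝ) ^ 15) *
        Real.exp (-(16 * Real.log n / n * |(k : ℝ) - (n : ℤ)|)) := by
  have hG := G_nonneg h
  have hn0 : (0 : ℝ) < n := by exact_mod_cast hn
  have ho := om_pos (α := α) (N := N) (n : ℤ)
  by_cases hk : |k| ≤ ((n / 2 : ℕ) : ℤ)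
  · rw [aHi_zero hk, zero_mul]; positivity
  have h1 := half_lt hk
  have h2 := aHi_le (n := n) h k
  have h3 := weight (N := N) hα hn k
  have h4 : ((1 + |(k : ℝ)|) ^ 15)⁻¹ ≤ 2 ^ 15 / (n : ℝ) ^ 15 := by
    rw [← div_pow, ← inv_pow]
    apply pow_le_pow_left₀ (by positivity)
    rw [inv_le_comm₀ (by positivity) (by positivity), inv_div]
    exact h1
  calc ‖aHi a n k‖ * Real.exp (-(2 * π * etan α N n * |(n : ℝ) - k|))
      ≤ (G * (om α N k)⁻¹ * ((1 + |(k : ℝ)|) ^ 15)⁻¹) *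
          Real.exp (-(2 * π * etan α N n * |(n : ℝ) - k|)) := by gcongr
    _ = G * ((1 + |(k : ℝ)|) ^ 15)⁻¹ * ((om α N k)⁻¹ *
          Real.exp (-(2 * π * etan α N n * |(n : ℝ) - k|))) := by ring
    _ ≤ G * (2 ^ 15 / (n : ℝ) ^ 15) * ((om α N n)⁻¹ *
          Real.exp (-(16 * Real.log n / n * |(k : ℝ) - (n : ℤ)|))) := by
        apply mul_le_mul _ h3 _ (by positivity)
        · exact mul_le_mul_of_nonneg_left h4 hG
        · have := om_pos (α := α) (N := N) k
          positivity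
    _ = _ := by field_simp

/-- conjunct (3) of `LeafSUM`, `C = 2 ^ 16 G`. -/
theorem near (h : WB α N G a) (hα : 0 ≤ α) (hn : 3 ≤ n) :
    (∑' k : ℤ, if |k| ≤ 2 * n then
        ‖aHi a n k‖ * Real.exp (-(2 * π * etan α N n * |(n : ℝ) - k|)) else 0) ≤
      (2 ^ 16 * G) / (om α N n * (n : ℝ) ^ 14 * Real.log n) := by
  have hG := G_nonneg h
  have hn1 : 1 ≤ n := by omega
  have hn0 : (0 : ℝ) < n := by exact_mod_cast hn1
  have ho := om_pos (α := α) (N := N) (n : ℤ)
  have hlog := log_one_le hn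
  have hlog2 := log_le_self' hn1
  have hs : 0 < 16 * Real.log n / n := by positivity
  obtain ⟨g1, g2⟩ := geo_shift hs (n : ℤ)
  set f : ℤ → ℝ := fun k => if |k| ≤ 2 * n then
        ‖aHi a n k‖ * Real.exp (-(2 * π * etan α N n * |(n : ℝ) - k|)) else 0 with hf
  set A := G * 2 ^ 15 / (om α N n * (n : ℝ) ^ 15) with hA
  have hA0 : 0 ≤ A := by positivity
  have hle : ∀ k, f k ≤ A * Real.exp (-(16 * Real.log n / n * |(k : ℝ) - (n : ℤ)|)) := by
    intro k
    simp only [hf]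
    split_ifs
    · exact term_le h hα hn1 k
    · positivity
  have hf0 : ∀ k, 0 ≤ f k := by
    intro k; simp only [hf]; split_ifs <;> positivity
  have hsum : Summable f := Summable.of_nonneg_of_le hf0 hle (g1.mul_left A)
  calc ∑' k, f k ≤ ∑' k : ℤ, A * Real.exp (-(16 * Real.log n / n * |(k : ℝ) - (n : ℤ)|)) :=
        hsum.tsum_le_tsum hle (g1.mul_left A)
    _ = A * ∑' k : ℤ, Real.exp (-(16 * Real.log n / n * |(k : ℝ) - (n : ℤ)|)) := tsum_mul_left
    _ ≤ A * (1 + 2 / (16 * Real.log n / n)) := mul_le_mul_of_nonneg_left g2 hA0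
    _ ≤ A * (2 * n / Real.log n) := by
        apply mul_le_mul_of_nonneg_left _ hA0
        have e1 : 1 ≤ n / Real.log n := by
          rw [le_div_iff₀ (by linarith), one_mul]; exact hlog2
        have e2 : 2 / (16 * Real.log n / n) = (1 / 8) * (n / Real.log n) := by
          field_simp; norm_num
        have e3 : 2 * (n : ℝ) / Real.log n = 2 * (n / Real.log n) := by ring
        rw [e2, e3]; linarith
    _ = _ := by
        rw [hA]; field_simp

/-- conjunct (4) of `LeafSUM`. -/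
theorem middle (h : WB α N G a) (hα : 0 ≤ α) (hn : 3 ≤ n) :
    (∑' k : ℤ, if 2 * n < |k| ∧ |k| ≤ n ^ 2 then
        ‖aHi a n k‖ * Real.exp (-(2 * π * etan α N n * |(n : ℝ) - k|)) else 0) ≤
      (G * ∑' k : ℤ, 1 / (k : ℝ) ^ 2) / (om α N n * (n : ℝ) ^ 16) := by
  have hG := G_nonneg h
  have hn1 : 1 ≤ n := by omega
  have hn0 : (0 : ℝ) < n := by exact_mod_cast hn1
  have ho := om_pos (α := α) (N := N) (n : ℤ)
  have hlog := log_one_le hn
  have hS : Summable (fun k : ℤ => 1 / (k : ℝ) ^ 2) := Real.summable_one_div_int_pow.2 (by norm_num)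
  set f : ℤ → ℝ := fun k => if 2 * n < |k| ∧ |k| ≤ n ^ 2 then
        ‖aHi a n k‖ * Real.exp (-(2 * π * etan α N n * |(n : ℝ) - k|)) else 0 with hf
  set A := G / (om α N n * (n : ℝ) ^ 16) with hA
  have hA0 : 0 ≤ A := by positivity
  have hle : ∀ k, f k ≤ A * (1 / (k : ℝ) ^ 2) := by
    intro k
    simp only [hf]
    split_ifs with hk
    · have hk1 : 2 * (n : ℝ) < |(k : ℝ)| := by exact_mod_cast hk.1
      have hk0 : 0 < |(k : ℝ)| := by linarith
      have h2 := aHi_le (n := n) h k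
      have h3 := weight (N := N) hα hn1 k
      have h4 : Real.exp (-(16 * Real.log n / n * |(k : ℝ) - (n : ℤ)|)) ≤ ((n : ℝ) ^ 16)⁻¹ := by
        rw [← exp_16log hn1, ← Real.exp_neg]
        apply Real.exp_le_exp.2
        apply neg_le_neg
        have h5 : (n : ℝ) ≤ |(k : ℝ) - (n : ℤ)| := by
          have := abs_sub_abs_le_abs_sub (k : ℝ) ((n : ℤ) : ℝ)
          rw [show |((n : ℤ) : ℝ)| = n by rw [Int.cast_natCast, abs_of_nonneg hn0.le]] at this
          linarith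
        calc 16 * Real.log n = 16 * Real.log n / n * n := by field_simp
          _ ≤ 16 * Real.log n / n * |(k : ℝ) - (n : ℤ)| := by gcongr
      have h6 : ((1 + |(k : ℝ)|) ^ 15)⁻¹ ≤ 1 / (k : ℝ) ^ 2 := by
        rw [one_div]
        apply inv_anti₀
        · rw [← sq_abs]; positivity
        · rw [← sq_abs]
          calc |(k : ℝ)| ^ 2 ≤ (1 + |(k : ℝ)|) ^ 2 := by gcongr; linarith
            _ ≤ (1 + |(k : ℝ)|) ^ 15 := pow_le_pow_right₀ (by linarith) (by norm_num)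
      calc ‖aHi a n k‖ * Real.exp (-(2 * π * etan α N n * |(n : ℝ) - k|))
          ≤ (G * (om α N k)⁻¹ * ((1 + |(k : ℝ)|) ^ 15)⁻¹) *
              Real.exp (-(2 * π * etan α N n * |(n : ℝ) - k|)) := by gcongr
        _ = G * ((1 + |(k : ℝ)|) ^ 15)⁻¹ * ((om α N k)⁻¹ *
              Real.exp (-(2 * π * etan α N n * |(n : ℝ) - k|))) := by ring
        _ ≤ G * (1 / (k : ℝ) ^ 2) * ((om α N n)⁻¹ * ((n : ℝ) ^ 16)⁻¹) := by
            apply mul_le_mul _ _ _ (by positivity)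
            · exact mul_le_mul_of_nonneg_left h6 hG
            · exact h3.trans (mul_le_mul_of_nonneg_left h4 (by positivity))
            · have := om_pos (α := α) (N := N) k
              positivity
        _ = A * (1 / (k : ℝ) ^ 2) := by rw [hA]; field_simp
    · positivity
  have hf0 : ∀ k, 0 ≤ f k := by
    intro k; simp only [hf]; split_ifs <;> positivity
  have hsum : Summable f := Summable.of_nonneg_of_le hf0 hle (hS.mul_left A)
  calc ∑' k, f k ≤ ∑' k : ℤ, A * (1 / (k : ℝ) ^ 2) := hsum.tsum_le_tsum hle (hS.mul_left A)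
    _ = A * ∑' k : ℤ, 1 / (k : ℝ) ^ 2 := tsum_mul_left
    _ = _ := by rw [hA]; ring

/-- conjunct (8) of `LeafSUM`, `C = 1`. -/
theorem last (hn : 1 ≤ n) :
    Real.exp (-(2 * π * etan α N n * n)) = 1 / (om α N n * (n : ℝ) ^ 16) := by
  have hn0 : (0 : ℝ) < n := by exact_mod_cast hn
  rw [two_pi_etan hn, div_mul_cancel₀ _ hn0.ne', Real.exp_neg, Real.exp_add, exp_16log hn, om_n,
    one_div]

/-- conjunct (7) of `LeafSUM`, `C = 16 e ^ 17`. -/
theorem expsq (hα : 0 ≤ α) (hα1 : α ≤ 1) (hn : 3 ≤ n) :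
    (∑' k : ℤ, if |k| ≤ ((n / 2 : ℕ) : ℤ) then 0 else
      Real.exp (-(2 * π * etan α N n * |(k : ℝ)|))) ^ 2 ≤
      (16 * Real.exp 17) * (n : ℝ) ^ 2 / (om α N n * (n : ℝ) ^ 16) := by
  have hn1 : 1 ≤ n := by omega
  have hn0 : (0 : ℝ) < n := by exact_mod_cast hn1
  have ho := om_pos (α := α) (N := N) (n : ℤ)
  have hlog := log_one_le hn
  have hlog2 := log_le_self' hn1
  set s := 2 * π * etan α N n with hs
  have hseq : s = (α * min (n : ℝ) N + 16 * Real.log n) / n := two_pi_etan hn1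
  have hm0 : 0 ≤ min (n : ℝ) N := min_nonneg'
  have hs1 : 16 / n ≤ s := by
    rw [hseq]
    gcongr
    nlinarith
  have hs0 : 0 < s := lt_of_lt_of_le (by positivity) hs1
  have hs2 : s ≤ 17 := by
    rw [hseq, div_le_iff₀ hn0]
    have : α * min (n : ℝ) N ≤ 1 * n := mul_le_mul hα1 (min_le_left _ _) hm0 (by norm_num)
    nlinarith
  set m : ℤ := ((n / 2 : ℕ) : ℤ) with hm
  obtain ⟨g1, g2⟩ := geo_shift hs0 m
  obtain ⟨g3, g4⟩ := geo_shift hs0 (-m)
  set f : ℤ → ℝ := fun k => if |k| ≤ m then 0 else Real.exp (-(s * |(k : ℝ)|)) with hf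
  have hle : ∀ k, f k ≤ Real.exp (-(s * m)) * (Real.exp (-(s * |(k : ℝ) - m|)) +
      Real.exp (-(s * |(k : ℝ) - ((-m : ℤ) : ℝ)|))) := by
    intro k
    simp only [hf]
    split_ifs with hk
    · positivity
    · push Not at hk
      rw [mul_add, ← Real.exp_add, ← Real.exp_add]
      rcases le_or_gt 0 k with h0 | h0
      · have hk' : (m : ℝ) < k := by
          rw [abs_of_nonneg h0] at hk; exact_mod_cast hk
        have : Real.exp (-(s * |(k : ℝ)|)) = Real.exp (-(s * m) + -(s * |(k : ℝ) - m|)) := by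
          congr 1
          rw [abs_of_nonneg (by exact_mod_cast h0 : (0:ℝ) ≤ k), abs_of_pos (by linarith)]; ring
        rw [this]
        have := Real.exp_pos (-(s * m) + -(s * |(k : ℝ) - ((-m : ℤ) : ℝ)|))
        linarith
      · have hk' : (k : ℝ) < -m := by
          rw [abs_of_neg h0] at hk
          have : k < -m := by linarith
          exact_mod_cast this
        have : Real.exp (-(s * |(k : ℝ)|)) =
            Real.exp (-(s * m) + -(s * |(k : ℝ) - ((-m : ℤ) : ℝ)|)) := by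
          congr 1
          push_cast
          rw [abs_of_neg (by exact_mod_cast h0 : (k:ℝ) < 0), abs_of_neg (by linarith)]; ring
        rw [this]
        have := Real.exp_pos (-(s * m) + -(s * |(k : ℝ) - m|))
        linarith
  have hf0 : ∀ k, 0 ≤ f k := by
    intro k; simp only [hf]; split_ifs <;> positivity
  have gs := (g1.add g3).mul_left (Real.exp (-(s * m)))
  have hsum : Summable f := Summable.of_nonneg_of_le hf0 hle gs
  have hT : ∑' k, f k ≤ Real.exp (-(s * m)) * (4 * n) := by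
    calc ∑' k, f k ≤ ∑' k : ℤ, Real.exp (-(s * m)) * (Real.exp (-(s * |(k : ℝ) - m|)) +
          Real.exp (-(s * |(k : ℝ) - ((-m : ℤ) : ℝ)|))) := hsum.tsum_le_tsum hle gs
      _ = Real.exp (-(s * m)) * (∑' k : ℤ, Real.exp (-(s * |(k : ℝ) - m|)) +
          ∑' k : ℤ, Real.exp (-(s * |(k : ℝ) - ((-m : ℤ) : ℝ)|))) := by
            rw [tsum_mul_left, g1.tsum_add g3]
      _ ≤ Real.exp (-(s * m)) * ((1 + 2 / s) + (1 + 2 / s)) := by gcongr
      _ ≤ Real.exp (-(s * m)) * (4 * n) := by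
          apply mul_le_mul_of_nonneg_left _ (Real.exp_pos _).le
          have h3 : (3 : ℝ) ≤ n := by exact_mod_cast hn
          have : 2 / s ≤ n / 8 := by
            rw [div_le_iff₀ hs0]
            calc (2 : ℝ) = n / 8 * (16 / n) := by field_simp; norm_num
              _ ≤ n / 8 * s := by gcongr
          linarith
  have hT0 : 0 ≤ ∑' k, f k := tsum_nonneg hf0
  calc (∑' k, f k) ^ 2 ≤ (Real.exp (-(s * m)) * (4 * n)) ^ 2 := pow_le_pow_left₀ hT0 hT 2
    _ = 16 * (n : ℝ) ^ 2 * Real.exp (-(2 * s * m)) := by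
        rw [mul_pow, ← Real.exp_nat_mul]; push_cast; ring_nf
    _ ≤ 16 * (n : ℝ) ^ 2 * (Real.exp 17 * Real.exp (-(s * n))) := by
        apply mul_le_mul_of_nonneg_left _ (by positivity)
        rw [← Real.exp_add]
        apply Real.exp_le_exp.2
        have h2 : (n : ℤ) ≤ 2 * m + 1 := by omega
        have h2' : (n : ℝ) ≤ 2 * m + 1 := by exact_mod_cast h2
        nlinarith
    _ = _ := by
        rw [hs, last hn1]; field_simp

end

end Crest.Agent.R102.Sum602
end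
end

-- ▼ part R102/SumC_602
section

/-!
Row 102, part (A), LeafSUM: remaining conjuncts and assembly (helper602).
-/

set_option autoImplicit false

open Set Filter Topology Metric Complex MeasureTheory
open scoped Real ContDiff ComplexConjugate

noncomputable section

namespace Crest.Agent.R102.Sum602

open Crest.Agent.R102.A929

/-- the constant `∑ 1/k²`. -/
def SS : ℝ := ∑' k : ℤ, 1 / (k : ℝ) ^ 2

lemma SS_summable : Summable (fun k : ℤ => 1 / (k : ℝ) ^ 2) :=
  Real.summable_one_div_int_pow.2 (by norm_num)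

lemma SS_nonneg : 0 ≤ SS := tsum_nonneg fun k => by positivity

section

variable {α : ℝ} {N n : ℕ} {a : ℤ → ℂ} {G : ℝ}

lemma sum_le {f : ℤ → ℝ} {A : ℝ} (hf : ∀ k, 0 ≤ f k) (hle : ∀ k, f k ≤ A * (1 / (k : ℝ) ^ 2)) :
    Summable f ∧ ∑' k, f k ≤ A * SS := by
  have hs : Summable f := Summable.of_nonneg_of_le hf hle (SS_summable.mul_left A)
  refine ⟨hs, ?_⟩
  calc ∑' k, f k ≤ ∑' k : ℤ, A * (1 / (k : ℝ) ^ 2) := hs.tsum_le_tsum hle (SS_summable.mul_left A)
    _ = A * SS := tsum_mul_left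

lemma pow15 {M : ℝ} (k : ℤ) (hk : (k : ℝ) ≠ 0) (hM : 0 < M) (h : M ≤ 1 + |(k : ℝ)|) :
    ((1 + |(k : ℝ)|) ^ 15)⁻¹ ≤ (M ^ 13)⁻¹ * (1 / (k : ℝ) ^ 2) := by
  rw [one_div, ← mul_inv]
  apply inv_anti₀
  · positivity
  · rw [← sq_abs (k : ℝ)]
    calc M ^ 13 * |(k : ℝ)| ^ 2 ≤ (1 + |(k : ℝ)|) ^ 13 * (1 + |(k : ℝ)|) ^ 2 := by
          gcongr; linarith
      _ = (1 + |(k : ℝ)|) ^ 15 := by ring

lemma om_ge_one (hα : 0 ≤ α) (k : ℤ) : 1 ≤ om α N k := by
  unfold om
  exact Real.one_le_exp (mul_nonneg hα (le_min (abs_nonneg _) (by positivity)))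

/-- pointwise: half weight. -/
lemma aHi_le_half (h : WB α N G a) (hα : 0 ≤ α) (hn : 1 ≤ n) (k : ℤ) :
    ‖aHi a n k‖ ≤ G * Real.exp (-(α * min (n : ℝ) N / 2)) * (2 ^ 13 / (n : ℝ) ^ 13) *
      (1 / (k : ℝ) ^ 2) := by
  have hG := G_nonneg h
  have hn0 : (0 : ℝ) < n := by exact_mod_cast hn
  by_cases hk : |k| ≤ ((n / 2 : ℕ) : ℤ)
  · rw [aHi_zero hk]; positivity
  have h1 := half_lt hk
  have hk0 : (k : ℝ) ≠ 0 := by
    intro h0
    apply hk
    have : k = 0 := by exact_mod_cast h0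
    rw [this, abs_zero]; positivity
  have h2 := aHi_le (n := n) h k
  have h3 := pow15 (M := (n : ℝ) / 2) k hk0 (by positivity) h1
  have h5 : (om α N k)⁻¹ ≤ Real.exp (-(α * min (n : ℝ) N / 2)) := by
    rw [om, ← Real.exp_neg]
    apply Real.exp_le_exp.2
    apply neg_le_neg
    have hh : (n : ℝ) ≤ 2 * |(k : ℝ)| := by
      push Not at hk
      have h1 : ((n / 2 : ℕ) : ℤ) + 1 ≤ |k| := hk
      have h2 : (n : ℤ) ≤ 2 * ((n / 2 : ℕ) : ℤ) + 1 := by omega
      have : (n : ℤ) ≤ 2 * |k| := by linarith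
      exact_mod_cast this
    have hmin : min (n : ℝ) N / 2 ≤ min |(k : ℝ)| N := by
      apply le_min
      · have := min_le_left (n : ℝ) N; linarith
      · have := min_le_right (n : ℝ) N
        have h0 : (0 : ℝ) ≤ N := by positivity
        linarith
    calc α * min (n : ℝ) N / 2 = α * (min (n : ℝ) N / 2) := by ring
      _ ≤ α * min |(k : ℝ)| N := mul_le_mul_of_nonneg_left hmin hα
  calc ‖aHi a n k‖ ≤ G * (om α N k)⁻¹ * ((1 + |(k : ℝ)|) ^ 15)⁻¹ := h2
    _ ≤ G * Real.exp (-(α * min (n : ℝ) N / 2)) * ((((n : ℝ) / 2) ^ 13)⁻¹ * (1 / (k : ℝ) ^ 2)) := by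
        gcongr
    _ = _ := by rw [div_pow, inv_div]; ring

/-- conjuncts (1), (2), (6) of `LeafSUM`. -/
theorem sumHi (h : WB α N G a) (hα : 0 ≤ α) (hn : 1 ≤ n) :
    Summable (fun k => ‖aHi a n k‖) ∧
    (∑' k, ‖aHi a n k‖) ≤ (G * 2 ^ 13 * SS) / (n : ℝ) ^ 13 ∧
    (∑' k, ‖aHi a n k‖) ^ 2 ≤ (G * 2 ^ 13 * SS) ^ 2 / (om α N n * (n : ℝ) ^ 16) := by
  have hG := G_nonneg h
  have hS := SS_nonneg
  have hn0 : (0 : ℝ) < n := by exact_mod_cast hn
  have hn1 : (1 : ℝ) ≤ n := by exact_mod_cast hn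
  obtain ⟨h1, h2⟩ := sum_le (fun k => norm_nonneg _) (aHi_le_half (n := n) h hα hn)
  have hE : Real.exp (-(α * min (n : ℝ) N / 2)) ≤ 1 := by
    apply Real.exp_le_one_iff.2
    have := mul_nonneg hα (min_nonneg' (n := n) (N := N))
    linarith
  refine ⟨h1, ?_, ?_⟩
  · refine h2.trans ?_
    calc G * Real.exp (-(α * min (n : ℝ) N / 2)) * (2 ^ 13 / (n : ℝ) ^ 13) * SS
        ≤ G * 1 * (2 ^ 13 / (n : ℝ) ^ 13) * SS := by gcongr
      _ = _ := by ring
  · have h0 : 0 ≤ ∑' k, ‖aHi a n k‖ := tsum_nonneg fun k => norm_nonneg _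
    calc (∑' k, ‖aHi a n k‖) ^ 2
        ≤ (G * Real.exp (-(α * min (n : ℝ) N / 2)) * (2 ^ 13 / (n : ℝ) ^ 13) * SS) ^ 2 :=
          pow_le_pow_left₀ h0 h2 2
      _ = (G * 2 ^ 13 * SS) ^ 2 * (Real.exp (-(α * min (n : ℝ) N / 2)) ^ 2 / (n : ℝ) ^ 26) := by
          ring
      _ = (G * 2 ^ 13 * SS) ^ 2 * (1 / (om α N n * (n : ℝ) ^ 26)) := by
          rw [← Real.exp_nat_mul, om_n,
            show ((2 : ℕ) : ℝ) * -(α * min (n : ℝ) N / 2) = -(α * min (n : ℝ) N) by push_cast; ring,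
            Real.exp_neg]
          field_simp
      _ ≤ (G * 2 ^ 13 * SS) ^ 2 * (1 / (om α N n * (n : ℝ) ^ 16)) := by
          have ho := om_pos (α := α) (N := N) (n : ℤ)
          apply mul_le_mul_of_nonneg_left _ (by positivity)
          apply one_div_le_one_div_of_le (by positivity)
          exact mul_le_mul_of_nonneg_left (pow_le_pow_right₀ hn1 (by norm_num)) ho.le
      _ = _ := by ring

/-- conjunct (5) of `LeafSUM`. -/
theorem far (h : WB α N G a) (hα : 0 ≤ α) (hn : 1 ≤ n) :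
    (∑' k : ℤ, if (n : ℤ) ^ 2 < |k| then ‖aHi a n k‖ else 0) ≤
      (G * SS) / (om α N n * (n : ℝ) ^ 16) := by
  have hG := G_nonneg h
  have hS := SS_nonneg
  have hn0 : (0 : ℝ) < n := by exact_mod_cast hn
  have hn1 : (1 : ℝ) ≤ n := by exact_mod_cast hn
  have ho := om_pos (α := α) (N := N) (n : ℤ)
  have := sum_le (f := fun k : ℤ => if (n : ℤ) ^ 2 < |k| then ‖aHi a n k‖ else 0)
    (A := G / (om α N n * (n : ℝ) ^ 16)) (fun k => by positivity) ?_
  · refine this.2.trans (le_of_eq ?_); ring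
  intro k
  show (if (n : ℤ) ^ 2 < |k| then ‖aHi a n k‖ else 0) ≤ _
  split_ifs with hk
  · have hk1 : (n : ℝ) ^ 2 < |(k : ℝ)| := by exact_mod_cast hk
    have hk0 : (k : ℝ) ≠ 0 := by
      intro h0; rw [h0, abs_zero] at hk1
      have : 0 ≤ (n : ℝ) ^ 2 := by positivity
      linarith
    have h2 := aHi_le (n := n) h k
    have h3 := pow15 (M := (n : ℝ) ^ 2) k hk0 (by positivity) (by linarith)
    have hnk : (n : ℝ) ≤ |(k : ℝ)| := by nlinarith
    have h5 : (om α N k)⁻¹ ≤ (om α N n)⁻¹ := by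
      apply inv_anti₀ ho
      rw [om_n, om]
      apply Real.exp_le_exp.2
      exact mul_le_mul_of_nonneg_left (min_le_min hnk le_rfl) hα
    have h6 : (((n : ℝ) ^ 2) ^ 13)⁻¹ ≤ ((n : ℝ) ^ 16)⁻¹ := by
      apply inv_anti₀ (by positivity)
      rw [← pow_mul]
      exact pow_le_pow_right₀ hn1 (by norm_num)
    calc ‖aHi a n k‖ ≤ G * (om α N k)⁻¹ * ((1 + |(k : ℝ)|) ^ 15)⁻¹ := h2
      _ ≤ G * (om α N n)⁻¹ * (((n : ℝ) ^ 16)⁻¹ * (1 / (k : ℝ) ^ 2)) := by
          refine mul_le_mul (mul_le_mul_of_nonneg_left h5 hG) (h3.trans ?_) (by positivity)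
            (by positivity)
          exact mul_le_mul_of_nonneg_right h6 (by positivity)
      _ = _ := by field_simp
  · positivity

end

/-- LEAF SUM. -/
theorem leafSUM : LeafSUM := by
  intro G
  have hS := SS_nonneg
  set C := max (max (2 ^ 16 * |G|) (|G| * SS)) (max ((G * 2 ^ 13 * SS) ^ 2) (16 * Real.exp 17)) with hC
  have c1 : 2 ^ 16 * |G| ≤ C := (le_max_left _ _).trans (le_max_left _ _)
  have c2 : |G| * SS ≤ C := (le_max_right _ _).trans (le_max_left _ _)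
  have c3 : (G * 2 ^ 13 * SS) ^ 2 ≤ C := (le_max_left _ _).trans (le_max_right _ _)
  have c4 : 16 * Real.exp 17 ≤ C := (le_max_right _ _).trans (le_max_right _ _)
  have c5 : 1 ≤ C := by
    refine le_trans ?_ c4
    have := Real.one_le_exp (show (0:ℝ) ≤ 17 by norm_num)
    linarith
  obtain ⟨n₀, hn₀⟩ := exists_nat_ge (|G| * 2 ^ 13 * SS)
  refine ⟨C, max 3 n₀, by linarith, ?_⟩
  intro α N n a hn hα hα1 h
  have hn3 : 3 ≤ n := (le_max_left _ _).trans hn
  have hn1 : 1 ≤ n := by omega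
  have hn0' : (n₀ : ℝ) ≤ n := by exact_mod_cast (le_max_right _ _).trans hn
  have hn0 : (0 : ℝ) < n := by exact_mod_cast hn1
  have hnR : (1 : ℝ) ≤ n := by exact_mod_cast hn1
  have hG := G_nonneg h
  rw [abs_of_nonneg hG] at c1 c2 hn₀
  have ho := om_pos (α := α) (N := N) (n : ℤ)
  have hlog := log_one_le hn3
  obtain ⟨s1, s2, s6⟩ := sumHi (n := n) h hα hn1
  have hD : 0 < om α N n * (n : ℝ) ^ 16 := by positivity
  refine ⟨s1, ?_, ?_, ?_, ?_, ?_, ?_, ?_⟩
  · refine s2.trans ?_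
    rw [div_le_div_iff₀ (by positivity) hn0]
    calc G * 2 ^ 13 * SS * n ≤ n * n := by gcongr; linarith
      _ = (n : ℝ) ^ 2 := by ring
      _ ≤ (n : ℝ) ^ 13 := pow_le_pow_right₀ hnR (by norm_num)
      _ = 1 * (n : ℝ) ^ 13 := by ring
  · refine (near h hα hn3).trans ?_
    have : 0 < om α N n * (n : ℝ) ^ 14 * Real.log n := by
      have : 0 < Real.log n := by linarith
      positivity
    exact div_le_div_of_nonneg_right c1 this.le
  · exact (middle h hα hn3).trans (div_le_div_of_nonneg_right c2 hD.le)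
  · exact (far h hα hn1).trans (div_le_div_of_nonneg_right c2 hD.le)
  · exact s6.trans (div_le_div_of_nonneg_right c3 hD.le)
  · refine (expsq hα hα1 hn3).trans (div_le_div_of_nonneg_right ?_ hD.le)
    exact mul_le_mul_of_nonneg_right c4 (by positivity)
  · rw [last hn1]
    exact div_le_div_of_nonneg_right c5 hD.le

end Crest.Agent.R102.Sum602
end
end

-- ▼ part R102/End0A_929
section

/-!
Row 102, part (A) (helper929): sharper forms of two leaves and the size of `EP q - EP qL`.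
-/

set_option autoImplicit false

open Set Filter Topology Metric Complex MeasureTheory
open scoped Real ContDiff

noncomputable section

namespace Crest.Agent.R102.A929

/-- sharp form of the square of the high sum -/
theorem sumHi26 {α : ℝ} {N n : ℕ} {a : ℤ → ℂ} {G : ℝ} (h : WB α N G a) (hα : 0 ≤ α)
    (hn : 1 ≤ n) :
    (∑' k, ‖aHi a n k‖) ^ 2 ≤ (G * 2 ^ 13 * Sum602.SS) ^ 2 / (om α N n * (n : ℝ) ^ 26) := by
  have hG := Sum602.G_nonneg h
  have hS := Sum602.SS_nonneg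
  have hn0 : (0 : ℝ) < n := by exact_mod_cast hn
  obtain ⟨h1, h2⟩ := Sum602.sum_le (fun k => norm_nonneg _) (Sum602.aHi_le_half (n := n) h hα hn)
  have h0 : 0 ≤ ∑' k, ‖aHi a n k‖ := tsum_nonneg fun k => norm_nonneg _
  calc (∑' k, ‖aHi a n k‖) ^ 2
      ≤ (G * Real.exp (-(α * min (n : ℝ) N / 2)) * (2 ^ 13 / (n : ℝ) ^ 13) * Sum602.SS) ^ 2 :=
        pow_le_pow_left₀ h0 h2 2
    _ = (G * 2 ^ 13 * Sum602.SS) ^ 2 * (Real.exp (-(α * min (n : ℝ) N / 2)) ^ 2 / (n : ℝ) ^ 26) := by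
        ring
    _ = (G * 2 ^ 13 * Sum602.SS) ^ 2 / (om α N n * (n : ℝ) ^ 26) := by
        rw [← Real.exp_nat_mul, Sum602.om_n,
          show ((2 : ℕ) : ℝ) * -(α * min (n : ℝ) N / 2) = -(α * min (n : ℝ) N) by push_cast; ring,
          Real.exp_neg]
        field_simp

/-- LEAF VAR with the sharp power of `n` -/
def LeafVAR4 : Prop :=
  ∀ (ρ C : ℝ), LocQ ρ C → ∀ (q : C(ℂ, ℂ)) (q1 q2 : ℂ → ℂ) (B ε₀ ε₁ A : ℝ) (M : ℝ → ℝ → ℝ),
    Sm q q1 q2 RR B → (∀ x : ℝ, (q x).im = 0) → (∀ x : ℝ, q (x + 1) = q x) →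
    0 < ε₀ → IsAct q ε₀ M → 0 < ε₁ → RStarP q ε₁ → 0 ≤ A →
    ∃ (K c : ℝ) (n₀ : ℕ), 0 < K ∧ 0 < c ∧ ∀ (n : ℕ) (S : ℝ → ℝ) (r : ℝ), n₀ ≤ n → 0 ≤ r →
      r ≤ c / n ^ 10 → Continuous S → (∀ t, S (t + 1) = S t + 1) →
      (∀ t, |S (t + 1 / n) - S t - 1 / n| ≤ A / (n : ℝ) ^ (5 / 2 : ℝ)) →
      (∀ t : ℝ, ‖EP q (S (t - 1 / n)) (S t) (S (t + 1 / n))‖ ≤ r) →
      ∃ A₀ : ℝ, ∀ t : ℝ,
        |(∑ i ∈ Finset.range n, M (S (t + i / n)) (S (t + (i + 1) / n))) - A₀| ≤ K * n ^ 4 * r ^ 2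

open Crest.Agent.R102.Var575 in
/-- **LEAF VAR**, sharp power (proof of 575) -/
theorem leafVAR4 : LeafVAR4 := by
  intro ρ C hL q q1 q2 B ε₀ ε₁ A M hS hq hper hε₀ hA hε₁ hR hA0
  have hB := hS.B_ge
  have hCX := CX_ge hB
  have hρ := hL.ρ_pos
  set m₀ : ℝ := min (min 1 (ρ / (2 * CX B))) ε₀ with hm₀
  have hm : 0 < m₀ := lt_min (lt_min one_pos (by positivity)) hε₀
  have hm1 : m₀ ≤ 1 := (min_le_left _ _).trans (min_le_left _ _)
  have hm2 : CX B * m₀ < ρ := by
    have h1 : m₀ ≤ ρ / (2 * CX B) := (min_le_left _ _).trans (min_le_right _ _)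
    calc CX B * m₀ ≤ CX B * (ρ / (2 * CX B)) := mul_le_mul_of_nonneg_left h1 (by linarith)
      _ = ρ / 2 := by field_simp
      _ < ρ := by linarith
  have hm3 : m₀ ≤ ε₀ := min_le_right _ _
  have hV := varData_of hL hS hq hper hA hε₁ hR hm hm1 hm2 hm3
  obtain ⟨n₀, hn₀⟩ := exists_nat_ge (max (max (2 / m₀) (768 * CP C B)) (max (2 / ε₁) (max (8 * A) 1)))
  have b1 : 2 / m₀ ≤ n₀ := ((le_max_left _ _).trans (le_max_left _ _)).trans hn₀
  have b2 : 768 * CP C B ≤ n₀ := ((le_max_right _ _).trans (le_max_left _ _)).trans hn₀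
  have b3 : 2 / ε₁ ≤ n₀ := ((le_max_left _ _).trans (le_max_right _ _)).trans hn₀
  have b4 : 8 * A ≤ n₀ :=
    (((le_max_left _ _).trans (le_max_right _ _)).trans (le_max_right _ _)).trans hn₀
  have b5 : (1 : ℝ) ≤ n₀ :=
    (((le_max_right _ _).trans (le_max_right _ _)).trans (le_max_right _ _)).trans hn₀
  refine ⟨32, 1 / 512, n₀, by norm_num, by norm_num, ?_⟩
  intro n S r hn hr0 hr hSc hS1 hSw hE
  have hn' : (n₀ : ℝ) ≤ n := by exact_mod_cast hn
  have hn1 : (1 : ℝ) ≤ n := b5.trans hn'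
  have hnpos : (0 : ℝ) < n := by linarith
  set w : ℝ := 1 / n with hw
  have hw0 : 0 < w := by positivity
  have hnw : (n : ℝ) * w = 1 := by rw [hw]; field_simp
  have hb : ∀ a : ℝ, 0 ≤ a → a ≤ n₀ → a * w ≤ 1 := by
    intro a _ ha'
    rw [hw, mul_one_div, div_le_one hnpos]
    exact ha'.trans hn'
  have c1 : 2 * w ≤ m₀ := by
    have := hb (2 / m₀) (by positivity) b1
    rw [div_mul_eq_mul_div, div_le_one hm] at this
    exact this
  have c2 : 768 * CP C B * w ≤ 1 := hb _ (by have := hV.C_pos; positivity) b2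
  have c3 : 2 * w ≤ ε₁ := by
    have := hb (2 / ε₁) (by positivity) b3
    rw [div_mul_eq_mul_div, div_le_one hε₁] at this
    exact this
  have hsurj : Function.Surjective S := by
    intro z
    have hSk : ∀ k : ℤ, S k = S 0 + k := by
      intro k
      induction k using Int.induction_on with
      | zero => simp
      | succ i hi => push_cast at hi ⊢; rw [hS1, hi]; ring
      | pred i hi =>
        have := hS1 (-(i : ℝ) - 1)
        have e : -(i : ℝ) - 1 + 1 = -(i : ℝ) := by ring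
        rw [e] at this
        push_cast at hi ⊢
        linarith
    set k : ℤ := ⌊z - S 0⌋ with hk
    have h1 : S (k : ℝ) ≤ z := by
      rw [hSk]; have := Int.floor_le (z - S 0); linarith
    have h2 : z ≤ S ((k + 1 : ℤ) : ℝ) := by
      rw [hSk]; push_cast; have := Int.lt_floor_add_one (z - S 0); linarith
    obtain ⟨t, _, ht⟩ := intermediate_value_Icc (by push_cast; linarith : (k : ℝ) ≤ ((k + 1 : ℤ) : ℝ))
      hSc.continuousOn ⟨h1, h2⟩
    exact ⟨t, ht⟩
  have hstep : ∀ t, |S (t + w) - S t - w| ≤ w / 8 := by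
    intro t
    refine (hSw t).trans ?_
    have h1 : (n : ℝ) ^ (2 : ℝ) ≤ (n : ℝ) ^ (5 / 2 : ℝ) :=
      Real.rpow_le_rpow_of_exponent_le hn1 (by norm_num)
    have h2 : (n : ℝ) ^ (2 : ℝ) = (n : ℝ) ^ 2 := by
      rw [← Real.rpow_natCast]; norm_num
    rw [h2] at h1
    calc A / (n : ℝ) ^ (5 / 2 : ℝ) ≤ A / (n : ℝ) ^ 2 := by gcongr
      _ = (8 * A * w) * (w / 8) := by rw [hw]; field_simp
      _ ≤ 1 * (w / 8) := by
          have := hb (8 * A) (by positivity) b4
          gcongr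
      _ = w / 8 := one_mul _
  have hn10 : (n : ℝ) ^ 4 ≤ (n : ℝ) ^ 10 := pow_le_pow_right₀ hn1 (by norm_num)
  have hr4 : 512 * r ≤ w ^ 4 := by
    have h1 : 512 * r ≤ 1 / (n : ℝ) ^ 10 := by
      calc 512 * r ≤ 512 * (1 / 512 / (n : ℝ) ^ 10) := by gcongr
        _ = _ := by ring
    have h2 : 1 / (n : ℝ) ^ 10 ≤ 1 / (n : ℝ) ^ 4 := by gcongr
    have h3 : w ^ 4 = 1 / (n : ℝ) ^ 4 := by rw [hw]; ring
    rw [h3]; exact h1.trans h2
  have hE' : ∀ t, |EPr (Pr q) (S (t - w)) (S t) (S (t + w))| ≤ r := by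
    intro t
    have h1 := hE t
    rw [EP_real hq, Complex.norm_real] at h1
    exact h1
  obtain ⟨A₀, hA₀⟩ := var_action hV hw0 hnw c1 c2 c3 hsurj hS1 hstep hr0 hr4 hE'
  refine ⟨A₀, fun t => ?_⟩
  have h1 := hA₀ t
  have h2 : ∑ i ∈ Finset.range n, M (S (t + i / n)) (S (t + (i + 1) / n)) =
      ∑ i ∈ Finset.range n, M (S (t + i * w)) (S (t + (i + 1) * w)) := by
    refine Finset.sum_congr rfl (fun i _ => ?_)
    rw [hw, mul_one_div, mul_one_div]
  rw [h2]
  exact h1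



end Crest.Agent.R102.A929
end
end

-- ▼ part R102/FourS_575

/-!
Row 102, part (A) (helper575): Fourier coefficients of a smooth periodic function.
-/

set_option autoImplicit false

open Set Filter Topology Metric Complex MeasureTheory
open scoped Real ContDiff ComplexConjugate

noncomputable section

namespace Crest.Agent.R102.A929

/-- Fourier coefficient of a real function -/
def cf (f : ℝ → ℝ) (k : ℤ) : ℂ := ∫ x in (0 : ℝ)..1, (f x : ℂ) * ee (-(k * x))

lemma cf_neg (f : ℝ → ℝ) (k : ℤ) : cf f (-k) = (starRingEnd ℂ) (cf f k) := by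
  unfold cf
  exact coeff_conj f k

lemma norm_cf_neg (f : ℝ → ℝ) (k : ℤ) : ‖cf f (-k)‖ = ‖cf f k‖ := by
  rw [cf_neg]
  exact RCLike.norm_conj _

lemma norm_ee_int_real (k : ℤ) (x : ℝ) : ‖ee (-(k * x))‖ = 1 := by
  rw [norm_ee]; simp

lemma cf_ibp {f f' : ℝ → ℝ} (hf : ∀ x, HasDerivAt f (f' x) x) (hc : Continuous f')
    (hp : ∀ x, f (x + 1) = f x) (k : ℤ) : cf f' k = (2 * π * I * k) * cf f k := by
  have hfc : Continuous f := continuous_iff_continuousAt.2 (fun x => (hf x).continuousAt)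
  set e : ℝ → ℂ := fun x => ee (-(k * x)) with he
  have hec : Continuous e := continuous_ee.comp (by fun_prop)
  have hed : ∀ x : ℝ, HasDerivAt e (-(2 * π * I * k) * e x) x := by
    intro x
    have h1 : HasDerivAt (fun x : ℝ => -((k : ℂ) * (x : ℂ))) (-(k : ℂ)) x := by
      have := ((hasDerivAt_id (x : ℂ)).const_mul (k : ℂ)).neg.comp_ofReal
      simpa using this
    have h2 := (hasDerivAt_ee (-((k : ℂ) * (x : ℂ)))).comp x h1
    refine h2.congr_deriv ?_
    simp only [he]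
    ring
  have c1 : Continuous (fun x : ℝ => (f' x : ℂ) * e x) := (Complex.continuous_ofReal.comp hc).mul hec
  have c2 : Continuous (fun x : ℝ => -(2 * π * I * k) * ((f x : ℂ) * e x)) :=
    continuous_const.mul ((Complex.continuous_ofReal.comp hfc).mul hec)
  have c3 : Continuous (fun x : ℝ => (f' x : ℂ) * e x + -(2 * π * I * k) * ((f x : ℂ) * e x)) :=
    c1.add c2
  have hprod : ∀ x, HasDerivAt (fun x => (f x : ℂ) * e x)
      ((f' x : ℂ) * e x + -(2 * π * I * k) * ((f x : ℂ) * e x)) x := by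
    intro x
    have h1 := (hf x).ofReal_comp.mul (hed x)
    refine h1.congr_deriv ?_
    ring
  have hint := intervalIntegral.integral_eq_sub_of_hasDerivAt (a := (0 : ℝ)) (b := 1)
    (fun x _ => hprod x) (c3.intervalIntegrable _ _)
  have hend : (f 1 : ℂ) * e 1 - (f 0 : ℂ) * e 0 = 0 := by
    have h1 := hp 0
    rw [zero_add] at h1
    have h2 : e 1 = 1 := by
      simp only [he]
      rw [Complex.ofReal_one, mul_one, ee_neg, ee_int, inv_one]
    have h3 : e 0 = 1 := by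
      simp only [he]
      rw [Complex.ofReal_zero, mul_zero, neg_zero, ee_zero]
    rw [h1, h2, h3, sub_self]
  rw [hend, intervalIntegral.integral_add (c1.intervalIntegrable _ _) (c2.intervalIntegrable _ _),
    intervalIntegral.integral_const_mul] at hint
  unfold cf
  linear_combination hint

lemma norm_cf_le {f : ℝ → ℝ} (hf : Continuous f) :
    ∃ B : ℝ, ∀ k : ℤ, ‖cf f k‖ ≤ B := by
  obtain ⟨B, hB⟩ := isCompact_Icc.exists_bound_of_continuousOn (s := Icc (0 : ℝ) 1)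
    hf.continuousOn
  refine ⟨B, fun k => ?_⟩
  unfold cf
  have h1 := intervalIntegral.norm_integral_le_of_norm_le_const (a := (0 : ℝ)) (b := 1) (C := B)
    (f := fun x : ℝ => (f x : ℂ) * ee (-(k * x))) (fun x hx => by
      rw [uIoc_of_le zero_le_one] at hx
      rw [norm_mul, norm_ee_int_real, mul_one, Complex.norm_real]
      exact hB x ⟨hx.1.le, hx.2⟩)
  simpa using h1

lemma contDiff_deriv_smooth {f : ℝ → ℝ} (hf : ContDiff ℝ (⊤ : ℕ∞) f) :
    ContDiff ℝ (⊤ : ℕ∞) (deriv f) := by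
  have h1 : ContDiff ℝ ((⊤ : ℕ∞) + 1) f := by
    simpa using hf
  exact (contDiff_succ_iff_deriv.1 h1).2.2

lemma deriv_periodic {f : ℝ → ℝ} (hp : ∀ x, f (x + 1) = f x) (x : ℝ) :
    deriv f (x + 1) = deriv f x := by
  have h : (fun y => f (y + 1)) = f := funext hp
  have h2 := deriv_comp_add_const f 1 x
  rw [h] at h2
  exact h2.symm

lemma cf_decay (p : ℕ) : ∀ f : ℝ → ℝ, ContDiff ℝ (⊤ : ℕ∞) f → (∀ x, f (x + 1) = f x) →
    ∃ B : ℝ, ∀ k : ℤ, |(k : ℝ)| ^ p * ‖cf f k‖ ≤ B := by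
  induction p with
  | zero =>
    intro f hf _
    obtain ⟨B, hB⟩ := norm_cf_le hf.continuous
    exact ⟨B, fun k => by rw [pow_zero, one_mul]; exact hB k⟩
  | succ p ih =>
    intro f hf hp
    obtain ⟨B, hB⟩ := ih (deriv f) (contDiff_deriv_smooth hf) (deriv_periodic hp)
    refine ⟨B, fun k => ?_⟩
    have hd : ∀ x, HasDerivAt f (deriv f x) x := fun x =>
      ((hf.differentiable (by simp)) x).hasDerivAt
    have h1 := cf_ibp hd (contDiff_deriv_smooth hf).continuous hp k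
    have h2 := hB k
    rw [h1, norm_mul] at h2
    have h3 : ‖(2 * π * I * k : ℂ)‖ = 2 * π * |(k : ℝ)| := by
      rw [norm_mul, norm_mul, norm_mul, Complex.norm_I, Complex.norm_real,
        Real.norm_of_nonneg Real.pi_pos.le, Complex.norm_intCast]
      norm_num
    rw [h3] at h2
    have hpi : (1 : ℝ) ≤ 2 * π := by linarith [Real.pi_gt_three]
    calc |(k : ℝ)| ^ (p + 1) * ‖cf f k‖ = 1 * (|(k : ℝ)| ^ p * (|(k : ℝ)| * ‖cf f k‖)) := by ring
      _ ≤ (2 * π) * (|(k : ℝ)| ^ p * (|(k : ℝ)| * ‖cf f k‖)) := by gcongr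
      _ = |(k : ℝ)| ^ p * (2 * π * |(k : ℝ)| * ‖cf f k‖) := by ring
      _ ≤ B := h2

lemma cf_decay' (p : ℕ) {f : ℝ → ℝ} (hf : ContDiff ℝ (⊤ : ℕ∞) f) (hp : ∀ x, f (x + 1) = f x) :
    ∃ B : ℝ, ∀ k : ℤ, (1 + |(k : ℝ)|) ^ p * ‖cf f k‖ ≤ B := by
  obtain ⟨B0, hB0⟩ := norm_cf_le hf.continuous
  obtain ⟨B1, hB1⟩ := cf_decay p f hf hp
  refine ⟨2 ^ p * (B0 + B1), fun k => ?_⟩
  have h0 := hB0 k
  have h1 := hB1 k
  have hk := abs_nonneg (k : ℝ)
  have h2 : (1 + |(k : ℝ)|) ^ p ≤ 2 ^ p * (1 + |(k : ℝ)| ^ p) := by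
    rcases le_total |(k : ℝ)| 1 with h | h
    · calc (1 + |(k : ℝ)|) ^ p ≤ 2 ^ p := by gcongr; linarith
        _ = 2 ^ p * 1 := by ring
        _ ≤ 2 ^ p * (1 + |(k : ℝ)| ^ p) := by gcongr; linarith [pow_nonneg hk p]
    · calc (1 + |(k : ℝ)|) ^ p ≤ (2 * |(k : ℝ)|) ^ p := by gcongr; linarith
        _ = 2 ^ p * |(k : ℝ)| ^ p := by rw [mul_pow]
        _ ≤ 2 ^ p * (1 + |(k : ℝ)| ^ p) := by gcongr; linarith
  calc (1 + |(k : ℝ)|) ^ p * ‖cf f k‖ ≤ 2 ^ p * (1 + |(k : ℝ)| ^ p) * ‖cf f k‖ := by gcongr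
    _ = 2 ^ p * (‖cf f k‖ + |(k : ℝ)| ^ p * ‖cf f k‖) := by ring
    _ ≤ 2 ^ p * (B0 + B1) := by gcongr

lemma wb_zero {f : ℝ → ℝ} (hf : ContDiff ℝ (⊤ : ℕ∞) f) (hp : ∀ x, f (x + 1) = f x) :
    ∃ B : ℝ, WB 0 0 B (cf f) := by
  obtain ⟨B, hB⟩ := cf_decay' 15 hf hp
  refine ⟨B, fun k => ?_⟩
  have : om 0 0 k = 1 := by unfold om; simp
  rw [this, one_mul]
  exact hB k

lemma cf_summable {f : ℝ → ℝ} (hf : ContDiff ℝ (⊤ : ℕ∞) f) (hp : ∀ x, f (x + 1) = f x) :
    Summable (fun k : ℤ => ‖cf f k‖) := by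
  obtain ⟨B, hB⟩ := cf_decay 2 f hf hp
  have h1 : Summable (fun k : ℤ => B * (1 / (k : ℝ) ^ 2) + if k = 0 then ‖cf f 0‖ else 0) :=
    ((Real.summable_one_div_int_pow.2 (by norm_num)).mul_left B).add
      (summable_of_ne_finset_zero (s := {0}) (fun b hb => by
        rw [if_neg]; simpa using hb))
  refine Summable.of_nonneg_of_le (fun k => norm_nonneg _) (fun k => ?_) h1
  by_cases hk : k = 0
  · subst hk; simp
  · rw [if_neg hk, add_zero, mul_one_div, le_div_iff₀ (by positivity)]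
    have := hB k
    rw [sq_abs] at this
    linarith

lemma cf_hasSum {f : ℝ → ℝ} (hf : ContDiff ℝ (⊤ : ℕ∞) f) (hp : ∀ x, f (x + 1) = f x) (x : ℝ) :
    HasSum (fun k : ℤ => cf f k * ee (k * x)) (f x : ℂ) := by
  set φ : ℝ → ℂ := fun x => (f x : ℂ) with hφ
  have hφc : Continuous φ := Complex.continuous_ofReal.comp hf.continuous
  have hφp : Function.Periodic φ 1 := by
    intro y
    simp only [hφ]
    rw [hp]
  let F : C(AddCircle (1 : ℝ), ℂ) := ⟨hφp.lift, by exact continuous_coinduced_dom.mpr hφc⟩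
  have hFapp : ∀ x : ℝ, F (x : AddCircle (1 : ℝ)) = φ x := fun x => rfl
  have hcoef : ∀ k : ℤ, fourierCoeff F k = cf f k := by
    intro k
    rw [fourierCoeff_eq_intervalIntegral F k 0]
    simp only [one_div, inv_one, one_smul, zero_add]
    refine intervalIntegral.integral_congr (fun x _ => ?_)
    rw [fourier_coe_apply, hFapp, smul_eq_mul, mul_comm]
    change φ x * _ = φ x * _
    congr 1
    unfold ee
    congr 1
    push_cast
    ring
  have hsum : Summable (fourierCoeff F) := by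
    refine Summable.of_norm ?_
    refine (cf_summable hf hp).congr (fun k => ?_)
    rw [hcoef]
  have h8 := has_pointwise_sum_fourier_series_of_summable hsum (x : AddCircle (1 : ℝ))
  rw [hFapp] at h8
  have h9 : (fun k : ℤ => fourierCoeff F k • fourier k (x : AddCircle (1 : ℝ))) =
      fun k : ℤ => cf f k * ee (k * x) := by
    funext k
    rw [hcoef, smul_eq_mul, fourier_coe_apply]
    congr 1
    unfold ee
    congr 1
    push_cast
    ring
  rw [h9] at h8
  exact h8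

end Crest.Agent.R102.A929
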