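import Mathlib
import Crest.Agent.R102.Form_575

/-!
# Row 102, [H3], (RAT): freeness of the jets of a differentially transcendental mirror (helper781)

`free_r`: if the jets of `g` at the coordinate `z` are algebraically independent then
`m₀, k₀, b_j, g⁽ⁱ⁾(b_j)` (`1 ≤ i ≤ r + 1`) are algebraically independent along a chain.
-/

set_option autoImplicit false

open MvPolynomial

noncomputable section

namespace Crest.Agent.R102.Free781

/-! ### (J) Jacobian criterion -/

section Jac

variable {k A : Type*} [Field k] [CommRing A] [Algebra k A]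

theorem der_aeval {ι : Type*} [Fintype ι] (x : ι → A) (D : Derivation k A A)
    (P : MvPolynomial ι k) :
    D (aeval x P) = ∑ i, aeval x (pderiv i P) * D (x i) := by
  classical
  induction P using MvPolynomial.induction_on with
  | C a => simp
  | add p q hp hq => simp [hp, hq, add_mul, Finset.sum_add_distrib]
  | mul_X p j hp =>
    rw [map_mul, Derivation.leibniz, hp, aeval_X]
    simp only [pderiv_mul, pderiv_X, map_add, map_mul, aeval_X, add_mul, Finset.sum_add_distrib,
      smul_eq_mul, Finset.mul_sum]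
    rw [add_comm]
    congr 1
    · refine Finset.sum_congr rfl fun i _ => ?_
      ring
    · rw [Finset.sum_eq_single j]
      · simp
      · intro b _ hb
        simp [hb]
      · simp

theorem eq_C_of_pderiv {ι : Type*} [CharZero k] (P : MvPolynomial ι k)
    (h : ∀ i, pderiv i P = 0) : P = C (coeff 0 P) := by
  classical
  ext m
  rw [coeff_C]
  split_ifs with h0
  · rw [h0]
  · obtain ⟨i, hi⟩ : ∃ i, m i ≠ 0 := by
      by_contra hc
      push Not at hc
      exact h0 (by ext i; simp [hc i])
    have h1 := congrArg (coeff (m - Finsupp.single i 1)) (h i)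
    rw [coeff_pderiv, coeff_zero] at h1
    have h2 : m - Finsupp.single i 1 + Finsupp.single i 1 = m := by
      ext j
      by_cases hj : j = i
      · subst hj; simp; omega
      · simp [Ne.symm hj]
    rw [h2] at h1
    rcases mul_eq_zero.1 h1 with h3 | h3
    · exact h3
    · exfalso
      exact Nat.cast_add_one_ne_zero (R := k) _ h3

theorem totalDegree_pderiv_lt {ι : Type*} (P : MvPolynomial ι k) (i : ι)
    (h : pderiv i P ≠ 0) : (pderiv i P).totalDegree < P.totalDegree := by
  classical
  have key : ∀ m ∈ (pderiv i P).support, (m.sum fun _ e => e) < P.totalDegree := by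
    intro m hm
    have h1 : coeff (m + Finsupp.single i 1) P ≠ 0 := by
      intro h0
      rw [mem_support_iff, coeff_pderiv, h0, zero_mul] at hm
      exact hm rfl
    have h2 := le_totalDegree (mem_support_iff.2 h1)
    have h3 : ((m + Finsupp.single i 1).sum fun _ e => e) = (m.sum fun _ e => e) + 1 := by
      rw [Finsupp.sum_add_index' (by simp) (by simp)]
      simp
    omega
  have hne : (pderiv i P).support.Nonempty := by
    rw [Finset.nonempty_iff_ne_empty]
    intro h0
    exact h (support_eq_empty.1 h0)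
  rw [totalDegree, Finset.sup_lt_iff]
  · exact key
  · obtain ⟨m, hm⟩ := hne
    exact lt_of_le_of_lt (Nat.zero_le _) (key m hm)

theorem algInd_of_jac [CharZero k] [IsDomain A] {ι : Type*} [Fintype ι] (x : ι → A)
    (d : ι → Derivation k A A)
    (hj : ∀ lam : ι → A, (∀ i, ∑ a, lam a * d a (x i) = 0) → lam = 0) :
    AlgebraicIndependent k x := by
  classical
  have hdet : (Matrix.of fun a i => d a (x i)).det ≠ 0 := by
    intro h0
    obtain ⟨v, hv, hv2⟩ := Matrix.exists_vecMul_eq_zero_iff.2 h0
    exact hv (hj v fun i => by simpa [Matrix.vecMul, dotProduct] using congrFun hv2 i)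
  have key : ∀ n : ℕ, ∀ P : MvPolynomial ι k, P.totalDegree ≤ n → aeval x P = 0 → P = 0 := by
    intro n
    induction n with
    | zero =>
      intro P hP h0
      rw [Nat.le_zero, totalDegree_eq_zero_iff_eq_C] at hP
      rw [hP, aeval_C] at h0
      have := (algebraMap k A).injective (h0.trans (map_zero _).symm)
      rw [hP, this, C_0]
    | succ n ih =>
      intro P hP h0
      have h1 : (Matrix.of fun a i => d a (x i)).mulVec (fun i => aeval x (pderiv i P)) = 0 := by
        ext a
        have h2 := der_aeval x (d a) P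
        rw [h0, map_zero] at h2
        simp only [Matrix.mulVec, dotProduct, Matrix.of_apply, Pi.zero_apply]
        rw [h2]
        exact Finset.sum_congr rfl fun i _ => mul_comm _ _
      have h2 : (fun i => aeval x (pderiv i P)) = 0 := by
        by_contra hc
        exact hdet (Matrix.exists_mulVec_eq_zero_iff.1 ⟨_, hc, h1⟩)
      have h3 : ∀ i, pderiv i P = 0 := by
        intro i
        by_contra hc
        exact hc (ih _ (by have := totalDegree_pderiv_lt P i hc; omega) (congrFun h2 i))
      have h4 := eq_C_of_pderiv P h3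
      rw [h4, aeval_C] at h0
      have := (algebraMap k A).injective (h0.trans (map_zero _).symm)
      rw [h4, this, C_0]
  rw [algebraicIndependent_iff]
  exact fun P hP => key _ P le_rfl hP

end Jac

/-! ### (D) derivations with prescribed values -/

section Der

open TensorProduct

variable {k S : Type*} [Field k] [CharZero k] [Field S] [Algebra k S]

open scoped IntermediateField.algebraAdjoinAdjoin in
theorem exists_derivation {ι : Type*} (x : ι → S) (hx : AlgebraicIndependent k x) (v : ι → S) :
    ∃ D : Derivation k S S, ∀ i, D (x i) = v i := by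
  classical
  obtain ⟨s, hs, hb⟩ := exists_isTranscendenceBasis_superset (R := k) (A := S)
    (s := Set.range x) hx.coe_range
  let e : MvPolynomial s k ≃ₐ[k] Algebra.adjoin k (Set.range ((↑) : s → S)) := hb.1.aevalEquiv
  let _ : Algebra (MvPolynomial s k) (Algebra.adjoin k (Set.range ((↑) : s → S))) :=
    e.toAlgHom.toRingHom.toAlgebra
  let _ : Algebra (MvPolynomial s k) S := (aeval ((↑) : s → S)).toRingHom.toAlgebra
  have : IsScalarTower k (MvPolynomial s k) S := IsScalarTower.of_algebraMap_eq fun r => by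
    change _ = aeval ((↑) : s → S) (C r)
    rw [aeval_C]
  have : IsScalarTower (MvPolynomial s k) (Algebra.adjoin k (Set.range ((↑) : s → S))) S :=
    IsScalarTower.of_algebraMap_eq fun r => by
      change aeval ((↑) : s → S) r = ((e r : Algebra.adjoin k (Set.range ((↑) : s → S))) : S)
      exact (hb.1.algebraMap_aevalEquiv r).symm
  have : Algebra.FormallyEtale (MvPolynomial s k)
      (Algebra.adjoin k (Set.range ((↑) : s → S))) := by
    let e' : MvPolynomial s k ≃ₐ[MvPolynomial s k]
      Algebra.adjoin k (Set.range ((↑) : s → S)) :=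
      AlgEquiv.ofRingEquiv (f := e.toRingEquiv) fun r => rfl
    exact Algebra.FormallyEtale.of_equiv e'
  have : Algebra.FormallyEtale (Algebra.adjoin k (Set.range ((↑) : s → S)))
      (IntermediateField.adjoin k (Set.range ((↑) : s → S))) :=
    .of_isLocalization (nonZeroDivisors _)
  have : Algebra.IsAlgebraic (IntermediateField.adjoin k (Set.range ((↑) : s → S))) S :=
    hb.isAlgebraic_field
  have : CharZero (IntermediateField.adjoin k (Set.range ((↑) : s → S))) :=
    charZero_of_injective_algebraMap (algebraMap k _).injective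
  have : Algebra.FormallyEtale (IntermediateField.adjoin k (Set.range ((↑) : s → S))) S :=
    Algebra.FormallyEtale.of_isSeparable _ _
  have : Algebra.FormallyEtale (Algebra.adjoin k (Set.range ((↑) : s → S))) S :=
    .comp _ (IntermediateField.adjoin k (Set.range ((↑) : s → S))) _
  have : Algebra.FormallyEtale (MvPolynomial s k) S :=
    .comp _ (Algebra.adjoin k (Set.range ((↑) : s → S))) _
  let v' : s → S := fun t => if h : ∃ i, x i = t then v h.choose else 0
  have hv' : ∀ (i : ι) (t : s), x i = t → v' t = v i := by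
    intro i t hit
    have hex : ∃ i, x i = t := ⟨i, hit⟩
    have h1 : v' t = v hex.choose := dif_pos hex
    rw [h1, hx.injective (hex.choose_spec.trans hit.symm)]
  let f : Ω[MvPolynomial s k⁄k] →ₗ[MvPolynomial s k] S :=
    (mkDerivation k v').liftKaehlerDifferential
  let F : Ω[S⁄k] →ₗ[S] S := (LinearMap.liftBaseChange S f) ∘ₗ
    (KaehlerDifferential.tensorKaehlerEquivOfFormallyEtale k (MvPolynomial s k) S).symm.toLinearMap
  refine ⟨F.compDer (KaehlerDifferential.D k S), fun i => ?_⟩
  have hi : x i ∈ s := hs ⟨i, rfl⟩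
  have h1 : x i = algebraMap (MvPolynomial s k) S (X ⟨x i, hi⟩) := by
    change _ = aeval ((↑) : s → S) (X ⟨x i, hi⟩)
    rw [aeval_X]
  change F (KaehlerDifferential.D k S (x i)) = v i
  rw [h1]
  change (LinearMap.liftBaseChange S f)
    ((KaehlerDifferential.tensorKaehlerEquivOfFormallyEtale k (MvPolynomial s k) S).symm _) = _
  rw [KaehlerDifferential.tensorKaehlerEquivOfFormallyEtale_symm_D_algebraMap,
    LinearMap.liftBaseChange_tmul, one_smul]
  change (mkDerivation k v').liftKaehlerDifferential _ = _
  rw [Derivation.liftKaehlerDifferential_comp_D, mkDerivation_X]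
  exact hv' i _ rfl

end Der

/-! ### (F) freeness of the jets of a differentially transcendental mirror -/

section Chain

open PowerSeries Finset Crest.Agent.R102.H3

variable {k S : Type*} [Field k] [CharZero k] [Field S] [Algebra k S]

omit [CharZero k] in
theorem D_evS (D : Derivation k S⟦X⟧ S⟦X⟧) (δ : Derivation k S S)
    (hC : ∀ a, D (PowerSeries.C a) = PowerSeries.C (δ a))
    (hX : ∀ (M : ℕ) (F : S⟦X⟧), (PowerSeries.X : S⟦X⟧) ^ (M + 1) ∣ F →
      (PowerSeries.X : S⟦X⟧) ^ M ∣ D F)
    {e : S⟦X⟧} (he : PowerSeries.X ∣ e) (F : S⟦X⟧) :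
    D (evS PowerSeries.C e he F) = evS PowerSeries.C e he (cD δ F)
      + evS PowerSeries.C e he (d⁄dX S F) * D e := by
  refine eq_of_forall_X_pow_dvd fun M => ?_
  have h1 := hX M _ (X_pow_dvd_evS (PowerSeries.C : S →+* S⟦X⟧) he F (M + 1))
  have h2 := X_pow_dvd_evS (PowerSeries.C : S →+* S⟦X⟧) he (cD δ F) (M + 1)
  have h3 := X_pow_dvd_evS (PowerSeries.C : S →+* S⟦X⟧) he (d⁄dX S F) M
  have h2' := (pow_dvd_pow (PowerSeries.X : S⟦X⟧) (Nat.le_succ M)).trans h2
  have h4 : D (∑ m ∈ range (M + 1), PowerSeries.C (PowerSeries.coeff m F) * e ^ m)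
      = ∑ m ∈ range (M + 1), PowerSeries.C (PowerSeries.coeff m (cD δ F)) * e ^ m
        + (∑ m ∈ range M, PowerSeries.C (PowerSeries.coeff m (d⁄dX S F)) * e ^ m) * D e := by
    rw [map_sum]
    have h5 : ∀ m ∈ range (M + 1), D (PowerSeries.C (PowerSeries.coeff m F) * e ^ m)
        = PowerSeries.C (PowerSeries.coeff m (cD δ F)) * e ^ m
          + PowerSeries.C (PowerSeries.coeff m F) * ((m : S⟦X⟧) * e ^ (m - 1)) * D e := by
      intro m _
      rw [Derivation.leibniz, Derivation.leibniz_pow, hC, coeff_cD]
      simp only [smul_eq_mul, nsmul_eq_mul]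
      ring
    rw [Finset.sum_congr rfl h5, Finset.sum_add_distrib, ← Finset.sum_mul]
    congr 2
    rw [Finset.sum_range_succ']
    simp only [Nat.cast_zero, zero_mul, mul_zero, add_zero]
    refine Finset.sum_congr rfl fun m _ => ?_
    rw [coeff_derivative, map_mul]
    simp only [Nat.add_sub_cancel, map_add, map_natCast, map_one, Nat.cast_add, Nat.cast_one]
    ring
  rw [map_sub, h4] at h1
  have e1 : D (evS PowerSeries.C e he F) - (evS PowerSeries.C e he (cD δ F)
      + evS PowerSeries.C e he (d⁄dX S F) * D e)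
      = (D (evS PowerSeries.C e he F) -
        (∑ m ∈ range (M + 1), PowerSeries.C (PowerSeries.coeff m (cD δ F)) * e ^ m
        + (∑ m ∈ range M, PowerSeries.C (PowerSeries.coeff m (d⁄dX S F)) * e ^ m) * D e))
        - (evS PowerSeries.C e he (cD δ F)
          - ∑ m ∈ range (M + 1), PowerSeries.C (PowerSeries.coeff m (cD δ F)) * e ^ m)
        - (evS PowerSeries.C e he (d⁄dX S F)
          - ∑ m ∈ range M, PowerSeries.C (PowerSeries.coeff m (d⁄dX S F)) * e ^ m) * D e := by
    ring
  rw [e1]
  exact dvd_sub (dvd_sub h1 h2') (h3.mul_right _)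

theorem evS_comp_map {H : Type*} [CommRing H] (τ : H →+* S) {e : S⟦X⟧} (he : PowerSeries.X ∣ e)
    (F : H⟦X⟧) :
    evS ((PowerSeries.C : S →+* S⟦X⟧).comp τ) e he F
      = evS PowerSeries.C e he (PowerSeries.map τ F) := by
  refine eq_of_forall_X_pow_dvd fun M => ?_
  have h1 := X_pow_dvd_evS ((PowerSeries.C : S →+* S⟦X⟧).comp τ) he F M
  have h2 := X_pow_dvd_evS (PowerSeries.C : S →+* S⟦X⟧) he (PowerSeries.map τ F) M
  have h3 : ∑ m ∈ range M, ((PowerSeries.C : S →+* S⟦X⟧).comp τ) (PowerSeries.coeff m F) * e ^ m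
      = ∑ m ∈ range M, PowerSeries.C (PowerSeries.coeff m (PowerSeries.map τ F)) * e ^ m := by
    refine Finset.sum_congr rfl fun m _ => ?_
    rw [PowerSeries.coeff_map]
    rfl
  rw [h3] at h1
  simpa using dvd_sub h1 h2

/-- a polynomial of degree `< N (r+1)` with `N` distinct roots of multiplicity `> r` is zero -/
theorem poly_zero {A : Type*} [CommRing A] [IsDomain A] [CharZero A] {N r : ℕ} (e : Fin N → A)
    (hinj : Function.Injective e) (a : Polynomial A) (hdeg : a.natDegree < N * (r + 1))
    (hroot : ∀ j, ∀ i ≤ r, (Polynomial.derivative^[i] a).eval (e j) = 0) : a = 0 := by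
  classical
  by_contra ha
  have h1 : ∀ j, r < a.rootMultiplicity (e j) := by
    intro j
    rw [Polynomial.lt_rootMultiplicity_iff_isRoot_iterate_derivative ha]
    intro m hm
    exact hroot j m hm
  have h2 : (r + 1) • (Finset.univ.image e).val ≤ a.roots := by
    rw [Multiset.le_iff_count]
    intro x
    rw [Multiset.count_nsmul, Polynomial.count_roots]
    by_cases hx : x ∈ Finset.univ.image e
    · obtain ⟨j, _, rfl⟩ := Finset.mem_image.1 hx
      have := h1 j
      have h3 : Multiset.count (e j) (Finset.univ.image e).val ≤ 1 :=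
        Multiset.nodup_iff_count_le_one.1 (Finset.univ.image e).nodup _
      nlinarith
    · rw [Multiset.count_eq_zero_of_notMem (by simpa using hx)]
      simp
  have h3 := Multiset.card_le_card h2
  rw [Multiset.card_nsmul, Finset.card_val, Finset.card_image_of_injective _ hinj,
    Finset.card_univ, Fintype.card_fin] at h3
  have h4 := a.card_roots'
  nlinarith

variable {H : Type*} [CommRing H] [Algebra k H]

/-- the generators: `m₀, k₀`, the labels `b_j = Φ_j z` and the jets `Φ_j g⁽ⁱ⁾`, `1 ≤ i ≤ r`. -/
def gens {n : ℕ} {A : Type*} (m0 k0 : A) (b : Fin n → A) (J : ℕ → Fin n → A) (r : ℕ) :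
    Fin 2 ⊕ (Fin n × Fin (r + 1)) → A :=
  Sum.elim ![m0, k0] fun p => if p.2 = 0 then b p.1 else J p.2 p.1


/-- the basic derivations of `S⟦X⟧` -/
def basic {n r : ℕ} (δc : Derivation k S S) (δs : ℕ → Derivation k S S) :
    Fin 2 ⊕ (Fin n × Fin (r + 1)) → Derivation k S⟦X⟧ S⟦X⟧ :=
  Sum.elim ![cD δc, (d⁄dX S).restrictScalars k] fun p => cD (δs (finProdFinEquiv p : ℕ))

/-- the action of the basic derivations on `S` -/
def basic0 {n r : ℕ} (δc : Derivation k S S) (δs : ℕ → Derivation k S S) :
    Fin 2 ⊕ (Fin n × Fin (r + 1)) → Derivation k S S :=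
  Sum.elim ![δc, 0] fun p => δs (finProdFinEquiv p : ℕ)

omit [CharZero k] in
theorem basic_C {n r : ℕ} (δc : Derivation k S S) (δs : ℕ → Derivation k S S)
    (a : Fin 2 ⊕ (Fin n × Fin (r + 1))) (x : S) :
    basic δc δs a (PowerSeries.C x) = PowerSeries.C (basic0 δc δs a x) := by
  rcases a with a | p
  · fin_cases a
    · simp [basic, basic0]
    · simp [basic, basic0]
  · simp [basic, basic0]

omit [CharZero k] in
theorem basic_X {n r : ℕ} (δc : Derivation k S S) (δs : ℕ → Derivation k S S)
    (a : Fin 2 ⊕ (Fin n × Fin (r + 1))) (M : ℕ) (F : S⟦X⟧)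
    (h : (PowerSeries.X : S⟦X⟧) ^ (M + 1) ∣ F) :
    (PowerSeries.X : S⟦X⟧) ^ M ∣ basic δc δs a F := by
  rcases a with a | p
  · fin_cases a
    · exact (pow_dvd_pow _ (Nat.le_succ M)).trans (X_pow_dvd_cD δc h)
    · change (PowerSeries.X : S⟦X⟧) ^ M ∣ d⁄dX S F
      rw [X_pow_dvd_iff] at h ⊢
      intro n hn
      rw [coeff_derivative, h (n + 1) (by omega), zero_mul]
  · exact (pow_dvd_pow _ (Nat.le_succ M)).trans (X_pow_dvd_cD _ h)

theorem basic_pt {n r : ℕ} (δc : Derivation k S S) (δs : ℕ → Derivation k S S)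
    (d : Derivation k H H) (τ : H →ₐ[k] S) {e : S⟦X⟧} (he : PowerSeries.X ∣ e) (f : H)
    (a : Fin 2 ⊕ (Fin n × Fin (r + 1))) :
    basic δc δs a (pt d ((PowerSeries.C : S →+* S⟦X⟧).comp (τ : H →+* S)) e he f)
      = evS PowerSeries.C e he (cD (basic0 δc δs a) (PowerSeries.map (τ : H →+* S) (Ty d f)))
        + pt d ((PowerSeries.C : S →+* S⟦X⟧).comp (τ : H →+* S)) e he (d f)
          * basic δc δs a e := by
  rw [pt_apply, pt_apply, evS_comp_map, evS_comp_map,
    D_evS _ (basic0 δc δs a) (basic_C δc δs a) (basic_X δc δs a) he]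
  congr 3
  rw [← derivative_Ty]
  ext n
  rw [coeff_derivative, PowerSeries.coeff_map, PowerSeries.coeff_map, coeff_derivative, map_mul,
    map_add, map_natCast, map_one]

/-- the Taylor coefficients of the mirror displaced by `y^s/s!` -/
def cc (k : Type*) {S : Type*} [Field k] [Field S] [Algebra k S] (s i : ℕ) : S :=
  if i ≤ s then algebraMap k S (((s - i).factorial : k)⁻¹) else 0

theorem evS_delta (d : Derivation k H H) (τ : H →ₐ[k] S) {g : H} {e : S⟦X⟧}
    (he : PowerSeries.X ∣ e) (δ : Derivation k S S) (s i : ℕ)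
    (hδ : ∀ i, δ (τ (d^[i] g)) = if i = s then 1 else 0) :
    evS PowerSeries.C e he (cD δ (PowerSeries.map (τ : H →+* S) (Ty d (d^[i] g))))
      = PowerSeries.C (cc k s i) * e ^ (s - i) := by
  have h1 : cD δ (PowerSeries.map (τ : H →+* S) (Ty d (d^[i] g)))
      = PowerSeries.C (cc k s i) * PowerSeries.X ^ (s - i) := by
    ext n
    rw [coeff_cD, PowerSeries.coeff_map, coeff_Ty, dn, RingHom.coe_coe, map_smul, δ.map_smul,
      ← Function.iterate_add_apply, hδ, PowerSeries.coeff_C_mul, PowerSeries.coeff_X_pow, cc]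
    by_cases his : i ≤ s
    · rw [if_pos his]
      by_cases hn : n + i = s
      · have : n = s - i := by omega
        rw [if_pos hn, if_pos this, this, mul_one, Algebra.smul_def, mul_one]
      · have : n ≠ s - i := by omega
        rw [if_neg hn, if_neg this, smul_zero, mul_zero]
    · rw [if_neg his, if_neg (by omega), smul_zero, zero_mul]
  rw [h1, map_mul, map_pow, evS_X, evS_C]

omit [CharZero k] in
theorem der_sum_apply {A : Type*} [CommRing A] [Algebra k A] {ι : Type*} (s : Finset ι)
    (lam : ι → A) (d : ι → Derivation k A A) (x : A) :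
    (∑ a ∈ s, lam a • d a) x = ∑ a ∈ s, lam a * d a x := by
  classical
  induction s using Finset.induction_on with
  | empty => simp
  | insert a s ha ih =>
    rw [Finset.sum_insert ha, Finset.sum_insert ha, Derivation.add_apply, ih]
    rfl

variable (d : Derivation k H H) (τ : H →ₐ[k] S) {z g : H} {N : ℕ}


end Chain

end Crest.Agent.R102.Free781
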