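import Mathlib
import Crest.Agent.R102.LemZ_329
import Crest.Agent.R102.WinW_486

-- ▼ part R102/ColA_516
section

/-!
Row 102, part (C), Case E (`h0 = ∞`), T1-E: **the good column** (helper516), part A:
* `Per y G`: `y'' = G y`, `y` entire, 1-periodic, positive on the real line;
* `mean`    : `Re G (x + i m) < 0` for all real `x` is impossible;
* `GA`, `GC`: bounds for `G` and `G + 1/S²` from Lemma Z.
-/

set_option autoImplicit false

open Set Filter Metric Complex Topology MeasureTheory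
open scoped ComplexConjugate

noncomputable section

namespace Crest.Agent.R102.Col516

/-- Lemma Z (329), with constant `C` -/
def LemZ (C : ℝ) : Prop :=
  ∀ (q : ℂ → ℂ) (p : ℂ) (R a : ℝ), 0 < R → 1 ≤ a → Differentiable ℂ q → q p ≠ 0 →
    (∀ z ∈ closedBall p R, ‖q z‖ ≤ Real.exp a * ‖q p‖) →
    ∃ ρ ∈ Icc (R / 4) (R / 2), ∀ z ∈ sphere p ρ, q z ≠ 0 ∧ ‖deriv q z / q z‖ ≤ C * a ^ 2 / R ∧
      ‖deriv (deriv q) z / q z‖ ≤ C * a ^ 4 / R ^ 2

/-- the data of Case E used here -/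
structure Per (y G : ℂ → ℂ) : Prop where
  hy : Differentiable ℂ y
  hG : Differentiable ℂ G
  ode : ∀ z, deriv (deriv y) z = G z * y z
  per : ∀ z, y (z + 1) = y z
  pos : ∀ x : ℝ, (y x).im = 0 ∧ 0 < (y x).re

variable {y G : ℂ → ℂ}

theorem Per.y0 (P : Per y G) (x : ℝ) : y x ≠ 0 := by
  intro h
  have := (P.pos x).2
  rw [h] at this
  simp at this

theorem Per.hy1 (P : Per y G) : Differentiable ℂ (deriv y) := by
  intro z
  exact (P.hy.analyticAt z).deriv.differentiableAt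

theorem Per.per1 (P : Per y G) (z : ℂ) : deriv y (z + 1) = deriv y z := by
  have h : (fun z => y (z + 1)) = y := funext P.per
  rw [← deriv_comp_add_const, h]

theorem Per.per2 (P : Per y G) (z : ℂ) : deriv (deriv y) (z + 1) = deriv (deriv y) z := by
  have h : (fun z => deriv y (z + 1)) = deriv y := funext P.per1
  rw [← deriv_comp_add_const, h]

theorem Per.perG (P : Per y G) (z : ℂ) : G (z + 1) = G z := by
  have h1 : AnalyticOnNhd ℂ (fun z => G (z + 1)) univ := fun w _ =>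
    (P.hG.comp (differentiable_id.add_const 1)).analyticAt w
  have h2 : AnalyticOnNhd ℂ G univ := fun w _ => P.hG.analyticAt w
  have hne : ∀ᶠ z in 𝓝 (0 : ℂ), y z ≠ 0 :=
    P.hy.continuous.continuousAt.eventually_ne (by simpa using P.y0 0)
  have h3 : (fun z => G (z + 1)) =ᶠ[𝓝 (0 : ℂ)] G := by
    filter_upwards [hne] with z hz
    have e1 := P.ode (z + 1)
    rw [P.per2, P.ode z, P.per] at e1
    exact (mul_right_cancel₀ hz e1).symm
  have := h1.eqOn_of_preconnected_of_eventuallyEq h2 isPreconnected_univ (mem_univ 0) h3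
  exact this (mem_univ z)

/-- the derivative is real on the real line -/
theorem Per.real1 (P : Per y G) (x : ℝ) : (deriv y x).im = 0 := by
  have h1 : HasDerivAt (fun t : ℝ => y t) (deriv y x) x := (P.hy x).hasDerivAt.comp_ofReal
  have h2 : HasDerivAt (fun t : ℝ => (y t).im) ((deriv y x).im) x := by
    exact (Complex.imCLM.hasFDerivAt.comp_hasDerivAt x h1)
  have h3 : (fun t : ℝ => (y t).im) = fun _ => 0 := funext fun t => (P.pos t).1
  rw [h3] at h2
  exact (h2.unique (hasDerivAt_const x (0 : ℝ)))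

/-- the mean of `G` over a period of the real line is `≥ 0` -/
theorem Per.mean0 (P : Per y G) : 0 ≤ (∫ x in (0 : ℝ)..1, G x).re := by
  set u : ℝ → ℂ := fun x => deriv y x / y x with hu
  have hud : ∀ x : ℝ, HasDerivAt u (G x - (u x) ^ 2) x := by
    intro x
    have h1 : HasDerivAt (fun t : ℝ => deriv y t) (deriv (deriv y) x) x :=
      (P.hy1 x).hasDerivAt.comp_ofReal
    have h2 : HasDerivAt (fun t : ℝ => y t) (deriv y x) x := (P.hy x).hasDerivAt.comp_ofReal
    have h3 := h1.div h2 (P.y0 x)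
    refine h3.congr_deriv ?_
    rw [P.ode, hu]
    have := P.y0 x
    field_simp
  have hGc : Continuous fun x : ℝ => G x := P.hG.continuous.comp continuous_ofReal
  have huc : Continuous u := continuous_iff_continuousAt.2 fun x => (hud x).continuousAt
  have hu2 : Continuous fun x : ℝ => u x ^ 2 := huc.pow 2
  have h4 : ∫ x in (0 : ℝ)..1, (G x - (u x) ^ 2) = u 1 - u 0 :=
    intervalIntegral.integral_eq_sub_of_hasDerivAt (fun x _ => hud x)
      ((hGc.sub hu2).intervalIntegrable 0 1)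
  have h5 : u 1 = u 0 := by
    simp only [hu]
    have e1 := P.per 0
    have e2 := P.per1 0
    simp only [zero_add] at e1 e2
    norm_num [e1, e2]
  rw [h5, sub_self, intervalIntegral.integral_sub (hGc.intervalIntegrable 0 1)
    (hu2.intervalIntegrable 0 1), sub_eq_zero] at h4
  rw [h4]
  have h6 : (∫ x in (0 : ℝ)..1, (u x) ^ 2).re = ∫ x in (0 : ℝ)..1, ((u x) ^ 2).re := by
    have := Complex.reCLM.intervalIntegral_comp_comm (μ := volume) (hu2.intervalIntegrable 0 1)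
    simpa using this.symm
  rw [h6]
  refine intervalIntegral.integral_nonneg zero_le_one fun x _ => ?_
  have h7 : (u x).im = 0 := by
    simp only [hu, Complex.div_im, P.real1 x, (P.pos x).1]
    simp
  have h8 : ((u x) ^ 2).re = (u x).re ^ 2 := by
    rw [sq, Complex.mul_re, h7]
    ring
  rw [h8]
  positivity

/-- the mean of `G` does not depend on the height -/
theorem Per.mean_shift (P : Per y G) (m : ℝ) :
    ∫ x in (0 : ℝ)..1, G (x + m * I) = ∫ x in (0 : ℝ)..1, G x := by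
  have h := Complex.integral_boundary_rect_eq_zero_of_differentiableOn G 0 (1 + m * I)
    P.hG.differentiableOn
  simp only [zero_re, zero_im, add_re, one_re, mul_re, ofReal_re, I_re, mul_zero, ofReal_im, I_im,
    mul_one, sub_self, add_zero, add_im, one_im, mul_im, zero_add, ofReal_zero, zero_mul,
    ofReal_one] at h
  have e : ∀ t : ℝ, G (1 + t * I) = G (t * I) := fun t => by rw [add_comm, P.perG]
  simp only [e] at h
  have := sub_eq_zero.1 (by simpa using h : (∫ x in (0 : ℝ)..1, G x) -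
    ∫ x in (0 : ℝ)..1, G (x + m * I) = 0)
  exact this.symm

/-- **(D)** `Re G < 0` on a whole horizontal line is impossible -/
theorem Per.mean (P : Per y G) (m : ℝ) (h : ∀ x : ℝ, (G (x + m * I)).re < 0) : False := by
  have h1 := P.mean0
  rw [← P.mean_shift m] at h1
  have hc : Continuous fun x : ℝ => G (x + m * I) :=
    P.hG.continuous.comp (by fun_prop)
  have h6 : (∫ x in (0 : ℝ)..1, G (x + m * I)).re = ∫ x in (0 : ℝ)..1, (G (x + m * I)).re := by
    have := Complex.reCLM.intervalIntegral_comp_comm (μ := volume) (hc.intervalIntegrable 0 1)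
    simpa using this.symm
  rw [h6] at h1
  have h2 : 0 < ∫ x in (0 : ℝ)..1, -(G (x + m * I)).re := by
    refine intervalIntegral.intervalIntegral_pos_of_pos ?_ (fun x => by linarith [h x]) one_pos
    exact ((Complex.continuous_re.comp hc).neg).intervalIntegrable 0 1
  rw [intervalIntegral.integral_neg] at h2
  linarith

theorem max_ball {f : ℂ → ℂ} (hf : Differentiable ℂ f) {p : ℂ} {ρ M : ℝ} (hρ : 0 < ρ)
    (h : ∀ z ∈ sphere p ρ, ‖f z‖ ≤ M) : ∀ z ∈ closedBall p ρ, ‖f z‖ ≤ M := by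
  intro z hz
  refine Complex.norm_le_of_forall_mem_frontier_norm_le (U := ball p ρ) isBounded_ball
    hf.diffContOnCl (fun w hw => ?_) ?_
  · rw [frontier_ball p hρ.ne'] at hw
    exact h w hw
  · rwa [closure_ball p hρ.ne']

/-- **(A)** polynomial bound for `G` where `log |y|` is not too small -/
theorem Per.GA (P : Per y G) {C : ℝ} (hZ : LemZ C) {p : ℂ} {R a : ℝ} (hR : 0 < R) (ha : 1 ≤ a)
    (hp : y p ≠ 0) (hb : ∀ z ∈ closedBall p R, ‖y z‖ ≤ Real.exp a * ‖y p‖) :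
    ∀ z ∈ closedBall p (R / 4), ‖G z‖ ≤ C * a ^ 4 / R ^ 2 := by
  obtain ⟨ρ, hρ, h⟩ := hZ y p R a hR ha P.hy hp hb
  have hρ0 : 0 < ρ := by
    have := hρ.1
    linarith
  intro z hz
  refine max_ball P.hG hρ0 (fun w hw => ?_) z (closedBall_subset_closedBall hρ.1 hz)
  obtain ⟨h1, -, h3⟩ := h w hw
  rwa [P.ode w, mul_div_assoc, div_self h1, mul_one] at h3

/-- **(C)** `G + 1/S²` is small if `y e^{i (z - c) / S}` has small logarithmic derivative -/
theorem Per.GC (P : Per y G) {C : ℝ} (hZ : LemZ C) {p c : ℂ} {R a S : ℝ} (hR : 0 < R)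
    (ha : 1 ≤ a) (hS : 0 < S) (hp : y p ≠ 0)
    (hb : ∀ z ∈ closedBall p R, ‖y z * Complex.exp (I * (z - c) / S)‖ ≤
      Real.exp a * ‖y p * Complex.exp (I * (p - c) / S)‖) :
    ∀ z ∈ closedBall p (R / 4), ‖G z + 1 / (S : ℂ) ^ 2‖ ≤
      C * a ^ 4 / R ^ 2 + 2 / S * (C * a ^ 2 / R) := by
  set E : ℂ → ℂ := fun z => Complex.exp (I * (z - c) / S) with hE
  have hEd : ∀ z, HasDerivAt E (E z * (I / S)) z := by
    intro z
    have h1 : HasDerivAt (fun z : ℂ => I * (z - c) / S) (I * 1 / S) z :=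
      (((hasDerivAt_id z).sub_const c).const_mul I).div_const _
    simpa [hE, mul_one] using h1.cexp
  have hE0 : ∀ z, E z ≠ 0 := fun z => Complex.exp_ne_zero _
  set q : ℂ → ℂ := fun z => y z * E z with hq
  have hq1 : ∀ z, HasDerivAt q ((deriv y z + I / S * y z) * E z) z := by
    intro z
    refine ((P.hy z).hasDerivAt.mul (hEd z)).congr_deriv ?_
    ring
  have hq1' : deriv q = fun z => (deriv y z + I / S * y z) * E z := funext fun z => (hq1 z).deriv
  have hq2 : ∀ z, deriv (deriv q) z =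
      (G z * y z + 2 * (I / S) * deriv y z - 1 / (S : ℂ) ^ 2 * y z) * E z := by
    intro z
    rw [hq1']
    have h1 : HasDerivAt (fun z => (deriv y z + I / (S : ℂ) * y z) * E z)
        ((deriv (deriv y) z + I / (S : ℂ) * deriv y z) * E z +
          (deriv y z + I / (S : ℂ) * y z) * (E z * (I / S))) z :=
      (((P.hy1 z).hasDerivAt.add ((P.hy z).hasDerivAt.const_mul (I / (S : ℂ)))).mul (hEd z))
    rw [h1.deriv, P.ode]
    have hI : (I / (S : ℂ)) * (I / S) = - (1 / (S : ℂ) ^ 2) := by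
      rw [div_mul_div_comm, I_mul_I, ← sq]
      ring
    have e : (G z * y z + I / ↑S * deriv y z) * E z + (deriv y z + I / ↑S * y z) * (E z * (I / ↑S)) =
        (G z * y z + 2 * (I / S) * deriv y z + ((I / (S : ℂ)) * (I / S)) * y z) * E z := by ring
    rw [e, hI]
    ring
  have hqd : Differentiable ℂ q := fun z => (hq1 z).differentiableAt
  obtain ⟨ρ, hρ, h⟩ := hZ q p R a hR ha hqd (mul_ne_zero hp (hE0 p)) hb
  have hρ0 : 0 < ρ := by
    have := hρ.1
    linarith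
  intro z hz
  refine max_ball (f := fun z => G z + 1 / (S : ℂ) ^ 2) (P.hG.add_const _) hρ0
    (fun w hw => ?_) z (closedBall_subset_closedBall hρ.1 hz)
  obtain ⟨h1, h2, h3⟩ := h w hw
  have hy0 : y w ≠ 0 := left_ne_zero_of_mul h1
  have hSc : (S : ℂ) ≠ 0 := by exact_mod_cast hS.ne'
  have e1 : G w + 1 / (S : ℂ) ^ 2 =
      deriv (deriv q) w / q w - 2 * (I / S) * (deriv q w / q w) := by
    rw [hq2, hq1', hq]
    have hEw := hE0 w
    have hI : (I : ℂ) ^ 2 = -1 := I_sq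
    field_simp
    ring_nf
    rw [hI]
    ring
  rw [e1]
  refine (norm_sub_le _ _).trans (add_le_add h3 ?_)
  rw [norm_mul]
  have : ‖(2 : ℂ) * (I / S)‖ = 2 / S := by
    rw [norm_mul, norm_div, Complex.norm_I, Complex.norm_of_nonneg hS.le]
    norm_num
    ring
  rw [this]
  gcongr

end Crest.Agent.R102.Col516
end
end

-- ▼ part R102/Quiet_329
section

/-!
Row 102, T1-E, "quiet column": windows of an entire periodic function `y` with `y'' = P y`,
`P` entire.

* `Win y h ν N A ε`: on `|Im z - h| ≤ A/ν` one has `|y z| ≤ exp (N + ν (Im z - h) + ε)`.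
* `quiet`: if `P` is not constant, then for every `R` every window with `h`, `A` large contains a
  point `x` with `|y| ≤ exp N` on `closedBall (x + i h) (R/ν)`.
* `deriv_ge`: at a point with `|y| = exp N` the derivative is `≥ ν exp N (1 - e/A)`.
-/

set_option autoImplicit false

open Set Filter Topology Metric
open scoped ComplexConjugate

noncomputable section

namespace Crest.Agent.R102.Q329

/-- `y'' = P y` with `y`, `P` entire, `y` 1-periodic, real -/
structure YP (y P : ℂ → ℂ) : Prop where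
  y_diff : Differentiable ℂ y
  P_diff : Differentiable ℂ P
  ode : ∀ z, deriv (deriv y) z = P z * y z
  y_per : ∀ z, y (z + 1) = y z
  P_per : ∀ z, P (z + 1) = P z
  y_conj : ∀ z, y (conj z) = conj (y z)
  P_conj : ∀ z, P (conj z) = conj (P z)



variable {y P : ℂ → ℂ} {h ν N A ε : ℝ}















lemma bdd_strip {f : ℂ → ℂ} (hf : Differentiable ℂ f) (hp : ∀ z, f (z + 1) = f z) (h : ℝ) :
    ∃ B : ℝ, ∀ z : ℂ, |z.im| ≤ h → ‖f z‖ ≤ B := by
  have hc : IsCompact (Icc (0 : ℝ) 1 ×ℂ Icc (-h) h) := isCompact_Icc.reProdIm isCompact_Icc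
  obtain ⟨B, hB⟩ := hc.exists_bound_of_continuousOn hf.continuous.continuousOn
  refine ⟨B, fun z hz => ?_⟩
  have hint : ∀ n : ℤ, f (z + n) = f z := by
    intro n
    induction n using Int.induction_on with
    | zero => simp
    | succ n ih => rw [Int.cast_add, Int.cast_one, ← add_assoc, hp, ih]
    | pred n ih =>
      rw [← ih, ← hp (z + ((-(n : ℤ) - 1 : ℤ) : ℂ))]
      congr 1
      push_cast
      ring
  have := hint (-⌊z.re⌋)
  rw [← this]
  refine hB _ ?_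
  rw [Complex.mem_reProdIm]
  have e1 : (z + ((-⌊z.re⌋ : ℤ) : ℂ)).re = z.re - ⌊z.re⌋ := by
    simp [sub_eq_add_neg]
  have e2 : (z + ((-⌊z.re⌋ : ℤ) : ℂ)).im = z.im := by simp
  rw [e1, e2]
  refine ⟨⟨?_, ?_⟩, abs_le.1 hz⟩
  · linarith [Int.floor_le z.re]
  · linarith [(Int.lt_floor_add_one z.re).le]

/-- maximum principle in a strip, for periodic entire functions -/
lemma strip_max {f : ℂ → ℂ} (hf : Differentiable ℂ f) (hp : ∀ z, f (z + 1) = f z) {h C : ℝ}
    (hh : 0 < h) (hb : ∀ z : ℂ, |z.im| = h → ‖f z‖ ≤ C) :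
    ∀ z : ℂ, |z.im| ≤ h → ‖f z‖ ≤ C := by
  intro z hz
  obtain ⟨B, hB⟩ := bdd_strip hf hp h
  refine PhragmenLindelof.horizontal_strip (a := -h) (b := h) hf.diffContOnCl ?_ ?_ ?_
    (abs_le.1 hz).1 (abs_le.1 hz).2
  · have h2 : 0 < h - -h := by linarith
    refine ⟨0, by positivity, 0, ?_⟩
    refine Asymptotics.IsBigO.of_bound B ?_
    rw [eventually_inf_principal]
    filter_upwards with w hw
    have : |w.im| ≤ h := by
      rw [mem_preimage, mem_Ioo] at hw
      exact abs_le.2 ⟨hw.1.le, hw.2.le⟩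
    simpa using hB w this
  · intro w hw
    exact hb w (by rw [hw, abs_neg, abs_of_pos hh])
  · intro w hw
    exact hb w (by rw [hw, abs_of_pos hh])



end Crest.Agent.R102.Q329
end
end

-- ▼ part R102/ColB_516
section

/-!
Row 102, part (C), Case E (`h0 = ∞`), T1-E: **the good column** (helper516), part B:
`Per.column` (with numeric hypotheses) and `good_column` (for `L ≥ L0`).
-/

set_option autoImplicit false

open Set Filter Metric Complex Topology MeasureTheory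
open scoped ComplexConjugate

noncomputable section

namespace Crest.Agent.R102.Col516

variable {y G : ℂ → ℂ}

theorem Per.conj (P : Per y G) (z : ℂ) : y (conj z) = conj (y z) := by
  have hd : Differentiable ℂ (fun z => conj (y (conj z))) := by
    intro w
    have := (P.hy (conj w)).conj_conj
    simpa [Function.comp_def] using this
  have h1 : AnalyticOnNhd ℂ (fun z => conj (y (conj z))) univ := fun w _ => hd.analyticAt w
  have h2 : AnalyticOnNhd ℂ y univ := fun w _ => P.hy.analyticAt w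
  have h3 : ∃ᶠ w in 𝓝[≠] (0 : ℂ), conj (y (conj w)) = y w := by
    have hT : Tendsto (fun n : ℕ => (((1 : ℝ) / ((n : ℝ) + 1) : ℝ) : ℂ)) atTop (𝓝[≠] (0 : ℂ)) := by
      rw [tendsto_nhdsWithin_iff]
      constructor
      · have := (Complex.continuous_ofReal.tendsto 0).comp
          (tendsto_one_div_add_atTop_nhds_zero_nat (𝕜 := ℝ))
        simpa [Function.comp_def] using this
      · filter_upwards with n
        have : (0 : ℝ) < 1 / ((n : ℝ) + 1) := by positivity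
        simpa using (by exact_mod_cast this.ne' : (((1 : ℝ) / ((n : ℝ) + 1) : ℝ) : ℂ) ≠ 0)
    refine hT.frequently (Frequently.of_forall fun n => ?_)
    rw [conj_ofReal]
    exact conj_eq_iff_im.2 (P.pos _).1
  have h4 := h1.eqOn_of_preconnected_of_frequently_eq h2 isPreconnected_univ (mem_univ 0) h3
  have h5 : conj (y (conj (conj z))) = y (conj z) := h4 (mem_univ (conj z))
  rw [conj_conj] at h5
  exact h5.symm

/-- `y` cannot be small on a whole horizontal line -/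
theorem Per.strip (P : Per y G) {m M : ℝ} (hm : 0 < m) (h : ∀ x : ℝ, ‖y (x + m * I)‖ ≤ M) :
    ‖y 0‖ ≤ M := by
  refine Q329.strip_max P.hy P.per hm (fun z hz => ?_) 0 (by simpa using hm.le)
  rcases abs_cases z.im with h1 | h1
  · have : z = (z.re : ℂ) + m * Complex.I := by
      rw [← hz, h1.1]; exact (Complex.re_add_im z).symm
    rw [this]
    exact h z.re
  · have e : conj z = (z.re : ℂ) + m * Complex.I := by
      apply Complex.ext
      · simp
      · simp; linarith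
    have e2 := h z.re
    rw [← e, P.conj, RCLike.norm_conj] at e2
    exact e2

theorem norm_expI (z c : ℂ) (S : ℝ) :
    ‖Complex.exp (I * (z - c) / S)‖ = Real.exp (-((z.im - c.im) / S)) := by
  rw [Complex.norm_exp]
  congr 1
  rw [Complex.div_ofReal_re]
  simp
  ring

section col

variable {C C1 κ A L m S : ℝ}

/-- the window bound in the form `|y z| ≤ C₁ √L exp (L + (Im z - m) / S)` -/
theorem F1 (hL : 1 ≤ L) (n9 : A ^ 3 ≤ L / 2) (hS0 : 0 < S) (hm : S * L / 2 ≤ m)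
    (hb : ∀ β : ℝ, |β| ≤ A ^ 3 → ∀ z : ℂ, |z.im| ≤ m + S * β →
      ‖y z‖ ≤ C1 * √L * Real.exp (L + β)) {z : ℂ} (hz : |z.im - m| ≤ A ^ 3 * S) :
    ‖y z‖ ≤ C1 * √L * Real.exp (L + (z.im - m) / S) := by
  refine hb ((z.im - m) / S) ?_ z ?_
  · rw [abs_div, abs_of_pos hS0, div_le_iff₀ hS0]
    exact hz
  · have h1 : S * ((z.im - m) / S) = z.im - m := by field_simp
    rw [h1]
    have h2 := (abs_le.1 hz).1
    have h3 : A ^ 3 * S ≤ L / 2 * S := by gcongr
    have h4 : 0 ≤ z.im := by nlinarith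
    rw [abs_of_nonneg h4]
    linarith

theorem im_sub_le {z c : ℂ} {r : ℝ} (h : z ∈ closedBall c r) : |z.im - c.im| ≤ r := by
  rw [← Complex.sub_im]
  exact (Complex.abs_im_le_norm _).trans (by simpa [mem_closedBall, dist_eq_norm] using h)

/-- **(A')** -/
theorem Per.colA (P : Per y G) (hZ : LemZ C) (hC : 0 ≤ C) (hC1 : 0 < C1) (hκ : 0 < κ)
    (hA : 4 ≤ A) (hL : 1 ≤ L)
    (n3 : C1 * √L * Real.exp (L + 9 * A) ≤ Real.exp (2 * L))
    (n4 : 4 * C * L ^ 8 ≤ κ ^ 2 * Real.exp (2 * L)) (n9 : A ^ 3 ≤ L / 2)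
    (hS : 1 / L ^ 2 ≤ S) (hm : S * L / 2 ≤ m)
    (hb : ∀ β : ℝ, |β| ≤ A ^ 3 → ∀ z : ℂ, |z.im| ≤ m + S * β →
      ‖y z‖ ≤ C1 * √L * Real.exp (L + β)) {x : ℝ} {p : ℂ}
    (hp : p ∈ closedBall ((x : ℂ) + m * I) (A * S)) (hyp : Real.exp (-(2 * L)) ≤ ‖y p‖) :
    ∀ z ∈ closedBall ((x : ℂ) + m * I) (A * S), ‖G z‖ ≤ κ ^ 2 * Real.exp (2 * L) := by
  have hS0 : 0 < S := lt_of_lt_of_le (by positivity) hS
  have hA3 : 9 * A ≤ A ^ 3 := by nlinarith [mul_nonneg (by linarith : (0:ℝ) ≤ A - 4) (by linarith : (0:ℝ) ≤ A + 4)]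
  have hp1 : |p.im - m| ≤ A * S := by simpa using im_sub_le hp
  have h1 : ∀ z ∈ closedBall p (8 * (A * S)), ‖y z‖ ≤ Real.exp (4 * L) * ‖y p‖ := by
    intro z hz
    have hz1 := im_sub_le hz
    have hz2 : |z.im - m| ≤ 9 * (A * S) := by
      have := abs_add_le (z.im - p.im) (p.im - m)
      rw [sub_add_sub_cancel] at this
      linarith
    have hz3 : |z.im - m| ≤ A ^ 3 * S := hz2.trans (by nlinarith)
    have hz4 : (z.im - m) / S ≤ 9 * A := by
      rw [div_le_iff₀ hS0]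
      have := (abs_le.1 hz2).2
      linarith
    calc ‖y z‖ ≤ C1 * √L * Real.exp (L + (z.im - m) / S) := F1 hL n9 hS0 hm hb hz3
      _ ≤ C1 * √L * Real.exp (L + 9 * A) := by gcongr
      _ ≤ Real.exp (2 * L) := n3
      _ = Real.exp (4 * L) * Real.exp (-(2 * L)) := by rw [← Real.exp_add]; ring_nf
      _ ≤ Real.exp (4 * L) * ‖y p‖ := by gcongr
  have hyp0 : y p ≠ 0 := by
    intro h
    rw [h, norm_zero] at hyp
    exact absurd hyp (not_le.2 (Real.exp_pos _))
  have h2 := P.GA hZ (R := 8 * (A * S)) (a := 4 * L) (by positivity) (by linarith) hyp0 h1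
  intro z hz
  have hz1 : z ∈ closedBall p (8 * (A * S) / 4) := by
    rw [mem_closedBall] at hz hp ⊢
    have := dist_triangle_right z p ((x : ℂ) + m * I)
    linarith
  refine (h2 z hz1).trans (le_trans ?_ n4)
  have hLS : 1 ≤ L ^ 2 * S := by
    rw [div_le_iff₀ (by positivity)] at hS
    linarith
  have hA2 : 1 ≤ A ^ 2 := by nlinarith
  rw [div_le_iff₀ (by positivity)]
  have e : 4 * C * L ^ 8 * (8 * (A * S)) ^ 2 = C * (4 * L) ^ 4 * (A ^ 2 * (L ^ 2 * S) ^ 2) := by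
    ring
  rw [e]
  refine le_mul_of_one_le_right (by positivity) ?_
  exact one_le_mul_of_one_le_of_one_le hA2 (one_le_pow₀ hLS)

/-- **(C')** -/
theorem Per.colC (P : Per y G) (hZ : LemZ C) (hC : 0 ≤ C) (hC1 : 0 < C1) (hκ : 0 < κ)
    (hA : 4 ≤ A) (hL : 1 ≤ L) (n7 : C1 * √L ≤ κ * Real.exp A)
    (n8 : 64 * C / A ^ 2 + 16 * C / A ≤ 1 / 2) (n9 : A ^ 3 ≤ L / 2)
    (hS0 : 0 < S) (hm : S * L / 2 ≤ m)
    (hb : ∀ β : ℝ, |β| ≤ A ^ 3 → ∀ z : ℂ, |z.im| ≤ m + S * β →
      ‖y z‖ ≤ C1 * √L * Real.exp (L + β)) {x : ℝ} {p : ℂ}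
    (hp : p ∈ closedBall ((x : ℂ) + m * I) (A * S)) (hyp : κ * Real.exp L < ‖y p‖) :
    (G ((x : ℂ) + m * I)).re < 0 := by
  set c : ℂ := (x : ℂ) + m * I with hc
  have hcim : c.im = m := by simp [hc]
  have hp1 : |p.im - m| ≤ A * S := by simpa [hcim] using im_sub_le hp
  have hA3 : A + A ^ 3 / 2 ≤ A ^ 3 := by
    nlinarith [mul_nonneg (by linarith : (0:ℝ) ≤ A - 4) (by linarith : (0:ℝ) ≤ A + 4)]
  have h1 : ∀ z ∈ closedBall p (A ^ 3 * S / 2), ‖y z * Complex.exp (I * (z - c) / S)‖ ≤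
      Real.exp (2 * A) * ‖y p * Complex.exp (I * (p - c) / S)‖ := by
    intro z hz
    have hz1 := im_sub_le hz
    have hz2 : |z.im - m| ≤ A * S + A ^ 3 * S / 2 := by
      have := abs_add_le (z.im - p.im) (p.im - m)
      rw [sub_add_sub_cancel] at this
      linarith
    have hz3 : |z.im - m| ≤ A ^ 3 * S := hz2.trans (by nlinarith)
    have hp2 : (p.im - m) / S ≤ A := by
      rw [div_le_iff₀ hS0]
      exact (abs_le.1 hp1).2
    rw [norm_mul, norm_mul, norm_expI, norm_expI, hcim]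
    calc ‖y z‖ * Real.exp (-((z.im - m) / S))
        ≤ C1 * √L * Real.exp (L + (z.im - m) / S) * Real.exp (-((z.im - m) / S)) := by
          gcongr
          exact F1 hL n9 hS0 hm hb hz3
      _ = C1 * √L * Real.exp L := by
          rw [mul_assoc, ← Real.exp_add]
          ring_nf
      _ ≤ κ * Real.exp A * Real.exp L := by gcongr
      _ = Real.exp (2 * A) * (κ * Real.exp L * Real.exp (-A)) := by
          have : Real.exp A = Real.exp (2 * A) * Real.exp (-A) := by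
            rw [← Real.exp_add]; ring_nf
          rw [this]
          ring
      _ ≤ Real.exp (2 * A) * (‖y p‖ * Real.exp (-((p.im - m) / S))) := by
          gcongr
  have hyp0 : y p ≠ 0 := by
    intro h
    rw [h, norm_zero] at hyp
    exact absurd hyp (not_lt.2 (by positivity))
  have h2 := P.GC hZ (R := A ^ 3 * S / 2) (a := 2 * A) (c := c) (by positivity) (by linarith)
    hS0 hyp0 h1
  have hcp : c ∈ closedBall p (A ^ 3 * S / 2 / 4) := by
    rw [mem_closedBall, dist_comm]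
    rw [mem_closedBall] at hp
    refine hp.trans ?_
    have : A * 8 ≤ A ^ 3 := by
      nlinarith [mul_nonneg (by linarith : (0:ℝ) ≤ A - 4) (by linarith : (0:ℝ) ≤ A + 4)]
    nlinarith
  have h3 := h2 c hcp
  have e : C * (2 * A) ^ 4 / (A ^ 3 * S / 2) ^ 2 + 2 / S * (C * (2 * A) ^ 2 / (A ^ 3 * S / 2)) =
      (64 * C / A ^ 2 + 16 * C / A) / S ^ 2 := by
    have : A ≠ 0 := by positivity
    field_simp
    ring
  rw [e] at h3
  have h4 : (64 * C / A ^ 2 + 16 * C / A) / S ^ 2 ≤ 1 / 2 / S ^ 2 := by gcongr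
  have h5 : |(G c + 1 / (S : ℂ) ^ 2).re| ≤ 1 / 2 / S ^ 2 :=
    (Complex.abs_re_le_norm _).trans (h3.trans h4)
  have h6 : (G c + 1 / (S : ℂ) ^ 2).re = (G c).re + 1 / S ^ 2 := by
    rw [add_re]
    congr 1
    have : (1 / (S : ℂ) ^ 2) = ((1 / S ^ 2 : ℝ) : ℂ) := by push_cast; rfl
    rw [this, ofReal_re]
  rw [h6] at h5
  have h7 := (abs_le.1 h5).2
  have h8 : 1 / 2 / S ^ 2 < 1 / S ^ 2 := by
    gcongr
    norm_num
  linarith

/-- **the good column**, with numeric hypotheses -/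
theorem Per.column (P : Per y G) (hZ : LemZ C) (hC : 0 ≤ C) (hC1 : 0 < C1) (hκ : 0 < κ)
    (hA : 4 ≤ A) (hL : 1 ≤ L)
    (n3 : C1 * √L * Real.exp (L + 9 * A) ≤ Real.exp (2 * L))
    (n4 : 4 * C * L ^ 8 ≤ κ ^ 2 * Real.exp (2 * L))
    (n5 : Real.exp (-(2 * L)) < κ * Real.exp L) (n6 : Real.exp (-(2 * L)) < ‖y 0‖)
    (n7 : C1 * √L ≤ κ * Real.exp A)
    (n8 : 64 * C / A ^ 2 + 16 * C / A ≤ 1 / 2) (n9 : A ^ 3 ≤ L / 2)
    (hS : 1 / L ^ 2 ≤ S) (hm : S * L / 2 ≤ m)
    (hb : ∀ β : ℝ, |β| ≤ A ^ 3 → ∀ z : ℂ, |z.im| ≤ m + S * β →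
      ‖y z‖ ≤ C1 * √L * Real.exp (L + β)) :
    ∃ x : ℝ, ∀ z ∈ closedBall ((x : ℂ) + m * I) (A * S),
      ‖y z‖ ≤ κ * Real.exp L ∧ ‖G z‖ ≤ κ ^ 2 * Real.exp (2 * L) := by
  have hS0 : 0 < S := lt_of_lt_of_le (by positivity) hS
  have hm0 : 0 < m := lt_of_lt_of_le (by positivity) hm
  by_contra hcon
  push Not at hcon
  have hyc : Continuous y := P.hy.continuous
  set V1 : Set ℝ := {x | ∃ ζ ∈ closedBall (0 : ℂ) (A * S), κ * Real.exp L < ‖y ((x : ℂ) + m * I + ζ)‖}
    with hV1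
  set V2 : Set ℝ := {x | ∀ ζ ∈ closedBall (0 : ℂ) (A * S), ‖y ((x : ℂ) + m * I + ζ)‖ < Real.exp (-(2 * L))}
    with hV2
  have hball : ∀ (x : ℝ) (z : ℂ), z ∈ closedBall ((x : ℂ) + m * I) (A * S) →
      z - ((x : ℂ) + m * I) ∈ closedBall (0 : ℂ) (A * S) := by
    intro x z hz
    simpa [mem_closedBall, dist_eq_norm] using hz
  have hball' : ∀ (x : ℝ) (ζ : ℂ), ζ ∈ closedBall (0 : ℂ) (A * S) →
      (x : ℂ) + m * I + ζ ∈ closedBall ((x : ℂ) + m * I) (A * S) := by
    intro x ζ hζ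
    simpa [mem_closedBall, dist_eq_norm] using hζ
  have hcov : ∀ x, x ∈ V1 ∨ x ∈ V2 := by
    intro x
    obtain ⟨z, hz, hz2⟩ := hcon x
    by_cases h1 : ‖y z‖ ≤ κ * Real.exp L
    · right
      have h2 := hz2 h1
      intro ζ hζ
      by_contra h3
      have := P.colA hZ hC hC1 hκ hA hL n3 n4 n9 hS hm hb (hball' x ζ hζ) (not_lt.1 h3) z hz
      linarith
    · left
      refine ⟨z - ((x : ℂ) + m * I), hball x z hz, ?_⟩
      rw [add_sub_cancel]
      exact not_le.1 h1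
  have hdisj : ∀ x, x ∈ V1 → x ∈ V2 → False := by
    rintro x ⟨ζ, hζ, h1⟩ h2
    have := h2 ζ hζ
    linarith
  have ho1 : IsOpen V1 := by
    have : V1 = ⋃ ζ ∈ closedBall (0 : ℂ) (A * S),
        {x : ℝ | κ * Real.exp L < ‖y ((x : ℂ) + m * I + ζ)‖} := by
      ext x
      simp only [hV1, mem_setOf_eq, mem_iUnion, exists_prop]
    rw [this]
    refine isOpen_biUnion fun ζ _ => isOpen_lt continuous_const ?_
    exact (hyc.comp (by fun_prop)).norm
  have ho2 : IsOpen V2 := by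
    rw [isOpen_iff_mem_nhds]
    intro x hx
    refine (isCompact_closedBall (0 : ℂ) (A * S)).eventually_forall_of_forall_eventually
      (fun ζ hζ => ?_)
    have hcont : Continuous fun q : ℝ × ℂ => ‖y ((q.1 : ℂ) + m * I + q.2)‖ :=
      (hyc.comp (by fun_prop)).norm
    exact hcont.continuousAt.eventually_lt continuousAt_const (hx ζ hζ)
  have hcl1 : IsClosed V1 := by
    have : V1 = V2ᶜ := by
      ext x
      constructor
      · intro h1 h2
        exact hdisj x h1 h2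
      · intro h2
        exact (hcov x).resolve_right h2
    rw [this]
    exact ho2.isClosed_compl
  rcases V1.eq_empty_or_nonempty with h | h
  · have h1 : ∀ x : ℝ, ‖y (x + m * I)‖ ≤ Real.exp (-(2 * L)) := by
      intro x
      have h2 : x ∈ V2 := (hcov x).resolve_left (by rw [h]; exact notMem_empty x)
      have := h2 0 (by simpa using (by positivity : (0:ℝ) ≤ A * S))
      rw [add_zero] at this
      exact this.le
    have := P.strip hm0 h1
    linarith
  · have h1 : V1 = univ := IsClopen.eq_univ ⟨hcl1, ho1⟩ h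
    refine P.mean m fun x => ?_
    have hx : x ∈ V1 := by rw [h1]; trivial
    obtain ⟨ζ, hζ, h2⟩ := hx
    exact P.colC hZ hC hC1 hκ hA hL n7 n8 n9 hS0 hm hb (hball' x ζ hζ) h2

end col

theorem LemZ.nonneg {C : ℝ} (hZ : LemZ C) : 0 ≤ C := by
  obtain ⟨ρ, hρ, h⟩ := hZ (fun _ => 1) 0 1 1 one_pos le_rfl (differentiable_const _) one_ne_zero
    (fun z _ => by simp)
  have hρ0 : 0 ≤ ρ := by linarith [hρ.1]
  have h1 := (h (ρ : ℂ) (by simp [mem_sphere, abs_of_nonneg hρ0])).2.1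
  have h2 := (norm_nonneg _).trans h1
  simpa using h2

/-- **THE GOOD COLUMN** -/
theorem good_column (P : Per y G) {C : ℝ} (hZ : LemZ C) {C' C1 κ : ℝ} (hC' : 1 ≤ C')
    (hC1 : 0 < C1) (hκ : 0 < κ) :
    ∃ L0 : ℝ, ∀ L ≥ L0, ∀ m S : ℝ, 1 / L ^ 2 ≤ S → S * L / 2 ≤ m →
      (∀ β : ℝ, |β| ≤ (C' * Real.log L) ^ 3 → ∀ z : ℂ, |z.im| ≤ m + S * β →
        ‖y z‖ ≤ C1 * √L * Real.exp (L + β)) →
      ∃ x : ℝ, ∀ z ∈ closedBall ((x : ℂ) + m * I) (C' * Real.log L * S),
        ‖y z‖ ≤ κ * Real.exp L ∧ ‖G z‖ ≤ κ ^ 2 * Real.exp (2 * L) := by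
  have hC := hZ.nonneg
  have hC'0 : 0 < C' := by linarith
  have hlog : Tendsto (fun L : ℝ => C' * Real.log L) atTop atTop :=
    Real.tendsto_log_atTop.const_mul_atTop hC'0
  have e1 : ∀ᶠ L : ℝ in atTop, 4 ≤ C' * Real.log L := hlog.eventually_ge_atTop 4
  have e2 : ∀ᶠ L : ℝ in atTop, 1 ≤ L := eventually_ge_atTop 1
  have e3a : ∀ᶠ L : ℝ in atTop, 9 * (C' * Real.log L) ≤ L / 2 := by
    have := Real.isLittleO_log_id_atTop.bound (c := 1 / (18 * C')) (by positivity)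
    filter_upwards [this, e2] with L h1 h2
    rw [Real.norm_of_nonneg (Real.log_nonneg h2), id, Real.norm_of_nonneg (by linarith)] at h1
    have h3 : 9 * C' * Real.log L ≤ 9 * C' * (1 / (18 * C') * L) := by gcongr
    have h4 : 9 * C' * (1 / (18 * C') * L) = L / 2 := by
      field_simp
      ring
    linarith
  have e3b : ∀ᶠ L : ℝ in atTop, C1 * √L ≤ Real.exp (L / 2) := by
    have h0 : Tendsto (fun L : ℝ => L ^ 1 * Real.exp (-L)) atTop (𝓝 0) :=
      Real.tendsto_pow_mul_exp_neg_atTop_nhds_zero 1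
    have h00 : Tendsto (fun L : ℝ => (L / 2) ^ 1 * Real.exp (-(L / 2))) atTop (𝓝 0) :=
      h0.comp (tendsto_id.atTop_div_const (by norm_num))
    have h1 := h00.eventually_lt_const (u := 1 / (2 * C1)) (by positivity)
    filter_upwards [h1, e2] with L h1 h2
    have h3 : √L ≤ L := Real.sqrt_le_iff.2 ⟨by linarith, by nlinarith⟩
    rw [pow_one, Real.exp_neg, ← div_eq_mul_inv, div_lt_div_iff₀ (Real.exp_pos _) (by positivity)]
      at h1
    have h4 : C1 * √L ≤ C1 * L := by gcongr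
    nlinarith
  have e4 : ∀ᶠ L : ℝ in atTop, 4 * C * L ^ 8 ≤ κ ^ 2 * Real.exp (2 * L) := by
    have h0 := (Real.tendsto_pow_mul_exp_neg_atTop_nhds_zero 8).const_mul (4 * C)
    rw [mul_zero] at h0
    have h1 := h0.eventually_lt_const (u := κ ^ 2) (by positivity)
    filter_upwards [h1, e2] with L h1 h2
    rw [← mul_assoc, Real.exp_neg, ← div_eq_mul_inv, div_lt_iff₀ (Real.exp_pos _)] at h1
    refine h1.le.trans ?_
    gcongr
    linarith
  have h5 : Tendsto (fun L : ℝ => Real.exp (-(2 * L))) atTop (𝓝 0) :=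
    Real.tendsto_exp_neg_atTop_nhds_zero.comp (tendsto_id.const_mul_atTop (by norm_num))
  have e5 : ∀ᶠ L : ℝ in atTop, Real.exp (-(2 * L)) < κ * Real.exp L := by
    filter_upwards [h5.eventually_lt_const hκ, e2] with L h1 h2
    exact h1.trans_le (le_mul_of_one_le_right hκ.le (Real.one_le_exp (by linarith)))
  have e6 : ∀ᶠ L : ℝ in atTop, Real.exp (-(2 * L)) < ‖y 0‖ :=
    h5.eventually_lt_const (norm_pos_iff.2 (by simpa using P.y0 0))
  have e7 : ∀ᶠ L : ℝ in atTop, C1 * √L ≤ κ * Real.exp (C' * Real.log L) := by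
    have h1 := (Real.tendsto_sqrt_atTop.const_mul_atTop hκ).eventually_ge_atTop C1
    filter_upwards [h1, e2] with L h1 h2
    have h3 : 0 ≤ Real.log L := Real.log_nonneg h2
    have h4 : Real.exp (Real.log L) ≤ Real.exp (C' * Real.log L) :=
      Real.exp_le_exp.2 (le_mul_of_one_le_left h3 hC')
    rw [Real.exp_log (by linarith)] at h4
    calc C1 * √L ≤ κ * √L * √L := by gcongr
      _ = κ * L := by rw [mul_assoc, Real.mul_self_sqrt (by linarith)]
      _ ≤ _ := by gcongr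
  have e8 : ∀ᶠ L : ℝ in atTop,
      64 * C / (C' * Real.log L) ^ 2 + 16 * C / (C' * Real.log L) ≤ 1 / 2 := by
    have h1 : Tendsto (fun A : ℝ => 64 * C / A ^ 2 + 16 * C / A) atTop (𝓝 0) := by
      have h2 : Tendsto (fun A : ℝ => 64 * C / A ^ 2) atTop (𝓝 0) :=
        (tendsto_pow_atTop two_ne_zero).const_div_atTop _
      have h3 : Tendsto (fun A : ℝ => 16 * C / A) atTop (𝓝 0) :=
        tendsto_id.const_div_atTop _
      simpa using h2.add h3
    exact (hlog.eventually (h1.eventually_lt_const (u := 1 / 2) (by norm_num))).mono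
      fun L h => h.le
  have e9 : ∀ᶠ L : ℝ in atTop, (C' * Real.log L) ^ 3 ≤ L / 2 := by
    have := (Real.isLittleO_pow_log_id_atTop (n := 3)).bound (c := 1 / (2 * C' ^ 3)) (by positivity)
    filter_upwards [this, e2] with L h1 h2
    rw [Real.norm_of_nonneg (pow_nonneg (Real.log_nonneg h2) 3), id,
      Real.norm_of_nonneg (by linarith)] at h1
    have h3 : C' ^ 3 * Real.log L ^ 3 ≤ C' ^ 3 * (1 / (2 * C' ^ 3) * L) := by gcongr
    have h4 : C' ^ 3 * (1 / (2 * C' ^ 3) * L) = L / 2 := by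
      field_simp
    rw [mul_pow]
    linarith
  have hev := e1.and (e2.and (e3a.and (e3b.and (e4.and (e5.and (e6.and (e7.and (e8.and e9))))))))
  obtain ⟨L0, hL0⟩ := eventually_atTop.1 hev
  refine ⟨L0, fun L hL m S hS hm hb => ?_⟩
  obtain ⟨f1, f2, f3a, f3b, f4, f5, f6, f7, f8, f9⟩ := hL0 L hL
  refine P.column hZ hC hC1 hκ f1 f2 ?_ f4 f5 f6 f7 f8 f9 hS hm hb
  calc C1 * √L * Real.exp (L + 9 * (C' * Real.log L))
      ≤ Real.exp (L / 2) * Real.exp (L + L / 2) := by gcongr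
    _ = Real.exp (2 * L) := by rw [← Real.exp_add]; ring_nf

end Crest.Agent.R102.Col516
end
end

-- ▼ part R102/Col_516
section

/-!
Row 102, part (C), Case E (`h0 = ∞`), T1-E: **the good column**, final form.
-/

set_option autoImplicit false

open Set Filter Metric Complex Topology

noncomputable section

namespace Crest.Agent.R102.Col516

theorem lemZ_ex : ∃ C : ℝ, LemZ C := by
  obtain ⟨C, -, h⟩ := LemZ329.lemZ
  refine ⟨C, fun q p R a hR ha hq hp hb => ?_⟩
  obtain ⟨ρ, hρ, h2⟩ := h q p R a hR ha (fun z _ => hq.analyticAt z) hp hb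
  exact ⟨ρ, hρ, fun z hz => ⟨(h2 z hz).1, (h2 z hz).2.1, (h2 z hz).2.2.1⟩⟩

/-- **THE GOOD COLUMN** (COL of T1-E) -/
theorem col {y G : ℂ → ℂ} (hy : Differentiable ℂ y) (hG : Differentiable ℂ G)
    (hyG : ∀ z, deriv (deriv y) z = G z * y z) (hper : ∀ z, y (z + 1) = y z)
    (hreal : ∀ x : ℝ, (y x).im = 0 ∧ 0 < (y x).re) {C' C1 κ : ℝ} (hC' : 1 ≤ C')
    (hC1 : 0 < C1) (hκ : 0 < κ) :
    ∃ L0 : ℝ, ∀ L ≥ L0, ∀ m S : ℝ, 1 / L ^ 2 ≤ S → S * L / 2 ≤ m →
      (∀ β : ℝ, |β| ≤ (C' * Real.log L) ^ 3 → ∀ z : ℂ, |z.im| ≤ m + S * β →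
        ‖y z‖ ≤ C1 * √L * Real.exp (L + β)) →
      ∃ x : ℝ, ∀ z ∈ closedBall ((x : ℂ) + m * I) (C' * Real.log L * S),
        ‖y z‖ ≤ κ * Real.exp L ∧ ‖G z‖ ≤ κ ^ 2 * Real.exp (2 * L) := by
  obtain ⟨C, hC⟩ := lemZ_ex
  exact good_column ⟨hy, hG, hyG, hper, hreal⟩ hC hC' hC1 hκ

end Crest.Agent.R102.Col516
end
end

-- ▼ part R102/T1EColJ_314

/-!
Row 102, T1-E (helper314): the good column (516's `col`) over a window of a concave height `M`.
-/

set_option autoImplicit false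

open Set Filter Topology Metric

noncomputable section

namespace Crest.Agent.R102.T1EColJ314

/-- numerics for large `τ` -/
lemma ev_num {C' : ℝ} (hC' : 1 ≤ C') (T1 τ0 L0 : ℝ) : ∀ᶠ τ : ℝ in atTop,
    (C' * Real.log τ) ^ 3 + 1 ≤ ((C' + 1) * Real.log τ) ^ 3 ∧
    (C' * Real.log τ) ^ 3 + 1 ≤ τ / 2 ∧ 2 * Real.exp (-(τ / 2)) ≤ 1 / (2 * τ ^ 2) ∧
    1 ≤ (C' * Real.log τ) ^ 3 ∧ T1 ≤ τ / 2 ∧ 3 * τ0 ≤ τ ∧ L0 ≤ τ ∧ 4 ≤ τ := by
  have h1 := WinW486.eventually_polylog C' (1 / 2) (by norm_num)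
  have h2 : ∀ᶠ τ : ℝ in atTop, 1 ≤ Real.log τ := by
    filter_upwards [Real.tendsto_log_atTop.eventually_ge_atTop 1] with τ h
    exact h
  have h3 : ∀ᶠ τ : ℝ in atTop, 2 * Real.exp (-(τ / 2)) ≤ 1 / (2 * τ ^ 2) := by
    have h := Real.tendsto_pow_mul_exp_neg_atTop_nhds_zero 2
    have h' : Tendsto (fun τ : ℝ => (τ / 2) ^ 2 * Real.exp (-(τ / 2))) atTop (𝓝 0) :=
      h.comp (tendsto_id.atTop_div_const (by norm_num))
    filter_upwards [h'.eventually (gt_mem_nhds (show (0 : ℝ) < 1 / 16 by norm_num)),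
      eventually_gt_atTop (0 : ℝ)] with τ ht h0
    rw [le_div_iff₀ (by positivity)]
    nlinarith
  filter_upwards [h1, h2, h3, eventually_ge_atTop (2 * T1), eventually_ge_atTop (3 * τ0),
    eventually_ge_atTop L0, eventually_ge_atTop 4] with τ a1 a2 a3 a4 a5 a6 a7
  have b1 : 1 ≤ C' * Real.log τ := by nlinarith
  have b3 : 1 ≤ (C' * Real.log τ) ^ 3 := one_le_pow₀ b1
  refine ⟨?_, ?_, a3, b3, by linarith, a5, a6, a7⟩
  · have e : ((C' + 1) * Real.log τ) = C' * Real.log τ + Real.log τ := by ring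
    rw [e]
    have h0 : 0 ≤ C' * Real.log τ := by linarith
    have hl : 0 ≤ Real.log τ := by linarith
    have : (C' * Real.log τ + Real.log τ) ^ 3 ≥ (C' * Real.log τ) ^ 3 + Real.log τ ^ 3 := by
      have p1 : 0 ≤ (C' * Real.log τ) ^ 2 * Real.log τ := by positivity
      have p2 : 0 ≤ (C' * Real.log τ) * Real.log τ ^ 2 := by positivity
      nlinarith
    have p3 : 1 ≤ Real.log τ ^ 3 := one_le_pow₀ a2
    linarith
  · set A := (C' * Real.log τ) ^ 3 with hA
    have : A + 1 ≤ (2 * A + 1) ^ 2 := by nlinarith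
    nlinarith

/-- `M τ ≥ S τ / 2` -/
lemma low_of_win {M : ℝ → ℝ} {τ0 τ S : ℝ} (hconc : ConcaveOn ℝ (Ici τ0) M) (hM0 : 0 ≤ M τ0)
    (h0 : 0 < τ0) (hτ : 3 * τ0 ≤ τ) (hS : 0 < S) (hlin : |M (τ + 1) - M τ - S * 1| ≤ 1 / 10 * S) :
    S * τ / 2 ≤ M τ := by
  have h1 : τ0 < τ := by linarith
  have h2 := hconc.slope_anti_adjacent (x := τ0) (y := τ) (z := τ + 1) (mem_Ici.2 le_rfl)
    (mem_Ici.2 (by linarith)) h1 (by linarith)
  have h3 : (τ + 1 - τ) = 1 := by ring
  rw [h3, div_one] at h2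
  have h4 : S - 1 / 10 * S ≤ M (τ + 1) - M τ := by
    have := (abs_le.1 hlin).1
    linarith
  rw [le_div_iff₀ (by linarith)] at h2
  have h5 : (S - 1 / 10 * S) * (τ - τ0) ≤ M τ - M τ0 :=
    (mul_le_mul_of_nonneg_right h4 (by linarith)).trans h2
  nlinarith

/-- **the good column over a window** -/
theorem col_joint {M : ℝ → ℝ} {y G : ℂ → ℂ} (hy : Differentiable ℂ y) (hG : Differentiable ℂ G)
    (hyG : ∀ z, deriv (deriv y) z = G z * y z) (hper : ∀ z, y (z + 1) = y z)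
    (hreal : ∀ x : ℝ, (y x).im = 0 ∧ 0 < (y x).re) {C1 T1 τ0 : ℝ} (hC1 : 0 < C1)
    (hconc : ConcaveOn ℝ (Ici τ0) M) (hτ0 : 0 < τ0) (hM0 : 0 ≤ M τ0)
    (hAP : ∀ τ' : ℝ, T1 ≤ τ' → ∀ z : ℂ, |z.im| ≤ M τ' - 2 * Real.exp (-τ') →
      ‖y z‖ ≤ C1 * √τ' * Real.exp τ') {C' κ : ℝ} (hC' : 1 ≤ C') (hκ : 0 < κ) :
    ∃ T : ℝ, ∀ τ ≥ T, ∀ S : ℝ, 1 / τ ^ 2 ≤ S →
      (∀ β : ℝ, |β| ≤ ((C' + 1) * Real.log τ) ^ 3 → |M (τ + β) - M τ - S * β| ≤ 1 / 10 * S) →
      ∃ x : ℝ, ∀ z ∈ closedBall ((x : ℂ) + M τ * Complex.I) (C' * Real.log τ * S),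
        ‖y z‖ ≤ κ * Real.exp τ ∧ ‖G z‖ ≤ κ ^ 2 * Real.exp (2 * τ) := by
  obtain ⟨L0, hL0⟩ := Col516.col hy hG hyG hper hreal hC' (C1 := 4 * C1) (by linarith) hκ
  obtain ⟨T, hT⟩ := eventually_atTop.1 (ev_num hC' T1 τ0 L0)
  refine ⟨T, fun τ hτ S hS hlin => ?_⟩
  obtain ⟨a1, a2, a3, a4, a5, a6, a7, a8⟩ := hT τ hτ
  have hτ1 : (0 : ℝ) < τ := by linarith
  have hS0 : 0 < S := lt_of_lt_of_le (by positivity) hS
  have hlow : S * τ / 2 ≤ M τ := low_of_win hconc hM0 hτ0 a6 hS0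
    (hlin 1 (by rw [abs_one]; linarith))
  refine hL0 τ a7 (M τ) S hS hlow fun β hβ z hz => ?_
  have hβ' : |β + 1| ≤ ((C' + 1) * Real.log τ) ^ 3 := by
    refine (abs_add_le β 1).trans ?_
    rw [abs_one]
    linarith
  have h1 := (abs_le.1 (hlin (β + 1) hβ')).1
  have hβl := (abs_le.1 hβ).1
  have hβu := (abs_le.1 hβ).2
  have hτ' : τ / 2 ≤ τ + (β + 1) := by linarith
  have hτ'2 : τ + (β + 1) ≤ 2 * τ := by linarith
  have he : 2 * Real.exp (-(τ + (β + 1))) ≤ S / 2 := by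
    have e1 : Real.exp (-(τ + (β + 1))) ≤ Real.exp (-(τ / 2)) := Real.exp_le_exp.2 (by linarith)
    have e2 : 1 / (2 * τ ^ 2) = 1 / τ ^ 2 / 2 := by
      field_simp
    rw [e2] at a3
    linarith
  have h2 := hAP (τ + (β + 1)) (by linarith) z (by linarith)
  refine h2.trans ?_
  have e3 : √(τ + (β + 1)) ≤ √2 * √τ := by
    rw [← Real.sqrt_mul (by norm_num)]
    exact Real.sqrt_le_sqrt hτ'2
  have e4 : Real.exp (τ + (β + 1)) = Real.exp 1 * Real.exp (τ + β) := by
    rw [← Real.exp_add]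
    ring_nf
  have e5 : √2 * Real.exp 1 ≤ 4 := by
    have k1 : √2 ≤ 1.415 := by
      rw [Real.sqrt_le_left (by norm_num)]
      norm_num
    have k2 := Real.exp_one_lt_d9
    have k3 := Real.exp_pos 1
    have k4 : √2 * Real.exp 1 ≤ 1.415 * 2.7182818286 := by
      gcongr
    refine k4.trans ?_
    norm_num
  calc C1 * √(τ + (β + 1)) * Real.exp (τ + (β + 1))
      ≤ C1 * (√2 * √τ) * (Real.exp 1 * Real.exp (τ + β)) := by
        rw [e4]
        gcongr
    _ = C1 * (√2 * Real.exp 1) * √τ * Real.exp (τ + β) := by ring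
    _ ≤ C1 * 4 * √τ * Real.exp (τ + β) := by gcongr
    _ = 4 * C1 * √τ * Real.exp (τ + β) := by ring

end Crest.Agent.R102.T1EColJ314
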