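import Crest.Agent.R102.T1ETop_314
import Crest.Agent.R102.GrowthDefs_314
import Crest.Agent.R102.T1EColJ_314

-- ▼ part R102/GrowTop_314
section

/-!
Row 102, block GROWTH (helper314): the official line set of Case B: `LV`, periodicity, parity,
`(s, 0)` is singular for `Im s = h0`, `{Im t < c} × {‖w‖ < δ(c)}` is regular for `c < h0`;
`Spine.GoodW` from a top line carrying a regular and a singular point.
-/

set_option autoImplicit false

open Set Filter Topology Metric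
open scoped ComplexConjugate

noncomputable section

namespace Crest.Agent.R102.GrowTop314

open Crest.Agent.R102.T5 Crest.Agent.R102.C0 Crest.Agent.R102.C1 Crest.Agent.R102.K669
open Crest.Agent.R102.Sh982 Crest.Agent.R102.Out559 Crest.Agent.R102.Spine
open Crest.Agent.R102.T1ETop314 (Om mem_SL)

variable {q : C(ℂ, ℂ)} {η ρ r B h0 : ℝ} {b φ p : ℂ × ℂ → ℂ} {m₀ θ H : ℂ → ℂ}

lemma lvS (D : DataS q η ρ r B b φ p m₀ θ H h0) : LV (ρ / 2) (ball 0 r) (Om φ p ρ r) :=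
  (dat_of D).lvL'

lemma lowS (D : DataS q η ρ r B b φ p m₀ θ H h0) {t w : ℂ} (ht : t.im < ρ / 2) (hw : ‖w‖ < r) :
    (t, w) ∈ Om φ p ρ r := by
  have := D.fam.ρ_pos
  exact Out559.slab_OmL D.fam (by linarith) (by linarith) le_rfl ht hw

lemma perS (D : DataS q η ρ r B b φ p m₀ θ H h0) : T1EJ712.Per (Om φ p ρ r) 1 := by
  intro t w n h
  have := D.fam.ρ_pos
  have h1 := (Out559.OmL_add_int D.fam (y1 := -(ρ / 2)) (y0 := ρ / 2) (r' := r) (t := t) (w := w)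
    (by linarith) (by linarith) le_rfl n).2 h
  simpa using h1

lemma norm_ltS (D : DataS q η ρ r B b φ p m₀ θ H h0) {t w : ℂ} (h : (t, w) ∈ Om φ p ρ r) :
    ‖w‖ < r := by
  have := (lvS D).sub _ h
  simpa using this

lemma evenS (D : DataS q η ρ r B b φ p m₀ θ H h0) {t w : ℂ} (h : (t, w) ∈ Om φ p ρ r) :
    (t, -w) ∈ Om φ p ρ r := by
  have hρ := D.fam.ρ_pos
  have hw := norm_ltS D h
  rcases lt_or_ge t.im (ρ / 2) with h1 | h1
  · exact lowS D h1 (by rwa [norm_neg])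
  have h2 : (t, w) ∈ SL φ p ρ r := (mem_SL (by linarith)).2 h
  have h3 := ((dat_of D).per_SL (σ := 1) (Or.inl rfl) (κ := -1) (Or.inr rfl) h2).1
  simp only [Complex.ofReal_one, neg_one_mul] at h3
  have h4 : (t + 1, -w) ∈ Om φ p ρ r := (Sh982.SL_iff.1 h3).1
  have h5 := perS D (t + 1) (-w) (-1) h4
  simpa using h5

/-- `{Im t < c} × {‖w‖ < δ}` is in the line set for `c < h0` -/
theorem hextS (D : DataS q η ρ r B b φ p m₀ θ H h0) {c : ℝ} (hc0 : c < h0) :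
    ∃ δ > 0, ∀ w : ℂ, ‖w‖ < δ → ∀ t : ℂ, t.im < c → (t, w) ∈ Om φ p ρ r := by
  have hρ := D.fam.ρ_pos
  have hρη := D.fam.ρ_lt
  have hle := D.le
  set m : ℝ := max c ρ with hm
  have hm1 : c ≤ m := le_max_left _ _
  have hm2 : ρ ≤ m := le_max_right _ _
  have hm3 : m < h0 := max_lt hc0 (by linarith)
  set h' : ℝ := (m + h0) / 2 with hh'
  have hmh : m < h' := by rw [hh']; linarith
  obtain ⟨r', B', b', φ', p', hr0, hrr, F, hag, -, -⟩ := extS q η ρ r B b φ p m₀ D.fam θ H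
    (Str h0) h0 h' D.ext subset_rfl (by linarith) (by rw [hh']; linarith)
  refine ⟨r', hr0, fun w hw t ht => ?_⟩
  rcases lt_or_ge t.im (ρ / 2) with h1 | h1
  · exact lowS D h1 (hw.trans_le hrr)
  set ε : ℝ := min (r' - ‖w‖) (h' - m) with hε
  have hε0 : 0 < ε := lt_min (by linarith) (by linarith)
  have e1 : ε ≤ r' - ‖w‖ := min_le_left _ _
  have e2 : ε ≤ h' - m := min_le_right _ _
  have hn : ∀ z : ℂ, ‖z - w‖ < ε → ‖z‖ < r' := by
    intro z hz
    have := norm_add_le (z - w) w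
    rw [sub_add_cancel] at this
    linarith
  have hsub : K669.Tube (-(ρ / 2)) (t, w) ε ⊆ Str h' ×ˢ ball 0 r' := by
    rintro ⟨t', w'⟩ ⟨a1, a2, a3, a4⟩
    simp only at a1 a2 a3 a4
    refine ⟨?_, ?_⟩
    · change |t'.im| < h'
      exact abs_lt.2 ⟨by linarith, by linarith⟩
    · rw [mem_ball_zero_iff]
      exact hn _ a4
  refine ⟨ε, hε0, ?_, fun x => (φ' x, p' x), (F.φ_diff.mono hsub).prodMk (F.p_diff.mono hsub),
    fun _ _ => mem_univ _, ?_⟩
  · intro z hz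
    rw [mem_ball, dist_eq_norm] at hz
    rw [mem_ball_zero_iff]
    exact (hn z hz).trans_le hrr
  · rintro ⟨t', w'⟩ ⟨a1, a2, a3, a4⟩ h2
    simp only at a1 a2 a3 a4 h2
    have h3 : (t', w') ∈ PD ρ r' := ⟨abs_lt.2 ⟨by simp only; linarith, by simp only; linarith⟩,
      hn _ a4⟩
    obtain ⟨-, h4, h5⟩ := hag t' w' h3
    simp only [h4, h5]

/-- the label set of Case B -/
abbrev OmB (b : ℂ × ℂ → ℂ) (ρ r h0 : ℝ) : Set (ℂ × ℂ) :=
  Out559.OmX b (Str h0) (-(ρ / 2)) (ρ / 2) r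

/-- **`GoodW` from a top line with a regular and a singular point** -/
theorem goodWS (D : DataS q η ρ r B b φ p m₀ θ H h0) {u U : ℝ} (hu : 0 < u) (hur : u < r)
    (hirr : Irrational u)
    (hrule : ∀ t : ℂ, 0 ≤ t.im → (t - u / 2, (u : ℂ)) ∈ Om φ p ρ r →
      (t + u / 2, (u : ℂ)) ∈ Om φ p ρ r → (t, (u : ℂ)) ∈ OmB b ρ r h0)
    (hlow : ∀ t : ℂ, t.im < U → (t, (u : ℂ)) ∈ Om φ p ρ r)
    (hs : ∃ s : ℂ, s.im = U ∧ (s, (u : ℂ)) ∉ Om φ p ρ r)
    (hg : ∃ s : ℂ, s.im = U ∧ (s, (u : ℂ)) ∈ Om φ p ρ r) : GoodW ρ r b φ p (Str h0) u := by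
  have hρ := D.fam.ρ_pos
  have hun : ‖(u : ℂ)‖ < r := by rwa [Complex.norm_real, Real.norm_of_nonneg hu.le]
  have hL : ∀ s : ℂ, Spine.RegL ρ r φ p s u ↔ (s, (u : ℂ)) ∈ Om φ p ρ r := fun s =>
    regL_iff D.fam.φ_diff D.fam.p_diff hρ (by linarith) (by linarith) (by linarith)
      (by linarith) le_rfl hun
  have hX : ∀ s : ℂ, Spine.RegAt ρ r b (Str h0) s u ↔ (s, (u : ℂ)) ∈ OmB b ρ r h0 := fun s =>
    regAt_iff D.fam.b_diff (fun _ hx => Out559.b_mem_Str D.fam D.le _ hx) hρ (by linarith)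
      (by linarith) (by linarith) (by linarith) le_rfl hun
  have hU : 0 < U := by
    obtain ⟨s, hs1, hs2⟩ := hs
    by_contra hcon
    push Not at hcon
    exact hs2 (lowS D (by linarith) hun)
  refine ⟨hirr, hu, hur, U, hU, fun s h0 h1 => ⟨(hL s).2 (hlow s h1), (hX s).2 ?_⟩, ?_, ?_⟩
  · refine hrule s h0 (hlow _ ?_) (hlow _ ?_)
    · have : (s - u / 2).im = s.im := by simp
      rw [this]
      exact h1
    · have : (s + u / 2).im = s.im := by simp
      rw [this]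
      exact h1
  · obtain ⟨s, hs1, hs2⟩ := hs
    exact ⟨s, hs1, fun h => hs2 ((hL s).1 h)⟩
  · obtain ⟨s, hs1, hs2⟩ := hg
    exact ⟨s, hs1, (hL s).2 hs2⟩

/-- **the top line at `w = 0`**: `(s, 0)` is singular if `(θ, H)` is singular at `s` -/
theorem top_zero (D : DataS q η ρ r B b φ p m₀ θ H h0) {s : ℂ} (hs : s.im = h0)
    (hnb : ¬ RegB h0 θ H s) : (s, (0 : ℂ)) ∉ Om φ p ρ r := by
  have hρ := D.fam.ρ_pos
  have hρη := D.fam.ρ_lt
  have hle := D.le
  have hr := D.fam.r_pos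
  rintro ⟨ε, hε, hεW, G, hG, -, hGF⟩
  set c : ℝ := min ε (ρ / 4) with hc
  have hc0 : 0 < c := lt_min hε (by positivity)
  have hc1 : c ≤ ε := min_le_left _ _
  have hc2 : c ≤ ρ / 4 := min_le_right _ _
  -- slices
  have hslice : DifferentiableOn ℂ (fun z : ℂ => G (z, (0 : ℂ)))
      {z : ℂ | |z.re - s.re| < ε ∧ -(ρ / 2) < z.im ∧ z.im < s.im + ε} := by
    refine hG.comp (by fun_prop) ?_
    rintro z ⟨h1, h2, h3⟩
    exact ⟨h1, h2, h3, by simpa using hε⟩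
  set A : Set ℂ := {z : ℂ | |z.re - s.re| < ε ∧ -(ρ / 2) < z.im ∧ z.im < h0} with hA
  have hAo : IsOpen A := by
    have c1 : Continuous fun z : ℂ => |z.re - s.re| := by fun_prop
    exact (isOpen_lt c1 continuous_const).inter
      ((isOpen_lt continuous_const Complex.continuous_im).inter
        (isOpen_lt Complex.continuous_im continuous_const))
  have hAc : Convex ℝ A := by
    have e1 : {z : ℂ | |z.re - s.re| < ε} = {z : ℂ | s.re - ε < z.re} ∩ {z : ℂ | z.re < s.re + ε} := by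
      ext z
      constructor
      · intro h
        have := abs_lt.1 (show |z.re - s.re| < ε from h)
        exact ⟨by show s.re - ε < z.re; linarith, by show z.re < s.re + ε; linarith⟩
      · rintro ⟨h1, h2⟩
        have h1' : s.re - ε < z.re := h1
        have h2' : z.re < s.re + ε := h2
        show |z.re - s.re| < ε
        exact abs_lt.2 ⟨by linarith, by linarith⟩
    have e2 : Convex ℝ {z : ℂ | |z.re - s.re| < ε} := by
      rw [e1]
      exact ((convex_Ioi (s.re - ε)).linear_preimage Complex.reLm).inter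
        ((convex_Iio (s.re + ε)).linear_preimage Complex.reLm)
    exact e2.inter (((convex_Ioi (-(ρ / 2))).linear_preimage Complex.imLm).inter
      ((convex_Iio h0).linear_preimage Complex.imLm))
  have hAstr : A ⊆ Str h0 := by
    rintro z ⟨-, h2, h3⟩
    exact abs_lt.2 ⟨by linarith, h3⟩
  -- the base point
  set z0 : ℂ := (s.re : ℂ) with hz0
  have hz0A : z0 ∈ A := by
    refine ⟨by simpa [hz0] using hε, by simp [hz0]; linarith, by simp [hz0]; linarith⟩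
  have hPD : ∀ z : ℂ, |z.im| < ρ / 2 → ((z, (0 : ℂ)) : ℂ × ℂ) ∈ PD ρ r := fun z hz =>
    ⟨by simp only; linarith, by simpa using hr⟩
  have hbase : ∀ z : ℂ, |z.im| < ρ / 2 → |z.re - s.re| < ε → G (z, 0) = (θ z, H z) := by
    intro z hz hzr
    have hz' := abs_lt.1 hz
    have h1 := hGF (z, 0) ⟨hzr, hz'.1, by simp only; linarith, by simpa using hε⟩
      (by simp only; linarith)
    rw [h1]
    have hzη : z ∈ Str η := by show |z.im| < η; linarith
    have h2 : φ (z, 0) = Tc q z := D.fam.φ_zero z (by linarith)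
    have h3 : b (z, 0) = z := by
      have := D.fam.b_near (z, 0) (hPD z hz)
      simp only [norm_zero, ne_eq, OfNat.ofNat_ne_zero, not_false_eq_true, zero_pow, mul_zero] at this
      exact sub_eq_zero.1 (norm_le_zero_iff.1 this)
    have hp : p (z, 0) = Hc q z := by
      have h4 := (dat_of D).base_sum (s := 1) (Or.inl rfl) (t := z) (w := 0) (hPD z hz)
        (by simpa using hPD z hz) (by simpa using hPD z hz)
      simp only [mul_zero, zero_div, sub_zero, add_zero] at h4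
      rw [h3, h2, D.ext.θ_eq z hzη, D.ext.H_eq z hzη, sub_self, Complex.cos_zero, mul_one] at h4
      have h5 : (2 : ℂ) * p (z, 0) = 2 * Hc q z := by
        linear_combination h4
      exact mul_left_cancel₀ two_ne_zero h5
    show (φ (z, 0), p (z, 0)) = (θ z, H z)
    rw [h2, hp, D.ext.θ_eq z hzη, D.ext.H_eq z hzη]
  have hev : (fun z : ℂ => G (z, (0 : ℂ))) =ᶠ[𝓝 z0] fun z => (θ z, H z) := by
    have k1 : ∀ᶠ z : ℂ in 𝓝 z0, |z.im| < ρ / 2 := by
      have c1 : Continuous fun z : ℂ => |z.im| := by fun_prop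
      refine (c1.tendsto z0).eventually (Iio_mem_nhds ?_)
      simp [hz0, hρ]
    filter_upwards [k1, hAo.mem_nhds hz0A] with z h1 h2
    exact hbase z h1 h2.1
  have hA1 : AnalyticOnNhd ℂ (fun z : ℂ => G (z, (0 : ℂ))) A :=
    (hslice.mono fun z hz => ⟨hz.1, hz.2.1, by have := hz.2.2; linarith⟩).analyticOnNhd hAo
  have hA2 : AnalyticOnNhd ℂ (fun z : ℂ => ((θ z, H z) : ℂ × ℂ)) A :=
    ((D.ext.θ_diff.mono hAstr).prodMk (D.ext.H_diff.mono hAstr)).analyticOnNhd hAo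
  have heq := hA1.eqOn_of_preconnected_of_eventuallyEq hA2 hAc.isPreconnected hz0A hev
  have hball : ball s c ⊆ {z : ℂ | |z.re - s.re| < ε ∧ -(ρ / 2) < z.im ∧ z.im < s.im + ε} := by
    intro z hz
    rw [mem_ball, dist_eq_norm] at hz
    have h1 := Complex.abs_re_le_norm (z - s)
    have h2 := Complex.abs_im_le_norm (z - s)
    rw [Complex.sub_re] at h1
    rw [Complex.sub_im] at h2
    have h3 := abs_lt.1 (h2.trans_lt hz)
    exact ⟨by linarith, by linarith, by linarith⟩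
  refine hnb ⟨c, hc0, fun z => (G (z, 0)).1, fun z => (G (z, 0)).2, (hslice.mono hball).fst,
    (hslice.mono hball).snd, fun z hz hzi => ?_⟩
  have h1 := hball hz
  have h2 : z ∈ A := ⟨h1.1, h1.2.1, (abs_lt.1 hzi).2⟩
  have h3 : G (z, 0) = (θ z, H z) := heq h2
  exact ⟨congrArg Prod.fst h3, congrArg Prod.snd h3⟩

/-- no full slab is regular, and the height is at most `h0` -/
theorem finS (D : DataS q η ρ r B b φ p m₀ θ H h0) (hnb : ∀ s : ℂ, s.im = h0 → ¬ RegB h0 θ H s)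
    {r' : ℝ} (hr' : 0 < r') : T1EJ712.Fin' (Om φ p ρ r) r' :=
  ⟨0, h0 * Complex.I, by simpa using hr'.le, top_zero D (by simp) (hnb _ (by simp))⟩

theorem MM_le (D : DataS q η ρ r B b φ p m₀ θ H h0) (hnb : ∀ s : ℂ, s.im = h0 → ¬ RegB h0 θ H s)
    {τ : ℝ} (hτ : Real.exp (-τ) < r) : T1EJ712.MM (Om φ p ρ r) τ ≤ h0 := by
  by_contra hcon
  push Not at hcon
  refine top_zero D (s := h0 * Complex.I) (by simp) (hnb _ (by simp)) ?_
  refine T1EJ712.mem_of_lt_mm (T1EJ712.LS.of_LV (lvS D)) hτ (by simpa using (Real.exp_pos _).le) ?_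
  have : (h0 * Complex.I : ℂ).im = h0 := by simp
  rw [this]
  exact hcon

theorem MM_tendstoS (D : DataS q η ρ r B b φ p m₀ θ H h0)
    (hnb : ∀ s : ℂ, s.im = h0 → ¬ RegB h0 θ H s) :
    Tendsto (T1EJ712.MM (Om φ p ρ r)) atTop (𝓝 h0) := by
  rw [tendsto_order]
  have hr := D.fam.r_pos
  have hev : ∀ᶠ τ : ℝ in atTop, Real.exp (-τ) < r :=
    (Real.tendsto_exp_neg_atTop_nhds_zero).eventually (gt_mem_nhds hr)
  constructor
  · intro c hc
    obtain ⟨δ, hδ, h1⟩ := hextS D (c := (c + h0) / 2) (by linarith)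
    filter_upwards [(Real.tendsto_exp_neg_atTop_nhds_zero).eventually (gt_mem_nhds hδ)] with τ hτ
    refine lt_of_lt_of_le (show c < (c + h0) / 2 by linarith) ?_
    exact T1EJ712.le_mm (finS D hnb (Real.exp_pos _)) fun w hw t ht => h1 w (hw.trans_lt hτ) t ht
  · intro c hc
    filter_upwards [hev] with τ hτ
    exact (MM_le D hnb hτ).trans_lt hc

end Crest.Agent.R102.GrowTop314
end
end

-- ▼ part R102/GrowColJ_314

/-!
Row 102, block GROWTH (helper314): the good column (`COLK`) over a window of order `k` of a concave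
height `M ≤ h0`; the complementary case gives the growth bound.
-/

set_option autoImplicit false

open Set Filter Topology Metric

noncomputable section

namespace Crest.Agent.R102.GrowColJ314

open Crest.Agent.R102.Growth Crest.Agent.R102.T5

lemma ev_exp (k : ℕ) : ∀ᶠ τ : ℝ in atTop, 2 * Real.exp (-(τ / 2)) ≤ 1 / (2 * τ ^ k) := by
  have h := Real.tendsto_pow_mul_exp_neg_atTop_nhds_zero k
  have h' : Tendsto (fun τ : ℝ => (τ / 2) ^ k * Real.exp (-(τ / 2))) atTop (𝓝 0) :=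
    h.comp (tendsto_id.atTop_div_const (by norm_num))
  have hc : (0 : ℝ) < 1 / (4 * 2 ^ k) := by positivity
  filter_upwards [h'.eventually (gt_mem_nhds hc), eventually_gt_atTop (0 : ℝ)] with τ ht h0
  rw [le_div_iff₀ (by positivity)]
  have e : (τ / 2) ^ k = τ ^ k / 2 ^ k := div_pow _ _ _
  rw [e] at ht
  have h2 : (0 : ℝ) < 2 ^ k := by positivity
  have h3 : τ ^ k / 2 ^ k * Real.exp (-(τ / 2)) = τ ^ k * Real.exp (-(τ / 2)) / 2 ^ k := by ring
  rw [h3, div_lt_iff₀ h2] at ht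
  have h4 : 1 / (4 * 2 ^ k) * 2 ^ k = (1 : ℝ) / 4 := by field_simp
  rw [h4] at ht
  nlinarith

/-- **the good column over a window of order `k`** -/
theorem col_jointK (hCOL : COLK) {k : ℕ} (hk : 2 ≤ k) {h0 : ℝ} (hh0 : 0 < h0) {M : ℝ → ℝ}
    {y G : ℂ → ℂ} (hy : DifferentiableOn ℂ y (Str h0)) (hG : DifferentiableOn ℂ G (Str h0))
    (hyG : ∀ z ∈ Str h0, deriv (deriv y) z = G z * y z)
    (hper : ∀ z ∈ Str h0, y (z + 1) = y z)
    (hreal : ∀ x : ℝ, (y x).im = 0 ∧ 0 < (y x).re) {C1 T1 τ0 : ℝ} (hC1 : 0 < C1)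
    (hconc : ConcaveOn ℝ (Ici τ0) M) (hτ0 : 0 < τ0) (hM0 : 0 ≤ M τ0)
    (hMle : ∀ τ' : ℝ, τ0 ≤ τ' → M τ' ≤ h0)
    (hAP : ∀ τ' : ℝ, T1 ≤ τ' → ∀ z : ℂ, |z.im| ≤ M τ' - 2 * Real.exp (-τ') →
      ‖y z‖ ≤ C1 * √τ' * Real.exp τ') {C' κ : ℝ} (hC' : 1 ≤ C') (hκ : 0 < κ) :
    ∃ T : ℝ, ∀ τ ≥ T, ∀ S : ℝ, 1 / τ ^ k ≤ S →
      (∀ β : ℝ, |β| ≤ ((C' + 1) * Real.log τ) ^ 3 → |M (τ + β) - M τ - S * β| ≤ 1 / 10 * S) →
      M τ + C' * Real.log τ * S < h0 ∧
      ∃ x : ℝ, ∀ z ∈ closedBall ((x : ℂ) + M τ * Complex.I) (C' * Real.log τ * S),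
        ‖y z‖ ≤ κ * Real.exp τ ∧ ‖G z‖ ≤ κ ^ 2 * Real.exp (2 * τ) := by
  obtain ⟨L0, hL0⟩ := hCOL k h0 y G hk hh0 hy hG hyG hper hreal C' (4 * C1) κ hC' (by linarith) hκ
  have hlog : ∀ᶠ τ : ℝ in atTop, 1 ≤ Real.log τ := Real.tendsto_log_atTop.eventually_ge_atTop 1
  obtain ⟨T, hT⟩ := eventually_atTop.1 ((T1EColJ314.ev_num hC' T1 τ0 L0).and
    ((ev_exp k).and (hlog.and (eventually_ge_atTop (2 * τ0)))))
  refine ⟨T, fun τ hτ S hS hlin => ?_⟩
  obtain ⟨⟨a1, a2, -, a4, a5, a6, a7, a8⟩, a3, a9, a10⟩ := hT τ hτ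
  have hτ1 : (0 : ℝ) < τ := by linarith
  have hS0 : 0 < S := lt_of_lt_of_le (by positivity) hS
  have hlow : S * τ / 2 ≤ M τ := T1EColJ314.low_of_win hconc hM0 hτ0 a6 hS0
    (hlin 1 (by rw [abs_one]; linarith))
  set A : ℝ := (C' * Real.log τ) ^ 3 with hA
  have hCl : 1 ≤ C' * Real.log τ := by nlinarith
  have hAC : C' * Real.log τ ≤ A := by
    rw [hA]
    nlinarith [sq_nonneg (C' * Real.log τ - 1)]
  have hβ1 : |A + 1| ≤ ((C' + 1) * Real.log τ) ^ 3 := by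
    rw [abs_of_nonneg (by linarith)]
    exact a1
  have htop := (abs_le.1 (hlin (A + 1) hβ1)).1
  have hMtop := hMle (τ + (A + 1)) (by linarith)
  have hmA : M τ + S * A < h0 := by nlinarith
  refine ⟨by nlinarith, ?_⟩
  refine hL0 τ a7 (M τ) S hS hlow hmA fun β hβ z hz => ?_
  have hβ' : |β + 1| ≤ ((C' + 1) * Real.log τ) ^ 3 := by
    refine (abs_add_le β 1).trans ?_
    rw [abs_one]
    linarith
  have h1 := (abs_le.1 (hlin (β + 1) hβ')).1
  have hβl := (abs_le.1 hβ).1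
  have hβu := (abs_le.1 hβ).2
  have hτ' : τ / 2 ≤ τ + (β + 1) := by linarith
  have hτ'2 : τ + (β + 1) ≤ 2 * τ := by linarith
  have he : 2 * Real.exp (-(τ + (β + 1))) ≤ S / 2 := by
    have e1 : Real.exp (-(τ + (β + 1))) ≤ Real.exp (-(τ / 2)) := Real.exp_le_exp.2 (by linarith)
    have e2 : 1 / (2 * τ ^ k) = 1 / τ ^ k / 2 := by
      field_simp
    rw [e2] at a3
    linarith
  have h2 := hAP (τ + (β + 1)) (by linarith) z (by linarith)
  refine h2.trans ?_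
  have e3 : √(τ + (β + 1)) ≤ √2 * √τ := by
    rw [← Real.sqrt_mul (by norm_num)]
    exact Real.sqrt_le_sqrt hτ'2
  have e4 : Real.exp (τ + (β + 1)) = Real.exp 1 * Real.exp (τ + β) := by
    rw [← Real.exp_add]
    ring_nf
  have e5 : √2 * Real.exp 1 ≤ 4 := by
    have k1 : √2 ≤ 1.415 := by
      rw [Real.sqrt_le_left (by norm_num)]
      norm_num
    have k2 := Real.exp_one_lt_d9
    have k3 := Real.exp_pos 1
    have k4 : √2 * Real.exp 1 ≤ 1.415 * 2.7182818286 := by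
      gcongr
    refine k4.trans ?_
    norm_num
  calc C1 * √(τ + (β + 1)) * Real.exp (τ + (β + 1))
      ≤ C1 * (√2 * √τ) * (Real.exp 1 * Real.exp (τ + β)) := by
        rw [e4]
        gcongr
    _ = C1 * (√2 * Real.exp 1) * √τ * Real.exp (τ + β) := by ring
    _ ≤ C1 * 4 * √τ * Real.exp (τ + β) := by gcongr
    _ = 4 * C1 * √τ * Real.exp (τ + β) := by ring

set_option maxHeartbeats 1000000 in
/-- **growth from the speed of the heights** -/
theorem growth_of {h0 : ℝ} (hh0 : 0 < h0) {M : ℝ → ℝ} {y G : ℂ → ℂ} {C1 T1 C2 : ℝ} {k : ℕ}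
    (hC1 : 0 < C1) (hC2 : 0 < C2) (hT1 : 1 ≤ T1)
    (hM : ∀ τ : ℝ, T1 ≤ τ → h0 - M τ ≤ C2 * (τ ^ (k + 1))⁻¹)
    (hAP : ∀ τ : ℝ, T1 ≤ τ → ∀ z : ℂ, |z.im| ≤ M τ - 2 * Real.exp (-τ) →
      ‖y z‖ ≤ C1 * √τ * Real.exp τ ∧ ‖G z‖ ≤ C1 ^ 2 * τ * Real.exp (2 * τ)) :
    ∃ C : ℝ, 0 < C ∧ ∀ d : ℝ, 0 < d → d < h0 → ∀ z : ℂ, |z.im| ≤ h0 - d →
      Real.log (1 + ‖y z‖ + ‖G z‖) ≤ C * d ^ (-(1 / ((k : ℝ) + 1))) := by
  obtain ⟨T2, hT2⟩ := eventually_atTop.1 (ev_exp (k + 1))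
  set T : ℝ := max T1 T2 with hT
  have hT1' : T1 ≤ T := le_max_left _ _
  have hT0 : 1 ≤ T := hT1.trans hT1'
  have hk : (0 : ℝ) < (k : ℝ) + 1 := by positivity
  set e : ℝ := 1 / ((k : ℝ) + 1) with he
  have he0 : 0 < e := by positivity
  -- the constant
  set P : ℝ := (C2 + 1) ^ e with hP
  have hP1 : 1 ≤ P := Real.one_le_rpow (by linarith) he0.le
  set Q : ℝ := Real.log (1 + C1 + C1 ^ 2) + 4 with hQ
  have hQ0 : 4 ≤ Q := by
    have : 0 ≤ Real.log (1 + C1 + C1 ^ 2) := Real.log_nonneg (by nlinarith [sq_nonneg C1])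
    linarith
  refine ⟨Q * (P + T * (h0 ^ e + 1)), by positivity, fun d hd hdh z hz => ?_⟩
  have hde : 0 < d ^ (-e) := Real.rpow_pos_of_pos hd _
  set τ : ℝ := P * d ^ (-e) + T with hτ
  have hPd : 0 < P * d ^ (-e) := by positivity
  have hτT : T ≤ τ := by linarith
  have hτ1 : 1 ≤ τ := hT0.trans hτT
  have hpow : (C2 + 1) / d ≤ τ ^ (k + 1) := by
    have h1 : (P * d ^ (-e)) ^ (k + 1) ≤ τ ^ (k + 1) := by
      gcongr
      linarith
    refine le_trans (le_of_eq ?_) h1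
    rw [mul_pow, hP, ← Real.rpow_natCast, ← Real.rpow_mul (by linarith), ← Real.rpow_natCast,
      ← Real.rpow_mul hd.le]
    have e1 : e * ((k + 1 : ℕ) : ℝ) = 1 := by
      rw [he]
      push_cast
      field_simp
    have e2 : -e * ((k + 1 : ℕ) : ℝ) = -1 := by rw [neg_mul, e1]
    rw [e1, e2, Real.rpow_one, Real.rpow_neg_one, div_eq_mul_inv]
  have hτk : 0 < τ ^ (k + 1) := by positivity
  have h3 : (C2 + 1) * (τ ^ (k + 1))⁻¹ ≤ d := by
    rw [div_le_iff₀ hd] at hpow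
    rw [← div_eq_mul_inv, div_le_iff₀ hτk]
    linarith
  have h4 := hM τ (hT1'.trans hτT)
  have h5 : 2 * Real.exp (-τ) ≤ (τ ^ (k + 1))⁻¹ := by
    have h6 := hT2 τ ((le_max_right _ _).trans hτT)
    have h7 : Real.exp (-τ) ≤ Real.exp (-(τ / 2)) := Real.exp_le_exp.2 (by linarith)
    have h8 : 1 / (2 * τ ^ (k + 1)) = (τ ^ (k + 1))⁻¹ / 2 := by
      field_simp
    rw [h8] at h6
    have h9 : 0 < (τ ^ (k + 1))⁻¹ := by positivity
    linarith
  have h10 : |z.im| ≤ M τ - 2 * Real.exp (-τ) := by nlinarith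
  obtain ⟨b1, b2⟩ := hAP τ (hT1'.trans hτT) z h10
  have hτ0 : 0 < τ := by linarith
  have hs : √τ ≤ τ := by
    rw [Real.sqrt_le_left (by linarith)]
    nlinarith
  have hte : τ ≤ Real.exp τ := by
    have := Real.add_one_le_exp τ
    linarith
  have b3 : ‖y z‖ ≤ C1 * Real.exp (3 * τ) := by
    refine b1.trans ?_
    have : √τ * Real.exp τ ≤ Real.exp (3 * τ) := by
      have e1 : Real.exp (3 * τ) = Real.exp τ * Real.exp τ * Real.exp τ := by
        rw [← Real.exp_add, ← Real.exp_add]; ring_nf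
      rw [e1]
      have e2 : 1 ≤ Real.exp τ := Real.one_le_exp (by linarith)
      have e3 : √τ ≤ Real.exp τ := hs.trans hte
      have e4 : √τ * Real.exp τ ≤ Real.exp τ * Real.exp τ := by gcongr
      have e5 : 0 ≤ Real.exp τ * Real.exp τ := by positivity
      nlinarith
    rw [mul_assoc]
    gcongr
  have b4 : ‖G z‖ ≤ C1 ^ 2 * Real.exp (3 * τ) := by
    refine b2.trans ?_
    have : τ * Real.exp (2 * τ) ≤ Real.exp (3 * τ) := by
      have e1 : Real.exp (3 * τ) = Real.exp τ * Real.exp (2 * τ) := by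
        rw [← Real.exp_add]; ring_nf
      rw [e1]
      gcongr
    rw [mul_assoc]
    gcongr
  have b5 : 1 + ‖y z‖ + ‖G z‖ ≤ (1 + C1 + C1 ^ 2) * Real.exp (3 * τ) := by
    have : 1 ≤ Real.exp (3 * τ) := Real.one_le_exp (by linarith)
    nlinarith
  have b6 : Real.log (1 + ‖y z‖ + ‖G z‖) ≤ Real.log (1 + C1 + C1 ^ 2) + 3 * τ := by
    have h11 : 0 < 1 + ‖y z‖ + ‖G z‖ := by positivity
    refine (Real.log_le_log h11 b5).trans ?_
    rw [Real.log_mul (by positivity) (Real.exp_pos _).ne', Real.log_exp]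
  have b7 : Real.log (1 + ‖y z‖ + ‖G z‖) ≤ Q * τ := by
    have : 0 ≤ Real.log (1 + C1 + C1 ^ 2) := Real.log_nonneg (by nlinarith [sq_nonneg C1])
    rw [hQ]
    nlinarith
  refine b7.trans ?_
  rw [mul_assoc]
  refine mul_le_mul_of_nonneg_left ?_ (by linarith)
  -- `T ≤ T (h0^e + 1) d^(-e)`
  have h12 : 1 ≤ (h0 ^ e + 1) * d ^ (-e) := by
    have h13 : d ^ e ≤ h0 ^ e := Real.rpow_le_rpow hd.le hdh.le he0.le
    rw [Real.rpow_neg hd.le, ← div_eq_mul_inv, le_div_iff₀ (Real.rpow_pos_of_pos hd _)]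
    linarith
  have : T ≤ T * (h0 ^ e + 1) * d ^ (-e) := by nlinarith
  rw [hτ, add_mul]
  linarith

end Crest.Agent.R102.GrowColJ314
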