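import Crest.Agent.R102.Lag_821

-- ▼ part R102/Ident_821
section

/-!
Row 102, part (B), B3 (helper821): properties of the Lagrangian, the leaf function
`X = t + U`, the defect `E`, the coefficient `a`, and the exact identities (3.1)-(3.3).
-/

set_option autoImplicit false

open Set Filter Topology Metric Complex MeasureTheory
open scoped Real ContDiff ComplexConjugate

noncomputable section

namespace Crest.Agent.R102.B821

open Crest.Agent.R266.SCV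

section Chain

lemma hasDerivAt_comp2 {F : ℂ × ℂ → ℂ} {x y : ℂ → ℂ} {x' y' s : ℂ}
    (hF : DifferentiableAt ℂ F (x s, y s)) (hx : HasDerivAt x x' s) (hy : HasDerivAt y y' s) :
    HasDerivAt (fun s => F (x s, y s)) (q1 F (x s, y s) * x' + q2 F (x s, y s) * y') s := by
  have h := hF.hasFDerivAt.comp_hasDerivAt s (hx.prodMk hy)
  have e : fderiv ℂ F (x s, y s) (x', y') = q1 F (x s, y s) * x' + q2 F (x s, y s) * y' := by
    have h1 : ((x', y') : ℂ × ℂ) = x' • ((1 : ℂ), (0 : ℂ)) + y' • ((0 : ℂ), (1 : ℂ)) := by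
      ext <;> simp
    rw [h1, map_add, map_smul, map_smul, q1, q2, smul_eq_mul, smul_eq_mul]
    ring
  rw [e] at h
  exact h

lemma q_symm {F : ℂ × ℂ → ℂ} {p : ℂ × ℂ} (hF : AnalyticAt ℂ F p) :
    q1 (q2 F) p = q2 (q1 F) p := by
  have h1 : ContDiffAt ℂ 2 F p := hF.contDiffAt
  have h2 : IsSymmSndFDerivAt ℂ F p := h1.isSymmSndFDerivAt (by simp)
  have hd : DifferentiableAt ℂ (fderiv ℂ F) p := hF.fderiv.differentiableAt
  have e1 : ∀ v u : ℂ × ℂ, fderiv ℂ (fun q => fderiv ℂ F q v) p u = fderiv ℂ (fderiv ℂ F) p u v := by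
    intro v u
    have h3 : HasFDerivAt (fun q => fderiv ℂ F q v)
        ((ContinuousLinearMap.apply ℂ ℂ v).comp (fderiv ℂ (fderiv ℂ F) p)) p :=
      (ContinuousLinearMap.apply ℂ ℂ v).hasFDerivAt.comp p hd.hasFDerivAt
    rw [h3.fderiv]
    rfl
  unfold q1 q2
  rw [e1, e1]
  exact h2.eq _ _



end Chain

section LagFacts

variable {ρ₀ ε₀ : ℝ} {L Ψ : ℂ × ℂ → ℂ}

lemma Dg_swap {a b : ℂ} : (b, a) ∈ Dg ρ₀ ε₀ ↔ (a, b) ∈ Dg ρ₀ ε₀ := by
  simp only [Dg, mem_ofPred_eq]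
  rw [norm_sub_rev]
  tauto

lemma Dg_conj {a b : ℂ} : (conj a, conj b) ∈ Dg ρ₀ ε₀ ↔ (a, b) ∈ Dg ρ₀ ε₀ := by
  simp only [Dg, mem_ofPred_eq]
  rw [← map_sub, Complex.norm_conj]
  simp

lemma Dg_add_one {a b : ℂ} : (a + 1, b + 1) ∈ Dg ρ₀ ε₀ ↔ (a, b) ∈ Dg ρ₀ ε₀ := by
  simp only [Dg, mem_ofPred_eq]
  rw [add_sub_add_right_eq_sub]
  simp

lemma Dg_mono {ρ₁ ε₁ : ℝ} (h1 : ρ₁ ≤ ρ₀) (h2 : ε₁ ≤ ε₀) : Dg ρ₁ ε₁ ⊆ Dg ρ₀ ε₀ :=
  fun _ hp => ⟨hp.1.trans_le h1, hp.2.1.trans_le h1, hp.2.2.trans_le h2⟩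

lemma IsLag.diffL (h : IsLag ρ₀ ε₀ L Ψ) : DifferentiableOn ℂ L (Dg ρ₀ ε₀) := by
  have h1 : DifferentiableOn ℂ (fun p : ℂ × ℂ => (p.2 - p.1) ^ 3 * Ψ p) (Dg ρ₀ ε₀) := by
    refine DifferentiableOn.mul ?_ h.diff
    exact ((differentiable_snd.sub differentiable_fst).pow 3).differentiableOn
  exact h1.congr (fun p hp => h.eq p.1 p.2 hp)

lemma IsLag.anaL (h : IsLag ρ₀ ε₀ L Ψ) : AnalyticOnNhd ℂ L (Dg ρ₀ ε₀) :=
  analyticOnNhd_of_differentiableOn (isOpen_Dg ρ₀ ε₀) h.diffL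

lemma ana_q1 {F : ℂ × ℂ → ℂ} {U : Set (ℂ × ℂ)} (h : AnalyticOnNhd ℂ F U) :
    AnalyticOnNhd ℂ (q1 F) U := fun p hp =>
  ((ContinuousLinearMap.apply ℂ ℂ ((1 : ℂ), (0 : ℂ))).analyticAt _).comp (h p hp).fderiv

lemma ana_q2 {F : ℂ × ℂ → ℂ} {U : Set (ℂ × ℂ)} (h : AnalyticOnNhd ℂ F U) :
    AnalyticOnNhd ℂ (q2 F) U := fun p hp =>
  ((ContinuousLinearMap.apply ℂ ℂ ((0 : ℂ), (1 : ℂ))).analyticAt _).comp (h p hp).fderiv

lemma IsLag.perL (h : IsLag ρ₀ ε₀ L Ψ) {a b : ℂ} (hp : (a, b) ∈ Dg ρ₀ ε₀) :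
    L (a + 1, b + 1) = L (a, b) := by
  rw [h.eq _ _ hp, h.eq _ _ (Dg_add_one.2 hp), h.per _ _ hp]
  ring

lemma IsLag.antiL (h : IsLag ρ₀ ε₀ L Ψ) {a b : ℂ} (hp : (a, b) ∈ Dg ρ₀ ε₀) :
    L (b, a) = - L (a, b) := by
  rw [h.eq _ _ hp, h.eq _ _ (Dg_swap.2 hp), h.symm _ _ hp]
  ring

lemma IsLag.realL (h : IsLag ρ₀ ε₀ L Ψ) {a b : ℂ} (hp : (a, b) ∈ Dg ρ₀ ε₀) :
    L (conj a, conj b) = conj (L (a, b)) := by
  rw [h.eq _ _ hp, h.eq _ _ (Dg_conj.2 hp), h.real _ _ hp]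
  simp

/-- derivative of a function invariant under the diagonal translation -/
lemma q_per {F : ℂ × ℂ → ℂ} (hper : ∀ a b : ℂ, (a, b) ∈ Dg ρ₀ ε₀ → F (a + 1, b + 1) = F (a, b))
    {a b : ℂ} (hp : (a, b) ∈ Dg ρ₀ ε₀) : fderiv ℂ F (a + 1, b + 1) = fderiv ℂ F (a, b) := by
  have h1 : (fun p : ℂ × ℂ => F (p + (1, 1))) =ᶠ[𝓝 (a, b)] F := by
    filter_upwards [(isOpen_Dg ρ₀ ε₀).mem_nhds hp] with p hp'
    exact hper p.1 p.2 hp'
  have h2 := h1.fderiv_eq (𝕜 := ℂ)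
  rw [fderiv_comp_add_right] at h2
  exact h2

lemma IsLag.q1_per (h : IsLag ρ₀ ε₀ L Ψ) {a b : ℂ} (hp : (a, b) ∈ Dg ρ₀ ε₀) :
    q1 L (a + 1, b + 1) = q1 L (a, b) := by
  unfold q1; rw [q_per (fun a b h' => h.perL h') hp]

lemma IsLag.q2_per (h : IsLag ρ₀ ε₀ L Ψ) {a b : ℂ} (hp : (a, b) ∈ Dg ρ₀ ε₀) :
    q2 L (a + 1, b + 1) = q2 L (a, b) := by
  unfold q2; rw [q_per (fun a b h' => h.perL h') hp]

lemma IsLag.q12_per (h : IsLag ρ₀ ε₀ L Ψ) {a b : ℂ} (hp : (a, b) ∈ Dg ρ₀ ε₀) :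
    q2 (q1 L) (a + 1, b + 1) = q2 (q1 L) (a, b) := by
  conv_lhs => unfold q2
  rw [q_per (fun a b h' => h.q1_per h') hp]
  rfl

/-- `L_1(b, a) = - L_2(a, b)` -/
lemma IsLag.q1_swap (h : IsLag ρ₀ ε₀ L Ψ) {a b : ℂ} (hp : (a, b) ∈ Dg ρ₀ ε₀) :
    q1 L (b, a) = - q2 L (a, b) := by
  have hd1 : DifferentiableAt ℂ L (b, a) :=
    h.diffL.differentiableAt ((isOpen_Dg ρ₀ ε₀).mem_nhds (Dg_swap.2 hp))
  have hd2 : DifferentiableAt ℂ L (a, b) :=
    h.diffL.differentiableAt ((isOpen_Dg ρ₀ ε₀).mem_nhds hp)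
  have h1 := hasDerivAt_fst hd1
  have h2 := (hasDerivAt_snd hd2).neg
  have h3 : (fun s => L (s, a)) =ᶠ[𝓝 b] (fun s => - L (a, s)) := by
    have hcont : Continuous (fun s : ℂ => (a, s)) := by fun_prop
    filter_upwards [hcont.continuousAt.preimage_mem_nhds ((isOpen_Dg ρ₀ ε₀).mem_nhds hp)] with s hs
    exact h.antiL hs
  exact (h1.congr_of_eventuallyEq h3.symm).unique h2

lemma IsLag.q2_swap (h : IsLag ρ₀ ε₀ L Ψ) {a b : ℂ} (hp : (a, b) ∈ Dg ρ₀ ε₀) :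
    q2 L (b, a) = - q1 L (a, b) := by
  have := h.q1_swap (Dg_swap.2 hp)
  rw [this, neg_neg]

/-- `L_12(b, a) = - L_12(a, b)` -/
lemma IsLag.q12_swap (h : IsLag ρ₀ ε₀ L Ψ) {a b : ℂ} (hp : (a, b) ∈ Dg ρ₀ ε₀) :
    q2 (q1 L) (b, a) = - q2 (q1 L) (a, b) := by
  have hp' := Dg_swap.2 hp
  have hd1 : DifferentiableAt ℂ (q1 L) (b, a) := (ana_q1 h.anaL _ hp').differentiableAt
  have hd2 : DifferentiableAt ℂ (q2 L) (a, b) := (ana_q2 h.anaL _ hp).differentiableAt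
  have h1 := hasDerivAt_snd hd1
  have h2 := (hasDerivAt_fst hd2).neg
  have h3 : (fun s => q1 L (b, s)) =ᶠ[𝓝 a] (fun s => - q2 L (s, b)) := by
    have hcont : Continuous (fun s : ℂ => (s, b)) := by fun_prop
    filter_upwards [hcont.continuousAt.preimage_mem_nhds ((isOpen_Dg ρ₀ ε₀).mem_nhds hp)] with s hs
    exact h.q1_swap hs
  rw [(h1.congr_of_eventuallyEq h3.symm).unique h2, q_symm (h.anaL _ hp)]

lemma q1_conj {F : ℂ × ℂ → ℂ} (hF : ∀ a b : ℂ, (a, b) ∈ Dg ρ₀ ε₀ → F (conj a, conj b) = conj (F (a, b)))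
    (hd : ∀ p ∈ Dg ρ₀ ε₀, DifferentiableAt ℂ F p) {a b : ℂ} (hp : (a, b) ∈ Dg ρ₀ ε₀) :
    q1 F (conj a, conj b) = conj (q1 F (a, b)) := by
  have h1 := hasDerivAt_fst (hd _ (Dg_conj.2 hp))
  have h2 := (hasDerivAt_fst (hd _ hp)).conj_conj
  have h3 : (fun s => F (s, conj b)) =ᶠ[𝓝 (conj a)] (conj ∘ (fun s => F (s, b)) ∘ conj) := by
    have hcont : Continuous (fun s : ℂ => (s, conj b)) := by fun_prop
    filter_upwards [hcont.continuousAt.preimage_mem_nhds ((isOpen_Dg ρ₀ ε₀).mem_nhds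
      (Dg_conj.2 hp))] with s hs
    have h4 : (conj s, b) ∈ Dg ρ₀ ε₀ := by
      have := Dg_conj.2 hs
      simpa using this
    have := hF _ _ h4
    rw [Complex.conj_conj] at this
    exact this
  exact (h1.congr_of_eventuallyEq h3.symm).unique h2

lemma q2_conj {F : ℂ × ℂ → ℂ} (hF : ∀ a b : ℂ, (a, b) ∈ Dg ρ₀ ε₀ → F (conj a, conj b) = conj (F (a, b)))
    (hd : ∀ p ∈ Dg ρ₀ ε₀, DifferentiableAt ℂ F p) {a b : ℂ} (hp : (a, b) ∈ Dg ρ₀ ε₀) :
    q2 F (conj a, conj b) = conj (q2 F (a, b)) := by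
  have h1 := hasDerivAt_snd (hd _ (Dg_conj.2 hp))
  have h2 := (hasDerivAt_snd (hd _ hp)).conj_conj
  have h3 : (fun s => F (conj a, s)) =ᶠ[𝓝 (conj b)] (conj ∘ (fun s => F (a, s)) ∘ conj) := by
    have hcont : Continuous (fun s : ℂ => (conj a, s)) := by fun_prop
    filter_upwards [hcont.continuousAt.preimage_mem_nhds ((isOpen_Dg ρ₀ ε₀).mem_nhds
      (Dg_conj.2 hp))] with s hs
    have h4 : (a, conj s) ∈ Dg ρ₀ ε₀ := by
      have := Dg_conj.2 hs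
      simpa using this
    have := hF _ _ h4
    rw [Complex.conj_conj] at this
    exact this
  exact (h1.congr_of_eventuallyEq h3.symm).unique h2

lemma IsLag.dL (h : IsLag ρ₀ ε₀ L Ψ) : ∀ p ∈ Dg ρ₀ ε₀, DifferentiableAt ℂ L p :=
  fun _ hp => (h.anaL _ hp).differentiableAt

lemma IsLag.q1_real (h : IsLag ρ₀ ε₀ L Ψ) {a b : ℂ} (hp : (a, b) ∈ Dg ρ₀ ε₀) :
    q1 L (conj a, conj b) = conj (q1 L (a, b)) := q1_conj (fun _ _ h' => h.realL h') h.dL hp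

lemma IsLag.q2_real (h : IsLag ρ₀ ε₀ L Ψ) {a b : ℂ} (hp : (a, b) ∈ Dg ρ₀ ε₀) :
    q2 L (conj a, conj b) = conj (q2 L (a, b)) := q2_conj (fun _ _ h' => h.realL h') h.dL hp

lemma IsLag.q12_real (h : IsLag ρ₀ ε₀ L Ψ) {a b : ℂ} (hp : (a, b) ∈ Dg ρ₀ ε₀) :
    q2 (q1 L) (conj a, conj b) = conj (q2 (q1 L) (a, b)) :=
  q2_conj (fun _ _ h' => h.q1_real h') (fun _ hp => (ana_q1 h.anaL _ hp).differentiableAt) hp

lemma IsLag.EL_swap (h : IsLag ρ₀ ε₀ L Ψ) {x y z : ℂ} (h1 : (x, y) ∈ Dg ρ₀ ε₀)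
    (h2 : (y, z) ∈ Dg ρ₀ ε₀) : EL L z y x = - EL L x y z := by
  unfold EL
  rw [h.q2_swap h2, h.q1_swap h1]
  ring

lemma IsLag.EL_real (h : IsLag ρ₀ ε₀ L Ψ) {x y z : ℂ} (h1 : (x, y) ∈ Dg ρ₀ ε₀)
    (h2 : (y, z) ∈ Dg ρ₀ ε₀) : EL L (conj x) (conj y) (conj z) = conj (EL L x y z) := by
  unfold EL
  rw [h.q2_real h1, h.q1_real h2, map_add]


end LagFacts

section Leaf

variable {ρ₀ ε₀ k ρ r : ℝ} {L Ψ U V f : ℂ × ℂ → ℂ}

/-- holomorphic functions with `X(t + 1, w) = X(t, w) + 1` -/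
structure IsX (k ρ r : ℝ) (X : ℂ × ℂ → ℂ) : Prop where
  diff : DifferentiableOn ℂ X (Dom k ρ r)
  per : ∀ t w : ℂ, (t, w) ∈ Dom k ρ r → X (t + 1, w) = X (t, w) + 1

/-- the leaf function `X = t + U` -/
def Xf (U : ℂ × ℂ → ℂ) (p : ℂ × ℂ) : ℂ := p.1 + U p

/-- `X_t` -/
def Xt (U : ℂ × ℂ → ℂ) (p : ℂ × ℂ) : ℂ := 1 + q1 U p

/-- `X_w` -/
def Xw (U : ℂ × ℂ → ℂ) (p : ℂ × ℂ) : ℂ := q2 U p

lemma IsH.isX (h : IsH k ρ r U) : IsX k ρ r (Xf U) :=
  ⟨differentiable_fst.differentiableOn.add h.diff, fun t w hp => by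
    unfold Xf; simp only; rw [h.per t w hp]; ring⟩

lemma IsX.tr {X : ℂ × ℂ → ℂ} (h : IsX k ρ r X) (c : ℝ) : IsX (k + |c|) ρ r (B821.tr c X) := by
  refine ⟨h.diff.comp (by fun_prop) (fun p hp => tr_mem c hp), fun t w hp => ?_⟩
  have h1 := h.per _ _ (tr_mem c hp)
  unfold B821.tr
  simp only at h1 ⊢
  rw [← h1]
  congr 2
  ring

lemma IsX.mono {k' ρ' r' : ℝ} {X : ℂ × ℂ → ℂ} (h : IsX k ρ r X) (hk : k ≤ k') (hρ : ρ' ≤ ρ)
    (hr : r' ≤ r) : IsX k' ρ' r' X :=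
  ⟨h.diff.mono (Dom_mono hk hρ hr), fun t w hp => h.per t w (Dom_mono hk hρ hr hp)⟩

lemma IsX.comp_Dg {F X1 X2 : ℂ × ℂ → ℂ} (hF : DifferentiableOn ℂ F (Dg ρ₀ ε₀))
    (hper : ∀ a b : ℂ, (a, b) ∈ Dg ρ₀ ε₀ → F (a + 1, b + 1) = F (a, b))
    (h1 : IsX k ρ r X1) (h2 : IsX k ρ r X2) (hmem : ∀ p ∈ Dom k ρ r, (X1 p, X2 p) ∈ Dg ρ₀ ε₀) :
    IsH k ρ r (fun p => F (X1 p, X2 p)) := by
  refine ⟨hF.comp (h1.diff.prodMk h2.diff) hmem, fun t w hp => ?_⟩
  rw [h1.per t w hp, h2.per t w hp, hper _ _ (hmem _ hp)]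

/-- derivatives of translates -/
lemma hasDerivAt_tr_t {F : ℂ × ℂ → ℂ} {c : ℝ} {t w : ℂ}
    (h : DifferentiableAt ℂ F (t + c * w, w)) :
    HasDerivAt (fun s => tr c F (s, w)) (tr c (q1 F) (t, w)) t := by
  have h1 : HasDerivAt (fun s : ℂ => s + c * w) 1 t := (hasDerivAt_id t).add_const _
  have h2 := hasDerivAt_comp2 (x := fun s => s + c * w) (y := fun _ => w) h h1
    (hasDerivAt_const t w)
  simpa [tr] using h2

lemma hasDerivAt_tr_w {F : ℂ × ℂ → ℂ} {c : ℝ} {t w : ℂ}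
    (h : DifferentiableAt ℂ F (t + c * w, w)) :
    HasDerivAt (fun s => tr c F (t, s)) (tr c (q2 F) (t, w) + c * tr c (q1 F) (t, w)) w := by
  have h1 : HasDerivAt (fun s : ℂ => t + c * s) (c : ℂ) w := by
    simpa using ((hasDerivAt_id w).const_mul (c : ℂ)).const_add t
  have h2 := hasDerivAt_comp2 (x := fun s => t + c * s) (y := fun s => s) h h1 (hasDerivAt_id w)
  refine h2.congr_deriv ?_
  simp only [tr, mul_one]
  ring

lemma hasDerivAt_Xf_t {c : ℝ} {t w : ℂ} (h : DifferentiableAt ℂ U (t + c * w, w)) :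
    HasDerivAt (fun s => tr c (Xf U) (s, w)) (tr c (Xt U) (t, w)) t := by
  have h1 : HasDerivAt (fun s : ℂ => s + c * w) 1 t := (hasDerivAt_id t).add_const _
  exact h1.add (hasDerivAt_tr_t h)

lemma hasDerivAt_Xf_w {c : ℝ} {t w : ℂ} (h : DifferentiableAt ℂ U (t + c * w, w)) :
    HasDerivAt (fun s => tr c (Xf U) (t, s)) (tr c (Xw U) (t, w) + c * tr c (Xt U) (t, w)) w := by
  have h1 : HasDerivAt (fun s : ℂ => t + c * s) (c : ℂ) w := by
    simpa using ((hasDerivAt_id w).const_mul (c : ℂ)).const_add t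
  have h2 := h1.add (hasDerivAt_tr_w h)
  refine h2.congr_deriv ?_
  simp only [tr, Xw, Xt]
  ring

/-- differential of the Euler-Lagrange function -/
def dEL (L : ℂ × ℂ → ℂ) (x y z x' y' z' : ℂ) : ℂ :=
  q2 (q1 L) (x, y) * x' + (q2 (q2 L) (x, y) + q1 (q1 L) (y, z)) * y' + q2 (q1 L) (y, z) * z'

lemma IsLag.hasDerivAt_EL (h : IsLag ρ₀ ε₀ L Ψ) {x y z : ℂ → ℂ} {x' y' z' s : ℂ}
    (h1 : (x s, y s) ∈ Dg ρ₀ ε₀) (h2 : (y s, z s) ∈ Dg ρ₀ ε₀)
    (hx : HasDerivAt x x' s) (hy : HasDerivAt y y' s) (hz : HasDerivAt z z' s) :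
    HasDerivAt (fun s => EL L (x s) (y s) (z s)) (dEL L (x s) (y s) (z s) x' y' z') s := by
  have e1 := hasDerivAt_comp2 (F := q2 L) (ana_q2 h.anaL _ h1).differentiableAt hx hy
  have e2 := hasDerivAt_comp2 (F := q1 L) (ana_q1 h.anaL _ h2).differentiableAt hy hz
  refine (e1.add e2).congr_deriv ?_
  unfold dEL
  rw [q_symm (h.anaL _ h1)]
  ring

/-- admissible leaf functions -/
structure Adm (ρ₀ ε₀ ρ r : ℝ) (U : ℂ × ℂ → ℂ) : Prop where
  ρ_pos : 0 < ρ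
  ρ_le : ρ ≤ ρ₀ / 2
  r_pos : 0 < r
  r_le : r ≤ 1
  r_le_ρ : 8 * r ≤ ρ
  r_le_ε : 4 * r ≤ ε₀
  hU : IsH (1 / 2) ρ r U
  U_bd : ∀ p ∈ Dom (1 / 2) ρ r, ‖U p‖ ≤ ρ₀ / 8
  Ut_bd : ∀ p ∈ Dom (1 / 2) ρ r, ‖q1 U p‖ ≤ 1 / 100
  Uw_bd : ∀ p ∈ Dom (1 / 2) ρ r, ‖q2 U p‖ ≤ 1 / 100
  re : IsRe (1 / 2) ρ r U
  par : IsPar (1 / 2) ρ r 1 U

lemma convex_strip (σ : ℝ) : Convex ℝ {t : ℂ | |t.im| < σ} := by
  have : {t : ℂ | |t.im| < σ} = Complex.imLm ⁻¹' (Ioo (-σ) σ) := by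
    ext w
    simp [abs_lt]
  rw [this]
  exact (convex_Ioo _ _).linear_preimage _

lemma Adm.lip (h : Adm ρ₀ ε₀ ρ r U) {t₁ t₂ w : ℂ} (h1 : (t₁, w) ∈ Dom (1 / 2) ρ r)
    (h2 : (t₂, w) ∈ Dom (1 / 2) ρ r) : ‖U (t₂, w) - U (t₁, w)‖ ≤ 1 / 100 * ‖t₂ - t₁‖ := by
  have hmem : ∀ t : ℂ, |t.im| < ρ - 1 / 2 * |w.im| → (t, w) ∈ Dom (1 / 2) ρ r := fun t ht =>
    ⟨by simp only; linarith, h1.2⟩
  have hm1 : |t₁.im| < ρ - 1 / 2 * |w.im| := by
    have := h1.1; simp only at this; linarith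
  have hm2 : |t₂.im| < ρ - 1 / 2 * |w.im| := by
    have := h2.1; simp only at this; linarith
  refine (convex_strip (ρ - 1 / 2 * |w.im|)).norm_image_sub_le_of_norm_hasDerivWithin_le
    (f := fun t => U (t, w)) (f' := fun t => q1 U (t, w)) (fun t ht => ?_) (fun t ht => ?_) hm1 hm2
  · exact (hasDerivAt_fst (h.hU.differentiableAt (hmem t ht))).hasDerivWithinAt
  · exact h.Ut_bd _ (hmem t ht)

lemma Adm.pair (h : Adm ρ₀ ε₀ ρ r U) {t₁ t₂ w : ℂ} (h1 : (t₁, w) ∈ Dom (1 / 2) ρ r)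
    (h2 : (t₂, w) ∈ Dom (1 / 2) ρ r) (h3 : ‖t₂ - t₁‖ ≤ ‖w‖) :
    (Xf U (t₁, w), Xf U (t₂, w)) ∈ Dg (3 / 4 * ρ₀) (ε₀ / 2) := by
  have him : ∀ t : ℂ, (t, w) ∈ Dom (1 / 2) ρ r → |(Xf U (t, w)).im| < 3 / 4 * ρ₀ := by
    intro t ht
    have e1 : (Xf U (t, w)).im = t.im + (U (t, w)).im := by simp [Xf]
    rw [e1]
    have e2 := (Complex.abs_im_le_norm (U (t, w))).trans (h.U_bd _ ht)
    have e3 : |t.im| < ρ := by
      have := ht.1; simp only at this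
      have := abs_nonneg w.im
      linarith
    have e4 := abs_add_le t.im (U (t, w)).im
    have := h.ρ_le
    have := h.ρ_pos
    linarith
  refine ⟨him _ h1, him _ h2, ?_⟩
  have e1 : Xf U (t₂, w) - Xf U (t₁, w) = (t₂ - t₁) + (U (t₂, w) - U (t₁, w)) := by
    unfold Xf; ring
  simp only
  rw [e1]
  have e2 := norm_add_le (t₂ - t₁) (U (t₂, w) - U (t₁, w))
  have e3 := h.lip h1 h2
  have e4 : ‖w‖ < r := h1.2
  have := h.r_le_ε
  have := h.r_pos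
  linarith

lemma tr_zero (f : ℂ × ℂ → ℂ) (p : ℂ × ℂ) : tr 0 f p = f p := by
  simp [tr]

lemma Adm.pair_tr (h : Adm ρ₀ ε₀ ρ r U) {c₁ c₂ : ℝ} {k : ℝ} (hc₁ : 1 / 2 + |c₁| ≤ k)
    (hc₂ : 1 / 2 + |c₂| ≤ k) (hc : |c₂ - c₁| ≤ 1) {p : ℂ × ℂ} (hp : p ∈ Dom k ρ r) :
    (tr c₁ (Xf U) p, tr c₂ (Xf U) p) ∈ Dg (3 / 4 * ρ₀) (ε₀ / 2) := by
  have h1 := tr_mem (k := 1 / 2) c₁ (Dom_mono hc₁ le_rfl le_rfl hp)
  have h2 := tr_mem (k := 1 / 2) c₂ (Dom_mono hc₂ le_rfl le_rfl hp)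
  refine h.pair h1 h2 ?_
  have e : p.1 + c₂ * p.2 - (p.1 + c₁ * p.2) = ((c₂ - c₁ : ℝ) : ℂ) * p.2 := by push_cast; ring
  rw [e, norm_mul, Complex.norm_real, Real.norm_eq_abs]
  have := norm_nonneg p.2
  nlinarith

lemma Dg_sub_of_lag (h : IsLag ρ₀ ε₀ L Ψ) : Dg (3 / 4 * ρ₀) (ε₀ / 2) ⊆ Dg ρ₀ ε₀ :=
  Dg_mono (by have := h.ρ_pos; linarith) (by have := h.ε_pos; linarith)

/-- the defect `E(t, w)` -/
def Ef (L U : ℂ × ℂ → ℂ) (p : ℂ × ℂ) : ℂ := EL L (tr (-1) (Xf U) p) (Xf U p) (tr 1 (Xf U) p)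

/-- `P = X_t E` -/
def Pf (L U : ℂ × ℂ → ℂ) (p : ℂ × ℂ) : ℂ := Xt U p * Ef L U p

/-- `a = L_12(X^-, X^+) X_t^- X_t^+` -/
def af (L U : ℂ × ℂ → ℂ) (p : ℂ × ℂ) : ℂ :=
  q2 (q1 L) (tr (-(1 / 2)) (Xf U) p, tr (1 / 2) (Xf U) p) *
    (tr (-(1 / 2)) (Xt U) p * tr (1 / 2) (Xt U) p)

lemma Adm.hXt (h : Adm ρ₀ ε₀ ρ r U) : IsH (1 / 2) ρ r (Xt U) := (IsH.const 1).add h.hU.q1

lemma Adm.hXw (h : Adm ρ₀ ε₀ ρ r U) : IsH (1 / 2) ρ r (Xw U) := h.hU.q2

lemma Adm.Xt_ne (h : Adm ρ₀ ε₀ ρ r U) {p : ℂ × ℂ} (hp : p ∈ Dom (1 / 2) ρ r) : Xt U p ≠ 0 := by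
  intro h0
  have h1 := h.Ut_bd p hp
  have h2 : q1 U p = -1 := by unfold Xt at h0; linear_combination h0
  rw [h2, norm_neg, norm_one] at h1
  norm_num at h1

lemma Adm.hEf (hL : IsLag ρ₀ ε₀ L Ψ) (h : Adm ρ₀ ε₀ ρ r U) : IsH (3 / 2) ρ r (Ef L U) := by
  have hX := h.hU.isX
  have hX0 : IsX (3 / 2) ρ r (Xf U) := hX.mono (by norm_num) le_rfl le_rfl
  have hXm : IsX (3 / 2) ρ r (tr (-1) (Xf U)) := by
    have := hX.tr (-1)
    rw [abs_neg, abs_one] at this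
    exact this.mono (by norm_num) le_rfl le_rfl
  have hXp : IsX (3 / 2) ρ r (tr 1 (Xf U)) := by
    have := hX.tr 1
    rw [abs_one] at this
    exact this.mono (by norm_num) le_rfl le_rfl
  have e1 : IsH (3 / 2) ρ r (fun p => q2 L (tr (-1) (Xf U) p, Xf U p)) := by
    refine IsX.comp_Dg (ρ₀ := ρ₀) (ε₀ := ε₀) (ana_q2 hL.anaL).differentiableOn
      (fun a b hp => hL.q2_per hp) hXm hX0 (fun p hp => ?_)
    have := h.pair_tr (c₁ := -1) (c₂ := 0) (k := 3 / 2) (by norm_num) (by norm_num) (by norm_num) hp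
    rw [tr_zero] at this
    exact Dg_sub_of_lag hL this
  have e2 : IsH (3 / 2) ρ r (fun p => q1 L (Xf U p, tr 1 (Xf U) p)) := by
    refine IsX.comp_Dg (ρ₀ := ρ₀) (ε₀ := ε₀) (ana_q1 hL.anaL).differentiableOn
      (fun a b hp => hL.q1_per hp) hX0 hXp (fun p hp => ?_)
    have := h.pair_tr (c₁ := 0) (c₂ := 1) (k := 3 / 2) (by norm_num) (by norm_num) (by norm_num) hp
    rw [tr_zero] at this
    exact Dg_sub_of_lag hL this
  exact e1.add e2

lemma Adm.hPf (hL : IsLag ρ₀ ε₀ L Ψ) (h : Adm ρ₀ ε₀ ρ r U) : IsH (3 / 2) ρ r (Pf L U) :=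
  (h.hXt.mono (by norm_num) le_rfl le_rfl).mul (h.hEf hL)

lemma Adm.haf (hL : IsLag ρ₀ ε₀ L Ψ) (h : Adm ρ₀ ε₀ ρ r U) : IsH 1 ρ r (af L U) := by
  have e12 : |(1 / 2 : ℝ)| = 1 / 2 := by norm_num
  have hX := h.hU.isX
  have hXm : IsX 1 ρ r (tr (-(1 / 2)) (Xf U)) := by
    have := hX.tr (-(1 / 2))
    rw [abs_neg, e12] at this
    exact this.mono (by norm_num) le_rfl le_rfl
  have hXp : IsX 1 ρ r (tr (1 / 2) (Xf U)) := by
    have := hX.tr (1 / 2)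
    rw [e12] at this
    exact this.mono (by norm_num) le_rfl le_rfl
  have hTm : IsH 1 ρ r (tr (-(1 / 2)) (Xt U)) := by
    have := h.hXt.tr (-(1 / 2))
    rw [abs_neg, e12] at this
    exact this.mono (by norm_num) le_rfl le_rfl
  have hTp : IsH 1 ρ r (tr (1 / 2) (Xt U)) := by
    have := h.hXt.tr (1 / 2)
    rw [e12] at this
    exact this.mono (by norm_num) le_rfl le_rfl
  have e1 : IsH 1 ρ r (fun p => q2 (q1 L) (tr (-(1 / 2)) (Xf U) p, tr (1 / 2) (Xf U) p)) := by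
    refine IsX.comp_Dg (ρ₀ := ρ₀) (ε₀ := ε₀) (ana_q2 (ana_q1 hL.anaL)).differentiableOn
      (fun a b hp => hL.q12_per hp) hXm hXp (fun p hp => ?_)
    exact Dg_sub_of_lag hL
      (h.pair_tr (by rw [abs_neg, e12]; norm_num) (by rw [e12]; norm_num) (by norm_num) hp)
  exact e1.mul (hTm.mul hTp)

/-- the three points of the Euler-Lagrange equation are in the domain of `L` -/
lemma Adm.mem3 (hL : IsLag ρ₀ ε₀ L Ψ) (h : Adm ρ₀ ε₀ ρ r U) {p : ℂ × ℂ} (hp : p ∈ Dom (3 / 2) ρ r) :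
    (tr (-1) (Xf U) p, Xf U p) ∈ Dg ρ₀ ε₀ ∧ (Xf U p, tr 1 (Xf U) p) ∈ Dg ρ₀ ε₀ := by
  constructor
  · have := h.pair_tr (c₁ := -1) (c₂ := 0) (k := 3 / 2) (by norm_num) (by norm_num) (by norm_num) hp
    rw [tr_zero] at this
    exact Dg_sub_of_lag hL this
  · have := h.pair_tr (c₁ := 0) (c₂ := 1) (k := 3 / 2) (by norm_num) (by norm_num) (by norm_num) hp
    rw [tr_zero] at this
    exact Dg_sub_of_lag hL this

lemma Adm.mem_m (_h : Adm ρ₀ ε₀ ρ r U) {t w : ℂ} (hp : (t, w) ∈ Dom (3 / 2) ρ r) :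
    (t + ((-1 : ℝ) : ℂ) * w, w) ∈ Dom (1 / 2) ρ r := by
  have := tr_mem (k := 1 / 2) (-1) (p := (t, w)) (by
    rw [abs_neg, abs_one]; exact Dom_mono (by norm_num) le_rfl le_rfl hp)
  exact this

lemma Adm.mem_p (_h : Adm ρ₀ ε₀ ρ r U) {t w : ℂ} (hp : (t, w) ∈ Dom (3 / 2) ρ r) :
    (t + ((1 : ℝ) : ℂ) * w, w) ∈ Dom (1 / 2) ρ r := by
  have := tr_mem (k := 1 / 2) 1 (p := (t, w)) (by
    rw [abs_one]; exact Dom_mono (by norm_num) le_rfl le_rfl hp)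
  exact this

lemma Adm.mem_0 (_h : Adm ρ₀ ε₀ ρ r U) {t w : ℂ} (hp : (t, w) ∈ Dom (3 / 2) ρ r) :
    (t, w) ∈ Dom (1 / 2) ρ r := Dom_mono (by norm_num) le_rfl le_rfl hp

/-- `E_t` -/
lemma Adm.q1_Ef (hL : IsLag ρ₀ ε₀ L Ψ) (h : Adm ρ₀ ε₀ ρ r U) {t w : ℂ}
    (hp : (t, w) ∈ Dom (3 / 2) ρ r) :
    q1 (Ef L U) (t, w) = dEL L (tr (-1) (Xf U) (t, w)) (Xf U (t, w)) (tr 1 (Xf U) (t, w))
      (tr (-1) (Xt U) (t, w)) (Xt U (t, w)) (tr 1 (Xt U) (t, w)) := by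
  have hm := h.mem3 hL hp
  have h0 : HasDerivAt (fun s => Xf U (s, w)) (Xt U (t, w)) t := by
    have := hasDerivAt_Xf_t (c := 0) (U := U) (t := t) (w := w)
      (by simpa using h.hU.differentiableAt (h.mem_0 hp))
    simpa [tr_zero] using this
  have h1 := hL.hasDerivAt_EL (x := fun s => tr (-1) (Xf U) (s, w)) (y := fun s => Xf U (s, w))
    (z := fun s => tr 1 (Xf U) (s, w)) (s := t) hm.1 hm.2
    (hasDerivAt_Xf_t (h.hU.differentiableAt (h.mem_m hp))) h0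
    (hasDerivAt_Xf_t (h.hU.differentiableAt (h.mem_p hp)))
  exact (hasDerivAt_fst ((h.hEf hL).differentiableAt hp)).unique h1

/-- `E_w` -/
lemma Adm.q2_Ef (hL : IsLag ρ₀ ε₀ L Ψ) (h : Adm ρ₀ ε₀ ρ r U) {t w : ℂ}
    (hp : (t, w) ∈ Dom (3 / 2) ρ r) :
    q2 (Ef L U) (t, w) = dEL L (tr (-1) (Xf U) (t, w)) (Xf U (t, w)) (tr 1 (Xf U) (t, w))
      (tr (-1) (Xw U) (t, w) - tr (-1) (Xt U) (t, w)) (Xw U (t, w))
      (tr 1 (Xw U) (t, w) + tr 1 (Xt U) (t, w)) := by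
  have hm := h.mem3 hL hp
  have h0 : HasDerivAt (fun s => Xf U (t, s)) (Xw U (t, w)) w := by
    have := hasDerivAt_Xf_w (c := 0) (U := U) (t := t) (w := w)
      (by simpa using h.hU.differentiableAt (h.mem_0 hp))
    simpa [tr_zero] using this
  have hA := hasDerivAt_Xf_w (c := -1) (h.hU.differentiableAt (h.mem_m hp))
  have hB := hasDerivAt_Xf_w (c := 1) (h.hU.differentiableAt (h.mem_p hp))
  have eA : tr (-1) (Xw U) (t, w) + ((-1 : ℝ) : ℂ) * tr (-1) (Xt U) (t, w) =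
      tr (-1) (Xw U) (t, w) - tr (-1) (Xt U) (t, w) := by push_cast; ring
  have eB : tr 1 (Xw U) (t, w) + ((1 : ℝ) : ℂ) * tr 1 (Xt U) (t, w) =
      tr 1 (Xw U) (t, w) + tr 1 (Xt U) (t, w) := by push_cast; ring
  rw [eA] at hA
  rw [eB] at hB
  have h1 := hL.hasDerivAt_EL (x := fun s => tr (-1) (Xf U) (t, s)) (y := fun s => Xf U (t, s))
    (z := fun s => tr 1 (Xf U) (t, s)) (s := w) hm.1 hm.2 hA h0 hB
  exact (hasDerivAt_snd ((h.hEf hL).differentiableAt hp)).unique h1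

/-- evaluation of `a` at `t ± w/2` -/
lemma tr_half_af (L U : ℂ × ℂ → ℂ) (p : ℂ × ℂ) : tr (1 / 2) (af L U) p =
    q2 (q1 L) (Xf U p, tr 1 (Xf U) p) * (Xt U p * tr 1 (Xt U) p) := by
  unfold af tr
  simp only
  have e1 : p.1 + ((1 / 2 : ℝ) : ℂ) * p.2 + ((-(1 / 2) : ℝ) : ℂ) * p.2 = p.1 := by push_cast; ring
  have e2 : p.1 + ((1 / 2 : ℝ) : ℂ) * p.2 + ((1 / 2 : ℝ) : ℂ) * p.2 = p.1 + ((1 : ℝ) : ℂ) * p.2 := by
    push_cast; ring
  rw [e1, e2]

lemma tr_neg_half_af (L U : ℂ × ℂ → ℂ) (p : ℂ × ℂ) : tr (-(1 / 2)) (af L U) p =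
    q2 (q1 L) (tr (-1) (Xf U) p, Xf U p) * (tr (-1) (Xt U) p * Xt U p) := by
  unfold af tr
  simp only
  have e1 : p.1 + ((-(1 / 2) : ℝ) : ℂ) * p.2 + ((1 / 2 : ℝ) : ℂ) * p.2 = p.1 := by push_cast; ring
  have e2 : p.1 + ((-(1 / 2) : ℝ) : ℂ) * p.2 + ((-(1 / 2) : ℝ) : ℂ) * p.2 =
      p.1 + ((-1 : ℝ) : ℂ) * p.2 := by
    push_cast; ring
  rw [e1, e2]

/-- translates of products and differences -/
lemma tr_tr (c c' : ℝ) (f : ℂ × ℂ → ℂ) (p : ℂ × ℂ) : tr c (tr c' f) p = tr (c + c') f p := by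
  unfold tr
  simp only
  congr 2
  push_cast
  ring


lemma tr_half_del (f : ℂ × ℂ → ℂ) (p : ℂ × ℂ) : tr (1 / 2) (del f) p = tr 1 f p - f p := by
  have e : tr (1 / 2) (del f) p = tr (1 / 2) (tr (1 / 2) f) p - tr (1 / 2) (tr (-(1 / 2)) f) p := rfl
  rw [e, tr_tr, tr_tr, show (1 / 2 + 1 / 2 : ℝ) = 1 by norm_num,
    show (1 / 2 + -(1 / 2) : ℝ) = 0 by norm_num, tr_zero]

lemma tr_neg_half_del (f : ℂ × ℂ → ℂ) (p : ℂ × ℂ) :
    tr (-(1 / 2)) (del f) p = f p - tr (-1) f p := by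
  have e : tr (-(1 / 2)) (del f) p =
    tr (-(1 / 2)) (tr (1 / 2) f) p - tr (-(1 / 2)) (tr (-(1 / 2)) f) p := rfl
  rw [e, tr_tr, tr_tr, show (-(1 / 2) + 1 / 2 : ℝ) = 0 by norm_num,
    show (-(1 / 2) + -(1 / 2) : ℝ) = -1 by norm_num, tr_zero]

/-- (3.2): the linearised equation in divergence form -/
theorem Adm.ident2 (hL : IsLag ρ₀ ε₀ L Ψ) (h : Adm ρ₀ ε₀ ρ r U) (V : ℂ × ℂ → ℂ) {t w : ℂ}
    (hp : (t, w) ∈ Dom (3 / 2) ρ r) :
    Xt U (t, w) * dEL L (tr (-1) (Xf U) (t, w)) (Xf U (t, w)) (tr 1 (Xf U) (t, w))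
      (tr (-1) (Xt U) (t, w) * tr (-1) V (t, w)) (Xt U (t, w) * V (t, w))
      (tr 1 (Xt U) (t, w) * tr 1 V (t, w)) =
    Xt U (t, w) * q1 (Ef L U) (t, w) * V (t, w) + del (fun q => af L U q * del V q) (t, w) := by
  have e1 : del (fun q => af L U q * del V q) (t, w) =
      tr (1 / 2) (af L U) (t, w) * tr (1 / 2) (del V) (t, w) -
      tr (-(1 / 2)) (af L U) (t, w) * tr (-(1 / 2)) (del V) (t, w) := rfl
  rw [e1, tr_half_af, tr_neg_half_af, tr_half_del, tr_neg_half_del, h.q1_Ef hL hp]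
  unfold dEL
  ring

/-- `μ = - a (1 + del u)`, `u = X_w / X_t` -/
def uf (U : ℂ × ℂ → ℂ) (p : ℂ × ℂ) : ℂ := Xw U p * (Xt U p)⁻¹

def muf (L U : ℂ × ℂ → ℂ) (p : ℂ × ℂ) : ℂ := - (af L U p * (1 + del (uf U) p))

lemma Adm.huf (h : Adm ρ₀ ε₀ ρ r U) : IsH (1 / 2) ρ r (uf U) :=
  h.hXw.mul (h.hXt.inv (fun _ hp => h.Xt_ne hp))

lemma Adm.hmuf (hL : IsLag ρ₀ ε₀ L Ψ) (h : Adm ρ₀ ε₀ ρ r U) : IsH 1 ρ r (muf L U) := by
  have h1 : IsH 1 ρ r (del (uf U)) := by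
    have := h.huf.del
    norm_num at this
    exact this
  exact ((h.haf hL).mul ((IsH.const 1).add h1)).neg

/-- (3.3): `del μ = - P_w + (P u)_t` (in the form `X_w E_t - X_t E_w`) -/
theorem Adm.ident3 (hL : IsLag ρ₀ ε₀ L Ψ) (h : Adm ρ₀ ε₀ ρ r U) {t w : ℂ}
    (hp : (t, w) ∈ Dom (3 / 2) ρ r) :
    del (muf L U) (t, w) =
      Xw U (t, w) * q1 (Ef L U) (t, w) - Xt U (t, w) * q2 (Ef L U) (t, w) := by
  have e1 : del (muf L U) (t, w) =
      - (tr (1 / 2) (af L U) (t, w) * (1 + tr (1 / 2) (del (uf U)) (t, w))) +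
      tr (-(1 / 2)) (af L U) (t, w) * (1 + tr (-(1 / 2)) (del (uf U)) (t, w)) := by
    have : del (muf L U) (t, w) =
      - (tr (1 / 2) (af L U) (t, w) * (1 + tr (1 / 2) (del (uf U)) (t, w))) -
      - (tr (-(1 / 2)) (af L U) (t, w) * (1 + tr (-(1 / 2)) (del (uf U)) (t, w))) := rfl
    rw [this]; ring
  have hm := h.Xt_ne (h.mem_m hp)
  have h0 := h.Xt_ne (h.mem_0 hp)
  have hpl := h.Xt_ne (h.mem_p hp)
  have um : tr (-1) (uf U) (t, w) * tr (-1) (Xt U) (t, w) = tr (-1) (Xw U) (t, w) := by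
    unfold uf tr
    simp only
    field_simp
  have u0 : uf U (t, w) * Xt U (t, w) = Xw U (t, w) := by
    unfold uf
    field_simp
  have up : tr 1 (uf U) (t, w) * tr 1 (Xt U) (t, w) = tr 1 (Xw U) (t, w) := by
    unfold uf tr
    simp only
    field_simp
  rw [e1, tr_half_af, tr_neg_half_af, tr_half_del, tr_neg_half_del, h.q1_Ef hL hp, h.q2_Ef hL hp]
  unfold dEL
  rw [← um, ← u0, ← up]
  ring

end Leaf

end Crest.Agent.R102.B821
end
end

-- ▼ part R102/Ident2_821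
section

/-!
Row 102, part (B), B3 continued (helper821): mean value zero, symmetries of `E, P, a`,
Fourier form of (3.3).
-/

set_option autoImplicit false

open Set Filter Topology Metric Complex MeasureTheory
open scoped Real ContDiff ComplexConjugate

noncomputable section

namespace Crest.Agent.R102.B821

open Crest.Agent.R266.SCV

variable {ρ₀ ε₀ k ρ r : ℝ} {L Ψ U V f g : ℂ × ℂ → ℂ}

section Mean

lemma Adm.im_lt (h : Adm ρ₀ ε₀ ρ r U) {w : ℂ} (hw : ‖w‖ < r) : 3 * |w.im| < ρ := by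
  have h1 := Complex.abs_im_le_norm w
  have h2 := h.r_le_ρ
  have h3 := h.r_pos
  linarith

/-- (3.1): the mean of `P` vanishes -/
theorem Adm.mean (hL : IsLag ρ₀ ε₀ L Ψ) (h : Adm ρ₀ ε₀ ρ r U) {w : ℂ} (hw : ‖w‖ < r) :
    fc (Pf L U) 0 w = 0 := by
  have him := h.im_lt hw
  have hρ := h.ρ_pos
  have habs := abs_nonneg w.im
  set A : ℂ → ℂ := fun t => Xt U (t, w) * q2 L (tr (-1) (Xf U) (t, w), Xf U (t, w)) with hA
  set B : ℂ → ℂ := fun t => Xt U (t, w) * q1 L (Xf U (t, w), tr 1 (Xf U) (t, w)) with hB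
  have hmem : ∀ t : ℂ, |t.im| < ρ - 3 / 2 * |w.im| → (t, w) ∈ Dom (3 / 2) ρ r := fun t ht =>
    ⟨by simp only; linarith, hw⟩
  have hX := h.hU.isX
  -- holomorphy of A
  have hAd : DifferentiableOn ℂ A {t : ℂ | |t.im| < ρ - 3 / 2 * |w.im|} := by
    intro t ht
    have hp := hmem t ht
    have hm := h.mem3 hL hp
    have h1 : DifferentiableAt ℂ (fun t => Xt U (t, w)) t :=
      (hasDerivAt_fst (h.hXt.differentiableAt (h.mem_0 hp))).differentiableAt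
    have h2 : DifferentiableAt ℂ (fun t => tr (-1) (Xf U) (t, w)) t :=
      (hasDerivAt_Xf_t (h.hU.differentiableAt (h.mem_m hp))).differentiableAt
    have h3 : DifferentiableAt ℂ (fun t => Xf U (t, w)) t := by
      have := hasDerivAt_Xf_t (c := 0) (U := U) (t := t) (w := w)
        (by simpa using h.hU.differentiableAt (h.mem_0 hp))
      have h4 := this.differentiableAt
      simpa [tr_zero] using h4
    have h4 : DifferentiableAt ℂ (fun t => q2 L (tr (-1) (Xf U) (t, w), Xf U (t, w))) t :=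
      DifferentiableAt.comp (g := q2 L) (f := fun t => (tr (-1) (Xf U) (t, w), Xf U (t, w))) t
        (ana_q2 hL.anaL _ hm.1).differentiableAt (h2.prodMk h3)
    exact (h1.mul h4).differentiableWithinAt
  have hAper : ∀ z : ℂ, |z.im| < ρ - 3 / 2 * |w.im| → A (z + 1) = A z := by
    intro z hz
    have hp := hmem z hz
    have hm := h.mem3 hL hp
    have e1 : Xt U (z + 1, w) = Xt U (z, w) := h.hXt.per z w (h.mem_0 hp)
    have e2 : Xf U (z + 1, w) = Xf U (z, w) + 1 := hX.per z w (h.mem_0 hp)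
    have e3 : tr (-1) (Xf U) (z + 1, w) = tr (-1) (Xf U) (z, w) + 1 := by
      have := hX.per _ _ (h.mem_m hp)
      unfold tr
      simp only at this ⊢
      rw [← this]
      congr 2
      ring
    simp only [hA]
    rw [e1, e2, e3, hL.q2_per hm.1]
  have hshift := strip_shift hAd hAper (s := w) (by linarith)
  -- the derivative of the action
  have hder : ∀ x ∈ uIcc (0 : ℝ) 1, HasDerivAt
      (fun x : ℝ => L (Xf U ((x : ℂ), w), tr 1 (Xf U) ((x : ℂ), w))) (A (x + w) + B x) x := by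
    intro x _
    have hp : ((x : ℂ), w) ∈ Dom (3 / 2) ρ r := hmem x (by simp; linarith)
    have hm := h.mem3 hL hp
    have h3 : HasDerivAt (fun t => Xf U (t, w)) (Xt U ((x : ℂ), w)) (x : ℂ) := by
      have := hasDerivAt_Xf_t (c := 0) (U := U) (t := x) (w := w)
        (by simpa using h.hU.differentiableAt (h.mem_0 hp))
      simpa [tr_zero] using this
    have h4 : HasDerivAt (fun t => tr 1 (Xf U) (t, w)) (tr 1 (Xt U) ((x : ℂ), w)) (x : ℂ) :=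
      hasDerivAt_Xf_t (h.hU.differentiableAt (h.mem_p hp))
    have h5 := (hasDerivAt_comp2 (F := L) (hL.dL _ hm.2) h3 h4).comp_ofReal
    refine h5.congr_deriv ?_
    have e1 : tr (-1) (Xf U) ((x : ℂ) + w, w) = Xf U ((x : ℂ), w) := by
      unfold tr
      simp only
      congr 2
      push_cast; ring
    have e2 : Xf U ((x : ℂ) + w, w) = tr 1 (Xf U) ((x : ℂ), w) := by
      unfold tr
      simp only
      congr 2
      push_cast; ring
    have e3 : Xt U ((x : ℂ) + w, w) = tr 1 (Xt U) ((x : ℂ), w) := by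
      unfold tr
      simp only
      congr 2
      push_cast; ring
    simp only [hA, hB]
    rw [e1, e2, e3]
    ring
  -- continuity
  have hcA : Continuous (fun x : ℝ => A x) := by
    refine hAd.continuousOn.comp_continuous (by fun_prop) (fun x => ?_)
    change |((x : ℂ)).im| < _
    simp; linarith
  have hcAw : Continuous (fun x : ℝ => A (x + w)) := by
    refine hAd.continuousOn.comp_continuous (f := fun x : ℝ => (x : ℂ) + w) (by fun_prop)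
      (fun x => ?_)
    change |((x : ℂ) + w).im| < _
    simp; linarith
  have hPc : Continuous (fun x : ℝ => Pf L U ((x : ℂ), w)) :=
    (h.hPf hL).continuousOn.comp_continuous (by fun_prop) (fun x => hmem x (by simp; linarith))
  have hPAB : ∀ t : ℂ, Pf L U (t, w) = A t + B t := by
    intro t
    simp only [hA, hB, Pf, Ef, EL]
    ring
  have hcB : Continuous (fun x : ℝ => B x) := by
    have : (fun x : ℝ => B x) = fun x : ℝ => Pf L U ((x : ℂ), w) - A x := by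
      ext x; rw [hPAB]; ring
    rw [this]
    exact hPc.sub hcA
  have hFTC := intervalIntegral.integral_eq_sub_of_hasDerivAt hder
    ((hcAw.add hcB).intervalIntegrable _ _)
  have h0 : fc (Pf L U) 0 w = ∫ x in (0 : ℝ)..1, (A x + B x) := by
    unfold fc
    refine intervalIntegral.integral_congr (fun x _ => ?_)
    simp only [Int.cast_zero, zero_mul, neg_zero, ee_zero, mul_one]
    exact hPAB x
  rw [h0, intervalIntegral.integral_add (hcA.intervalIntegrable _ _)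
    (hcB.intervalIntegrable _ _), ← hshift, ← intervalIntegral.integral_add
    (hcAw.intervalIntegrable _ _) (hcB.intervalIntegrable _ _), hFTC]
  have hp0 : ((0 : ℂ), w) ∈ Dom (3 / 2) ρ r := hmem 0 (by simp; linarith)
  have hm := h.mem3 hL hp0
  have e2 : Xf U ((0 : ℂ) + 1, w) = Xf U (0, w) + 1 := hX.per 0 w (h.mem_0 hp0)
  have e3 : tr 1 (Xf U) ((0 : ℂ) + 1, w) = tr 1 (Xf U) (0, w) + 1 := by
    have := hX.per _ _ (h.mem_p hp0)
    unfold tr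
    simp only at this ⊢
    rw [← this]
    congr 2
    ring
  have e4 := hL.perL hm.2
  rw [zero_add] at e2 e3
  rw [Complex.ofReal_one, Complex.ofReal_zero, e2, e3, e4, sub_self]

end Mean

section Sym

lemma IsRe.apply (h : IsRe k ρ r f) {t w : ℂ} (hp : (t, w) ∈ Dom k ρ r) :
    f (conj t, conj w) = conj (f (t, w)) := by
  have := h (t, w) hp
  unfold cj at this
  rw [← this, Complex.conj_conj]

lemma IsPar.apply {s : ℂ} (h : IsPar k ρ r s f) {t w : ℂ} (hp : (t, w) ∈ Dom k ρ r) :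
    f (t, -w) = s * f (t, w) := h (t, w) hp

lemma tr_mem_half (c : ℝ) {t w : ℂ} {k' : ℝ} (hc : k + |c| ≤ k') (hp : (t, w) ∈ Dom k' ρ r) :
    (t + c * w, w) ∈ Dom k ρ r := tr_mem c (Dom_mono hc le_rfl le_rfl hp)

/-- translates of real functions -/
lemma IsRe.tr {k' : ℝ} (h : IsRe k ρ r f) (c : ℝ) (hc : k + |c| ≤ k') {t w : ℂ}
    (hp : (t, w) ∈ Dom k' ρ r) : tr c f (conj t, conj w) = conj (tr c f (t, w)) := by
  have h1 := h.apply (tr_mem_half c hc hp)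
  unfold B821.tr
  simp only
  rw [← h1]
  congr 2
  simp

lemma IsPar.tr {k' : ℝ} {s : ℂ} (h : IsPar k ρ r s f) (c : ℝ) (hc : k + |c| ≤ k') {t w : ℂ}
    (hp : (t, w) ∈ Dom k' ρ r) : tr c f (t, -w) = s * tr (-c) f (t, w) := by
  have h1 := h.apply (tr_mem_half (-c) (by rwa [abs_neg]) hp)
  unfold B821.tr
  simp only
  rw [← h1]
  congr 2
  push_cast
  ring

/-- partial derivatives of real / even functions -/
lemma IsRe.q1 (h : IsRe k ρ r f) (hf : IsH k ρ r f) : IsRe k ρ r (q1 f) := by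
  rintro ⟨t, w⟩ hp
  have hp' := mem_Dom_conj.2 hp
  have h1 := hasDerivAt_fst (hf.differentiableAt hp)
  have h2 := (hasDerivAt_fst (hf.differentiableAt hp')).conj_conj
  rw [Complex.conj_conj] at h2
  have h3 : (fun s => f (s, w)) =ᶠ[𝓝 t] (conj ∘ (fun s => f (s, conj w)) ∘ conj) := by
    have hcont : Continuous (fun s : ℂ => (s, w)) := by fun_prop
    filter_upwards [hcont.continuousAt.preimage_mem_nhds ((isOpen_Dom k ρ r).mem_nhds hp)] with s hs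
    exact (h _ hs).symm
  exact ((h1.congr_of_eventuallyEq h3.symm).unique h2).symm

lemma IsRe.q2 (h : IsRe k ρ r f) (hf : IsH k ρ r f) : IsRe k ρ r (q2 f) := by
  rintro ⟨t, w⟩ hp
  have hp' := mem_Dom_conj.2 hp
  have h1 := hasDerivAt_snd (hf.differentiableAt hp)
  have h2 := (hasDerivAt_snd (hf.differentiableAt hp')).conj_conj
  rw [Complex.conj_conj] at h2
  have h3 : (fun s => f (t, s)) =ᶠ[𝓝 w] (conj ∘ (fun s => f (conj t, s)) ∘ conj) := by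
    have hcont : Continuous (fun s : ℂ => (t, s)) := by fun_prop
    filter_upwards [hcont.continuousAt.preimage_mem_nhds ((isOpen_Dom k ρ r).mem_nhds hp)] with s hs
    exact (h _ hs).symm
  exact ((h1.congr_of_eventuallyEq h3.symm).unique h2).symm

lemma IsPar.q1 {s : ℂ} (h : IsPar k ρ r s f) (hf : IsH k ρ r f) : IsPar k ρ r s (q1 f) := by
  rintro ⟨t, w⟩ hp
  have hp' := mem_Dom_neg.2 hp
  have h1 := (hasDerivAt_fst (hf.differentiableAt hp)).const_mul s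
  have h2 := hasDerivAt_fst (hf.differentiableAt hp')
  have h3 : (fun z => f (z, -w)) =ᶠ[𝓝 t] (fun z => s * f (z, w)) := by
    have hcont : Continuous (fun s : ℂ => (s, w)) := by fun_prop
    filter_upwards [hcont.continuousAt.preimage_mem_nhds ((isOpen_Dom k ρ r).mem_nhds hp)] with z hz
    exact h _ hz
  exact (h2.congr_of_eventuallyEq h3.symm).unique h1

/-- the Euler-Lagrange defect is odd and real -/
lemma Adm.Ef_re (hL : IsLag ρ₀ ε₀ L Ψ) (h : Adm ρ₀ ε₀ ρ r U) : IsRe (3 / 2) ρ r (Ef L U) := by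
  rintro ⟨t, w⟩ hp
  have hXre : ∀ {c : ℝ}, 1 / 2 + |c| ≤ 3 / 2 →
      tr c (Xf U) (conj t, conj w) = conj (tr c (Xf U) (t, w)) := by
    intro c hc
    have h1 := h.re.tr c hc hp
    unfold Xf tr at *
    simp only at h1 ⊢
    rw [h1]
    simp
  have h0 : Xf U (conj t, conj w) = conj (Xf U (t, w)) := by
    have := hXre (c := 0) (by norm_num)
    rwa [tr_zero, tr_zero] at this
  have hm := h.mem3 hL hp
  unfold cj Ef
  simp only
  rw [hXre (c := -1) (by norm_num), hXre (c := 1) (by norm_num), h0, hL.EL_real hm.1 hm.2,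
    Complex.conj_conj]

lemma Adm.Xf_par (h : Adm ρ₀ ε₀ ρ r U) {k' : ℝ} (c : ℝ) (hc : 1 / 2 + |c| ≤ k') {t w : ℂ}
    (hp : (t, w) ∈ Dom k' ρ r) : tr c (Xf U) (t, -w) = tr (-c) (Xf U) (t, w) := by
  have h1 := h.par.tr c hc hp
  unfold Xf tr at *
  simp only at h1 ⊢
  rw [h1]
  push_cast
  ring

lemma Adm.Xf_re (h : Adm ρ₀ ε₀ ρ r U) {k' : ℝ} (c : ℝ) (hc : 1 / 2 + |c| ≤ k') {t w : ℂ}
    (hp : (t, w) ∈ Dom k' ρ r) : tr c (Xf U) (conj t, conj w) = conj (tr c (Xf U) (t, w)) := by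
  have h1 := h.re.tr c hc hp
  unfold Xf tr at *
  simp only at h1 ⊢
  rw [h1]
  simp

lemma Adm.Ef_par (hL : IsLag ρ₀ ε₀ L Ψ) (h : Adm ρ₀ ε₀ ρ r U) : IsPar (3 / 2) ρ r (-1) (Ef L U) := by
  rintro ⟨t, w⟩ hp
  have hm := h.mem3 hL hp
  have h0 : Xf U (t, -w) = Xf U (t, w) := by
    have := h.Xf_par 0 (k' := 3 / 2) (by norm_num) hp
    rwa [tr_zero, neg_zero, tr_zero] at this
  have h1 := h.Xf_par 1 (k' := 3 / 2) (by norm_num) hp
  have h2 := h.Xf_par (-1) (k' := 3 / 2) (by norm_num) hp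
  rw [neg_neg] at h2
  unfold rf Ef
  simp only
  rw [h0, h1, h2, hL.EL_swap hm.1 hm.2]
  ring

lemma Adm.Xt_re (h : Adm ρ₀ ε₀ ρ r U) : IsRe (1 / 2) ρ r (Xt U) := by
  intro p hp
  have h1 := (h.re.q1 h.hU) p hp
  unfold cj Xt at *
  rw [map_add, map_one, h1]

lemma Adm.Xt_par (h : Adm ρ₀ ε₀ ρ r U) : IsPar (1 / 2) ρ r 1 (Xt U) := by
  intro p hp
  have h1 := (h.par.q1 h.hU) p hp
  unfold rf Xt at *
  rw [h1]
  ring

lemma Adm.Pf_re (hL : IsLag ρ₀ ε₀ L Ψ) (h : Adm ρ₀ ε₀ ρ r U) : IsRe (3 / 2) ρ r (Pf L U) := by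
  intro p hp
  have h1 := h.Ef_re hL p hp
  have h2 := h.Xt_re p (Dom_mono (by norm_num) le_rfl le_rfl hp)
  unfold cj Pf at *
  rw [map_mul, h1, h2]

lemma Adm.Pf_par (hL : IsLag ρ₀ ε₀ L Ψ) (h : Adm ρ₀ ε₀ ρ r U) :
    IsPar (3 / 2) ρ r (-1) (Pf L U) := by
  intro p hp
  have h1 := h.Ef_par hL p hp
  have h2 := h.Xt_par p (Dom_mono (by norm_num) le_rfl le_rfl hp)
  unfold rf Pf at *
  rw [h1, h2]
  ring

lemma Adm.pair_half (hL : IsLag ρ₀ ε₀ L Ψ) (h : Adm ρ₀ ε₀ ρ r U) {p : ℂ × ℂ} (hp : p ∈ Dom 1 ρ r) :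
    (tr (-(1 / 2)) (Xf U) p, tr (1 / 2) (Xf U) p) ∈ Dg ρ₀ ε₀ :=
  Dg_sub_of_lag hL (h.pair_tr (by rw [abs_neg]; norm_num [abs_of_pos]) (by norm_num [abs_of_pos])
    (by norm_num) hp)

lemma Adm.af_re (hL : IsLag ρ₀ ε₀ L Ψ) (h : Adm ρ₀ ε₀ ρ r U) : IsRe 1 ρ r (af L U) := by
  rintro ⟨t, w⟩ hp
  have hm := h.pair_half hL hp
  have c1 : (1 : ℝ) / 2 + |(1 / 2 : ℝ)| ≤ 1 := by norm_num [abs_of_pos]
  have c2 : (1 : ℝ) / 2 + |(-(1 / 2) : ℝ)| ≤ 1 := by rw [abs_neg]; norm_num [abs_of_pos]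
  have h1 := h.Xf_re (1 / 2) c1 hp
  have h2 := h.Xf_re (-(1 / 2)) c2 hp
  have h3 := h.Xt_re.tr (1 / 2) c1 hp
  have h4 := h.Xt_re.tr (-(1 / 2)) c2 hp
  unfold cj af
  simp only
  rw [h1, h2, h3, h4, hL.q12_real hm]
  simp only [map_mul, Complex.conj_conj]

lemma Adm.af_par (hL : IsLag ρ₀ ε₀ L Ψ) (h : Adm ρ₀ ε₀ ρ r U) : IsPar 1 ρ r (-1) (af L U) := by
  rintro ⟨t, w⟩ hp
  have hm := h.pair_half hL hp
  have c1 : (1 : ℝ) / 2 + |(1 / 2 : ℝ)| ≤ 1 := by norm_num [abs_of_pos]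
  have c2 : (1 : ℝ) / 2 + |(-(1 / 2) : ℝ)| ≤ 1 := by rw [abs_neg]; norm_num [abs_of_pos]
  have h1 := h.Xf_par (1 / 2) c1 hp
  have h2 := h.Xf_par (-(1 / 2)) c2 hp
  have h3 := h.Xt_par.tr (1 / 2) c1 hp
  have h4 := h.Xt_par.tr (-(1 / 2)) c2 hp
  rw [neg_neg] at h2 h4
  unfold rf af
  simp only
  rw [h1, h2, h3, h4, hL.q12_swap hm]
  ring

end Sym

section Fourier3

/-- (3.3) in Fourier-friendly form -/
theorem Adm.ident3' (hL : IsLag ρ₀ ε₀ L Ψ) (h : Adm ρ₀ ε₀ ρ r U) {p : ℂ × ℂ}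
    (hp : p ∈ Dom (3 / 2) ρ r) :
    del (muf L U) p = - q2 (Pf L U) p + q1 (fun q => Pf L U q * uf U q) p := by
  obtain ⟨t, w⟩ := p
  rw [h.ident3 hL hp]
  have hp0 := h.mem_0 hp
  have hE := (h.hEf hL).differentiableAt hp
  have hXt := h.hXt.differentiableAt hp0
  have hXw := h.hXw.differentiableAt hp0
  -- derivative of P in w
  have e1 : q2 (Pf L U) (t, w) = q2 (Xt U) (t, w) * Ef L U (t, w) + Xt U (t, w) * q2 (Ef L U) (t, w) := by
    have h1 := hasDerivAt_snd ((h.hPf hL).differentiableAt hp)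
    have h2 := (hasDerivAt_snd hXt).mul (hasDerivAt_snd hE)
    exact h1.unique h2
  have e2 : q1 (fun q => Pf L U q * uf U q) (t, w) =
      q1 (Xw U) (t, w) * Ef L U (t, w) + Xw U (t, w) * q1 (Ef L U) (t, w) := by
    have hPu : IsH (3 / 2) ρ r (fun q => Pf L U q * uf U q) :=
      (h.hPf hL).mul (h.huf.mono (by norm_num) le_rfl le_rfl)
    have h1 := hasDerivAt_fst (hPu.differentiableAt hp)
    have h2 := (hasDerivAt_fst hXw).mul (hasDerivAt_fst hE)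
    have h3 : (fun s => Pf L U (s, w) * uf U (s, w)) =ᶠ[𝓝 t] (fun s => Xw U (s, w) * Ef L U (s, w)) := by
      have hcont : Continuous (fun s : ℂ => (s, w)) := by fun_prop
      filter_upwards [hcont.continuousAt.preimage_mem_nhds
        ((isOpen_Dom (3 / 2) ρ r).mem_nhds hp)] with s hs
      have := h.Xt_ne (h.mem_0 hs)
      unfold Pf uf
      field_simp
    exact (h1.congr_of_eventuallyEq h3.symm).unique h2
  have e3 : q2 (Xt U) (t, w) = q1 (Xw U) (t, w) := by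
    have hana := h.hU.analytic _ hp0
    have h1 : q2 (Xt U) (t, w) = q2 (q1 U) (t, w) := by
      have h2 := hasDerivAt_snd hXt
      have h3 := hasDerivAt_snd (h.hU.q1.differentiableAt hp0)
      exact h2.unique (h3.const_add 1)
    rw [h1, ← q_symm hana]
    rfl
  rw [e1, e2, e3]
  ring

end Fourier3

end Crest.Agent.R102.B821
end
end

-- ▼ part R102/LagB_821

/-!
Row 102, part (B) (helper821): bounds for the Lagrangian, Taylor remainder of the Euler-Lagrange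
function, the factorisation `a = w a'` with `a'` close to `-1`.
-/

set_option autoImplicit false

open Set Filter Topology Metric Complex MeasureTheory
open scoped Real ContDiff ComplexConjugate

noncomputable section

namespace Crest.Agent.R102.B821

open Crest.Agent.R266.SCV

variable {ρ₀ ε₀ k ρ r d : ℝ} {L Ψ U V f g : ℂ × ℂ → ℂ}

section Bounds

lemma ball_subset_Dg {ρ₁ ε₁ s : ℝ} {p : ℂ × ℂ} (hp : p ∈ Dg ρ₁ ε₁) :
    ball p s ⊆ Dg (ρ₁ + s) (ε₁ + 2 * s) := by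
  intro q hq
  rw [mem_ball, dist_eq_norm] at hq
  have h1 : ‖q.1 - p.1‖ < s := (norm_fst_le (q - p)).trans_lt hq
  have h2 : ‖q.2 - p.2‖ < s := (norm_snd_le (q - p)).trans_lt hq
  have h3 : |q.1.im| < ρ₁ + s := by
    have e1 := Complex.abs_im_le_norm (q.1 - p.1)
    rw [Complex.sub_im] at e1
    have e2 := abs_sub_abs_le_abs_sub q.1.im p.1.im
    have := hp.1
    linarith
  have h4 : |q.2.im| < ρ₁ + s := by
    have e1 := Complex.abs_im_le_norm (q.2 - p.2)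
    rw [Complex.sub_im] at e1
    have e2 := abs_sub_abs_le_abs_sub q.2.im p.2.im
    have := hp.2.1
    linarith
  refine ⟨h3, h4, ?_⟩
  have e : q.2 - q.1 = (q.2 - p.2) + (p.2 - p.1) - (q.1 - p.1) := by ring
  rw [e]
  have e1 := norm_sub_le ((q.2 - p.2) + (p.2 - p.1)) (q.1 - p.1)
  have e2 := norm_add_le (q.2 - p.2) (p.2 - p.1)
  have := hp.2.2
  linarith

/-- Cauchy estimate for partial derivatives on neighbourhoods of the diagonal -/
lemma fderiv_bound_Dg {F : ℂ × ℂ → ℂ} {ρ₁ ε₁ s K : ℝ} (hs : 0 < s)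
    (hF : DifferentiableOn ℂ F (Dg (ρ₁ + s) (ε₁ + 2 * s)))
    (hK : ∀ p ∈ Dg (ρ₁ + s) (ε₁ + 2 * s), ‖F p‖ ≤ K) :
    ∀ p ∈ Dg ρ₁ ε₁, ‖fderiv ℂ F p‖ ≤ K / s := fun _ hp =>
  norm_fderiv_le_of_ball hs (hF.mono (ball_subset_Dg hp)) (fun y hy => hK y (ball_subset_Dg hp hy))

lemma norm_q1_le (F : ℂ × ℂ → ℂ) (p : ℂ × ℂ) : ‖q1 F p‖ ≤ ‖fderiv ℂ F p‖ := by
  have h := (fderiv ℂ F p).le_opNorm ((1 : ℂ), (0 : ℂ))
  have h1 : ‖((1 : ℂ), (0 : ℂ))‖ = 1 := by simp [Prod.norm_def]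
  rw [h1, mul_one] at h
  exact h

lemma norm_q2_le (F : ℂ × ℂ → ℂ) (p : ℂ × ℂ) : ‖q2 F p‖ ≤ ‖fderiv ℂ F p‖ := by
  have h := (fderiv ℂ F p).le_opNorm ((0 : ℂ), (1 : ℂ))
  have h1 : ‖((0 : ℂ), (1 : ℂ))‖ = 1 := by simp [Prod.norm_def]
  rw [h1, mul_one] at h
  exact h

/-- one variable second order Taylor estimate -/
lemma taylor_one {φ : ℂ → ℂ} {R K : ℝ} (hR : 2 ≤ R) (hφ : DifferentiableOn ℂ φ (ball 0 R))
    (hK : ∀ z ∈ ball (0 : ℂ) R, ‖φ z‖ ≤ K) :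
    ‖φ 1 - φ 0 - deriv φ 0‖ ≤ 6 * K / R ^ 2 := by
  have hR0 : 0 < R := by linarith
  have hK0 : 0 ≤ K := (norm_nonneg _).trans (hK 0 (mem_ball_self hR0))
  have hball : ball (0 : ℂ) R ∈ 𝓝 (0 : ℂ) := ball_mem_nhds _ hR0
  have h1 : DifferentiableOn ℂ (dslope φ 0) (ball 0 R) :=
    (Complex.differentiableOn_dslope hball).2 hφ
  have h2 : DifferentiableOn ℂ (dslope (dslope φ 0) 0) (ball 0 R) :=
    (Complex.differentiableOn_dslope hball).2 h1
  have e1 : ∀ z : ℂ, z * dslope φ 0 z = φ z - φ 0 := by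
    intro z
    have := sub_smul_dslope φ 0 z
    rwa [sub_zero, smul_eq_mul] at this
  have e2 : ∀ z : ℂ, z * dslope (dslope φ 0) 0 z = dslope φ 0 z - deriv φ 0 := by
    intro z
    have := sub_smul_dslope (dslope φ 0) 0 z
    rwa [sub_zero, smul_eq_mul, dslope_same] at this
  have e3 : ∀ z : ℂ, z ^ 2 * dslope (dslope φ 0) 0 z = φ z - φ 0 - z * deriv φ 0 := by
    intro z
    linear_combination z * e2 z + e1 z
  set R' : ℝ := 3 / 4 * R with hR'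
  have hR'0 : 0 < R' := by positivity
  have hR'1 : 1 < R' := by rw [hR']; linarith
  have hsub : closedBall (0 : ℂ) R' ⊆ ball 0 R := closedBall_subset_ball (by rw [hR']; linarith)
  have hdc : DiffContOnCl ℂ (dslope (dslope φ 0) 0) (ball 0 R') :=
    (h2.mono hsub).diffContOnCl_ball subset_rfl
  have hder : ‖deriv φ 0‖ ≤ K / R' :=
    norm_deriv_le_of_forall_mem_sphere_norm_le hR'0 ((hφ.mono hsub).diffContOnCl_ball subset_rfl)
      (fun y hy => hK y (hsub (sphere_subset_closedBall hy)))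
  have hbd : ∀ z ∈ frontier (ball (0 : ℂ) R'), ‖dslope (dslope φ 0) 0 z‖ ≤ 6 * K / R ^ 2 := by
    intro z hz
    rw [frontier_ball _ hR'0.ne', mem_sphere_zero_iff_norm] at hz
    have h3 := congrArg norm (e3 z)
    rw [norm_mul, norm_pow, hz] at h3
    have h4 : ‖φ z - φ 0 - z * deriv φ 0‖ ≤ 3 * K := by
      have h5 := norm_sub_le (φ z - φ 0) (z * deriv φ 0)
      have h6 := norm_sub_le (φ z) (φ 0)
      have h7 := hK z (hsub (by rw [mem_closedBall_zero_iff]; exact hz.le))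
      have h8 := hK 0 (mem_ball_self hR0)
      have h9 : ‖z * deriv φ 0‖ ≤ K := by
        rw [norm_mul, hz]
        calc R' * ‖deriv φ 0‖ ≤ R' * (K / R') := mul_le_mul_of_nonneg_left hder hR'0.le
          _ = K := by field_simp
      linarith
    rw [← h3] at h4
    have h10 : ‖dslope (dslope φ 0) 0 z‖ ≤ 3 * K / R' ^ 2 := by
      rw [le_div_iff₀ (by positivity)]
      linarith
    refine h10.trans ?_
    rw [hR', div_le_div_iff₀ (by positivity) (by positivity)]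
    have : 0 ≤ K * R ^ 2 := by positivity
    nlinarith
  have hfin := Complex.norm_le_of_forall_mem_frontier_norm_le isBounded_ball hdc hbd
    (subset_closure (show (1 : ℂ) ∈ ball 0 R' by rw [mem_ball_zero_iff, norm_one]; exact hR'1))
  have h3 := e3 1
  rw [one_pow, one_mul, one_mul] at h3
  rw [← h3]
  exact hfin

/-- second order Taylor estimate on a ball of a normed space -/
lemma taylor_ball {E : Type*} [NormedAddCommGroup E] [NormedSpace ℂ E] {F : E → ℂ} {p h : E}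
    {s K : ℝ} (hs : 0 < s) (hF : DifferentiableOn ℂ F (ball p s))
    (hK : ∀ q ∈ ball p s, ‖F q‖ ≤ K) (hh : 2 * ‖h‖ ≤ s) :
    ‖F (p + h) - F p - fderiv ℂ F p h‖ ≤ 6 * K / s ^ 2 * ‖h‖ ^ 2 := by
  have hK0 : 0 ≤ K := (norm_nonneg _).trans (hK p (mem_ball_self hs))
  by_cases h0 : h = 0
  · subst h0
    simp
  have hpos : 0 < ‖h‖ := norm_pos_iff.2 h0
  set R : ℝ := s / ‖h‖ with hR
  have hR2 : 2 ≤ R := by rw [hR, le_div_iff₀ hpos]; exact hh
  have hmem : ∀ z ∈ ball (0 : ℂ) R, p + z • h ∈ ball p s := by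
    intro z hz
    rw [mem_ball_zero_iff, hR, lt_div_iff₀ hpos] at hz
    rw [mem_ball, dist_eq_norm, add_sub_cancel_left, norm_smul]
    exact hz
  have hdiff : ∀ z ∈ ball (0 : ℂ) R, HasDerivAt (fun z : ℂ => F (p + z • h))
      (fderiv ℂ F (p + z • h) h) z := by
    intro z hz
    have h2 : HasFDerivAt F (fderiv ℂ F (p + z • h)) (p + z • h) :=
      (hF.differentiableAt (isOpen_ball.mem_nhds (hmem z hz))).hasFDerivAt
    have h3 : HasDerivAt (fun z : ℂ => p + z • h) h z := by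
      simpa using ((hasDerivAt_id z).smul_const h).const_add p
    exact h2.comp_hasDerivAt z h3
  have h1 := taylor_one (φ := fun z : ℂ => F (p + z • h)) hR2
    (fun z hz => (hdiff z hz).differentiableAt.differentiableWithinAt)
    (fun z hz => hK _ (hmem z hz))
  have hd0 := (hdiff 0 (mem_ball_self (by linarith))).deriv
  rw [hd0] at h1
  simp only [one_smul, zero_smul, add_zero] at h1
  refine h1.trans (le_of_eq ?_)
  rw [hR]
  field_simp

lemma fderiv_eq_q (F : ℂ × ℂ → ℂ) (p : ℂ × ℂ) (a b : ℂ) :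
    fderiv ℂ F p (a, b) = q1 F p * a + q2 F p * b := by
  have h1 : ((a, b) : ℂ × ℂ) = a • ((1 : ℂ), (0 : ℂ)) + b • ((0 : ℂ), (1 : ℂ)) := by
    ext <;> simp
  rw [h1, map_add, map_smul, map_smul, q1, q2, smul_eq_mul, smul_eq_mul]
  ring

/-- all the bounds for the Lagrangian which are used in the Newton scheme -/
theorem IsLag.exists_bounds (h : IsLag ρ₀ ε₀ L Ψ) :
    ∃ K r₂ δ₀ : ℝ, 1 ≤ K ∧ 0 < r₂ ∧ 0 < δ₀ ∧
      (∀ x y : ℂ, (x, y) ∈ Dg (3 / 4 * ρ₀) (ε₀ / 2) → ‖y - x‖ ≤ r₂ →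
        ‖q2 (q1 L) (x, y) + (y - x)‖ ≤ 1 / 100 * ‖y - x‖) ∧
      (∀ x y z x' y' z' : ℂ, ∀ m : ℝ, (x, y) ∈ Dg (3 / 4 * ρ₀) (ε₀ / 2) →
        (y, z) ∈ Dg (3 / 4 * ρ₀) (ε₀ / 2) → ‖x'‖ ≤ m → ‖y'‖ ≤ m → ‖z'‖ ≤ m → m ≤ δ₀ →
        ‖EL L (x + x') (y + y') (z + z') - EL L x y z - dEL L x y z x' y' z'‖ ≤ K * m ^ 2) := by
  obtain ⟨K0, hK0⟩ := h.bdd
  have hρ := h.ρ_pos
  have hε := h.ε_pos
  -- radius of the Cauchy estimates
  set s : ℝ := min (ρ₀ / 32) (ε₀ / 32) with hs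
  have hs0 : 0 < s := lt_min (by linarith) (by linarith)
  have hs1 : s ≤ ρ₀ / 32 := min_le_left _ _
  have hs2 : s ≤ ε₀ / 32 := min_le_right _ _
  have hKn : 0 ≤ K0 := by
    have hmem : ((0 : ℂ), (0 : ℂ)) ∈ Dg ρ₀ ε₀ := by
      refine ⟨by simpa using hρ, by simpa using hρ, by simpa using hε⟩
    exact (norm_nonneg _).trans (hK0 _ hmem)
  have hmono : ∀ {ρ₁ ε₁ : ℝ}, ρ₁ ≤ ρ₀ → ε₁ ≤ ε₀ → Dg ρ₁ ε₁ ⊆ Dg ρ₀ ε₀ := fun h1 h2 => Dg_mono h1 h2
  -- Ψ and its derivatives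
  have hΨana : AnalyticOnNhd ℂ Ψ (Dg ρ₀ ε₀) :=
    analyticOnNhd_of_differentiableOn (isOpen_Dg ρ₀ ε₀) h.diff
  have hΨ1 : ∀ p ∈ Dg (3 / 4 * ρ₀ + 3 * s) (ε₀ / 2 + 6 * s), ‖fderiv ℂ Ψ p‖ ≤ K0 / s :=
    fderiv_bound_Dg hs0 (h.diff.mono (hmono (by linarith) (by linarith)))
      (fun p hp => hK0 p (hmono (by linarith) (by linarith) hp))
  have hΨ2 : ∀ p ∈ Dg (3 / 4 * ρ₀ + 2 * s) (ε₀ / 2 + 4 * s), ‖fderiv ℂ (q1 Ψ) p‖ ≤ K0 / s / s := by
    refine fderiv_bound_Dg hs0 ((ana_q1 hΨana).differentiableOn.mono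
      (hmono (by linarith) (by linarith))) (fun p hp => ?_)
    refine (norm_q1_le _ _).trans (hΨ1 p (Dg_mono (by linarith) (by linarith) hp))
  -- L bounded
  set KL : ℝ := ε₀ ^ 3 * K0 with hKL
  have hKL0 : 0 ≤ KL := by positivity
  have hLb : ∀ p ∈ Dg ρ₀ ε₀, ‖L p‖ ≤ KL := by
    intro p hp
    rw [h.eq p.1 p.2 hp, norm_mul, norm_pow]
    exact mul_le_mul (pow_le_pow_left₀ (norm_nonneg _) hp.2.2.le 3) (hK0 _ hp) (norm_nonneg _)
      (by positivity)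
  have hL1 : ∀ p ∈ Dg (3 / 4 * ρ₀ + 3 * s) (ε₀ / 2 + 6 * s), ‖fderiv ℂ L p‖ ≤ KL / s :=
    fderiv_bound_Dg hs0 (h.diffL.mono (hmono (by linarith) (by linarith)))
      (fun p hp => hLb p (hmono (by linarith) (by linarith) hp))
  set C1 : ℝ := 6 * K0 / s + 6 * (K0 / s) + K0 / s / s + 1 with hC1
  have hC10 : 0 < C1 := by positivity
  refine ⟨2 * (6 * (KL / s) / s ^ 2) + 1, min (1 : ℝ) (1 / (100 * C1)), s / 2, ?_, ?_, by linarith,
    ?_, ?_⟩
  · have : 0 ≤ 2 * (6 * (KL / s) / s ^ 2) := by positivity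
    linarith
  · exact lt_min one_pos (by positivity)
  · intro x y hp hxy
    have hxy1 : ‖y - x‖ ≤ 1 := hxy.trans (min_le_left _ _)
    have hxy2 : ‖y - x‖ ≤ 1 / (100 * C1) := hxy.trans (min_le_right _ _)
    have hp' : (x, y) ∈ Dg ρ₀ ε₀ := hmono (by linarith) (by linarith) hp
    have hp3 : (x, y) ∈ Dg (3 / 4 * ρ₀ + 3 * s) (ε₀ / 2 + 6 * s) :=
      Dg_mono (by linarith) (by linarith) hp
    have hp2 : (x, y) ∈ Dg (3 / 4 * ρ₀ + 2 * s) (ε₀ / 2 + 4 * s) :=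
      Dg_mono (by linarith) (by linarith) hp
    -- formula for L_1 near (x, y)
    have hq1 : ∀ q ∈ Dg ρ₀ ε₀, q1 L q = -3 * (q.2 - q.1) ^ 2 * Ψ q + (q.2 - q.1) ^ 3 * q1 Ψ q := by
      rintro ⟨a, b⟩ hq
      have hd := hasDerivAt_fst (h.dL _ hq)
      have hdΨ := hasDerivAt_fst (hΨana _ hq).differentiableAt
      have h1 : HasDerivAt (fun s : ℂ => b - s) (-1) a := by
        simpa using (hasDerivAt_id a).const_sub b
      have h2 := (h1.pow 3).mul hdΨ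
      have h3 : (fun s => L (s, b)) =ᶠ[𝓝 a] (fun s => (b - s) ^ 3 * Ψ (s, b)) := by
        have hcont : Continuous (fun s : ℂ => (s, b)) := by fun_prop
        filter_upwards [hcont.continuousAt.preimage_mem_nhds
          ((isOpen_Dg ρ₀ ε₀).mem_nhds hq)] with s hs
        exact h.eq _ _ hs
      have h4 := (hd.congr_of_eventuallyEq h3.symm).unique h2
      rw [h4]
      simp only [Pi.pow_apply]
      push_cast
      ring
    have hq12 : q2 (q1 L) (x, y) = -6 * (y - x) * Ψ (x, y) - 3 * (y - x) ^ 2 * q2 Ψ (x, y) +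
        3 * (y - x) ^ 2 * q1 Ψ (x, y) + (y - x) ^ 3 * q2 (q1 Ψ) (x, y) := by
      have hd := hasDerivAt_snd (ana_q1 h.anaL _ hp').differentiableAt
      have hdΨ := hasDerivAt_snd (hΨana _ hp').differentiableAt
      have hdΨ1 := hasDerivAt_snd (ana_q1 hΨana _ hp').differentiableAt
      have h1 : HasDerivAt (fun s : ℂ => s - x) 1 y := (hasDerivAt_id y).sub_const x
      have h2 := (((h1.pow 2).const_mul (-3 : ℂ)).mul hdΨ).add ((h1.pow 3).mul hdΨ1)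
      have h3 : (fun s => q1 L (x, s)) =ᶠ[𝓝 y] (fun s => -3 * (s - x) ^ 2 * Ψ (x, s) +
          (s - x) ^ 3 * q1 Ψ (x, s)) := by
        have hcont : Continuous (fun s : ℂ => (x, s)) := by fun_prop
        filter_upwards [hcont.continuousAt.preimage_mem_nhds
          ((isOpen_Dg ρ₀ ε₀).mem_nhds hp')] with s hs
        exact hq1 _ hs
      have h4 := (hd.congr_of_eventuallyEq h3.symm).unique h2
      rw [h4]
      simp only [Pi.pow_apply]
      push_cast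
      ring
    -- Ψ (x, y) - 1/6
    have hΨd : ‖Ψ (x, y) - 1 / 6‖ ≤ K0 / s * ‖y - x‖ := by
      rw [← h.diag x hp'.1]
      have hseg : ∀ z ∈ segment ℝ x y, (x, z) ∈ Dg (3 / 4 * ρ₀ + 3 * s) (ε₀ / 2 + 6 * s) := by
        intro z hz
        obtain ⟨a, b, ha, hb, hab, rfl⟩ := hz
        refine ⟨hp3.1, ?_, ?_⟩
        · have e1 : (a • x + b • y).im = a * x.im + b * y.im := by simp
          simp only
          rw [e1]
          have h1 := abs_add_le (a * x.im) (b * y.im)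
          rw [abs_mul, abs_mul, abs_of_nonneg ha, abs_of_nonneg hb] at h1
          have h2 := hp3.1
          have h3 := hp3.2.1
          simp only at h2 h3
          have h4 : a * |x.im| + b * |y.im| < 3 / 4 * ρ₀ + 3 * s := by
            rcases eq_or_lt_of_le ha with h5 | h5
            · rw [← h5] at hab ⊢
              have : b = 1 := by linarith
              rw [this]; linarith
            · have h6 : a * |x.im| < a * (3 / 4 * ρ₀ + 3 * s) := mul_lt_mul_of_pos_left h2 h5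
              have h7 : b * |y.im| ≤ b * (3 / 4 * ρ₀ + 3 * s) := mul_le_mul_of_nonneg_left h3.le hb
              have h8 : a * (3 / 4 * ρ₀ + 3 * s) + b * (3 / 4 * ρ₀ + 3 * s) =
                3 / 4 * ρ₀ + 3 * s := by rw [← add_mul, hab, one_mul]
              linarith
          linarith
        · have e1 : a • x + b • y - x = b • (y - x) := by
            have : a = 1 - b := by linarith
            rw [this, sub_smul, one_smul, smul_sub]; ring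
          simp only
          rw [e1, norm_smul, Real.norm_of_nonneg hb]
          have h2 := hp3.2.2
          simp only at h2
          have := norm_nonneg (y - x)
          nlinarith
      have hconv := (convex_segment x y).norm_image_sub_le_of_norm_hasDerivWithin_le
        (f := fun z => Ψ (x, z)) (f' := fun z => q2 Ψ (x, z)) (C := K0 / s)
        (fun z hz => (hasDerivAt_snd (hΨana _ (hmono (by linarith) (by linarith)
          (hseg z hz))).differentiableAt).hasDerivWithinAt)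
        (fun z hz => (norm_q2_le _ _).trans (hΨ1 _ (hseg z hz)))
        (left_mem_segment ℝ x y) (right_mem_segment ℝ x y)
      exact hconv
    have b1 : ‖q2 Ψ (x, y)‖ ≤ K0 / s := (norm_q2_le _ _).trans (hΨ1 _ hp3)
    have b2 : ‖q1 Ψ (x, y)‖ ≤ K0 / s := (norm_q1_le _ _).trans (hΨ1 _ hp3)
    have b3 : ‖q2 (q1 Ψ) (x, y)‖ ≤ K0 / s / s := (norm_q2_le _ _).trans (hΨ2 _ hp2)
    have e : q2 (q1 L) (x, y) + (y - x) = (y - x) * (-6 * (Ψ (x, y) - 1 / 6) -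
        3 * (y - x) * q2 Ψ (x, y) + 3 * (y - x) * q1 Ψ (x, y) +
        (y - x) ^ 2 * q2 (q1 Ψ) (x, y)) := by
      rw [hq12]; ring
    rw [e, norm_mul, mul_comm]
    refine mul_le_mul_of_nonneg_right ?_ (norm_nonneg _)
    set D := ‖y - x‖ with hD
    have hD0 : 0 ≤ D := norm_nonneg _
    have n1 : ‖-6 * (Ψ (x, y) - 1 / 6)‖ ≤ 6 * (K0 / s * D) := by
      rw [norm_mul]
      have : ‖(-6 : ℂ)‖ = 6 := by simp
      rw [this]
      linarith
    have n2 : ‖3 * (y - x) * q2 Ψ (x, y)‖ ≤ 3 * D * (K0 / s) := by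
      rw [norm_mul, norm_mul]
      have : ‖(3 : ℂ)‖ = 3 := by simp
      rw [this]
      exact mul_le_mul_of_nonneg_left b1 (by positivity)
    have n3 : ‖3 * (y - x) * q1 Ψ (x, y)‖ ≤ 3 * D * (K0 / s) := by
      rw [norm_mul, norm_mul]
      have : ‖(3 : ℂ)‖ = 3 := by simp
      rw [this]
      exact mul_le_mul_of_nonneg_left b2 (by positivity)
    have n4 : ‖(y - x) ^ 2 * q2 (q1 Ψ) (x, y)‖ ≤ D * (K0 / s / s) := by
      rw [norm_mul, norm_pow]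
      refine mul_le_mul ?_ b3 (norm_nonneg _) hD0
      change D ^ 2 ≤ D
      nlinarith
    have t1 := norm_add_le (-6 * (Ψ (x, y) - 1 / 6) - 3 * (y - x) * q2 Ψ (x, y) +
      3 * (y - x) * q1 Ψ (x, y)) ((y - x) ^ 2 * q2 (q1 Ψ) (x, y))
    have t2 := norm_add_le (-6 * (Ψ (x, y) - 1 / 6) - 3 * (y - x) * q2 Ψ (x, y))
      (3 * (y - x) * q1 Ψ (x, y))
    have t3 := norm_sub_le (-6 * (Ψ (x, y) - 1 / 6)) (3 * (y - x) * q2 Ψ (x, y))
    have t4 : 6 * (K0 / s * D) + 3 * D * (K0 / s) + 3 * D * (K0 / s) + D * (K0 / s / s) ≤ C1 * D := by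
      rw [hC1]
      have : 0 ≤ D := hD0
      have e5 : (6 * K0 / s + 6 * (K0 / s) + K0 / s / s + 1) * D =
        6 * (K0 / s * D) + 3 * D * (K0 / s) + 3 * D * (K0 / s) + D * (K0 / s / s) + D := by ring
      linarith
    have t5 : C1 * D ≤ 1 / 100 := by
      calc C1 * D ≤ C1 * (1 / (100 * C1)) := mul_le_mul_of_nonneg_left hxy2 hC10.le
        _ = 1 / 100 := by field_simp
    linarith
  · intro x y z x' y' z' m hxy hyz hx' hy' hz' hm
    have hm0 : 0 ≤ m := (norm_nonneg _).trans hx'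
    have key : ∀ (F : ℂ × ℂ → ℂ) (a b a' b' : ℂ), AnalyticOnNhd ℂ F (Dg ρ₀ ε₀) →
        (∀ q ∈ Dg (3 / 4 * ρ₀ + 3 * s) (ε₀ / 2 + 6 * s), ‖F q‖ ≤ KL / s) →
        (a, b) ∈ Dg (3 / 4 * ρ₀) (ε₀ / 2) → ‖a'‖ ≤ m → ‖b'‖ ≤ m →
        ‖F (a + a', b + b') - F (a, b) - (q1 F (a, b) * a' + q2 F (a, b) * b')‖ ≤
          6 * (KL / s) / s ^ 2 * m ^ 2 := by
      intro F a b a' b' hF hFb hab ha' hb'
      have hh : ‖((a', b') : ℂ × ℂ)‖ ≤ m := by
        rw [Prod.norm_def]; exact max_le ha' hb'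
      have hsub : ball ((a, b) : ℂ × ℂ) s ⊆ Dg (3 / 4 * ρ₀ + s) (ε₀ / 2 + 2 * s) :=
        ball_subset_Dg hab
      have h1 := taylor_ball (F := F) (p := ((a, b) : ℂ × ℂ)) (h := ((a', b') : ℂ × ℂ)) hs0
        (hF.differentiableOn.mono (hsub.trans (hmono (by linarith) (by linarith))))
        (fun q hq => hFb q (Dg_mono (by linarith) (by linarith) (hsub hq)))
        (by linarith)
      rw [fderiv_eq_q] at h1
      refine h1.trans ?_
      have : 0 ≤ 6 * (KL / s) / s ^ 2 := by positivity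
      exact mul_le_mul_of_nonneg_left (pow_le_pow_left₀ (norm_nonneg _) hh 2) this
    have k1 := key (q2 L) x y x' y' (ana_q2 h.anaL)
      (fun q hq => (norm_q2_le _ _).trans (hL1 q hq)) hxy hx' hy'
    have k2 := key (q1 L) y z y' z' (ana_q1 h.anaL)
      (fun q hq => (norm_q1_le _ _).trans (hL1 q hq)) hyz hy' hz'
    have hxy' : (x, y) ∈ Dg ρ₀ ε₀ := hmono (by linarith) (by linarith) hxy
    have e : EL L (x + x') (y + y') (z + z') - EL L x y z - dEL L x y z x' y' z' =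
        (q2 L (x + x', y + y') - q2 L (x, y) - (q1 (q2 L) (x, y) * x' + q2 (q2 L) (x, y) * y')) +
        (q1 L (y + y', z + z') - q1 L (y, z) - (q1 (q1 L) (y, z) * y' + q2 (q1 L) (y, z) * z')) := by
      unfold EL dEL
      rw [q_symm (h.anaL _ hxy')]
      ring
    rw [e]
    refine (norm_add_le _ _).trans ?_
    have : 0 ≤ m ^ 2 := by positivity
    nlinarith

end Bounds

section Coefficient

/-- the difference quotient `(X^+ - X^-)/w - 1` -/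
lemma Adm.exists_kappa (h : Adm ρ₀ ε₀ ρ r U) :
    ∃ κ, IsH 1 ρ r κ ∧ (∀ p ∈ Dom 1 ρ r, ‖κ p‖ ≤ 1 / 100) ∧
      ∀ p ∈ Dom 1 ρ r, del U p = p.2 * κ p := by
  have hU1 : IsH 1 ρ r (del U) := by
    have := h.hU.del
    norm_num at this
    exact this
  obtain ⟨κ, hκ, hκ2⟩ := hU1.exists_div_w (by norm_num) (fun t _ => by rw [del_apply]; simp)
  have hb : Bdd 1 ρ r 0 (1 / 100) κ := by
    refine bdd_of_ne (by norm_num) hκ.continuousOn (fun t w hp hw => ?_)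
    have h1 := hκ2 t w hp
    rw [del_apply] at h1
    have e12 : |(1 / 2 : ℝ)| = 1 / 2 := by norm_num
    have m1 : (t + w / 2, w) ∈ Dom (1 / 2) ρ r := by
      have := tr_mem (k := 1 / 2) (1 / 2) (p := (t, w)) (by rw [e12]; norm_num; exact hp)
      have e : t + ((1 / 2 : ℝ) : ℂ) * w = t + w / 2 := by push_cast; ring
      simp only [e] at this
      exact this
    have m2 : (t - w / 2, w) ∈ Dom (1 / 2) ρ r := by
      have := tr_mem (k := 1 / 2) (-(1 / 2)) (p := (t, w)) (by rw [abs_neg, e12]; norm_num; exact hp)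
      have e : t + ((-(1 / 2) : ℝ) : ℂ) * w = t - w / 2 := by push_cast; ring
      simp only [e] at this
      exact this
    have h2 := h.lip m2 m1
    rw [h1, norm_mul] at h2
    have e : t + w / 2 - (t - w / 2) = w := by ring
    rw [e] at h2
    have hw' : 0 < ‖w‖ := norm_pos_iff.2 hw
    rw [pow_zero, mul_one]
    have h3 : ‖w‖ * ‖κ (t, w)‖ ≤ ‖w‖ * (1 / 100) := by linarith
    exact le_of_mul_le_mul_left h3 hw'
  refine ⟨κ, hκ, fun p hp => by simpa using hb p hp, fun p hp => hκ2 p.1 p.2 hp⟩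

/-- `a = w a'` with `a'` close to `-1` -/
lemma Adm.exists_at (hL : IsLag ρ₀ ε₀ L Ψ) {r₂ : ℝ}
    (hr₂ : ∀ x y : ℂ, (x, y) ∈ Dg (3 / 4 * ρ₀) (ε₀ / 2) → ‖y - x‖ ≤ r₂ →
        ‖q2 (q1 L) (x, y) + (y - x)‖ ≤ 1 / 100 * ‖y - x‖)
    (h : Adm ρ₀ ε₀ ρ r U) (hr : 2 * r ≤ r₂) :
    ∃ α, IsH 1 ρ r α ∧ (∀ p ∈ Dom 1 ρ r, ‖α p + 1‖ ≤ 1 / 10) ∧
      ∀ p ∈ Dom 1 ρ r, af L U p = p.2 * α p := by
  obtain ⟨κ, hκ, hκb, hκe⟩ := h.exists_kappa
  have ha := h.haf hL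
  -- value of `a`
  have hpt : ∀ p ∈ Dom 1 ρ r, ‖af L U p + p.2‖ ≤ 1 / 10 * ‖p.2‖ := by
    rintro ⟨t, w⟩ hp
    have hm := h.pair_tr (c₁ := -(1 / 2)) (c₂ := 1 / 2) (k := 1) (by rw [abs_neg]; norm_num [abs_of_pos])
      (by norm_num [abs_of_pos]) (by norm_num) hp
    set x := tr (-(1 / 2)) (Xf U) (t, w) with hx
    set y := tr (1 / 2) (Xf U) (t, w) with hy
    have hyx : y - x = w * (1 + κ (t, w)) := by
      have h1 := hκe _ hp
      simp only at h1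
      have h2 : y - x = w + del U (t, w) := by
        rw [hx, hy]
        unfold del tr Xf
        simp only
        push_cast
        ring
      rw [h2, h1]; ring
    have hκ1 := hκb _ hp
    have hn : ‖y - x‖ ≤ 101 / 100 * ‖w‖ := by
      rw [hyx, norm_mul]
      have h3 := norm_add_le (1 : ℂ) (κ (t, w))
      rw [norm_one] at h3
      have := norm_nonneg w
      nlinarith
    have hwr : ‖w‖ < r := hp.2
    have hr0 := h.r_pos
    have h4 := hr₂ x y hm (by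
      have := norm_nonneg w
      linarith)
    -- products of X_t
    have e12 : |(1 / 2 : ℝ)| = 1 / 2 := by norm_num
    have u1 : ‖tr (-(1 / 2)) (Xt U) (t, w) - 1‖ ≤ 1 / 100 := by
      have hm1 := tr_mem (k := 1 / 2) (-(1 / 2)) (p := (t, w))
        (by rw [abs_neg, e12]; norm_num; exact hp)
      have := h.Ut_bd _ hm1
      have e : tr (-(1 / 2)) (Xt U) (t, w) - 1 = q1 U (t + ((-(1 / 2) : ℝ) : ℂ) * w, w) := by
        unfold tr Xt; ring
      rw [e]; exact this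
    have u2 : ‖tr (1 / 2) (Xt U) (t, w) - 1‖ ≤ 1 / 100 := by
      have hm1 := tr_mem (k := 1 / 2) (1 / 2) (p := (t, w)) (by rw [e12]; norm_num; exact hp)
      have := h.Ut_bd _ hm1
      have e : tr (1 / 2) (Xt U) (t, w) - 1 = q1 U (t + (((1 / 2) : ℝ) : ℂ) * w, w) := by
        unfold tr Xt; ring
      rw [e]; exact this
    set A := tr (-(1 / 2)) (Xt U) (t, w) with hA
    set B := tr (1 / 2) (Xt U) (t, w) with hB
    set Λ := q2 (q1 L) (x, y) with hΛ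
    have haf : af L U (t, w) = Λ * (A * B) := rfl
    have nA : ‖A‖ ≤ 101 / 100 := by
      have := norm_add_le (A - 1) 1
      rw [sub_add_cancel, norm_one] at this
      linarith
    have nB : ‖B‖ ≤ 101 / 100 := by
      have := norm_add_le (B - 1) 1
      rw [sub_add_cancel, norm_one] at this
      linarith
    have nAB : ‖A * B - 1‖ ≤ 3 / 100 := by
      have e : A * B - 1 = (A - 1) * B + (B - 1) := by ring
      rw [e]
      refine (norm_add_le _ _).trans ?_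
      rw [norm_mul]
      have := norm_nonneg (A - 1)
      have := norm_nonneg B
      nlinarith
    have nAB' : ‖A * B‖ ≤ 103 / 100 := by
      have := norm_add_le (A * B - 1) 1
      rw [sub_add_cancel, norm_one] at this
      linarith
    have e5 : af L U (t, w) + w = (Λ + (y - x)) * (A * B) - (y - x) * (A * B - 1) -
        w * κ (t, w) := by
      rw [haf]
      linear_combination (-1 : ℂ) * hyx
    simp only
    rw [e5]
    have t1 := norm_sub_le ((Λ + (y - x)) * (A * B) - (y - x) * (A * B - 1)) (w * κ (t, w))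
    have t2 := norm_sub_le ((Λ + (y - x)) * (A * B)) ((y - x) * (A * B - 1))
    have t3 : ‖(Λ + (y - x)) * (A * B)‖ ≤ 1 / 100 * ‖y - x‖ * (103 / 100) := by
      rw [norm_mul]
      exact mul_le_mul h4 nAB' (norm_nonneg _) (by positivity)
    have t4 : ‖(y - x) * (A * B - 1)‖ ≤ ‖y - x‖ * (3 / 100) := by
      rw [norm_mul]
      exact mul_le_mul_of_nonneg_left nAB (norm_nonneg _)
    have t5 : ‖w * κ (t, w)‖ ≤ ‖w‖ * (1 / 100) := by
      rw [norm_mul]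
      exact mul_le_mul_of_nonneg_left hκ1 (norm_nonneg _)
    have := norm_nonneg w
    linarith
  have h0 : ∀ t : ℂ, (t, 0) ∈ Dom 1 ρ r → af L U (t, 0) = 0 := by
    intro t ht
    have := hpt _ ht
    simp only [norm_zero, mul_zero, add_zero] at this
    exact norm_le_zero_iff.1 this
  obtain ⟨α, hα, hαe⟩ := ha.exists_div_w (by norm_num) h0
  have hb : Bdd 1 ρ r 0 (1 / 10) (fun p => α p + 1) := by
    refine bdd_of_ne (by norm_num) (hα.add (IsH.const 1)).continuousOn (fun t w hp hw => ?_)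
    have h1 := hpt _ hp
    rw [hαe t w hp] at h1
    have e : w * α (t, w) + w = w * (α (t, w) + 1) := by ring
    simp only at h1
    rw [e, norm_mul] at h1
    have hw' : 0 < ‖w‖ := norm_pos_iff.2 hw
    rw [pow_zero, mul_one]
    have h3 : ‖w‖ * ‖α (t, w) + 1‖ ≤ ‖w‖ * (1 / 10) := by linarith
    exact le_of_mul_le_mul_left h3 hw'
  exact ⟨α, hα, fun p hp => by simpa using hb p hp, fun p hp => hαe p.1 p.2 hp⟩

end Coefficient

section Gain

variable {A : ℝ} {M : ℕ}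

/-- Fourier coefficients of `f_t` -/
lemma fc_q1 (hf : IsH k ρ r f) (n : ℤ) {w : ℂ} (hw : ‖w‖ < r) (hk : k * |w.im| < ρ) :
    fc (q1 f) n w = 2 * π * I * n * fc f n w := by
  have hmem : ∀ x : ℝ, ((x : ℂ), w) ∈ Dom k ρ r := fun x => real_mem_Dom.2 ⟨hk, hw⟩
  have hu : ∀ x ∈ uIcc (0 : ℝ) 1, HasDerivAt (fun x : ℝ => f ((x : ℂ), w)) (q1 f ((x : ℂ), w)) x :=
    fun x _ => (hasDerivAt_fst (hf.differentiableAt (hmem x))).comp_ofReal
  have hv : ∀ x ∈ uIcc (0 : ℝ) 1, HasDerivAt (fun x : ℝ => ee (-((n : ℂ) * x)))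
      (-(2 * π * I * n) * ee (-((n : ℂ) * x))) x := by
    intro x _
    have h1 : HasDerivAt (fun z : ℂ => ee (-((n : ℂ) * z)))
        (-(2 * π * I * n) * ee (-((n : ℂ) * x))) (x : ℂ) := by
      unfold ee
      have h2 : HasDerivAt (fun z : ℂ => 2 * π * I * (-((n : ℂ) * z))) (2 * π * I * (-((n : ℂ) * 1)))
          (x : ℂ) := (((hasDerivAt_id (x : ℂ)).const_mul (n : ℂ)).neg).const_mul _
      refine h2.cexp.congr_deriv ?_
      ring
    exact h1.comp_ofReal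
  have hc1 : Continuous (fun x : ℝ => q1 f ((x : ℂ), w)) :=
    hf.q1.continuousOn.comp_continuous (by fun_prop) hmem
  have hc2 : Continuous (fun x : ℝ => -(2 * π * I * n) * ee (-((n : ℂ) * x))) :=
    continuous_const.mul (continuous_ee.comp (by fun_prop))
  have h3 := intervalIntegral.integral_mul_deriv_eq_deriv_mul hu hv
    (hc1.intervalIntegrable _ _) (hc2.intervalIntegrable _ _)
  have e1 : ee (-((n : ℂ) * (1 : ℝ))) = 1 := by
    have := ee_int (-n)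
    push_cast at this ⊢
    rw [mul_one]
    exact this
  have e0 : ee (-((n : ℂ) * (0 : ℝ))) = 1 := by simp [ee_zero]
  have ep : f (((1 : ℝ) : ℂ), w) = f (((0 : ℝ) : ℂ), w) := by
    have := hf.per 0 w (by simpa using hmem 0)
    simpa using this
  rw [e1, e0, ep, sub_self, zero_sub] at h3
  have h4 : ∫ x in (0 : ℝ)..1, f ((x : ℂ), w) * (-(2 * π * I * n) * ee (-((n : ℂ) * x))) =
      -(2 * π * I * n) * fc f n w := by
    unfold fc
    rw [← intervalIntegral.integral_const_mul]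
    refine intervalIntegral.integral_congr (fun x _ => ?_)
    ring
  rw [h4] at h3
  unfold fc at h3 ⊢
  linear_combination h3

/-- the centred difference gains one power of `w` -/
lemma Bdd.del_gain (_hA : 0 ≤ A) (hf : IsH k ρ r f) (hb : Bdd k ρ r M A f) (hd : 0 < d) :
    Bdd (k + 1 / 2) (ρ - d) r (M + 1) (A / d) (B821.del f) := by
  rintro ⟨t, w⟩ hp
  have e12 : |(1 / 2 : ℝ)| = 1 / 2 := by norm_num
  have hb1 := hb.q1 hf hd
  have m1 : (t + w / 2, w) ∈ Dom k (ρ - d) r := by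
    have := tr_mem (k := k) (1 / 2) (p := (t, w)) (by rw [e12]; exact hp)
    have e : t + ((1 / 2 : ℝ) : ℂ) * w = t + w / 2 := by push_cast; ring
    simp only [e] at this
    exact this
  have m2 : (t - w / 2, w) ∈ Dom k (ρ - d) r := by
    have := tr_mem (k := k) (-(1 / 2)) (p := (t, w)) (by rw [abs_neg, e12]; exact hp)
    have e : t + ((-(1 / 2) : ℝ) : ℂ) * w = t - w / 2 := by push_cast; ring
    simp only [e] at this
    exact this
  have hmem : ∀ s : ℂ, |s.im| < ρ - d - k * |w.im| → (s, w) ∈ Dom k (ρ - d) r := fun s hs =>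
    ⟨by simp only; linarith, hp.2⟩
  have n1 : |(t + w / 2).im| < ρ - d - k * |w.im| := by
    have := m1.1; simp only at this; linarith
  have n2 : |(t - w / 2).im| < ρ - d - k * |w.im| := by
    have := m2.1; simp only at this; linarith
  have hsub : Dom k (ρ - d) r ⊆ Dom k ρ r := Dom_mono le_rfl (by linarith) le_rfl
  have h1 := (convex_strip (ρ - d - k * |w.im|)).norm_image_sub_le_of_norm_hasDerivWithin_le
    (f := fun s => f (s, w)) (f' := fun s => B821.q1 f (s, w)) (C := A / d * ‖w‖ ^ M)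
    (fun s hs => (hasDerivAt_fst (hf.differentiableAt (hsub (hmem s hs)))).hasDerivWithinAt)
    (fun s hs => hb1 _ (hmem s hs)) n2 n1
  rw [del_apply]
  refine h1.trans (le_of_eq ?_)
  have e : t + w / 2 - (t - w / 2) = w := by ring
  rw [e]
  simp only
  ring

end Gain

end Crest.Agent.R102.B821
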