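import Mathlib
import Crest.Agent.R102.LemG2_864

-- ▼ part R102/LemG1_864
section

/-! # Poisson kernel of the upper half plane: the facts needed for Lemma G -/

open Set Filter Metric Complex Topology MeasureTheory

namespace Crest.Agent.R102.G864

/-- Poisson kernel of the upper half plane -/
noncomputable def PK (z : ℂ) (t : ℝ) : ℝ := (1 / Real.pi) * (z.im / ((t - z.re) ^ 2 + z.im ^ 2))

theorem PK_nonneg {z : ℂ} (hz : 0 < z.im) (t : ℝ) : 0 ≤ PK z t := by
  unfold PK; positivity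

theorem PK_eq {z : ℂ} (hz : 0 < z.im) (t : ℝ) :
    PK z t = (1 / (Real.pi * z.im)) * (1 + (z.im⁻¹ * (t - z.re)) ^ 2)⁻¹ := by
  unfold PK
  have h1 : (0:ℝ) < (t - z.re) ^ 2 + z.im ^ 2 := by positivity
  have h2 : (0:ℝ) < 1 + (z.im⁻¹ * (t - z.re)) ^ 2 := by positivity
  field_simp
  ring

theorem PK_integrable {z : ℂ} (hz : 0 < z.im) : Integrable (PK z) := by
  have h1 : Integrable (fun x : ℝ => (1 + x ^ 2)⁻¹) := integrable_inv_one_add_sq
  have h2 := (h1.comp_mul_left' (inv_ne_zero hz.ne')).comp_sub_right z.re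
  have h3 := h2.const_mul (1 / (Real.pi * z.im))
  refine h3.congr (Eventually.of_forall fun t => ?_)
  simp only
  rw [PK_eq hz]

theorem PK_integral {z : ℂ} (hz : 0 < z.im) : ∫ t, PK z t = 1 := by
  have h1 : ∫ t, PK z t = ∫ t, (1 / (Real.pi * z.im)) * (1 + (z.im⁻¹ * (t - z.re)) ^ 2)⁻¹ := by
    congr 1; ext t; exact PK_eq hz t
  rw [h1, integral_const_mul]
  rw [integral_sub_right_eq_self (fun t => (1 + (z.im⁻¹ * t) ^ 2)⁻¹) z.re]
  rw [Measure.integral_comp_mul_left (fun t => (1 + t ^ 2)⁻¹) z.im⁻¹, integral_univ_inv_one_add_sq]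
  rw [inv_inv, abs_of_pos hz, smul_eq_mul]
  have := Real.pi_pos
  field_simp

theorem PK_le {z : ℂ} (hz : 0 < z.im) (t : ℝ) : PK z t ≤ 1 / (Real.pi * z.im) := by
  rw [PK_eq hz]
  have h2 : (1 + (z.im⁻¹ * (t - z.re)) ^ 2)⁻¹ ≤ 1 := by
    apply inv_le_one_of_one_le₀
    nlinarith [sq_nonneg (z.im⁻¹ * (t - z.re))]
  have h3 : 0 ≤ 1 / (Real.pi * z.im) := by positivity
  nlinarith

/-- the mass of a set of finite measure -/
theorem PK_mass_le {z : ℂ} (hz : 0 < z.im) {A : Set ℝ} {m : ℝ} (hm : volume A ≤ ENNReal.ofReal m)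
    (hm0 : 0 ≤ m) : ∫ t in A, PK z t ≤ m / (Real.pi * z.im) := by
  have hfin : volume A < ⊤ := lt_of_le_of_lt hm ENNReal.ofReal_lt_top
  have h1 : ∫ t in A, PK z t ≤ ∫ _ in A, (1 / (Real.pi * z.im)) := by
    apply setIntegral_mono (PK_integrable hz).integrableOn
    · exact integrableOn_const hfin.ne enorm_ne_top
    · intro t; exact PK_le hz t
  refine h1.trans ?_
  rw [setIntegral_const, smul_eq_mul]
  have h2 : volume.real A ≤ m := by
    rw [Measure.real]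
    exact ENNReal.toReal_le_of_le_ofReal hm0 hm
  have h3 : 0 ≤ 1 / (Real.pi * z.im) := by positivity
  calc volume.real A * (1 / (Real.pi * z.im)) ≤ m * (1 / (Real.pi * z.im)) := by gcongr
    _ = m / (Real.pi * z.im) := by ring

theorem pi_lt_3_2 : Real.pi < 3.2 := by linarith [Real.pi_lt_d2]

/-- an interval of length `y/2` at distance `≤ y/2` carries mass `≥ 1/8` -/
theorem PK_mass_ge {z : ℂ} (hz : 0 < z.im) {A : Set ℝ} {c : ℝ}
    (hA : Ioo c (c + z.im / 2) ⊆ A)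
    (h1 : ∀ t ∈ Ioo c (c + z.im / 2), |t - z.re| ≤ z.im / 2) :
    1 / 8 ≤ ∫ t in A, PK z t := by
  have h2 : ∫ t in Ioo c (c + z.im / 2), PK z t ≤ ∫ t in A, PK z t :=
    setIntegral_mono_set (PK_integrable hz).integrableOn
      (Eventually.of_forall fun t => PK_nonneg hz t) (LE.le.eventuallyLE hA)
  refine le_trans ?_ h2
  have h3 : ∫ _ in Ioo c (c + z.im / 2), (4 / 5 / (Real.pi * z.im)) ≤
      ∫ t in Ioo c (c + z.im / 2), PK z t := by
    apply setIntegral_mono_on _ (PK_integrable hz).integrableOn measurableSet_Ioo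
    · intro t ht
      have h4 := h1 t ht
      rw [PK]
      have h5 : (t - z.re) ^ 2 ≤ (z.im / 2) ^ 2 := by
        rw [← sq_abs]
        exact pow_le_pow_left₀ (abs_nonneg _) h4 2
      have h6 : (0:ℝ) < (t - z.re) ^ 2 + z.im ^ 2 := by positivity
      have hp := Real.pi_pos
      have h7 : 4 / 5 / z.im ≤ z.im / ((t - z.re) ^ 2 + z.im ^ 2) := by
        rw [div_le_div_iff₀ hz h6]
        nlinarith
      calc 4 / 5 / (Real.pi * z.im) = (1 / Real.pi) * (4 / 5 / z.im) := by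
            field_simp
        _ ≤ (1 / Real.pi) * (z.im / ((t - z.re) ^ 2 + z.im ^ 2)) := by
            gcongr
    · exact integrableOn_const (by simp) enorm_ne_top
  refine le_trans ?_ h3
  rw [setIntegral_const, smul_eq_mul, Measure.real, Real.volume_Ioo,
    ENNReal.toReal_ofReal (by linarith)]
  have h8 : c + z.im / 2 - c = z.im / 2 := by ring
  rw [h8]
  have hp := Real.pi_pos
  have : z.im / 2 * (4 / 5 / (Real.pi * z.im)) = 2 / (5 * Real.pi) := by
    field_simp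
    ring
  rw [this, div_le_div_iff₀ (by norm_num) (by positivity)]
  have := pi_lt_3_2
  linarith

/-- mass of an interval via the complex logarithm -/
theorem PK_log {z : ℂ} (hz : 0 < z.im) {a b : ℝ} (hab : a ≤ b) :
    ∫ t in Ioo a b, PK z t = (1 / Real.pi) * (Complex.log (z - b) - Complex.log (z - a)).im := by
  have hsl : ∀ t : ℝ, (z - t) ∈ Complex.slitPlane := by
    intro t
    rw [Complex.mem_slitPlane_iff]
    right
    simp [hz.ne']
  have hd : ∀ t ∈ uIcc a b, HasDerivAt (fun t : ℝ => (Complex.log (z - t)).im)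
      (z.im / ((t - z.re) ^ 2 + z.im ^ 2)) t := by
    intro t _
    have h1 : HasDerivAt (fun t : ℝ => z - (t : ℂ)) (-1) t := by
      simpa using (Complex.ofRealCLM.hasDerivAt (x := t)).const_sub z
    have h2 := h1.clog_real (hsl t)
    have h3 : HasDerivAt (fun t : ℝ => (Complex.log (z - t)).im)
        ((-1 / (z - t) : ℂ).im) t := by
      exact (Complex.imCLM.hasFDerivAt (x := Complex.log (z - t))).comp_hasDerivAt t h2
    convert h3 using 1
    rw [Complex.div_im]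
    simp only [Complex.neg_im, Complex.one_im, neg_zero, Complex.sub_re, Complex.ofReal_re,
      Complex.neg_re, Complex.one_re, Complex.sub_im, Complex.ofReal_im, sub_zero, zero_mul,
      zero_div, Complex.normSq_apply]
    have h6 : (0:ℝ) < (t - z.re) ^ 2 + z.im ^ 2 := by positivity
    have h7 : (0:ℝ) < (z.re - t) * (z.re - t) + z.im * z.im := by nlinarith
    field_simp
    ring
  have hi : IntervalIntegrable (fun t : ℝ => z.im / ((t - z.re) ^ 2 + z.im ^ 2)) volume a b := by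
    apply Continuous.intervalIntegrable
    have : ∀ t : ℝ, (t - z.re) ^ 2 + z.im ^ 2 ≠ 0 := fun t => by positivity
    fun_prop (disch := exact this _)
  have h1 := intervalIntegral.integral_eq_sub_of_hasDerivAt hd hi
  rw [← integral_Ioc_eq_integral_Ioo, ← intervalIntegral.integral_of_le hab]
  unfold PK
  rw [intervalIntegral.integral_const_mul, h1, Complex.sub_im]

end Crest.Agent.R102.G864
end

-- ▼ part R102/LemG3_864
section

/-! # Lemma G, one step: if most of a dyadic interval reaches level `lam` inside the cusp,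
then the value at the top is at least `kappa * lam` -/

open Set Filter Metric Complex Topology MeasureTheory

namespace Crest.Agent.R102.G864

theorem PK_arctan {z : ℂ} (hz : 0 < z.im) {a b : ℝ} (hab : a ≤ b) :
    ∫ t in Ioo a b, PK z t =
      (1 / Real.pi) * (Real.arctan ((b - z.re) / z.im) - Real.arctan ((a - z.re) / z.im)) := by
  have hd : ∀ t ∈ uIcc a b, HasDerivAt (fun t : ℝ => Real.arctan ((t - z.re) / z.im))
      (z.im / ((t - z.re) ^ 2 + z.im ^ 2)) t := by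
    intro t _
    have h1 : HasDerivAt (fun t : ℝ => (t - z.re) / z.im) (1 / z.im) t :=
      ((hasDerivAt_id t).sub_const z.re).div_const z.im
    convert h1.arctan using 1
    have h6 : (0:ℝ) < (t - z.re) ^ 2 + z.im ^ 2 := by positivity
    have h7 : (0:ℝ) < 1 + ((t - z.re) / z.im) ^ 2 := by positivity
    field_simp
    ring
  have hi : IntervalIntegrable (fun t : ℝ => z.im / ((t - z.re) ^ 2 + z.im ^ 2)) volume a b := by
    apply Continuous.intervalIntegrable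
    have : ∀ t : ℝ, (t - z.re) ^ 2 + z.im ^ 2 ≠ 0 := fun t => by positivity
    fun_prop (disch := exact this _)
  have h1 := intervalIntegral.integral_eq_sub_of_hasDerivAt hd hi
  rw [← integral_Ioc_eq_integral_Ioo, ← intervalIntegral.integral_of_le hab]
  unfold PK
  rw [intervalIntegral.integral_const_mul, h1]

/-- the barrier -/
theorem barrier {ι : Type*} (S : Finset ι) (a b : ι → ℝ) (hab : ∀ p ∈ S, a p ≤ b p)
    (hdis : (S : Set ι).Pairwise (Function.onFun Disjoint fun p => Ioo (a p) (b p))) (c : ℝ) :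
    ∃ Φ : ℂ → ℂ, (∀ z : ℂ, 0 < z.im → DifferentiableAt ℂ Φ z) ∧
      ∀ z : ℂ, 0 < z.im →
        ‖Φ z‖ = Real.exp (c * (1 - 8 * ∫ t in (⋃ p ∈ S, Ioo (a p) (b p))ᶜ, PK z t)) := by
  have hsl : ∀ (z : ℂ) (t : ℝ), 0 < z.im → (z - t) ∈ Complex.slitPlane := by
    intro z t hz
    rw [Complex.mem_slitPlane_iff]
    right
    simp [hz.ne']
  refine ⟨fun z => Complex.exp (-7 * c + 8 * c * (1 / Real.pi) * (-I) *
    ∑ p ∈ S, (Complex.log (z - b p) - Complex.log (z - a p))), ?_, ?_⟩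
  · intro z hz
    apply DifferentiableAt.cexp
    apply DifferentiableAt.const_add
    apply DifferentiableAt.const_mul
    apply DifferentiableAt.fun_sum
    intro p _
    exact ((differentiableAt_id.sub_const _).clog (hsl z _ hz)).sub
      ((differentiableAt_id.sub_const _).clog (hsl z _ hz))
  · intro z hz
    rw [Complex.norm_exp]
    congr 1
    have h1 : ∫ t in (⋃ p ∈ S, Ioo (a p) (b p)), PK z t =
        ∑ p ∈ S, ∫ t in Ioo (a p) (b p), PK z t :=
      integral_biUnion_finset S (fun p _ => measurableSet_Ioo) hdis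
        (fun p _ => (PK_integrable hz).integrableOn)
    have h2 : ∑ p ∈ S, ∫ t in Ioo (a p) (b p), PK z t =
        (1 / Real.pi) * (∑ p ∈ S, (Complex.log (z - b p) - Complex.log (z - a p))).im := by
      rw [Complex.im_sum, Finset.mul_sum]
      exact Finset.sum_congr rfl (fun p hp => PK_log hz (hab p hp))
    have hm : MeasurableSet (⋃ p ∈ S, Ioo (a p) (b p)) :=
      Finset.measurableSet_biUnion S (fun p _ => measurableSet_Ioo)
    have h3 := integral_add_compl hm (PK_integrable hz)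
    rw [PK_integral hz, h1, h2] at h3
    set W := ∑ p ∈ S, (Complex.log (z - b p) - Complex.log (z - a p)) with hW
    have h4 : (-7 * (c : ℂ) + 8 * c * (1 / Real.pi) * (-I) * W).re =
        -7 * c + 8 * c * ((1 / Real.pi) * W.im) := by
      have e : (8 * (c : ℂ) * (1 / Real.pi) * (-I) * W) =
          ((8 * c * (1 / Real.pi) : ℝ) : ℂ) * (-I * W) := by push_cast; ring
      have e2 : (-7 * (c : ℂ)) = ((-7 * c : ℝ) : ℂ) := by push_cast; ring
      rw [e, e2, Complex.add_re, Complex.ofReal_re, Complex.re_ofReal_mul]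
      simp
      ring
    rw [h4]
    have h5 : (1 / Real.pi) * W.im =
        1 - ∫ t in (⋃ p ∈ S, Ioo (a p) (b p))ᶜ, PK z t := by linarith
    rw [h5]
    ring

/-- maximum principle for `c h ≤ log ‖F‖` -/
theorem maxpr {Ω : Set ℂ} {F : ℂ → ℂ} (h : Om Ω F) {A V : Set ℂ} (hA : IsClosed A)
    (hAb : Bornology.IsBounded A) (hAΩ : A ⊆ Ω) (hAi : ∀ z ∈ A, 0 < z.im) (hV : IsOpen V)
    (hVA : V ⊆ A) {Φ : ℂ → ℂ} {g : ℂ → ℝ} (hΦ : ∀ z : ℂ, 0 < z.im → DifferentiableAt ℂ Φ z)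
    (hg : ∀ z : ℂ, 0 < z.im → ‖Φ z‖ = Real.exp (g z))
    (hb : ∀ z ∈ A, z ∉ V → g z ≤ Real.log ‖F z‖) : ∀ z ∈ A, g z ≤ Real.log ‖F z‖ := by
  have hcl : closure V ⊆ A := closure_minimal hVA hA
  have hpos : ∀ z ∈ A, 0 < ‖F z‖ := fun z hz => norm_pos_iff.mpr (h.ne0 z (hAΩ hz))
  have hiff : ∀ z ∈ A, (‖Φ z / F z‖ ≤ 1 ↔ g z ≤ Real.log ‖F z‖) := by
    intro z hz
    rw [norm_div, div_le_one (hpos z hz), hg z (hAi z hz), Real.le_log_iff_exp_le (hpos z hz)]
  intro z hz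
  by_cases hzV : z ∈ V
  · rw [← hiff z hz]
    have hd : DiffContOnCl ℂ (fun z => Φ z / F z) V := by
      apply DifferentiableOn.diffContOnCl
      intro w hw
      have hwA := hcl hw
      exact ((hΦ w (hAi w hwA)).div
        (h.diff.differentiableAt (h.open_.mem_nhds (hAΩ hwA)))
        (h.ne0 w (hAΩ hwA))).differentiableWithinAt
    refine Complex.norm_le_of_forall_mem_frontier_norm_le (hAb.subset hVA) hd ?_
      (subset_closure hzV)
    intro w hw
    rw [frontier, hV.interior_eq] at hw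
    exact (hiff w (hcl hw.1)).mpr (hb w (hcl hw.1) hw.2)
  · exact hb z hz hzV

theorem nest {j n : ℕ} (hj : j ≤ n) {x X : ℝ} (h1 : (bx n x : ℝ) ≤ X * 2 ^ n)
    (h2 : X * 2 ^ n ≤ bx n x + 1) : (bx j x : ℝ) ≤ X * 2 ^ j ∧ X * 2 ^ j ≤ bx j x + 1 := by
  obtain ⟨d, rfl⟩ := Nat.exists_eq_add_of_le hj
  set m := bx (j + d) x with hm
  have hjm : bx j x = m / 2 ^ d := bx_div j d x
  have hp : (0 : ℝ) < 2 ^ d := by positivity
  have e : X * 2 ^ (j + d) = (X * 2 ^ j) * 2 ^ d := by rw [pow_add]; ring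
  rw [e] at h1 h2
  have h3 : (m / 2 ^ d) * 2 ^ d ≤ m := Int.ediv_mul_le _ (by positivity)
  have h4 : m < (m / 2 ^ d + 1) * 2 ^ d := Int.lt_ediv_add_one_mul_self _ (by positivity)
  have h5 : m + 1 ≤ (m / 2 ^ d + 1) * 2 ^ d := h4
  have h3' : ((m / 2 ^ d : ℤ) : ℝ) * 2 ^ d ≤ m := by exact_mod_cast h3
  have h5' : (m : ℝ) + 1 ≤ (((m / 2 ^ d : ℤ) : ℝ) + 1) * 2 ^ d := by exact_mod_cast h5
  rw [hjm]
  constructor
  · have : ((m / 2 ^ d : ℤ) : ℝ) * 2 ^ d ≤ (X * 2 ^ j) * 2 ^ d := by linarith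
    exact le_of_mul_le_mul_right this hp
  · have : (X * 2 ^ j) * 2 ^ d ≤ (((m / 2 ^ d : ℤ) : ℝ) + 1) * 2 ^ d := by linarith
    exact le_of_mul_le_mul_right this hp

section OneStep

variable (Ω : Set ℂ) (F : ℂ → ℂ) (n1 : ℕ) (k1 : ℤ) (N : ℕ) (lam : ℝ)

/-- alive boxes: up along the whole path, no strict ancestor of level `≥ lam` -/
def AA (n : ℕ) (x : ℝ) : Prop :=
  n1 ≤ n ∧ n ≤ N ∧ bx n1 x = k1 ∧ (∀ j, n1 ≤ j → j ≤ n → Up Ω F j (bx j x)) ∧
    (∀ j, n1 ≤ j → j < n → UU F j (bx j x) < lam)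

/-- the points which reach the level `lam` inside the cusp -/
def EE : Set ℝ := {x | bx n1 x = k1 ∧ ∃ m, n1 ≤ m ∧ m ≤ N ∧
  (∀ j, n1 ≤ j → j ≤ m → Up Ω F j (bx j x)) ∧ lam ≤ UU F m (bx m x)}

/-- the shrunken stopping intervals -/
def DD : Set ℝ := {x | ∃ m, AA Ω F n1 k1 N lam m x ∧ lam ≤ UU F m (bx m x) ∧
  (bx m x : ℝ) + 1 / 2048 < x * 2 ^ m ∧ x * 2 ^ m < bx m x + 1 - 1 / 2048}

variable {Ω F n1 k1 N lam}

theorem AA_congr {n : ℕ} {x y : ℝ} (h : bx n x = bx n y) (hx : AA Ω F n1 k1 N lam n x) :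
    AA Ω F n1 k1 N lam n y := by
  obtain ⟨a, b, c, d, e⟩ := hx
  refine ⟨a, b, ?_, ?_, ?_⟩
  · rw [← bx_anc h a]; exact c
  · intro j hj hj'
    rw [← bx_anc h hj']; exact d j hj hj'
  · intro j hj hj'
    rw [← bx_anc h hj'.le]; exact e j hj hj'

theorem EE_min {t : ℝ} (ht : t ∈ EE Ω F n1 k1 N lam) :
    ∃ m, AA Ω F n1 k1 N lam m t ∧ lam ≤ UU F m (bx m t) := by
  classical
  obtain ⟨h0, hex⟩ := ht
  have hm := Nat.find_spec hex
  have hmin := fun j (hj : j < Nat.find hex) => Nat.find_min hex hj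
  set m := Nat.find hex
  obtain ⟨a, b, c, d⟩ := hm
  refine ⟨m, ⟨a, b, h0, c, ?_⟩, d⟩
  intro j hj hj'
  by_contra hcon
  push Not at hcon
  exact hmin j hj' ⟨hj, hj'.le.trans b, fun i hi hi' => c i hi (hi'.trans hj'.le), hcon⟩

theorem DD_sub : DD Ω F n1 k1 N lam ⊆ EE Ω F n1 k1 N lam := by
  rintro x ⟨m, ⟨a, b, c, d, e⟩, h, _⟩
  exact ⟨c, m, a, b, d, h⟩

theorem uniq {t : ℝ} {m m' : ℕ} (h : AA Ω F n1 k1 N lam m t) (h2 : lam ≤ UU F m (bx m t))
    (h' : AA Ω F n1 k1 N lam m' t) (h2' : lam ≤ UU F m' (bx m' t)) : m = m' := by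
  rcases lt_trichotomy m m' with hl | hl | hl
  · have := h'.2.2.2.2 m h.1 hl; linarith
  · exact hl
  · have := h.2.2.2.2 m' h'.1 hl; linarith

/-- below a box which is not up (or below the last generation) nothing reaches the level -/
theorem emp {m : ℕ} {x t : ℝ} (h : AA Ω F n1 k1 N lam m x) (h2 : UU F m (bx m x) < lam)
    (h3 : ¬ Up Ω F (m + 1) (bx (m + 1) x) ∨ m = N) (ht : bx (m + 1) t = bx (m + 1) x) :
    t ∉ EE Ω F n1 k1 N lam := by
  rintro ⟨h0, m', a, b, c, d⟩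
  rcases lt_or_ge m m' with hl | hl
  · rcases h3 with h3 | h3
    · apply h3
      rw [← ht]
      exact c (m + 1) (by have := h.1; omega) hl
    · omega
  · have e : bx m' t = bx m' x := bx_anc ht (by omega)
    rw [e] at d
    rcases Nat.lt_or_ge m' m with hl' | hl'
    · have := h.2.2.2.2 m' a hl'; linarith
    · have : m' = m := le_antisymm hl hl'
      subst this
      linarith

end OneStep

end Crest.Agent.R102.G864
end

-- ▼ part R102/LemG4_864
section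

/-! # Lemma G, one step (geometry of the region) -/

open Set Filter Metric Complex Topology MeasureTheory

namespace Crest.Agent.R102.G864

/-- the dyadic interval as a set -/
def JJ (n : ℕ) (k : ℤ) : Set ℝ := {x | bx n x = k}

theorem JJ_eq (n : ℕ) (k : ℤ) : JJ n k = Ico ((k : ℝ) / 2 ^ n) ((k + 1) / 2 ^ n) := by
  ext x
  have hp : (0 : ℝ) < 2 ^ n := by positivity
  unfold JJ
  rw [mem_ofPred_eq, bx_eq_iff, mem_Ico, div_le_iff₀ hp, lt_div_iff₀ hp]

theorem JJ_meas (n : ℕ) (k : ℤ) : MeasurableSet (JJ n k) := by rw [JJ_eq]; exact measurableSet_Ico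

theorem JJ_vol (n : ℕ) (k : ℤ) : volume (JJ n k) = ENNReal.ofReal (1 / 2 ^ n) := by
  rw [JJ_eq, Real.volume_Ico]; congr 1; ring

theorem TB_closed (n : ℕ) (k : ℤ) : IsClosed (TB n k) := by
  unfold TB
  have h1 : Continuous fun z : ℂ => z.re * 2 ^ n := by fun_prop
  have h2 : Continuous fun z : ℂ => z.im * 2 ^ n := by fun_prop
  exact (isClosed_le continuous_const h1).inter ((isClosed_le h1 continuous_const).inter
    ((isClosed_le continuous_const h2).inter (isClosed_le h2 continuous_const)))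

theorem TB_bdd (n : ℕ) (k : ℤ) : Bornology.IsBounded (TB n k) := by
  refine (isBounded_closedBall (x := zc n k) (r := (3 / 2) / 2 ^ n)).subset ?_
  intro w hw
  rw [mem_closedBall, dist_eq_norm]
  exact TB_dist (zc_mem n k) hw

theorem fin_index (n1 : ℕ) (k1 : ℤ) (N : ℕ) :
    {p : ℕ × ℤ | n1 ≤ p.1 ∧ p.1 ≤ N ∧ bx n1 ((p.2 : ℝ) / 2 ^ p.1) = k1}.Finite := by
  apply Set.Finite.subset (s := (↑(Finset.range (N + 1) ×ˢ
    Finset.Icc (-((|k1| + 1) * 2 ^ N)) ((|k1| + 1) * 2 ^ N)) : Set (ℕ × ℤ))) (Finset.finite_toSet _)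
  rintro ⟨n, k⟩ ⟨h1, h2, h3⟩
  simp only at h1 h2 h3
  obtain ⟨d, rfl⟩ := Nat.exists_eq_add_of_le h1
  rw [bx_eq_iff] at h3
  obtain ⟨h3, h4⟩ := h3
  have hp1 : (0 : ℝ) < 2 ^ n1 := by positivity
  have hpd : (0 : ℝ) < 2 ^ d := by positivity
  have e : (k : ℝ) / 2 ^ (n1 + d) * 2 ^ n1 = k / 2 ^ d := by
    rw [pow_add]; field_simp
  rw [e] at h3 h4
  rw [le_div_iff₀ hpd] at h3
  rw [div_lt_iff₀ hpd] at h4
  have h3' : k1 * 2 ^ d ≤ k := by exact_mod_cast h3
  have h4' : k < (k1 + 1) * 2 ^ d := by exact_mod_cast h4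
  have hdN : (2 : ℤ) ^ d ≤ 2 ^ N := pow_le_pow_right₀ (by norm_num) (by omega)
  have hd0 : (0 : ℤ) < 2 ^ d := by positivity
  have ha := neg_abs_le k1
  have hb := le_abs_self k1
  have hc := abs_nonneg k1
  simp only [Finset.coe_product, Finset.coe_range, Finset.coe_Icc, mem_prod, mem_Iio, mem_Icc]
  refine ⟨by omega, ?_, ?_⟩
  · nlinarith
  · nlinarith

section OneStep

variable {Ω : Set ℂ} {F : ℂ → ℂ} {n1 : ℕ} {k1 : ℤ} {N : ℕ} {lam : ℝ}

theorem AA_left {n : ℕ} {x : ℝ} : AA Ω F n1 k1 N lam n ((bx n x : ℝ) / 2 ^ n) ↔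
    AA Ω F n1 k1 N lam n x :=
  ⟨AA_congr (bx_left _ _), AA_congr (bx_left _ _).symm⟩

/-- mass next to a box below which nothing reaches the level -/
theorem mass_box {z : ℂ} (hz : 0 < z.im) {m : ℕ} {x : ℝ}
    (hd : ∀ t, bx m t = bx m x → t ∉ EE Ω F n1 k1 N lam)
    (h1 : (bx m x : ℝ) ≤ z.re * 2 ^ m) (h2 : z.re * 2 ^ m ≤ bx m x + 1) (h3 : z.im * 2 ^ m ≤ 1) :
    1 / 8 ≤ ∫ t in (DD Ω F n1 k1 N lam)ᶜ, PK z t := by
  have hp : (0 : ℝ) < 2 ^ m := by positivity
  rcases le_or_gt (z.re * 2 ^ m) (bx m x + 1 / 2) with h4 | h4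
  · apply PK_mass_ge hz (c := z.re)
    · rintro t ⟨ht1, ht2⟩ htD
      refine hd t ?_ (DD_sub htD)
      rw [bx_eq_iff]
      constructor <;> nlinarith
    · rintro t ⟨ht1, ht2⟩
      rw [abs_of_pos (by linarith)]; linarith
  · apply PK_mass_ge hz (c := z.re - z.im / 2)
    · rintro t ⟨ht1, ht2⟩ htD
      refine hd t ?_ (DD_sub htD)
      rw [bx_eq_iff]
      constructor <;> nlinarith
    · rintro t ⟨ht1, ht2⟩
      rw [abs_of_neg (by linarith)]; linarith

/-- mass of the left margin of a stopping interval -/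
theorem mass_left {z : ℂ} (hz : 0 < z.im) {m : ℕ} {x : ℝ}
    (ha : AA Ω F n1 k1 N lam m x) (hu : lam ≤ UU F m (bx m x))
    (h1 : z.re * 2 ^ m = bx m x) (h3 : z.im * 2 ^ m ≤ 1 / 2048) :
    1 / 8 ≤ ∫ t in (DD Ω F n1 k1 N lam)ᶜ, PK z t := by
  have hp : (0 : ℝ) < 2 ^ m := by positivity
  apply PK_mass_ge hz (c := z.re)
  · rintro t ⟨ht1, ht2⟩ ⟨m', hm', hu', c1, c2⟩
    have e : bx m t = bx m x := by
      rw [bx_eq_iff]
      constructor <;> nlinarith
    have hAt := AA_congr e.symm ha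
    have hm : m = m' := uniq hAt (by rw [e]; exact hu) hm' hu'
    subst hm
    rw [e] at c1
    nlinarith
  · rintro t ⟨ht1, ht2⟩
    rw [abs_of_pos (by linarith)]; linarith

theorem mass_right {z : ℂ} (hz : 0 < z.im) {m : ℕ} {x : ℝ}
    (ha : AA Ω F n1 k1 N lam m x) (hu : lam ≤ UU F m (bx m x))
    (h1 : z.re * 2 ^ m = bx m x + 1) (h3 : z.im * 2 ^ m ≤ 1 / 2048) :
    1 / 8 ≤ ∫ t in (DD Ω F n1 k1 N lam)ᶜ, PK z t := by
  have hp : (0 : ℝ) < 2 ^ m := by positivity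
  apply PK_mass_ge hz (c := z.re - z.im / 2)
  · rintro t ⟨ht1, ht2⟩ ⟨m', hm', hu', c1, c2⟩
    have e : bx m t = bx m x := by
      rw [bx_eq_iff]
      constructor <;> nlinarith
    have hAt := AA_congr e.symm ha
    have hm : m = m' := uniq hAt (by rw [e]; exact hu) hm' hu'
    subst hm
    rw [e] at c2
    nlinarith
  · rintro t ⟨ht1, ht2⟩
    rw [abs_of_neg (by linarith)]; linarith

theorem mass_out {z : ℂ} (hz : 0 < z.im)
    (h1 : z.re * 2 ^ n1 ≤ k1 ∨ (k1 : ℝ) + 1 ≤ z.re * 2 ^ n1) :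
    1 / 8 ≤ ∫ t in (DD Ω F n1 k1 N lam)ᶜ, PK z t := by
  have hp : (0 : ℝ) < 2 ^ n1 := by positivity
  rcases h1 with h1 | h1
  · apply PK_mass_ge hz (c := z.re - z.im / 2)
    · rintro t ⟨ht1, ht2⟩ htD
      have h5 := (DD_sub htD).1
      rw [bx_eq_iff] at h5
      nlinarith [h5.1]
    · rintro t ⟨ht1, ht2⟩
      rw [abs_of_neg (by linarith)]; linarith
  · apply PK_mass_ge hz (c := z.re)
    · rintro t ⟨ht1, ht2⟩ htD
      have h5 := (DD_sub htD).1
      rw [bx_eq_iff] at h5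
      nlinarith [h5.2]
    · rintro t ⟨ht1, ht2⟩
      rw [abs_of_pos (by linarith)]; linarith

theorem DD_sub_JJ : DD Ω F n1 k1 N lam ⊆ JJ n1 k1 := fun _ hx => (DD_sub hx).1

variable (Ω F n1 k1 N lam) in
/-- the finite index set of stopping intervals -/
noncomputable def SS : Finset (ℕ × ℤ) :=
  (Set.Finite.subset (fin_index n1 k1 N)
    (t := {p : ℕ × ℤ | AA Ω F n1 k1 N lam p.1 ((p.2 : ℝ) / 2 ^ p.1) ∧ lam ≤ UU F p.1 p.2})
    (fun _ hp => ⟨hp.1.1, hp.1.2.1, hp.1.2.2.1⟩)).toFinset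

theorem mem_SS {p : ℕ × ℤ} : p ∈ SS Ω F n1 k1 N lam ↔
    AA Ω F n1 k1 N lam p.1 ((p.2 : ℝ) / 2 ^ p.1) ∧ lam ≤ UU F p.1 p.2 := by
  unfold SS
  rw [Set.Finite.mem_toFinset]
  rfl

theorem DD_eq : DD Ω F n1 k1 N lam = ⋃ p ∈ SS Ω F n1 k1 N lam,
    Ioo (((p.2 : ℝ) + 1 / 2048) / 2 ^ p.1) (((p.2 : ℝ) + 1 - 1 / 2048) / 2 ^ p.1) := by
  ext x
  simp only [mem_iUnion, mem_Ioo, exists_prop, mem_SS]
  constructor
  · rintro ⟨m, h1, h2, h3, h4⟩
    have hp : (0 : ℝ) < 2 ^ m := by positivity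
    refine ⟨(m, bx m x), ⟨AA_left.mpr h1, h2⟩, ?_, ?_⟩
    · rw [div_lt_iff₀ hp]; exact h3
    · rw [lt_div_iff₀ hp]; exact h4
  · rintro ⟨⟨m, k⟩, ⟨h1, h2⟩, h3, h4⟩
    simp only at h1 h2 h3 h4
    have hp : (0 : ℝ) < 2 ^ m := by positivity
    rw [div_lt_iff₀ hp] at h3
    rw [lt_div_iff₀ hp] at h4
    have e : bx m x = k := by
      rw [bx_eq_iff]; constructor <;> linarith
    refine ⟨m, AA_congr ((bx_left m k).trans e.symm) h1, ?_, ?_, ?_⟩
    · rw [e]; exact h2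
    · rw [e]; exact h3
    · rw [e]; exact h4

theorem EE_eq : EE Ω F n1 k1 N lam = ⋃ p ∈ SS Ω F n1 k1 N lam, JJ p.1 p.2 := by
  ext x
  simp only [mem_iUnion, exists_prop, mem_SS]
  constructor
  · intro hx
    obtain ⟨m, h1, h2⟩ := EE_min hx
    exact ⟨(m, bx m x), ⟨AA_left.mpr h1, h2⟩, rfl⟩
  · rintro ⟨⟨m, k⟩, ⟨h1, h2⟩, h3⟩
    simp only at h1 h2 h3
    have h3' : bx m x = k := h3
    have h4 := AA_congr ((bx_left m k).trans h3'.symm) h1
    exact ⟨h4.2.2.1, m, h4.1, h4.2.1, h4.2.2.2.1, by rw [h3']; exact h2⟩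

theorem SS_disj {p q : ℕ × ℤ} (hp : p ∈ SS Ω F n1 k1 N lam) (hq : q ∈ SS Ω F n1 k1 N lam)
    (hpq : p ≠ q) : Disjoint (JJ p.1 p.2) (JJ q.1 q.2) := by
  rw [Set.disjoint_left]
  intro x hx hx'
  rw [mem_SS] at hp hq
  have e1 : bx p.1 x = p.2 := hx
  have e2 : bx q.1 x = q.2 := hx'
  have a1 := AA_congr ((bx_left p.1 p.2).trans e1.symm) hp.1
  have a2 := AA_congr ((bx_left q.1 q.2).trans e2.symm) hq.1
  have := uniq a1 (by rw [e1]; exact hp.2) a2 (by rw [e2]; exact hq.2)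
  apply hpq
  refine Prod.ext this ?_
  rw [← e1, ← e2, this]

theorem Ioo_sub_JJ (p : ℕ × ℤ) :
    Ioo (((p.2 : ℝ) + 1 / 2048) / 2 ^ p.1) (((p.2 : ℝ) + 1 - 1 / 2048) / 2 ^ p.1) ⊆ JJ p.1 p.2 := by
  rw [JJ_eq]
  have hp : (0 : ℝ) < 2 ^ p.1 := by positivity
  rintro x ⟨h1, h2⟩
  rw [div_lt_iff₀ hp] at h1
  rw [lt_div_iff₀ hp] at h2
  rw [mem_Ico, div_le_iff₀ hp, lt_div_iff₀ hp]
  constructor <;> linarith

theorem EE_meas : MeasurableSet (EE Ω F n1 k1 N lam) := by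
  rw [EE_eq]
  exact Finset.measurableSet_biUnion _ (fun p _ => JJ_meas _ _)

theorem DD_meas : MeasurableSet (DD Ω F n1 k1 N lam) := by
  rw [DD_eq]
  exact Finset.measurableSet_biUnion _ (fun p _ => measurableSet_Ioo)

theorem vol_EE : volume (EE Ω F n1 k1 N lam) =
    ∑ p ∈ SS Ω F n1 k1 N lam, ENNReal.ofReal (1 / 2 ^ p.1) := by
  rw [EE_eq, measure_biUnion_finset (fun p hp q hq hpq => SS_disj hp hq hpq)
    (fun p _ => JJ_meas _ _)]
  exact Finset.sum_congr rfl (fun p _ => JJ_vol _ _)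

theorem vol_DD : volume (DD Ω F n1 k1 N lam) =
    ENNReal.ofReal (1023 / 1024) * volume (EE Ω F n1 k1 N lam) := by
  rw [vol_EE, DD_eq, measure_biUnion_finset (fun p hp q hq hpq =>
    (SS_disj hp hq hpq).mono (Ioo_sub_JJ p) (Ioo_sub_JJ q)) (fun p _ => measurableSet_Ioo),
    Finset.mul_sum]
  refine Finset.sum_congr rfl (fun p _ => ?_)
  rw [Real.volume_Ioo, ← ENNReal.ofReal_mul (by norm_num)]
  congr 1
  ring

theorem mass_top {z : ℂ} (hz : 0 < z.im) (h1 : 1 ≤ z.im * 2 ^ n1) :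
    1 / 8 ≤ ∫ t in (DD Ω F n1 k1 N lam)ᶜ, PK z t := by
  have hp : (0 : ℝ) < 2 ^ n1 := by positivity
  have h2 := integral_add_compl (DD_meas (Ω := Ω) (F := F) (n1 := n1) (k1 := k1) (N := N)
    (lam := lam)) (PK_integrable hz)
  rw [PK_integral hz] at h2
  have h3 : ∫ t in DD Ω F n1 k1 N lam, PK z t ≤ (1 / 2 ^ n1) / (Real.pi * z.im) := by
    apply PK_mass_le hz _ (by positivity)
    rw [← JJ_vol n1 k1]
    exact measure_mono DD_sub_JJ
  have h4 : (1 / 2 ^ n1) / (Real.pi * z.im) ≤ 1 / 3 := by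
    have hpi := Real.pi_gt_three
    rw [div_div, div_le_div_iff₀ (by positivity) (by norm_num)]
    nlinarith
  linarith

end OneStep

end Crest.Agent.R102.G864
end

-- ▼ part R102/LemG5_864
section

/-! # Lemma G, one step (the region and its boundary) -/

open Set Filter Metric Complex Topology MeasureTheory

namespace Crest.Agent.R102.G864

section OneStep

variable (Ω : Set ℂ) (F : ℂ → ℂ) (n1 : ℕ) (k1 : ℤ) (N : ℕ) (lam : ℝ)

/-- the region above the stopping intervals -/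
def RA : Set ℂ := {z | ∃ n x, AA Ω F n1 k1 N lam n x ∧ z ∈ TB n (bx n x)}

/-- the open Carleson box -/
def RQ : Set ℂ := {z | ((k1 : ℝ) < z.re * 2 ^ n1 ∧ z.re * 2 ^ n1 < k1 + 1) ∧
  (1 / 2 < z.im * 2 ^ N ∧ z.im * 2 ^ n1 < 1)}

/-- the boxes which do not belong to the region -/
def RB : Set ℂ := {z | ∃ n x, n1 ≤ n ∧ n ≤ N ∧ bx n1 x = k1 ∧ ¬ AA Ω F n1 k1 N lam n x ∧
  z ∈ TB n (bx n x)}

/-- the open part of the region -/
def RV : Set ℂ := RQ n1 k1 N \ RB Ω F n1 k1 N lam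

variable {Ω F n1 k1 N lam}

theorem RA_eq : RA Ω F n1 k1 N lam =
    ⋃ p ∈ {p : ℕ × ℤ | AA Ω F n1 k1 N lam p.1 ((p.2 : ℝ) / 2 ^ p.1)}, TB p.1 p.2 := by
  ext z
  simp only [mem_iUnion, exists_prop, mem_ofPred_eq]
  constructor
  · rintro ⟨n, x, h1, h2⟩
    exact ⟨(n, bx n x), AA_left.mpr h1, h2⟩
  · rintro ⟨⟨n, k⟩, h1, h2⟩
    exact ⟨n, (k : ℝ) / 2 ^ n, h1, by rw [bx_left]; exact h2⟩

theorem RA_fin : {p : ℕ × ℤ | AA Ω F n1 k1 N lam p.1 ((p.2 : ℝ) / 2 ^ p.1)}.Finite :=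
  Set.Finite.subset (fin_index n1 k1 N) (fun _ hp => ⟨hp.1, hp.2.1, hp.2.2.1⟩)

theorem RA_closed : IsClosed (RA Ω F n1 k1 N lam) := by
  rw [RA_eq]
  exact RA_fin.isClosed_biUnion (fun p _ => TB_closed _ _)

theorem RA_bdd : Bornology.IsBounded (RA Ω F n1 k1 N lam) := by
  rw [RA_eq]
  exact (Bornology.isBounded_biUnion RA_fin).mpr (fun p _ => TB_bdd _ _)

theorem RB_eq : RB Ω F n1 k1 N lam =
    ⋃ p ∈ {p : ℕ × ℤ | n1 ≤ p.1 ∧ p.1 ≤ N ∧ bx n1 ((p.2 : ℝ) / 2 ^ p.1) = k1 ∧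
      ¬ AA Ω F n1 k1 N lam p.1 ((p.2 : ℝ) / 2 ^ p.1)}, TB p.1 p.2 := by
  ext z
  simp only [mem_iUnion, exists_prop, mem_ofPred_eq]
  constructor
  · rintro ⟨n, x, h0, h0', h0'', h1, h2⟩
    refine ⟨(n, bx n x), ⟨h0, h0', ?_, fun h => h1 (AA_left.mp h)⟩, h2⟩
    rw [← h0'']
    exact bx_anc (bx_left _ _) h0
  · rintro ⟨⟨n, k⟩, ⟨h0, h0', h0'', h1⟩, h2⟩
    exact ⟨n, (k : ℝ) / 2 ^ n, h0, h0', h0'', h1, by rw [bx_left]; exact h2⟩

theorem RB_closed : IsClosed (RB Ω F n1 k1 N lam) := by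
  rw [RB_eq]
  refine Set.Finite.isClosed_biUnion (Set.Finite.subset (fin_index n1 k1 N)
    (fun _ hp => ⟨hp.1, hp.2.1, hp.2.2.1⟩)) (fun p _ => TB_closed _ _)

theorem RQ_open : IsOpen (RQ n1 k1 N) := by
  unfold RQ
  have h1 : Continuous fun z : ℂ => z.re * 2 ^ n1 := by fun_prop
  have h2 : Continuous fun z : ℂ => z.im * 2 ^ n1 := by fun_prop
  have h3 : Continuous fun z : ℂ => z.im * 2 ^ N := by fun_prop
  exact ((isOpen_lt continuous_const h1).inter (isOpen_lt h1 continuous_const)).inter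
    ((isOpen_lt continuous_const h3).inter (isOpen_lt h2 continuous_const))

theorem RV_open : IsOpen (RV Ω F n1 k1 N lam) := RQ_open.sdiff RB_closed

theorem exists_gen {n1 N : ℕ} (hN : n1 ≤ N) {y : ℝ} (h1 : 1 / 2 < y * 2 ^ N)
    (h2 : y * 2 ^ n1 < 1) : ∃ n, n1 ≤ n ∧ n ≤ N ∧ 1 / 2 ≤ y * 2 ^ n ∧ y * 2 ^ n ≤ 1 := by
  classical
  have hy : 0 < y := by
    by_contra hcon
    push Not at hcon
    have : y * 2 ^ N ≤ 0 := mul_nonpos_of_nonpos_of_nonneg hcon (by positivity)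
    linarith
  have hex : ∃ n, 1 / 2 ≤ y * 2 ^ n := ⟨N, h1.le⟩
  have hs := Nat.find_spec hex
  have hmin := fun j (hj : j < Nat.find hex) => Nat.find_min hex hj
  have hle : Nat.find hex ≤ N := Nat.find_min' hex h1.le
  set m := Nat.find hex
  rcases le_or_gt m n1 with h | h
  · refine ⟨n1, le_rfl, hN, ?_, h2.le⟩
    have : (2 : ℝ) ^ m ≤ 2 ^ n1 := pow_le_pow_right₀ (by norm_num) h
    calc 1 / 2 ≤ y * 2 ^ m := hs
      _ ≤ y * 2 ^ n1 := by gcongr
  · refine ⟨m, h.le, hle, hs, ?_⟩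
    obtain ⟨d, hd⟩ : ∃ d, m = d + 1 := ⟨m - 1, by omega⟩
    have h3 := hmin d (by omega)
    push Not at h3
    rw [hd, pow_succ]
    linarith

theorem RV_sub (hN : n1 ≤ N) : RV Ω F n1 k1 N lam ⊆ RA Ω F n1 k1 N lam := by
  rintro z ⟨⟨⟨h1, h2⟩, ⟨h3, h4⟩⟩, hzB⟩
  obtain ⟨n, a, b, c, d⟩ := exists_gen hN h3 h4
  have hz : z ∈ TB n (bx n z.re) := ⟨bx_le _ _, (lt_bx _ _).le, c, d⟩
  refine ⟨n, z.re, ?_, hz⟩
  by_contra hcon
  exact hzB ⟨n, z.re, a, b, bx_eq_iff.mpr ⟨h1.le, h2⟩, hcon, hz⟩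

theorem RA_sub : RA Ω F n1 k1 N lam ⊆ Ω := by
  rintro z ⟨n, x, h1, h2⟩
  exact (h1.2.2.2.1 n h1.1 le_rfl).1.sub h2

theorem TB_im {n : ℕ} {k : ℤ} {z : ℂ} (hz : z ∈ TB n k) : 0 < z.im := by
  by_contra hcon
  push Not at hcon
  have : z.im * 2 ^ n ≤ 0 := mul_nonpos_of_nonpos_of_nonneg hcon (by positivity)
  linarith [hz.2.2.1]

theorem RA_im : ∀ z ∈ RA Ω F n1 k1 N lam, 0 < z.im := by
  rintro z ⟨n, x, _, h2⟩
  exact TB_im h2

theorem RA_log (h : Om Ω F) : ∀ z ∈ RA Ω F n1 k1 N lam, 1 ≤ Real.log ‖F z‖ := by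
  rintro z ⟨n, x, h1, h2⟩
  exact (h1.2.2.2.1 n h1.1 le_rfl).pos h h2

theorem AA_root (hN : n1 ≤ N) (hroot : Up Ω F n1 k1) {x : ℝ} (hx : bx n1 x = k1) :
    AA Ω F n1 k1 N lam n1 x := by
  refine ⟨le_rfl, hN, hx, ?_, ?_⟩
  · intro j hj hj'
    have : j = n1 := le_antisymm hj' hj
    subst this
    rw [hx]; exact hroot
  · intro j hj hj'
    omega

/-- the last alive generation above a box which is not alive -/
theorem last_alive (hN : n1 ≤ N) (hroot : Up Ω F n1 k1) {x : ℝ} (hx : bx n1 x = k1) {n : ℕ}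
    (hn : n1 ≤ n) (hbad : ¬ AA Ω F n1 k1 N lam n x) :
    ∃ m, n1 ≤ m ∧ m < n ∧ AA Ω F n1 k1 N lam m x ∧ ¬ AA Ω F n1 k1 N lam (m + 1) x := by
  classical
  have hex : ∃ j, n1 ≤ j ∧ ¬ AA Ω F n1 k1 N lam j x := ⟨n, hn, hbad⟩
  have hs := Nat.find_spec hex
  have hmin := fun j (hj : j < Nat.find hex) => Nat.find_min hex hj
  have hle : Nat.find hex ≤ n := Nat.find_min' hex ⟨hn, hbad⟩
  set j := Nat.find hex
  have hne : j ≠ n1 := by
    intro h
    apply hs.2
    rw [h]; exact AA_root hN hroot hx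
  obtain ⟨d, hd⟩ : ∃ d, j = d + 1 := ⟨j - 1, by have := hs.1; omega⟩
  refine ⟨d, by have := hs.1; omega, by omega, ?_, by rw [← hd]; exact hs.2⟩
  by_contra hcon
  exact hmin d (by omega) ⟨by have := hs.1; omega, hcon⟩

/-- what stops at `m` -/
theorem stop_cases {m : ℕ} {x : ℝ} (h1 : AA Ω F n1 k1 N lam m x)
    (h2 : ¬ AA Ω F n1 k1 N lam (m + 1) x) :
    lam ≤ UU F m (bx m x) ∨ (UU F m (bx m x) < lam ∧
      (¬ Up Ω F (m + 1) (bx (m + 1) x) ∨ m = N)) := by
  rcases le_or_gt lam (UU F m (bx m x)) with h | h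
  · exact Or.inl h
  · refine Or.inr ⟨h, ?_⟩
    by_contra hcon
    push Not at hcon
    obtain ⟨c1, c2⟩ := hcon
    apply h2
    refine ⟨by have := h1.1; omega, by have := h1.2.1; omega, h1.2.2.1, ?_, ?_⟩
    · intro j hj hj'
      rcases Nat.lt_or_ge j (m + 1) with h3 | h3
      · exact h1.2.2.2.1 j hj (by omega)
      · have : j = m + 1 := le_antisymm hj' h3
        subst this; exact c1
    · intro j hj hj'
      rcases Nat.lt_or_ge j m with h3 | h3
      · exact h1.2.2.2.2 j hj h3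
      · have : j = m := by omega
        subst this; exact h


/-- the boundary of the region -/
theorem fr (h : Om Ω F) (hN : n1 ≤ N) (hroot : Up Ω F n1 k1) (hlam : 0 < lam) {z : ℂ}
    (hzA : z ∈ RA Ω F n1 k1 N lam) (hzV : z ∉ RV Ω F n1 k1 N lam) :
    1 / 8 ≤ (∫ t in (DD Ω F n1 k1 N lam)ᶜ, PK z t) ∨ lam / KK ^ 23 ≤ Real.log ‖F z‖ := by
  have hK := one_le_KK
  have hK0 : 0 < KK := by linarith
  obtain ⟨n, x, hA, hzT⟩ := hzA
  have hzi : 0 < z.im := TB_im hzT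
  have hup : Up Ω F n (bx n x) := hA.2.2.2.1 n hA.1 le_rfl
  -- small powers of KK are enough
  have hweak : ∀ d : ℕ, d ≤ 23 → lam / KK ^ 23 ≤ lam / KK ^ d := by
    intro d hd
    apply div_le_div_of_nonneg_left hlam.le (by positivity)
    exact pow_le_pow_right₀ hK hd
  have hE : ∀ {m : ℕ} {x : ℝ}, AA Ω F n1 k1 N lam m x → lam ≤ UU F m (bx m x) →
      z ∈ TB m (bx m x) → lam / KK ^ 23 ≤ Real.log ‖F z‖ := by
    intro m x ha hu hz
    refine (hweak 1 (by norm_num)).trans ?_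
    rw [pow_one, div_le_iff₀ hK0, mul_comm]
    exact hu.trans ((ha.2.2.2.1 m ha.1 le_rfl).le h hz (zc_mem _ _))
  have hnest : (k1 : ℝ) ≤ z.re * 2 ^ n1 ∧ z.re * 2 ^ n1 ≤ k1 + 1 := by
    have := nest hA.1 hzT.1 hzT.2.1
    rwa [hA.2.2.1] at this
  by_cases hQ : z ∈ RQ n1 k1 N
  · -- z lies in a box which is not alive
    have hzB : z ∈ RB Ω F n1 k1 N lam := by
      by_contra hcon; exact hzV ⟨hQ, hcon⟩
    obtain ⟨n2, x2, a1, a2, a3, a4, a5⟩ := hzB
    obtain ⟨m, b1, b2, b3, b4⟩ := last_alive hN hroot a3 a1 a4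
    rcases stop_cases b3 b4 with hc | ⟨hc, hc'⟩
    · -- stopping interval m
      obtain ⟨p1, p2⟩ := nest b2.le a5.1 a5.2.1
      have p3 : z.im * 2 ^ m ≤ 1 / 2 := by
        have e1 : (2 : ℝ) ^ (m + 1) ≤ 2 ^ n2 := pow_le_pow_right₀ (by norm_num) b2
        have e2 : z.im * 2 ^ (m + 1) ≤ z.im * 2 ^ n2 := by gcongr
        rw [pow_succ] at e2
        have := a5.2.2.2
        linarith
      have hmn : m ≤ n := by
        by_contra hcon
        push Not at hcon
        have e1 : (2 : ℝ) ^ (n + 1) ≤ 2 ^ m := pow_le_pow_right₀ (by norm_num) hcon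
        have e2 : z.im * 2 ^ (n + 1) ≤ z.im * 2 ^ m := by gcongr
        rw [pow_succ] at e2
        have := hzT.2.2.1
        linarith
      obtain ⟨q1, q2⟩ := nest hmn hzT.1 hzT.2.1
      by_cases hk : bx m x = bx m x2
      · rcases Nat.lt_or_ge m n with hl | hl
        · have := hA.2.2.2.2 m b1 hl
          rw [hk] at this
          linarith
        · have : m = n := le_antisymm hmn hl
          subst this
          right
          exact hE (AA_congr hk.symm b3 |> fun h' => h') (by rw [hk]; exact hc) hzT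
      · -- neighbours
        rcases le_or_gt (z.im * 2 ^ m) (1 / 2048) with hy | hy
        · left
          rcases lt_or_gt_of_ne hk with hl | hl
          · -- bx m x < bx m x2 : z.re 2^m = bx m x2
            have e : (bx m x : ℝ) + 1 ≤ bx m x2 := by exact_mod_cast hl
            exact mass_left hzi b3 hc (le_antisymm (by linarith) p1) hy
          · have e : (bx m x2 : ℝ) + 1 ≤ bx m x := by exact_mod_cast hl
            exact mass_right hzi b3 hc (le_antisymm p2 (by linarith)) hy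
        · right
          obtain ⟨d, rfl⟩ := Nat.exists_eq_add_of_le hmn
          have hd : d < 11 := by
            by_contra hcon
            push Not at hcon
            have e1 : (2 : ℝ) ^ (m + 11) ≤ 2 ^ (m + d) := pow_le_pow_right₀ (by norm_num) (by omega)
            have e2 : z.im * 2 ^ (m + 11) ≤ z.im * 2 ^ (m + d) := by gcongr
            rw [pow_add] at e2
            have := hzT.2.2.2
            norm_num at e2
            linarith
          have hpath := (Up.path (F := F) h (j := m) (x := x) d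
            (fun i hi hi' => hA.2.2.2.1 i (by omega) hi')).1
          have hupm : Up Ω F m (bx m x) := hA.2.2.2.1 m b1 (by omega)
          have hupm2 : Up Ω F m (bx m x2) := b3.2.2.2.1 m b1 le_rfl
          have hp : (0 : ℝ) < 2 ^ m := by positivity
          have hmeet : UU F m (bx m x2) ≤ KK ^ 2 * UU F m (bx m x) := by
            refine hupm2.meet h hupm (w := ⟨z.re, 1 / 2 ^ m⟩) ?_ ?_
            · refine ⟨p1, p2, ?_, ?_⟩
              · simp only; rw [div_mul_cancel₀ _ hp.ne']; norm_num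
              · simp only; rw [div_mul_cancel₀ _ hp.ne']
            · refine ⟨q1, q2, ?_, ?_⟩
              · simp only; rw [div_mul_cancel₀ _ hp.ne']; norm_num
              · simp only; rw [div_mul_cancel₀ _ hp.ne']
          have hlast : UU F (m + d) (bx (m + d) x) ≤ KK * Real.log ‖F z‖ :=
            hup.le h hzT (zc_mem _ _)
          have hlog : 0 ≤ Real.log ‖F z‖ := by linarith [hup.pos h hzT]
          rw [div_le_iff₀ (by positivity)]
          calc lam ≤ UU F m (bx m x2) := hc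
            _ ≤ KK ^ 2 * UU F m (bx m x) := hmeet
            _ ≤ KK ^ 2 * (KK ^ (2 * d) * UU F (m + d) (bx (m + d) x)) := by gcongr
            _ ≤ KK ^ 2 * (KK ^ (2 * d) * (KK * Real.log ‖F z‖)) := by gcongr
            _ = KK ^ (2 * d + 3) * Real.log ‖F z‖ := by ring
            _ ≤ KK ^ 23 * Real.log ‖F z‖ := by
                apply mul_le_mul_of_nonneg_right _ hlog
                exact pow_le_pow_right₀ hK (by omega)
            _ = Real.log ‖F z‖ * KK ^ 23 := by ring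
    · -- dead box
      left
      obtain ⟨p1, p2⟩ := nest (show m + 1 ≤ n2 from b2) a5.1 a5.2.1
      refine mass_box hzi (m := m + 1) (x := x2) (fun t ht => emp b3 hc hc' ht) p1 p2 ?_
      have e1 : (2 : ℝ) ^ (m + 1) ≤ 2 ^ n2 := pow_le_pow_right₀ (by norm_num) b2
      calc z.im * 2 ^ (m + 1) ≤ z.im * 2 ^ n2 := by gcongr
        _ ≤ 1 := a5.2.2.2
  · -- z on the boundary of the Carleson box
    by_cases c1 : (k1 : ℝ) < z.re * 2 ^ n1
    · by_cases c2 : z.re * 2 ^ n1 < k1 + 1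
      · by_cases c3 : z.im * 2 ^ n1 < 1
        · -- bottom
          have c4 : z.im * 2 ^ N ≤ 1 / 2 := by
            by_contra hcon
            push Not at hcon
            exact hQ ⟨⟨c1, c2⟩, ⟨hcon, c3⟩⟩
          have hnN : n = N := by
            by_contra hcon
            have : n < N := lt_of_le_of_ne hA.2.1 hcon
            have e1 : (2 : ℝ) ^ (n + 1) ≤ 2 ^ N := pow_le_pow_right₀ (by norm_num) this
            have e2 : z.im * 2 ^ (n + 1) ≤ z.im * 2 ^ N := by gcongr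
            rw [pow_succ] at e2
            have := hzT.2.2.1
            linarith
          subst hnN
          rcases le_or_gt lam (UU F n (bx n x)) with hc | hc
          · right; exact hE hA hc hzT
          · left
            refine mass_box hzi (m := n) (x := x) ?_ hzT.1 hzT.2.1 hzT.2.2.2
            rintro t ht ⟨t0, m, t1, t2, t3, t4⟩
            have e : bx m t = bx m x := bx_anc ht t2
            rw [e] at t4
            rcases Nat.lt_or_ge m n with hl | hl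
            · have := hA.2.2.2.2 m t1 hl; linarith
            · have : m = n := le_antisymm t2 hl
              subst this; linarith
        · left; exact mass_top hzi (not_lt.mp c3)
      · left; exact mass_out hzi (Or.inr (not_lt.mp c2))
    · left; exact mass_out hzi (Or.inl (not_lt.mp c1))

end OneStep

end Crest.Agent.R102.G864
end

-- ▼ part R102/LemG6_864

/-! # Lemma G, the one step lemma -/

open Set Filter Metric Complex Topology MeasureTheory

namespace Crest.Agent.R102.G864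

section OneStep

variable {Ω : Set ℂ} {F : ℂ → ℂ} {n1 : ℕ} {k1 : ℤ} {N : ℕ} {lam : ℝ}

theorem PK_int_nonneg {z : ℂ} (hz : 0 < z.im) (A : Set ℝ) : 0 ≤ ∫ t in A, PK z t :=
  integral_nonneg (fun t => PK_nonneg hz t)

/-- the inequality in the region -/
theorem region_le (h : Om Ω F) (hN : n1 ≤ N) (hroot : Up Ω F n1 k1) (hlam : 0 < lam) :
    ∀ z ∈ RA Ω F n1 k1 N lam,
      lam / KK ^ 23 * (1 - 8 * ∫ t in (DD Ω F n1 k1 N lam)ᶜ, PK z t) ≤ Real.log ‖F z‖ := by
  have hK := one_le_KK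
  obtain ⟨Φ, hΦ1, hΦ2⟩ := barrier (SS Ω F n1 k1 N lam)
    (fun p => ((p.2 : ℝ) + 1 / 2048) / 2 ^ p.1) (fun p => ((p.2 : ℝ) + 1 - 1 / 2048) / 2 ^ p.1)
    (fun p _ => by gcongr; linarith)
    (fun p hp q hq hpq => (SS_disj hp hq hpq).mono (Ioo_sub_JJ p) (Ioo_sub_JJ q))
    (lam / KK ^ 23)
  rw [← DD_eq] at hΦ2
  refine maxpr h RA_closed RA_bdd RA_sub RA_im RV_open (RV_sub hN) hΦ1 hΦ2 ?_
  intro z hz hzV
  have hc : 0 < lam / KK ^ 23 := by positivity
  have hlog := RA_log h z hz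
  rcases fr h hN hroot hlam hz hzV with h1 | h1
  · nlinarith
  · have h2 := PK_int_nonneg (RA_im z hz) (DD Ω F n1 k1 N lam)ᶜ
    nlinarith

theorem vol_bound (hd : volume (JJ n1 k1 \ EE Ω F n1 k1 N lam) ≤
    ENNReal.ofReal (1 / 2048 * (1 / 2 ^ n1))) :
    volume (JJ n1 k1 \ DD Ω F n1 k1 N lam) ≤ ENNReal.ofReal (3 / 2048 * (1 / 2 ^ n1)) := by
  have h1 : JJ n1 k1 \ DD Ω F n1 k1 N lam ⊆ (JJ n1 k1 \ EE Ω F n1 k1 N lam) ∪
      (EE Ω F n1 k1 N lam \ DD Ω F n1 k1 N lam) := by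
    intro x hx
    by_cases h : x ∈ EE Ω F n1 k1 N lam
    · exact Or.inr ⟨h, hx.2⟩
    · exact Or.inl ⟨hx.1, h⟩
  have hfin : volume (EE Ω F n1 k1 N lam) ≤ ENNReal.ofReal (1 / 2 ^ n1) := by
    rw [← JJ_vol n1 k1]
    exact measure_mono (fun x hx => hx.1)
  have hfin' : volume (EE Ω F n1 k1 N lam) ≠ ⊤ := (hfin.trans_lt ENNReal.ofReal_lt_top).ne
  have h2 : volume (EE Ω F n1 k1 N lam \ DD Ω F n1 k1 N lam) ≤
      ENNReal.ofReal (1 / 1024 * (1 / 2 ^ n1)) := by
    have hDfin : volume (DD Ω F n1 k1 N lam) ≠ ⊤ :=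
      ((measure_mono DD_sub).trans_lt (lt_top_iff_ne_top.mpr hfin')).ne
    rw [measure_sdiff DD_sub DD_meas.nullMeasurableSet hDfin, vol_DD]
    have e : volume (EE Ω F n1 k1 N lam) =
        ENNReal.ofReal (volume (EE Ω F n1 k1 N lam)).toReal := (ENNReal.ofReal_toReal hfin').symm
    have hv : (volume (EE Ω F n1 k1 N lam)).toReal ≤ 1 / 2 ^ n1 :=
      ENNReal.toReal_le_of_le_ofReal (by positivity) hfin
    have hv0 : 0 ≤ (volume (EE Ω F n1 k1 N lam)).toReal := ENNReal.toReal_nonneg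
    rw [e, ← ENNReal.ofReal_mul (by norm_num), ← ENNReal.ofReal_sub _ (by positivity)]
    apply ENNReal.ofReal_le_ofReal
    linarith
  calc volume (JJ n1 k1 \ DD Ω F n1 k1 N lam) ≤ _ := measure_mono h1
    _ ≤ _ := measure_union_le _ _
    _ ≤ ENNReal.ofReal (1 / 2048 * (1 / 2 ^ n1)) + ENNReal.ofReal (1 / 1024 * (1 / 2 ^ n1)) :=
        add_le_add hd h2
    _ = ENNReal.ofReal (3 / 2048 * (1 / 2 ^ n1)) := by
        rw [← ENNReal.ofReal_add (by positivity) (by positivity)]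
        congr 1; ring

theorem arctan32 : Real.pi / 2 - 1 / 32 ≤ Real.arctan 32 := by
  have h1 := Real.arctan_inv_of_pos (show (0 : ℝ) < 32 by norm_num)
  have h2 : Real.arctan (32 : ℝ)⁻¹ ≤ (32 : ℝ)⁻¹ := by
    have h3 : 0 ≤ Real.arctan (32 : ℝ)⁻¹ := Real.arctan_nonneg.mpr (by norm_num)
    have := Real.le_tan h3 (Real.arctan_lt_pi_div_two _)
    rwa [Real.tan_arctan] at this
  norm_num at h1 h2 ⊢
  linarith

/-- the mass at the point over the centre -/
theorem mass_centre (hd : volume (JJ n1 k1 \ EE Ω F n1 k1 N lam) ≤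
    ENNReal.ofReal (1 / 2048 * (1 / 2 ^ n1))) :
    ∫ t in (DD Ω F n1 k1 N lam)ᶜ, PK ⟨((k1 : ℝ) + 1 / 2) / 2 ^ n1, 1 / 2 ^ (n1 + 6)⟩ t ≤ 1 / 16 := by
  set z : ℂ := ⟨((k1 : ℝ) + 1 / 2) / 2 ^ n1, 1 / 2 ^ (n1 + 6)⟩ with hz
  have hp : (0 : ℝ) < 2 ^ n1 := by positivity
  have hzi : 0 < z.im := by rw [hz]; simp only; positivity
  have hpi := Real.pi_gt_three
  have hsplit : (DD Ω F n1 k1 N lam)ᶜ = (JJ n1 k1)ᶜ ∪ (JJ n1 k1 \ DD Ω F n1 k1 N lam) := by
    ext x
    constructor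
    · intro hx
      by_cases h : x ∈ JJ n1 k1
      · exact Or.inr ⟨h, hx⟩
      · exact Or.inl h
    · rintro (hx | hx)
      · exact fun h => hx (DD_sub_JJ h)
      · exact hx.2
  have hdisj : Disjoint (JJ n1 k1)ᶜ (JJ n1 k1 \ DD Ω F n1 k1 N lam) :=
    Set.disjoint_left.mpr (fun x hx hx' => hx hx'.1)
  rw [hsplit, setIntegral_union hdisj ((JJ_meas _ _).diff DD_meas)
    (PK_integrable hzi).integrableOn (PK_integrable hzi).integrableOn]
  have h1 : ∫ t in (JJ n1 k1 \ DD Ω F n1 k1 N lam), PK z t ≤ 3 / 32 / Real.pi := by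
    refine (PK_mass_le hzi (vol_bound hd) (by positivity)).trans (le_of_eq ?_)
    rw [hz]; simp only
    rw [pow_add]
    field_simp
    norm_num
  have h2 : ∫ t in (JJ n1 k1)ᶜ, PK z t ≤ 1 / 16 / Real.pi := by
    have h3 := integral_add_compl (JJ_meas n1 k1) (PK_integrable hzi)
    rw [PK_integral hzi] at h3
    have h4 : ∫ t in Ioo ((k1 : ℝ) / 2 ^ n1) ((k1 + 1) / 2 ^ n1), PK z t ≤
        ∫ t in JJ n1 k1, PK z t := by
      refine setIntegral_mono_set (PK_integrable hzi).integrableOn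
        (Eventually.of_forall fun t => PK_nonneg hzi t) (LE.le.eventuallyLE ?_)
      rw [JJ_eq]; exact Ioo_subset_Ico_self
    rw [PK_arctan hzi (by gcongr; linarith)] at h4
    have e1 : ((k1 + 1) / 2 ^ n1 - z.re) / z.im = 32 := by
      rw [hz]; simp only; rw [pow_add]; field_simp; ring
    have e2 : ((k1 : ℝ) / 2 ^ n1 - z.re) / z.im = -32 := by
      rw [hz]; simp only; rw [pow_add]; field_simp; ring
    rw [e1, e2, Real.arctan_neg] at h4
    have h5 := arctan32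
    have h6 : 1 - 1 / 16 / Real.pi ≤ 1 / Real.pi * (Real.arctan 32 - -Real.arctan 32) := by
      have h7 : 1 / Real.pi * (2 * (Real.pi / 2 - 1 / 32)) ≤
          1 / Real.pi * (Real.arctan 32 - -Real.arctan 32) := by
        apply mul_le_mul_of_nonneg_left _ (by positivity)
        linarith
      refine le_trans (le_of_eq ?_) h7
      field_simp
      ring
    linarith
  have h8 : 3 / 32 / Real.pi + 1 / 16 / Real.pi ≤ 1 / 16 := by
    rw [← add_div, div_le_iff₀ (by positivity)]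
    linarith
  linarith

/-- ONE STEP -/
theorem one_step (h : Om Ω F) (hN : n1 ≤ N) (hroot : Up Ω F n1 k1) (hlam : 0 < lam)
    (hd : volume (JJ n1 k1 \ EE Ω F n1 k1 N lam) ≤ ENNReal.ofReal (1 / 2048 * (1 / 2 ^ n1))) :
    lam / (2 * KK ^ 34) ≤ UU F n1 k1 := by
  have hK := one_le_KK
  have hK0 : 0 < KK := by linarith
  have hp : (0 : ℝ) < 2 ^ n1 := by positivity
  set x0 : ℝ := ((k1 : ℝ) + 1 / 2) / 2 ^ n1 with hx0
  have hbx : bx n1 x0 = k1 := by
    rw [bx_eq_iff, hx0, div_mul_cancel₀ _ hp.ne']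
    constructor <;> linarith
  have hU0 : 0 ≤ UU F n1 k1 := by have := hroot.2; linarith
  by_cases hA : AA Ω F n1 k1 N lam (n1 + 5) x0
  · set z0 : ℂ := ⟨((k1 : ℝ) + 1 / 2) / 2 ^ n1, 1 / 2 ^ (n1 + 6)⟩ with hz0
    have hz0T : z0 ∈ TB (n1 + 5) (bx (n1 + 5) x0) := by
      refine ⟨bx_le _ _, (lt_bx _ _).le, ?_, ?_⟩
      · rw [hz0]; simp only
        rw [show n1 + 6 = (n1 + 5) + 1 by ring, pow_succ]
        field_simp; rfl
      · rw [hz0]; simp only
        rw [show n1 + 6 = (n1 + 5) + 1 by ring, pow_succ]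
        field_simp; norm_num
    have h1 := region_le h hN hroot hlam z0 ⟨n1 + 5, x0, hA, hz0T⟩
    have h2 := mass_centre hd
    have h3 : lam / KK ^ 23 * (1 / 2) ≤ Real.log ‖F z0‖ := by
      refine le_trans ?_ h1
      apply mul_le_mul_of_nonneg_left _ (by positivity)
      rw [hz0]
      linarith
    have hup5 : Up Ω F (n1 + 5) (bx (n1 + 5) x0) := hA.2.2.2.1 _ hA.1 le_rfl
    have h4 : Real.log ‖F z0‖ ≤ KK * UU F (n1 + 5) (bx (n1 + 5) x0) :=
      hup5.le h (zc_mem _ _) hz0T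
    have h5 := (Up.path (F := F) h (j := n1) (x := x0) 5
      (fun i hi hi' => hA.2.2.2.1 i hi hi')).2
    rw [hbx] at h5
    rw [div_le_iff₀ (by positivity)]
    have h6 : lam ≤ 2 * KK ^ 23 * Real.log ‖F z0‖ := by
      rw [div_mul_eq_mul_div, div_le_iff₀ (by positivity)] at h3
      linarith
    calc lam ≤ 2 * KK ^ 23 * Real.log ‖F z0‖ := h6
      _ ≤ 2 * KK ^ 23 * (KK * UU F (n1 + 5) (bx (n1 + 5) x0)) := by gcongr
      _ ≤ 2 * KK ^ 23 * (KK * (KK ^ (2 * 5) * UU F n1 k1)) := by gcongr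
      _ = UU F n1 k1 * (2 * KK ^ 34) := by ring
  · obtain ⟨m, b1, b2, b3, b4⟩ := last_alive hN hroot hbx (by omega) hA
    rcases stop_cases b3 b4 with hc | ⟨hc, hc'⟩
    · obtain ⟨d, rfl⟩ := Nat.exists_eq_add_of_le b1
      have h5 := (Up.path (F := F) h (j := n1) (x := x0) d
        (fun i hi hi' => b3.2.2.2.1 i hi hi')).2
      rw [hbx] at h5
      rw [div_le_iff₀ (by positivity)]
      calc lam ≤ UU F (n1 + d) (bx (n1 + d) x0) := hc
        _ ≤ KK ^ (2 * d) * UU F n1 k1 := h5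
        _ ≤ KK ^ 34 * UU F n1 k1 := by
            apply mul_le_mul_of_nonneg_right _ hU0
            exact pow_le_pow_right₀ hK (by omega)
        _ ≤ UU F n1 k1 * (2 * KK ^ 34) := by
            have : 0 ≤ KK ^ 34 * UU F n1 k1 := by positivity
            linarith
    · exfalso
      have hsub : JJ (m + 1) (bx (m + 1) x0) ⊆ JJ n1 k1 \ EE Ω F n1 k1 N lam := by
        intro t ht
        refine ⟨?_, emp b3 hc hc' ht⟩
        have : bx n1 t = bx n1 x0 := bx_anc ht (by omega)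
        exact this.trans hbx
      have h1 := (measure_mono hsub).trans hd
      rw [JJ_vol, ENNReal.ofReal_le_ofReal_iff (by positivity)] at h1
      have h2 : (2 : ℝ) ^ (m + 1) ≤ 2 ^ (n1 + 5) := pow_le_pow_right₀ (by norm_num) (by omega)
      have h3 : 1 / (2 : ℝ) ^ (n1 + 5) ≤ 1 / 2 ^ (m + 1) :=
        one_div_le_one_div_of_le (by positivity) h2
      have h4 : 1 / (2 : ℝ) ^ (n1 + 5) = 1 / 32 * (1 / 2 ^ n1) := by
        rw [pow_add]; field_simp; norm_num
      have h5 : (0 : ℝ) < 1 / 2 ^ n1 := by positivity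
      linarith

end OneStep

end Crest.Agent.R102.G864
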