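import Mathlib
import Crest.Agent.R102.F7_389

-- ▼ part R102/RunTan_262
section

/-!
Row 102, part (C), leaf H3, RAT, **RUN-TAN** of 58 #26118: a line which is tangent to one mirror `g`
near `c₀` cannot be tangent, for every `y`, to the second mirror `gh` at `y`.
-/

set_option autoImplicit false

open Set Filter Topology Metric

noncomputable section

namespace Crest.Agent.R102.RunTan262

/-- RUN-TAN: generic tangents of `gh` are not tangents of `g` near `c₀`. -/
theorem gentan {g : ℂ → ℂ} {c₀ : ℂ} (hg : AnalyticAt ℂ g c₀) (hg2 : deriv (deriv g) c₀ ≠ 0) :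
    ∃ ρ₀ > (0 : ℝ), ∀ ρ' : ℝ, 0 < ρ' → ρ' ≤ ρ₀ → ∀ O : Set ℂ, IsOpen O → O.Nonempty →
      ∀ gh : ℂ → ℂ, AnalyticOnNhd ℂ gh O → (∀ y ∈ O, deriv (deriv gh) y ≠ 0) →
      (∀ y ∈ O, y ∈ closedBall c₀ ρ' → g y ≠ gh y) →
      ∃ y ∈ O, ∀ t ∈ closedBall c₀ ρ', deriv g t = deriv gh y →
        g t + deriv g t * (y - t) ≠ gh y := by
  have h1 : HasStrictDerivAt (deriv g) (deriv (deriv g) c₀) c₀ := hg.deriv.hasStrictDerivAt
  -- `g'` is injective near `c₀`
  have hinj : ∃ u ∈ 𝓝 c₀, InjOn (deriv g) u := by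
    have h2 := h1.hasStrictFDerivAt_equiv hg2
    exact ⟨(h2.toOpenPartialHomeomorph (deriv g)).source,
      (h2.toOpenPartialHomeomorph (deriv g)).open_source.mem_nhds
        h2.mem_toOpenPartialHomeomorph_source,
      (h2.toOpenPartialHomeomorph (deriv g)).injOn⟩
  obtain ⟨u, hu, hinj⟩ := hinj
  have h3 : ∀ᶠ x in 𝓝 c₀, AnalyticAt ℂ g x ∧ deriv (deriv g) x ≠ 0 ∧ x ∈ u :=
    hg.eventually_analyticAt.and
      ((hg.deriv.deriv.continuousAt.eventually_ne hg2).and hu)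
  obtain ⟨r, hr, hball⟩ := Metric.eventually_nhds_iff_ball.1 h3
  refine ⟨r / 2, by positivity, ?_⟩
  intro ρ' hρ' hρr O hO hne gh hgh hgh2 hsep
  by_contra hcon
  push Not at hcon
  choose! t ht1 ht2 ht3 using hcon
  obtain ⟨y₀, hy₀⟩ := hne
  have hin : ∀ y ∈ O, t y ∈ ball c₀ r := by
    intro y hy
    have := ht1 y hy
    rw [mem_closedBall] at this
    rw [mem_ball]
    linarith
  have hgt : AnalyticAt ℂ g (t y₀) := (hball _ (hin y₀ hy₀)).1
  have hgt2 : deriv (deriv g) (t y₀) ≠ 0 := (hball _ (hin y₀ hy₀)).2.1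
  have h4 : HasStrictDerivAt (deriv g) (deriv (deriv g) (t y₀)) (t y₀) :=
    hgt.deriv.hasStrictDerivAt
  have h5 := h4.hasStrictFDerivAt_equiv hgt2
  set ψ : ℂ → ℂ := h5.localInverse (deriv g) _ _ with hψ
  have hψd : HasStrictDerivAt ψ (deriv (deriv g) (t y₀))⁻¹ (deriv g (t y₀)) :=
    h4.to_localInverse hgt2
  have hψ0 : ψ (deriv g (t y₀)) = t y₀ := h5.localInverse_apply_image
  have hψr : ∀ᶠ s in 𝓝 (deriv g (t y₀)), deriv g (ψ s) = s := h5.eventually_right_inverse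
  have hgy : AnalyticAt ℂ gh y₀ := hgh y₀ hy₀
  have e0 : deriv gh y₀ = deriv g (t y₀) := (ht2 y₀ hy₀).symm
  have hcont : Tendsto (deriv gh) (𝓝 y₀) (𝓝 (deriv g (t y₀))) := by
    rw [← e0]
    exact hgy.deriv.continuousAt
  have hψc : ContinuousAt ψ (deriv g (t y₀)) := hψd.hasDerivAt.continuousAt
  -- `t y = ψ (gh' y)` near `y₀`
  have ht : ∀ᶠ y in 𝓝 y₀, t y = ψ (deriv gh y) := by
    have h6 : ∀ᶠ y in 𝓝 y₀, ψ (deriv gh y) ∈ ball c₀ r := by
      have : Tendsto (fun y => ψ (deriv gh y)) (𝓝 y₀) (𝓝 (t y₀)) := by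
        rw [← hψ0]
        rw [hψ0]
        have h7 := hψc.tendsto.comp hcont
        rw [hψ0] at h7
        exact h7
      exact this.eventually (isOpen_ball.mem_nhds (hin y₀ hy₀))
    filter_upwards [h6, hcont.eventually hψr, hO.mem_nhds hy₀] with y hy1 hy2 hy3
    refine hinj (hball _ (hin y hy3)).2.2 (hball _ hy1).2.2 ?_
    rw [hy2, ht2 y hy3]
  have hτ : HasDerivAt t ((deriv (deriv g) (t y₀))⁻¹ * deriv (deriv gh) y₀) y₀ := by
    have h8 : HasDerivAt (deriv gh) (deriv (deriv gh) y₀) y₀ :=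
      hgy.deriv.differentiableAt.hasDerivAt
    have h9 : HasDerivAt ψ (deriv (deriv g) (t y₀))⁻¹ (deriv gh y₀) := by
      rw [e0]; exact hψd.hasDerivAt
    exact (h9.comp y₀ h8).congr_of_eventuallyEq ht
  set τ' : ℂ := (deriv (deriv g) (t y₀))⁻¹ * deriv (deriv gh) y₀ with hτ'
  have hL : HasDerivAt (fun y => g (t y) + deriv g (t y) * (y - t y))
      (deriv g (t y₀) * τ' + (deriv (deriv g) (t y₀) * τ' * (y₀ - t y₀)
        + deriv g (t y₀) * (1 - τ'))) y₀ := by
    have h10 : HasDerivAt (fun y => g (t y)) (deriv g (t y₀) * τ') y₀ :=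
      HasDerivAt.comp y₀ hgt.differentiableAt.hasDerivAt hτ
    have h11 : HasDerivAt (fun y => deriv g (t y)) (deriv (deriv g) (t y₀) * τ') y₀ :=
      HasDerivAt.comp y₀ h4.hasDerivAt hτ
    exact h10.add (h11.mul ((hasDerivAt_id y₀).sub hτ))
  have hR : HasDerivAt gh (deriv gh y₀) y₀ := hgy.differentiableAt.hasDerivAt
  have hEq : (fun y => g (t y) + deriv g (t y) * (y - t y)) =ᶠ[𝓝 y₀] gh := by
    filter_upwards [hO.mem_nhds hy₀] with y hy
    exact ht3 y hy
  have hU := hL.unique (hR.congr_of_eventuallyEq hEq)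
  have h12 : deriv (deriv gh) y₀ * (y₀ - t y₀) = 0 := by
    have h13 : deriv (deriv g) (t y₀) * τ' = deriv (deriv gh) y₀ := by
      rw [hτ', ← mul_assoc, mul_inv_cancel₀ hgt2, one_mul]
    rw [← h13]
    have h14 := e0
    linear_combination hU + h14
  have h15 : y₀ = t y₀ := by
    rcases mul_eq_zero.1 h12 with h | h
    · exact absurd h (hgh2 y₀ hy₀)
    · exact sub_eq_zero.1 h
  refine hsep y₀ hy₀ ?_ ?_
  · rw [h15]; exact ht1 y₀ hy₀
  · have h16 := ht3 y₀ hy₀
    rw [← h15] at h16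
    simpa using h16

end Crest.Agent.R102.RunTan262
end
end

-- ▼ part R102/RunFun_324

/-!
Row 102, RAT R5, leaf RUN-FUN (58 #26118): a ring of functions whose differentials are multiples of
`dh`, closed under the derivation, factors through `h` near a point where `dh ≠ 0`.
-/

set_option autoImplicit false

open Set Filter Topology Metric

noncomputable section

namespace Crest.Agent.R102.RunFun324

theorem func {E : Type} [NormedAddCommGroup E] [NormedSpace ℂ E] [CompleteSpace E]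
    {W : Set E} (hW : IsOpen W) {p : E} (hp : p ∈ W) {h : E → ℂ} (hh : AnalyticOnNhd ℂ h W)
    (hd : fderiv ℂ h p ≠ 0) {A0 : Type} [CommRing A0] [Algebra ℂ A0]
    {del : Derivation ℂ A0 A0} {z : A0} {phi : A0 →ₐ[ℂ] (E → ℂ)}
    (han : ∀ a, AnalyticOnNhd ℂ (phi a) W)
    (hdel : ∀ a, ∀ x ∈ W, fderiv ℂ (phi a) x = phi (del a) x • fderiv ℂ h x)
    (hz : ∀ x ∈ W, phi z x = h x) :
    ∃ r > 0, ∃ iota : A0 →ₐ[ℂ] (ℂ → ℂ),
      (∀ a, AnalyticOnNhd ℂ (iota a) (ball (h p) r)) ∧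
      (∀ a, ∀ y ∈ ball (h p) r, deriv (iota a) y = iota (del a) y) ∧
      (∀ y ∈ ball (h p) r, iota z y = y) ∧
      ∃ W'' ∈ 𝓝 p, W'' ⊆ W ∧ ∀ a, ∀ x ∈ W'', h x ∈ ball (h p) r ∧ phi a x = iota a (h x) := by
  -- a transversal direction
  obtain ⟨v, hv⟩ : ∃ v, fderiv ℂ h p v ≠ 0 := by
    by_contra hcon
    exact hd (ContinuousLinearMap.ext fun v => not_not.1 fun hv => hcon ⟨v, hv⟩)
  have hpan : AnalyticAt ℂ h p := hh p hp
  -- the implicit function `τ (q, c)`: `h (q + τ v) = c`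
  set Φ : (E × ℂ) × ℂ → ℂ := fun x => h (x.1.1 + x.2 • v) - x.1.2 with hΦ
  have hlin : AnalyticAt ℂ (fun x : (E × ℂ) × ℂ => x.1.1 + x.2 • v) ((p, h p), 0) := by
    exact (analyticAt_fst.fun_comp analyticAt_fst).add (analyticAt_snd.smul analyticAt_const)
  have hΦa : AnalyticAt ℂ Φ ((p, h p), 0) := by
    refine AnalyticAt.sub ?_ (analyticAt_snd.fun_comp analyticAt_fst)
    exact AnalyticAt.fun_comp (g := h) (f := fun x : (E × ℂ) × ℂ => x.1.1 + x.2 • v)
      (by simpa using hpan) hlin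
  have hΦ0 : Φ ((p, h p), 0) = 0 := by simp [hΦ]
  have hΦd : fderiv ℂ Φ ((p, h p), 0) (0, 1) ≠ 0 := by
    have h1 : HasDerivAt (fun t : ℂ => Φ ((p, h p), t)) (fderiv ℂ Φ ((p, h p), 0) (0, 1)) 0 := by
      have h2 : HasDerivAt (fun t : ℂ => (((p, h p), t) : (E × ℂ) × ℂ)) (0, 1) 0 :=
        (hasDerivAt_const _ _).prodMk (hasDerivAt_id _)
      exact hΦa.differentiableAt.hasFDerivAt.comp_hasDerivAt 0 h2
    have h3 : HasDerivAt (fun t : ℂ => Φ ((p, h p), t)) (fderiv ℂ h p v) 0 := by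
      have h4 : HasDerivAt (fun t : ℂ => p + t • v) v 0 := by
        simpa using ((hasDerivAt_id (0 : ℂ)).smul_const v).const_add p
      have h5 : HasFDerivAt h (fderiv ℂ h p) (p + (0 : ℂ) • v) := by
        simpa using hpan.differentiableAt.hasFDerivAt
      exact (h5.comp_hasDerivAt (0 : ℂ) h4).sub_const (h p)
    rw [h1.unique h3]; exact hv
  obtain ⟨τ, hτa, hτ0, hτ, hτu⟩ := F7389.implicit hΦa hΦ0 hΦd
  -- a good ball
  have hqa : AnalyticAt ℂ (fun w : E × ℂ => w.1 + τ w • v) (p, h p) :=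
    analyticAt_fst.add (hτa.smul analyticAt_const)
  have hq0 : p + τ (p, h p) • v = p := by rw [hτ0]; simp
  have ev1 : ∀ᶠ w in 𝓝 ((p, h p) : E × ℂ), AnalyticAt ℂ τ w ∧ h (w.1 + τ w • v) = w.2 ∧
      w.1 + τ w • v ∈ W := by
    refine hτa.eventually_analyticAt.and (Eventually.and ?_
      (hqa.continuousAt.eventually_mem (by simpa only [hq0] using hW.mem_nhds hp)))
    filter_upwards [hτ] with w hw
    exact sub_eq_zero.1 hw
  obtain ⟨ρ, hρ, hball⟩ := Metric.eventually_nhds_iff_ball.1 ev1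
  have hgood : ∀ q : E, ∀ c : ℂ, dist q p < ρ → dist c (h p) < ρ →
      AnalyticAt ℂ τ (q, c) ∧ h (q + τ (q, c) • v) = c ∧ q + τ (q, c) • v ∈ W := by
    intro q c h1 h2
    refine hball (q, c) ?_
    rw [mem_ball, Prod.dist_eq]
    exact max_lt h1 h2
  have ev2 : ∀ᶠ x in 𝓝 p, dist (h x) (h p) < ρ ∧ τ (x, h x) = 0 ∧ x ∈ W := by
    refine Eventually.and (hpan.continuousAt.eventually_mem (ball_mem_nhds _ hρ))
      (Eventually.and ?_ (hW.mem_nhds hp))
    have hc : ContinuousAt (fun x : E => (((x, h x), 0) : (E × ℂ) × ℂ)) p :=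
      ContinuousAt.prodMk (ContinuousAt.prodMk continuousAt_id hpan.continuousAt) continuousAt_const
    filter_upwards [hc.eventually hτu] with x hx
    exact (hx (by simp [hΦ])).symm
  -- the section
  set s : ℂ → E := fun y => p + τ (p, y) • v with hs
  have hsa : ∀ y ∈ ball (h p) ρ, AnalyticAt ℂ s y ∧ h (s y) = y ∧ s y ∈ W := by
    intro y hy
    obtain ⟨h1, h2, h3⟩ := hgood p y (by simpa using hρ) hy
    have h4 : AnalyticAt ℂ (fun y : ℂ => ((p, y) : E × ℂ)) y := analyticAt_const.prod analyticAt_id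
    have h5 : AnalyticAt ℂ (fun y : ℂ => τ (p, y)) y :=
      AnalyticAt.fun_comp (g := τ) (f := fun y : ℂ => ((p, y) : E × ℂ)) h1 h4
    exact ⟨analyticAt_const.add (h5.smul analyticAt_const), h2, h3⟩
  set iota : A0 →ₐ[ℂ] (ℂ → ℂ) :=
    AlgHom.pi (fun y : ℂ => (Pi.evalAlgHom ℂ (fun _ : E => ℂ) (s y)).comp phi)
    with hiota
  have hiota' : ∀ a y, iota a y = phi a (s y) := fun a y => rfl
  refine ⟨ρ, hρ, iota, ?_, ?_, ?_, {x | dist x p < ρ / 2 ∧ dist (h x) (h p) < ρ ∧ τ (x, h x) = 0 ∧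
    x ∈ W}, ?_, fun x hx => hx.2.2.2, ?_⟩
  · intro a y hy
    obtain ⟨h1, _, h3⟩ := hsa y hy
    exact AnalyticAt.fun_comp (g := phi a) (f := s) (han a _ h3) h1
  · intro a y hy
    obtain ⟨h1, h2, h3⟩ := hsa y hy
    have h4 : HasDerivAt s (deriv s y) y := h1.differentiableAt.hasDerivAt
    have h5 : HasDerivAt (fun y => phi a (s y)) (fderiv ℂ (phi a) (s y) (deriv s y)) y :=
      (han a _ h3).differentiableAt.hasFDerivAt.comp_hasDerivAt y h4
    have h6 : HasDerivAt (fun y => h (s y)) (fderiv ℂ h (s y) (deriv s y)) y :=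
      (hh _ h3).differentiableAt.hasFDerivAt.comp_hasDerivAt y h4
    have h7 : HasDerivAt (fun y => h (s y)) 1 y := by
      refine (hasDerivAt_id y).congr_of_eventuallyEq ?_
      filter_upwards [isOpen_ball.mem_nhds hy] with w hw
      exact (hsa w hw).2.1
    have h8 : fderiv ℂ h (s y) (deriv s y) = 1 := h6.unique h7
    have h9 : deriv (iota a) y = fderiv ℂ (phi a) (s y) (deriv s y) := h5.deriv
    rw [h9, hdel a _ h3, hiota']
    simp [h8]
  · intro y hy
    obtain ⟨h1, h2, h3⟩ := hsa y hy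
    rw [hiota', hz _ h3, h2]
  · have h1 : ∀ᶠ x in 𝓝 p, dist x p < ρ / 2 := ball_mem_nhds p (by positivity)
    exact h1.and ev2
  · rintro a x ⟨hx1, hx2, hx3, hx4⟩
    refine ⟨hx2, ?_⟩
    rw [hiota']
    -- the path in the fibre
    set c : ℂ := h x with hc
    set γ : ℝ → E := fun t => (p + t • (x - p)) + τ (p + t • (x - p), c) • v with hγ
    have hseg : ∀ t : ℝ, |t| < 2 → dist (p + t • (x - p)) p < ρ := by
      intro t ht
      rw [dist_eq_norm, add_sub_cancel_left, norm_smul, Real.norm_eq_abs, ← dist_eq_norm]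
      have h1 : |t| * dist x p ≤ 2 * dist x p := mul_le_mul_of_nonneg_right ht.le dist_nonneg
      linarith
    have hγd : ∀ t : ℝ, |t| < 2 → ∃ w, HasDerivAt γ w t := by
      intro t ht
      obtain ⟨h1, _, _⟩ := hgood _ c (hseg t ht) hx2
      have h2 : HasDerivAt (fun t : ℝ => p + t • (x - p)) (x - p) t := by
        simpa using ((hasDerivAt_id t).smul_const (x - p)).const_add p
      have h3 : HasDerivAt (fun t : ℝ => ((p + t • (x - p), c) : E × ℂ)) (x - p, 0) t :=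
        h2.prodMk (hasDerivAt_const t c)
      have h4 := (h1.differentiableAt.hasFDerivAt.restrictScalars ℝ).comp_hasDerivAt t h3
      exact ⟨_, h2.add (h4.smul_const v)⟩
    have hzero : ∀ t : ℝ, |t| < 2 → HasDerivAt (fun t => phi a (γ t)) 0 t := by
      intro t ht
      obtain ⟨w, hw⟩ := hγd t ht
      obtain ⟨_, h2, h3⟩ := hgood _ c (hseg t ht) hx2
      have h3' : γ t ∈ W := h3
      have h5 : HasDerivAt (fun t => h (γ t)) (fderiv ℂ h (γ t) w) t :=
        ((hh _ h3').differentiableAt.hasFDerivAt.restrictScalars ℝ).comp_hasDerivAt t hw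
      have h6 : HasDerivAt (fun t => h (γ t)) 0 t := by
        refine (hasDerivAt_const t c).congr_of_eventuallyEq ?_
        have : ∀ᶠ t' in 𝓝 t, |t'| < 2 :=
          continuous_abs.continuousAt.eventually_lt continuousAt_const ht
        filter_upwards [this] with t' ht'
        exact (hgood _ c (hseg t' ht') hx2).2.1
      have h7 : fderiv ℂ h (γ t) w = 0 := h5.unique h6
      have h8 : HasDerivAt (fun t => phi a (γ t)) (fderiv ℂ (phi a) (γ t) w) t :=
        ((han a _ h3').differentiableAt.hasFDerivAt.restrictScalars ℝ).comp_hasDerivAt t hw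
      rw [hdel a _ h3'] at h8
      simpa [h7] using h8
    have hcon := constant_of_has_deriv_right_zero (f := fun t => phi a (γ t)) (a := 0) (b := 1)
      (fun t ht => (hzero t (by rw [abs_of_nonneg ht.1]; linarith [ht.2])).continuousAt.continuousWithinAt)
      (fun t ht => (hzero t (by rw [abs_of_nonneg ht.1]; linarith [ht.2])).hasDerivWithinAt)
      1 ⟨zero_le_one, le_rfl⟩
    have e1 : γ 1 = x := by
      have h1 : p + (1 : ℝ) • (x - p) = x := by simp
      simp only [hγ, h1, hx3, zero_smul, add_zero]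
    have e0 : γ 0 = s c := by simp [hγ, hs]
    simpa only [e1, e0] using hcon

end Crest.Agent.R102.RunFun324
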