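import Crest.Agent.R102.RunS_58
import Crest.Agent.R102.RunFun_324_Mg
import Crest.Agent.R102.RatGlueB_798
import Mathlib
import Crest.Agent.R102.C0Defs_821
import Crest.Agent.R102.F7_389
import Crest.Agent.R102.Run_58
import Crest.Agent.R102.Mer_88
import Crest.Agent.R266.Osgood

-- ▼ part R102/RunH_58
section

/-!
# Row 102, [H3], THEOREM (RAT), leaf R5 = RUN (helper58): analytic end, first part

`sec_of` : the second chain as functions; `local_far` : the far mirror near a generic point;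
`obs_eq` : observables of the shifted chain.
-/

set_option autoImplicit false
set_option linter.unusedSectionVars false
set_option linter.unusedVariables false

open Set Filter Topology Metric TopologicalSpace

noncomputable section

namespace Crest.Agent.R102.RunE58

open Crest.Agent.R102 Crest.Agent.R102.F7389 Crest.Agent.R102.Run58 Crest.Agent.R102.RunD58
  Crest.Agent.R102.RunAlg58 Crest.Agent.R102.RAT Crest.Agent.R102.Glue798 Crest.Agent.R102.H3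
  Crest.Agent.R102.Rat7217

/-- the second chain as a chain of functions -/
theorem sec_of {g : ℂ → ℂ} {c₀ : ℂ} {P : ℕ} {ρ : ℝ} {β m k q q' : ℕ → ℂ × ℂ → ℂ} {r ρ₀ : ℝ}
    {V : Opens ℂ} {W' : Opens (ℂ × ℂ)} (S : Setup g c₀ P ρ β m k q q' r ρ₀ V W') {N : ℕ}
    (hNP : N ≤ P) {A₀ : Subalgebra ℂ (Hol V)} {z₀ G₀ G₁ : A₀}
    (hG : (G₁ : Hol V) = DH V (G₀ : Hol V)) {θ : ℕ → A₀ →ₐ[ℂ] Hol W'} {m' k' : ℕ → Hol W'}
    (H : Second β m k N A₀ z₀ G₀ G₁ W' θ m' k') :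
    Sec g N β m k (W' : Set (ℂ × ℂ)) (fun j => ext0 (θ j z₀ : W' → ℂ))
      (fun j i => ext0 (θ j (if i = 0 then G₀ else G₁) : W' → ℂ))
      (fun j => ext0 (m' j : W' → ℂ)) (fun j => ext0 (k' j : W' → ℂ)) where
  an_b j _ := Hol.an _
  an_x0 j _ := Hol.an _
  an_x1 j _ := Hol.an _
  inc j hj p hp := by
    have h1 := congrArg (fun f : Hol W' => (f : W' → ℂ) ⟨p, hp⟩) (H.inc j hj)
    simp only [if_true]
    rw [ext0_of_mem _ hp, ext0_of_mem _ hp, ext0_of_mem _ hp, ext0_of_mem _ hp]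
    exact h1
  inc' j hj p hp := by
    have h1 := congrArg (fun f : Hol W' => (f : W' → ℂ) ⟨p, hp⟩) (H.inc' j hj)
    simp only [if_true]
    rw [ext0_of_mem _ hp, ext0_of_mem _ hp, ext0_of_mem _ hp, ext0_of_mem _ hp]
    exact h1
  refl j hj p hp := by
    have h1 := congrArg (fun f : Hol W' => (f : W' → ℂ) ⟨p, hp⟩) (H.refl j hj)
    simp only [one_ne_zero, if_false]
    rw [ext0_of_mem _ hp, ext0_of_mem _ hp, ext0_of_mem _ hp]
    exact h1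
  m_ne j hj p hp := by
    rw [ext0_of_mem _ hp]
    exact H.m_ne j hj.le ⟨p, hp⟩
  dx j hj p hp := by
    refine ContinuousLinearMap.ext fun v => ?_
    have h1 := congrArg (fun f : Hol W' => (f : W' → ℂ) ⟨p, hp⟩) (H.dx j hj v G₀ G₁ hG)
    simp only [if_true, one_ne_zero, if_false]
    rw [ext0_of_mem (θ j G₁ : W' → ℂ) hp]
    exact h1
  db j hj := by
    obtain ⟨v, hv⟩ := H.db j hj
    by_contra hcon
    push Not at hcon
    refine hv ?_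
    ext p
    rw [pdH_apply]
    have h1 := hcon p p.2
    rw [h1]
    rfl
  ne j hj := by
    by_contra hcon
    push Not at hcon
    refine H.ne j hj ?_
    ext p
    have h1 := hcon p p.2
    rw [ext0_apply, ext0_apply] at h1
    exact h1
  start_m p hp := by
    rw [H.start_m, ext0_of_mem _ hp, S.mH_apply (by omega) (by omega)]
    rfl
  start_k p hp := by
    rw [H.start_k, ext0_of_mem _ hp, S.kH_apply (by omega) (by omega)]
    rfl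
  end_m p hp := by
    rw [H.end_m, ext0_of_mem _ hp, S.mH_apply (by omega) (by omega)]
    rfl
  end_k p hp := by
    rw [H.end_k, ext0_of_mem _ hp, S.kH_apply (by omega) (by omega)]
    rfl
  ne₀ := by
    by_contra hcon
    push Not at hcon
    refine H.ne₀ ?_
    ext p
    have h1 := hcon p p.2
    rw [ext0_apply] at h1
    rw [S.bH_apply (by omega) (by omega), h1]
    rfl

/-- derivation of the subalgebra -/
def delA {V : Opens ℂ} (A : Subalgebra ℂ (Hol V)) (hD : ∀ f ∈ A, DH V f ∈ A) :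
    Derivation ℂ A A where
  toFun f := ⟨DH V f, hD f f.2⟩
  map_add' f h := Subtype.ext (map_add _ _ _)
  map_smul' c f := Subtype.ext ((DH V).map_smul c (f : Hol V))
  map_one_eq_zero' := Subtype.ext (Derivation.map_one_eq_zero _)
  leibniz' f h := Subtype.ext (Derivation.leibniz _ _ _)

/-- **the far mirror near a generic point** -/
theorem local_far {g : ℂ → ℂ} {c₀ : ℂ} {r : ℝ} {A : Subalgebra ℂ (Hol (bO c₀ r))}
    {G : Hol (bO c₀ r)} (hFT : FT g c₀ r A G) {ρt : ℝ}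
    (htan : ∀ ρ' : ℝ, 0 < ρ' → ρ' ≤ ρt → ∀ O : Set ℂ, IsOpen O → O.Nonempty →
      ∀ gh : ℂ → ℂ, AnalyticOnNhd ℂ gh O → (∀ y ∈ O, deriv (deriv gh) y ≠ 0) →
      (∀ y ∈ O, y ∈ closedBall c₀ ρ' → g y ≠ gh y) →
      ∃ y ∈ O, ∀ t ∈ closedBall c₀ ρ', deriv g t = deriv gh y →
        g t + deriv g t * (y - t) ≠ gh y) {ρ' : ℝ} (hρ' : 0 < ρ') (hρt : ρ' ≤ ρt)
    {W' : Opens (ℂ × ℂ)} (hpre : IsPreconnected (W' : Set (ℂ × ℂ))) {θ : A →ₐ[ℂ] Hol W'}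
    (hinj : Function.Injective θ) {z₀ G₀ G₁ G₂ : A}
    (hz₀ : (z₀ : Hol (bO c₀ r)) = zH _) (hG₀ : (G₀ : Hol (bO c₀ r)) = G)
    (hG₁ : (G₁ : Hol (bO c₀ r)) = DH _ (G₀ : Hol (bO c₀ r)))
    (hG₂ : (G₂ : Hol (bO c₀ r)) = DH _ (G₁ : Hol (bO c₀ r)))
    (hdx : ∀ (v : ℂ × ℂ) (f f' : A), (f' : Hol (bO c₀ r)) = DH _ (f : Hol (bO c₀ r)) →
      pdH W' v (θ f) = θ f' * pdH W' v (θ z₀))
    {O₁ : Set (ℂ × ℂ)} (hO₁ : IsOpen O₁) (hO₁W : O₁ ⊆ W') {p₁ : ℂ × ℂ} (hp₁ : p₁ ∈ O₁)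
    (hfd : fderiv ℂ (ext0 (θ z₀ : W' → ℂ)) p₁ ≠ 0)
    (h2 : ∀ x ∈ O₁, ext0 (θ G₂ : W' → ℂ) x ≠ 0)
    (hγ : ∀ x ∈ O₁, ext0 (θ z₀ : W' → ℂ) x ∈ closedBall c₀ ρ' →
      g (ext0 (θ z₀ : W' → ℂ) x) ≠ ext0 (θ G₀ : W' → ℂ) x) :
    ∃ x₁ ∈ O₁, ∃ (y : ℂ) (r' : ℝ) (ι : A →ₐ[ℂ] Hol (bO y r')) (gh : ℂ → ℂ),
      Far A G y r' ι gh ∧ ext0 (θ z₀ : W' → ℂ) x₁ = y ∧
      (∀ᶠ w in 𝓝 x₁, gh (ext0 (θ z₀ : W' → ℂ) w) = ext0 (θ G₀ : W' → ℂ) w) ∧
      deriv gh y = ext0 (θ G₁ : W' → ℂ) x₁ ∧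
      ∀ t ∈ closedBall c₀ ρ', deriv g t = deriv gh y → g t + deriv g t * (y - t) ≠ gh y := by
  classical
  set h : ℂ × ℂ → ℂ := ext0 (θ z₀ : W' → ℂ) with hh
  have hp₁W : p₁ ∈ W' := hO₁W hp₁
  -- functions on all of `ℂ × ℂ`
  let pr : ℂ × ℂ → W' := fun x => if hx : x ∈ W' then ⟨x, hx⟩ else ⟨p₁, hp₁W⟩
  have hpr : ∀ x (hx : x ∈ W'), pr x = ⟨x, hx⟩ := fun x hx => dif_pos hx
  let phi : A →ₐ[ℂ] (ℂ × ℂ → ℂ) := AlgHom.pi fun x => (evH (pr x)).comp θ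
  have hphi : ∀ (a : A) (x : ℂ × ℂ), x ∈ W' → phi a x = ext0 (θ a : W' → ℂ) x := by
    intro a x hx
    change evH (pr x) (θ a) = _
    rw [hpr x hx, ext0_of_mem _ hx, evH_apply]
  have hphie : ∀ (a : A) (x : ℂ × ℂ), x ∈ W' → phi a =ᶠ[𝓝 x] ext0 (θ a : W' → ℂ) := by
    intro a x hx
    filter_upwards [W'.isOpen.mem_nhds hx] with w hw using hphi a w hw
  have han : ∀ a, AnalyticOnNhd ℂ (phi a) (W' : Set (ℂ × ℂ)) := fun a x hx =>
    (Hol.an (θ a) x hx).congr (hphie a x hx).symm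
  have hfdx : ∀ (f f' : A), (f' : Hol (bO c₀ r)) = DH _ (f : Hol (bO c₀ r)) → ∀ x ∈ W',
      fderiv ℂ (ext0 (θ f : W' → ℂ)) x = ext0 (θ f' : W' → ℂ) x • fderiv ℂ h x := by
    intro f f' hff x hx
    refine ContinuousLinearMap.ext fun v => ?_
    have h1 := congrArg (fun F : Hol W' => (F : W' → ℂ) ⟨x, hx⟩) (hdx v f f' hff)
    rw [ext0_of_mem (θ f' : W' → ℂ) hx]
    exact h1
  have hdel : ∀ a, ∀ x ∈ (W' : Set (ℂ × ℂ)),
      fderiv ℂ (phi a) x = phi (delA A hFT.stable a) x • fderiv ℂ h x := by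
    intro a x hx
    rw [(hphie a x hx).fderiv_eq, hfdx a (delA A hFT.stable a) rfl x hx, hphi _ x hx]
  obtain ⟨s, hs, iota, hi1, hi2, hi3, W'', hW'', hW''W, hi4⟩ := RunFun324.func
    (E := ℂ × ℂ) (W := (W' : Set (ℂ × ℂ))) W'.isOpen hp₁W (h := h) (Hol.an _) hfd
    (A0 := A) (del := delA A hFT.stable) (z := z₀) (phi := phi) han hdel
    (fun x hx => hphi z₀ x hx)
  -- open set of good points
  set O₂ : Set (ℂ × ℂ) := interior W'' ∩ O₁ with hO₂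
  have hO₂o : IsOpen O₂ := isOpen_interior.inter hO₁
  have hp₂ : p₁ ∈ O₂ := ⟨mem_interior_iff_mem_nhds.2 hW'', hp₁⟩
  have hmap : map h (𝓝 p₁) = 𝓝 (h p₁) := by
    have h1 : HasStrictFDerivAt h (fderiv ℂ h p₁) p₁ := (Hol.an _ p₁ hp₁W).hasStrictFDerivAt
    refine h1.map_nhds_eq_of_surj ?_
    obtain ⟨v, hv⟩ : ∃ v, fderiv ℂ h p₁ v ≠ 0 := by
      by_contra hall
      push Not at hall
      exact hfd (ContinuousLinearMap.ext hall)
    rw [LinearMap.range_eq_top]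
    intro w
    refine ⟨(w / fderiv ℂ h p₁ v) • v, ?_⟩
    change fderiv ℂ h p₁ ((w / fderiv ℂ h p₁ v) • v) = w
    rw [map_smul, smul_eq_mul, div_mul_cancel₀ _ hv]
  have himg : h '' O₂ ∈ 𝓝 (h p₁) := by
    rw [← hmap]
    exact image_mem_map (hO₂o.mem_nhds hp₂)
  set O : Set ℂ := interior (h '' O₂) with hO
  have hpO : h p₁ ∈ O := mem_interior_iff_mem_nhds.2 himg
  have hOim : ∀ y ∈ O, ∃ x ∈ O₂, h x = y := fun y hy =>
    (interior_subset hy : y ∈ h '' O₂)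
  have hOball : ∀ y ∈ O, y ∈ ball (h p₁) s := by
    intro y hy
    obtain ⟨x, hx, rfl⟩ := hOim y hy
    exact (hi4 z₀ x (interior_subset hx.1)).1
  have hval : ∀ (a : A) (x : ℂ × ℂ), x ∈ O₂ → iota a (h x) = ext0 (θ a : W' → ℂ) x := by
    intro a x hx
    rw [← hphi a x (hO₁W hx.2)]
    exact ((hi4 a x (interior_subset hx.1)).2).symm
  have hd1 : ∀ y ∈ ball (h p₁) s, deriv (iota G₀) y = iota G₁ y := by
    intro y hy
    have e : delA A hFT.stable G₀ = G₁ := Subtype.ext hG₁.symm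
    rw [hi2 G₀ y hy, e]
  have hd2 : ∀ y ∈ ball (h p₁) s, deriv (deriv (iota G₀)) y = iota G₂ y := by
    intro y hy
    have e1 : deriv (iota G₀) =ᶠ[𝓝 y] iota G₁ := by
      filter_upwards [isOpen_ball.mem_nhds hy] with w hw using hd1 w hw
    have e : delA A hFT.stable G₁ = G₂ := Subtype.ext hG₂.symm
    rw [e1.deriv_eq, hi2 G₁ y hy, e]
  obtain ⟨y, hyO, hyt⟩ := htan ρ' hρ' hρt O isOpen_interior ⟨_, hpO⟩ (iota G₀)
    (fun y hy => hi1 G₀ y (hOball y hy))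
    (fun y hy => by
      rw [hd2 y (hOball y hy)]
      obtain ⟨x, hx, rfl⟩ := hOim y hy
      rw [hval G₂ x hx]
      exact h2 x hx.2)
    (fun y hy hyc => by
      obtain ⟨x, hx, rfl⟩ := hOim y hy
      rw [hval G₀ x hx]
      exact hγ x hx.2 hyc)
  obtain ⟨x₁, hx₁, hx₁y⟩ := hOim y hyO
  have hyb := hOball y hyO
  set r' : ℝ := s - dist y (h p₁) with hr'
  have hr'0 : 0 < r' := by rw [hr']; rw [mem_ball] at hyb; linarith
  have hsub : ball y r' ⊆ ball (h p₁) s := by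
    intro w hw
    rw [mem_ball] at hw ⊢
    calc dist w (h p₁) ≤ dist w y + dist y (h p₁) := dist_triangle _ _ _
      _ < s := by linarith
  let ι : A →ₐ[ℂ] Hol (bO y r') :=
    { toFun := fun a => ⟨fun w => iota a w,
        analyticOnNhd_ext0 (F := iota a) (fun _ => rfl) ((hi1 a).mono hsub)⟩
      map_one' := by ext w; change iota 1 w = 1; rw [map_one]; rfl
      map_mul' := fun a b => by ext w; change iota (a * b) w = iota a w * iota b w; rw [map_mul]; rfl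
      map_zero' := by ext w; change iota 0 w = 0; rw [map_zero]; rfl
      map_add' := fun a b => by ext w; change iota (a + b) w = iota a w + iota b w; rw [map_add]; rfl
      commutes' := fun c => by ext w; change iota (algebraMap ℂ A c) w = c; rw [AlgHom.commutes]; rfl }
  have hιe : ∀ (a : A) (w : bO y r'), ext0 (ι a : bO y r' → ℂ) =ᶠ[𝓝 (w : ℂ)] iota a := fun a w =>
    eventually_ext0_eq (F := iota a) (fun _ => rfl) w.2
  refine ⟨x₁, hx₁.2, y, r', ι, iota G₀, ⟨hr'0, ?_, ?_, ?_, ?_⟩, hx₁y, ?_, ?_, hyt⟩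
  · rw [injective_iff_map_eq_zero]
    intro f hf
    have e1 : iota f =ᶠ[𝓝 y] 0 := by
      filter_upwards [ball_mem_nhds y hr'0] with w hw
      have := congrArg (fun F : Hol (bO y r') => (F : bO y r' → ℂ) ⟨w, hw⟩) hf
      exact this
    have e2 := (hi1 f).eqOn_zero_of_preconnected_of_eventuallyEq_zero
      (convex_ball (h p₁) s).isPreconnected hyb e1
    have e3 : θ f = 0 := by
      refine Hol.eq_zero_of_eventually hpre (θ f) ⟨p₁, hp₁W⟩ ?_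
      filter_upwards [hO₂o.mem_nhds hp₂] with x hx
      rw [← hval f x hx]
      exact e2 (hi4 z₀ x (interior_subset hx.1)).1
    exact hinj (e3.trans (map_zero θ).symm)
  · intro hz
    ext w
    have e : (⟨zH _, hz⟩ : A) = z₀ := Subtype.ext hz₀.symm
    rw [e]
    change iota z₀ w = w
    exact hi3 w (hsub w.2)
  · intro hG w
    have e : (⟨G, hG⟩ : A) = G₀ := Subtype.ext hG₀.symm
    rw [e]
    rfl
  · intro f f' hff
    ext w
    rw [DH_apply, (hιe f w).deriv_eq, hi2 f w (hsub w.2)]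
    have e : delA A hFT.stable f = f' := Subtype.ext hff.symm
    rw [e]
    rfl
  · filter_upwards [hO₂o.mem_nhds hx₁] with w hw using hval G₀ w hw
  · rw [hd1 y hyb, ← hx₁y, hval G₁ x₁ hx₁]

/-- observables of the shifted chain -/
theorem obs_eq {g : ℂ → ℂ} {c₀ : ℂ} {P : ℕ} {ρ : ℝ} {β m k q q' : ℕ → ℂ × ℂ → ℂ} {r ρ₀ : ℝ}
    {r₁ : ℝ} {W' : Opens (ℂ × ℂ)} (S : Setup g c₀ P ρ β m k q q' r ρ₀ (bO c₀ r₁) W')
    {N a : ℕ} (hNP : N + a ≤ P) (A : Subalgebra ℂ (Hol (bO c₀ r₁))) (w : W')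
    (h0 : (w : ℂ × ℂ).2 ≠ 0) (hT : Th β a w ∈ ball c₀ ρ₀ ×ˢ ball (0 : ℂ) ρ₀)
    (F : MvPolynomial (Fin 2 ⊕ (Fin (N + a) × A)) ℂ) :
    evH w (MvPolynomial.aeval (obsH β m k A N a W') F) =
      MvPolynomial.eval (obs A (N + a) β m k (Th β a w)) F := by
  obtain ⟨-, hs⟩ := shift S.C S.hρ S.G (a := a) (by omega) (S.sub w.2) h0 hT
  have hfun : (fun i => evH w (obsH β m k A N a W' i)) = obs A (N + a) β m k (Th β a w) := by
    funext i
    rcases i with i | ⟨j, f⟩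
    · have e0 := hs 0 (Nat.zero_le _)
      simp only [Nat.cast_zero, zero_sub] at e0
      fin_cases i
      · change evH w (mH m W' (-(a : ℤ))) = m 0 (Th β a w)
        rw [evH_apply, S.mH_apply (by omega) (by omega), e0.2.1]
      · change evH w (mH k W' (-(a : ℤ))) = k 0 (Th β a w)
        rw [evH_apply, S.kH_apply (by omega) (by omega), e0.2.2]
    · change evH w (xH β W' (((j : ℕ) : ℤ) - a) (f : Hol (bO c₀ r₁))) =
        ext0 ((f : Hol (bO c₀ r₁)) : bO c₀ r₁ → ℂ)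
          ((Th β a w).1 + (Th β a w).2 * β j (Th β a w))
      have ej := (hs j (by omega)).1
      rw [evH_apply, S.xH_apply (by omega) (by omega), ← ej]
      rfl
  rw [← hfun]
  have h1 : (evH w).comp (MvPolynomial.aeval (obsH β m k A N a W')) =
      MvPolynomial.aeval fun i => evH w (obsH β m k A N a W' i) := by
    refine MvPolynomial.algHom_ext fun i => ?_
    simp
  have h2 := congrArg (fun φ : MvPolynomial (Fin 2 ⊕ (Fin (N + a) × A)) ℂ →ₐ[ℂ] ℂ => φ F) h1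
  exact h2

end Crest.Agent.R102.RunE58
end
end

-- ▼ part R102/RunI_58
section

/-!
# Row 102, [H3], THEOREM (RAT), leaf R5 = RUN (helper58): `SecondStmt → RunStmt`
-/

set_option autoImplicit false
set_option linter.unusedSectionVars false

open Set Filter Topology Metric TopologicalSpace

noncomputable section

namespace Crest.Agent.R102.RunE58

open Crest.Agent.R102 Crest.Agent.R102.F7389 Crest.Agent.R102.Run58 Crest.Agent.R102.RunD58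
  Crest.Agent.R102.RunAlg58 Crest.Agent.R102.RAT Crest.Agent.R102.Glue798 Crest.Agent.R102.H3
  Crest.Agent.R102.Rat7217 Crest.Agent.R102.Free781

/-- lines of negative index -/
theorem Lz_lm {g : ℂ → ℂ} {c₀ : ℂ} {P : ℕ} {ρ : ℝ} {β m k q q' : ℕ → ℂ × ℂ → ℂ}
    (C : Chain g c₀ P ρ β m k q q') (a : ℕ) {p : ℂ × ℂ}
    (hp : p ∈ ball c₀ ρ ×ˢ ball (0 : ℂ) ρ) :
    Lz m (-(a : ℤ)) p = lm m a p ∧ Lz k (-(a : ℤ)) p = lm k a p := by
  rcases Nat.eq_zero_or_pos a with rfl | ha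
  · exact ⟨(C.even_m p hp).symm, (C.even_k p hp).symm⟩
  · rw [Lz_neg m a ha, Lz_neg k a ha]
    exact ⟨rfl, rfl⟩

/-- injectivity of `f ↦ f ∘ b_j` over the polydisc -/
theorem x_inj {g : ℂ → ℂ} {c₀ : ℂ} {P : ℕ} {ρ : ℝ} {β m k q q' : ℕ → ℂ × ℂ → ℂ} {r ρ₀ : ℝ}
    {r₁ : ℝ} (S : Setup g c₀ P ρ β m k q q' r ρ₀ (bO c₀ r₁) (WO c₀ ρ₀)) (hr₁ : 0 < r₁) {j : ℕ}
    (hj : j ≤ P) (f : Hol (bO c₀ r₁)) (h : xH β (WO c₀ ρ₀) (j : ℤ) f = 0) : f = 0 := by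
  have hρ₀ := S.G.ρ_pos
  refine Hol.eq_zero_of_eventually (convex_ball c₀ r₁).isPreconnected f
    ⟨c₀, mem_ball_self hr₁⟩ ?_
  filter_upwards [ball_mem_nhds c₀ hρ₀] with c hc
  have hcW : ((c, 0) : ℂ × ℂ) ∈ WO c₀ ρ₀ := ⟨hc, mem_ball_self hρ₀⟩
  have h1 := congrArg (fun F : Hol (WO c₀ ρ₀) => (F : WO c₀ ρ₀ → ℂ) ⟨_, hcW⟩) h
  rw [S.xH_apply (by omega) (by omega)] at h1
  have h2 : Bz β (j : ℤ) ((c, 0) : ℂ × ℂ) = c := by
    change bp β j (c, 0) = c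
    simp [bp]
  rw [h2] at h1
  exact h1

set_option maxHeartbeats 1000000 in
/-- `LLA ≤ LL` over the polydisc, when `A` consists of rational functions of the jets -/
theorem LLA_le {g : ℂ → ℂ} {c₀ : ℂ} {P : ℕ} {ρ : ℝ} {β m k q q' e : ℕ → ℂ × ℂ → ℂ} {r ρ₀ : ℝ}
    {r₁ : ℝ} [IsDomain (Hol (WO c₀ ρ₀))]
    (S : Setup g c₀ P ρ β m k q q' r ρ₀ (bO c₀ r₁) (WO c₀ ρ₀)) (hr₁ : 0 < r₁) {N : ℕ}
    (hNP : N ≤ P) {A : Subalgebra ℂ (Hol (bO c₀ r₁))} {G : Hol (bO c₀ r₁)}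
    (hG : G = toH (bO c₀ r₁) g) (hGen : Gen A G) :
    LLA N β k (WO c₀ ρ₀) A (lM (WO c₀ ρ₀) e 0) ≤
      LL N (bM (WO c₀ ρ₀) β) (xM (WO c₀ ρ₀) g β) (lM (WO c₀ ρ₀) e) (lM (WO c₀ ρ₀) k) := by
  have hjet : ∀ j : ℕ, j < N → ∀ u ∈ Algebra.adjoin ℂ
      (insert (zH (bO c₀ r₁)) (range fun n => (DH (bO c₀ r₁))^[n] G)),
      al (WO c₀ ρ₀) (xH β (WO c₀ ρ₀) (j : ℤ) u) ∈
        LL N (bM (WO c₀ ρ₀) β) (xM (WO c₀ ρ₀) g β) (lM (WO c₀ ρ₀) e) (lM (WO c₀ ρ₀) k) := by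
    intro j hj u hu
    have hx : ∀ f, xH β (WO c₀ ρ₀) (j : ℤ) f =
        compH (bH β (WO c₀ ρ₀) (j : ℤ)) (S.bH_mem (by omega) (by omega)) f :=
      S.xH_eq (by omega) (by omega)
    induction hu using Algebra.adjoin_induction with
    | mem u hu =>
      rcases hu with rfl | ⟨n, rfl⟩
      · rw [xH_z S (by omega) (by omega)]
        exact IntermediateField.subset_adjoin ℂ _ (Or.inr ⟨j, hj, Or.inl rfl⟩)
      · have h1 := x_eq (W := WO c₀ ρ₀) (M := FractionRing (Hol (WO c₀ ρ₀))) S.an_g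
          (S.an_b (j := (j : ℤ)) (by omega) (by omega)) (S.bH_mem (by omega) (by omega)) n
        simp only
        rw [hG, hx]
        have h2 : al (WO c₀ ρ₀) (compH (bH β (WO c₀ ρ₀) (j : ℤ))
            (S.bH_mem (by omega) (by omega)) ((DH (bO c₀ r₁))^[n] (toH (bO c₀ r₁) g))) =
            xM (WO c₀ ρ₀) g β j n := h1.symm
        rw [h2]
        exact IntermediateField.subset_adjoin ℂ _ (Or.inr ⟨j, hj, Or.inr ⟨n, rfl⟩⟩)
    | algebraMap c =>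
      rw [hx, AlgHom.commutes, ← IsScalarTower.algebraMap_apply]
      exact IntermediateField.algebraMap_mem _ c
    | add f h _ _ h1 h2 => rw [hx, map_add, map_add, ← hx, ← hx]; exact add_mem h1 h2
    | mul f h _ _ h1 h2 => rw [hx, map_mul, map_mul, ← hx, ← hx]; exact mul_mem h1 h2
  refine IntermediateField.adjoin_le_iff.2 ?_
  rintro y (hy | ⟨j, hj, f, hf, rfl⟩)
  · rcases hy with rfl | hy
    · exact IntermediateField.subset_adjoin ℂ _ (Or.inl (Or.inl rfl))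
    · rw [Set.mem_singleton_iff] at hy
      subst hy
      exact IntermediateField.subset_adjoin ℂ _ (Or.inl (Or.inr rfl))
  · obtain ⟨u, hu, v, hv, hv0, hvf⟩ := hGen f hf
    have hx : ∀ f, xH β (WO c₀ ρ₀) (j : ℤ) f =
        compH (bH β (WO c₀ ρ₀) (j : ℤ)) (S.bH_mem (by omega) (by omega)) f :=
      S.xH_eq (by omega) (by omega)
    have h1 : al (WO c₀ ρ₀) (xH β (WO c₀ ρ₀) (j : ℤ) v) * al (WO c₀ ρ₀) (xH β (WO c₀ ρ₀) (j : ℤ) f)
        = al (WO c₀ ρ₀) (xH β (WO c₀ ρ₀) (j : ℤ) u) := by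
      rw [← map_mul, hx, hx, hx, ← map_mul, hvf]
    have h2 : al (WO c₀ ρ₀) (xH β (WO c₀ ρ₀) (j : ℤ) v) ≠ 0 := by
      intro h
      exact hv0 (x_inj S hr₁ (by omega) v (al_inj (WO c₀ ρ₀) (h.trans (map_zero _).symm)))
    have h3 : al (WO c₀ ρ₀) (xH β (WO c₀ ρ₀) (j : ℤ) f) =
        al (WO c₀ ρ₀) (xH β (WO c₀ ρ₀) (j : ℤ) u) / al (WO c₀ ρ₀) (xH β (WO c₀ ρ₀) (j : ℤ) v) := by
      rw [eq_div_iff h2, mul_comm]; exact h1
    have h4 := div_mem (hjet j hj u hu) (hjet j hj v hv)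
    rw [← h3] at h4
    exact h4

set_option maxHeartbeats 1000000 in
/-- **the analytic end**: from the second chain to `RunOut` -/
theorem run_end {g : ℂ → ℂ} {c₀ : ℂ} {r : ℝ} {A : Subalgebra ℂ (Hol (bO c₀ r))}
    {G : Hol (bO c₀ r)} (hFT : FT g c₀ r A G) {N : ℕ} (hN : 0 < N) {ρ₀ ρ rg ρt : ℝ}
    {β m k q q' : ℕ → ℂ × ℂ → ℂ}
    (htan : ∀ ρ' : ℝ, 0 < ρ' → ρ' ≤ ρt → ∀ O : Set ℂ, IsOpen O → O.Nonempty →
      ∀ gh : ℂ → ℂ, AnalyticOnNhd ℂ gh O → (∀ y ∈ O, deriv (deriv gh) y ≠ 0) →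
      (∀ y ∈ O, y ∈ closedBall c₀ ρ' → g y ≠ gh y) →
      ∃ y ∈ O, ∀ t ∈ closedBall c₀ ρ', deriv g t = deriv gh y →
        g t + deriv g t * (y - t) ≠ gh y)
    {W' : Opens (ℂ × ℂ)} (S : Setup g c₀ (2 * N) ρ₀ β m k q q' rg ρ (bO c₀ r) W')
    (hρρt : ρ ≤ ρt) (hρrg : ρ ≤ rg) {δ R' : ℝ}
    (hsm : ∀ a ≤ 2 * N, ∀ p ∈ ball c₀ R' ×ˢ ball (0 : ℂ) R',
      Th β a p ∈ ball c₀ (min δ ρ) ×ˢ ball (0 : ℂ) (min δ ρ))
    (hW'1 : (W' : Set (ℂ × ℂ)) ⊆ ball c₀ R' ×ˢ ball (0 : ℂ) R') (hW'2 : ∀ p ∈ W', p.2 ≠ 0)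
    {z₀ G₀ G₁ : A} (hz₀ : (z₀ : Hol (bO c₀ r)) = zH _) (hG₀ : (G₀ : Hol (bO c₀ r)) = G)
    (hG₁ : (G₁ : Hol (bO c₀ r)) = DH _ (G₀ : Hol (bO c₀ r)))
    {θ : ℕ → A →ₐ[ℂ] Hol W'} {m' k' : ℕ → Hol W'}
    (H : Second β m k N A z₀ G₀ G₁ W' θ m' k') {ρ' : ℝ} (hρ' : 0 < ρ') (hρ'ρ : ρ' < ρ) :
    ∃ N', 0 < N' ∧ N' ≤ 2 * N ∧ RunOut g c₀ A G N' ρ β m k δ ρ' := by
  have hdom : IsDomain (Hol W') := by
    have := S.nonempty
    exact Hol.isDomain S.pre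
  have hSec := sec_of S (by omega : N ≤ 2 * N) hG₁ H
  obtain ⟨a, haN, p₀, hp₀, ε, hε, hball, hRan, hγ⟩ := run (chain_mono S.C (by omega : N ≤ 2 * N))
    S.hρ (good_mono S.G (by omega)) hN W'.isOpen S.ne S.pre S.sub hW'2 hSec
  -- a generic point
  set G₂ : A := ⟨DH _ (G₁ : Hol (bO c₀ r)), hFT.stable _ G₁.2⟩ with hG₂
  obtain ⟨v, hv⟩ := H.db a haN
  have hF2 : θ a G₂ ≠ 0 := by
    intro h0
    have h1 : G₂ = 0 := H.inj a haN (h0.trans (map_zero _).symm)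
    obtain ⟨f, -, hf⟩ := hFT.inv₂
    have h2 : (G₂ : Hol (bO c₀ r)) = DH _ (DH _ G) := by
      rw [hG₂]; simp only; rw [hG₁, hG₀]
    rw [← h2, h1] at hf
    have : Nonempty (bO c₀ r) := ⟨⟨c₀, mem_ball_self hFT.r_pos⟩⟩
    simp at hf
  have hF3 : θ a G₁ - m' a ≠ 0 := sub_ne_zero.2 (H.tr a haN)
  set F : Hol W' := pdH W' v (θ a z₀) * (θ a G₂ * (θ a G₁ - m' a)) with hF
  have hFne : F ≠ 0 := mul_ne_zero hv (mul_ne_zero hF2 hF3)
  obtain ⟨p₁, hp₁b, hp₁F⟩ : ∃ p₁ ∈ ball p₀ ε, ext0 (F : W' → ℂ) p₁ ≠ 0 := by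
    by_contra hcon
    push Not at hcon
    refine hFne (Hol.eq_zero_of_eventually S.pre F ⟨p₀, hp₀⟩ ?_)
    filter_upwards [ball_mem_nhds p₀ hε] with p hp using hcon p hp
  set O₁ : Set (ℂ × ℂ) := ball p₀ ε ∩ {p | ext0 (F : W' → ℂ) p ≠ 0} with hO₁
  have hO₁o : IsOpen O₁ := by
    have hc : ContinuousOn (ext0 (F : W' → ℂ)) (ball p₀ ε) := fun p hp =>
      (Hol.an F p (hball hp)).continuousAt.continuousWithinAt
    exact hc.isOpen_inter_preimage isOpen_ball isOpen_ne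
  have hO₁W : O₁ ⊆ W' := fun p hp => hball hp.1
  have hFx : ∀ x (hx : x ∈ O₁), fderiv ℂ (ext0 (θ a z₀ : W' → ℂ)) x v ≠ 0 ∧
      ext0 (θ a G₂ : W' → ℂ) x ≠ 0 ∧
      ext0 (θ a G₁ : W' → ℂ) x ≠ ext0 (m' a : W' → ℂ) x := by
    intro x hx
    have hxW := hO₁W hx
    have h1 : ext0 (F : W' → ℂ) x ≠ 0 := hx.2
    rw [ext0_of_mem _ hxW] at h1
    have h2 : (F : W' → ℂ) ⟨x, hxW⟩ = fderiv ℂ (ext0 (θ a z₀ : W' → ℂ)) x v *
        ((θ a G₂ : W' → ℂ) ⟨x, hxW⟩ * ((θ a G₁ : W' → ℂ) ⟨x, hxW⟩ - (m' a : W' → ℂ) ⟨x, hxW⟩)) :=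
      rfl
    rw [h2] at h1
    refine ⟨left_ne_zero_of_mul h1, ?_, ?_⟩
    · rw [ext0_of_mem _ hxW]
      exact left_ne_zero_of_mul (right_ne_zero_of_mul h1)
    · rw [ext0_of_mem _ hxW, ext0_of_mem _ hxW]
      exact sub_ne_zero.1 (right_ne_zero_of_mul (right_ne_zero_of_mul h1))
  have hγ' : ∀ x ∈ O₁, ext0 (θ a z₀ : W' → ℂ) x ∈ ball c₀ ρ →
      g (ext0 (θ a z₀ : W' → ℂ) x) ≠ ext0 (θ a G₀ : W' → ℂ) x := by
    intro x hx hxb heq
    refine hγ x hx.1 ⟨ball_subset_ball hρrg hxb, ?_⟩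
    simp only [if_true]
    exact heq.symm
  obtain ⟨x₁, hx₁, y, r', ι, gh, hFar, hx₁y, hgh, hdgh, hgen⟩ := local_far hFT htan hρ'
    (hρ'ρ.le.trans hρρt) S.pre (H.inj a haN) hz₀ hG₀ hG₁ (G₂ := G₂) rfl (H.dx a haN) hO₁o hO₁W
    (p₁ := p₁) ⟨hp₁b, hp₁F⟩ (fun h0 => (hFx p₁ ⟨hp₁b, hp₁F⟩).1 (by rw [h0]; rfl))
    (fun x hx => (hFx x hx).2.1)
    (fun x hx hxc => hγ' x hx (closedBall_subset_ball hρ'ρ hxc))
  -- the point in its own chord coordinates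
  have hx₁W : x₁ ∈ W' := hO₁W hx₁
  have ha2 : a ≤ 2 * N := by omega
  have hTmem : ∀ x ∈ W', Th β a x ∈ ball c₀ ρ ×ˢ ball (0 : ℂ) ρ := by
    intro x hx
    have h1 := hsm a ha2 x (hW'1 hx)
    exact ⟨ball_subset_ball (min_le_right _ _) h1.1, ball_subset_ball (min_le_right _ _) h1.2⟩
  obtain ⟨hp'0, -⟩ := shift S.C S.hρ S.G ha2 (S.sub hx₁W) (hW'2 x₁ hx₁W) (hTmem x₁ hx₁W)
  obtain ⟨ψ, hψa, hψp, hψ⟩ := exists_inv S.C S.hρ S.G ha2 (S.sub hx₁W) (hW'2 x₁ hx₁W)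
    (hTmem x₁ hx₁W)
  have hline : ∀ w ∈ W', m 0 (Th β a w) = lm m a w ∧ k 0 (Th β a w) = lm k a w := by
    intro w hw
    obtain ⟨-, hs⟩ := shift S.C S.hρ S.G ha2 (S.sub hw) (hW'2 w hw) (hTmem w hw)
    have e0 := hs 0 (Nat.zero_le _)
    simp only [Nat.cast_zero, zero_sub] at e0
    have e1 := Lz_lm S.C a (S.mem hw)
    exact ⟨e0.2.1.trans e1.1, e0.2.2.trans e1.2⟩
  have hψO : ∀ᶠ x in 𝓝 (Th β a x₁), ψ x ∈ O₁ := by
    refine hψa.continuousAt.eventually (hO₁o.mem_nhds ?_)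
    rw [hψp]; exact hx₁
  refine ⟨N + a, by omega, by omega, Th β a x₁, ?_, hp'0, y, r', ι, gh, hFar,
    fun x => ext0 (θ a z₀ : W' → ℂ) (ψ x), ?_, ?_, ?_, ?_, ?_, hgen, ?_⟩
  · have h1 := hsm a ha2 x₁ (hW'1 hx₁W)
    exact ⟨ball_subset_ball (min_le_left _ _) h1.1, ball_subset_ball (min_le_left _ _) h1.2⟩
  · refine AnalyticAt.fun_comp (g := ext0 (θ a z₀ : W' → ℂ)) (f := ψ) ?_ hψa
    rw [hψp]
    exact Hol.an _ x₁ hx₁W
  · simp only [hψp]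
    exact hx₁y
  · have h1 : ∀ᶠ x in 𝓝 (Th β a x₁), gh (ext0 (θ a z₀ : W' → ℂ) (ψ x)) =
        ext0 (θ a G₀ : W' → ℂ) (ψ x) := by
      have h2 : Tendsto ψ (𝓝 (Th β a x₁)) (𝓝 x₁) := by
        have := hψa.continuousAt.tendsto
        rwa [hψp] at this
      exact h2.eventually hgh
    filter_upwards [h1, hψO, hψ] with x hx1 hx2 hx3
    rw [hx1]
    have hxW := hO₁W hx2
    have h3 := hSec.inc a haN (ψ x) hxW
    simp only [if_true] at h3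
    have h4 : ext0 (m' a : W' → ℂ) (ψ x) = lm m a (ψ x) := (hRan.2 (ψ x) hx2.1).1
    have h5 : ext0 (k' a : W' → ℂ) (ψ x) = lm k a (ψ x) := (hRan.2 (ψ x) hx2.1).2
    rw [h3, h4, h5, ← (hline (ψ x) hxW).1, ← (hline (ψ x) hxW).2, hx3]
  · have h4 : ext0 (m' a : W' → ℂ) x₁ = lm m a x₁ := (hRan.2 x₁ hx₁.1).1
    rw [hdgh, (hline x₁ hx₁W).1, ← h4]
    exact (hFx x₁ hx₁).2.2
  · intro hyb heq
    rw [← hx₁y] at hyb heq
    refine hγ' x₁ hx₁ hyb (heq.trans ?_)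
    exact hgh.self_of_nhds
  · -- the relation
    obtain ⟨Q, hQ, i, hi⟩ := H.rel a haN a haN
    refine ⟨Q, ?_, i, ?_⟩
    · filter_upwards [hψO, hψ] with x hx2 hx3
      have hxW := hO₁W hx2
      have h1 := congrArg (evH ⟨ψ x, hxW⟩) hQ
      rw [map_zero] at h1
      have h2 := Polynomial.hom_eval₂ Q (MvPolynomial.aeval (obsH β m k A N a W') :
        MvPolynomial (Fin 2 ⊕ (Fin (N + a) × A)) ℂ →ₐ[ℂ] Hol W').toRingHom
        (evH (⟨ψ x, hxW⟩ : W')).toRingHom (θ a z₀)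
      have h3 : ((evH (⟨ψ x, hxW⟩ : W')).toRingHom.comp
          (MvPolynomial.aeval (obsH β m k A N a W') :
          MvPolynomial (Fin 2 ⊕ (Fin (N + a) × A)) ℂ →ₐ[ℂ] Hol W').toRingHom) =
          MvPolynomial.eval (obs A (N + a) β m k x) := by
        refine RingHom.ext fun F => ?_
        have h4 := obs_eq S (by omega : N + a ≤ 2 * N) A ⟨ψ x, hxW⟩ (hW'2 _ hxW)
          (hTmem _ hxW) F
        simp only [hx3] at h4
        exact h4
      rw [h3] at h2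
      have h5 : (evH (⟨ψ x, hxW⟩ : W')).toRingHom (θ a z₀) = ext0 (θ a z₀ : W' → ℂ) (ψ x) := by
        rw [ext0_of_mem _ hxW]; rfl
      rw [h5] at h2
      exact h2.symm.trans h1
    · intro hall
      refine hi (Hol.eq_zero_of_eventually S.pre _ ⟨x₁, hx₁W⟩ ?_)
      have h1 : Tendsto (Th β a) (𝓝 x₁) (𝓝 (Th β a x₁)) :=
        (an_Th S.C ha2 (S.mem hx₁W)).continuousAt.tendsto
      filter_upwards [h1.eventually hall, W'.isOpen.mem_nhds hx₁W] with w hw hwW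
      have h4 := obs_eq S (by omega : N + a ≤ 2 * N) A ⟨w, hwW⟩ (hW'2 _ hwW) (hTmem _ hwW)
        (Q.coeff i)
      rw [ext0_of_mem _ hwW]
      exact h4.trans hw

set_option maxHeartbeats 1000000 in
/-- **RUN**, from the existence of the second chain -/
theorem runStmt_of (hS : SecondStmt) : RunStmt := by
  intro g c₀ r A G hFT hGen N ρ₀ β m k q q' e hN hC hSq hIn
  have hanV : AnalyticOnNhd ℂ g (bO c₀ r) := by
    intro z hz
    refine (Hol.an G z hz).congr ?_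
    exact eventually_ext0_eq (F := g) (fun z => (hFT.G_eq z).symm) hz
  have hGe : G = toH (bO c₀ r) g := by
    ext z
    rw [toH_apply hanV]
    exact hFT.G_eq z
  have hg : AnalyticAt ℂ g c₀ := hanV c₀ (mem_ball_self hFT.r_pos)
  have hg2 : deriv (deriv g) c₀ ≠ 0 := by
    intro h0
    refine hC.q_ne 0 (Nat.zero_le _) (c₀, 0) ⟨mem_ball_self hC.ρ_pos, mem_ball_self hC.ρ_pos⟩ ?_
    rw [hC.q_c 0 (Nat.zero_le _) c₀ (mem_ball_self hC.ρ_pos), h0]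
  obtain ⟨rg, hrg, Rg, hRg, hRgle, hGood⟩ := exists_good hg hg2 hC
  obtain ⟨ρt, hρt, htan⟩ := RunTan262.gentan hg hg2
  refine ⟨min Rg (min ρt rg), lt_min hRg (lt_min hρt hrg), (min_le_left _ _).trans hRgle,
    fun ρ hρ hρR => ?_⟩
  have hρRg : ρ ≤ Rg := hρR.trans (min_le_left _ _)
  have hρρt : ρ ≤ ρt := hρR.trans ((min_le_right _ _).trans (min_le_left _ _))
  have hρrg : ρ ≤ rg := hρR.trans ((min_le_right _ _).trans (min_le_right _ _))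
  have hρρ₀ : ρ ≤ ρ₀ := hρRg.trans hRgle
  intro hdom D₁ D₂ hDual hFC halg hb δ hδ ρ' hρ' hρ'ρ
  have hGd : Good g c₀ (2 * N) β m k rg ρ := hGood ρ hρ hρRg
  have hin : ∀ {p : ℂ × ℂ}, p ∈ ball c₀ ρ ×ˢ ball (0 : ℂ) ρ →
      p ∈ ball c₀ ρ₀ ×ˢ ball (0 : ℂ) ρ₀ := fun hp =>
    ⟨ball_subset_ball hρρ₀ hp.1, ball_subset_ball hρρ₀ hp.2⟩
  have S : Setup g c₀ (2 * N) ρ₀ β m k q q' rg ρ (bO c₀ r) (WO c₀ ρ) :=
    ⟨hC, hGd, hρρ₀, hanV, fun j hj p hp => (hIn p (hin hp)).2 j hj,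
      ⟨(c₀, 0), mem_ball_self hρ, mem_ball_self hρ⟩, WO_preconnected c₀ ρ, fun p hp => hp⟩
  -- the elements
  set z₀ : A := ⟨zH _, hFT.z_mem⟩ with hz₀
  set G₀ : A := ⟨G, hFT.G_mem⟩ with hG₀
  set G₁ : A := ⟨DH _ G, hFT.stable _ hFT.G_mem⟩ with hG₁
  -- the open set
  obtain ⟨R', hR', hR'le, hsm⟩ := small hC (δ := min δ ρ) (lt_min hδ hρ)
  let U : Opens (ℂ × ℂ) := ⟨(ball c₀ R' ×ˢ ball (0 : ℂ) R') ∩ {p | p.2 ≠ 0},
    (isOpen_ball.prod isOpen_ball).inter (isOpen_ne_fun continuous_snd continuous_const)⟩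
  have hR'ρ : R' ≤ ρ := hR'le.trans (min_le_right _ _)
  have hUW : U ≤ WO c₀ ρ := fun p hp =>
    ⟨ball_subset_ball hR'ρ hp.1.1, ball_subset_ball hR'ρ hp.1.2⟩
  have hUne : (U : Set (ℂ × ℂ)).Nonempty := by
    refine ⟨(c₀, ((R' / 2 : ℝ) : ℂ)), ⟨mem_ball_self hR', ?_⟩, ?_⟩
    · rw [mem_ball_zero_iff, Complex.norm_real, Real.norm_eq_abs, abs_of_pos (half_pos hR')]
      linarith
    · change ((R' / 2 : ℝ) : ℂ) ≠ 0
      exact_mod_cast (half_pos hR').ne'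
  have hsq : ∀ j : ℕ, j ≤ N → lM (WO c₀ ρ) e j ^ 2 = al (WO c₀ ρ) (mH m (WO c₀ ρ) (j : ℤ)) := by
    intro j hj
    have han : AnalyticOnNhd ℂ (e j) (WO c₀ ρ) := fun p hp => hSq.an j (by omega) p (hin hp)
    have h1 : toH (WO c₀ ρ) (e j) ^ 2 = mH m (WO c₀ ρ) (j : ℤ) := by
      ext p
      rw [S.mH_apply (by omega) (by omega)]
      simp only [SubmonoidClass.coe_pow, Pi.pow_apply]
      rw [toH_apply han]
      exact hSq.sq j (by omega) p (hin p.2)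
    rw [← h1, map_pow]
    rfl
  have hrefl : ∀ j : ℕ, j < N → lM (WO c₀ ρ) e j * lM (WO c₀ ρ) e (j + 1) =
      al (WO c₀ ρ) (xH β (WO c₀ ρ) (j : ℤ) (DH (bO c₀ r) (toH (bO c₀ r) g))) := by
    intro j hj
    have han : ∀ i ≤ 2 * N, AnalyticOnNhd ℂ (e i) (WO c₀ ρ) := fun i hi p hp =>
      hSq.an i hi p (hin hp)
    have h1 : toH (WO c₀ ρ) (e j) * toH (WO c₀ ρ) (e (j + 1)) =
        xH β (WO c₀ ρ) (j : ℤ) (DH (bO c₀ r) (toH (bO c₀ r) g)) := by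
      ext p
      rw [S.xH_apply (by omega) (by omega), S.ext0_dg (S.b_mem (by omega) (by omega) (S.sub p.2))]
      simp only [Subalgebra.coe_mul, Pi.mul_apply]
      rw [toH_apply (han j (by omega)), toH_apply (han (j + 1) (by omega))]
      exact hSq.refl j (by omega) p (hin p.2)
    rw [← h1, map_mul]
    rfl
  obtain ⟨W', θ, m', k', hW'U, hW'ne, hW'pre, hSec⟩ := hS g c₀ (2 * N) ρ₀ β m k q q' rg ρ
    (bO c₀ r) (WO c₀ ρ) S N hN le_rfl A z₀ G₀ G₁ rfl hGe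
    (congrArg (fun f => DH (bO c₀ r) f) hGe) hFT.fg hFT.stable (lM (WO c₀ ρ) e) hsq hrefl D₁ D₂ hDual
    (fun j hj f _ h => x_inj S hFT.r_pos (by omega) f h)
    (fun f hf => halg f (LLA_le S hFT.r_pos (by omega) hGe hGen hf)) hb U hUne hUW
  have S' := S.res (hW'U.trans hUW) hW'ne hW'pre
  exact run_end hFT hN htan S' hρρt hρrg hsm (fun p hp => (hW'U hp).1) (fun p hp => (hW'U hp).2)
    (z₀ := z₀) (G₀ := G₀) (G₁ := G₁) rfl rfl rfl hSec hρ' hρ'ρ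

end Crest.Agent.R102.RunE58
end
end

-- ▼ part R102/Match_337

/-!
Row 102, (RAT), R7, MATCH (literal of helper217 #25885): the chain of the family of lines
`LineFam` (coordinates `(t, w)`, base point `t = 0`) is the chain of F7 (coordinates `(c, ω)` = half
sum, half difference of the isotropic coordinate `Zs q (-1)` of the two vertices of the first line).

* `exists_g` : the mirror as a graph `Zs q 1 = g (Zs q (-1))` near `0`;
* `match_chain` : equality of the two chains;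
* `phi_inv` : `Phi q b` is a local biholomorphism at `(0, 0)`.
-/

set_option autoImplicit false

open Set Filter Topology Metric
open Crest.Agent.R266

noncomputable section

namespace Crest.Agent.R102.Match337

open Crest.Agent.R102.T5 Crest.Agent.R102.G576 Crest.Agent.R102.A929 Crest.Agent.R102.B821
open Crest.Agent.R102.C0

/-! ### the mirror as a graph -/

section curve

variable {q : C(ℂ, ℂ)} {η : ℝ}

lemma zero_mem (hd : Datum q η) : (0 : ℂ) ∈ Str η := by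
  change |(0 : ℂ).im| < η
  simpa using hd.η_pos

lemma Tc_zero : Tc q 0 = 0 := prim_zero _

lemma Zs_zero (s : ℂ) : Zs q s 0 = 0 := prim_zero _

lemma an_Zs (hd : Datum q η) (s : ℂ) {z : ℂ} (hz : z ∈ Str η) : AnalyticAt ℂ (Zs q s) z :=
  (hd.Zs_diff s).analyticAt ((isOpen_Str η).mem_nhds hz)


lemma vel_ne (s z : ℂ) : C0.vel q s z ≠ 0 := Complex.exp_ne_zero _

lemma vel_eq (z : ℂ) :
    C0.vel q 1 z = Complex.exp (2 * Complex.I * Tc q z) * C0.vel q (-1) z := by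
  unfold C0.vel
  rw [← Complex.exp_add]
  congr 1
  ring

lemma local_inv {f : ℂ → ℂ} {c : ℂ} (hf : AnalyticAt ℂ f c) {a : ℂ} (ha : a ≠ 0)
    (hd : HasDerivAt f a c) :
    ∃ ψ : ℂ → ℂ, AnalyticAt ℂ ψ (f c) ∧ ψ (f c) = c ∧ ∀ᶠ z in 𝓝 c, ψ (f z) = z := by
  obtain ⟨e, he1, -, he2, -, he3⟩ := SCV.exists_analytic_openPartialHomeomorph hf
    (ContinuousLinearEquiv.unitsEquivAut ℂ (Units.mk0 a ha)) (hd.hasFDerivAt_equiv ha) univ_mem
  have htar : f c ∈ e.target := by rw [← he2]; exact e.map_source he1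
  refine ⟨e.symm, he3 _ htar, ?_, ?_⟩
  · rw [← he2, e.left_inv he1]
  · filter_upwards [e.open_source.mem_nhds he1] with z hz
    rw [← he2, e.left_inv hz]

/-- slope of the mirror -/
lemma deriv_g (hd : Datum q η) {g : ℂ → ℂ} (hg : AnalyticAt ℂ g 0)
    (hgZ : ∀ᶠ z in 𝓝 (0 : ℂ), g (Zs q (-1) z) = Zs q 1 z) :
    ∀ᶠ z in 𝓝 (0 : ℂ), deriv g (Zs q (-1) z) = Complex.exp (2 * Complex.I * Tc q z) := by
  have h0 : Tendsto (Zs q (-1)) (𝓝 0) (𝓝 0) := by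
    have := (an_Zs hd (-1) (zero_mem hd)).continuousAt.tendsto
    rwa [Zs_zero] at this
  filter_upwards [hgZ.eventually_nhds, h0.eventually hg.eventually_analyticAt,
    (isOpen_Str η).mem_nhds (zero_mem hd)] with z h1 h2 h3
  have e1 : HasDerivAt (fun z => g (Zs q (-1) z)) (deriv g (Zs q (-1) z) * C0.vel q (-1) z) z :=
    h2.differentiableAt.hasDerivAt.comp z (hd.hasDerivAt_Zs (-1) h3)
  have e2 : HasDerivAt (fun z => g (Zs q (-1) z)) (C0.vel q 1 z) z :=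
    (hd.hasDerivAt_Zs 1 h3).congr_of_eventuallyEq h1
  have e3 := e1.unique e2
  rw [vel_eq] at e3
  exact mul_right_cancel₀ (vel_ne _ _) e3

/-- **(M1)** the mirror is a graph near `0` -/
theorem exists_g (hd : Datum q η) : ∃ g : ℂ → ℂ, AnalyticAt ℂ g 0 ∧ deriv g 0 ≠ 0 ∧
    deriv (deriv g) 0 ≠ 0 ∧ ∀ᶠ z in 𝓝 (0 : ℂ), g (Zs q (-1) z) = Zs q 1 z := by
  have h0 := zero_mem hd
  obtain ⟨ψ, h1, h2, h3⟩ := local_inv (an_Zs hd (-1) h0) (vel_ne (-1) 0) (hd.hasDerivAt_Zs (-1) h0)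
  rw [Zs_zero] at h1 h2
  have hg : AnalyticAt ℂ (fun y => Zs q 1 (ψ y)) 0 := by
    refine AnalyticAt.fun_comp (g := Zs q 1) ?_ h1
    rw [h2]; exact an_Zs hd 1 h0
  have hgZ : ∀ᶠ z in 𝓝 (0 : ℂ), (fun y => Zs q 1 (ψ y)) (Zs q (-1) z) = Zs q 1 z := by
    filter_upwards [h3] with z hz
    simp only [hz]
  set g : ℂ → ℂ := fun y => Zs q 1 (ψ y) with hgdef
  have h4 := deriv_g hd hg hgZ
  have h5 : deriv g 0 = 1 := by
    have := h4.self_of_nhds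
    rwa [Zs_zero, Tc_zero, mul_zero, Complex.exp_zero] at this
  refine ⟨g, hg, by rw [h5]; exact one_ne_zero, ?_, hgZ⟩
  intro h6
  have hg' : HasDerivAt (deriv g) (deriv (deriv g) 0) (Zs q (-1) 0) := by
    rw [Zs_zero]; exact hg.deriv.differentiableAt.hasDerivAt
  have e1 : HasDerivAt (fun z => deriv g (Zs q (-1) z)) (deriv (deriv g) 0 * C0.vel q (-1) 0) 0 :=
    hg'.comp (0 : ℂ) (hd.hasDerivAt_Zs (-1) h0)
  have e2 : HasDerivAt (fun z => Complex.exp (2 * Complex.I * Tc q z))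
      (Complex.exp (2 * Complex.I * Tc q 0) * (2 * Complex.I * Complex.exp (q 0))) 0 :=
    ((hd.hasDerivAt_Tc h0).const_mul (2 * Complex.I)).cexp
  have e3 := e1.unique (e2.congr_of_eventuallyEq h4)
  rw [h6, zero_mul] at e3
  have e4 : Complex.exp (2 * Complex.I * Tc q 0) * (2 * Complex.I * Complex.exp (q 0)) ≠ 0 :=
    mul_ne_zero (Complex.exp_ne_zero _) (mul_ne_zero (mul_ne_zero two_ne_zero Complex.I_ne_zero)
      (Complex.exp_ne_zero _))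
  exact e4 e3.symm

end curve

/-! ### the change of coordinates -/

section phi

variable {q : C(ℂ, ℂ)} {η ρ r B : ℝ} {b φ p : ℂ × ℂ → ℂ} {m₀ : ℂ → ℂ}

/-- isotropic coordinate of the vertex with label `b x` -/
def Fv (q : C(ℂ, ℂ)) (b : ℂ × ℂ → ℂ) (x : ℂ × ℂ) : ℂ := Zs q (-1) (b x)

def Bp (q : C(ℂ, ℂ)) (b : ℂ × ℂ → ℂ) (x : ℂ × ℂ) : ℂ := Zs q (-1) (b (x.1 + x.2 / 2, x.2))

def Bm (q : C(ℂ, ℂ)) (b : ℂ × ℂ → ℂ) (x : ℂ × ℂ) : ℂ := Zs q (-1) (b (x.1 - x.2 / 2, x.2))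

def Phi (q : C(ℂ, ℂ)) (b : ℂ × ℂ → ℂ) (x : ℂ × ℂ) : ℂ × ℂ :=
  ((Bp q b x + Bm q b x) / 2, (Bp q b x - Bm q b x) / 2)

lemma isOpen_PD (ρ r : ℝ) : IsOpen (PD ρ r) := by
  have h1 : IsOpen {p : ℂ × ℂ | |p.1.im| < ρ} :=
    isOpen_lt (by fun_prop) continuous_const
  have h2 : IsOpen {p : ℂ × ℂ | ‖p.2‖ < r} := isOpen_lt (by fun_prop) continuous_const
  exact h1.inter h2

variable (hF : LineFam q η ρ r B b φ p m₀)

include hF

lemma zero_PD : ((0, 0) : ℂ × ℂ) ∈ PD ρ r := by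
  refine ⟨?_, ?_⟩
  · simpa using hF.ρ_pos
  · simpa using hF.r_pos

lemma b_zero (t : ℂ) (ht : |t.im| < ρ) : b (t, 0) = t := by
  have h1 := hF.b_near (t, 0) ⟨ht, by simpa using hF.r_pos⟩
  simp only [norm_zero, ne_eq, OfNat.ofNat_ne_zero, not_false_eq_true, zero_pow, mul_zero] at h1
  have h2 := norm_le_zero_iff.1 h1
  exact sub_eq_zero.1 h2

lemma b_zero' : b (0, 0) = 0 := b_zero hF 0 (by simpa using hF.ρ_pos)

lemma an_b {x : ℂ × ℂ} (hx : x ∈ PD ρ r) : AnalyticAt ℂ b x :=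
  SCV.analyticOnNhd_of_differentiableOn (isOpen_PD ρ r) hF.b_diff x hx

lemma hasFDerivAt_b : HasFDerivAt b (ContinuousLinearMap.fst ℂ ℂ ℂ) (0, 0) := by
  have h0 := zero_PD hF
  rw [hasFDerivAt_iff_isLittleO_nhds_zero]
  have h1 : (fun h : ℂ × ℂ => b ((0, 0) + h) - b (0, 0) - (ContinuousLinearMap.fst ℂ ℂ ℂ) h)
      =O[𝓝 0] fun h => ‖h‖ ^ 2 := by
    refine Asymptotics.IsBigO.of_bound |B| ?_
    have h2 : PD ρ r ∈ 𝓝 (0 : ℂ × ℂ) := (isOpen_PD ρ r).mem_nhds h0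
    filter_upwards [h2] with h hh
    have h3 := hF.b_near h hh
    have e1 : ((0, 0) : ℂ × ℂ) + h = h := by
      rw [show ((0, 0) : ℂ × ℂ) = 0 from rfl, zero_add]
    rw [e1, b_zero' hF, sub_zero, ContinuousLinearMap.coe_fst', norm_pow, norm_norm]
    calc ‖b h - h.1‖ ≤ B * ‖h.2‖ ^ 2 := h3
      _ ≤ |B| * ‖h.2‖ ^ 2 := by gcongr; exact le_abs_self B
      _ ≤ |B| * ‖h‖ ^ 2 := by gcongr; exact norm_snd_le h
  refine h1.trans_isLittleO ?_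
  have h4 : (fun h : ℂ × ℂ => ‖h‖ ^ 2) =o[𝓝 0] fun h => h := by
    have := Asymptotics.isLittleO_norm_pow_id (E' := ℂ × ℂ) (n := 2) one_lt_two
    exact this
  exact h4

lemma an_Fv {x : ℂ × ℂ} (hx : x ∈ PD ρ r) (hb : b x ∈ Str η) : AnalyticAt ℂ (Fv q b) x :=
  AnalyticAt.fun_comp (g := Zs q (-1)) (an_Zs hF.dat (-1) hb) (an_b hF hx)

lemma an_Fv0 : AnalyticAt ℂ (Fv q b) (0, 0) :=
  an_Fv hF (zero_PD hF) (by rw [b_zero' hF]; exact zero_mem hF.dat)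

lemma hasFDerivAt_Fv : HasFDerivAt (Fv q b)
    (C0.vel q (-1) 0 • ContinuousLinearMap.fst ℂ ℂ ℂ) (0, 0) := by
  have h1 : HasDerivAt (Zs q (-1)) (C0.vel q (-1) 0) (b (0, 0)) := by
    rw [b_zero' hF]; exact hF.dat.hasDerivAt_Zs (-1) (zero_mem hF.dat)
  exact h1.comp_hasFDerivAt (0, 0) (hasFDerivAt_b hF)

lemma hasStrictFDerivAt_Fv : HasStrictFDerivAt (Fv q b)
    (C0.vel q (-1) 0 • ContinuousLinearMap.fst ℂ ℂ ℂ) (0, 0) := by
  have h1 := (an_Fv0 hF).hasStrictFDerivAt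
  rwa [(hasFDerivAt_Fv hF).fderiv] at h1

lemma Fv_zero : Fv q b (0, 0) = 0 := by
  unfold Fv
  rw [b_zero' hF, Zs_zero]

/-- the shear `(t, w) ↦ (t + a w, w)` -/
def sh (a : ℂ) : ℂ × ℂ →L[ℂ] ℂ × ℂ :=
  (ContinuousLinearMap.fst ℂ ℂ ℂ + a • ContinuousLinearMap.snd ℂ ℂ ℂ).prod
    (ContinuousLinearMap.snd ℂ ℂ ℂ)

omit hF in
@[simp] lemma sh_apply (a : ℂ) (x : ℂ × ℂ) : sh a x = (x.1 + a * x.2, x.2) := rfl

omit hF in
lemma sh_zero (a : ℂ) : sh a (0, 0) = (0, 0) := by simp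

omit hF in
lemma tendsto_sh (a : ℂ) : Tendsto (sh a) (𝓝 (0, 0)) (𝓝 (0, 0)) := by
  have := (sh a).continuous.tendsto (0, 0)
  rwa [sh_zero] at this

omit hF in
lemma Bp_eq : Bp q b = fun x => Fv q b (sh (1 / 2) x) := by
  funext x
  simp only [Bp, Fv, sh_apply]
  congr 3
  ring

omit hF in
lemma Bm_eq : Bm q b = fun x => Fv q b (sh (-1 / 2) x) := by
  funext x
  simp only [Bm, Fv, sh_apply]
  congr 3
  ring

lemma an_sh (a : ℂ) : AnalyticAt ℂ (fun x => Fv q b (sh a x)) (0, 0) := by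
  refine AnalyticAt.fun_comp (g := Fv q b) (f := fun x => sh a x) ?_ ((sh a).analyticAt _)
  rw [sh_zero]; exact an_Fv0 hF

lemma hasFDerivAt_sh (a : ℂ) : HasFDerivAt (fun x => Fv q b (sh a x))
    ((C0.vel q (-1) 0 • ContinuousLinearMap.fst ℂ ℂ ℂ).comp (sh a)) (0, 0) := by
  have h1 : HasFDerivAt (Fv q b) (C0.vel q (-1) 0 • ContinuousLinearMap.fst ℂ ℂ ℂ)
      (sh a (0, 0)) := by rw [sh_zero]; exact hasFDerivAt_Fv hF
  exact h1.comp (0, 0) (sh a).hasFDerivAt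

lemma an_Phi : AnalyticAt ℂ (Phi q b) (0, 0) := by
  have h1 := an_sh hF (1 / 2)
  have h2 := an_sh hF (-1 / 2)
  rw [← Bp_eq] at h1
  rw [← Bm_eq] at h2
  have h3 : AnalyticAt ℂ (fun x => ((Bp q b x + Bm q b x) * (1 / 2 : ℂ),
      (Bp q b x - Bm q b x) * (1 / 2 : ℂ))) (0, 0) :=
    ((h1.add h2).mul analyticAt_const).prod ((h1.sub h2).mul analyticAt_const)
  refine h3.congr (Eventually.of_forall fun x => ?_)
  simp only [Phi]
  ext <;> simp <;> ring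

lemma Phi_zero : Phi q b (0, 0) = (0, 0) := by
  have h1 : Bp q b (0, 0) = 0 := by
    rw [Bp_eq]; simp only [sh_zero]; exact Fv_zero hF
  have h2 : Bm q b (0, 0) = 0 := by
    rw [Bm_eq]; simp only [sh_zero]; exact Fv_zero hF
  simp [Phi, h1, h2]

/-- the derivative of `Phi` at `(0, 0)` -/
def dPhi (a : ℂ) (ha : a ≠ 0) : (ℂ × ℂ) ≃L[ℂ] (ℂ × ℂ) :=
  ContinuousLinearEquiv.equivOfInverse
    ((a • ContinuousLinearMap.fst ℂ ℂ ℂ).prod ((a / 2) • ContinuousLinearMap.snd ℂ ℂ ℂ))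
    ((a⁻¹ • ContinuousLinearMap.fst ℂ ℂ ℂ).prod ((a⁻¹ * 2) • ContinuousLinearMap.snd ℂ ℂ ℂ))
    (by
      rintro ⟨x, y⟩
      ext
      · simp only [ContinuousLinearMap.prod_apply, FunLike.coe_smul, Pi.smul_apply,
          ContinuousLinearMap.coe_fst', smul_eq_mul]
        field_simp
      · simp only [ContinuousLinearMap.prod_apply, FunLike.coe_smul, Pi.smul_apply,
          ContinuousLinearMap.coe_snd', smul_eq_mul]
        field_simp)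
    (by
      rintro ⟨x, y⟩
      ext
      · simp only [ContinuousLinearMap.prod_apply, FunLike.coe_smul, Pi.smul_apply,
          ContinuousLinearMap.coe_fst', smul_eq_mul]
        field_simp
      · simp only [ContinuousLinearMap.prod_apply, FunLike.coe_smul, Pi.smul_apply,
          ContinuousLinearMap.coe_snd', smul_eq_mul]
        field_simp)

lemma hasFDerivAt_Phi :
    HasFDerivAt (Phi q b) (dPhi (C0.vel q (-1) 0) (vel_ne _ _) : (ℂ × ℂ) →L[ℂ] (ℂ × ℂ)) (0, 0) := by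
  have h1 := hasFDerivAt_sh hF (1 / 2)
  have h2 := hasFDerivAt_sh hF (-1 / 2)
  rw [← Bp_eq] at h1
  rw [← Bm_eq] at h2
  have h3 := ((h1.add h2).const_smul (1 / 2 : ℂ)).prodMk ((h1.sub h2).const_smul (1 / 2 : ℂ))
  have e1 : Phi q b = fun x => ((1 / 2 : ℂ) • (Bp q b x + Bm q b x),
      (1 / 2 : ℂ) • (Bp q b x - Bm q b x)) := by
    funext x
    simp only [Phi, smul_eq_mul]
    ext <;> simp <;> ring
  rw [e1]
  refine h3.congr_fderiv ?_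
  ext <;> simp [dPhi] <;> ring

/-- **(M3)** `Phi` is a local biholomorphism at `(0, 0)` -/
theorem phi_inv : ∃ Ψ : ℂ × ℂ → ℂ × ℂ, AnalyticAt ℂ Ψ (0, 0) ∧ Mer88.LBih (Phi q b) Ψ (0, 0) ∧
    Mer88.LBih Ψ (Phi q b) (0, 0) := by
  obtain ⟨e, he1, -, he2, he3, he4⟩ := SCV.exists_analytic_openPartialHomeomorph (an_Phi hF)
    _ (hasFDerivAt_Phi hF) univ_mem
  have h0 : e (0, 0) = (0, 0) := by rw [he2]; exact Phi_zero hF
  have htar : ((0, 0) : ℂ × ℂ) ∈ e.target := by rw [← h0]; exact e.map_source he1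
  have hs0 : e.symm (0, 0) = (0, 0) := by
    have := e.left_inv he1
    rwa [h0] at this
  have han : AnalyticAt ℂ e.symm (0, 0) := he4 _ htar
  refine ⟨e.symm, han, ⟨an_Phi hF, ?_, ?_, ?_⟩, ⟨han, ?_, ?_, ?_⟩⟩
  · rw [Phi_zero hF]; exact han.continuousAt
  · rw [Phi_zero hF, hs0]
  · rw [Phi_zero hF]
    filter_upwards [e.open_target.mem_nhds htar] with y hy
    rw [← he2, e.right_inv hy]
  · rw [hs0]; exact (an_Phi hF).continuousAt
  · rw [hs0, Phi_zero hF]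
  · rw [hs0]
    filter_upwards [e.open_source.mem_nhds he1] with y hy
    rw [← he2, e.left_inv hy]

/-- consecutive vertices are different -/
lemma Fv_ne (a : ℂ) : ∀ᶠ x in 𝓝 ((0, 0) : ℂ × ℂ), x.2 ≠ 0 →
    Fv q b (sh (a + 1) x) ≠ Fv q b (sh a x) := by
  have h1 := (hasStrictFDerivAt_Fv hF).isLittleO
  have h2 : Tendsto (fun x : ℂ × ℂ => (sh (a + 1) x, sh a x)) (𝓝 (0, 0))
      (𝓝 (((0, 0) : ℂ × ℂ), ((0, 0) : ℂ × ℂ))) := by
    exact (tendsto_sh (a + 1)).prodMk_nhds (tendsto_sh a)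
  set A : ℂ := C0.vel q (-1) 0 with hA
  have hA0 : A ≠ 0 := vel_ne _ _
  have h3 := (h1.comp_tendsto h2).def (c := ‖A‖ / 2) (by positivity)
  filter_upwards [h3] with x hx hx2 he
  simp only [Function.comp_apply] at hx
  have e1 : sh (a + 1) x - sh a x = (x.2, 0) := by
    simp only [sh_apply]
    ext <;> simp <;> ring
  rw [e1, he, sub_self, zero_sub, norm_neg] at hx
  have e2 : ‖((x.2, 0) : ℂ × ℂ)‖ = ‖x.2‖ := by simp [Prod.norm_def]
  rw [e2] at hx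
  have e3 : ‖(A • ContinuousLinearMap.fst ℂ ℂ ℂ) ((x.2, 0) : ℂ × ℂ)‖ = ‖A‖ * ‖x.2‖ := by
    simp
  rw [e3] at hx
  have h4 : 0 < ‖x.2‖ := norm_pos_iff.2 hx2
  have h5 : 0 < ‖A‖ := norm_pos_iff.2 hA0
  nlinarith [mul_pos h4 h5]

lemma tendsto_Fv : Tendsto (Fv q b) (𝓝 (0, 0)) (𝓝 0) := by
  have := (an_Fv0 hF).continuousAt.tendsto
  rwa [Fv_zero hF] at this

lemma tendsto_b : Tendsto b (𝓝 (0, 0)) (𝓝 0) := by
  have := (an_b hF (zero_PD hF)).continuousAt.tendsto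
  rwa [b_zero' hF] at this

lemma tendsto_Phi : Tendsto (Phi q b) (𝓝 (0, 0)) (𝓝 (0, 0)) := by
  have := (an_Phi hF).continuousAt.tendsto
  rwa [Phi_zero hF] at this

end phi

/-! ### the two chains -/

section chain

variable {q : C(ℂ, ℂ)} {η ρ r B : ℝ} {b φ p : ℂ × ℂ → ℂ} {m₀ : ℂ → ℂ}

/-- isotropic slope and height of the line `(φ, p)` -/
def Ml (φ : ℂ) : ℂ := Complex.exp (2 * Complex.I * φ)

def Kl (φ p : ℂ) : ℂ := 2 * Complex.I * p * Complex.exp (Complex.I * φ)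

lemma onLine_eq {φ p Z Zc : ℂ} (h : OnLine φ p Z Zc) : Z = Ml φ * Zc + Kl φ p := by
  unfold OnLine at h
  unfold Ml Kl
  have h1 : Complex.exp (2 * Complex.I * φ) = Complex.exp (Complex.I * φ) *
      Complex.exp (Complex.I * φ) := by
    rw [← Complex.exp_add]; congr 1; ring
  have h2 : Complex.exp (Complex.I * φ) * Complex.exp (-(Complex.I * φ)) = 1 := by
    rw [← Complex.exp_add, add_neg_cancel, Complex.exp_zero]
  rw [h1]
  linear_combination Complex.exp (Complex.I * φ) * h - Z * h2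

lemma Ml_ne (φ : ℂ) : Ml φ ≠ 0 := Complex.exp_ne_zero _

/-- everything about one vertex `b (sh a x)` -/
structure VOk (q : C(ℂ, ℂ)) (ρ r : ℝ) (b : ℂ × ℂ → ℂ) (g : ℂ → ℂ) (r₂ : ℝ) (a : ℂ) (x : ℂ × ℂ) :
    Prop where
  mem : sh a x ∈ PD ρ r
  gv : g (Fv q b (sh a x)) = Zs q 1 (b (sh a x))
  dg : deriv g (Fv q b (sh a x)) = Complex.exp (2 * Complex.I * Tc q (b (sh a x)))
  near : Fv q b (sh a x) ∈ ball (0 : ℂ) r₂

lemma vOk (hF : LineFam q η ρ r B b φ p m₀) {g : ℂ → ℂ} (hg : AnalyticAt ℂ g 0)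
    (hgZ : ∀ᶠ z in 𝓝 (0 : ℂ), g (Zs q (-1) z) = Zs q 1 z) {r₂ : ℝ} (hr₂ : 0 < r₂) (a : ℂ) :
    ∀ᶠ x in 𝓝 ((0, 0) : ℂ × ℂ), VOk q ρ r b g r₂ a x := by
  have h1 := tendsto_sh a
  have h2 := (tendsto_b hF).comp h1
  have h3 := (tendsto_Fv hF).comp h1
  filter_upwards [h1.eventually ((isOpen_PD ρ r).mem_nhds (zero_PD hF)), h2.eventually hgZ,
    h2.eventually (deriv_g hF.dat hg hgZ), h3.eventually (ball_mem_nhds (0 : ℂ) hr₂)] with x e1 e2
      e3 e4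
  exact ⟨e1, e2, e3, e4⟩

/-- the line `j` passes through the vertex `j` -/
lemma line_inc (hF : LineFam q η ρ r B b φ p m₀) {g : ℂ → ℂ} {r₂ : ℝ} {a : ℂ} {x : ℂ × ℂ}
    (h0 : sh a x ∈ PD ρ r) (h1 : VOk q ρ r b g r₂ (a + 1 / 2) x) :
    g (Fv q b (sh (a + 1 / 2) x)) = Ml (φ (sh a x)) * Fv q b (sh (a + 1 / 2) x) +
      Kl (φ (sh a x)) (p (sh a x)) := by
  have e1 : sh (a + 1 / 2) x = ((sh a x).1 + (sh a x).2 / 2, (sh a x).2) := by
    simp only [sh_apply]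
    congr 1
    ring
  rw [h1.gv]
  refine onLine_eq ?_
  have h2 := h1.mem
  unfold Fv
  rw [e1] at h2 ⊢
  exact hF.inc (sh a x).1 (sh a x).2 h0 h2

/-- the line `j` passes through the vertex `j - 1` -/
lemma line_inc' (hF : LineFam q η ρ r B b φ p m₀) {g : ℂ → ℂ} {r₂ : ℝ} {a : ℂ} {x : ℂ × ℂ}
    (h0 : sh a x ∈ PD ρ r) (h1 : VOk q ρ r b g r₂ (a - 1 / 2) x) :
    g (Fv q b (sh (a - 1 / 2) x)) = Ml (φ (sh a x)) * Fv q b (sh (a - 1 / 2) x) +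
      Kl (φ (sh a x)) (p (sh a x)) := by
  have e1 : sh (a - 1 / 2) x = ((sh a x).1 - (sh a x).2 / 2, (sh a x).2) := by
    simp only [sh_apply]
    congr 1
    ring
  rw [h1.gv]
  refine onLine_eq ?_
  have h2 := h1.mem
  unfold Fv
  rw [e1] at h2 ⊢
  exact hF.inc' (sh a x).1 (sh a x).2 h0 h2

/-- law of reflection -/
lemma line_refl (hF : LineFam q η ρ r B b φ p m₀) {g : ℂ → ℂ} {r₂ : ℝ} {a : ℂ} {x : ℂ × ℂ}
    (h0 : sh a x ∈ PD ρ r) (h0' : sh (a + 1) x ∈ PD ρ r) (h1 : VOk q ρ r b g r₂ (a + 1 / 2) x) :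
    Ml (φ (sh (a + 1) x)) * Ml (φ (sh a x)) = deriv g (Fv q b (sh (a + 1 / 2) x)) ^ 2 := by
  have e1 : sh a x = ((sh (a + 1 / 2) x).1 - (sh (a + 1 / 2) x).2 / 2, (sh (a + 1 / 2) x).2) := by
    simp only [sh_apply]
    congr 1
    ring
  have e2 : sh (a + 1) x =
      ((sh (a + 1 / 2) x).1 + (sh (a + 1 / 2) x).2 / 2, (sh (a + 1 / 2) x).2) := by
    simp only [sh_apply]
    congr 1
    ring
  have h2 := hF.refl (sh (a + 1 / 2) x).1 (sh (a + 1 / 2) x).2 h1.mem (by rw [← e1]; exact h0)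
    (by rw [← e2]; exact h0')
  rw [← e1, ← e2] at h2
  rw [h1.dg, ← Complex.exp_nat_mul]
  unfold Ml
  rw [← Complex.exp_add]
  congr 1
  have e3 : b ((sh (a + 1 / 2) x).1, (sh (a + 1 / 2) x).2) = b (sh (a + 1 / 2) x) := rfl
  rw [e3] at h2
  push_cast
  linear_combination 2 * Complex.I * h2

/-- **(M2)** the two chains coincide -/
theorem match_chain (hF : LineFam q η ρ r B b φ p m₀) {g : ℂ → ℂ} (hg : AnalyticAt ℂ g 0)
    (hg2 : deriv (deriv g) 0 ≠ 0) (hgZ : ∀ᶠ z in 𝓝 (0 : ℂ), g (Zs q (-1) z) = Zs q 1 z)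
    {N : ℕ} {ρ' : ℝ} {β m k q₁ q₁' : ℕ → ℂ × ℂ → ℂ}
    (hC : F7389.Chain g 0 N ρ' β m k q₁ q₁') :
    ∀ᶠ x in 𝓝 ((0, 0) : ℂ × ℂ), x.2 ≠ 0 →
      Phi q b x ∈ ball (0 : ℂ) ρ' ×ˢ ball (0 : ℂ) ρ' ∧ (Phi q b x).2 ≠ 0 ∧ ∀ j : ℕ, j ≤ N →
        m j (Phi q b x) = Complex.exp (2 * Complex.I * φ (x.1 + j * x.2, x.2)) ∧
        k j (Phi q b x) = 2 * Complex.I * p (x.1 + j * x.2, x.2) *
          Complex.exp (Complex.I * φ (x.1 + j * x.2, x.2)) ∧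
        (Phi q b x).1 + (Phi q b x).2 * β j (Phi q b x) =
          Zs q (-1) (b (x.1 + (j + 1 / 2) * x.2, x.2)) := by
  obtain ⟨r₂, hr₂, -, h2p⟩ := Run58.twopt hg hg2
  have hρ' := hC.ρ_pos
  have hU : ball (0 : ℂ) ρ' ×ˢ ball (0 : ℂ) ρ' ∈ 𝓝 ((0, 0) : ℂ × ℂ) :=
    (isOpen_ball.prod isOpen_ball).mem_nhds ⟨mem_ball_self hρ', mem_ball_self hρ'⟩
  have h0U : ((0, 0) : ℂ × ℂ) ∈ ball (0 : ℂ) ρ' ×ˢ ball (0 : ℂ) ρ' :=
    ⟨mem_ball_self hρ', mem_ball_self hρ'⟩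
  -- vertices of the chain
  have hv : ∀ j ∈ Finset.range (N + 1), ∀ᶠ x in 𝓝 ((0, 0) : ℂ × ℂ),
      (Phi q b x).1 + (Phi q b x).2 * β j (Phi q b x) ∈ ball (0 : ℂ) r₂ := by
    intro j hj
    have hj' : j ≤ N := by simpa [Nat.lt_succ_iff] using hj
    have h1 : ContinuousAt (fun P : ℂ × ℂ => P.1 + P.2 * β j P) (0, 0) :=
      continuousAt_fst.add (continuousAt_snd.mul (hC.an_β j hj' _ h0U).continuousAt)
    have h2 := h1.tendsto.comp (tendsto_Phi hF)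
    refine h2.eventually (isOpen_ball.mem_nhds ?_)
    simpa using hr₂
  have hb : ∀ j ∈ Finset.range N, ∀ᶠ x in 𝓝 ((0, 0) : ℂ × ℂ),
      β (j + 1) (Phi q b x) ≠ β j (Phi q b x) := by
    intro j hj
    have hj' : j + 1 ≤ N := by simpa [Nat.succ_le_iff] using hj
    have h1 : ContinuousAt (fun P : ℂ × ℂ => β (j + 1) P - β j P) (0, 0) :=
      (hC.an_β (j + 1) hj' _ h0U).continuousAt.sub (hC.an_β j (by omega) _ h0U).continuousAt
    have h3 : β (j + 1) (0, 0) - β j (0, 0) ≠ 0 := by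
      rw [hC.β_c (j + 1) hj' 0 (mem_ball_self hρ'), hC.β_c j (by omega) 0 (mem_ball_self hρ')]
      push_cast
      ring_nf
      norm_num
    have h4 := (h1.tendsto.comp (tendsto_Phi hF)).eventually_ne h3
    filter_upwards [h4] with x hx he
    exact hx (by simp [he])
  have hvert : ∀ j ∈ Finset.range (N + 1), ∀ᶠ x in 𝓝 ((0, 0) : ℂ × ℂ),
      VOk q ρ r b g r₂ ((j : ℂ) + 1 / 2) x := fun j _ => vOk hF hg hgZ hr₂ _
  have hsh : ∀ j ∈ Finset.range (N + 1), ∀ᶠ x in 𝓝 ((0, 0) : ℂ × ℂ), sh (j : ℂ) x ∈ PD ρ r :=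
    fun j _ => (tendsto_sh (j : ℂ)).eventually ((isOpen_PD ρ r).mem_nhds (zero_PD hF))
  have hne : ∀ j ∈ Finset.range (N + 1), ∀ᶠ x in 𝓝 ((0, 0) : ℂ × ℂ), x.2 ≠ 0 →
      Fv q b (sh ((j : ℂ) + 1 / 2 + 1) x) ≠ Fv q b (sh ((j : ℂ) + 1 / 2) x) :=
    fun j _ => Fv_ne hF _
  filter_upwards [(Filter.eventually_all_finset _).2 hv, (Filter.eventually_all_finset _).2 hb,
    (Filter.eventually_all_finset _).2 hvert, (Filter.eventually_all_finset _).2 hsh,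
    (Filter.eventually_all_finset _).2 hne, (tendsto_Phi hF).eventually hU,
    vOk hF hg hgZ hr₂ (0 - 1 / 2), Fv_ne hF (0 - 1 / 2)] with x a1 a2 a3 a4 a5 a6 a7 a8 hx2
  have eBp : Bp q b x = Fv q b (sh (0 + 1 / 2) x) := by
    rw [Bp_eq, zero_add]
  have eBm : Bm q b x = Fv q b (sh (0 - 1 / 2) x) := by
    rw [Bm_eq]
    norm_num
  set P : ℂ × ℂ := Phi q b x with hP
  have hP1 : P.1 + P.2 = Fv q b (sh (0 + 1 / 2) x) := by
    rw [← eBp, hP]; simp only [Phi]; ring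
  have hP2 : P.1 - P.2 = Fv q b (sh (0 - 1 / 2) x) := by
    rw [← eBm, hP]; simp only [Phi]; ring
  have hPne : P.2 ≠ 0 := by
    intro h0
    have h1 := a8 hx2
    rw [show (0 - 1 / 2 + 1 : ℂ) = 0 + 1 / 2 by norm_num, ← hP1, ← hP2, h0] at h1
    exact h1 (by ring)
  refine ⟨a6, hPne, ?_⟩
  -- the induction
  have key : ∀ j : ℕ, j ≤ N → m j P = Ml (φ (sh (j : ℂ) x)) ∧
      k j P = Kl (φ (sh (j : ℂ) x)) (p (sh (j : ℂ) x)) ∧
      P.1 + P.2 * β j P = Fv q b (sh ((j : ℂ) + 1 / 2) x) := by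
    intro j
    induction j with
    | zero =>
      intro _
      have hz : sh (0 : ℂ) x ∈ PD ρ r := by
        have := a4 0 (by simp)
        simpa using this
      have hv0 : VOk q ρ r b g r₂ (0 + 1 / 2) x := by
        have := a3 0 (by simp)
        simpa using this
      have c1 := line_inc hF hz hv0
      have c2 := line_inc' hF hz a7
      rw [← hP1] at c1
      rw [← hP2] at c2
      have c3 := hC.inc 0 (Nat.zero_le _) P a6
      have c4 := hC.chord P a6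
      rw [hC.β_zero, mul_one] at c3
      have c5 : (m 0 P - Ml (φ (sh (0 : ℂ) x))) * (2 * P.2) = 0 := by
        linear_combination c1 - c2 - c3 + c4
      have c6 : m 0 P = Ml (φ (sh (0 : ℂ) x)) := by
        rcases mul_eq_zero.1 c5 with h | h
        · exact sub_eq_zero.1 h
        · exact absurd h (mul_ne_zero two_ne_zero hPne)
      have c7 : k 0 P = Kl (φ (sh (0 : ℂ) x)) (p (sh (0 : ℂ) x)) := by
        rw [c6] at c3
        linear_combination c1 - c3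
      refine ⟨by simpa using c6, by simpa using c7, ?_⟩
      rw [hC.β_zero, mul_one, hP1]
      simp
    | succ j ih =>
      intro hj
      have hj1 : j ≤ N := by omega
      obtain ⟨i1, i2, i3⟩ := ih hj1
      have hc : ((j + 1 : ℕ) : ℂ) = (j : ℂ) + 1 := by push_cast; ring
      have s0 : sh (j : ℂ) x ∈ PD ρ r := a4 j (by simp; omega)
      have s1 : sh ((j : ℂ) + 1) x ∈ PD ρ r := by
        rw [← hc]; exact a4 (j + 1) (by simp; omega)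
      have v0 : VOk q ρ r b g r₂ ((j : ℂ) + 1 / 2) x := a3 j (by simp; omega)
      have v1 : VOk q ρ r b g r₂ (((j : ℂ) + 1) + 1 / 2) x := by
        rw [← hc]; exact a3 (j + 1) (by simp; omega)
      have d1 := line_refl hF s0 s1 v0
      have d2 := hC.refl j (by omega) P a6
      rw [i3, i1, ← d1] at d2
      have d3 : m (j + 1) P = Ml (φ (sh ((j : ℂ) + 1) x)) :=
        mul_right_cancel₀ (Ml_ne _) d2
      have v0' : VOk q ρ r b g r₂ (((j : ℂ) + 1) - 1 / 2) x := by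
        have : ((j : ℂ) + 1) - 1 / 2 = (j : ℂ) + 1 / 2 := by ring
        rw [this]; exact v0
      have d4 := line_inc' hF s1 v0'
      have e5 : ((j : ℂ) + 1) - 1 / 2 = (j : ℂ) + 1 / 2 := by ring
      rw [e5] at d4
      have d5 := hC.inc' j (by omega) P a6
      rw [i3, d3] at d5
      have d6 : k (j + 1) P = Kl (φ (sh ((j : ℂ) + 1) x)) (p (sh ((j : ℂ) + 1) x)) := by
        linear_combination d4 - d5
      refine ⟨by rw [hc]; exact d3, by rw [hc]; exact d6, ?_⟩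
      -- the next vertex
      have d7 := line_inc hF s1 v1
      have d8 := hC.inc (j + 1) hj P a6
      rw [d3, d6] at d8
      have hne1 : Fv q b (sh (((j : ℂ) + 1) + 1 / 2) x) ≠ Fv q b (sh ((j : ℂ) + 1 / 2) x) := by
        have := a5 j (by simp; omega) hx2
        rwa [show (j : ℂ) + 1 / 2 + 1 = ((j : ℂ) + 1) + 1 / 2 by ring] at this
      have hne2 : P.1 + P.2 * β (j + 1) P ≠ Fv q b (sh ((j : ℂ) + 1 / 2) x) := by
        rw [← i3]
        intro h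
        have h9 : P.2 * (β (j + 1) P - β j P) = 0 := by linear_combination h
        rcases mul_eq_zero.1 h9 with h | h
        · exact hPne h
        · exact a2 j (by simp; omega) (sub_eq_zero.1 h)
      rw [hc]
      rcases h2p _ v0.near _ v1.near _ (a1 (j + 1) (by simp; omega)) _ _ hne1.symm d4 d7 d8 with
        h | h
      · exact absurd h hne2
      · exact h
  intro j hj
  obtain ⟨k1, k2, k3⟩ := key j hj
  exact ⟨k1, k2, k3⟩

end chain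

end Crest.Agent.R102.Match337
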