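import Crest.Agent.R102.DEIter_722
import Crest.Agent.R102.Step5Defs_613

/-!
Row 102, T1-B, EDGE (helper619): the two-sided bounds (1), (2) of #28986 for the incoming line
`(φ, p)` at one window, from the one-sided (D side) bounds at all larger windows over the same
centre. Uniform constants. On top of 722's one-step disc `de_step`.

* `Side` : the D side bounds (`lam s' = log |R_0|` at `ray e s'`);
* `n12`  : `‖φ - Re φ(z_s)‖ ≤ C (1 + |lam s|)`, `‖p e^{iσφ}‖ ≤ C`, `σ Im φ ≥ -C` on the window.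
-/

set_option autoImplicit false

open Set Filter Topology Metric Complex

noncomputable section

namespace Crest.Agent.R102.N12

open Crest.Agent.R102.S5
open Crest.Agent.R102.DE722 (lv gn wc lv_ge lv_le gn_pos gn_le gn_le_lv wc_pos wc_le wc_ge
  depth_ge lv_succ lv_zero)

/-- window at `e`, scale `s`: level gap `c`, lower bound `c₂` for the height of `q.2` -/
def KW (e : ℝ × ℝ) (σ A c c₂ s : ℝ) : Set (ℂ × ℂ) :=
  {q | ‖q.1 - (e.1 : ℂ)‖ ≤ A * s ∧ ‖q.2 - (e.2 : ℂ)‖ ≤ A * s ∧ c₂ * s ≤ q.2.im ∧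
    q.1.im ≤ (σ - c) * q.2.im}

/-- deep points at `e`, scale `s`: relative depth `d` -/
def DW (e : ℝ × ℝ) (A d s : ℝ) : Set (ℂ × ℂ) :=
  {q | ‖q.1 - (e.1 : ℂ)‖ ≤ A * s ∧ ‖q.2 - (e.2 : ℂ)‖ ≤ A * s ∧ d * s ≤ -q.1.im ∧
    d * s ≤ q.2.im}

lemma DW_mono {e : ℝ × ℝ} {A d d' s : ℝ} (hs : 0 ≤ s) (h : d ≤ d') : DW e A d' s ⊆ DW e A d s := by
  rintro q ⟨h1, h2, h3, h4⟩
  have := mul_le_mul_of_nonneg_right h hs
  exact ⟨h1, h2, by linarith, by linarith⟩

lemma KW_mono {e : ℝ × ℝ} {σ A c c' d d' s : ℝ} (hs : 0 ≤ s) (hd : 0 ≤ d') (h : d ≤ d')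
    (hc : c ≤ c') : KW e σ A c' d' s ⊆ KW e σ A c d s := by
  rintro q ⟨h1, h2, h3, h4⟩
  have h5 := mul_le_mul_of_nonneg_right h hs
  have h6 : 0 ≤ q.2.im := (mul_nonneg hd hs).trans h3
  have h7 : (σ - c') * q.2.im ≤ (σ - c) * q.2.im := mul_le_mul_of_nonneg_right (by linarith) h6
  exact ⟨h1, h2, by linarith, by linarith⟩

lemma Half_mono {e : ℝ × ℝ} {η η' m : ℝ} (h : η ≤ η') : Half e η m ⊆ Half e η' m := by
  rintro q ⟨h1, h2, h3, h4, h5⟩
  exact ⟨by linarith, by linarith, by linarith, h4, h5⟩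

/-- one step, `θ = 1/2`, centre `e` -/
theorem step {σ A : ℝ} (hσ : 0 ≤ σ) (hA : 1 ≤ A) :
    ∃ R : ℝ, 2 ≤ R ∧ ∃ a : ℝ, 0 < a ∧ a ≤ 1 ∧ ∀ c δ c₂ s : ℝ, 0 < δ → δ ≤ 1 → δ ≤ c → c ≤ σ →
      0 < c₂ → c₂ ≤ 1 → 0 < s → ∀ (e : ℝ × ℝ) (f : ℂ × ℂ → ℂ),
      DifferentiableOn ℂ f (Half e (A * (R * s)) σ) →
      ∀ MD MK : ℝ, 0 ≤ MD → 0 ≤ MK →
      (∀ q ∈ DW e A (a * δ * c₂) (R * s), ‖f q‖ ≤ Real.exp MD) →
      (∀ q ∈ KW e σ A (c - δ) (a * δ) (R * s), ‖f q‖ ≤ Real.exp MK) →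
      ∀ q ∈ KW e σ A c c₂ s, ‖f q‖ ≤ Real.exp (MD + MK / 2) := by
  obtain ⟨R, hR, a, ha, ha1, key⟩ :=
    DE722.de_step (E := ℂ) (θ := 1 / 2) hσ hA (by norm_num) (by norm_num)
  refine ⟨R, hR, a, ha, ha1, ?_⟩
  intro c δ c₂ s hδ hδ1 hδc hcσ hc₂ hc₂1 hs e f hf MD MK hMD hMK hD hK q hq
  have h := key c δ c₂ s hδ hδ1 hδc hcσ hc₂ hc₂1 hs
    (fun p => f (p.1 + (e.1 : ℂ), p.2 + (e.2 : ℂ))) ?_ MD MK ?_ ?_
    (q.1 - (e.1 : ℂ), q.2 - (e.2 : ℂ)) ?_
  · simp only [sub_add_cancel] at h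
    refine h.trans (Real.exp_le_exp.2 ?_)
    have : max MD MK ≤ MD + MK := max_le (by linarith) (by linarith)
    nlinarith
  · refine hf.comp (by fun_prop) ?_
    rintro p ⟨h1, h2, h3, h4⟩
    have h1' := (Complex.abs_re_le_norm p.1).trans_lt h1
    have h1'' := (Complex.abs_im_le_norm p.1).trans_lt h1
    refine ⟨?_, ?_, ?_, ?_, ?_⟩
    · simpa using h1'
    · simpa using (abs_lt.1 h1'').1
    · simpa using h2
    · simpa using h3
    · simpa using h4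
  · rintro p ⟨h1, h2, h3, h4⟩
    exact hD _ ⟨by simpa using h1, by simpa using h2, by simpa using h3, by simpa using h4⟩
  · rintro p ⟨h1, h2, h3, h4⟩
    exact hK _ ⟨by simpa using h1, by simpa using h2, by simpa using h3, by simpa using h4⟩
  · obtain ⟨h1, h2, h3, h4⟩ := hq
    exact ⟨h1, h2, by simpa using h3, by simpa using h4⟩

/-- the chain property with the constants `R`, `a` -/
def ChainP (σ A R a : ℝ) : Prop :=
    ∀ c c₂ s : ℝ, 0 < c → c ≤ 1 → c ≤ σ →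
      0 < c₂ → c₂ ≤ 1 → 0 < s → ∀ (e : ℝ × ℝ) (N m : ℕ) (F : ℕ → ℂ × ℂ → ℂ) (b w Y : ℕ → ℝ),
      m ≤ N → (∀ k, m ≤ k → k ≤ N → 0 ≤ b k) → (∀ k, m ≤ k → k ≤ N → 0 ≤ w k) →
      (∀ k, m ≤ k → k ≤ N + 1 → 0 ≤ Y k) →
      (∀ k, m ≤ k → k ≤ N → b k + w k + Y (k + 1) / 2 ≤ Y k) →
      (∀ k, m ≤ k → k ≤ N → DifferentiableOn ℂ (F k) (Half e (A * (R ^ (k + 1) * s)) σ)) →
      (∀ k, m ≤ k → k ≤ N → ∀ q ∈ DW e A (a ^ 2 / 4 * c₂ * c ^ 2 / (k + 2) ^ 4) (R ^ (k + 1) * s),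
        ‖F k q‖ ≤ Real.exp (b k)) →
      (∀ k, m ≤ k → k < N → ∀ q ∈ KW e σ A (lv c (k + 1)) (wc a c c₂ (k + 1)) (R ^ (k + 1) * s),
        ‖F k q‖ ≤ ‖F (k + 1) q‖ * Real.exp (w k)) →
      (∀ q ∈ KW e σ A (c / 4) (a * (c / 4)) (R ^ (N + 1) * s),
        ‖F N q‖ ≤ Real.exp (Y (N + 1))) →
      ∀ q ∈ KW e σ A (lv c m) (wc a c c₂ m) (R ^ m * s), ‖F m q‖ ≤ Real.exp (Y m)

/-- **the chain of windows**, with a change of the function from scale to scale, in supersolution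
form -/
theorem chain {σ A : ℝ} (hσ : 0 ≤ σ) (hA : 1 ≤ A) :
    ∃ R : ℝ, 2 ≤ R ∧ ∃ a : ℝ, 0 < a ∧ a ≤ 1 ∧ ChainP σ A R a := by
  obtain ⟨R, hR, a, ha, ha1, key⟩ := step hσ hA
  refine ⟨R, hR, a, ha, ha1, ?_⟩
  intro c c₂ s hc hc1 hcσ hc₂ hc₂1 hs e N m F b w Y hmN hb hw hY hsup hF hside hsw htop
  have hRp : ∀ j : ℕ, 0 < R ^ j := fun j => by positivity
  have claim : ∀ n j : ℕ, j + n = N → m ≤ j → ∀ q ∈ KW e σ A (lv c j) (wc a c c₂ j) (R ^ j * s),
      ‖F j q‖ ≤ Real.exp (Y j) := by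
    intro n
    induction n with
    | zero =>
      intro j hj hmj q hq
      obtain rfl : j = N := by simpa using hj
      have eR : R * (R ^ j * s) = R ^ (j + 1) * s := by ring
      have hg4 : gn c j ≤ c / 4 := by
        unfold gn
        have h0 : (0 : ℝ) ≤ j := Nat.cast_nonneg j
        exact div_le_div_of_nonneg_left hc.le (by norm_num) (by nlinarith)
      have hlv := lv_ge hc j
      have h1 := key (lv c j) (c / 4) (wc a c c₂ j) (R ^ j * s) (by positivity) (by linarith)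
        (by linarith) ((lv_le hc j).trans hcσ) (wc_pos ha hc hc₂ j) (wc_le ha ha1 hc hc1 hc₂1 j)
        (mul_pos (hRp j) hs) e (F j)
      rw [eR] at h1
      have h2 := h1 (hF j hmj le_rfl) (b j) (Y (j + 1)) (hb j hmj le_rfl)
        (hY (j + 1) (by omega) le_rfl) ?_ ?_ q hq
      · refine h2.trans (Real.exp_le_exp.2 ?_)
        have h3 := hsup j hmj le_rfl
        have h4 := hw j hmj le_rfl
        linarith
      · intro q' hq'
        refine hside j hmj le_rfl q' (DW_mono (mul_pos (hRp _) hs).le ?_ hq')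
        refine (depth_ge ha ha1 hc hc1 hc₂ hc₂1 j).trans ?_
        exact mul_le_mul_of_nonneg_right (mul_le_mul_of_nonneg_left hg4 ha.le)
          (wc_pos ha hc hc₂ j).le
      · intro q' hq'
        exact htop q' (KW_mono (mul_pos (hRp _) hs).le (by positivity) le_rfl (by linarith) hq')
    | succ n ih =>
      intro j hj hmj q hq
      have hjN : j < N := by omega
      have h1 := key (lv c j) (gn c j) (wc a c c₂ j) (R ^ j * s) (gn_pos hc j)
        ((gn_le hc j).trans hc1) (gn_le_lv hc j) ((lv_le hc j).trans hcσ) (wc_pos ha hc hc₂ j)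
        (wc_le ha ha1 hc hc1 hc₂1 j) (mul_pos (hRp j) hs) e (F j)
      have eR : R * (R ^ j * s) = R ^ (j + 1) * s := by ring
      rw [eR] at h1
      have hw0 := hw j hmj hjN.le
      have hY0 := hY (j + 1) (by omega) (by omega)
      have h2 := h1 (hF j hmj hjN.le) (b j) (Y (j + 1) + w j) (hb j hmj hjN.le)
        (by linarith) ?_ ?_ q hq
      · refine h2.trans (Real.exp_le_exp.2 ?_)
        have h3 := hsup j hmj hjN.le
        linarith
      · intro q' hq'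
        refine hside j hmj hjN.le q' (DW_mono (mul_pos (hRp _) hs).le ?_ hq')
        exact depth_ge ha ha1 hc hc1 hc₂ hc₂1 j
      · intro q' hq'
        rw [lv_succ] at hq'
        have h3 := hsw j hmj hjN q' hq'
        have h4 := ih (j + 1) (by omega) (by omega) q' hq'
        rw [Real.exp_add]
        exact h3.trans (mul_le_mul_of_nonneg_right h4 (Real.exp_pos _).le)
  exact claim (N - m) m (by omega) le_rfl

/-! ### numbers -/

/-- the slow weight `(k+2)^(1/4)` -/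
def g4 (k : ℕ) : ℝ := √(√((k : ℝ) + 2))

lemma sqrt_add_one {x : ℝ} (hx : 0 ≤ x) : √(x + 1) ≤ √x + 1 := by
  rw [Real.sqrt_le_iff]
  have h1 := Real.sqrt_nonneg x
  have h2 := Real.sq_sqrt hx
  exact ⟨by positivity, by nlinarith⟩

lemma g4_nonneg (k : ℕ) : 0 ≤ g4 k := Real.sqrt_nonneg _

lemma g4_succ (k : ℕ) : g4 (k + 1) ≤ g4 k + 1 := by
  unfold g4
  have h1 : √(((k + 1 : ℕ) : ℝ) + 2) ≤ √((k : ℝ) + 2) + 1 := by
    have := sqrt_add_one (x := (k : ℝ) + 2) (by positivity)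
    refine le_trans (le_of_eq ?_) this
    push_cast
    ring_nf
  exact (Real.sqrt_le_sqrt h1).trans (sqrt_add_one (Real.sqrt_nonneg _))

lemma g4_add (k j : ℕ) : g4 (k + j) ≤ g4 k + j := by
  induction j with
  | zero => simp
  | succ j ih =>
    have := g4_succ (k + j)
    rw [← add_assoc]
    push_cast
    linarith

/-- the depth used at step `k`, to the power `-κ` -/
lemma depth_rpow {a κ : ℝ} (ha : 0 < a) (ha1 : a ≤ 1) (hκ : κ ≤ 1 / 16) (k : ℕ) :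
    (a / ((k : ℝ) + 2) ^ 4) ^ (-κ) ≤ a⁻¹ * g4 k := by
  have hk : (0 : ℝ) < (k : ℝ) + 2 := by positivity
  have hk1 : (1 : ℝ) ≤ (k : ℝ) + 2 := by have : (0 : ℝ) ≤ k := Nat.cast_nonneg k
                                         linarith
  have hD : 0 < a / ((k : ℝ) + 2) ^ 4 := by positivity
  have ha' : 1 ≤ a⁻¹ := (one_le_inv₀ ha).2 ha1
  have h4 : (1 : ℝ) ≤ ((k : ℝ) + 2) ^ 4 := one_le_pow₀ hk1
  rw [Real.rpow_neg hD.le, ← Real.inv_rpow hD.le, inv_div, div_eq_mul_inv]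
  have h1 : (((k : ℝ) + 2) ^ 4 * a⁻¹) ^ κ ≤ (((k : ℝ) + 2) ^ 4 * a⁻¹) ^ (1 / 16 : ℝ) :=
    Real.rpow_le_rpow_of_exponent_le (by nlinarith) hκ
  refine h1.trans ?_
  rw [Real.mul_rpow (by positivity) (by positivity), mul_comm]
  have h2 : a⁻¹ ^ (1 / 16 : ℝ) ≤ a⁻¹ := by
    calc a⁻¹ ^ (1 / 16 : ℝ) ≤ a⁻¹ ^ (1 : ℝ) :=
          Real.rpow_le_rpow_of_exponent_le ha' (by norm_num)
      _ = a⁻¹ := Real.rpow_one _
  have h3 : (((k : ℝ) + 2) ^ 4) ^ (1 / 16 : ℝ) = g4 k := by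
    unfold g4
    rw [Real.sqrt_eq_rpow, Real.sqrt_eq_rpow, ← Real.rpow_mul hk.le, ← Real.rpow_natCast,
      ← Real.rpow_mul hk.le]
    norm_num
  rw [h3]
  exact mul_le_mul_of_nonneg_right h2 (g4_nonneg k)

/-- `exp (C (k+2)^(1/4))` is dominated by `(3/2)^k` -/
lemma exp_g4 (C : ℝ) (hC : 0 ≤ C) : ∃ C' : ℝ, 0 < C' ∧ ∀ k : ℕ,
    Real.exp (C * g4 k) ≤ C' * (3 / 2 : ℝ) ^ k := by
  have hl : 0 < Real.log (3 / 2) := Real.log_pos (by norm_num)
  set l := Real.log (3 / 2) with hld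
  refine ⟨Real.exp (C / 4 + C ^ 2 / (4 * l) + 2 * l), Real.exp_pos _, fun k => ?_⟩
  have e1 : (3 / 2 : ℝ) ^ k = Real.exp (k * l) := by
    rw [mul_comm, Real.exp_mul, hld, Real.exp_log (by norm_num), Real.rpow_natCast]
  rw [e1, ← Real.exp_add]
  refine Real.exp_le_exp.2 ?_
  have h0 : (0 : ℝ) ≤ (k : ℝ) + 2 := by positivity
  set y := √((k : ℝ) + 2) with hy
  have hy0 : 0 ≤ y := Real.sqrt_nonneg _
  have hy2 : y ^ 2 = (k : ℝ) + 2 := Real.sq_sqrt h0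
  have hg : g4 k ≤ y + 1 / 4 := by
    have h1 := Real.sqrt_nonneg y
    have h2 := Real.sq_sqrt hy0
    show √y ≤ y + 1 / 4
    nlinarith [sq_nonneg (√y - 1 / 2)]
  have h5 : C * g4 k ≤ C * (y + 1 / 4) := mul_le_mul_of_nonneg_left hg hC
  have h6 : C * y ≤ C ^ 2 / (4 * l) + l * y ^ 2 := by
    have : C ^ 2 / (4 * l) + l * y ^ 2 - C * y = (C - 2 * l * y) ^ 2 / (4 * l) := by
      field_simp
      ring
    have h7 : 0 ≤ (C - 2 * l * y) ^ 2 / (4 * l) := by positivity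
    linarith
  rw [hy2] at h6
  nlinarith

/-! ### the D side bounds -/

/-- D side bounds at all windows over `e` between the scales `s` and `η₁`;
`lam s' = log |R_0|` at `ray e s'` -/
structure Side (e : ℝ × ℝ) (A κ C0 : ℝ) (lam : ℝ → ℝ) (φ p : ℂ × ℂ → ℂ) (s η₁ : ℝ) : Prop where
  cont : ContinuousOn lam (Icc s η₁)
  lip : ∀ s' s'', s ≤ s' → s' ≤ s'' → s'' ≤ η₁ →
    1 + |lam s''| ≤ C0 * (s'' / s') ^ C0 * (1 + |lam s'|)
  ph : ∀ s' ∈ Icc s η₁, ∀ d ∈ Ioc (0 : ℝ) 1, ∀ q ∈ DW e A d s',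
    ‖φ q - ((φ (ray e s')).re : ℂ)‖ ≤ Real.exp (C0 * d ^ (-κ)) * (1 + |lam s'|)
  sgn : ∀ s' ∈ Icc s η₁, ∀ d ∈ Ioc (0 : ℝ) 1, ∀ σ : ℝ, (σ = 1 ∨ σ = -1) → 0 ≤ σ * lam s' →
    ∀ q ∈ DW e A d s', -Real.exp (C0 * d ^ (-κ)) ≤ σ * (φ q).im ∧
      ‖p q * cexp (σ * I * φ q)‖ ≤ Real.exp (Real.exp (C0 * d ^ (-κ)))

lemma ray_mem {e : ℝ × ℝ} {A R t : ℝ} (hA : 1 ≤ A) (hR : 2 ≤ R) (ht : 0 < t) :
    ray e t ∈ DW e A (1 / (4 * R)) (R * t) := by
  have hRt : 0 < R * t := by positivity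
  have h1 : t ≤ R * t := by nlinarith
  have h2 : R * t ≤ A * (R * t) := by nlinarith
  have h3 : 1 / (4 * R) * (R * t) = t / 4 := by field_simp
  refine ⟨?_, ?_, ?_, ?_⟩
  · have : (ray e t).1 - (e.1 : ℂ) = (t : ℂ) * (-I) := by simp [ray, bl]
    rw [this, norm_mul, Complex.norm_real, Real.norm_of_nonneg ht.le]
    simp
    linarith
  · have : (ray e t).2 - (e.2 : ℂ) = (t : ℂ) * (I / 4) := by simp [ray, bl]
    rw [this, norm_mul, Complex.norm_real, Real.norm_of_nonneg ht.le]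
    simp
    linarith
  · rw [h3]
    simp [ray, bl]
    linarith
  · rw [h3]
    have : (ray e t).2.im = t / 4 := by
      simp [ray, bl]
      ring
    rw [this]

/-! ### (1) -/

section N1

variable {e : ℝ × ℝ} {σ A κ C0 R : ℝ} {lam : ℝ → ℝ} {φ p : ℂ × ℂ → ℂ} {s η₁ : ℝ}

/-- telescoping of the real centres -/
lemma tel (hA : 1 ≤ A) (hR : 2 ≤ R) (hC0 : 1 ≤ C0) (hs : 0 < s)
    (hS : Side e A κ C0 lam φ p s η₁) (m j : ℕ) (hm : R ^ (m + j) * s ≤ η₁) :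
    1 + |lam (R ^ (m + j) * s)| ≤ (C0 * R ^ C0) ^ j * (1 + |lam (R ^ m * s)|) ∧
    |(φ (ray e (R ^ (m + j) * s))).re - (φ (ray e (R ^ m * s))).re| ≤
      Real.exp (C0 * (1 / (4 * R)) ^ (-κ)) * (2 * (C0 * R ^ C0)) ^ j *
        (1 + |lam (R ^ m * s)|) := by
  have hRp : ∀ j : ℕ, 0 < R ^ j := fun j => by positivity
  have hR1 : ∀ j : ℕ, 1 ≤ R ^ j := fun j => one_le_pow₀ (by linarith)
  have hCR : 1 ≤ C0 * R ^ C0 := by
    have : 1 ≤ R ^ C0 := Real.one_le_rpow (by linarith) (by linarith)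
    nlinarith
  set CR := C0 * R ^ C0 with hCRd
  have hH : 0 < 1 + |lam (R ^ m * s)| := by positivity
  set C5 := Real.exp (C0 * (1 / (4 * R)) ^ (-κ)) with hC5
  have hC5p : 0 < C5 := Real.exp_pos _
  induction j with
  | zero =>
    simp only [add_zero, pow_zero, one_mul, mul_one, sub_self, abs_zero]
    exact ⟨le_rfl, by positivity⟩
  | succ j ih =>
    have hle : R ^ (m + j) * s ≤ R ^ (m + (j + 1)) * s :=
      mul_le_mul_of_nonneg_right (pow_le_pow_right₀ (by linarith) (by omega)) hs.le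
    obtain ⟨i1, i2⟩ := ih (hle.trans hm)
    have hsj : s ≤ R ^ (m + j) * s := by nlinarith [hR1 (m + j)]
    have hpj : 0 < R ^ (m + j) * s := mul_pos (hRp _) hs
    have h1 := hS.lip (R ^ (m + j) * s) (R ^ (m + (j + 1)) * s) hsj hle hm
    have e1 : R ^ (m + (j + 1)) * s / (R ^ (m + j) * s) = R := by
      rw [← add_assoc, pow_succ]
      field_simp
    rw [e1] at h1
    have h2 : 1 + |lam (R ^ (m + (j + 1)) * s)| ≤ CR ^ (j + 1) * (1 + |lam (R ^ m * s)|) := by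
      refine h1.trans ?_
      rw [pow_succ]
      calc CR * (1 + |lam (R ^ (m + j) * s)|) ≤ CR * (CR ^ j * (1 + |lam (R ^ m * s)|)) :=
            mul_le_mul_of_nonneg_left i1 (by linarith)
        _ = CR ^ j * CR * (1 + |lam (R ^ m * s)|) := by ring
    refine ⟨h2, ?_⟩
    have e2 : R * (R ^ (m + j) * s) = R ^ (m + (j + 1)) * s := by ring
    have h3 := hS.ph (R ^ (m + (j + 1)) * s) ⟨hsj.trans hle, hm⟩ (1 / (4 * R))
      ⟨by positivity, by rw [div_le_one (by positivity)]; linarith⟩ (ray e (R ^ (m + j) * s))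
      (by rw [← e2]; exact ray_mem hA hR hpj)
    have h4 : |(φ (ray e (R ^ (m + j) * s))).re - (φ (ray e (R ^ (m + (j + 1)) * s))).re| ≤
        C5 * (1 + |lam (R ^ (m + (j + 1)) * s)|) := by
      refine le_trans ?_ h3
      have := Complex.abs_re_le_norm (φ (ray e (R ^ (m + j) * s)) -
        ((φ (ray e (R ^ (m + (j + 1)) * s))).re : ℂ))
      simpa using this
    have h5 : |(φ (ray e (R ^ (m + (j + 1)) * s))).re - (φ (ray e (R ^ m * s))).re| ≤
        C5 * (2 * CR) ^ j * (1 + |lam (R ^ m * s)|) +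
          C5 * (CR ^ (j + 1) * (1 + |lam (R ^ m * s)|)) := by
      have h6 := abs_sub_le (φ (ray e (R ^ (m + (j + 1)) * s))).re
        (φ (ray e (R ^ (m + j) * s))).re (φ (ray e (R ^ m * s))).re
      rw [abs_sub_comm] at h4
      have h7 := mul_le_mul_of_nonneg_left h2 hC5p.le
      linarith
    refine h5.trans ?_
    have h8 : CR ^ j ≤ (2 * CR) ^ j := pow_le_pow_left₀ (by linarith) (by linarith) j
    have h9 : 0 ≤ CR ^ j := by positivity
    have h10 : (2 * CR) ^ j + CR ^ (j + 1) ≤ (2 * CR) ^ (j + 1) := by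
      rw [pow_succ, pow_succ]
      nlinarith
    have h11 : C5 * (2 * CR) ^ j * (1 + |lam (R ^ m * s)|) +
        C5 * (CR ^ (j + 1) * (1 + |lam (R ^ m * s)|)) =
        C5 * ((2 * CR) ^ j + CR ^ (j + 1)) * (1 + |lam (R ^ m * s)|) := by ring
    rw [h11]
    gcongr

lemma aux1 {x C Q P H : ℝ} (hx : 0 ≤ x) (hC : 0 ≤ C) (hQ : Q ≤ P) (hP : 0 ≤ P) (hH : 0 ≤ H) :
    Real.exp x * (Q * H) + C * P * H ≤ Real.exp x * Real.exp C * P * H := by
  have h13 : C + 1 ≤ Real.exp C := Real.add_one_le_exp _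
  have h14 : (1 : ℝ) ≤ Real.exp x := Real.one_le_exp hx
  have h15 : Real.exp x + C ≤ Real.exp x * Real.exp C := by nlinarith
  have h16 : 0 ≤ P * H := mul_nonneg hP hH
  have h17 : Real.exp x * (Q * H) ≤ Real.exp x * (P * H) :=
    mul_le_mul_of_nonneg_left (mul_le_mul_of_nonneg_right hQ hH) (Real.exp_pos _).le
  have h18 := mul_le_mul_of_nonneg_right h15 h16
  linarith

lemma aux2 {M C P H : ℝ} (hM : 0 ≤ M) (hC : 0 ≤ C) (hP : 1 ≤ P) (hH : 1 ≤ H) :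
    2 * M + C * P * H ≤ (1 + 2 * M) * Real.exp C * P * H := by
  have h13 : C + 1 ≤ Real.exp C := Real.add_one_le_exp _
  have h1 : 1 ≤ P * H := by nlinarith
  have h2 : 2 * M ≤ 2 * M * (P * H) := by nlinarith
  have h3 : 2 * M + C ≤ (1 + 2 * M) * Real.exp C := by nlinarith
  have h4 := mul_le_mul_of_nonneg_right h3 (by linarith : 0 ≤ P * H)
  linarith

/-- **(1)** at the window of index `m` -/
theorem n1core {a c c₂ M1 : ℝ} (hch : ChainP σ A R a) (hA : 1 ≤ A) (hR : 2 ≤ R)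
    (ha : 0 < a) (ha1 : a ≤ 1) (hc : 0 < c) (hc1 : c ≤ 1) (hcσ : c ≤ σ) (hc₂ : 0 < c₂)
    (hc₂1 : c₂ ≤ 1) (hκ : κ ≤ 1 / 16) (hC0 : 1 ≤ C0) (hs : 0 < s) (hM1 : 0 ≤ M1)
    (hS : Side e A κ C0 lam φ p s η₁) (N : ℕ) (hN : R ^ (N + 1) * s ≤ η₁)
    (hφ : DifferentiableOn ℂ φ (Half e (A * η₁) σ))
    (htop : ∀ q ∈ KW e σ A (c / 4) (a * (c / 4)) (R ^ (N + 1) * s), ‖φ q‖ ≤ M1)
    (hray : ‖φ (ray e (R ^ (N + 1) * s))‖ ≤ M1) (m : ℕ) (hm : m ≤ N) :
    ∀ q ∈ KW e σ A (lv c m) (wc a c c₂ m) (R ^ m * s),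
      ‖φ q - ((φ (ray e (R ^ m * s))).re : ℂ)‖ ≤ (1 + |lam (R ^ m * s)|) *
        Real.exp (2 * (C0 * (a ^ 2 / 4 * c₂ * c ^ 2)⁻¹ * g4 m +
            Real.exp (C0 * (1 / (4 * R)) ^ (-κ))) +
          4 * (Real.log (2 * (C0 * R ^ C0)) + C0 * (a ^ 2 / 4 * c₂ * c ^ 2)⁻¹) +
          (1 / 2) ^ (N + 1 - m) * Real.log (1 + 2 * M1)) := by
  have hRp : ∀ j : ℕ, 0 < R ^ j := fun j => by positivity
  have hR1 : ∀ j : ℕ, 1 ≤ R ^ j := fun j => one_le_pow₀ (by linarith)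
  have hCR : 1 ≤ C0 * R ^ C0 := by
    have : 1 ≤ R ^ C0 := Real.one_le_rpow (by linarith) (by linarith)
    nlinarith
  set CR := C0 * R ^ C0 with hCRd
  have hH : 0 < 1 + |lam (R ^ m * s)| := by positivity
  set H := 1 + |lam (R ^ m * s)| with hHd
  set C5 := Real.exp (C0 * (1 / (4 * R)) ^ (-κ)) with hC5
  have hC5p : 0 < C5 := Real.exp_pos _
  set a₁ := a ^ 2 / 4 * c₂ * c ^ 2 with ha₁
  have ha₁p : 0 < a₁ := by positivity
  have ha₁1 : a₁ ≤ 1 := by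
    have h1 : a ^ 2 ≤ 1 := pow_le_one₀ ha.le ha1
    have h2 : c ^ 2 ≤ 1 := pow_le_one₀ hc.le hc1
    have h3 : a ^ 2 / 4 * c₂ ≤ 1 := by nlinarith
    have h4 : 0 ≤ a ^ 2 / 4 * c₂ := by positivity
    nlinarith
  set Lg := Real.log (2 * CR) with hLg
  have hLg0 : 0 ≤ Lg := Real.log_nonneg (by linarith)
  have hLge : ∀ j : ℕ, (2 * CR) ^ j = Real.exp (j * Lg) := fun j => by
    rw [show (j : ℝ) * Lg = Lg * j by ring, Real.exp_mul, hLg, Real.exp_log (by linarith),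
      Real.rpow_natCast]
  set α := C0 * a₁⁻¹ * g4 m + C5 with hα
  set β := Lg + C0 * a₁⁻¹ with hβ
  have hia : 0 < a₁⁻¹ := inv_pos.2 ha₁p
  have hα0 : 0 ≤ α := by
    have := g4_nonneg m
    positivity
  have hβ0 : 0 ≤ β := by positivity
  set L1 := Real.log (1 + 2 * M1) with hL1
  have hL10 : 0 ≤ L1 := Real.log_nonneg (by linarith)
  have hscale : ∀ k, k ≤ N + 1 → R ^ k * s ≤ η₁ := fun k hk =>
    (mul_le_mul_of_nonneg_right (pow_le_pow_right₀ (by linarith) hk) hs.le).trans hN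
  have key := hch c c₂ s hc hc1 hcσ hc₂ hc₂1 hs e N m
    (fun _ q => (φ q - ((φ (ray e (R ^ m * s))).re : ℂ)) / (H : ℂ))
    (fun k => α + β * ((k : ℝ) - m + 1)) (fun _ => 0)
    (fun k => 2 * α + 2 * β * ((k : ℝ) - m + 2) + (1 / 2) ^ (N + 1 - k) * L1) hm
  have hnd : ∀ z : ℂ, ‖z / (H : ℂ)‖ = ‖z‖ / H := fun z => by
    rw [norm_div, Complex.norm_real, Real.norm_of_nonneg hH.le]
  have hcenter : ∀ j, m + j ≤ N + 1 →
      |(φ (ray e (R ^ (m + j) * s))).re - (φ (ray e (R ^ m * s))).re| ≤ C5 * (2 * CR) ^ j * H :=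
    fun j hj => (tel hA hR hC0 hs hS m j (hscale _ hj)).2
  have hheight : ∀ j, m + j ≤ N + 1 → 1 + |lam (R ^ (m + j) * s)| ≤ CR ^ j * H :=
    fun j hj => (tel hA hR hC0 hs hS m j (hscale _ hj)).1
  have fin := key ?_ ?_ ?_ ?_ ?_ ?_ ?_ ?_
  · intro q hq
    have h1 := fin q hq
    simp only [hnd] at h1
    rw [div_le_iff₀ hH] at h1
    refine h1.trans (le_of_eq ?_)
    rw [mul_comm _ H]
    congr 2
    ring
  · intro k hk _
    have : (m : ℝ) ≤ k := by exact_mod_cast hk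
    have h2 : 0 ≤ (k : ℝ) - m + 1 := by linarith
    positivity
  · intro k _ _
    exact le_rfl
  · intro k hk _
    have : (m : ℝ) ≤ k := by exact_mod_cast hk
    have h2 : 0 ≤ (k : ℝ) - m + 2 := by linarith
    positivity
  · intro k hk hkN
    have e1 : (1 / 2 : ℝ) ^ (N + 1 - k) = (1 / 2) ^ (N + 1 - (k + 1)) / 2 := by
      rw [show N + 1 - k = (N + 1 - (k + 1)) + 1 by omega, pow_succ]
      ring
    show α + β * ((k : ℝ) - m + 1) + 0 + (2 * α + 2 * β * (((k + 1 : ℕ) : ℝ) - m + 2) +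
      (1 / 2) ^ (N + 1 - (k + 1)) * L1) / 2 ≤
      2 * α + 2 * β * ((k : ℝ) - m + 2) + (1 / 2) ^ (N + 1 - k) * L1
    rw [e1]
    push_cast
    apply le_of_eq
    ring
  · intro k hk hkN
    have h1 : A * (R ^ (k + 1) * s) ≤ A * η₁ :=
      mul_le_mul_of_nonneg_left (hscale _ (by omega)) (by linarith)
    have h2 : DifferentiableOn ℂ φ (Half e (A * (R ^ (k + 1) * s)) σ) := hφ.mono (Half_mono h1)
    fun_prop
  · intro k hk hkN q hq
    obtain ⟨j, rfl⟩ := Nat.exists_eq_add_of_le hk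
    simp only [hnd]
    rw [div_le_iff₀ hH]
    have hd : a₁ / (((m + j : ℕ) : ℝ) + 2) ^ 4 ∈ Ioc (0 : ℝ) 1 := by
      refine ⟨by positivity, ?_⟩
      rw [div_le_one (by positivity)]
      have : (1 : ℝ) ≤ (((m + j : ℕ) : ℝ) + 2) ^ 4 := one_le_pow₀ (by
        have : (0 : ℝ) ≤ ((m + j : ℕ) : ℝ) := Nat.cast_nonneg _
        linarith)
      linarith
    have hsk : s ≤ R ^ (m + j + 1) * s := by nlinarith [hR1 (m + j + 1)]
    have h1 := hS.ph (R ^ (m + j + 1) * s) ⟨hsk, hscale _ (by omega)⟩ _ hd q hq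
    have h2 := hcenter (j + 1) (by omega)
    have h3 := hheight (j + 1) (by omega)
    rw [← add_assoc] at h2 h3
    have h4 : ‖φ q - ((φ (ray e (R ^ m * s))).re : ℂ)‖ ≤
        ‖φ q - ((φ (ray e (R ^ (m + j + 1) * s))).re : ℂ)‖ +
        |(φ (ray e (R ^ (m + j + 1) * s))).re - (φ (ray e (R ^ m * s))).re| := by
      have e0 : φ q - ((φ (ray e (R ^ m * s))).re : ℂ) =
          (φ q - ((φ (ray e (R ^ (m + j + 1) * s))).re : ℂ)) +
          (((φ (ray e (R ^ (m + j + 1) * s))).re - (φ (ray e (R ^ m * s))).re : ℝ) : ℂ) := by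
        push_cast; ring
      rw [e0]
      refine (norm_add_le _ _).trans ?_
      rw [Complex.norm_real, Real.norm_eq_abs]
    have h5 : C0 * (a₁ / (((m + j : ℕ) : ℝ) + 2) ^ 4) ^ (-κ) ≤
        C0 * a₁⁻¹ * g4 m + C0 * a₁⁻¹ * j := by
      have h6 := depth_rpow ha₁p ha₁1 hκ (m + j)
      have h7 := g4_add m j
      have h8 : C0 * (a₁⁻¹ * g4 (m + j)) ≤ C0 * (a₁⁻¹ * (g4 m + j)) := by gcongr
      have h9 : C0 * (a₁ / (((m + j : ℕ) : ℝ) + 2) ^ 4) ^ (-κ) ≤ C0 * (a₁⁻¹ * g4 (m + j)) :=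
        mul_le_mul_of_nonneg_left h6 (by linarith)
      linarith
    set x := C0 * (a₁ / (((m + j : ℕ) : ℝ) + 2) ^ 4) ^ (-κ) with hx
    have hx0 : 0 ≤ x := by
      have := hd.1.le
      positivity
    have h10 : Real.exp x * (CR ^ (j + 1) * H) + C5 * (2 * CR) ^ (j + 1) * H ≤
        Real.exp (x + C5 + (j + 1) * Lg) * H := by
      have h11 : CR ^ (j + 1) ≤ (2 * CR) ^ (j + 1) :=
        pow_le_pow_left₀ (by linarith) (by linarith) _
      have h12 : 0 ≤ (2 * CR) ^ (j + 1) := by positivity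
      have h16 : Real.exp (x + C5 + (j + 1) * Lg) =
          Real.exp x * Real.exp C5 * (2 * CR) ^ (j + 1) := by
        rw [Real.exp_add, Real.exp_add, hLge (j + 1)]
        push_cast
        rfl
      rw [h16]
      exact aux1 hx0 hC5p.le h11 h12 hH.le
    have h19 : Real.exp x * (1 + |lam (R ^ (m + j + 1) * s)|) ≤
        Real.exp x * (CR ^ (j + 1) * H) := mul_le_mul_of_nonneg_left h3 (Real.exp_pos _).le
    have h20 : x + C5 + (j + 1) * Lg ≤ α + β * (((m + j : ℕ) : ℝ) - m + 1) := by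
      have h21 : (0 : ℝ) ≤ C0 * a₁⁻¹ := by positivity
      have h22 : α + β * (((m + j : ℕ) : ℝ) - m + 1) = C0 * a₁⁻¹ * g4 m + C5 +
          (j + 1) * Lg + C0 * a₁⁻¹ * j + C0 * a₁⁻¹ := by
        rw [hα, hβ]
        push_cast
        ring
      rw [h22]
      linarith
    have h22 := mul_le_mul_of_nonneg_right (Real.exp_le_exp.2 h20) hH.le
    linarith
  · intro k _ _ q _
    simp only [Real.exp_zero, mul_one]
    exact le_rfl
  · intro q hq
    simp only [hnd]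
    rw [div_le_iff₀ hH]
    obtain ⟨j, hj⟩ := Nat.exists_eq_add_of_le (hm.trans (Nat.le_succ N))
    have hj' : m + j = N + 1 := by omega
    have h2 := hcenter j (by omega)
    rw [hj'] at h2
    have h3 := htop q hq
    have h4 : ‖φ q - ((φ (ray e (R ^ m * s))).re : ℂ)‖ ≤ 2 * M1 + C5 * (2 * CR) ^ j * H := by
      have e0 : φ q - ((φ (ray e (R ^ m * s))).re : ℂ) =
          φ q - ((φ (ray e (R ^ (N + 1) * s))).re : ℂ) +
          (((φ (ray e (R ^ (N + 1) * s))).re - (φ (ray e (R ^ m * s))).re : ℝ) : ℂ) := by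
        push_cast; ring
      rw [e0]
      refine (norm_add_le _ _).trans ?_
      rw [Complex.norm_real, Real.norm_eq_abs]
      have h5 := norm_sub_le (φ q) ((φ (ray e (R ^ (N + 1) * s))).re : ℂ)
      rw [Complex.norm_real, Real.norm_eq_abs] at h5
      have h6 := Complex.abs_re_le_norm (φ (ray e (R ^ (N + 1) * s)))
      linarith
    have hjN : (j : ℝ) = ((N + 1 : ℕ) : ℝ) - m := by
      rw [← hj']
      push_cast
      ring
    have h7 : 2 * M1 + C5 * (2 * CR) ^ j * H ≤ Real.exp (L1 + C5 + j * Lg) * H := by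
      have h8 : Real.exp (L1 + C5 + j * Lg) = (1 + 2 * M1) * Real.exp C5 * (2 * CR) ^ j := by
        rw [Real.exp_add, Real.exp_add, hLge j, hL1, Real.exp_log (by linarith)]
      rw [h8]
      have h10 : (1 : ℝ) ≤ (2 * CR) ^ j := one_le_pow₀ (by linarith)
      have h11 : (1 : ℝ) ≤ H := by rw [hHd]; linarith [abs_nonneg (lam (R ^ m * s))]
      exact aux2 hM1 hC5p.le h10 h11
    have h16 : L1 + C5 + j * Lg ≤ 2 * α + 2 * β * (((N + 1 : ℕ) : ℝ) - m + 2) +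
        (1 / 2) ^ (N + 1 - (N + 1)) * L1 := by
      rw [← hjN]
      simp only [Nat.sub_self, pow_zero, one_mul]
      have h17 : C5 ≤ α := by
        rw [hα]
        have := g4_nonneg m
        have : 0 ≤ C0 * a₁⁻¹ * g4 m := by positivity
        linarith
      have h18 : Lg ≤ β := by
        rw [hβ]
        have : 0 ≤ C0 * a₁⁻¹ := by positivity
        linarith
      have h19 : (0 : ℝ) ≤ j := Nat.cast_nonneg j
      have h23 : (j : ℝ) * Lg ≤ j * β := mul_le_mul_of_nonneg_left h18 h19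
      have h24 : 0 ≤ (j : ℝ) * β := by positivity
      have h25 : 2 * α + 2 * β * ((j : ℝ) + 2) + L1 = 2 * α + 2 * (j * β) + 4 * β + L1 := by ring
      rw [h25]
      linarith
    have h20 := mul_le_mul_of_nonneg_right (Real.exp_le_exp.2 h16) hH.le
    linarith

end N1

/-! ### (2) -/

section N2

variable {e : ℝ × ℝ} {σ A κ C0 R : ℝ} {lam : ℝ → ℝ} {φ p : ℂ × ℂ → ℂ} {s η₁ : ℝ}

lemma norm_e (τ : ℝ) (z : ℂ) : ‖cexp (τ * I * z)‖ = Real.exp (-(τ * z.im)) := by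
  rw [Complex.norm_exp]
  congr 1
  simp

lemma norm_switch {τ τ' : ℝ} (h : τ = 1 ∨ τ = -1) (h' : τ' = 1 ∨ τ' = -1) (P z : ℂ) {b : ℝ}
    (hz : |z.im| ≤ b) :
    ‖P * cexp (τ * I * z)‖ ≤ ‖P * cexp (τ' * I * z)‖ * Real.exp (2 * b) := by
  rw [norm_mul, norm_mul, norm_e, norm_e, mul_assoc, ← Real.exp_add]
  refine mul_le_mul_of_nonneg_left (Real.exp_le_exp.2 ?_) (norm_nonneg _)
  have h1 := (abs_le.1 hz).1
  have h2 := (abs_le.1 hz).2
  have h3 : 0 ≤ b := (abs_nonneg _).trans hz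
  rcases h with rfl | rfl <;> rcases h' with rfl | rfl <;> linarith

/-- between a window of one sign and a window of the other sign: `lam` is bounded -/
lemma thick (hR : 2 ≤ R) (hC0 : 1 ≤ C0) (hs : 0 < s) (hS : Side e A κ C0 lam φ p s η₁) (k : ℕ)
    (hk : R ^ (k + 1) * s ≤ η₁) {τ : ℝ} (hτ : τ = 1 ∨ τ = -1) (h0 : 0 ≤ τ * lam (R ^ k * s))
    (h1 : τ * lam (R ^ (k + 1) * s) ≤ 0) : 1 + |lam (R ^ (k + 1) * s)| ≤ C0 * R ^ C0 := by
  have hR1 : ∀ j : ℕ, 1 ≤ R ^ j := fun j => one_le_pow₀ (by linarith)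
  have hle : R ^ k * s ≤ R ^ (k + 1) * s :=
    mul_le_mul_of_nonneg_right (pow_le_pow_right₀ (by linarith) (by omega)) hs.le
  have hsk : s ≤ R ^ k * s := by nlinarith [hR1 k]
  have hcont : ContinuousOn (fun t => τ * lam t) (Icc (R ^ k * s) (R ^ (k + 1) * s)) :=
    (continuousOn_const.mul hS.cont).mono (Icc_subset_Icc hsk hk)
  obtain ⟨t, ht, ht0⟩ := intermediate_value_Icc' hle hcont ⟨h1, h0⟩
  have ht0' : lam t = 0 := by
    rcases hτ with rfl | rfl <;> simpa using ht0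
  have h2 := hS.lip t (R ^ (k + 1) * s) (hsk.trans ht.1) ht.2 hk
  rw [ht0', abs_zero, add_zero, mul_one] at h2
  refine h2.trans ?_
  have htp : 0 < t := hs.trans_le (hsk.trans ht.1)
  have h3 : R ^ (k + 1) * s / t ≤ R := by
    rw [div_le_iff₀ htp]
    have : R ^ (k + 1) * s = R * (R ^ k * s) := by ring
    rw [this]
    exact mul_le_mul_of_nonneg_left ht.1 (by linarith)
  have h4 : (R ^ (k + 1) * s / t) ^ C0 ≤ R ^ C0 :=
    Real.rpow_le_rpow (by have := hR1 (k + 1); positivity) h3 (by linarith)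
  exact mul_le_mul_of_nonneg_left h4 (by linarith)

/-- the constant of the recursion (2) -/
def C7 (C' CR K C5 Lg : ℝ) : ℝ :=
  C' * ((1 + 2 * CR) + 2 * CR * Real.exp (2 * K + 2 * C5 + 4 * (Lg + K)))

/-- the sum of the source and of the switching cost -/
lemma bw_le {K CR C5 Lg M1 L1 C' t : ℝ} {k : ℕ} (hK0 : 0 ≤ K) (hCR : 1 ≤ CR) (hM1 : 0 ≤ M1)
    (hL1 : L1 = Real.log (1 + 2 * M1)) (ht0 : 0 ≤ t) (ht1 : t ≤ 1)
    (hx : Real.exp (2 * K * g4 k) ≤ C' * (3 / 2) ^ k) :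
    Real.exp (K * g4 k) * (1 + 2 * CR) + 2 * (CR * Real.exp (2 * (K * g4 (k + 1) + C5) +
      4 * (Lg + K) + t * L1)) ≤ C7 C' CR K C5 Lg * (3 / 2) ^ k * (1 + 2 * M1 * t) := by
  have h1 : Real.exp (t * L1) ≤ 1 + 2 * M1 * t := by
    have h2 := _root_.rpow_one_add_le_one_add_mul_self (s := 2 * M1) (by linarith) ht0 ht1
    rw [Real.rpow_def_of_pos (by linarith)] at h2
    rw [mul_comm t L1, hL1]
    linarith
  have hg := g4_succ k
  have hg0 := g4_nonneg k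
  have h3 : Real.exp (K * g4 k) ≤ Real.exp (2 * K * g4 k) := by
    refine Real.exp_le_exp.2 ?_
    have : 0 ≤ K * g4 k := by positivity
    linarith
  set E0 := Real.exp (2 * K + 2 * C5 + 4 * (Lg + K)) with hE0
  have hE00 : 0 < E0 := Real.exp_pos _
  have h4 : Real.exp (2 * (K * g4 (k + 1) + C5) + 4 * (Lg + K) + t * L1) ≤
      Real.exp (2 * K * g4 k) * E0 * (1 + 2 * M1 * t) := by
    have h5 : Real.exp (2 * (K * g4 (k + 1) + C5) + 4 * (Lg + K) + t * L1) ≤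
        Real.exp (2 * K * g4 k + (2 * K + 2 * C5 + 4 * (Lg + K)) + t * L1) := by
      refine Real.exp_le_exp.2 ?_
      have : K * g4 (k + 1) ≤ K * (g4 k + 1) := mul_le_mul_of_nonneg_left hg hK0
      linarith
    refine h5.trans ?_
    rw [Real.exp_add, Real.exp_add]
    exact mul_le_mul_of_nonneg_left h1 (by positivity)
  have h6 : (1 : ℝ) ≤ 1 + 2 * M1 * t := by
    have : 0 ≤ 2 * M1 * t := by positivity
    linarith
  set X := Real.exp (2 * K * g4 k) with hX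
  have hX0 : 0 < X := Real.exp_pos _
  have h7 : Real.exp (K * g4 k) * (1 + 2 * CR) ≤ X * (1 + 2 * CR) * (1 + 2 * M1 * t) := by
    have h8 : Real.exp (K * g4 k) * (1 + 2 * CR) ≤ X * (1 + 2 * CR) :=
      mul_le_mul_of_nonneg_right h3 (by linarith)
    have h9 : 0 ≤ X * (1 + 2 * CR) := by positivity
    exact h8.trans (le_mul_of_one_le_right h9 h6)
  have h10 : 2 * (CR * Real.exp (2 * (K * g4 (k + 1) + C5) + 4 * (Lg + K) + t * L1)) ≤
      X * (2 * CR * E0) * (1 + 2 * M1 * t) := by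
    have h11 := mul_le_mul_of_nonneg_left h4 (by linarith : 0 ≤ 2 * CR)
    linarith
  have h12 : X * ((1 + 2 * CR) + 2 * CR * E0) * (1 + 2 * M1 * t) ≤
      C' * (3 / 2) ^ k * ((1 + 2 * CR) + 2 * CR * E0) * (1 + 2 * M1 * t) := by
    have h14 : 0 ≤ ((1 + 2 * CR) + 2 * CR * E0) := by positivity
    exact mul_le_mul_of_nonneg_right (mul_le_mul_of_nonneg_right hx h14) (by linarith)
  have h13 : C7 C' CR K C5 Lg * (3 / 2) ^ k * (1 + 2 * M1 * t) =
      C' * (3 / 2) ^ k * ((1 + 2 * CR) + 2 * CR * E0) * (1 + 2 * M1 * t) := by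
    unfold C7; rw [← hE0]; ring
  rw [h13]
  linarith

/-- the geometric supersolution -/
def Zs (N k : ℕ) : ℝ := (1 / 2) ^ N * 2 ^ k * (3 * (3 / 2) ^ N - 2 * (3 / 2) ^ k)

lemma Zs_nonneg {N k : ℕ} (hk : k ≤ N + 1) : 0 ≤ Zs N k := by
  have h1 : (3 / 2 : ℝ) ^ k ≤ (3 / 2) ^ (N + 1) := pow_le_pow_right₀ (by norm_num) hk
  rw [pow_succ] at h1
  have h2 : 0 ≤ 3 * (3 / 2 : ℝ) ^ N - 2 * (3 / 2) ^ k := by linarith
  unfold Zs
  positivity

lemma Zs_step {N k : ℕ} (hk : k ≤ N) :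
    Zs N k = Zs N (k + 1) / 2 + (3 / 2) ^ k * (1 / 2) ^ (N - k) := by
  have e3 : (1 / 2 : ℝ) ^ N * 2 ^ k = (1 / 2) ^ (N - k) := by
    have : (1 / 2 : ℝ) ^ N = (1 / 2) ^ (N - k) * (1 / 2) ^ k := by
      rw [← pow_add]; congr 1; omega
    rw [this, mul_assoc, ← mul_pow]
    norm_num
  unfold Zs
  rw [← e3, pow_succ, pow_succ]
  ring

/-- the supersolution of (2) -/
def Ys (D M : ℝ) (N k : ℕ) : ℝ :=
  4 * D * (3 / 2) ^ k + D * M * Zs N k + (1 / 2) ^ (N + 1 - k) * M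

lemma Ys_step {D M : ℝ} {N k : ℕ} (hk : k ≤ N) :
    D * (3 / 2) ^ k * (1 + M * (1 / 2) ^ (N - k)) + Ys D M N (k + 1) / 2 = Ys D M N k := by
  have e1 : (1 / 2 : ℝ) ^ (N + 1 - k) = (1 / 2) ^ (N + 1 - (k + 1)) / 2 := by
    rw [show N + 1 - k = (N + 1 - (k + 1)) + 1 by omega, pow_succ]
    ring
  unfold Ys
  rw [Zs_step hk, e1, pow_succ]
  ring

lemma Ys_nonneg {D M : ℝ} (hD : 0 ≤ D) (hM : 0 ≤ M) {N k : ℕ} (hk : k ≤ N + 1) :
    0 ≤ Ys D M N k := by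
  have := Zs_nonneg hk
  unfold Ys
  positivity

lemma Ys_zero {D M : ℝ} (hD : 0 ≤ D) (hM : 0 ≤ M) (N : ℕ) :
    Ys D M N 0 ≤ D * (4 + 3 * M * (3 / 4) ^ N) + M * (1 / 2) ^ N := by
  have e1 : (1 / 2 : ℝ) ^ N * (3 / 2) ^ N = (3 / 4) ^ N := by
    rw [← mul_pow]; norm_num
  have e2 : (1 / 2 : ℝ) ^ (N + 1 - 0) = (1 / 2) ^ N / 2 := by
    rw [Nat.sub_zero, pow_succ]; ring
  unfold Ys Zs
  rw [e2]
  have h2 : 0 ≤ D * M * (1 / 2) ^ N := by positivity
  have h3 : 0 ≤ (1 / 2 : ℝ) ^ N * M := by positivity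
  have e3 : 4 * D * (3 / 2) ^ 0 + D * M * ((1 / 2) ^ N * 2 ^ 0 * (3 * (3 / 2) ^ N -
    2 * (3 / 2) ^ 0)) = 4 * D + 3 * D * M * ((1 / 2) ^ N * (3 / 2) ^ N) -
    2 * (D * M * (1 / 2) ^ N) := by
    simp only [pow_zero]
    ring
  rw [e3, e1]
  linarith

/-- **(2)**, general factor `P` -/
theorem n2core {a c c₂ M1 C' : ℝ} (hch : ChainP σ A R a) (hA : 1 ≤ A) (hR : 2 ≤ R)
    (ha : 0 < a) (ha1 : a ≤ 1) (hc : 0 < c) (hc1 : c ≤ 1) (hcσ : c ≤ σ) (hc₂ : 0 < c₂)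
    (hc₂1 : c₂ ≤ 1) (hκ : κ ≤ 1 / 16) (hC0 : 1 ≤ C0) (hs : 0 < s) (hM1 : 0 ≤ M1)
    (hS : Side e A κ C0 lam φ p s η₁) (N : ℕ) (hN : R ^ (N + 1) * s ≤ η₁)
    (hφ : DifferentiableOn ℂ φ (Half e (A * η₁) σ))
    (htop : ∀ q ∈ KW e σ A (c / 4) (a * (c / 4)) (R ^ (N + 1) * s), ‖φ q‖ ≤ M1)
    (hray : ‖φ (ray e (R ^ (N + 1) * s))‖ ≤ M1)
    (hC' : ∀ k : ℕ, Real.exp (2 * (C0 * (a ^ 2 / 4 * c₂ * c ^ 2)⁻¹) * g4 k) ≤ C' * (3 / 2) ^ k)
    (P : ℂ × ℂ → ℂ) (hP : DifferentiableOn ℂ P (Half e (A * η₁) σ))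
    (hPt : ∀ q ∈ KW e σ A (c / 4) (a * (c / 4)) (R ^ (N + 1) * s), ‖P q‖ ≤ Real.exp M1)
    (hPs : ∀ s' ∈ Icc s η₁, ∀ d ∈ Ioc (0 : ℝ) 1, ∀ τ : ℝ, (τ = 1 ∨ τ = -1) → 0 ≤ τ * lam s' →
      ∀ q ∈ DW e A d s', ‖P q * cexp (τ * I * φ q)‖ ≤ Real.exp (Real.exp (C0 * d ^ (-κ))))
    (τ₀ : ℝ) (hτ₀ : τ₀ = 1 ∨ τ₀ = -1) (hτl : 0 ≤ τ₀ * lam s) :
    ∀ q ∈ KW e σ A c c₂ s, ‖P q * cexp (τ₀ * I * φ q)‖ ≤ Real.exp (
      C7 C' (C0 * R ^ C0) (C0 * (a ^ 2 / 4 * c₂ * c ^ 2)⁻¹)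
        (Real.exp (C0 * (1 / (4 * R)) ^ (-κ))) (Real.log (2 * (C0 * R ^ C0))) *
      (4 + 3 * (2 * M1) * (3 / 4) ^ N) + (2 * M1) * (1 / 2) ^ N) := by
  have hRp : ∀ j : ℕ, 0 < R ^ j := fun j => by positivity
  have hR1 : ∀ j : ℕ, 1 ≤ R ^ j := fun j => one_le_pow₀ (by linarith)
  have n1 := n1core hch hA hR ha ha1 hc hc1 hcσ hc₂ hc₂1 hκ hC0 hs hM1 hS N hN hφ htop hray
  have hCR : 1 ≤ C0 * R ^ C0 := by
    have : 1 ≤ R ^ C0 := Real.one_le_rpow (by linarith) (by linarith)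
    nlinarith
  have hthick := fun (k : ℕ) (hk : R ^ (k + 1) * s ≤ η₁) (τ : ℝ) => thick hR hC0 hs hS k hk (τ := τ)
  set CR := C0 * R ^ C0 with hCRd
  set C5 := Real.exp (C0 * (1 / (4 * R)) ^ (-κ)) with hC5
  have hC5p : 0 < C5 := Real.exp_pos _
  set a₁ := a ^ 2 / 4 * c₂ * c ^ 2 with ha₁
  have ha₁p : 0 < a₁ := by positivity
  have ha₁1 : a₁ ≤ 1 := by
    have h1 : a ^ 2 ≤ 1 := pow_le_one₀ ha.le ha1
    have h2 : c ^ 2 ≤ 1 := pow_le_one₀ hc.le hc1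
    have h3 : a ^ 2 / 4 * c₂ ≤ 1 := by nlinarith
    have h4 : 0 ≤ a ^ 2 / 4 * c₂ := by positivity
    nlinarith
  have hia : 0 < a₁⁻¹ := inv_pos.2 ha₁p
  set K := C0 * a₁⁻¹ with hK
  have hK0 : 0 ≤ K := by positivity
  set Lg := Real.log (2 * CR) with hLg
  have hLg0 : 0 ≤ Lg := Real.log_nonneg (by linarith)
  set L1 := Real.log (1 + 2 * M1) with hL1
  have hL10 : 0 ≤ L1 := Real.log_nonneg (by linarith)
  have hC'0 : 0 < C' := by
    have := hC' 0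
    have h2 : 0 < C' * (3 / 2 : ℝ) ^ 0 := (Real.exp_pos _).trans_le this
    simpa using h2
  set D := C7 C' CR K C5 Lg with hD
  have hD0 : 0 ≤ D := by
    rw [hD]
    unfold C7
    positivity
  have hscale : ∀ k, k ≤ N + 1 → R ^ k * s ≤ η₁ := fun k hk =>
    (mul_le_mul_of_nonneg_right (pow_le_pow_right₀ (by linarith) hk) hs.le).trans hN
  have hsR : ∀ k, s ≤ R ^ k * s := fun k => by nlinarith [hR1 k]
  -- the signs
  set sg : ℕ → ℝ := fun k => if k = 0 then τ₀ else if 0 ≤ lam (R ^ k * s) then 1 else -1 with hsg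
  have hsg1 : ∀ k, sg k = 1 ∨ sg k = -1 := by
    intro k
    simp only [hsg]
    split_ifs
    · exact hτ₀
    · exact Or.inl rfl
    · exact Or.inr rfl
  have hsg2 : ∀ k, 0 ≤ sg k * lam (R ^ k * s) := by
    intro k
    simp only [hsg]
    split_ifs with h1 h2
    · subst h1
      simpa using hτl
    · simpa using h2
    · push Not at h2
      linarith
  set b : ℕ → ℝ := fun k => Real.exp (K * g4 k) * (1 + 2 * CR) with hb
  set w : ℕ → ℝ := fun k => 2 * (CR * Real.exp (2 * (K * g4 (k + 1) + C5) + 4 * (Lg + K) +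
    (1 / 2) ^ (N + 1 - (k + 1)) * L1)) with hw
  have key := hch c c₂ s hc hc1 hcσ hc₂ hc₂1 hs e N 0
    (fun k q => P q * cexp (sg k * I * φ q)) b w (Ys D (2 * M1) N) (Nat.zero_le _)
  have fin := key ?_ ?_ ?_ ?_ ?_ ?_ ?_ ?_
  · intro q hq
    have h1 := fin q (by
      rw [lv_zero]
      simpa [wc] using hq)
    have e0 : sg 0 = τ₀ := by simp [hsg]
    rw [e0] at h1
    exact h1.trans (Real.exp_le_exp.2 (Ys_zero hD0 (by linarith) N))
  · intro k _ _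
    simp only [hb]
    positivity
  · intro k _ _
    simp only [hw]
    positivity
  · intro k _ hk
    exact Ys_nonneg hD0 (by linarith) hk
  · intro k _ hk
    rw [← Ys_step hk]
    have e1 : N + 1 - (k + 1) = N - k := by omega
    have h1 := bw_le (Lg := Lg) (C5 := C5) (C' := C') (k := k) (t := (1 / 2) ^ (N - k)) hK0 hCR
      hM1 hL1 (by positivity) (pow_le_one₀ (by norm_num) (by norm_num)) (hC' k)
    rw [← e1] at h1
    rw [← e1]
    have h2 : b k + w k ≤ D * (3 / 2) ^ k * (1 + 2 * M1 * (1 / 2) ^ (N + 1 - (k + 1))) := h1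
    linarith
  · intro k _ hk
    have h1 : A * (R ^ (k + 1) * s) ≤ A * η₁ :=
      mul_le_mul_of_nonneg_left (hscale _ (by omega)) (by linarith)
    have h2 : DifferentiableOn ℂ φ (Half e (A * (R ^ (k + 1) * s)) σ) := hφ.mono (Half_mono h1)
    have h3 : DifferentiableOn ℂ P (Half e (A * (R ^ (k + 1) * s)) σ) := hP.mono (Half_mono h1)
    exact h3.mul ((h2.const_mul _).cexp)
  · intro k _ hk q hq
    have hd : a₁ / ((k : ℝ) + 2) ^ 4 ∈ Ioc (0 : ℝ) 1 := by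
      refine ⟨by positivity, ?_⟩
      rw [div_le_one (by positivity)]
      have : (1 : ℝ) ≤ ((k : ℝ) + 2) ^ 4 := one_le_pow₀ (by
        have : (0 : ℝ) ≤ (k : ℝ) := Nat.cast_nonneg _
        linarith)
      linarith
    have h5 : C0 * (a₁ / ((k : ℝ) + 2) ^ 4) ^ (-κ) ≤ K * g4 k := by
      have h6 := depth_rpow ha₁p ha₁1 hκ k
      have := mul_le_mul_of_nonneg_left h6 (by linarith : 0 ≤ C0)
      rw [hK]
      linarith
    set x := C0 * (a₁ / ((k : ℝ) + 2) ^ 4) ^ (-κ) with hx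
    have hex : Real.exp x ≤ Real.exp (K * g4 k) := Real.exp_le_exp.2 h5
    have hex0 := Real.exp_pos x
    have hmem : R ^ (k + 1) * s ∈ Icc s η₁ := ⟨hsR _, hscale _ (by omega)⟩
    have hfin : Real.exp x * (1 + 2 * CR) ≤ Real.exp (K * g4 k) * (1 + 2 * CR) :=
      mul_le_mul_of_nonneg_right hex (by linarith)
    by_cases hcase : 0 ≤ sg k * lam (R ^ (k + 1) * s)
    · refine (hPs _ hmem _ hd (sg k) (hsg1 k) hcase q hq).trans (Real.exp_le_exp.2 ?_)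
      show Real.exp x ≤ Real.exp (K * g4 k) * (1 + 2 * CR)
      refine le_trans ?_ hfin
      exact le_mul_of_one_le_right hex0.le (by linarith)
    · push Not at hcase
      have hth := hthick k (hscale _ (by omega)) (sg k) (hsg1 k) (hsg2 k) hcase.le
      have hneg : (-sg k = 1 ∨ -sg k = -1) := by
        rcases hsg1 k with h | h <;> rw [h] <;> norm_num
      have h7 := hPs _ hmem _ hd (-sg k) hneg (by linarith) q hq
      have h8 := hS.ph _ hmem _ hd q hq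
      have h9 : |(φ q).im| ≤ Real.exp x * CR := by
        have h10 := Complex.abs_im_le_norm
          (φ q - ((φ (ray e (R ^ (k + 1) * s))).re : ℂ))
        rw [Complex.sub_im, Complex.ofReal_im, sub_zero] at h10
        exact h10.trans (h8.trans (mul_le_mul_of_nonneg_left hth hex0.le))
      have h11 := norm_switch (hsg1 k) hneg (P q) (φ q) h9
      refine h11.trans ?_
      refine (mul_le_mul_of_nonneg_right h7 (Real.exp_pos _).le).trans ?_
      rw [← Real.exp_add]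
      refine Real.exp_le_exp.2 ?_
      show Real.exp x + 2 * (Real.exp x * CR) ≤ Real.exp (K * g4 k) * (1 + 2 * CR)
      linarith
  · intro k _ hk q hq
    show ‖P q * cexp (sg k * I * φ q)‖ ≤ ‖P q * cexp (sg (k + 1) * I * φ q)‖ * Real.exp (w k)
    have hw0 : 0 ≤ w k := by
      simp only [hw]
      positivity
    by_cases hcase : sg k = sg (k + 1)
    · rw [hcase]
      exact le_mul_of_one_le_right (norm_nonneg _) (Real.one_le_exp hw0)
    · have hneg : sg k = -sg (k + 1) := by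
        rcases hsg1 k with h | h <;> rcases hsg1 (k + 1) with h' | h'
        · exact absurd (h.trans h'.symm) hcase
        · rw [h, h']; norm_num
        · rw [h, h']
        · exact absurd (h.trans h'.symm) hcase
      have hle : sg k * lam (R ^ (k + 1) * s) ≤ 0 := by
        have := hsg2 (k + 1)
        rw [hneg]
        linarith
      have hth := hthick k (hscale _ (by omega)) (sg k) (hsg1 k) (hsg2 k) hle
      have h8 := n1 (k + 1) (by omega) q hq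
      have h9 : |(φ q).im| ≤ CR * Real.exp (2 * (K * g4 (k + 1) + C5) + 4 * (Lg + K) +
          (1 / 2) ^ (N + 1 - (k + 1)) * L1) := by
        have h10 := Complex.abs_im_le_norm
          (φ q - ((φ (ray e (R ^ (k + 1) * s))).re : ℂ))
        rw [Complex.sub_im, Complex.ofReal_im, sub_zero] at h10
        exact h10.trans (h8.trans (mul_le_mul_of_nonneg_right hth (Real.exp_pos _).le))
      exact norm_switch (hsg1 k) (hsg1 (k + 1)) (P q) (φ q) h9
  · intro q hq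
    show ‖P q * cexp (sg N * I * φ q)‖ ≤ Real.exp (Ys D (2 * M1) N (N + 1))
    have h1 := htop q hq
    have h2 := hPt q hq
    have h3 : |(φ q).im| ≤ M1 := (Complex.abs_im_le_norm _).trans h1
    rw [norm_mul, norm_e]
    have h4 : Real.exp (-(sg N * (φ q).im)) ≤ Real.exp M1 := by
      refine Real.exp_le_exp.2 ?_
      have h5 := (abs_le.1 h3).1
      have h6 := (abs_le.1 h3).2
      rcases hsg1 N with h | h <;> rw [h] <;> linarith
    have h7 : ‖P q‖ * Real.exp (-(sg N * (φ q).im)) ≤ Real.exp M1 * Real.exp M1 :=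
      mul_le_mul h2 h4 (Real.exp_pos _).le (Real.exp_pos _).le
    refine h7.trans ?_
    rw [← Real.exp_add]
    refine Real.exp_le_exp.2 ?_
    have h8 := Zs_nonneg (N := N) (k := N + 1) le_rfl
    unfold Ys
    rw [Nat.sub_self, pow_zero, one_mul]
    have h9 : 0 ≤ 4 * D * (3 / 2) ^ (N + 1) := by positivity
    have h10 : 0 ≤ D * (2 * M1) * Zs N (N + 1) := by positivity
    linarith

end N2

set_option maxHeartbeats 1000000 in
/-- **619 (1) + (2) at one window**, uniform constants -/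
theorem n12 {σ A c c₂ κ C0 : ℝ} (hσ : 0 ≤ σ) (hA : 1 ≤ A) (hc : 0 < c) (hc1 : c ≤ 1)
    (hcσ : c ≤ σ) (hc₂ : 0 < c₂) (hc₂1 : c₂ ≤ 1) (hκ : κ ≤ 1 / 16) (hC0 : 1 ≤ C0) :
    ∃ C : ℝ, 1 ≤ C ∧ ∃ m : ℝ, 0 < m ∧ ∃ τ : ℝ, 0 < τ ∧
      ∀ (e : ℝ × ℝ) (s η₁ M1 : ℝ) (lam : ℝ → ℝ) (φ p : ℂ × ℂ → ℂ), 0 < s → C * s ≤ η₁ →
      0 ≤ M1 → M1 * (s / η₁) ^ τ ≤ 1 →
      DifferentiableOn ℂ φ (Half e (A * η₁) σ) → DifferentiableOn ℂ p (Half e (A * η₁) σ) →
      Side e A κ C0 lam φ p s η₁ →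
      (∀ q : ℂ × ℂ, ‖q.1 - (e.1 : ℂ)‖ ≤ A * η₁ → ‖q.2 - (e.2 : ℂ)‖ ≤ A * η₁ →
        m * η₁ ≤ q.2.im → q.1.im ≤ (σ - c / 4) * q.2.im → ‖φ q‖ ≤ M1 ∧ ‖p q‖ ≤ Real.exp M1) →
      (∀ q ∈ KW e σ A c c₂ s, ‖φ q - ((φ (ray e s)).re : ℂ)‖ ≤ C * (1 + |lam s|)) ∧
      ∀ τ₀ : ℝ, (τ₀ = 1 ∨ τ₀ = -1) → 0 ≤ τ₀ * lam s → ∀ q ∈ KW e σ A c c₂ s,
        ‖p q * cexp (τ₀ * I * φ q)‖ ≤ C ∧ -C ≤ τ₀ * (φ q).im := by
  obtain ⟨R, hR, a, ha, ha1, hch⟩ := chain hσ hA
  set a₁ := a ^ 2 / 4 * c₂ * c ^ 2 with ha₁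
  have ha₁p : 0 < a₁ := by positivity
  set K := C0 * a₁⁻¹ with hK
  have hK0 : 0 ≤ K := by positivity
  obtain ⟨C', hC'0, hC'⟩ := exp_g4 (2 * K) (by linarith)
  set CR := C0 * R ^ C0 with hCRd
  have hCR : 1 ≤ CR := by
    have : 1 ≤ R ^ C0 := Real.one_le_rpow (by linarith) (by linarith)
    rw [hCRd]
    nlinarith
  set C5 := Real.exp (C0 * (1 / (4 * R)) ^ (-κ)) with hC5
  have hC5p : 0 < C5 := Real.exp_pos _
  set Lg := Real.log (2 * CR) with hLg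
  have hLg0 : 0 ≤ Lg := Real.log_nonneg (by linarith)
  set D := C7 C' CR K C5 Lg with hD
  have hD0 : 0 ≤ D := by
    rw [hD]
    unfold C7
    positivity
  set E1 := 2 * (K * g4 0 + C5) + 4 * (Lg + K) + 2 with hE1
  have hE10 : 0 ≤ E1 := by
    have := g4_nonneg 0
    positivity
  have hlR : 0 < Real.log R := Real.log_pos (by linarith)
  have hl43 : 0 < Real.log (4 / 3) := Real.log_pos (by norm_num)
  have hRC : R ≤ R + Real.exp (16 * D + 4) + Real.exp E1 := by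
    have := Real.exp_pos (16 * D + 4)
    have := Real.exp_pos E1
    linarith
  refine ⟨R + Real.exp (16 * D + 4) + Real.exp E1, by linarith, a * (c / 4) / R, by positivity,
    Real.log (4 / 3) / Real.log R, by positivity, ?_⟩
  intro e s η₁ M1 lam φ p hs hsη hM1 hM hφ hp hS htop
  have hRp : ∀ j : ℕ, 0 < R ^ j := fun j => by positivity
  -- number of steps
  have hη : 0 < η₁ := lt_of_lt_of_le (by positivity) ((mul_le_mul_of_nonneg_right hRC hs.le).trans hsη)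
  have hx : R ≤ η₁ / s := by
    rw [le_div_iff₀ hs]
    exact (mul_le_mul_of_nonneg_right hRC hs.le).trans hsη
  obtain ⟨n, hn1, hn2⟩ := exists_nat_pow_near (x := η₁ / s) (y := R) (by linarith) (by linarith)
  have hn : 1 ≤ n := by
    by_contra h
    have : n = 0 := by omega
    subst this
    simp at hn2
    linarith
  obtain ⟨N, rfl⟩ : ∃ N, n = N + 1 := ⟨n - 1, by omega⟩
  have hN : R ^ (N + 1) * s ≤ η₁ := by
    rwa [le_div_iff₀ hs] at hn1
  have hN' : η₁ < R * (R ^ (N + 1) * s) := by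
    rw [div_lt_iff₀ hs] at hn2
    calc η₁ < R ^ (N + 1 + 1) * s := hn2
      _ = R * (R ^ (N + 1) * s) := by ring
  have hpow : M1 * (3 / 4) ^ N ≤ 2 := by
    have h1 : (R ^ (N + 2))⁻¹ ≤ s / η₁ := by
      rw [inv_le_comm₀ (hRp _) (by positivity), inv_div]
      exact le_of_lt hn2
    have h2 : ((R ^ (N + 2))⁻¹) ^ (Real.log (4 / 3) / Real.log R) = (3 / 4 : ℝ) ^ (N + 2) := by
      rw [← inv_pow, ← Real.rpow_natCast, ← Real.rpow_mul (by positivity), mul_comm,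
        Real.rpow_mul (by positivity), Real.rpow_natCast]
      congr 1
      rw [Real.inv_rpow (by positivity), Real.rpow_def_of_pos (by positivity),
        mul_div_cancel₀ _ hlR.ne', Real.exp_log (by norm_num)]
      norm_num
    have h3 : (3 / 4 : ℝ) ^ (N + 2) ≤ (s / η₁) ^ (Real.log (4 / 3) / Real.log R) := by
      rw [← h2]
      exact Real.rpow_le_rpow (by positivity) h1 (by positivity)
    have h4 := mul_le_mul_of_nonneg_left h3 hM1
    rw [pow_succ, pow_succ] at h4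
    nlinarith
  have hhalf : (1 / 2 : ℝ) ^ N ≤ (3 / 4) ^ N := pow_le_pow_left₀ (by norm_num) (by norm_num) N
  have hhalf' : M1 * (1 / 2) ^ N ≤ 2 :=
    (mul_le_mul_of_nonneg_left hhalf hM1).trans hpow
  have hmem : ∀ q ∈ KW e σ A (c / 4) (a * (c / 4)) (R ^ (N + 1) * s),
      ‖φ q‖ ≤ M1 ∧ ‖p q‖ ≤ Real.exp M1 := by
    rintro q ⟨h1, h2, h3, h4⟩
    refine htop q (h1.trans ?_) (h2.trans ?_) (le_trans ?_ h3) h4
    · exact mul_le_mul_of_nonneg_left hN (by linarith)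
    · exact mul_le_mul_of_nonneg_left hN (by linarith)
    · rw [div_mul_eq_mul_div, div_le_iff₀ (by linarith)]
      have h5 : a * (c / 4) * η₁ ≤ a * (c / 4) * (R * (R ^ (N + 1) * s)) :=
        mul_le_mul_of_nonneg_left hN'.le (by positivity)
      linarith
  have htopφ := fun q hq => (hmem q hq).1
  have hray : ‖φ (ray e (R ^ (N + 1) * s))‖ ≤ M1 := by
    set t := R ^ (N + 1) * s with ht
    have htp : 0 < t := by positivity
    have htA : t ≤ A * t := by nlinarith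
    refine htopφ _ ⟨?_, ?_, ?_, ?_⟩
    · have : (ray e t).1 - (e.1 : ℂ) = (t : ℂ) * (-I) := by simp [ray, bl]
      rw [this, norm_mul, Complex.norm_real, Real.norm_of_nonneg htp.le]
      simpa using htA
    · have : (ray e t).2 - (e.2 : ℂ) = (t : ℂ) * (I / 4) := by simp [ray, bl]
      rw [this, norm_mul, Complex.norm_real, Real.norm_of_nonneg htp.le]
      simp
      linarith
    · have : (ray e t).2.im = t / 4 := by
        simp [ray, bl]
        ring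
      rw [this]
      have h6 : a * (c / 4) ≤ 1 / 4 := by nlinarith
      have h7 : a * (c / 4) * t ≤ 1 / 4 * t := mul_le_mul_of_nonneg_right h6 htp.le
      linarith
    · have h1 : (ray e t).2.im = t / 4 := by
        simp [ray, bl]
        ring
      have h2 : (ray e t).1.im = -t := by simp [ray, bl]
      rw [h1, h2]
      have : 0 ≤ (σ - c / 4) * (t / 4) := mul_nonneg (by linarith) (by positivity)
      linarith
  have hL1 : Real.log (1 + 2 * M1) ≤ 2 * M1 := by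
    have := Real.log_le_sub_one_of_pos (x := 1 + 2 * M1) (by linarith)
    linarith
  have core := n2core (C' := C') hch hA hR ha ha1 hc hc1 hcσ hc₂ hc₂1 hκ hC0 hs hM1 hS N hN hφ
    htopφ hray hC'
  have hbound : D * (4 + 3 * (2 * M1) * (3 / 4) ^ N) + 2 * M1 * (1 / 2) ^ N ≤ 16 * D + 4 := by
    have h1 : 4 + 3 * (2 * M1) * (3 / 4) ^ N ≤ 16 := by linarith
    have h2 := mul_le_mul_of_nonneg_left h1 hD0
    linarith
  refine ⟨?_, ?_⟩
  · intro q hq
    have h0 := n1core hch hA hR ha ha1 hc hc1 hcσ hc₂ hc₂1 hκ hC0 hs hM1 hS N hN hφ htopφ hray 0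
      (Nat.zero_le _) q (by
        rw [lv_zero]
        simpa [wc] using hq)
    have e1 : R ^ 0 * s = s := by simp
    rw [e1] at h0
    refine h0.trans ?_
    rw [mul_comm]
    refine mul_le_mul_of_nonneg_right ?_ (by positivity)
    have h1 : (1 / 2 : ℝ) ^ (N + 1 - 0) * Real.log (1 + 2 * M1) ≤ 2 := by
      rw [Nat.sub_zero, pow_succ]
      have h2 : (1 / 2 : ℝ) ^ N * (1 / 2) * Real.log (1 + 2 * M1) ≤
          (1 / 2 : ℝ) ^ N * (1 / 2) * (2 * M1) := mul_le_mul_of_nonneg_left hL1 (by positivity)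
      linarith
    have h3 : Real.exp (2 * (K * g4 0 + C5) + 4 * (Lg + K) +
        (1 / 2) ^ (N + 1 - 0) * Real.log (1 + 2 * M1)) ≤ Real.exp E1 :=
      Real.exp_le_exp.2 (by rw [hE1]; linarith)
    refine h3.trans ?_
    have := Real.exp_pos (16 * D + 4)
    linarith
  · intro τ₀ hτ₀ hτl q hq
    constructor
    · have h1 := core p hp (fun q hq => (hmem q hq).2)
        (fun s' hs' d hd τ hτ hτ' q hq => (hS.sgn s' hs' d hd τ hτ hτ' q hq).2) τ₀ hτ₀ hτl q hq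
      refine h1.trans ((Real.exp_le_exp.2 hbound).trans ?_)
      have := Real.exp_pos E1
      linarith
    · have h1 := core (fun _ => 1) (differentiableOn_const _)
        (fun q _ => by simpa using hM1)
        (fun s' hs' d hd τ hτ hτ' q hq => by
          have h2 := (hS.sgn s' hs' d hd τ hτ hτ' q hq).1
          rw [one_mul, norm_e]
          exact Real.exp_le_exp.2 (by linarith)) τ₀ hτ₀ hτl q hq
      simp only [one_mul, norm_e] at h1
      have h2 := (Real.exp_le_exp.1 h1).trans hbound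
      have h3 := Real.add_one_le_exp (16 * D + 4)
      have := Real.exp_pos E1
      linarith

/-- `Side` is invariant under `φ ↦ φ - x`, `x` real -/
lemma Side.shift {e : ℝ × ℝ} {A κ C0 : ℝ} {lam : ℝ → ℝ} {φ p : ℂ × ℂ → ℂ} {s η₁ : ℝ}
    (hS : Side e A κ C0 lam φ p s η₁) (x : ℝ) :
    Side e A κ C0 lam (fun q => φ q - (x : ℂ)) p s η₁ where
  cont := hS.cont
  lip := hS.lip
  ph := by
    intro s' hs' d hd q hq
    refine le_trans (le_of_eq ?_) (hS.ph s' hs' d hd q hq)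
    congr 1
    simp
  sgn := by
    intro s' hs' d hd σ hσ hσ' q hq
    have h := hS.sgn s' hs' d hd σ hσ hσ' q hq
    refine ⟨by simpa using h.1, ?_⟩
    have e1 : ‖p q * cexp (σ * I * (φ q - (x : ℂ)))‖ = ‖p q * cexp (σ * I * φ q)‖ := by
      rw [norm_mul, norm_mul, norm_e, norm_e]
      simp
    rw [e1]
    exact h.2


end Crest.Agent.R102.N12
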