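import Crest.Agent.R102.LagB_821

-- ▼ part R102/Res_821
section

/-!
Row 102, part (B) (helper821): from the action estimate `ResonanceB4` to the resonant Fourier
coefficients of `P = X_t E`.
-/

set_option autoImplicit false

open Set Filter Topology Metric Complex MeasureTheory
open scoped Real ContDiff ComplexConjugate

noncomputable section

namespace Crest.Agent.R102.B821

open Crest.Agent.R266.SCV

variable {ρ₀ ε₀ k ρ r d : ℝ} {L Ψ U V f g : ℂ × ℂ → ℂ}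

/-- the constants of B4 for a fixed Lagrangian -/
def B4Const (ρ₀ : ℝ) (L : ℂ × ℂ → ℂ) (C c r₁ : ℝ) : Prop :=
  ∀ (ρ d w ε : ℝ) (n j : ℕ) (X : ℂ → ℂ), 0 < d → d < ρ → d ≤ 1 → ρ ≤ ρ₀ / 2 → 0 < n → 0 < j →
        w = j / n → w < r₁ → 0 ≤ ε → (n : ℝ) ^ 6 * ε ≤ c * d →
        DifferentiableOn ℂ X {t | |t.im| < ρ} →
        (∀ t : ℂ, |t.im| < ρ → X (t + 1) = X t + 1) →
        (∀ t : ℝ, (X t).im = 0) →
        (∀ t : ℂ, |t.im| < ρ → ‖X t - t‖ ≤ ρ₀ / 8) →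
        (∀ t : ℂ, |t.im| < ρ → ‖deriv X t - 1‖ ≤ 1 / 100) →
        (∀ t : ℂ, |t.im| < ρ → ‖deriv X t * EL L (X (t - w)) (X t) (X (t + w))‖ ≤ ε) →
        ∃ A : ℂ, ∀ t : ℂ, |t.im| < ρ - d →
          ‖(∑ i ∈ Finset.range n, L (X (t + i * w), X (t + (i + 1) * w))) - A‖ ≤
            C * n ^ 5 / w ^ 2 * ε ^ 2

lemma real_w_mem {t : ℂ} {w : ℝ} {k ρ r : ℝ} : (t, (w : ℂ)) ∈ Dom k ρ r ↔ |t.im| < ρ ∧ |w| < r := by
  simp [mem_Dom]

/-- resonant coefficients, positive frequency and positive rotation number -/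
theorem Adm.res_pos (hL : IsLag ρ₀ ε₀ L Ψ) {C c r₁ e : ℝ} (hC : 0 ≤ C) (hB4 : B4Const ρ₀ L C c r₁)
    (h : Adm ρ₀ ε₀ ρ r U) (hr₁ : r ≤ r₁) (he : 0 ≤ e) (hP : Bdd (3 / 2) ρ r 8 e (Pf L U))
    (hd : 0 < d) (hdρ : d < ρ) (hd1 : d ≤ 1) {n j : ℕ} (hn : 0 < n) (hj : 0 < j)
    (hw : (j : ℝ) / n < r) (hnc : (n : ℝ) ^ 6 * e ≤ c * d) :
    ‖fc (Pf L U) n (((j : ℝ) / n : ℝ) : ℂ)‖ ≤
      7 * C * n ^ 5 * e ^ 2 * ((j : ℝ) / n) ^ 8 * Real.exp (-(2 * π * n * (ρ - d))) := by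
  set w : ℝ := (j : ℝ) / n with hwdef
  have hnR : (0 : ℝ) < n := by exact_mod_cast hn
  have hjR : (0 : ℝ) < j := by exact_mod_cast hj
  have hw0 : 0 < w := by positivity
  have hw1 : w < 1 := by have := h.r_le; linarith
  have hwabs : |w| < r := by rwa [abs_of_pos hw0]
  have hρ := h.ρ_pos
  -- the leaf
  set X : ℂ → ℂ := fun t => Xf U (t, (w : ℂ)) with hX
  have hmem : ∀ t : ℂ, |t.im| < ρ → (t, (w : ℂ)) ∈ Dom (1 / 2) ρ r := fun t ht =>
    real_w_mem.2 ⟨ht, hwabs⟩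
  have hmem3 : ∀ t : ℂ, |t.im| < ρ → (t, (w : ℂ)) ∈ Dom (3 / 2) ρ r := fun t ht =>
    real_w_mem.2 ⟨ht, hwabs⟩
  have hXd : ∀ t : ℂ, |t.im| < ρ → HasDerivAt X (Xt U (t, (w : ℂ))) t := by
    intro t ht
    have := hasDerivAt_Xf_t (c := 0) (U := U) (t := t) (w := (w : ℂ))
      (by simpa using h.hU.differentiableAt (hmem t ht))
    simpa [tr_zero] using this
  have hXper : ∀ t : ℂ, |t.im| < ρ → X (t + 1) = X t + 1 := fun t ht =>
    h.hU.isX.per t w (hmem t ht)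
  have hXre : ∀ t : ℝ, (X t).im = 0 := by
    intro t
    have h1 := h.re.apply (hmem (t : ℂ) (by simpa using hρ))
    rw [Complex.conj_ofReal, Complex.conj_ofReal] at h1
    have h2 : (U ((t : ℂ), (w : ℂ))).im = 0 := Complex.conj_eq_iff_im.1 h1.symm
    simp [hX, Xf, h2]
  have hXt : ∀ t : ℂ, |t.im| < ρ → ‖X t - t‖ ≤ ρ₀ / 8 := by
    intro t ht
    have : X t - t = U (t, (w : ℂ)) := by simp [hX, Xf]
    rw [this]
    exact h.U_bd _ (hmem t ht)
  have hX1 : ∀ t : ℂ, |t.im| < ρ → ‖deriv X t - 1‖ ≤ 1 / 100 := by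
    intro t ht
    rw [(hXd t ht).deriv]
    have : Xt U (t, (w : ℂ)) - 1 = q1 U (t, (w : ℂ)) := by unfold Xt; ring
    rw [this]
    exact h.Ut_bd _ (hmem t ht)
  have hPX : ∀ t : ℂ, |t.im| < ρ →
      deriv X t * EL L (X (t - w)) (X t) (X (t + w)) = Pf L U (t, (w : ℂ)) := by
    intro t ht
    rw [(hXd t ht).deriv]
    unfold Pf Ef tr
    simp only [hX]
    have e1 : t + ((-1 : ℝ) : ℂ) * (w : ℂ) = t - w := by push_cast; ring
    have e2 : t + ((1 : ℝ) : ℂ) * (w : ℂ) = t + w := by push_cast; ring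
    rw [e1, e2]
  set ε : ℝ := e * w ^ 8 with hε
  have hε0 : 0 ≤ ε := by positivity
  have hPε : ∀ t : ℂ, |t.im| < ρ → ‖Pf L U (t, (w : ℂ))‖ ≤ ε := by
    intro t ht
    have := hP _ (hmem3 t ht)
    simp only [Complex.norm_real, Real.norm_of_nonneg hw0.le] at this
    exact this
  have hw8 : w ^ 8 ≤ 1 := pow_le_one₀ hw0.le hw1.le
  have hnε : (n : ℝ) ^ 6 * ε ≤ c * d := by
    refine le_trans ?_ hnc
    rw [hε]
    have : e * w ^ 8 ≤ e * 1 := mul_le_mul_of_nonneg_left hw8 he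
    refine mul_le_mul_of_nonneg_left (by linarith) (by positivity)
  obtain ⟨A, hA⟩ := hB4 ρ d w ε n j X hd hdρ hd1 h.ρ_le hn hj rfl (by linarith) hε0 hnε
    (fun t ht => (hXd t ht).differentiableAt.differentiableWithinAt) hXper hXre hXt hX1
    (fun t ht => by rw [hPX t ht]; exact hPε t ht)
  -- the action function
  set W : ℂ → ℂ := fun t => ∑ i ∈ Finset.range n, L (X (t + i * w), X (t + (i + 1) * w)) with hW
  have him : ∀ (t : ℂ) (a : ℝ), (t + a * (w : ℂ)).im = t.im := by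
    intro t a
    simp
  have hpair : ∀ (t : ℂ) (a : ℝ), |t.im| < ρ →
      (X (t + a * w), X (t + (a + 1) * w)) ∈ Dg ρ₀ ε₀ := by
    intro t a ht
    have h1 := hmem (t + a * w) (by rw [him]; exact ht)
    have h2 := hmem (t + ((a + 1 : ℝ) : ℂ) * w) (by rw [him]; exact ht)
    have h3 := h.pair h1 h2 (by
      have : t + ((a + 1 : ℝ) : ℂ) * w - (t + a * w) = w := by push_cast; ring
      rw [this])
    have h4 := Dg_sub_of_lag hL h3
    simpa [hX] using h4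
  have hXd' : ∀ (t : ℂ) (a : ℝ), |t.im| < ρ →
      HasDerivAt (fun t => X (t + a * w)) (Xt U (t + a * w, (w : ℂ))) t := by
    intro t a ht
    have h1 : HasDerivAt (fun t : ℂ => t + a * (w : ℂ)) 1 t := (hasDerivAt_id t).add_const _
    have h2 := (hXd (t + a * w) (by rw [him]; exact ht)).comp t h1
    exact h2.congr_deriv (mul_one _)
  -- derivative of one summand
  set A1 : ℂ → ℝ → ℂ := fun t a => q1 L (X (t + a * w), X (t + (a + 1) * w)) *
    Xt U (t + a * w, (w : ℂ)) with hA1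
  set A2 : ℂ → ℝ → ℂ := fun t a => q2 L (X (t + (a - 1) * w), X (t + a * w)) *
    Xt U (t + a * w, (w : ℂ)) with hA2
  have hsum_d : ∀ (t : ℂ) (a : ℝ), |t.im| < ρ →
      HasDerivAt (fun t => L (X (t + a * w), X (t + (a + 1) * w))) (A1 t a + A2 t (a + 1)) t := by
    intro t a ht
    have h1 := hXd' t a ht
    have h2 := hXd' t (a + 1) ht
    push_cast at h2
    have h3 := hasDerivAt_comp2 (F := L) (hL.dL _ (hpair t a ht)) h1 h2
    refine h3.congr_deriv ?_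
    simp only [hA1, hA2]
    push_cast
    ring_nf
  have hP12 : ∀ (t : ℂ) (a : ℝ), Pf L U (t + a * w, (w : ℂ)) = A2 t a + A1 t a := by
    intro t a
    simp only [hA1, hA2, hX]
    unfold Pf Ef tr EL
    simp only
    have e1 : t + a * (w : ℂ) + ((-1 : ℝ) : ℂ) * (w : ℂ) = t + (a - 1) * w := by push_cast; ring
    have e2 : t + a * (w : ℂ) + ((1 : ℝ) : ℂ) * (w : ℂ) = t + (a + 1) * w := by push_cast; ring
    rw [e1, e2]
    ring
  have hA2per : ∀ t : ℂ, |t.im| < ρ → A2 t n = A2 t 0 := by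
    intro t ht
    have hnw : (n : ℂ) * (w : ℂ) = j := by
      have hn0 : (n : ℂ) ≠ 0 := by exact_mod_cast hn.ne'
      rw [hwdef]; push_cast; field_simp
    have hXj : ∀ (m : ℕ) (s : ℂ), |s.im| < ρ → X (s + m) = X s + m := by
      intro m
      induction m with
      | zero => intro s _; simp
      | succ m ih =>
        intro s hs
        have h1 := ih s hs
        have h2 := hXper (s + m) (by simpa using hs)
        push_cast
        rw [← add_assoc, h2, h1]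
        ring
    have hXtj : ∀ (m : ℕ) (s : ℂ), |s.im| < ρ → Xt U (s + m, (w : ℂ)) = Xt U (s, (w : ℂ)) := by
      intro m
      induction m with
      | zero => intro s _; simp
      | succ m ih =>
        intro s hs
        have h1 := ih s hs
        have h2 := h.hXt.per (s + m) w (hmem _ (by simpa using hs))
        push_cast
        rw [← add_assoc, h2, h1]
    have hq2j : ∀ (m : ℕ) (a b : ℂ), (a, b) ∈ Dg ρ₀ ε₀ → q2 L (a + m, b + m) = q2 L (a, b) := by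
      intro m
      induction m with
      | zero => intro a b _; simp
      | succ m ih =>
        intro a b hab
        have h1 := ih a b hab
        have h3 : (a + m, b + m) ∈ Dg ρ₀ ε₀ := by
          simp only [Dg, Set.mem_ofPred_eq] at hab ⊢
          rw [add_sub_add_right_eq_sub]
          simpa using hab
        have h2 := hL.q2_per h3
        push_cast
        rw [← add_assoc, ← add_assoc, h2, h1]
    have e1 : t + (((n : ℝ) : ℂ) - 1) * w = (t + (((0 : ℝ) : ℂ) - 1) * w) + j := by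
      push_cast; linear_combination hnw
    have e2 : t + ((n : ℝ) : ℂ) * w = (t + ((0 : ℝ) : ℂ) * w) + j := by
      push_cast; linear_combination hnw
    have i1 : |(t + (((0 : ℝ) : ℂ) - 1) * w).im| < ρ := by
      have := him t ((0 : ℝ) - 1)
      push_cast at this ⊢
      rw [this]; exact ht
    have i2 : |(t + ((0 : ℝ) : ℂ) * w).im| < ρ := by
      rw [him]; exact ht
    have hp0 : (X (t + (((0 : ℝ) : ℂ) - 1) * w), X (t + ((0 : ℝ) : ℂ) * w)) ∈ Dg ρ₀ ε₀ := by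
      have := hpair t (-1) ht
      push_cast at this ⊢
      have e3 : t + (-1 : ℂ) * (w : ℂ) = t + (0 - 1) * w := by ring
      have e4 : t + (-1 + 1 : ℂ) * (w : ℂ) = t + 0 * w := by ring
      rwa [e3, e4] at this
    simp only [hA2]
    rw [e1, e2, hXj j _ i1, hXj j _ i2, hXtj j _ i2, hq2j j _ _ hp0]
  have hWd : ∀ t : ℂ, |t.im| < ρ →
      HasDerivAt W (∑ i ∈ Finset.range n, Pf L U (t + ((i : ℝ) : ℂ) * w, (w : ℂ))) t := by
    intro t ht
    have h1 : HasDerivAt W (∑ i ∈ Finset.range n, (A1 t i + A2 t (i + 1))) t := by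
      have h2 := HasDerivAt.fun_sum (u := Finset.range n)
        (A := fun (i : ℕ) (t : ℂ) => L (X (t + ((i : ℝ) : ℂ) * w), X (t + (((i : ℝ) : ℂ) + 1) * w)))
        (A' := fun i => A1 t i + A2 t (i + 1)) (x := t) (fun i _ => hsum_d t i ht)
      simpa [hW] using h2
    refine h1.congr_deriv ?_
    simp only [hP12]
    rw [Finset.sum_add_distrib, Finset.sum_add_distrib, add_comm]
    congr 1
    have h3 : ∑ i ∈ Finset.range n, A2 t ((i : ℝ) + 1) =
        ∑ i ∈ Finset.range n, (fun i : ℕ => A2 t (i : ℝ)) (i + 1) := by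
      refine Finset.sum_congr rfl (fun i _ => ?_)
      simp
    rw [h3, Finset.sum_range_succ' (fun i : ℕ => A2 t (i : ℝ)) n |>.symm.trans
      (Finset.sum_range_succ (fun i : ℕ => A2 t (i : ℝ)) n) |> eq_sub_of_add_eq]
    simp only [Nat.cast_zero]
    rw [hA2per t ht]
    ring
  -- W is periodic
  have hWper : ∀ t : ℂ, |t.im| < ρ → W (t + 1) = W t := by
    intro t ht
    simp only [hW]
    refine Finset.sum_congr rfl (fun i _ => ?_)
    have h1 := hpair t i ht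
    have i1 : |(t + ((i : ℝ) : ℂ) * w).im| < ρ := by rw [him]; exact ht
    have i2 : |(t + (((i : ℝ) : ℂ) + 1) * w).im| < ρ := by
      have := him t ((i : ℝ) + 1)
      push_cast at this ⊢
      rw [this]; exact ht
    have e1 := hXper _ i1
    have e2 := hXper _ i2
    have e3 := hL.perL h1
    push_cast at e1 e2 e3 ⊢
    have a1 : t + 1 + (i : ℂ) * w = t + i * w + 1 := by ring
    have a2 : t + 1 + ((i : ℂ) + 1) * w = t + ((i : ℂ) + 1) * w + 1 := by ring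
    rw [a1, a2, e1, e2, e3]
  -- the auxiliary two variable function
  set f : ℂ × ℂ → ℂ := fun p => W p.1 - A with hf
  have hfH : IsH 0 (ρ - d) 1 f := by
    refine ⟨?_, ?_⟩
    · intro p hp
      have hp1 : |p.1.im| < ρ := by
        have := hp.1
        rw [zero_mul, add_zero] at this
        linarith
      have h1 : DifferentiableAt ℂ W p.1 := (hWd p.1 hp1).differentiableAt
      exact ((h1.comp p differentiableAt_fst).sub_const A).differentiableWithinAt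
    · intro t z hz
      have hp1 : |t.im| < ρ := by
        have := hz.1
        simp only [zero_mul, add_zero] at this
        linarith
      simp only [hf]
      rw [hWper t hp1]
  have hfb : Bdd 0 (ρ - d) 1 0 (C * n ^ 5 / w ^ 2 * ε ^ 2) f := by
    intro p hp
    rw [pow_zero, mul_one]
    refine hA p.1 ?_
    have := hp.1
    rw [zero_mul, add_zero] at this
    exact this
  have h1 := norm_fc_le hfH hfb (n : ℤ) (w := 0) (by simp) (by simp; linarith)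
  have h2 := fc_q1 hfH (n : ℤ) (w := 0) (by simp) (by simp; linarith)
  -- the derivative
  have hreal : ∀ x : ℝ, ((x : ℂ)).im = 0 := fun x => Complex.ofReal_im x
  have h3 : fc (q1 f) (n : ℤ) 0 = n * fc (Pf L U) n (w : ℂ) := by
    have hPH := h.hPf hL
    have e1 : fc (q1 f) (n : ℤ) 0 = ∑ i ∈ Finset.range n, fc (tr (i : ℝ) (Pf L U)) n (w : ℂ) := by
      unfold fc
      rw [← intervalIntegral.integral_finsetSum]
      · refine intervalIntegral.integral_congr (fun x _ => ?_)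
        have hx : |((x : ℂ)).im| < ρ := by rw [hreal, abs_zero]; exact hρ
        have hd2 : q1 f ((x : ℂ), 0) = ∑ i ∈ Finset.range n,
            Pf L U ((x : ℂ) + ((i : ℝ) : ℂ) * w, (w : ℂ)) := by
          have hmx : ((x : ℂ), (0 : ℂ)) ∈ Dom 0 (ρ - d) 1 := by
            refine ⟨?_, by simp⟩
            simp only [hreal, abs_zero, zero_mul, add_zero]
            linarith
          have h4 := hasDerivAt_fst (hfH.differentiableAt hmx)
          exact h4.unique ((hWd x hx).sub_const A)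
        simp only [hd2]
        rw [Finset.sum_mul]
        rfl
      · intro i _
        have hci : Continuous (fun x : ℝ => tr (i : ℝ) (Pf L U) ((x : ℂ), (w : ℂ))) := by
          unfold tr
          refine hPH.continuousOn.comp_continuous (by fun_prop) (fun x => ?_)
          simp only
          exact hmem3 _ (by rw [him, hreal, abs_zero]; exact hρ)
        exact (hci.mul (continuous_ee.comp (by fun_prop))).intervalIntegrable _ _
    have e2 : ∀ i ∈ Finset.range n, fc (tr (i : ℝ) (Pf L U)) n (w : ℂ) = fc (Pf L U) n (w : ℂ) := by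
      intro i _
      rw [fc_tr hPH (i : ℝ) n (w := (w : ℂ)) (by simpa using hwabs) (by simp; exact hρ)]
      have e3 : ((n : ℤ) : ℂ) * (((i : ℝ) : ℂ) * (w : ℂ)) = ((i * j : ℕ) : ℤ) := by
        have hn0 : (n : ℂ) ≠ 0 := by exact_mod_cast hn.ne'
        rw [hwdef]; push_cast; field_simp
      rw [e3, ee_int, one_mul]
    rw [e1, Finset.sum_congr rfl e2, Finset.sum_const, Finset.card_range, nsmul_eq_mul]
  rw [h3] at h2
  have hn0 : (n : ℂ) ≠ 0 := by exact_mod_cast hn.ne'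
  have h4 : fc (Pf L U) n (w : ℂ) = 2 * π * I * fc f (n : ℤ) 0 := by
    apply mul_left_cancel₀ hn0
    rw [h2]
    push_cast
    ring
  have h5 : ‖fc (Pf L U) n (w : ℂ)‖ = 2 * π * ‖fc f (n : ℤ) 0‖ := by
    rw [h4]
    simp [abs_of_pos Real.pi_pos]
  have hnabs : |(((n : ℤ)) : ℝ)| = n := by simp
  rw [hnabs] at h1
  simp only [norm_zero, pow_zero, mul_one, Complex.zero_im, abs_zero, mul_zero, sub_zero] at h1
  rw [h5]
  have hpi4 : 2 * π ≤ 7 := by have := Real.pi_lt_d2; linarith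
  have h6 : C * n ^ 5 / w ^ 2 * ε ^ 2 ≤ C * n ^ 5 * e ^ 2 * w ^ 8 := by
    have e7 : C * n ^ 5 / w ^ 2 * ε ^ 2 = C * n ^ 5 * e ^ 2 * (w ^ 8 * w ^ 6) := by
      rw [hε]; field_simp
    rw [e7]
    have h7 : w ^ 6 ≤ 1 := pow_le_one₀ hw0.le hw1.le
    have h8 : w ^ 8 * w ^ 6 ≤ w ^ 8 * 1 := mul_le_mul_of_nonneg_left h7 (by positivity)
    rw [mul_one] at h8
    exact mul_le_mul_of_nonneg_left h8 (by positivity)
  calc 2 * π * ‖fc f (n : ℤ) 0‖
      ≤ 7 * ((C * n ^ 5 * e ^ 2 * w ^ 8) * Real.exp (-(2 * π * n * (ρ - d)))) := by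
        refine mul_le_mul hpi4 ?_ (norm_nonneg _) (by norm_num)
        refine h1.trans ?_
        exact mul_le_mul_of_nonneg_right h6 (Real.exp_nonneg _)
    _ = _ := by ring

/-- resonant coefficients of `P`, all signs -/
theorem Adm.res_all (hL : IsLag ρ₀ ε₀ L Ψ) {C c r₁ e : ℝ} (hC : 0 ≤ C) (hB4 : B4Const ρ₀ L C c r₁)
    (h : Adm ρ₀ ε₀ ρ r U) (hr₁ : r ≤ r₁) (he : 0 ≤ e) (hP : Bdd (3 / 2) ρ r 8 e (Pf L U))
    (hd : 0 < d) (hdρ : d < ρ) (hd1 : d ≤ 1) {N : ℕ} (hNc : (N : ℝ) ^ 6 * e ≤ c * d)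
    {n j : ℤ} (hn : n ≠ 0) (hnN : |(n : ℝ)| ≤ N) (hj : j ≠ 0) (hw : |(j : ℝ) / n| < r) :
    ‖fc (Pf L U) n ((j : ℂ) / n)‖ ≤
      7 * C * N ^ 5 * e ^ 2 * |(j : ℝ) / n| ^ 8 * Real.exp (-(2 * π * |(n : ℝ)| * (ρ - d))) := by
  -- absolute values
  set m : ℕ := n.natAbs with hm
  set i : ℕ := j.natAbs with hi
  have hm0 : 0 < m := Int.natAbs_pos.2 hn
  have hi0 : 0 < i := Int.natAbs_pos.2 hj
  have hmn : (m : ℝ) = |(n : ℝ)| := by rw [hm, Nat.cast_natAbs, Int.cast_abs]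
  have hij : (i : ℝ) = |(j : ℝ)| := by rw [hi, Nat.cast_natAbs, Int.cast_abs]
  have hw' : (i : ℝ) / m = |(j : ℝ) / n| := by rw [hmn, hij, abs_div]
  have hmN : (m : ℝ) ≤ N := by rw [hmn]; exact hnN
  have hmc : (m : ℝ) ^ 6 * e ≤ c * d := by
    refine le_trans ?_ hNc
    exact mul_le_mul_of_nonneg_right (pow_le_pow_left₀ (by positivity) hmN 6) he
  have h1 := h.res_pos hL hC hB4 hr₁ he hP hd hdρ hd1 hm0 hi0 (by rw [hw']; exact hw) hmc
  have h2 : ‖fc (Pf L U) m (((i : ℝ) / m : ℝ) : ℂ)‖ ≤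
      7 * C * N ^ 5 * e ^ 2 * |(j : ℝ) / n| ^ 8 * Real.exp (-(2 * π * |(n : ℝ)| * (ρ - d))) := by
    refine h1.trans ?_
    rw [hw', hmn]
    refine mul_le_mul_of_nonneg_right ?_ (Real.exp_nonneg _)
    refine mul_le_mul_of_nonneg_right ?_ (by positivity)
    refine mul_le_mul_of_nonneg_right ?_ (by positivity)
    refine mul_le_mul_of_nonneg_left ?_ (by positivity)
    exact pow_le_pow_left₀ (abs_nonneg _) hnN 5
  -- reduction to the positive case
  have hρ := h.ρ_pos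
  have key : ‖fc (Pf L U) n ((j : ℂ) / n)‖ = ‖fc (Pf L U) m (((i : ℝ) / m : ℝ) : ℂ)‖ := by
    have hPH := h.hPf hL
    have hmemx : ∀ (x v : ℝ), |v| < r → ((x : ℂ), (v : ℂ)) ∈ Dom (3 / 2) ρ r := by
      intro x v hv
      exact real_w_mem.2 ⟨by simpa using hρ, hv⟩
    -- parity
    have par : ∀ (q : ℤ) (v : ℝ), |v| < r → fc (Pf L U) q ((-v : ℝ) : ℂ) = - fc (Pf L U) q (v : ℂ) := by
      intro q v hv
      have h3 : fc (Pf L U) q (-(v : ℂ)) = fc (rf (Pf L U)) q (v : ℂ) := (fc_rf _ _ _).symm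
      have h4 : fc (rf (Pf L U)) q (v : ℂ) = fc (fun p => (fun _ : ℂ => (-1 : ℂ)) p.2 * Pf L U p) q (v : ℂ) :=
        fc_congr (fun x => h.Pf_par hL _ (hmemx x v hv)) q
      have h5 := fc_mul_w (fun _ : ℂ => (-1 : ℂ)) (Pf L U) q (v : ℂ)
      push_cast
      rw [h3, h4, h5]
      ring
    -- reality
    have rea : ∀ (q : ℤ) (v : ℝ), |v| < r → ‖fc (Pf L U) (-q) (v : ℂ)‖ = ‖fc (Pf L U) q (v : ℂ)‖ := by
      intro q v hv
      have h3 : fc (cj (Pf L U)) q (v : ℂ) = fc (Pf L U) q (v : ℂ) :=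
        fc_congr (fun x => h.Pf_re hL _ (hmemx x v hv)) q
      rw [fc_cj, Complex.conj_ofReal] at h3
      rw [← h3, Complex.norm_conj]
    have hcast : ((j : ℂ) / n) = (((j : ℝ) / n : ℝ) : ℂ) := by push_cast; rfl
    rw [hcast]
    have hv : |(i : ℝ) / m| < r := by rw [hw', abs_abs]; exact hw
    have s1 : ‖fc (Pf L U) n (((j : ℝ) / n : ℝ) : ℂ)‖ = ‖fc (Pf L U) n (((i : ℝ) / m : ℝ) : ℂ)‖ := by
      rcases abs_choice ((j : ℝ) / n) with h3 | h3
      · rw [hw', h3]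
      · have h4 : (j : ℝ) / n = -((i : ℝ) / m) := by rw [hw', h3]; ring
        rw [h4, par n _ hv, norm_neg]
    rw [s1]
    rcases Int.natAbs_eq n with h3 | h3
    · rw [h3, ← hm]
    · rw [h3, ← hm, rea _ _ hv]
  rw [key]
  exact h2

end Crest.Agent.R102.B821
end
end

-- ▼ part R102/NewtA_821

/-!
Row 102, part (B) (helper821): first half of the Newton step: the functions `S, R, Hh`.
-/

set_option autoImplicit false

open Set Filter Topology Metric Complex MeasureTheory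
open scoped Real ContDiff ComplexConjugate

noncomputable section

namespace Crest.Agent.R102.B821

open Crest.Agent.R266.SCV

variable {ρ₀ ε₀ k ρ r d A B : ℝ} {L Ψ U V f g : ℂ × ℂ → ℂ} {M : ℕ}

section Tools

/-- division by `w` with bounds -/
lemma IsH.exists_div_one (hk : 0 ≤ k) (hf : IsH k ρ r f) (hb : Bdd k ρ r (M + 1) A f) :
    ∃ g, IsH k ρ r g ∧ Bdd k ρ r M A g ∧ ∀ p ∈ Dom k ρ r, f p = p.2 * g p := by
  obtain ⟨g, hg, hfg⟩ := hf.exists_div_w hk (fun t ht => by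
    have := hb _ ht
    simp only [norm_zero] at this
    rw [zero_pow (Nat.succ_ne_zero M), mul_zero] at this
    exact norm_le_zero_iff.1 this)
  refine ⟨g, hg, bdd_of_ne hk hg.continuousOn (fun t w hp hw => ?_), fun p hp => hfg p.1 p.2 hp⟩
  have h1 := hb _ hp
  rw [hfg t w hp, norm_mul] at h1
  simp only at h1
  have hw' : 0 < ‖w‖ := norm_pos_iff.2 hw
  have h2 : ‖w‖ * ‖g (t, w)‖ ≤ ‖w‖ * (A * ‖w‖ ^ M) := by
    calc ‖w‖ * ‖g (t, w)‖ ≤ A * ‖w‖ ^ (M + 1) := h1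
      _ = ‖w‖ * (A * ‖w‖ ^ M) := by ring
  exact le_of_mul_le_mul_left h2 hw'

/-- a function in `H_k` vanishing off `w = 0` vanishes -/
lemma IsH.eq_zero_of_ne (hk : 0 ≤ k) (hf : IsH k ρ r f)
    (h : ∀ t w : ℂ, (t, w) ∈ Dom k ρ r → w ≠ 0 → f (t, w) = 0) : ∀ p ∈ Dom k ρ r, f p = 0 := by
  intro p hp
  have := bdd_of_ne (A := 0) (M := 0) hk hf.continuousOn
    (fun t w hp hw => by rw [h t w hp hw]; simp) p hp
  simp only [zero_mul] at this
  exact norm_le_zero_iff.1 this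

lemma IsRe.of_mul_w (hk : 0 ≤ k) (hg : IsH k ρ r g) (h : IsRe k ρ r (fun p => p.2 * g p)) :
    IsRe k ρ r g := by
  have h1 := (hg.cj.sub hg).eq_zero_of_ne hk (fun t w hp hw => by
    have h2 := h _ hp
    unfold cj at h2
    simp only [map_mul, Complex.conj_conj] at h2
    have h3 := mul_left_cancel₀ hw h2
    unfold cj
    rw [h3, sub_self])
  intro p hp
  exact sub_eq_zero.1 (h1 p hp)

lemma IsPar.of_mul_w (hk : 0 ≤ k) {s : ℂ} (hg : IsH k ρ r g)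
    (h : IsPar k ρ r s (fun p => p.2 * g p)) : IsPar k ρ r (-s) g := by
  have h1 := (hg.rf.sub ((IsH.const (-s)).mul hg)).eq_zero_of_ne hk (fun t w hp hw => by
    have h2 := h _ hp
    unfold rf at h2
    simp only at h2
    have h3 : w * (g (t, -w)) = w * (-s * g (t, w)) := by linear_combination -h2
    have h4 := mul_left_cancel₀ hw h3
    unfold rf
    simp only
    rw [h4, sub_self])
  intro p hp
  exact sub_eq_zero.1 (h1 p hp)

lemma IsRe.congr (h : IsRe k ρ r f) (hfg : ∀ p ∈ Dom k ρ r, g p = f p) : IsRe k ρ r g := by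
  rintro ⟨t, w⟩ hp
  have h1 := h _ hp
  unfold cj at h1 ⊢
  rw [hfg _ hp, hfg _ (mem_Dom_conj.2 hp)]
  exact h1

lemma IsPar.congr {s : ℂ} (h : IsPar k ρ r s f) (hfg : ∀ p ∈ Dom k ρ r, g p = f p) :
    IsPar k ρ r s g := by
  rintro ⟨t, w⟩ hp
  have h1 := h _ hp
  unfold rf at h1 ⊢
  rw [hfg _ hp, hfg _ (mem_Dom_neg.2 hp)]
  exact h1

lemma IsRe.mono {k' ρ' r' : ℝ} (h : IsRe k ρ r f) (hk : k ≤ k') (hρ : ρ' ≤ ρ) (hr : r' ≤ r) :
    IsRe k' ρ' r' f := fun p hp => h p (Dom_mono hk hρ hr hp)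

lemma IsPar.mono {k' ρ' r' : ℝ} {s : ℂ} (h : IsPar k ρ r s f) (hk : k ≤ k') (hρ : ρ' ≤ ρ)
    (hr : r' ≤ r) : IsPar k' ρ' r' s f := fun p hp => h p (Dom_mono hk hρ hr hp)

lemma IsRe.mul (hf : IsRe k ρ r f) (hg : IsRe k ρ r g) : IsRe k ρ r (fun p => f p * g p) := by
  intro p hp
  have h1 := hf p hp
  have h2 := hg p hp
  unfold cj at *
  rw [map_mul, h1, h2]

lemma IsPar.mul {s s' : ℂ} (hf : IsPar k ρ r s f) (hg : IsPar k ρ r s' g) :
    IsPar k ρ r (s * s') (fun p => f p * g p) := by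
  intro p hp
  have h1 := hf p hp
  have h2 := hg p hp
  unfold rf at *
  simp only at h1 h2 ⊢
  rw [h1, h2]
  ring

lemma IsRe.sub (hf : IsRe k ρ r f) (hg : IsRe k ρ r g) : IsRe k ρ r (fun p => f p - g p) := by
  intro p hp
  have h1 := hf p hp
  have h2 := hg p hp
  unfold cj at *
  rw [map_sub, h1, h2]

lemma IsPar.sub {s : ℂ} (hf : IsPar k ρ r s f) (hg : IsPar k ρ r s g) :
    IsPar k ρ r s (fun p => f p - g p) := by
  intro p hp
  have h1 := hf p hp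
  have h2 := hg p hp
  unfold rf at *
  simp only at h1 h2 ⊢
  rw [h1, h2]
  ring

lemma IsRe.add (hf : IsRe k ρ r f) (hg : IsRe k ρ r g) : IsRe k ρ r (fun p => f p + g p) := by
  intro p hp
  have h1 := hf p hp
  have h2 := hg p hp
  unfold cj at *
  rw [map_add, h1, h2]

lemma IsPar.add {s : ℂ} (hf : IsPar k ρ r s f) (hg : IsPar k ρ r s g) :
    IsPar k ρ r s (fun p => f p + g p) := by
  intro p hp
  have h1 := hf p hp
  have h2 := hg p hp
  unfold rf at *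
  simp only at h1 h2 ⊢
  rw [h1, h2]
  ring

lemma IsRe.inv (hf : IsRe k ρ r f) : IsRe k ρ r (fun p => (f p)⁻¹) := by
  intro p hp
  have h1 := hf p hp
  unfold cj at *
  rw [map_inv₀, h1]

lemma IsPar.inv_one (hf : IsPar k ρ r 1 f) : IsPar k ρ r 1 (fun p => (f p)⁻¹) := by
  intro p hp
  have h1 := hf p hp
  unfold rf at *
  simp only at h1 ⊢
  rw [h1, one_mul, one_mul]

/-- zeroth Fourier coefficient of real / even functions, as functions on the domain -/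
lemma fc_zero_re (hf : IsRe k ρ r f) {w : ℂ} (hw : ‖w‖ < r) (hk : k * |w.im| < ρ) :
    fc f 0 (conj w) = conj (fc f 0 w) := by
  have hw' : ‖conj w‖ < r := by rwa [Complex.norm_conj]
  have hk' : k * |(conj w).im| < ρ := by simpa using hk
  have h1 : fc (cj f) 0 (conj w) = fc f 0 (conj w) :=
    fc_congr (fun x => hf _ (real_mem_Dom.2 ⟨hk', hw'⟩)) 0
  rw [← h1, fc_cj, neg_zero, Complex.conj_conj]

lemma fc_zero_par {s : ℂ} (hf : IsPar k ρ r s f) {w : ℂ} (hw : ‖w‖ < r) (hk : k * |w.im| < ρ) :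
    fc f 0 (-w) = s * fc f 0 w := by
  have h1 : fc (rf f) 0 w = fc (fun p => (fun _ : ℂ => s) p.2 * f p) 0 w :=
    fc_congr (fun x => hf _ (real_mem_Dom.2 ⟨hk, hw⟩)) 0
  have h5 := fc_mul_w (fun _ : ℂ => s) f 0 w
  rw [← fc_rf, h1, h5]

lemma norm_fc_zero_le (hf : IsH k ρ r f) {M : ℕ} (hb : Bdd k ρ r M A f) {w : ℂ} (hw : ‖w‖ < r)
    (hk : k * |w.im| < ρ) : ‖fc f 0 w‖ ≤ A * ‖w‖ ^ M := by
  have := norm_fc_le hf hb 0 hw hk
  simpa using this

lemma Bdd.mul {A' : ℝ} {M' : ℕ} (hf : Bdd k ρ r M A f) (hg : Bdd k ρ r M' A' g) :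
    Bdd k ρ r (M + M') (A * A') (fun p => f p * g p) := by
  intro p hp
  have h1 := hf p hp
  have h2 := hg p hp
  have h3 : 0 ≤ A * ‖p.2‖ ^ M := (norm_nonneg _).trans h1
  rw [norm_mul]
  calc ‖f p‖ * ‖g p‖ ≤ (A * ‖p.2‖ ^ M) * (A' * ‖p.2‖ ^ M') :=
        mul_le_mul h1 h2 (norm_nonneg _) h3
    _ = A * A' * ‖p.2‖ ^ (M + M') := by rw [pow_add]; ring

lemma Bdd.neg (hf : Bdd k ρ r M A f) : Bdd k ρ r M A (fun p => - f p) := by
  intro p hp
  rw [norm_neg]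
  exact hf p hp

/-- lowering the weight -/
lemma Bdd.lower (hA : 0 ≤ A) (hr : r ≤ 1) {M' : ℕ} (hM : M' ≤ M) (hf : Bdd k ρ r M A f) :
    Bdd k ρ r M' A f := by
  intro p hp
  refine (hf p hp).trans (mul_le_mul_of_nonneg_left ?_ hA)
  exact pow_le_pow_of_le_one (norm_nonneg _) (hp.2.le.trans hr) hM

end Tools

/-- First half of the Newton step.  `P = del S + R`, `S = w s₁`, `a = w α`,
`Hh = (c₁(w) - s₁) / α` with zero mean. -/
structure Half (L U : ℂ × ℂ → ℂ) (ρ r e β s : ℝ) (α S R s₁ Hh : ℂ × ℂ → ℂ) (c₁ : ℂ → ℂ) : Prop where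
  hα : IsH 1 ρ r α
  α_bd : ∀ p ∈ Dom 1 ρ r, ‖α p + 1‖ ≤ 1 / 10
  aα : ∀ p ∈ Dom 1 ρ r, af L U p = p.2 * α p
  hS : IsH 1 ρ r S
  hR : IsH (3 / 2) ρ r R
  PSR : ∀ p ∈ Dom (3 / 2) ρ r, Pf L U p = del S p + R p
  S_bd : Bdd 1 ρ r 7 s S
  R_bd : Bdd (3 / 2) ρ r 8 β R
  hs₁ : IsH 1 ρ r s₁
  s₁_bd : Bdd 1 ρ r 6 s s₁
  S_eq : ∀ p ∈ Dom 1 ρ r, S p = p.2 * s₁ p
  hc₁ : DifferentiableOn ℂ c₁ (ball 0 r)
  c₁_bd : ∀ w : ℂ, ‖w‖ < r → ‖c₁ w‖ ≤ 5 / 4 * s * ‖w‖ ^ 6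
  hHh : IsH 1 ρ r Hh
  Hh_eq : ∀ p ∈ Dom 1 ρ r, Hh p = (c₁ p.2 - s₁ p) * (α p)⁻¹
  Hh_bd : Bdd 1 ρ r 6 (5 / 2 * s) Hh
  Hh_mean : ∀ w : ℂ, ‖w‖ < r → fc Hh 0 w = 0
  Hh_re : IsRe 1 ρ r Hh
  Hh_par : IsPar 1 ρ r (-1) Hh

lemma norm_inv_bd {z : ℂ} (h : ‖z + 1‖ ≤ 1 / 10) : z ≠ 0 ∧ ‖z⁻¹‖ ≤ 10 / 9 ∧ ‖z⁻¹ + 1‖ ≤ 1 / 9 := by
  have h1 : 9 / 10 ≤ ‖z‖ := by
    have h2 : ‖(1 : ℂ)‖ ≤ ‖z + 1‖ + ‖z‖ := by
      have := norm_sub_le (z + 1) z
      rw [add_sub_cancel_left] at this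
      exact this
    rw [norm_one] at h2
    linarith
  have h0 : 0 < ‖z‖ := by linarith
  have hz : z ≠ 0 := norm_pos_iff.1 h0
  refine ⟨hz, ?_, ?_⟩
  · rw [norm_inv]
    rw [inv_le_comm₀ h0 (by norm_num)]
    norm_num
    linarith
  · have e : z⁻¹ + 1 = (z + 1) * z⁻¹ := by field_simp; ring
    rw [e, norm_mul, norm_inv]
    calc ‖z + 1‖ * ‖z‖⁻¹ ≤ 1 / 10 * (10 / 9) := by
          refine mul_le_mul h ?_ (by positivity) (by norm_num)
          rw [inv_le_comm₀ h0 (by norm_num)]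
          norm_num
          linarith
      _ = 1 / 9 := by norm_num

theorem Adm.exists_half (hL : IsLag ρ₀ ε₀ L Ψ) {r₂ : ℝ}
    (hr₂ : ∀ x y : ℂ, (x, y) ∈ Dg (3 / 4 * ρ₀) (ε₀ / 2) → ‖y - x‖ ≤ r₂ →
        ‖q2 (q1 L) (x, y) + (y - x)‖ ≤ 1 / 100 * ‖y - x‖)
    {C c r₁ e : ℝ} (hC : 0 ≤ C) (hB4 : B4Const ρ₀ L C c r₁)
    (h : Adm ρ₀ ε₀ ρ r U) (hr₁ : r ≤ r₁) (hrr₂ : 2 * r ≤ r₂) (he : 0 ≤ e)
    (hP : Bdd (3 / 2) ρ r 8 e (Pf L U)) (hd : 0 < d) (hdr : 100 * d ≤ r)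
    {N : ℕ} (hNc : (N : ℝ) ^ 6 * e ≤ c * d) :
    ∃ (α S R s₁ Hh : ℂ × ℂ → ℂ) (c₁ : ℂ → ℂ), Half L U (ρ - 2 * d) (r - d) e
      (10 / d ^ 2 * (7 * C * N ^ 5 * e ^ 2) + 3 / d * (e * Real.exp (-(π * d * N))))
      (10000 / d ^ 3 * (e + 7 * C * N ^ 5 * e ^ 2)) α S R s₁ Hh c₁ := by
  have hr := h.r_pos
  have hr1 := h.r_le
  have hrρ := h.r_le_ρ
  have hρ := h.ρ_pos
  set η : ℝ := 7 * C * N ^ 5 * e ^ 2 with hη
  have hη0 : 0 ≤ η := by positivity
  set β : ℝ := 10 / d ^ 2 * η + 3 / d * (e * Real.exp (-(π * d * N))) with hβ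
  set s : ℝ := 10000 / d ^ 3 * (e + η) with hs
  have hs0 : 0 ≤ s := by positivity
  -- first division
  have h32 : (1 : ℝ) + 1 / 2 = 3 / 2 := by norm_num
  have hPd : IsH (1 + 1 / 2) (ρ - d) r (Pf L U) := by
    rw [h32]; exact (h.hPf hL).mono le_rfl (by linarith) le_rfl
  have hPb : Bdd (1 + 1 / 2) (ρ - d) r (7 + 1) e (Pf L U) := by
    rw [h32]; exact hP.mono le_rfl (by linarith) le_rfl
  have hPre : IsRe (1 + 1 / 2) (ρ - d) r (Pf L U) := by
    rw [h32]; exact (h.Pf_re hL).mono le_rfl (by linarith) le_rfl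
  have hPpar : IsPar (1 + 1 / 2) (ρ - d) r (-1) (Pf L U) := by
    rw [h32]; exact (h.Pf_par hL).mono le_rfl (by linarith) le_rfl
  obtain ⟨S, R, hS, hR, hSR, hSb, hRb, hS0, hSre, hSpar, hRre, hRpar⟩ :=
    divisor_sym (k := 1) (ρ := ρ - d) (r := r) (d := d) (B := e) (η := η) (N := N) (M := 7)
      (s := -1) (F := Pf L U) (by norm_num) le_rfl hr hr1 (by linarith) hd (by linarith) he hη0
      (Or.inr rfl) hPd hPb hPre hPpar (fun w hw => h.mean hL hw)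
      (fun n hn hnN j hj hjr => by
        have := h.res_all hL hC hB4 hr₁ he hP hd (by linarith) (by linarith) hNc hn hnN hj hjr
        exact this)
  rw [neg_neg] at hSpar
  rw [h32] at hSR hRb hR
  have e2d : ρ - d - d = ρ - 2 * d := by ring
  rw [e2d] at hS hR hSR hSb hRb hSre hSpar
  -- α
  obtain ⟨α, hα, hαb, hαe⟩ := h.exists_at hL hr₂ hrr₂
  have sub1 : Dom 1 (ρ - 2 * d) (r - d) ⊆ Dom 1 ρ r :=
    Dom_mono le_rfl (by linarith) (by linarith)
  have hα' : IsH 1 (ρ - 2 * d) (r - d) α := hα.mono le_rfl (by linarith) (by linarith)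
  have hαre : IsRe 1 (ρ - 2 * d) (r - d) α := by
    have h1 : IsRe 1 ρ r (fun p => p.2 * α p) :=
      (h.af_re hL).congr (fun p hp => (hαe p hp).symm)
    exact (h1.of_mul_w (by norm_num) hα).mono le_rfl (by linarith) (by linarith)
  have hαpar : IsPar 1 (ρ - 2 * d) (r - d) 1 α := by
    have h1 : IsPar 1 ρ r (-1) (fun p => p.2 * α p) :=
      (h.af_par hL).congr (fun p hp => (hαe p hp).symm)
    have h2 := h1.of_mul_w (by norm_num) hα
    rw [neg_neg] at h2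
    exact h2.mono le_rfl (by linarith) (by linarith)
  have hαne : ∀ p ∈ Dom 1 (ρ - 2 * d) (r - d), α p ≠ 0 := fun p hp => (norm_inv_bd (hαb p (sub1 hp))).1
  -- s₁
  obtain ⟨s₁, hs₁, hs₁b, hs₁e⟩ := hS.exists_div_one (M := 6) (by norm_num) hSb
  have hs₁re : IsRe 1 (ρ - 2 * d) (r - d) s₁ :=
    (hSre.congr (g := fun p => p.2 * s₁ p) (fun p hp => (hs₁e p hp).symm)).of_mul_w (by norm_num) hs₁
  have hs₁par : IsPar 1 (ρ - 2 * d) (r - d) (-1) s₁ :=
    (hSpar.congr (g := fun p => p.2 * s₁ p) (fun p hp => (hs₁e p hp).symm)).of_mul_w (by norm_num) hs₁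
  -- means
  set ia : ℂ × ℂ → ℂ := fun p => (α p)⁻¹ with hia
  have hiaH : IsH 1 (ρ - 2 * d) (r - d) ia := hα'.inv hαne
  have hiab : Bdd 1 (ρ - 2 * d) (r - d) 0 (10 / 9) ia := by
    intro p hp
    rw [pow_zero, mul_one]
    exact (norm_inv_bd (hαb p (sub1 hp))).2.1
  have hia1 : Bdd 1 (ρ - 2 * d) (r - d) 0 (1 / 9) (fun p => ia p + 1) := by
    intro p hp
    rw [pow_zero, mul_one]
    exact (norm_inv_bd (hαb p (sub1 hp))).2.2
  have hkw : ∀ w : ℂ, ‖w‖ < r - d → 1 * |w.im| < ρ - 2 * d := fun w hw =>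
    k_im_lt (by norm_num) (by linarith) (by linarith) hw
  set m : ℂ → ℂ := fc ia 0 with hm
  have hmd : DifferentiableOn ℂ m (ball 0 (r - d)) :=
    differentiableOn_fc hiaH 0 isOpen_ball (fun w hw => by
      rw [mem_ball_zero_iff] at hw; exact ⟨hw, hkw w hw⟩)
  have hm1 : ∀ w : ℂ, ‖w‖ < r - d → ‖m w + 1‖ ≤ 1 / 9 := by
    intro w hw
    have h1 : fc (fun p => ia p + 1) 0 w = m w + 1 := by
      rw [fc_add hiaH (IsH.const 1) 0 hw (hkw w hw)]
      congr 1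
      unfold fc
      simp [ee_zero]
    rw [← h1]
    have := norm_fc_zero_le (hiaH.add (IsH.const 1)) hia1 hw (hkw w hw)
    simpa using this
  have hmne : ∀ w : ℂ, ‖w‖ < r - d → m w ≠ 0 ∧ ‖(m w)⁻¹‖ ≤ 9 / 8 := by
    intro w hw
    have h1 : 8 / 9 ≤ ‖m w‖ := by
      have h2 : ‖(1 : ℂ)‖ ≤ ‖m w + 1‖ + ‖m w‖ := by
        have := norm_sub_le (m w + 1) (m w)
        rw [add_sub_cancel_left] at this
        exact this
      rw [norm_one] at h2
      have := hm1 w hw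
      linarith
    have h0 : 0 < ‖m w‖ := by linarith
    refine ⟨norm_pos_iff.1 h0, ?_⟩
    rw [norm_inv, inv_le_comm₀ h0 (by norm_num)]
    norm_num
    linarith
  set sa : ℂ × ℂ → ℂ := fun p => s₁ p * ia p with hsa
  have hsaH : IsH 1 (ρ - 2 * d) (r - d) sa := hs₁.mul hiaH
  have hsab : Bdd 1 (ρ - 2 * d) (r - d) 6 (s * (10 / 9)) sa := by
    have := hs₁b.mul hiab
    simpa using this
  have hsad : DifferentiableOn ℂ (fc sa 0) (ball 0 (r - d)) :=
    differentiableOn_fc hsaH 0 isOpen_ball (fun w hw => by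
      rw [mem_ball_zero_iff] at hw; exact ⟨hw, hkw w hw⟩)
  set c₁ : ℂ → ℂ := fun w => fc sa 0 w * (m w)⁻¹ with hc₁
  have hc₁d : DifferentiableOn ℂ c₁ (ball 0 (r - d)) :=
    hsad.mul (hmd.inv (fun w hw => (hmne w (by simpa using hw)).1))
  have hc₁b : ∀ w : ℂ, ‖w‖ < r - d → ‖c₁ w‖ ≤ 5 / 4 * s * ‖w‖ ^ 6 := by
    intro w hw
    rw [hc₁, norm_mul]
    have h1 := norm_fc_zero_le hsaH hsab hw (hkw w hw)
    have h2 := (hmne w hw).2
    calc ‖fc sa 0 w‖ * ‖(m w)⁻¹‖ ≤ (s * (10 / 9) * ‖w‖ ^ 6) * (9 / 8) :=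
          mul_le_mul h1 h2 (norm_nonneg _) (by positivity)
      _ = 5 / 4 * s * ‖w‖ ^ 6 := by ring
  set Hh : ℂ × ℂ → ℂ := fun p => (c₁ p.2 - s₁ p) * ia p with hHh
  have hc₁H : IsH 1 (ρ - 2 * d) (r - d) (fun p => c₁ p.2) := IsH.ofW hc₁d
  have hHhH : IsH 1 (ρ - 2 * d) (r - d) Hh := (hc₁H.sub hs₁).mul hiaH
  have hc₁B : Bdd 1 (ρ - 2 * d) (r - d) 6 (5 / 4 * s) (fun p => c₁ p.2) :=
    fun p hp => hc₁b p.2 hp.2
  have hHhb : Bdd 1 (ρ - 2 * d) (r - d) 6 (5 / 2 * s) Hh := by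
    have := (hc₁B.sub hs₁b).mul hiab
    have h2 : (5 / 4 * s + s) * (10 / 9) = 5 / 2 * s := by ring
    rw [h2] at this
    simpa using this
  have hmean : ∀ w : ℂ, ‖w‖ < r - d → fc Hh 0 w = 0 := by
    intro w hw
    have e1 : fc Hh 0 w = fc (fun p => c₁ p.2 * ia p - sa p) 0 w :=
      fc_congr (fun x => by simp only [hHh, hsa]; ring) 0
    rw [e1, fc_sub (hc₁H.mul hiaH) hsaH 0 hw (hkw w hw), fc_mul_w c₁ ia 0 w]
    simp only [hc₁]
    rw [mul_assoc, ← hm, inv_mul_cancel₀ (hmne w hw).1, mul_one, sub_self]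
  -- symmetries of c₁
  have hiare : IsRe 1 (ρ - 2 * d) (r - d) ia := hαre.inv
  have hiapar : IsPar 1 (ρ - 2 * d) (r - d) 1 ia := hαpar.inv_one
  have hsare : IsRe 1 (ρ - 2 * d) (r - d) sa := hs₁re.mul hiare
  have hsapar : IsPar 1 (ρ - 2 * d) (r - d) (-1) sa := by
    have := hs₁par.mul hiapar
    rw [mul_one] at this
    exact this
  have hc₁re : IsRe 1 (ρ - 2 * d) (r - d) (fun p => c₁ p.2) := by
    rintro ⟨t, w⟩ hp
    have hw : ‖w‖ < r - d := hp.2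
    unfold cj
    simp only [hc₁]
    rw [fc_zero_re hsare hw (hkw w hw), hm, fc_zero_re hiare hw (hkw w hw)]
    simp
  have hc₁par : IsPar 1 (ρ - 2 * d) (r - d) (-1) (fun p => c₁ p.2) := by
    rintro ⟨t, w⟩ hp
    have hw : ‖w‖ < r - d := hp.2
    unfold rf
    simp only [hc₁]
    rw [fc_zero_par hsapar hw (hkw w hw), hm, fc_zero_par hiapar hw (hkw w hw)]
    ring
  refine ⟨α, S, R, s₁, Hh, c₁, ?_⟩
  refine { hα := hα', α_bd := fun p hp => hαb p (sub1 hp), aα := fun p hp => hαe p (sub1 hp),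
           hS := hS, hR := hR, PSR := hSR, S_bd := hSb, R_bd := hRb, hs₁ := hs₁, s₁_bd := hs₁b,
           S_eq := hs₁e, hc₁ := hc₁d, c₁_bd := hc₁b, hHh := hHhH, Hh_eq := fun p hp => rfl,
           Hh_bd := hHhb, Hh_mean := hmean, Hh_re := (hc₁re.sub hs₁re).mul hiare, Hh_par := ?_ }
  have := (hc₁par.sub hs₁par).mul hiapar
  rw [mul_one] at this
  exact this

end Crest.Agent.R102.B821
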