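import Crest.Agent.R102.SideP_174
import Crest.Agent.R102.Step5Defs_613
import Crest.Agent.R102.Chain_859
import Crest.Agent.R102.EdgeDefs_255

-- ▼ part R102/TreeS_174
section

/-!
Row 102, T1-B EDGE, slow regime (helper174): object joint of SIDE.

* `KD A x u s` : deep compact of the window `(x, u, s)`;
* `vert`, `lat` : oscillation of a holomorphic `φ` on `KD` controls the values at the centres of the
  neighbouring windows (Schwarz lemma);
* `side_pt` : control of `φ` at the side points of the disc.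
-/

set_option autoImplicit false

open Set Filter Topology Metric Complex

noncomputable section

namespace Crest.Agent.R102.TreeS174

open Crest.Agent.R102.S5 (ray bl Half)
open Crest.Agent.R102.SideP174 (V K)

/-- deep compact of the window `(x, u, s)` -/
def KD (A x u s : ℝ) : Set (ℂ × ℂ) :=
  {q | |q.1.re - x| ≤ A * s ∧ ‖q.2 - (u : ℂ)‖ ≤ A * s ∧ s ≤ A * (-q.1.im) ∧ -q.1.im ≤ A * s ∧
    s ≤ A * q.2.im}

lemma ray_fst (x u s : ℝ) : (ray (x, u) s).1 = (x : ℂ) + s * (-I) := rfl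

lemma ray_snd (x u s : ℝ) : (ray (x, u) s).2 = (u : ℂ) + s * (I / 4) := rfl

lemma ray_1re (x u s : ℝ) : (ray (x, u) s).1.re = x := by
  rw [ray_fst]; simp

lemma ray_1im (x u s : ℝ) : (ray (x, u) s).1.im = -s := by
  rw [ray_fst]; simp

lemma ray_2im (x u s : ℝ) : (ray (x, u) s).2.im = s / 4 := by
  rw [ray_snd]
  have : (s : ℂ) * (I / 4) = ((s / 4 : ℝ) : ℂ) * I := by push_cast; ring
  rw [this]; simp


lemma ray_2norm (x u u' : ℝ) {s : ℝ} (hs : 0 ≤ s) :
    ‖(ray (x, u') s).2 - (u : ℂ)‖ ≤ |u' - u| + s / 4 := by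
  have e : (ray (x, u') s).2 - (u : ℂ) = ((u' - u : ℝ) : ℂ) + ((s / 4 : ℝ) : ℂ) * I := by
    rw [ray_snd]; push_cast; ring
  rw [e]
  refine (norm_add_le _ _).trans ?_
  rw [norm_mul, norm_I, mul_one, Complex.norm_real, Complex.norm_real, Real.norm_eq_abs,
    Real.norm_eq_abs, abs_of_nonneg (by linarith : (0 : ℝ) ≤ s / 4)]

/-- centres of the lower neighbours -/
lemma ray_vert {A x u s s' : ℝ} (hA : 8 ≤ A) (hs : 0 < s) (h1 : s / 2 ≤ s') (h2 : s' ≤ s) :
    ray (x, u) s' ∈ KD A x u s := by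
  have hs' : 0 < s' := by linarith
  refine ⟨?_, ?_, ?_, ?_, ?_⟩
  · rw [ray_1re]; simp; positivity
  · have := ray_2norm x u u hs'.le
    simp only [sub_self, abs_zero, zero_add] at this
    nlinarith
  · rw [ray_1im]; nlinarith
  · rw [ray_1im]; nlinarith
  · rw [ray_2im]; nlinarith

/-- centres of the lateral neighbours -/
lemma ray_lat {A x u x' u' s : ℝ} (hA : 8 ≤ A) (hs : 0 < s) (h : |x - x'| + |u - u'| ≤ s) :
    ray (x', u') s ∈ KD A x u s := by
  have h1 : |x' - x| = |x - x'| := abs_sub_comm _ _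
  have h2 : |u' - u| = |u - u'| := abs_sub_comm _ _
  have h3 := abs_nonneg (x - x')
  have h4 := abs_nonneg (u - u')
  refine ⟨?_, ?_, ?_, ?_, ?_⟩
  · rw [ray_1re, h1]; nlinarith
  · have := ray_2norm x' u u' hs.le
    rw [h2] at this
    nlinarith
  · rw [ray_1im]; nlinarith
  · rw [ray_1im]; nlinarith
  · rw [ray_2im]; nlinarith

lemma ball_sub_KD {A x u s : ℝ} (hA : 8 ≤ A) (hs : 0 < s) :
    ball (ray (x, u) s) (s / 8) ⊆ KD A x u s := by
  intro q hq
  rw [mem_ball, Prod.dist_eq, max_lt_iff, dist_eq_norm, dist_eq_norm] at hq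
  obtain ⟨h1, h2⟩ := hq
  have e1 : q.1.re - x = (q.1 - (ray (x, u) s).1).re := by rw [sub_re, ray_1re]
  have e2 : q.1.im + s = (q.1 - (ray (x, u) s).1).im := by rw [sub_im, ray_1im]; ring
  have e3 : q.2.im - s / 4 = (q.2 - (ray (x, u) s).2).im := by rw [sub_im, ray_2im]
  have a1 := Complex.abs_re_le_norm (q.1 - (ray (x, u) s).1)
  have a2 := abs_le.1 (Complex.abs_im_le_norm (q.1 - (ray (x, u) s).1))
  have a3 := abs_le.1 (Complex.abs_im_le_norm (q.2 - (ray (x, u) s).2))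
  rw [← e1] at a1
  rw [← e2] at a2
  rw [← e3] at a3
  have a4 : ‖q.2 - (u : ℂ)‖ ≤ s / 8 + s / 4 := by
    have h3 := ray_2norm x u u hs.le
    simp only [sub_self, abs_zero, zero_add] at h3
    have h4 : q.2 - (u : ℂ) = (q.2 - (ray (x, u) s).2) + ((ray (x, u) s).2 - (u : ℂ)) := by ring
    rw [h4]
    refine (norm_add_le _ _).trans ?_
    linarith
  refine ⟨?_, ?_, ?_, ?_, ?_⟩
  · nlinarith
  · nlinarith
  · nlinarith [a2.1, a2.2]
  · nlinarith [a2.1, a2.2]
  · nlinarith [a3.1, a3.2]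

section

variable {E : Type*} [NormedAddCommGroup E] [NormedSpace ℂ E] {A x u s : ℝ} {φ : ℂ × ℂ → E}
  {e : ℝ}

lemma e_nonneg (hA : 8 ≤ A) (hs : 0 < s)
    (he : ∀ q ∈ KD A x u s, ‖φ q - φ (ray (x, u) s)‖ ≤ e) : 0 ≤ e := by
  have := he _ (ray_vert hA hs (by linarith) le_rfl)
  rw [sub_self, norm_zero] at this
  exact this


lemma lat (hA : 8 ≤ A) (hs : 0 < s) (hφ : DifferentiableOn ℂ φ (KD A x u s))
    (he : ∀ q ∈ KD A x u s, ‖φ q - φ (ray (x, u) s)‖ ≤ e) {x' u' : ℝ}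
    (h : |x - x'| + |u - u'| ≤ s) :
    ‖φ (ray (x, u) s) - φ (ray (x', u') s)‖ ≤ 8 * ((|x - x'| + |u - u'|) / s) * e := by
  have he0 := e_nonneg hA hs he
  set d : ℝ := |x - x'| + |u - u'| with hd
  have hd0 : 0 ≤ d := by rw [hd]; positivity
  rw [norm_sub_rev]
  rcases lt_or_ge d (s / 8) with hc | hc
  · have hsub := ball_sub_KD (x := x) (u := u) hA hs
    have hdist : dist (ray (x', u') s) (ray (x, u) s) ≤ d := by
      have e1 : (ray (x', u') s).1 - (ray (x, u) s).1 = ((x' - x : ℝ) : ℂ) := by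
        rw [ray_fst, ray_fst]; push_cast; ring
      have e2 : (ray (x', u') s).2 - (ray (x, u) s).2 = ((u' - u : ℝ) : ℂ) := by
        rw [ray_snd, ray_snd]; push_cast; ring
      rw [Prod.dist_eq, dist_eq_norm, dist_eq_norm, e1, e2, Complex.norm_real, Complex.norm_real,
        Real.norm_eq_abs, Real.norm_eq_abs, abs_sub_comm x', abs_sub_comm u']
      exact max_le (by rw [hd]; linarith [abs_nonneg (u - u')])
        (by rw [hd]; linarith [abs_nonneg (x - x')])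
    have h1 := Complex.dist_le_div_mul_dist_of_mapsTo_ball (hφ.mono hsub)
      (R₂ := e) (fun q hq => by rw [mem_closedBall, dist_eq_norm]; exact he q (hsub hq))
      (show ray (x', u') s ∈ ball (ray (x, u) s) (s / 8) from lt_of_le_of_lt hdist hc)
    rw [dist_eq_norm] at h1
    refine h1.trans ?_
    calc e / (s / 8) * dist (ray (x', u') s) (ray (x, u) s) ≤ e / (s / 8) * d := by gcongr
      _ = 8 * (d / s) * e := by field_simp
  · refine (he _ (ray_lat hA hs h)).trans ?_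
    have : 1 ≤ 8 * (d / s) := by
      rw [← mul_div_assoc, le_div_iff₀ hs]; linarith
    nlinarith

end


end Crest.Agent.R102.TreeS174
end
end

-- ▼ part R102/SlowE_486
section

/-! Row 102, EDGE / SLOW (helper486): the oscillation `oe` of a window and the geometric inputs
`he`, `hvert`, `hlat` of 859's chain / stay, on the objects (174's compact `KD A`). -/

set_option autoImplicit false

open Set Filter Topology Metric Complex

noncomputable section

namespace Crest.Agent.R102.SlowE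

open Crest.Agent.R102.S5 (ray bl Half)
open Crest.Agent.R102.TreeS174 (KD)

set_option linter.unusedSectionVars false

variable {E : Type*} [NormedAddCommGroup E] [NormedSpace ℂ E]

/-- truncated oscillation of `φ` on the deep compact of the window `(p, s)` -/
def oe (A : ℝ) (φ : ℂ × ℂ → E) (p : ℝ × ℝ) (s : ℝ) : ℝ :=
  sSup ((fun q => min 1 ‖φ q - φ (ray p s)‖) '' KD A p.1 p.2 s)

theorem bdd (A : ℝ) (φ : ℂ × ℂ → E) (p : ℝ × ℝ) (s : ℝ) :
    BddAbove ((fun q => min 1 ‖φ q - φ (ray p s)‖) '' KD A p.1 p.2 s) := by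
  refine ⟨1, ?_⟩
  rintro _ ⟨q, _, rfl⟩
  exact min_le_left _ _

theorem oe_nonneg (A : ℝ) (φ : ℂ × ℂ → E) (p : ℝ × ℝ) (s : ℝ) : 0 ≤ oe A φ p s := by
  refine Real.sSup_nonneg ?_
  rintro _ ⟨q, _, rfl⟩
  exact le_min zero_le_one (norm_nonneg _)

theorem oe_le_one (A : ℝ) (φ : ℂ × ℂ → E) (p : ℝ × ℝ) (s : ℝ) : oe A φ p s ≤ 1 := by
  refine Real.sSup_le ?_ zero_le_one
  rintro _ ⟨q, _, rfl⟩
  exact min_le_left _ _

theorem min_le_oe {A : ℝ} {φ : ℂ × ℂ → E} {p : ℝ × ℝ} {s : ℝ} {q : ℂ × ℂ}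
    (hq : q ∈ KD A p.1 p.2 s) : min 1 ‖φ q - φ (ray p s)‖ ≤ oe A φ p s :=
  le_csSup (bdd A φ p s) ⟨q, hq, rfl⟩

theorem le_oe {A : ℝ} {φ : ℂ × ℂ → E} {p : ℝ × ℝ} {s : ℝ} (h : oe A φ p s < 1) {q : ℂ × ℂ}
    (hq : q ∈ KD A p.1 p.2 s) : ‖φ q - φ (ray p s)‖ ≤ oe A φ p s := by
  have h1 := min_le_oe (φ := φ) hq
  rcases le_total 1 ‖φ q - φ (ray p s)‖ with h2 | h2
  · rw [min_eq_left h2] at h1; linarith
  · rwa [min_eq_right h2] at h1

theorem oe_le {A : ℝ} {φ : ℂ × ℂ → E} {p : ℝ × ℝ} {s ε : ℝ} (hε : 0 ≤ ε)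
    (h : ∀ q ∈ KD A p.1 p.2 s, ‖φ q - φ (ray p s)‖ ≤ ε) : oe A φ p s ≤ ε := by
  refine Real.sSup_le ?_ hε
  rintro _ ⟨q, hq, rfl⟩
  exact (min_le_right _ _).trans (h q hq)

theorem exists_of_lt_oe {A : ℝ} {φ : ℂ × ℂ → E} {p : ℝ × ℝ} {s ε : ℝ} (hε : 0 ≤ ε)
    (h : ε < oe A φ p s) : ∃ q ∈ KD A p.1 p.2 s, ε < ‖φ q - φ (ray p s)‖ := by
  by_contra hc
  push Not at hc
  exact absurd (oe_le hε hc) (not_le.2 h)

/-- **hvert** -/
theorem hvert {A : ℝ} (hA : 8 ≤ A) {φ : ℂ × ℂ → E} {p : ℝ × ℝ} {s s' : ℝ} (hs : 0 < s)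
    (he : oe A φ p s < 1) (h1 : s / 2 ≤ s') (h2 : s' ≤ s) :
    ‖φ (ray p s) - φ (ray p s')‖ ≤ oe A φ p s := by
  rw [norm_sub_rev]
  exact le_oe he (TreeS174.ray_vert (x := p.1) (u := p.2) hA hs h1 h2)

theorem sum_le_dist (p p' : ℝ × ℝ) : |p.1 - p'.1| + |p.2 - p'.2| ≤ 2 * dist p p' := by
  rw [Prod.dist_eq, Real.dist_eq, Real.dist_eq]
  have h1 := le_max_left |p.1 - p'.1| |p.2 - p'.2|
  have h2 := le_max_right |p.1 - p'.1| |p.2 - p'.2|
  linarith

/-- centres of the lateral neighbours, sup distance -/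
theorem ray_lat' {A : ℝ} (hA : 8 ≤ A) {p p' : ℝ × ℝ} {s : ℝ} (hs : 0 < s)
    (h : dist p p' ≤ s) : ray p' s ∈ KD A p.1 p.2 s := by
  rw [Prod.dist_eq, Real.dist_eq, Real.dist_eq] at h
  have h1 : |p'.1 - p.1| ≤ s := by rw [abs_sub_comm]; exact (le_max_left _ _).trans h
  have h2 : |p'.2 - p.2| ≤ s := by rw [abs_sub_comm]; exact (le_max_right _ _).trans h
  have h3 := TreeS174.ray_2norm p'.1 p.2 p'.2 hs.le
  refine ⟨?_, ?_, ?_, ?_, ?_⟩
  · rw [show p' = (p'.1, p'.2) from rfl, TreeS174.ray_1re]; nlinarith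
  · exact h3.trans (by nlinarith)
  · rw [show p' = (p'.1, p'.2) from rfl, TreeS174.ray_1im]; nlinarith
  · rw [show p' = (p'.1, p'.2) from rfl, TreeS174.ray_1im]; nlinarith
  · rw [show p' = (p'.1, p'.2) from rfl, TreeS174.ray_2im]; nlinarith

/-- **hlat**, `Cl = 16` -/
theorem hlat {A : ℝ} (hA : 8 ≤ A) {φ : ℂ × ℂ → E} {p p' : ℝ × ℝ} {s : ℝ} (hs : 0 < s)
    (hφ : DifferentiableOn ℂ φ (KD A p.1 p.2 s)) (he : oe A φ p s < 1) (h : dist p p' ≤ s) :
    ‖φ (ray p s) - φ (ray p' s)‖ ≤ 16 * (dist p p' / s) * oe A φ p s := by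
  have h0 := oe_nonneg A φ p s
  have h1 := sum_le_dist p p'
  have hd : 0 ≤ dist p p' := dist_nonneg
  rcases le_or_gt (|p.1 - p'.1| + |p.2 - p'.2|) s with hc | hc
  · refine (TreeS174.lat (x := p.1) (u := p.2) (x' := p'.1) (u' := p'.2) hA hs hφ
      (fun _ hq => le_oe he hq) hc).trans ?_
    have h2 : 8 * ((|p.1 - p'.1| + |p.2 - p'.2|) / s) ≤ 16 * (dist p p' / s) := by
      rw [← mul_div_assoc, ← mul_div_assoc]
      refine div_le_div_of_nonneg_right ?_ hs.le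
      linarith
    exact mul_le_mul_of_nonneg_right h2 h0
  · have h3 : ‖φ (ray p s) - φ (ray p' s)‖ ≤ oe A φ p s := by
      rw [norm_sub_rev]
      exact le_oe he (ray_lat' hA hs h)
    refine h3.trans ?_
    have h4 : 1 ≤ 16 * (dist p p' / s) := by
      rw [← mul_div_assoc, le_div_iff₀ hs]; linarith
    nlinarith

end Crest.Agent.R102.SlowE
end
end

-- ▼ part R102/SlowS_486

/-! Row 102, EDGE / SLOW (helper486): from `SlowAt` to the oscillation of `φ` (branch of the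
logarithm on the connected compact `KD`). -/

set_option autoImplicit false

open Set Filter Topology Metric Complex

noncomputable section

namespace Crest.Agent.R102.SlowS

open Crest.Agent.R102.S5 (ray bl Half)
open Crest.Agent.R102.TreeS174 (KD)
open Crest.Agent.R102.Edge255 (z0 SlowAt Wg)
open Crest.Agent.R102.SlowE (oe oe_le)

/-- one point -/
theorem near_int {z : ℂ} {ε : ℝ} (hε : ε ≤ 1 / 2) (h : ‖cexp (2 * I * z) - 1‖ ≤ ε) :
    ∃ m : ℤ, ‖z - m * Real.pi‖ ≤ ε := by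
  set w : ℂ := Complex.log (cexp (2 * I * z)) with hw
  have h1 : cexp w = cexp (2 * I * z) := by
    rw [hw, Complex.exp_log (Complex.exp_ne_zero _)]
  obtain ⟨n, hn⟩ := Complex.exp_eq_exp_iff_exists_int.1 h1.symm
  refine ⟨n, ?_⟩
  have h2 : z - n * Real.pi = w / (2 * I) := by
    field_simp
    linear_combination hn
  have h3 : ‖w‖ ≤ 3 / 2 * ‖cexp (2 * I * z) - 1‖ := by
    have h4 := Complex.norm_log_one_add_half_le_self (z := cexp (2 * I * z) - 1) (h.trans hε)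
    rwa [add_sub_cancel] at h4
  rw [h2, norm_div, norm_mul, Complex.norm_I, mul_one]
  have h5 : ‖(2 : ℂ)‖ = 2 := by simp
  rw [h5]
  have h6 : 0 ≤ ‖cexp (2 * I * z) - 1‖ := norm_nonneg _
  linarith

/-- **branch on a connected set** -/
theorem branch {X : Type*} [TopologicalSpace X] {K : Set X} (hK : IsPreconnected K) {f : X → ℂ}
    (hf : ContinuousOn f K) {ε : ℝ} (hε : ε ≤ 1 / 2)
    (h : ∀ q ∈ K, ‖cexp (2 * I * f q) - 1‖ ≤ ε) :
    ∃ m : ℤ, ∀ q ∈ K, ‖f q - m * Real.pi‖ ≤ ε := by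
  rcases K.eq_empty_or_nonempty with hE | ⟨q0, hq0⟩
  · exact ⟨0, fun q hq => by rw [hE] at hq; exact absurd hq (notMem_empty q)⟩
  choose! m hm using fun q hq => near_int hε (h q hq)
  refine ⟨m q0, ?_⟩
  have key : ∀ q ∈ K, ∀ q' ∈ K, ¬ m q < m q' := by
    intro q hq q' hq' hlt
    have hre : ContinuousOn (fun x => (f x).re) K :=
      Complex.continuous_re.comp_continuousOn hf
    have hb : ∀ x ∈ K, |(f x).re - m x * Real.pi| ≤ ε := by
      intro x hx
      have h1 := Complex.abs_re_le_norm (f x - m x * Real.pi)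
      have h2 : (f x - m x * Real.pi).re = (f x).re - m x * Real.pi := by simp
      rw [h2] at h1
      exact h1.trans (hm x hx)
    have hpi := Real.pi_gt_three
    have hlt' : (m q : ℝ) + 1 ≤ m q' := by exact_mod_cast hlt
    have hv : ((m q : ℝ) + 1 / 2) * Real.pi ∈ Icc (f q).re (f q').re := by
      have h1 := abs_le.1 (hb q hq)
      have h2 := abs_le.1 (hb q' hq')
      constructor
      · nlinarith
      · nlinarith
    obtain ⟨x, hx, hxe⟩ := hK.intermediate_value hq hq' hre hv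
    have h3 := abs_le.1 (hb x hx)
    simp only at hxe
    rw [hxe] at h3
    have h4 : ((m x : ℝ) ≤ m q) ∨ ((m q : ℝ) + 1 ≤ m x) := by
      rcases le_or_gt (m x) (m q) with h5 | h5
      · left; exact_mod_cast h5
      · right; exact_mod_cast h5
    rcases h4 with h4 | h4
    · nlinarith
    · nlinarith
  intro q hq
  have h1 := key q hq q0 hq0
  have h2 := key q0 hq0 q hq
  have h3 : m q = m q0 := by omega
  rw [← h3]
  exact hm q hq

/-- the compact `KD` in the blow-up -/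
def kd (A : ℝ) : Set (ℂ × ℂ) :=
  {x | |x.1.re| ≤ A ∧ ‖x.2‖ ≤ A ∧ 1 ≤ A * (-x.1.im) ∧ -x.1.im ≤ A ∧ 1 ≤ A * x.2.im}

theorem convex_kd (A : ℝ) : Convex ℝ (kd A) := by
  intro x hx y hy a b ha hb hab
  obtain ⟨x1, x2, x3, x4, x5⟩ := hx
  obtain ⟨y1, y2, y3, y4, y5⟩ := hy
  have e1 : (a • x + b • y).1.re = a * x.1.re + b * y.1.re := by simp
  have e2 : (a • x + b • y).1.im = a * x.1.im + b * y.1.im := by simp
  have e3 : (a • x + b • y).2.im = a * x.2.im + b * y.2.im := by simp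
  have hb' : b = 1 - a := by linarith
  refine ⟨?_, ?_, ?_, ?_, ?_⟩
  · rw [e1, abs_le]
    rw [abs_le] at x1 y1
    constructor <;> nlinarith
  · have : (a • x + b • y).2 = a • x.2 + b • y.2 := by simp
    rw [this]
    refine (norm_add_le _ _).trans ?_
    rw [norm_smul, norm_smul, Real.norm_of_nonneg ha, Real.norm_of_nonneg hb]
    have c1 := mul_le_mul_of_nonneg_left x2 ha
    have c2 := mul_le_mul_of_nonneg_left y2 hb
    have c3 : a * A + b * A = A := by rw [← add_mul, hab, one_mul]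
    linarith
  · rw [e2]; nlinarith
  · rw [e2]
    have c1 := mul_le_mul_of_nonneg_left x4 ha
    have c2 := mul_le_mul_of_nonneg_left y4 hb
    have c3 : a * A + b * A = A := by rw [← add_mul, hab, one_mul]
    linarith
  · rw [e3]; nlinarith

theorem isClosed_kd (A : ℝ) : IsClosed (kd A) := by
  have h1 : Continuous (fun x : ℂ × ℂ => |x.1.re|) := by fun_prop
  have h2 : Continuous (fun x : ℂ × ℂ => ‖x.2‖) := by fun_prop
  have h3 : Continuous (fun x : ℂ × ℂ => A * (-x.1.im)) := by fun_prop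
  have h4 : Continuous (fun x : ℂ × ℂ => -x.1.im) := by fun_prop
  have h5 : Continuous (fun x : ℂ × ℂ => A * x.2.im) := by fun_prop
  exact (isClosed_le h1 continuous_const).inter ((isClosed_le h2 continuous_const).inter
    ((isClosed_le continuous_const h3).inter ((isClosed_le h4 continuous_const).inter
      (isClosed_le continuous_const h5))))

theorem isCompact_kd {A : ℝ} (hA : 8 ≤ A) : IsCompact (kd A) := by
  refine Metric.isCompact_of_isClosed_isBounded (isClosed_kd A) ?_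
  refine (isBounded_closedBall (x := (0 : ℂ × ℂ)) (r := 2 * A)).subset ?_
  intro x hx
  obtain ⟨x1, x2, x3, x4, x5⟩ := hx
  rw [mem_closedBall, dist_zero_right, Prod.norm_def]
  refine max_le ?_ (by linarith)
  refine (Complex.norm_le_abs_re_add_abs_im _).trans ?_
  have h6 : 0 < -x.1.im := by
    by_contra hc
    push Not at hc
    nlinarith
  have h7 : |x.1.im| = -x.1.im := abs_of_neg (by linarith)
  rw [h7]; linarith

theorem kd_sub_Wg {A m : ℝ} (hA : 8 ≤ A) (hm : 0 ≤ m) : kd A ⊆ Wg m := by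
  intro x hx
  obtain ⟨x1, x2, x3, x4, x5⟩ := hx
  have h6 : 0 < -x.1.im := by
    by_contra hc
    push Not at hc
    nlinarith
  have h7 : 0 < x.2.im := by
    by_contra hc
    push Not at hc
    nlinarith
  refine ⟨h7, ?_⟩
  have : 0 ≤ m * x.2.im := by positivity
  linarith

theorem z0_mem_kd {A : ℝ} (hA : 8 ≤ A) : z0 ∈ kd A := by
  have h1 : (z0).1 = -I := rfl
  have h2 : (z0).2 = I / 4 := rfl
  have h3 : (I / 4 : ℂ) = ((1 / 4 : ℝ) : ℂ) * I := by push_cast; ring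
  refine ⟨?_, ?_, ?_, ?_, ?_⟩
  · rw [h1]; simp; linarith
  · rw [h2, norm_div, Complex.norm_I]; norm_num; linarith
  · rw [h1]; simp; linarith
  · rw [h1]; simp; linarith
  · rw [h2, h3]; simp; linarith

theorem bl_mem_KD {A : ℝ} {p : ℝ × ℝ} {s : ℝ} (hs : 0 < s) {x : ℂ × ℂ} :
    bl p s x ∈ KD A p.1 p.2 s ↔ x ∈ kd A := by
  have e1 : (bl p s x).1.re - p.1 = s * x.1.re := by simp [bl]
  have e2 : (bl p s x).1.im = s * x.1.im := by simp [bl]
  have e3 : (bl p s x).2 - (p.2 : ℂ) = (s : ℂ) * x.2 := by simp [bl]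
  have e4 : (bl p s x).2.im = s * x.2.im := by simp [bl]
  have e5 : ‖(s : ℂ) * x.2‖ = s * ‖x.2‖ := by
    rw [norm_mul, Complex.norm_real, Real.norm_of_nonneg hs.le]
  have e6 : |s * x.1.re| = s * |x.1.re| := by rw [abs_mul, abs_of_pos hs]
  show (_ ∧ _ ∧ _ ∧ _ ∧ _) ↔ (_ ∧ _ ∧ _ ∧ _ ∧ _)
  rw [e1, e2, e3, e4, e5, e6]
  constructor
  · rintro ⟨a1, a2, a3, a4, a5⟩
    refine ⟨?_, ?_, ?_, ?_, ?_⟩
    · exact le_of_mul_le_mul_left (by linarith) hs
    · exact le_of_mul_le_mul_left (by linarith) hs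
    · exact le_of_mul_le_mul_left (by linarith) hs
    · exact le_of_mul_le_mul_left (by linarith) hs
    · exact le_of_mul_le_mul_left (by linarith) hs
  · rintro ⟨a1, a2, a3, a4, a5⟩
    have b1 := mul_le_mul_of_nonneg_left a1 hs.le
    have b2 := mul_le_mul_of_nonneg_left a2 hs.le
    have b3 := mul_le_mul_of_nonneg_left a3 hs.le
    have b4 := mul_le_mul_of_nonneg_left a4 hs.le
    have b5 := mul_le_mul_of_nonneg_left a5 hs.le
    refine ⟨?_, ?_, ?_, ?_, ?_⟩ <;> linarith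

theorem exists_bl {p : ℝ × ℝ} {s : ℝ} (hs : 0 < s) (q : ℂ × ℂ) : ∃ x, bl p s x = q := by
  have hs' : (s : ℂ) ≠ 0 := by exact_mod_cast hs.ne'
  refine ⟨((q.1 - p.1) / s, (q.2 - p.2) / s), ?_⟩
  unfold bl
  ext1
  · simp; field_simp; ring
  · simp; field_simp; ring

/-- **the angle on a slow window** -/
theorem slow_psi {A ε : ℝ} (hε : ε ≤ 1 / 2) {K K' : Set (ℂ × ℂ)} (hK : kd A ⊆ K)
    {ψ : ℂ → ℂ} {φ P B : ℂ × ℂ → ℂ} (hφ : ContinuousOn φ (kd A)) (h : SlowAt ε K K' ψ φ P B) :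
    ∃ m : ℤ, ∀ q ∈ kd A, ‖φ q - ψ (B z0) - m * Real.pi‖ ≤ ε :=
  branch (convex_kd A).isPreconnected (f := fun q => φ q - ψ (B z0)) (hφ.sub continuousOn_const) hε
    (fun q hq => (h.1 q (hK hq)).1)

/-- **the oscillation of the angle on a slow window** -/
theorem slow_osc {A ε : ℝ} (hA : 8 ≤ A) (hε : ε ≤ 1 / 2) {K K' : Set (ℂ × ℂ)} (hK : kd A ⊆ K)
    {ψ : ℂ → ℂ} {φ P B : ℂ × ℂ → ℂ} {p : ℝ × ℝ} {s : ℝ} (hs : 0 < s)
    (hφ : ContinuousOn φ (KD A p.1 p.2 s))
    (h : SlowAt ε K K' ψ (fun q => φ (bl p s q)) (fun q => P (bl p s q))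
      (fun q => B (bl p s q))) :
    oe A φ p s ≤ 2 * ε := by
  have hbl : Continuous (bl p s) := by unfold bl; fun_prop
  have hc : ContinuousOn (fun q => φ (bl p s q)) (kd A) :=
    hφ.comp hbl.continuousOn (fun x hx => (bl_mem_KD hs).2 hx)
  obtain ⟨m, hm⟩ := slow_psi hε hK hc h
  have hm0 := hm z0 (z0_mem_kd hA)
  have hε0 : 0 ≤ ε := (norm_nonneg _).trans hm0
  refine oe_le (by linarith) ?_
  intro q hq
  obtain ⟨x, rfl⟩ := exists_bl (p := p) hs q
  have hx := hm x ((bl_mem_KD hs).1 hq)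
  have e : φ (bl p s x) - φ (ray p s) =
      (φ (bl p s x) - ψ (B (bl p s z0)) - m * Real.pi)
        - (φ (bl p s z0) - ψ (B (bl p s z0)) - m * Real.pi) := by
    have : ray p s = bl p s z0 := rfl
    rw [this]; ring
  rw [e]
  refine (norm_sub_le _ _).trans ?_
  linarith

end Crest.Agent.R102.SlowS
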