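import Crest.Agent.R102.EdgeDefs_255
import Crest.Agent.R102.IntrMove_802_Mg
import Crest.Agent.R102.SlowS_486
import Crest.Agent.R102.Chain_859
import Crest.Agent.R102.SlowJ_486
import Crest.Agent.R102.LocGrow_115
import Crest.Agent.R102.NoRecW_203
import Crest.Agent.R102.BigMontel_948
import Crest.Agent.R102.ToWorld_150

-- ▼ part R102/NoRecT_985
section

/-!
Row 102, EDGE / SLOW, NoRec (helper985): TRANSFER from the record window `(p, s)` to the window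
`(e, s)` centred over the good base, `e.1 = p.1`, `|e.2 - p.2| ≤ s`.

* `tr K`          : real translates (in the second variable, by `r ∈ [-1,1]`) of `K`;
* `bl_shift`      : `bl e s q = bl p s (q.1, q.2 + r)`;
* `intr_e`        : `Intr` at `(p,s)` gives `Intr` at `(e,s)`;
* `slow_shift`    : `SlowAt` at `(p,s)` gives `SlowAt` at `(e,s)`;
* `hosc_shift`    : oscillation.
-/

set_option autoImplicit false

open Set Filter Topology Metric Complex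

noncomputable section

namespace Crest.Agent.R102.NoRecT985

open Crest.Agent.R102.Edge255
open Crest.Agent.R102.S5 (Half bl ray)
open Crest.Agent.R102.Sup115 (HDu Dp)
open Crest.Agent.R102.SlowE (oe)
open Crest.Agent.R102.TreeS174 (KD)
open Crest.Agent.R102.SlowS (kd)

/-- translates of `K` by real vectors `(0, r)`, `|r| ≤ 1` -/
def tr (K : Set (ℂ × ℂ)) : Set (ℂ × ℂ) :=
  (fun x : (ℂ × ℂ) × ℝ => (x.1.1, x.1.2 + (x.2 : ℂ))) '' (K ×ˢ Icc (-1 : ℝ) 1)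

theorem mem_tr {K : Set (ℂ × ℂ)} {q : ℂ × ℂ} (hq : q ∈ K) {r : ℝ} (hr : |r| ≤ 1) :
    (q.1, q.2 + (r : ℂ)) ∈ tr K :=
  ⟨(q, r), ⟨hq, abs_le.1 hr⟩, rfl⟩

theorem isCompact_tr {K : Set (ℂ × ℂ)} (hK : IsCompact K) : IsCompact (tr K) :=
  (hK.prod isCompact_Icc).image (by fun_prop)

theorem tr_sub_Wg {K : Set (ℂ × ℂ)} {m : ℝ} (hK : K ⊆ Wg m) : tr K ⊆ Wg m := by
  rintro _ ⟨⟨q, r⟩, ⟨hq, -⟩, rfl⟩
  have h1 := hK hq
  have h2 : (q.2 + (r : ℂ)).im = q.2.im := by simp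
  refine ⟨?_, ?_⟩
  · show 0 < (q.2 + (r : ℂ)).im
    rw [h2]; exact h1.1
  · show q.1.im < m * (q.2 + (r : ℂ)).im
    rw [h2]; exact h1.2

theorem z0_mem {m : ℝ} (hm : 0 ≤ m) : z0 ∈ Wg m := by
  refine ⟨?_, ?_⟩
  · simp [z0]
  · simp only [z0, neg_im, I_im, div_ofNat_im]
    nlinarith

theorem insert_sub_Wg {K : Set (ℂ × ℂ)} {m : ℝ} (hm : 0 ≤ m) (hK : K ⊆ Wg m) :
    insert z0 K ⊆ Wg m := insert_subset (z0_mem hm) hK

/-- the shift of the centre -/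
theorem exists_shift {p e : ℝ × ℝ} {s : ℝ} (hs : 0 < s) (h1 : e.1 = p.1) (h2 : |e.2 - p.2| ≤ s) :
    ∃ r : ℝ, |r| ≤ 1 ∧ (∀ q : ℂ × ℂ, bl e s q = bl p s (q.1, q.2 + (r : ℂ))) ∧
      ∀ q : ℂ × ℂ, bl p s q = bl e s (q.1, q.2 + ((-r : ℝ) : ℂ)) := by
  have hs' : (s : ℂ) ≠ 0 := by exact_mod_cast hs.ne'
  refine ⟨(e.2 - p.2) / s, ?_, fun q => ?_, fun q => ?_⟩
  · rw [abs_div, abs_of_pos hs, div_le_one hs]; exact h2
  · unfold bl
    rw [h1]
    ext1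
    · rfl
    · push_cast; field_simp; ring
  · unfold bl
    rw [h1]
    ext1
    · rfl
    · push_cast; field_simp; ring


/-- **T1** -/
theorem intr_e {u0 R d h : ℝ} {ψ H A : ℂ → ℂ} {φ p B : ℂ × ℂ → ℂ} {X L : Set (ℂ × ℂ)}
    (D : ED u0 R d h ψ H A φ p B X L) {κ : ℝ} (hκ : 0 < κ) :
    ∃ κ' > 0, ∀ (c e : ℝ × ℝ) (s : ℝ), 0 < s → 2 * s ≤ d → ball (c.2 : ℂ) (2 * s) ⊆ ball (u0 : ℂ) R →
      e.1 = c.1 → |e.2 - c.2| ≤ s → Intr h κ ψ B c s → Intr h κ' ψ B e s := by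
  obtain ⟨κ', hκ', hI⟩ := IntrShift198.intr_shift (R := 1) D.curve hκ le_rfl
  refine ⟨κ', hκ', fun c e s hs hd hb h1 h2 hc => ?_⟩
  have hsub : Half c (2 * 1 * s) 0 ⊆ Dp u0 R d := by
    rintro q ⟨q1, q2, q3, q4, q5⟩
    refine ⟨by linarith, by linarith, hb ?_, q4⟩
    rw [mem_ball_iff_norm]
    linarith
  refine hI B c e s s hs (by rw [div_one]) (by rw [one_mul]) ?_ (by rw [one_mul]; exact h2)
    (D.B_diff.mono (hsub.trans D.Dp_X)) (fun q hq => D.B_im q (D.Dp_X (hsub hq))) hc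
  rw [h1, sub_self, abs_zero, one_mul]
  exact hs.le

/-- uniform continuity of `ψ` -/
theorem unif_psi {h κ : ℝ} {ψ H : ℂ → ℂ} (hC : Curve h ψ H) (hκ : 0 < κ) {ε : ℝ} (hε : 0 < ε) :
    ∃ δ > 0, ∀ z w : ℂ, |z.im| ≤ h - κ → ‖w - z‖ ≤ δ → ‖ψ w - ψ z‖ ≤ ε := by
  obtain ⟨δ, hδ, hu⟩ := IntrMove802.unif_strip (h := h) (y := fun z => ψ z - 2 * Real.pi * z)
    (hC.ψ_diff.continuousOn.sub (by fun_prop)) (fun z hz => by
      rw [hC.ψ_per z hz]; ring) (h' := h - κ / 2) (by linarith) (ε := ε / 2) (by positivity)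
  refine ⟨min δ (min (κ / 2) (ε / (4 * Real.pi))), by positivity, fun z w hz hw => ?_⟩
  have h1 : ‖w - z‖ ≤ δ := hw.trans (min_le_left _ _)
  have h2 : ‖w - z‖ ≤ κ / 2 := hw.trans ((min_le_right _ _).trans (min_le_left _ _))
  have h3 : ‖w - z‖ ≤ ε / (4 * Real.pi) := hw.trans ((min_le_right _ _).trans (min_le_right _ _))
  have h4 : |w.im| ≤ h - κ / 2 := by
    have := (Complex.abs_im_le_norm (w - z)).trans h2
    rw [sub_im] at this
    have h5 : |w.im| ≤ |z.im| + |w.im - z.im| := by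
      calc |w.im| = |z.im + (w.im - z.im)| := by ring_nf
        _ ≤ _ := abs_add_le _ _
    linarith
  have h5 := hu w z h4 (by linarith) h1
  have h6 : ψ w - ψ z = ((ψ w - 2 * Real.pi * w) - (ψ z - 2 * Real.pi * z)) +
      2 * Real.pi * (w - z) := by ring
  rw [h6]
  refine (norm_add_le _ _).trans ?_
  have h7 : ‖(2 * Real.pi * (w - z) : ℂ)‖ = 2 * Real.pi * ‖w - z‖ := by
    rw [norm_mul, norm_mul, Complex.norm_ofNat, Complex.norm_real, Real.norm_eq_abs,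
      abs_of_pos Real.pi_pos]
  have h8 : 2 * Real.pi * ‖w - z‖ ≤ ε / 2 := by
    calc 2 * Real.pi * ‖w - z‖ ≤ 2 * Real.pi * (ε / (4 * Real.pi)) := by gcongr
      _ = ε / 2 := by field_simp; ring
  rw [h7]
  linarith

/-- **T2** -/
theorem slow_shift {h κ : ℝ} {ψ H : ℂ → ℂ} (hC : Curve h ψ H) (hκ : 0 < κ) {ε : ℝ} (hε : 0 < ε) :
    ∃ ε' > 0, ε' ≤ ε ∧ ∀ (φ p B : ℂ × ℂ → ℂ) (c e : ℝ × ℝ) (s : ℝ) (K K' : Set (ℂ × ℂ)), 0 < s →
      e.1 = c.1 → |e.2 - c.2| ≤ s → |(B (ray c s)).im| ≤ h - κ →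
      SlowAt ε' (tr (insert z0 K)) (tr (insert z0 K')) ψ (fun q => φ (bl c s q))
        (fun q => p (bl c s q)) (fun q => B (bl c s q)) →
      SlowAt ε K K' ψ (fun q => φ (bl e s q)) (fun q => p (bl e s q)) (fun q => B (bl e s q)) := by
  set η : ℝ := min (ε / 8) (1 / 4) with hη
  have hη0 : 0 < η := by positivity
  have hη1 : η ≤ ε / 8 := min_le_left _ _
  have hη2 : η ≤ 1 / 4 := min_le_right _ _
  obtain ⟨δ, hδ, hψ⟩ := unif_psi hC hκ hη0
  refine ⟨min (ε / 8) δ, by positivity, (min_le_left _ _).trans (by linarith), ?_⟩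
  intro φ p B c e s K K' hs h1 h2 hB hS
  obtain ⟨r, hr, hbl, -⟩ := exists_shift hs h1 h2
  obtain ⟨hS1, hS2⟩ := hS
  have hε1 : min (ε / 8) δ ≤ ε / 8 := min_le_left _ _
  have hz : (z0.1, z0.2 + (r : ℂ)) ∈ tr (insert z0 K) := mem_tr (mem_insert _ _) hr
  have hz' : (z0.1, z0.2 + (r : ℂ)) ∈ tr (insert z0 K') := mem_tr (mem_insert _ _) hr
  -- the base label moves little
  have hb := (hS2 _ hz').trans (min_le_right _ _)
  have hps := hψ (B (ray c s)) (B (bl c s (z0.1, z0.2 + (r : ℂ)))) hB hb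
  refine ⟨fun q hq => ⟨?_, ?_⟩, fun q hq => ?_⟩
  · have h3 := (hS1 _ (mem_tr (mem_insert_of_mem z0 hq) hr)).1
    simp only [hbl]
    set b := ψ (B (ray c s)) with hbdef
    set b' := ψ (B (bl c s (z0.1, z0.2 + (r : ℂ)))) with hb'def
    set w := φ (bl c s (q.1, q.2 + (r : ℂ))) with hw
    have h3' : ‖cexp (2 * I * (w - b)) - 1‖ ≤ min (ε / 8) δ := h3
    have e1 : cexp (2 * I * (w - b')) - 1 =
        (cexp (2 * I * (w - b)) - 1) * cexp (2 * I * (b - b')) + (cexp (2 * I * (b - b')) - 1) := by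
      have : cexp (2 * I * (w - b')) = cexp (2 * I * (w - b)) * cexp (2 * I * (b - b')) := by
        rw [← Complex.exp_add]; congr 1; ring
      rw [this]; ring
    have h4 : ‖2 * I * (b - b')‖ ≤ 2 * η := by
      rw [norm_mul, norm_mul, Complex.norm_ofNat, Complex.norm_I, mul_one, norm_sub_rev]
      linarith
    have h5 : ‖cexp (2 * I * (b - b')) - 1‖ ≤ 4 * η := by
      refine (Complex.norm_exp_sub_one_le (by linarith)).trans ?_
      linarith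
    have h6 : ‖cexp (2 * I * (b - b'))‖ ≤ 2 := by
      calc ‖cexp (2 * I * (b - b'))‖ = ‖(cexp (2 * I * (b - b')) - 1) + 1‖ := by ring_nf
        _ ≤ ‖cexp (2 * I * (b - b')) - 1‖ + ‖(1 : ℂ)‖ := norm_add_le _ _
        _ ≤ 4 * η + 1 := by rw [norm_one]; linarith
        _ ≤ 2 := by linarith
    rw [e1]
    refine (norm_add_le _ _).trans ?_
    rw [norm_mul]
    have h7 : ‖cexp (2 * I * (w - b)) - 1‖ * ‖cexp (2 * I * (b - b'))‖ ≤ ε / 8 * 2 :=
      mul_le_mul (h3'.trans hε1) h6 (norm_nonneg _) (by positivity)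
    linarith
  · have h3 := (hS1 _ (mem_tr (mem_insert_of_mem z0 hq) hr)).2
    have h4 := (hS1 _ hz).2
    simp only [hbl]
    have e1 : p (bl c s (q.1, q.2 + (r : ℂ))) - p (bl c s (z0.1, z0.2 + (r : ℂ))) =
        (p (bl c s (q.1, q.2 + (r : ℂ))) - p (bl c s z0)) -
        (p (bl c s (z0.1, z0.2 + (r : ℂ))) - p (bl c s z0)) := by ring
    rw [e1]
    refine (norm_sub_le _ _).trans ?_
    simp only at h3 h4
    linarith
  · have h3 := hS2 _ (mem_tr (mem_insert_of_mem z0 hq) hr)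
    have h4 := hS2 _ hz'
    simp only [hbl]
    have e1 : B (bl c s (q.1, q.2 + (r : ℂ))) - B (bl c s (z0.1, z0.2 + (r : ℂ))) =
        (B (bl c s (q.1, q.2 + (r : ℂ))) - B (bl c s z0)) -
        (B (bl c s (z0.1, z0.2 + (r : ℂ))) - B (bl c s z0)) := by ring
    rw [e1]
    refine (norm_sub_le _ _).trans ?_
    simp only at h3 h4
    linarith

/-- **T2**, sequences -/
theorem slow_seq {h κ : ℝ} {ψ H : ℂ → ℂ} (hC : Curve h ψ H) (hκ : 0 < κ) {a g : ℝ} (ha : 0 ≤ a)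
    (hg : 0 < g) {φ p B : ℂ × ℂ → ℂ} {c e : ℕ → ℝ × ℝ} {s : ℕ → ℝ} (hs : ∀ n, 0 < s n)
    (h1 : ∀ n, (e n).1 = (c n).1) (h2 : ∀ n, |(e n).2 - (c n).2| ≤ s n)
    (hB : ∀ᶠ n in atTop, |(B (ray (c n) (s n))).im| ≤ h - κ)
    (hS : ∀ ε > 0, ∀ K ⊆ Wg (a + g), IsCompact K → ∀ K' ⊆ Wg a, IsCompact K' →
      ∀ᶠ n in atTop, SlowAt ε K K' ψ (fun q => φ (bl (c n) (s n) q))
        (fun q => p (bl (c n) (s n) q)) (fun q => B (bl (c n) (s n) q))) :
    ∀ ε > 0, ∀ K ⊆ Wg (a + g), IsCompact K → ∀ K' ⊆ Wg a, IsCompact K' →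
      ∀ᶠ n in atTop, SlowAt ε K K' ψ (fun q => φ (bl (e n) (s n) q))
        (fun q => p (bl (e n) (s n) q)) (fun q => B (bl (e n) (s n) q)) := by
  intro ε hε K hK hKc K' hK' hKc'
  obtain ⟨ε', hε', -, hsh⟩ := slow_shift hC hκ hε
  filter_upwards [hB, hS ε' hε' (tr (insert z0 K))
    (tr_sub_Wg (insert_sub_Wg (by linarith) hK)) (isCompact_tr (hKc.insert z0))
    (tr (insert z0 K')) (tr_sub_Wg (insert_sub_Wg ha hK')) (isCompact_tr (hKc'.insert z0))]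
    with n hn hn'
  exact hsh φ p B (c n) (e n) (s n) K K' (hs n) (h1 n) (h2 n) hn hn'



end Crest.Agent.R102.NoRecT985
end
end

-- ▼ part R102/SideK_201
section

/-!
# R102/SideK_201: the side columns at a kernel record (slow label regime, N2), pure part

In the abstract objects of `Chain_859` (`V`, `rho`): if the window `(p, s)` is a kernel record
(`rho * e' ≤ A * e`) then at every window `(p', s')` at distance `≤ R` of `(p, s)` the label is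
displaced by at most `M * (R / s) ^ th * (R / s') ^ 2 * e p s`, as long as this number is small.
-/

set_option autoImplicit false

open Set Metric

noncomputable section

namespace Crest.Agent.R102.SideK201

open Crest.Agent.R102.Chain859

variable {E : Type*} [NormedAddCommGroup E]

/-- down a side column -/
lemma down_col {b : ℝ → E} {b0 : E} {e : ℝ → ℝ} {Cl D k0 k r s' : ℝ} (hCl : 0 ≤ Cl) (hD : 0 ≤ D)
    (hs' : 0 < s') (hk0 : ‖b r - b0‖ ≤ k0) (hk : k0 + Cl * D * (r / s') ^ 2 ≤ k)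
    (h1 : D * (r / s') ^ 2 < 1)
    (hrec : ∀ t, s' ≤ t → t ≤ r → (∀ t', t ≤ t' → t' ≤ r → ‖b t' - b0‖ ≤ k) →
      e t ≤ D * (r / t) ^ 2)
    (hv : ∀ t t', s' ≤ t' → t' ≤ t → t ≤ r → t / 2 ≤ t' →
      (∀ τ, t ≤ τ → τ ≤ r → ‖b τ - b0‖ ≤ k) → e t < 1 → ‖b t - b t'‖ ≤ Cl * e t) :
    ∀ n : ℕ, ∀ t, s' ≤ t → t ≤ r → r ≤ 2 ^ n * t → ‖b r - b t‖ ≤ Cl * D * (r / t) ^ 2 := by
  have hmono : ∀ t, s' ≤ t → t ≤ r → D * (r / t) ^ 2 ≤ D * (r / s') ^ 2 := by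
    intro t ht htr
    have t0 : 0 < t := lt_of_lt_of_le hs' ht
    have r0 : 0 < r := lt_of_lt_of_le t0 htr
    gcongr
  have hmono' : ∀ t, s' ≤ t → t ≤ r → Cl * D * (r / t) ^ 2 ≤ Cl * D * (r / s') ^ 2 := by
    intro t ht htr
    have := mul_le_mul_of_nonneg_left (hmono t ht htr) hCl
    linarith
  intro n
  induction n with
  | zero =>
    intro t a1 a2 a3
    have : t = r := le_antisymm a2 (by simpa using a3)
    subst this
    rw [sub_self, norm_zero]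
    positivity
  | succ n ih =>
    intro t a1 a2 a3
    have t0 : 0 < t := lt_of_lt_of_le hs' a1
    have r0 : 0 < r := lt_of_lt_of_le t0 a2
    have hkr : ‖b r - b0‖ ≤ k := by
      have : 0 ≤ Cl * D * (r / s') ^ 2 := by positivity
      linarith
    rcases le_total r (2 * t) with h | h
    · have hin : ∀ τ, r ≤ τ → τ ≤ r → ‖b τ - b0‖ ≤ k := by
        intro τ c1 c2
        rw [le_antisymm c2 c1]; exact hkr
      have h2 := hrec r (a1.trans a2) le_rfl hin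
      have h3 : e r < 1 := lt_of_le_of_lt (h2.trans (hmono r (a1.trans a2) le_rfl)) h1
      have h4 := hv r t a1 a2 le_rfl (by linarith) hin h3
      rw [div_self r0.ne', one_pow, mul_one] at h2
      have h5 : (1 : ℝ) ≤ (r / t) ^ 2 := by
        apply one_le_pow₀
        rw [one_le_div t0]; exact a2
      have h6 : 0 ≤ Cl * D := mul_nonneg hCl hD
      calc ‖b r - b t‖ ≤ Cl * e r := h4
        _ ≤ Cl * D := by gcongr
        _ ≤ Cl * D * (r / t) ^ 2 := by nlinarith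
    · have hin : ∀ τ, 2 * t ≤ τ → τ ≤ r → ‖b τ - b0‖ ≤ k := by
        intro τ c1 c2
        have c3 := ih τ (by linarith) c2 (by
          rw [pow_succ] at a3
          have : (0 : ℝ) < 2 ^ n := by positivity
          nlinarith)
        have c4 := hmono' τ (by linarith) c2
        have c5 : ‖b τ - b0‖ ≤ ‖b τ - b r‖ + ‖b r - b0‖ := norm_sub_le_norm_sub_add_norm_sub _ _ _
        rw [norm_sub_rev] at c3
        linarith
      have h2 := hrec (2 * t) (by linarith) h hin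
      have h3 : e (2 * t) < 1 := lt_of_le_of_lt (h2.trans (hmono (2 * t) (by linarith) h)) h1
      have h4 := hv (2 * t) t a1 (by linarith) h (by linarith) hin h3
      have h5 := ih (2 * t) (by linarith) h (by rw [pow_succ] at a3; linarith)
      have h7 : (r / (2 * t)) ^ 2 = (r / t) ^ 2 / 4 := by field_simp; ring
      rw [h7] at h2 h5
      have h8 : Cl * e (2 * t) ≤ Cl * (D * ((r / t) ^ 2 / 4)) := by gcongr
      have h9 : ‖b r - b t‖ ≤ ‖b r - b (2 * t)‖ + ‖b (2 * t) - b t‖ :=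
        norm_sub_le_norm_sub_add_norm_sub _ _ _
      have h10 : 0 ≤ Cl * D * (r / t) ^ 2 := by positivity
      nlinarith

/-- up the column of the record -/
lemma up_col {b : ℝ → E} {e : ℝ → ℝ} {Cl D th s : ℝ} (hth : 0 < th) (hCl : 0 ≤ Cl) (hD : 0 ≤ D)
    (hs : 0 < s) :
    ∀ n : ℕ, ∀ r, s ≤ r → r ≤ 2 ^ n * s → (∀ t, s ≤ t → t ≤ r → e t ≤ D * (t / s) ^ th) →
      (∀ t t', s ≤ t' → t' ≤ t → t ≤ r → t / 2 ≤ t' → ‖b t - b t'‖ ≤ Cl * e t) →
      ‖b r - b s‖ ≤ 1 / (1 - (1 / 2 : ℝ) ^ th) * (Cl * D * (r / s) ^ th) := by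
  set x : ℝ := (1 / 2 : ℝ) ^ th with hx
  have x0 : 0 < x := by rw [hx]; positivity
  have x1 : x < 1 := Real.rpow_lt_one (by norm_num) (by norm_num) hth
  have x2 : 0 < 1 - x := by linarith
  have x3 : 1 ≤ 1 / (1 - x) := by rw [le_div_iff₀ x2]; linarith
  intro n
  induction n with
  | zero =>
    intro r a1 a2 _ _
    have : r = s := le_antisymm (by simpa using a2) a1
    subst this
    rw [sub_self, norm_zero]
    positivity
  | succ n ih =>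
    intro r a1 a2 he hv
    have r0 : 0 < r := lt_of_lt_of_le hs a1
    have hP : 0 ≤ Cl * D * (r / s) ^ th := by positivity
    rcases le_total r (2 * s) with h | h
    · have h4 := hv r s le_rfl a1 le_rfl (by linarith)
      have h5 := he r a1 le_rfl
      calc ‖b r - b s‖ ≤ Cl * e r := h4
        _ ≤ Cl * (D * (r / s) ^ th) := by gcongr
        _ = 1 * (Cl * D * (r / s) ^ th) := by ring
        _ ≤ _ := by gcongr
    · have h4 := hv r (r / 2) (by linarith) (by linarith) le_rfl le_rfl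
      have h5 := he r a1 le_rfl
      have h6 := ih (r / 2) (by linarith) (by rw [pow_succ] at a2; linarith)
        (fun t c1 c2 => he t c1 (by linarith)) (fun t t' c1 c2 c3 c4 => hv t t' c1 c2 (by linarith) c4)
      have h7 : (r / 2 / s) ^ th = x * (r / s) ^ th := by
        rw [show r / 2 / s = (1 / 2) * (r / s) by ring, Real.mul_rpow (by norm_num) (by positivity)]
      rw [h7] at h6
      have h8 : Cl * e r ≤ Cl * (D * (r / s) ^ th) := by gcongr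
      have h9 : ‖b r - b s‖ ≤ ‖b r - b (r / 2)‖ + ‖b (r / 2) - b s‖ :=
        norm_sub_le_norm_sub_add_norm_sub _ _ _
      have h10 : 1 / (1 - x) * (Cl * D * (x * (r / s) ^ th)) + Cl * (D * (r / s) ^ th) =
          1 / (1 - x) * (Cl * D * (r / s) ^ th) := by
        field_simp
        ring
      linarith

set_option maxHeartbeats 4000000 in
/-- **N2**: side columns at a kernel record -/
theorem sideK {th Cl A : ℝ} (hth : 0 < th) (hCl : 0 ≤ Cl) (hA : 1 ≤ A) :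
    ∃ M : ℝ, 1 ≤ M ∧ ∀ (e : ℝ × ℝ → ℝ → ℝ) (b : ℝ × ℝ → ℝ → E) (b0 : E) (k ε s1 : ℝ)
      (p0 p : ℝ × ℝ) (s : ℝ), (∀ p s, 0 ≤ e p s) →
      (∀ p s s', V b b0 s1 p0 k p s → e p s < 1 → s / 2 ≤ s' → s' ≤ s →
        ‖b p s - b p s'‖ ≤ Cl * e p s) →
      (∀ p p' s, V b b0 s1 p0 k p s → e p s < 1 → dist p p' ≤ s →
        ‖b p s - b p' s‖ ≤ Cl * (dist p p' / s) * e p s) →
      0 ≤ k → V b b0 s1 p0 (3 * k / 4) p s → dist p p0 ≤ s1 / 2 →
      (∀ s'', s ≤ s'' → s'' ≤ s1 → e p s'' ≤ ε) → 8 * Cl * ε ≤ k → ε < 1 →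
      (∀ p' s', V b b0 s1 p0 k p' s' → rho th p s p' s' * e p' s' ≤ A * e p s) →
      ∀ (R : ℝ) (p' : ℝ × ℝ) (s' : ℝ), s ≤ R → 2 * R ≤ s1 → dist p p' ≤ R → 0 < s' → s' ≤ R →
        M * (R / s) ^ th * (R / s') ^ 2 * e p s ≤ k / 8 →
        M * (R / s) ^ th * (R / s') ^ 2 * e p s ≤ 1 / 2 →
        V b b0 s1 p0 k p' s' ∧
          ‖b p' s' - b p s‖ ≤ M * (R / s) ^ th * (R / s') ^ 2 * e p s := by
  set x : ℝ := (1 / 2 : ℝ) ^ th with hx
  have x1 : x < 1 := Real.rpow_lt_one (by norm_num) (by norm_num) hth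
  have x2 : 0 < 1 - x := by linarith
  set c : ℝ := 1 / (1 - x) with hc
  have c0 : 0 < c := by rw [hc]; positivity
  refine ⟨(1 + Cl) * A * (2 + c), ?_, ?_⟩
  · have h1 : 1 ≤ (1 + Cl) * A := by nlinarith
    nlinarith
  intro e b b0 k ε s1 p0 p s he hvert hlat hk hW hd hε hεk hε1 hrec R p' s' hsR hRs1 hdp hs' hs'R
    hsm1 hsm2
  set M : ℝ := (1 + Cl) * A * (2 + c) with hM
  have s0 : 0 < s := hW.1
  have R0 : 0 < R := lt_of_lt_of_le s0 hsR
  have hs1 : 0 < s1 := by linarith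
  have he0 := he p s
  set D : ℝ := A * (R / s) ^ th * e p s with hDdef
  have hD0 : 0 ≤ D := by rw [hDdef]; positivity
  have hRs' : 1 ≤ (R / s') ^ 2 := by
    apply one_le_pow₀
    rw [one_le_div hs']; exact hs'R
  set Y : ℝ := D * (R / s') ^ 2 with hY
  have hY0 : 0 ≤ Y := by rw [hY]; positivity
  have hDY : D ≤ Y := by rw [hY]; nlinarith
  have hMY : M * (R / s) ^ th * (R / s') ^ 2 * e p s = (1 + Cl) * (2 + c) * Y := by
    rw [hM, hY, hDdef]; ring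
  rw [hMY] at hsm1 hsm2 ⊢
  have hYa : Y ≤ (1 + Cl) * (2 + c) * Y := by
    have : 1 ≤ (1 + Cl) * (2 + c) := by nlinarith
    nlinarith
  have hYb : Cl * Y ≤ (1 + Cl) * (2 + c) * Y := by
    have : Cl ≤ (1 + Cl) * (2 + c) := by nlinarith
    nlinarith
  have hD1 : D < 1 := by linarith
  -- windows over `p`
  have hWk : ∀ t, s ≤ t → t ≤ s1 → V b b0 s1 p0 k p t := fun t h1 h2 => V_up hW (by linarith) h1 h2
  have hup : ∀ t, s ≤ t → t ≤ s1 → e p t ≤ A * e p s * (t / s) ^ th := by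
    intro t h1 h2
    have t0 : 0 < t := lt_of_lt_of_le s0 h1
    have h3 := hrec p t (hWk t h1 h2)
    have h4 : rr p s p t ≤ t := by
      refine max_le (max_le h1 le_rfl) ?_
      rw [dist_self]; exact t0.le
    have h5 := le_rho (p := p) (p' := p) hth.le s0 t0 h4
    rw [div_self t0.ne', one_pow, mul_one] at h5
    have h6 : (s / t) ^ th * e p t ≤ A * e p s :=
      (mul_le_mul_of_nonneg_right h5 (he p t)).trans h3
    have h7 : (s / t) ^ th * (t / s) ^ th = 1 := by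
      rw [← Real.mul_rpow (by positivity) (by positivity)]
      rw [show s / t * (t / s) = 1 by field_simp, Real.one_rpow]
    have h8 : 0 ≤ (t / s) ^ th := by positivity
    calc e p t = (s / t) ^ th * e p t * (t / s) ^ th := by
          rw [show (s / t) ^ th * e p t * (t / s) ^ th = (s / t) ^ th * (t / s) ^ th * e p t by ring,
            h7, one_mul]
      _ ≤ A * e p s * (t / s) ^ th := by gcongr
  have hupR : ∀ t, s ≤ t → t ≤ R → e p t ≤ D := by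
    intro t h1 h2
    have t0 : 0 < t := lt_of_lt_of_le s0 h1
    calc e p t ≤ A * e p s * (t / s) ^ th := hup t h1 (by linarith)
      _ ≤ A * e p s * (R / s) ^ th := by gcongr
      _ = D := by rw [hDdef]; ring
  -- (b) up the column of `p`
  obtain ⟨n, hn⟩ := pow_unbounded_of_one_lt (R / s) (show (1 : ℝ) < 2 by norm_num)
  have hb1 : ‖b p R - b p s‖ ≤ c * (Cl * (A * e p s) * (R / s) ^ th) := by
    refine up_col (b := b p) (e := e p) hth hCl (by positivity) s0 n R hsR ?_ ?_ ?_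
    · rw [div_lt_iff₀ s0] at hn
      exact hn.le
    · intro t h1 h2
      exact hup t h1 (by linarith)
    · intro t t' h1 h2 h3 h4
      exact hvert p t t' (hWk t (h1.trans h2) (by linarith))
        (lt_of_le_of_lt (hupR t (h1.trans h2) h3) hD1) h4 h2
  have hb1' : ‖b p R - b p s‖ ≤ c * (Cl * D) := by
    refine hb1.trans (le_of_eq ?_)
    rw [hDdef]; ring
  -- (c) lateral move at scale `R`
  have hb2 : ‖b p R - b p' R‖ ≤ Cl * D := by
    have h1 := hlat p p' R (hWk R hsR (by linarith)) (lt_of_le_of_lt (hupR R hsR le_rfl) hD1) hdp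
    have h2 : dist p p' / R ≤ 1 := by rw [div_le_one R0]; exact hdp
    have h3 := hupR R hsR le_rfl
    have h4 := he p R
    calc ‖b p R - b p' R‖ ≤ Cl * (dist p p' / R) * e p R := h1
      _ ≤ Cl * 1 * D := by gcongr
      _ = Cl * D := by ring
  -- (d) ancestors of the side column
  have hanc : ∀ t, R ≤ t → t ≤ s1 → ‖b p' t - b0‖ ≤ 7 * k / 8 := by
    intro t h1 h2
    have t0 : 0 < t := lt_of_lt_of_le R0 h1
    have h3 := hε t (hsR.trans h1) h2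
    have h4 := hlat p p' t (hWk t (hsR.trans h1) h2) (lt_of_le_of_lt h3 hε1) (hdp.trans h1)
    have h5 : dist p p' / t ≤ 1 := by rw [div_le_one t0]; exact hdp.trans h1
    have h6 := he p t
    have h7 : ‖b p t - b p' t‖ ≤ Cl * ε := by
      calc ‖b p t - b p' t‖ ≤ Cl * (dist p p' / t) * e p t := h4
        _ ≤ Cl * 1 * ε := by gcongr
        _ = Cl * ε := by ring
    have h8 := hW.2.2.2 t (hsR.trans h1) h2
    have h9 : ‖b p' t - b0‖ ≤ ‖b p' t - b p t‖ + ‖b p t - b0‖ :=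
      norm_sub_le_norm_sub_add_norm_sub _ _ _
    rw [norm_sub_rev] at h7
    linarith
  have hdist : dist p' p0 ≤ s1 := by
    have := dist_triangle p' p p0
    rw [dist_comm p' p] at this
    linarith
  -- (f) down the side column
  have hVt : ∀ t, 0 < t → t ≤ R → (∀ t', t ≤ t' → t' ≤ R → ‖b p' t' - b0‖ ≤ k) →
      V b b0 s1 p0 k p' t := by
    intro t t0 h1 h2
    refine ⟨t0, by linarith, hdist, fun t' h3 h4 => ?_⟩
    rcases le_total t' R with h5 | h5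
    · exact h2 t' h3 h5
    · exact (hanc t' h5 h4).trans (by linarith)
  have hcol := down_col (b := b p') (b0 := b0) (e := e p') (Cl := Cl) (D := D) (k0 := 7 * k / 8)
    (k := k) (r := R) (s' := s') hCl hD0 hs' (hanc R le_rfl (by linarith))
    (by
      have : Cl * D * (R / s') ^ 2 = Cl * Y := by rw [hY]; ring
      rw [this]; linarith)
    (by rw [← hY]; linarith)
    (fun t h1 h2 h3 => by
      have t0 : 0 < t := lt_of_lt_of_le hs' h1
      have h4 := hrec p' t (hVt t t0 h2 h3)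
      have h5 : rr p s p' t ≤ R := max_le (max_le hsR h2) hdp
      have h6 := le_rho (p := p) (p' := p') hth.le s0 t0 h5
      have h7 : (s / R) ^ th * (t / R) ^ 2 * e p' t ≤ A * e p s :=
        (mul_le_mul_of_nonneg_right h6 (he p' t)).trans h4
      have h8 : (s / R) ^ th * (R / s) ^ th = 1 := by
        rw [← Real.mul_rpow (by positivity) (by positivity)]
        rw [show s / R * (R / s) = 1 by field_simp, Real.one_rpow]
      have h9 : (t / R) ^ 2 * (R / t) ^ 2 = 1 := by field_simp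
      calc e p' t = ((s / R) ^ th * (t / R) ^ 2 * e p' t) * ((R / s) ^ th * (R / t) ^ 2) := by
            rw [show ((s / R) ^ th * (t / R) ^ 2 * e p' t) * ((R / s) ^ th * (R / t) ^ 2) =
              ((s / R) ^ th * (R / s) ^ th) * ((t / R) ^ 2 * (R / t) ^ 2) * e p' t by ring, h8, h9]
            ring
        _ ≤ (A * e p s) * ((R / s) ^ th * (R / t) ^ 2) := by gcongr
        _ = D * (R / t) ^ 2 := by rw [hDdef]; ring)
    (fun t t' h1 h2 h3 h4 h5 h6 =>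
      hvert p' t t' (hVt t (lt_of_lt_of_le hs' (h1.trans h2)) h3 h5) h6 h4 h2)
  obtain ⟨m, hm⟩ := pow_unbounded_of_one_lt (R / s') (show (1 : ℝ) < 2 by norm_num)
  have hm' : ∀ t, s' ≤ t → R ≤ 2 ^ m * t := by
    intro t ht
    rw [div_lt_iff₀ hs'] at hm
    have : (0 : ℝ) < 2 ^ m := by positivity
    nlinarith
  have hfin : ∀ t, s' ≤ t → t ≤ R → ‖b p' R - b p' t‖ ≤ Cl * Y := by
    intro t h1 h2
    have t0 : 0 < t := lt_of_lt_of_le hs' h1
    have h3 := hcol m t h1 h2 (hm' t h1)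
    calc ‖b p' R - b p' t‖ ≤ Cl * D * (R / t) ^ 2 := h3
      _ ≤ Cl * D * (R / s') ^ 2 := by gcongr
      _ = Cl * Y := by rw [hY]; ring
  refine ⟨hVt s' hs' hs'R ?_, ?_⟩
  · intro t h1 h2
    have h3 := hfin t h1 h2
    have h4 := hanc R le_rfl (by linarith)
    have h5 : ‖b p' t - b0‖ ≤ ‖b p' t - b p' R‖ + ‖b p' R - b0‖ :=
      norm_sub_le_norm_sub_add_norm_sub _ _ _
    rw [norm_sub_rev] at h3
    linarith
  · have h3 := hfin s' le_rfl hs'R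
    have h4 : ‖b p' s' - b p s‖ ≤ ‖b p' s' - b p' R‖ + ‖b p' R - b p s‖ :=
      norm_sub_le_norm_sub_add_norm_sub _ _ _
    have h5 : ‖b p' R - b p s‖ ≤ ‖b p' R - b p R‖ + ‖b p R - b p s‖ :=
      norm_sub_le_norm_sub_add_norm_sub _ _ _
    rw [norm_sub_rev] at h3
    rw [norm_sub_rev] at hb2
    have h6 : Cl * D ≤ Cl * Y := by gcongr
    have h7 : c * (Cl * D) ≤ c * (Cl * Y) := by gcongr
    have h8 : (2 + c) * (Cl * Y) ≤ (1 + Cl) * (2 + c) * Y := by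
      have : 0 ≤ (2 + c) * Y := by positivity
      nlinarith
    linarith


end Crest.Agent.R102.SideK201
end
end

-- ▼ part R102/SlowQ_486
section

/-! Row 102, EDGE / SLOW (helper486): sequence form of `EvS`. -/

set_option autoImplicit false

open Set Filter Topology Metric MeasureTheory Complex

noncomputable section

namespace Crest.Agent.R102.SlowJ486

open Crest.Agent.R102.Edge255

/-- **sequence form of `EvS`**: any smallness conditions `mx` (distance of `x n` to `s₀`) and `ms`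
(root scale `s1 n`) may be prescribed -/
theorem EvS.of_seq {h a g κ : ℝ} {ψ : ℂ → ℂ} {B : ℂ × ℂ → ℂ} {X L : Set (ℂ × ℂ)} {u s₀ : ℝ}
    {P : Set ℝ → ℝ → ℝ → Prop}
    (mx : ℕ → ℝ → ℝ → Set ℝ → ℝ) (hmx : ∀ n ρ δ U, 0 < ρ → 0 < δ → 0 < mx n ρ δ U)
    (ms : ℕ → ℝ → ℝ → Set ℝ → ℝ → ℝ → ℝ)
    (hms : ∀ n ρ δ U x σ, 0 < ρ → 0 < δ → 0 < σ → 0 < ms n ρ δ U x σ)
    (H : ∀ (ρ δ : ℕ → ℝ) (U : ℕ → Set ℝ) (x σ s1 : ℕ → ℝ),
      (∀ n, ρ n ≤ 1 / ((n : ℝ) + 1)) → (∀ n, Base a g X L u s₀ (ρ n) (δ n) (U n)) →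
      (∀ n, |x n - s₀| < mx n (ρ n) (δ n) (U n)) → (∀ n, 0 < σ n) →
      (∀ n, ∀ s ∈ Ioo 0 (σ n), Intr h κ ψ B (x n, u) s) → (∀ n, 0 < s1 n) →
      (∀ n, s1 n ≤ ms n (ρ n) (δ n) (U n) (x n) (σ n)) →
      (∀ n, ¬ P (U n) (x n) (s1 n)) → False) :
    EvS h a g κ ψ B X L u s₀ P := by
  by_contra hE
  unfold EvS at hE
  push Not at hE
  have h1 : ∀ n : ℕ, ∃ (ρ δ : ℝ) (U : Set ℝ) (x σ s1 : ℝ), ρ ≤ 1 / ((n : ℝ) + 1) ∧
      Base a g X L u s₀ ρ δ U ∧ |x - s₀| < mx n ρ δ U ∧ 0 < σ ∧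
      (∀ s ∈ Ioo 0 σ, Intr h κ ψ B (x, u) s) ∧ 0 < s1 ∧ s1 ≤ ms n ρ δ U x σ ∧ ¬ P U x s1 := by
    intro n
    obtain ⟨ρ, δ, U, hρ, hb, h2⟩ := hE (1 / ((n : ℝ) + 1)) (by positivity)
    obtain ⟨x, hx, σ, hσ, hc, h3⟩ := h2 (mx n ρ δ U) (hmx n ρ δ U hb.ρ_pos hb.δ_pos)
    obtain ⟨s1, hs1, hs1', hP⟩ := h3 (ms n ρ δ U x σ) (hms n ρ δ U x σ hb.ρ_pos hb.δ_pos hσ)
    exact ⟨ρ, δ, U, x, σ, s1, hρ, hb, hx, hσ, hc, hs1, hs1', hP⟩
  choose ρ δ U x σ s1 a1 a2 a3 a4 a5 a6 a7 a8 using h1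
  exact H ρ δ U x σ s1 a1 a2 a3 a4 a5 a6 a7 a8

/-- monotonicity -/
theorem EvS.mono {h a g κ : ℝ} {ψ : ℂ → ℂ} {B : ℂ × ℂ → ℂ} {X L : Set (ℂ × ℂ)} {u s₀ : ℝ}
    {P Q : Set ℝ → ℝ → ℝ → Prop} (hP : EvS h a g κ ψ B X L u s₀ P)
    (hPQ : ∀ U x s1, P U x s1 → Q U x s1) : EvS h a g κ ψ B X L u s₀ Q := by
  obtain ⟨ρ₁, hρ₁, H⟩ := hP
  refine ⟨ρ₁, hρ₁, fun ρ δ U h1 h2 => ?_⟩
  obtain ⟨δ₁, hδ₁, H⟩ := H ρ δ U h1 h2
  refine ⟨δ₁, hδ₁, fun x hx σ hσ hc => ?_⟩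
  obtain ⟨s₂, hs₂, H⟩ := H x hx σ hσ hc
  exact ⟨s₂, hs₂, fun s1 h1 h2 => hPQ _ _ _ (H s1 h1 h2)⟩

/-- conjunction -/
theorem EvS.and {h a g κ : ℝ} {ψ : ℂ → ℂ} {B : ℂ × ℂ → ℂ} {X L : Set (ℂ × ℂ)} {u s₀ : ℝ}
    {P Q : Set ℝ → ℝ → ℝ → Prop} (hP : EvS h a g κ ψ B X L u s₀ P)
    (hQ : EvS h a g κ ψ B X L u s₀ Q) :
    EvS h a g κ ψ B X L u s₀ (fun U x s1 => P U x s1 ∧ Q U x s1) := by
  obtain ⟨ρ₁, hρ₁, H⟩ := hP
  obtain ⟨ρ₂, hρ₂, G⟩ := hQ
  refine ⟨min ρ₁ ρ₂, lt_min hρ₁ hρ₂, fun ρ δ U h1 h2 => ?_⟩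
  obtain ⟨δ₁, hδ₁, H⟩ := H ρ δ U (h1.trans (min_le_left _ _)) h2
  obtain ⟨δ₂, hδ₂, G⟩ := G ρ δ U (h1.trans (min_le_right _ _)) h2
  refine ⟨min δ₁ δ₂, lt_min hδ₁ hδ₂, fun x hx σ hσ hc => ?_⟩
  obtain ⟨s₂, hs₂, H⟩ := H x (hx.trans_le (min_le_left _ _)) σ hσ hc
  obtain ⟨s₃, hs₃, G⟩ := G x (hx.trans_le (min_le_right _ _)) σ hσ hc
  exact ⟨min s₂ s₃, lt_min hs₂ hs₃, fun s1 h1 h2 =>
    ⟨H s1 h1 (h2.trans (min_le_left _ _)), G s1 h1 (h2.trans (min_le_right _ _))⟩⟩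

end Crest.Agent.R102.SlowJ486
end
end

-- ▼ part R102/NoRecA_971
section

/-! Row 102, EDGE / SLOW (helper971, spare): the joint `NoRecP`. -/

set_option autoImplicit false

open Set Filter Topology Metric Complex

noncomputable section

namespace Crest.Agent.R102.NoRec971

open Crest.Agent.R102.Sup115 (E2)
open Crest.Agent.R102.S5 (ray bl Half)
open Crest.Agent.R102.TreeS174 (KD)
open Crest.Agent.R102.Edge255
open Crest.Agent.R102.SlowE (oe)
open Crest.Agent.R102.SlowS (kd)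
open Crest.Agent.R102.Chain859 (V rho V_up)
open Crest.Agent.R102.SlowJ486
open Crest.Agent.R102.LocGrow115 (HSide HArc)
open Crest.Agent.R102.NoRecW203 (SlowWorld)

/-! ### exhaustion of the wedge -/


/-- generic convex compact region -/
def Kr (m C ν : ℝ) : Set (ℂ × ℂ) :=
  {x | ‖x.1‖ ≤ C ∧ ‖x.2‖ ≤ C ∧ ν ≤ x.2.im ∧ x.1.im ≤ m * x.2.im - ν}

theorem isCompact_Kr (m C ν : ℝ) : IsCompact (Kr m C ν) := by
  refine (isCompact_closedBall (0 : ℂ × ℂ) (max C 0)).of_isClosed_subset ?_ ?_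
  · have c1 : Continuous fun q : ℂ × ℂ => q.2.im := by fun_prop
    have c2 : Continuous fun q : ℂ × ℂ => q.1.im := by fun_prop
    have c3 : Continuous fun q : ℂ × ℂ => ‖q.1‖ := by fun_prop
    have c4 : Continuous fun q : ℂ × ℂ => ‖q.2‖ := by fun_prop
    have c5 : Continuous fun q : ℂ × ℂ => m * q.2.im - ν := by fun_prop
    exact (isClosed_le c3 continuous_const).inter ((isClosed_le c4 continuous_const).inter
      ((isClosed_le continuous_const c1).inter (isClosed_le c2 c5)))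
  · rintro q ⟨h1, h2, -, -⟩
    rw [mem_closedBall, dist_zero_right, Prod.norm_def]
    exact max_le (h1.trans (le_max_left _ _)) (h2.trans (le_max_left _ _))

theorem Kr_sub {m C ν : ℝ} (hν : 0 < ν) : Kr m C ν ⊆ Wg m := by
  rintro q ⟨-, -, h3, h4⟩
  exact ⟨by linarith, by linarith⟩

theorem convex_Kr (m C ν : ℝ) : Convex ℝ (Kr m C ν) := by
  intro x hx y hy a b ha hb hab
  obtain ⟨x1, x2, x3, x4⟩ := hx
  obtain ⟨y1, y2, y3, y4⟩ := hy
  have e2 : (a • x + b • y).1.im = a * x.1.im + b * y.1.im := by simp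
  have e4 : (a • x + b • y).2.im = a * x.2.im + b * y.2.im := by simp
  have e1 : (a • x + b • y).1 = a • x.1 + b • y.1 := by simp
  have e3 : (a • x + b • y).2 = a • x.2 + b • y.2 := by simp
  have n1 : ‖a • x.1 + b • y.1‖ ≤ a * ‖x.1‖ + b * ‖y.1‖ := by
    refine (norm_add_le _ _).trans ?_
    rw [norm_smul, norm_smul, Real.norm_of_nonneg ha, Real.norm_of_nonneg hb]
  have n2 : ‖a • x.2 + b • y.2‖ ≤ a * ‖x.2‖ + b * ‖y.2‖ := by
    refine (norm_add_le _ _).trans ?_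
    rw [norm_smul, norm_smul, Real.norm_of_nonneg ha, Real.norm_of_nonneg hb]
  have hb' : b = 1 - a := by linarith
  subst hb'
  refine ⟨?_, ?_, ?_, ?_⟩
  · rw [e1]
    nlinarith
  · rw [e3]
    nlinarith
  · rw [e4]
    nlinarith
  · rw [e2, e4]
    nlinarith





/-! ### countable families of eventual properties of the root -/


/-! ### elementary estimates -/

theorem log_le_sqrt {x : ℝ} (hx : 1 ≤ x) : 1 + Real.log x ≤ 2 * x ^ (1 / 2 : ℝ) := by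
  have h0 : 0 < x := by linarith
  set t : ℝ := x ^ (1 / 2 : ℝ) with ht
  have ht0 : 0 < t := Real.rpow_pos_of_pos h0 _
  have hxt : x = t ^ 2 := by
    rw [ht, ← Real.rpow_natCast, ← Real.rpow_mul h0.le]
    norm_num
  have h1 : Real.log x = 2 * Real.log t := by
    rw [hxt, Real.log_pow]
    norm_num
  have h2 := Real.log_le_sub_one_of_pos ht0
  rw [h1]
  linarith

theorem absorb {M' x : ℝ} (hM : 0 ≤ M') (hx : 1 ≤ x) :
    M' * (x ^ (1 / 2 : ℝ) * (1 + Real.log x) ^ 4) ≤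
      Real.exp ((16 * M' + 5) * x ^ (1 / 2 : ℝ)) := by
  have h0 : 0 < x := by linarith
  have h1 := log_le_sqrt hx
  have hl : 0 ≤ Real.log x := Real.log_nonneg hx
  set t : ℝ := x ^ (1 / 2 : ℝ) with ht
  have ht1 : 1 ≤ t := Real.one_le_rpow hx (by norm_num)
  have h2 : (1 + Real.log x) ^ 4 ≤ (2 * t) ^ 4 := by gcongr
  have h3 : t ≤ Real.exp t := by linarith [Real.add_one_le_exp t]
  have h4 : t ^ 5 ≤ Real.exp (5 * t) := by
    calc t ^ 5 ≤ (Real.exp t) ^ 5 := by gcongr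
      _ = Real.exp (5 * t) := by rw [← Real.exp_nat_mul]; norm_num
  have h5 : 16 * M' ≤ Real.exp (16 * M' * t) := by
    have : 16 * M' ≤ 16 * M' * t := by nlinarith
    linarith [Real.add_one_le_exp (16 * M' * t)]
  calc M' * (t * (1 + Real.log x) ^ 4) ≤ M' * (t * (2 * t) ^ 4) := by gcongr
    _ = 16 * M' * t ^ 5 := by ring
    _ ≤ Real.exp (16 * M' * t) * Real.exp (5 * t) := by gcongr
    _ = Real.exp ((16 * M' + 5) * t) := by rw [← Real.exp_add]; ring_nf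

theorem small_G {om : ℕ → ℝ} (h0 : ∀ n, 0 < om n) (h1 : ∀ n, om n ≤ 1)
    (hl : Tendsto om atTop (𝓝 0)) :
    Tendsto (fun n => (2 / om n) ^ (1 / 2 : ℝ) * (1 + Real.log (2 / om n)) ^ 4 * om n) atTop
      (𝓝 0) := by
  have hb : ∀ n, (2 / om n) ^ (1 / 2 : ℝ) * (1 + Real.log (2 / om n)) ^ 4 * om n ≤
      2 * 17 ^ 4 * (om n / 2) ^ (1 / 4 : ℝ) := by
    intro n
    have ho := h0 n
    have ho1 := h1 n
    set z : ℝ := 2 / om n with hz
    have hz1 : 1 ≤ z := by rw [hz, le_div_iff₀ ho]; linarith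
    have hz0 : 0 < z := by linarith
    have hom : om n = 2 * z ^ (-1 : ℝ) := by
      rw [Real.rpow_neg_one, hz]; field_simp
    have h2 : Real.log z ≤ z ^ (1 / 16 : ℝ) / (1 / 16) :=
      Real.log_le_rpow_div hz0.le (by norm_num)
    have h3 : 1 ≤ z ^ (1 / 16 : ℝ) := Real.one_le_rpow hz1 (by norm_num)
    have h4 : 1 + Real.log z ≤ 17 * z ^ (1 / 16 : ℝ) := by
      have : z ^ (1 / 16 : ℝ) / (1 / 16) = 16 * z ^ (1 / 16 : ℝ) := by ring
      linarith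
    have h5 : 0 ≤ Real.log z := Real.log_nonneg hz1
    have h6 : (1 + Real.log z) ^ 4 ≤ 17 ^ 4 * z ^ (1 / 4 : ℝ) := by
      calc (1 + Real.log z) ^ 4 ≤ (17 * z ^ (1 / 16 : ℝ)) ^ 4 := by gcongr
        _ = 17 ^ 4 * (z ^ (1 / 16 : ℝ)) ^ (4 : ℕ) := by ring
        _ = 17 ^ 4 * z ^ (1 / 4 : ℝ) := by
            congr 1
            rw [← Real.rpow_natCast, ← Real.rpow_mul hz0.le]; norm_num
    have h7 : (om n / 2) ^ (1 / 4 : ℝ) = z ^ (-(1 / 4) : ℝ) := by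
      have : om n / 2 = z ^ (-1 : ℝ) := by rw [hom]; ring
      rw [this, ← Real.rpow_mul hz0.le]
      norm_num
    rw [h7]
    calc z ^ (1 / 2 : ℝ) * (1 + Real.log z) ^ 4 * om n
        ≤ z ^ (1 / 2 : ℝ) * (17 ^ 4 * z ^ (1 / 4 : ℝ)) * om n := by gcongr
      _ = 2 * 17 ^ 4 * (z ^ (1 / 2 : ℝ) * z ^ (1 / 4 : ℝ) * z ^ (-1 : ℝ)) := by rw [hom]; ring
      _ = 2 * 17 ^ 4 * z ^ (-(1 / 4) : ℝ) := by
          rw [← Real.rpow_add hz0, ← Real.rpow_add hz0]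
          norm_num
  have hlim : Tendsto (fun n => 2 * 17 ^ 4 * (om n / 2) ^ (1 / 4 : ℝ)) atTop (𝓝 0) := by
    have h2 : Tendsto (fun n => om n / 2) atTop (𝓝 0) := by simpa using hl.div_const 2
    have h3 : Tendsto (fun n => (om n / 2) ^ (1 / 4 : ℝ)) atTop (𝓝 ((0 : ℝ) ^ (1 / 4 : ℝ))) :=
      h2.rpow_const (Or.inr (by norm_num))
    rw [Real.zero_rpow (by norm_num)] at h3
    simpa using h3.const_mul (2 * 17 ^ 4)
  refine squeeze_zero (fun n => ?_) hb hlim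
  have ho := h0 n
  have : 0 ≤ (1 + Real.log (2 / om n)) ^ 4 := by positivity
  positivity

end Crest.Agent.R102.NoRec971
end
end

-- ▼ part R102/NoRecX_985
section

/-!
Row 102, EDGE / SLOW, NoRec (helper985): the WORLD END of NoRec with every hypothesis at the record
window `(c n, s n)`, `om n = oe AK φ (c n) (s n)`.
-/

set_option autoImplicit false

open Set Filter Topology Metric Complex

noncomputable section

namespace Crest.Agent.R102.NoRecX985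

open Crest.Agent.R102.Edge255
open Crest.Agent.R102.S5 (Half bl ray)
open Crest.Agent.R102.Sup115 (HDu Dp E2)
open Crest.Agent.R102.SlowE (oe)
open Crest.Agent.R102.TreeS174 (KD)
open Crest.Agent.R102.SlowS (kd)
open Crest.Agent.R102.NoRecW203 (SlowWorld)

variable {u0 R d h u s₀ a g κ : ℝ} {ψ H A : ℂ → ℂ} {φ p B : ℂ × ℂ → ℂ} {X L : Set (ℂ × ℂ)}

/-- **world end, hypotheses at the record window** -/
theorem norec_c (SW : SlowWorld) (hE : ED u0 R d h ψ H A φ p B X L)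
    (hu : u ∈ Ioo (u0 - R) (u0 + R)) (hu0 : u ≠ 0) (ha : 0 ≤ a) (hg : 0 < g) (hκ : 0 < κ)
    {c e : ℕ → ℝ × ℝ} {s ρ η : ℕ → ℝ}
    (he : Tendsto e atTop (𝓝 (s₀, u))) (hs : ∀ n, 0 < s n) (hs0 : Tendsto s atTop (𝓝 0))
    (hρ : ∀ n, 0 < ρ n) (hρ0 : Tendsto ρ atTop (𝓝 0)) (hη : ∀ n, 0 < η n)
    (hsη : Tendsto (fun n => s n / η n) atTop (𝓝 0))
    (hE2 : ∀ n, E2 X L a g (ρ n) (η n) (e n))
    (h1 : ∀ n, (e n).1 = (c n).1) (h2 : ∀ n, |(e n).2 - (c n).2| ≤ s n)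
    (hI : ∀ᶠ n in atTop, Intr h κ ψ B (c n) (s n))
    (hS : ∀ ε > 0, ∀ K ⊆ Wg (a + g), IsCompact K → ∀ K' ⊆ Wg a, IsCompact K' →
      ∀ᶠ n in atTop, SlowAt ε K K' ψ (fun q => φ (bl (c n) (s n) q))
        (fun q => p (bl (c n) (s n) q)) (fun q => B (bl (c n) (s n) q)))
    {om : ℕ → ℝ} (hom : ∀ n, 0 < om n) {g' : ℝ} (hg' : 0 < g') (hgg : g' ≤ g)
    {th : ℝ} (hth : 0 ≤ th) (hth1 : th < 1)
    (hgrow : ∀ K ⊆ Wg (a + g'), IsCompact K → ∃ M : ℝ, ∀ y : ℝ, 1 ≤ y → ∀ᶠ n in atTop,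
      ∀ q ∈ K, ‖φ (bl (c n) (s n) ((y : ℂ) * q.1, (y : ℂ) * q.2)) - φ (ray (c n) (s n))‖ ≤
        M * om n * y ^ th)
    {K0 : Set (ℂ × ℂ)} (hK0 : IsCompact K0) (hK0s : K0 ⊆ Wg a)
    (hosc : ∃ c0 > 0, ∀ᶠ n in atTop, ∃ q ∈ K0,
      c0 * om n ≤ ‖φ (bl (c n) (s n) q) - φ (ray (c n) (s n))‖) : False := by
  obtain ⟨κ', hκ', hIe⟩ := NoRecT985.intr_e hE hκ
  -- eventually the small windows are inside
  have hd := hE.d_pos
  have hev1 : ∀ᶠ n in atTop, 2 * s n ≤ d := by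
    filter_upwards [hs0.eventually_le_const (show (0 : ℝ) < d / 2 by positivity)] with n hn
    linarith
  have he2 : Tendsto (fun n => (e n).2) atTop (𝓝 u) := (continuous_snd.tendsto _).comp he
  have hev2 : ∀ᶠ n in atTop, ball (((c n).2 : ℝ) : ℂ) (2 * s n) ⊆ ball (u0 : ℂ) R := by
    have hgap : 0 < R - |u - u0| := by
      have : |u - u0| < R := abs_lt.2 ⟨by linarith [hu.1], by linarith [hu.2]⟩
      linarith
    have e1 : Tendsto (fun n => |(e n).2 - u0| + 3 * s n) atTop (𝓝 (|u - u0| + 3 * 0)) :=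
      ((he2.sub_const u0).abs).add (hs0.const_mul 3)
    rw [mul_zero, add_zero] at e1
    filter_upwards [e1.eventually_lt_const (show |u - u0| < R by linarith)] with n hn
    refine ball_subset_ball' ?_
    rw [Complex.dist_eq, ← Complex.ofReal_sub, Complex.norm_real, Real.norm_eq_abs]
    have h3 : |(c n).2 - u0| ≤ |(e n).2 - u0| + |(e n).2 - (c n).2| := by
      have : (c n).2 - u0 = ((e n).2 - u0) - ((e n).2 - (c n).2) := by ring
      rw [this]; exact abs_sub _ _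
    have := h2 n
    linarith
  obtain ⟨N, hN⟩ := eventually_atTop.1 (hI.and (hev1.and hev2))
  have hsh : Tendsto (fun n : ℕ => n + N) atTop atTop := tendsto_add_atTop_nat N
  have hSe := NoRecT985.slow_seq (φ := φ) (p := p) (B := B) hE.curve hκ ha hg hs h1 h2
    (hI.mono fun n hn => hn.1) hS
  refine NoRecW203.norec_end SW hE hu hu0 ha hg hκ' (e := fun n => e (n + N))
    (s := fun n => s (n + N)) (ρ := fun n => ρ (n + N)) (η := fun n => η (n + N))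
    (he.comp hsh) (fun n => hs _) (hs0.comp hsh) (fun n => hρ _) (hρ0.comp hsh) (fun n => hη _)
    (hsη.comp hsh) (fun n => hE2 _) (fun n => ?_) (fun ε hε K hK hKc K' hK' hKc' =>
      hsh.eventually (hSe ε hε K hK hKc K' hK' hKc')) (c := fun n => c (n + N))
    (r := fun n => ((e (n + N)).2 - (c (n + N)).2) / s (n + N)) (fun n => ?_) (fun n => ?_)
    (om := fun n => om (n + N)) (fun n => hom _) hg' hgg hth hth1
    (fun K hK hKc => ?_) hK0 hK0s ?_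
  · obtain ⟨a1, a2, a3⟩ := hN (n + N) (Nat.le_add_left _ _)
    exact hIe (c (n + N)) (e (n + N)) (s (n + N)) (hs _) a2 a3 (h1 _) (h2 _) a1
  · rw [abs_div, abs_of_pos (hs _), div_le_one (hs _)]
    exact h2 _
  · have h3 := (hs (n + N)).ne'
    refine Prod.ext (h1 _) ?_
    show (e (n + N)).2 = (c (n + N)).2 + ((e (n + N)).2 - (c (n + N)).2) / s (n + N) * s (n + N)
    field_simp
    ring
  · obtain ⟨M, hM⟩ := hgrow K hK hKc
    exact ⟨M, fun y hy => hsh.eventually (hM y hy)⟩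
  · obtain ⟨c0, hc0, hc⟩ := hosc
    exact ⟨c0, hc0, hsh.eventually hc⟩

/-- **world end**, `om n = oe AK φ (c n) (s n)` -/
theorem norec_oe (SW : SlowWorld) (hE : ED u0 R d h ψ H A φ p B X L)
    (hu : u ∈ Ioo (u0 - R) (u0 + R)) (hu0 : u ≠ 0) (ha : 0 ≤ a) (hg : 0 < g) (hκ : 0 < κ)
    {c e : ℕ → ℝ × ℝ} {s ρ η : ℕ → ℝ}
    (he : Tendsto e atTop (𝓝 (s₀, u))) (hs : ∀ n, 0 < s n) (hs0 : Tendsto s atTop (𝓝 0))
    (hρ : ∀ n, 0 < ρ n) (hρ0 : Tendsto ρ atTop (𝓝 0)) (hη : ∀ n, 0 < η n)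
    (hsη : Tendsto (fun n => s n / η n) atTop (𝓝 0))
    (hE2 : ∀ n, E2 X L a g (ρ n) (η n) (e n))
    (h1 : ∀ n, (e n).1 = (c n).1) (h2 : ∀ n, |(e n).2 - (c n).2| ≤ s n)
    (hI : ∀ᶠ n in atTop, Intr h κ ψ B (c n) (s n))
    (hS : ∀ ε > 0, ∀ K ⊆ Wg (a + g), IsCompact K → ∀ K' ⊆ Wg a, IsCompact K' →
      ∀ᶠ n in atTop, SlowAt ε K K' ψ (fun q => φ (bl (c n) (s n) q))
        (fun q => p (bl (c n) (s n) q)) (fun q => B (bl (c n) (s n) q)))
    {AK : ℝ} (hAK : 8 ≤ AK) (hom : ∀ n, 0 < oe AK φ (c n) (s n))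
    {g' : ℝ} (hg' : 0 < g') (hgg : g' ≤ g) {th : ℝ} (hth : 0 ≤ th) (hth1 : th < 1)
    (hgrow : ∀ K ⊆ Wg (a + g'), IsCompact K → ∃ M : ℝ, ∀ y : ℝ, 1 ≤ y → ∀ᶠ n in atTop,
      ∀ q ∈ K, ‖φ (bl (c n) (s n) ((y : ℂ) * q.1, (y : ℂ) * q.2)) - φ (ray (c n) (s n))‖ ≤
        M * oe AK φ (c n) (s n) * y ^ th) : False := by
  refine norec_c SW hE hu hu0 ha hg hκ he hs hs0 hρ hρ0 hη hsη hE2 h1 h2 hI hS
    (om := fun n => oe AK φ (c n) (s n)) hom hg' hgg hth hth1 hgrow (SlowS.isCompact_kd hAK)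
    (SlowS.kd_sub_Wg hAK ha) ⟨1 / 2, by norm_num, Eventually.of_forall fun n => ?_⟩
  have h0 := hom n
  obtain ⟨q, hq, hlt⟩ := SlowE.exists_of_lt_oe (ε := 1 / 2 * oe AK φ (c n) (s n)) (by positivity)
    (by linarith : 1 / 2 * oe AK φ (c n) (s n) < oe AK φ (c n) (s n))
  obtain ⟨x, rfl⟩ := SlowS.exists_bl (hs n) (p := c n) q
  exact ⟨x, (SlowS.bl_mem_KD (hs n)).1 hq, hlt.le⟩

end Crest.Agent.R102.NoRecX985
end
end

-- ▼ part R102/SlowF_486
section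

/-! Row 102, EDGE / SLOW (helper486): the diagonal between `ColPhi` and the sequences of `NoRec`. -/

set_option autoImplicit false

open Set Filter Topology Metric MeasureTheory Complex

noncomputable section

namespace Crest.Agent.R102.SlowJ486

open Crest.Agent.R102.Edge255
open Crest.Agent.R102.S5 (ray bl Half Cn)
open Crest.Agent.R102.Chain859 (V rho)

/-- compact exhaustion of the wedge -/
theorem exh (m : ℝ) : ∃ K : ℕ → Set (ℂ × ℂ), (∀ j, IsCompact (K j)) ∧ (∀ j, K j ⊆ Wg m) ∧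
    ∀ K' ⊆ Wg m, IsCompact K' → ∃ j, ∀ i ≥ j, K' ⊆ K i := by
  obtain ⟨K, h1, h2, h3, h4⟩ := Crest.Agent.R102.M948.exists_exhaustion (World150.isOpen_Wg m)
  refine ⟨K, h1, h2, ?_⟩
  intro K' hK' hKc
  have h5 : ∀ x ∈ K', ∃ n, K n ∈ 𝓝 x := fun x hx => (h4 x (hK' hx)).exists
  choose! n hn using h5
  obtain ⟨t, ht, hcov⟩ := hKc.elim_nhds_subcover (fun x => K (n x)) hn
  refine ⟨t.sup n, fun i hi x hx => ?_⟩
  have h6 := hcov hx
  simp only [mem_iUnion] at h6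
  obtain ⟨y, hy, hxy⟩ := h6
  exact h3 _ _ ((Finset.le_sup hy).trans hi) hxy

theorem slowAt_mono {ε ε' : ℝ} {K K₁ K' K₁' : Set (ℂ × ℂ)} {ψ : ℂ → ℂ} {φ p B : ℂ × ℂ → ℂ}
    (h : SlowAt ε K K' ψ φ p B) (hε : ε ≤ ε') (hK : K₁ ⊆ K) (hK' : K₁' ⊆ K') :
    SlowAt ε' K₁ K₁' ψ φ p B :=
  ⟨fun q hq => ⟨(h.1 q (hK hq)).1.trans hε, (h.1 q (hK hq)).2.trans hε⟩,
    fun q hq => (h.2 q (hK' hq)).trans hε⟩

/-- **countable families**: along the sequences, each `EvS` statement of the family holds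
eventually -/
theorem EvS.seq_of_family {h a g κ : ℝ} {ψ : ℂ → ℂ} {B : ℂ × ℂ → ℂ} {X L : Set (ℂ × ℂ)}
    {u s₀ : ℝ} {P : Set ℝ → ℝ → ℝ → Prop} {Q : ℕ → Set ℝ → ℝ → ℝ → Prop}
    (hQ : ∀ j, EvS h a g κ ψ B X L u s₀ (Q j))
    (mx : ℕ → ℝ → ℝ → Set ℝ → ℝ) (hmx : ∀ n ρ δ U, 0 < ρ → 0 < δ → 0 < mx n ρ δ U)
    (ms : ℕ → ℝ → ℝ → Set ℝ → ℝ → ℝ → ℝ)
    (hms : ∀ n ρ δ U x σ, 0 < ρ → 0 < δ → 0 < σ → 0 < ms n ρ δ U x σ)
    (H : ∀ (ρ δ : ℕ → ℝ) (U : ℕ → Set ℝ) (x σ s1 : ℕ → ℝ),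
      (∀ n, ρ n ≤ 1 / ((n : ℝ) + 1)) → (∀ n, Base a g X L u s₀ (ρ n) (δ n) (U n)) →
      (∀ n, |x n - s₀| < mx n (ρ n) (δ n) (U n)) → (∀ n, 0 < σ n) →
      (∀ n, ∀ s ∈ Ioo 0 (σ n), Intr h κ ψ B (x n, u) s) → (∀ n, 0 < s1 n) →
      (∀ n, s1 n ≤ ms n (ρ n) (δ n) (U n) (x n) (σ n)) →
      (∀ j, ∀ᶠ n in atTop, Q j (U n) (x n) (s1 n)) →
      (∀ n, ¬ P (U n) (x n) (s1 n)) → False) :
    EvS h a g κ ψ B X L u s₀ P := by
  classical
  choose ρ₁ hρ₁ hQ' using hQ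
  have h1 : ∀ (j : ℕ) (ρ δ : ℝ) (U : Set ℝ), ∃ δ₁ > 0, ρ ≤ ρ₁ j → Base a g X L u s₀ ρ δ U →
      ∀ x : ℝ, |x - s₀| < δ₁ → ∀ σ > 0, (∀ s ∈ Ioo 0 σ, Intr h κ ψ B (x, u) s) → ∃ s₂ > 0,
        ∀ s1 : ℝ, 0 < s1 → s1 ≤ s₂ → Q j U x s1 := by
    intro j ρ δ U
    by_cases hc : ρ ≤ ρ₁ j ∧ Base a g X L u s₀ ρ δ U
    · obtain ⟨d, hd, h2⟩ := hQ' j ρ δ U hc.1 hc.2
      exact ⟨d, hd, fun _ _ => h2⟩
    · exact ⟨1, one_pos, fun h2 h3 => absurd ⟨h2, h3⟩ hc⟩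
  choose D hD hD2 using h1
  have h2 : ∀ (j : ℕ) (ρ δ : ℝ) (U : Set ℝ) (x σ : ℝ), ∃ s₂ > 0, ρ ≤ ρ₁ j →
      Base a g X L u s₀ ρ δ U → |x - s₀| < D j ρ δ U → 0 < σ →
      (∀ s ∈ Ioo 0 σ, Intr h κ ψ B (x, u) s) → ∀ s1 : ℝ, 0 < s1 → s1 ≤ s₂ → Q j U x s1 := by
    intro j ρ δ U x σ
    by_cases hc : ρ ≤ ρ₁ j ∧ Base a g X L u s₀ ρ δ U ∧ |x - s₀| < D j ρ δ U ∧ 0 < σ ∧
        (∀ s ∈ Ioo 0 σ, Intr h κ ψ B (x, u) s)
    · obtain ⟨c1, c2, c3, c4, c5⟩ := hc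
      obtain ⟨s₂, hs₂, h3⟩ := hD2 j ρ δ U c1 c2 x c3 σ c4 c5
      exact ⟨s₂, hs₂, fun _ _ _ _ _ => h3⟩
    · exact ⟨1, one_pos, fun a1 a2 a3 a4 a5 => absurd ⟨a1, a2, a3, a4, a5⟩ hc⟩
  choose S hS hS2 using h2
  have hne : ∀ n : ℕ, (Finset.range (n + 1)).Nonempty := fun n => Finset.nonempty_range_add_one
  refine EvS.of_seq
    (fun n ρ δ U => min (mx n ρ δ U) ((Finset.range (n + 1)).inf' (hne n) (fun j => D j ρ δ U)))
    ?_
    (fun n ρ δ U x σ => min (ms n ρ δ U x σ)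
      ((Finset.range (n + 1)).inf' (hne n) (fun j => S j ρ δ U x σ))) ?_ ?_
  · intro n ρ δ U hρ hδ
    refine lt_min (hmx n ρ δ U hρ hδ) ?_
    rw [Finset.lt_inf'_iff]
    exact fun j _ => hD j ρ δ U
  · intro n ρ δ U x σ hρ hδ hσ
    refine lt_min (hms n ρ δ U x σ hρ hδ hσ) ?_
    rw [Finset.lt_inf'_iff]
    exact fun j _ => hS j ρ δ U x σ
  · intro ρ δ U x σ s1 a1 a2 a3 a4 a5 a6 a7 a8
    refine H ρ δ U x σ s1 a1 a2 (fun n => (a3 n).trans_le (min_le_left _ _)) a4 a5 a6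
      (fun n => (a7 n).trans (min_le_left _ _)) ?_ a8
    intro j
    have h3 : ∀ᶠ n : ℕ in atTop, 1 / ((n : ℝ) + 1) ≤ ρ₁ j :=
      tendsto_one_div_add_atTop_nhds_zero_nat.eventually (eventually_le_nhds (hρ₁ j))
    filter_upwards [h3, eventually_ge_atTop j] with n hn hjn
    have hj : j ∈ Finset.range (n + 1) := Finset.mem_range.2 (by omega)
    have h4 : |x n - s₀| < D j (ρ n) (δ n) (U n) :=
      (a3 n).trans_le ((min_le_right _ _).trans
        (Finset.inf'_le (f := fun j => D j (ρ n) (δ n) (U n)) hj))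
    have h5 : s1 n ≤ S j (ρ n) (δ n) (U n) (x n) (σ n) :=
      (a7 n).trans ((min_le_right _ _).trans
        (Finset.inf'_le (f := fun j => S j (ρ n) (δ n) (U n) (x n) (σ n)) hj))
    exact hS2 j _ _ _ _ _ ((a1 n).trans hn) (a2 n) h4 (a4 n) (a5 n) _ (a6 n) h5

/-- **`ColPhi` along sequences**, all `ε`, all compacts -/
theorem col_seq (hC : ColPhi) {u0 R d h : ℝ} {ψ H A : ℂ → ℂ} {φ p B : ℂ × ℂ → ℂ}
    {X L : Set (ℂ × ℂ)} (hE : ED u0 R d h ψ H A φ p B X L) {u s₀ a g : ℝ}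
    (hu : u ∈ Ioo (u0 - R) (u0 + R)) (hu0 : u ≠ 0) (ha : 0 ≤ a) (hg : 0 < g)
    (hR : Rigid u0 R d h ψ φ p B X L u s₀ a g) {κ : ℝ} (hκ : 0 < κ) :
    ∃ k > 0, ∃ κ' > 0, ∀ (P : Set ℝ → ℝ → ℝ → Prop)
      (mx : ℕ → ℝ → ℝ → Set ℝ → ℝ) (_ : ∀ n ρ δ U, 0 < ρ → 0 < δ → 0 < mx n ρ δ U)
      (ms : ℕ → ℝ → ℝ → Set ℝ → ℝ → ℝ → ℝ)
      (_ : ∀ n ρ δ U x σ, 0 < ρ → 0 < δ → 0 < σ → 0 < ms n ρ δ U x σ)
      (_ : ∀ (ρ δ : ℕ → ℝ) (U : ℕ → Set ℝ) (x σ s1 : ℕ → ℝ),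
        (∀ n, ρ n ≤ 1 / ((n : ℝ) + 1)) → (∀ n, Base a g X L u s₀ (ρ n) (δ n) (U n)) →
        (∀ n, |x n - s₀| < mx n (ρ n) (δ n) (U n)) → (∀ n, 0 < σ n) →
        (∀ n, ∀ s ∈ Ioo 0 (σ n), Intr h κ ψ B (x n, u) s) → (∀ n, 0 < s1 n) →
        (∀ n, s1 n ≤ ms n (ρ n) (δ n) (U n) (x n) (σ n)) →
        (∀ ε > 0, ∀ K ⊆ Wg (a + g), IsCompact K → ∀ K' ⊆ Wg a, IsCompact K' →
          ∀ᶠ n in atTop, ∀ (p' : ℝ × ℝ) (s' : ℝ),
            V (fun q s => φ (ray q s)) (φ (ray (x n, u) (s1 n))) (s1 n) (x n, u) k p' s' →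
            infDist p'.2 (U n) ≤ s' → Intr h κ' ψ B p' s' ∧
            SlowAt ε K K' ψ (fun q => φ (bl p' s' q)) (fun q => p (bl p' s' q))
              (fun q => B (bl p' s' q))) →
        (∀ n, ¬ P (U n) (x n) (s1 n)) → False),
      EvS h a g κ ψ B X L u s₀ P := by
  obtain ⟨k, hk, κ', hκ', hCol⟩ := hC u0 R d h ψ H A φ p B X L hE u s₀ a g hu hu0 ha hg hR κ hκ
  obtain ⟨K1, hK1c, hK1s, hK1⟩ := exh (a + g)
  obtain ⟨K2, hK2c, hK2s, hK2⟩ := exh a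
  refine ⟨k, hk, κ', hκ', ?_⟩
  intro P mx hmx ms hms HH
  refine EvS.seq_of_family (fun j : ℕ => hCol (1 / ((j : ℝ) + 1)) (by positivity) (K1 j) (hK1s j)
    (hK1c j) (K2 j) (hK2s j) (hK2c j)) mx hmx ms hms ?_
  intro ρ δ U x σ s1 a1 a2 a3 a4 a5 a6 a7 a8 a9
  refine HH ρ δ U x σ s1 a1 a2 a3 a4 a5 a6 a7 ?_ a9
  intro ε hε K hK hKc K' hK' hKc'
  obtain ⟨j1, hj1⟩ := hK1 K hK hKc
  obtain ⟨j2, hj2⟩ := hK2 K' hK' hKc'
  obtain ⟨j3, hj3⟩ := exists_nat_one_div_lt hε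
  set j := max (max j1 j2) j3 with hj
  have b1 : j1 ≤ j := (le_max_left _ _).trans (le_max_left _ _)
  have b2 : j2 ≤ j := (le_max_right _ _).trans (le_max_left _ _)
  have b3 : j3 ≤ j := le_max_right _ _
  have b4 : 1 / ((j : ℝ) + 1) ≤ ε := by
    refine le_trans ?_ hj3.le
    have : (j3 : ℝ) ≤ j := by exact_mod_cast b3
    gcongr
  filter_upwards [a8 j] with n hn p' s' hV hU
  obtain ⟨c1, c2⟩ := hn p' s' hV hU
  exact ⟨c1, slowAt_mono c2 b4 (hj1 j b1) (hj2 j b2)⟩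

end Crest.Agent.R102.SlowJ486
end
end

-- ▼ part R102/NoRecB_971

/-! Row 102, EDGE / SLOW (helper971, spare): the joint `NoRecP` from `ColPhi` and `SlowWorld`. -/

set_option autoImplicit false

open Set Filter Topology Metric Complex

noncomputable section

namespace Crest.Agent.R102.NoRec971

open Crest.Agent.R102.Sup115 (E2)
open Crest.Agent.R102.S5 (ray bl Half)
open Crest.Agent.R102.TreeS174 (KD)
open Crest.Agent.R102.Edge255
open Crest.Agent.R102.SlowE (oe)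
open Crest.Agent.R102.SlowS (kd)
open Crest.Agent.R102.Chain859 (V rho V_up)
open Crest.Agent.R102.SlowJ486
open Crest.Agent.R102.LocGrow115 (HSide HArc)
open Crest.Agent.R102.NoRecW203 (SlowWorld)

theorem r_le {s s1 om : ℝ} (hs : 0 < s) (hs1 : 0 < s1) (hom : 0 < om)
    (h : (s / s1) ^ (1 / 2 : ℝ) ≤ om) : s / om ≤ om * s1 := by
  have h0 : 0 ≤ s / s1 := by positivity
  have h1 : s / s1 = ((s / s1) ^ (1 / 2 : ℝ)) ^ 2 := by
    rw [← Real.rpow_natCast, ← Real.rpow_mul h0]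
    norm_num
  have h2 : 0 ≤ (s / s1) ^ (1 / 2 : ℝ) := Real.rpow_nonneg h0 _
  have h3 : s / s1 ≤ om ^ 2 := by
    rw [h1]
    gcongr
  rw [div_le_iff₀ hs1] at h3
  rw [div_le_iff₀ hom]
  nlinarith

theorem hside_rec {φ : ℂ × ℂ → ℂ} {c p0 : ℕ → ℝ × ℝ} {s s1 om : ℕ → ℝ} {b0 : ℕ → ℂ} {k : ℝ}
    (hk : 0 < k) (hdef : ∀ n, oe 8 φ (c n) (s n) = om n) (hom : ∀ n, 0 < om n)
    (hom1 : ∀ n, om n ≤ 1) (hom0 : Tendsto om atTop (𝓝 0))
    (hs1 : ∀ n, 0 < s1 n) (hoe : ∀ n, (s n / s1 n) ^ (1 / 2 : ℝ) ≤ om n)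
    (hV : ∀ n, V (fun q s => φ (ray q s)) (b0 n) (s1 n) (p0 n) (3 * k / 4) (c n) (s n))
    (hdist : ∀ n, dist (c n) (p0 n) ≤ s1 n / 2)
    (hrec : ∀ n, ∀ (p'' : ℝ × ℝ) (s'' : ℝ), V (fun q s => φ (ray q s)) (b0 n) (s1 n) (p0 n) k p'' s'' →
      rho (1 / 2) (c n) (s n) p'' s'' * oe 8 φ p'' s'' ≤ 16 * oe 8 φ (c n) (s n))
    (hosc : ∀ ε > 0, ∀ᶠ n in atTop, ∀ t, s n ≤ t → t ≤ s1 n → oe 8 φ (c n) t ≤ ε)
    (hφ : ∀ n, ∀ (p : ℝ × ℝ) (t : ℝ), V (fun q s => φ (ray q s)) (b0 n) (s1 n) (p0 n) k p t →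
      DifferentiableOn ℂ φ (KD 8 p.1 p.2 t)) :
    HSide (1 / 2) (1 / 2) φ c s (fun n => s n / om n) om := by
  intro ν hν C hC
  obtain ⟨M, hM, H⟩ := SideK201.sideK (E := ℂ) (th := 1 / 2) (Cl := 16) (A := 16) (by norm_num)
    (by norm_num) (by norm_num)
  have hM0 : 0 < M := by linarith
  have hC0 : 0 < C := by linarith
  set M' : ℝ := M * C * (C / ν) ^ 2 with hM'
  have hM'0 : 0 < M' := by positivity
  refine ⟨16 * M' + 5, by positivity, ?_⟩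
  intro y hy
  have y0 : 0 < y := by linarith
  -- the three smallness conditions
  have e1 : ∀ᶠ n in atTop, ∀ t, s n ≤ t → t ≤ s1 n → oe 8 φ (c n) t ≤ min (1 / 2) (k / 128) :=
    hosc _ (by positivity)
  have e2 : ∀ᶠ n in atTop,
      (2 / om n) ^ (1 / 2 : ℝ) * (1 + Real.log (2 / om n)) ^ 4 * om n < min (k / 8) (1 / 2) / M' :=
    (small_G hom hom1 hom0).eventually_lt_const (by positivity)
  have e3 : ∀ᶠ n in atTop, om n < 1 / (4 * C) := hom0.eventually_lt_const (by positivity)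
  filter_upwards [e1, e2, e3] with n h1 h2 h3
  intro T hyT hT2 x' v' s' hx' hv' hs'l hs'u
  have s0 : 0 < s n := (hV n).1
  have ho := hom n
  have ho1 := hom1 n
  have hs1n := hs1 n
  have hr := r_le s0 hs1n ho (hoe n)
  have ys : 0 < y * s n := by positivity
  have T0 : 0 < T := lt_of_lt_of_le ys hyT
  have hx1 : 1 ≤ T / (y * s n) := by rw [one_le_div ys]; exact hyT
  set x : ℝ := T / (y * s n) with hx
  have x0 : 0 < x := by linarith
  have hl0 : 0 ≤ Real.log x := Real.log_nonneg hx1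
  set l : ℝ := 1 + Real.log x with hl
  have l1 : 1 ≤ l := by linarith
  have l0 : 0 < l := by linarith
  have hs' : 0 < s' := lt_of_lt_of_le (by positivity) hs'l
  have hTC : T ≤ C * T := by nlinarith
  have hsT : s n ≤ T := by nlinarith
  have hTs1 : 2 * (C * T) ≤ s1 n := by
    have h4 : T ≤ 2 * (om n * s1 n) := by linarith
    have h5 : 4 * C * om n ≤ 1 := by
      rw [lt_div_iff₀ (by positivity)] at h3
      linarith
    calc 2 * (C * T) ≤ 2 * (C * (2 * (om n * s1 n))) := by gcongr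
      _ = (4 * C * om n) * s1 n := by ring
      _ ≤ 1 * s1 n := by gcongr
      _ = s1 n := one_mul _
  have hdp : dist (c n) (x', v') ≤ C * T := by
    rw [Prod.dist_eq, Real.dist_eq, Real.dist_eq]
    refine max_le ?_ ?_
    · rw [abs_sub_comm]; exact hx'
    · rw [abs_sub_comm]; exact hv'
  have hTs : T / s n = y * x := by
    rw [hx]; field_simp
  have hz : y * x ≤ 2 / om n := by
    rw [← hTs, div_le_div_iff₀ s0 ho]
    have h4 : T ≤ 2 * (s n / om n) := hT2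
    have h5 : T * om n ≤ 2 * (s n / om n) * om n := by gcongr
    have h6 : 2 * (s n / om n) * om n = 2 * s n := by field_simp
    linarith
  have hxz : x ≤ 2 / om n := by nlinarith
  -- the bound of the kernel quantity
  have g1 : (C * T / s n) ^ (1 / 2 : ℝ) ≤ C * (y * x) ^ (1 / 2 : ℝ) := by
    rw [show C * T / s n = C * (y * x) by rw [← hTs]; ring,
      Real.mul_rpow (by positivity) (by positivity)]
    have : C ^ (1 / 2 : ℝ) ≤ C ^ (1 : ℝ) := Real.rpow_le_rpow_of_exponent_le hC (by norm_num)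
    rw [Real.rpow_one] at this
    gcongr
  have g2 : C * T / s' ≤ C / ν * l ^ 2 := by
    rw [div_le_iff₀ hs']
    have h4 : ν * T ≤ s' * l ^ 2 := by
      rw [div_le_iff₀ (by positivity)] at hs'l
      exact hs'l
    calc C * T = C / ν * (ν * T) := by field_simp
      _ ≤ C / ν * (s' * l ^ 2) := by gcongr
      _ = C / ν * l ^ 2 * s' := by ring
  have g3 : M * (C * T / s n) ^ (1 / 2 : ℝ) * (C * T / s') ^ 2 * om n ≤
      M' * ((y * x) ^ (1 / 2 : ℝ) * l ^ 4) * om n := by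
    calc M * (C * T / s n) ^ (1 / 2 : ℝ) * (C * T / s') ^ 2 * om n
        ≤ M * (C * (y * x) ^ (1 / 2 : ℝ)) * (C / ν * l ^ 2) ^ 2 * om n := by gcongr
      _ = M' * ((y * x) ^ (1 / 2 : ℝ) * l ^ 4) * om n := by rw [hM']; ring
  have g4 : M' * ((y * x) ^ (1 / 2 : ℝ) * l ^ 4) * om n ≤ min (k / 8) (1 / 2) := by
    have h4 : l ≤ 1 + Real.log (2 / om n) := by
      have := Real.log_le_log x0 hxz
      linarith
    calc M' * ((y * x) ^ (1 / 2 : ℝ) * l ^ 4) * om n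
        ≤ M' * ((2 / om n) ^ (1 / 2 : ℝ) * (1 + Real.log (2 / om n)) ^ 4) * om n := by gcongr
      _ = M' * ((2 / om n) ^ (1 / 2 : ℝ) * (1 + Real.log (2 / om n)) ^ 4 * om n) := by ring
      _ ≤ M' * (min (k / 8) (1 / 2) / M') := by gcongr
      _ = min (k / 8) (1 / 2) := by field_simp
  obtain ⟨-, r2⟩ := H (oe 8 φ) (fun q s => φ (ray q s)) (b0 n) k (min (1 / 2) (k / 128)) (s1 n)
    (p0 n) (c n) (s n) (fun p t => SlowE.oe_nonneg _ _ _ _)
    (fun p t t' hv he ht1 ht2 => by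
      have h4 := SlowE.hvert (le_refl (8 : ℝ)) (φ := φ) hv.1 he ht1 ht2
      have h5 := SlowE.oe_nonneg 8 φ p t
      linarith)
    (fun p p' t hv he hd => SlowE.hlat (le_refl (8 : ℝ)) hv.1 (hφ n p t hv) he hd)
    hk.le (hV n) (hdist n) h1
    (by have := min_le_right (1 / 2 : ℝ) (k / 128); linarith)
    (by have := min_le_left (1 / 2 : ℝ) (k / 128); linarith)
    (hrec n) (C * T) (x', v') s' (hsT.trans hTC) hTs1 hdp hs' hs'u
    (by rw [hdef n]; exact (g3.trans g4).trans (min_le_left _ _))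
    (by rw [hdef n]; exact (g3.trans g4).trans (min_le_right _ _))
  rw [hdef n] at r2
  have g5 := absorb hM'0.le hx1
  calc ‖φ (ray (x', v') s') - φ (ray (c n) (s n))‖
      ≤ M * (C * T / s n) ^ (1 / 2 : ℝ) * (C * T / s') ^ 2 * om n := r2
    _ ≤ M' * ((y * x) ^ (1 / 2 : ℝ) * l ^ 4) * om n := g3
    _ = om n * y ^ (1 / 2 : ℝ) * (M' * (x ^ (1 / 2 : ℝ) * l ^ 4)) := by
        rw [Real.mul_rpow y0.le x0.le]; ring
    _ ≤ om n * y ^ (1 / 2 : ℝ) * Real.exp ((16 * M' + 5) * x ^ (1 / 2 : ℝ)) := by gcongr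

theorem harc_rec {m : ℝ} (hm : 0 ≤ m) {ψ : ℂ → ℂ} {φ P B : ℂ × ℂ → ℂ} {c : ℕ → ℝ × ℝ}
    {s s1 om : ℕ → ℝ} {b0 : ℕ → ℂ} {k : ℝ} (_hk : 0 < k) (hk1 : k ≤ 1) (hs : ∀ n, 0 < s n)
    (hom : ∀ n, 0 < om n) (hom1 : ∀ n, om n ≤ 1) (hom0 : Tendsto om atTop (𝓝 0))
    (hs1 : ∀ n, 0 < s1 n) (hoe : ∀ n, (s n / s1 n) ^ (1 / 2 : ℝ) ≤ om n)
    (hV : ∀ n, ∀ t, s n ≤ t → t ≤ s1 n → ‖φ (ray (c n) t) - b0 n‖ ≤ 3 * k / 4)
    (hdiff : ∀ C : ℝ, ∀ᶠ n in atTop, DifferentiableOn ℂ φ (Half (c n) (C * (s n / om n)) m))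
    (hS : ∀ K ⊆ Wg m, IsCompact K → ∀ᶠ n in atTop, ∀ t, s n ≤ t → t ≤ s1 n →
      SlowAt (1 / 2) K ∅ ψ (fun q => φ (bl (c n) t q)) (fun q => P (bl (c n) t q))
        (fun q => B (bl (c n) t q))) :
    HArc m (1 / 2) φ c s (fun n => s n / om n) om := by
  intro ν hν C hC
  refine ⟨fun n => Real.log (3 / om n), fun n => Real.log_nonneg ?_, ?_, ?_⟩
  · rw [le_div_iff₀ (hom n)]
    linarith [hom1 n]
  · have e : (fun n => Real.log (3 / om n) * (s n / (s n / om n)) ^ (1 / 2 : ℝ)) =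
        fun n => Real.log 3 * (om n) ^ (1 / 2 : ℝ) - Real.log (om n) * (om n) ^ (1 / 2 : ℝ) := by
      funext n
      have h1 := hs n
      have h2 := hom n
      have h3 : s n / (s n / om n) = om n := by field_simp
      rw [h3, Real.log_div (by norm_num) h2.ne']
      ring
    rw [e]
    have h1 : Tendsto om atTop (𝓝[>] 0) :=
      tendsto_nhdsWithin_iff.2 ⟨hom0, Eventually.of_forall hom⟩
    have h2 : Tendsto (fun n => Real.log (om n) * (om n) ^ (1 / 2 : ℝ)) atTop (𝓝 0) :=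
      (tendsto_log_mul_rpow_nhdsGT_zero (by norm_num)).comp h1
    have h3 : Tendsto (fun n => (om n) ^ (1 / 2 : ℝ)) atTop (𝓝 ((0 : ℝ) ^ (1 / 2 : ℝ))) :=
      hom0.rpow_const (Or.inr (by norm_num))
    rw [Real.zero_rpow (by norm_num)] at h3
    simpa using (h3.const_mul (Real.log 3)).sub h2
  set ν' : ℝ := min ν (1 / 4) with hν'
  have hν'0 : 0 < ν' := by positivity
  have e3 : ∀ᶠ n in atTop, om n ≤ 1 := Eventually.of_forall hom1
  filter_upwards [hdiff (C + 1 + 1), hS (Kr m (C + 1) ν') (Kr_sub hν'0) (isCompact_Kr _ _ _), e3]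
    with n h1 h2 h3
  intro q hq1 hq2 hq3 hq4
  have hsn := hs n
  have ho := hom n
  have hs1n := hs1 n
  set r : ℝ := s n / om n with hr
  have r0 : 0 < r := by positivity
  have hrs : s n ≤ r := by rw [hr, le_div_iff₀ ho]; nlinarith
  have hrs1 : r ≤ s1 n := by
    have := r_le hsn hs1n ho (hoe n)
    nlinarith
  have hS' := h2 r hrs hrs1
  have hbl : Continuous (bl (c n) r) := by unfold bl; fun_prop
  have hsub : ∀ x ∈ Kr m (C + 1) ν', bl (c n) r x ∈ Half (c n) ((C + 1 + 1) * r) m := by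
    rintro x ⟨x1, x2, x3, x4⟩
    have a1 : (bl (c n) r x).1.re - (c n).1 = r * x.1.re := by simp [bl]
    have a2 : (bl (c n) r x).1.im = r * x.1.im := by simp [bl]
    have a3 : (bl (c n) r x).2 - ((c n).2 : ℂ) = (r : ℂ) * x.2 := by simp [bl]
    have a4 : (bl (c n) r x).2.im = r * x.2.im := by simp [bl]
    have b1 : |x.1.re| ≤ C + 1 := (Complex.abs_re_le_norm _).trans x1
    have b2 : |x.1.im| ≤ C + 1 := (Complex.abs_im_le_norm _).trans x1
    refine ⟨?_, ?_, ?_, ?_, ?_⟩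
    · rw [a1, abs_mul, abs_of_pos r0]
      nlinarith
    · rw [a2]
      have := (abs_le.1 b2).1
      nlinarith
    · rw [a3, norm_mul, Complex.norm_real, Real.norm_of_nonneg r0.le]
      nlinarith
    · rw [a4]
      have : 0 < x.2.im := lt_of_lt_of_le hν'0 x3
      positivity
    · rw [a2, a4]
      have : x.1.im < m * x.2.im := by linarith
      nlinarith
  have hcont : ContinuousOn (fun x => φ (bl (c n) r x)) (Kr m (C + 1) ν') :=
    h1.continuousOn.comp hbl.continuousOn hsub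
  obtain ⟨j, hj⟩ := SlowS.branch (convex_Kr m (C + 1) ν').isPreconnected
    (f := fun x => φ (bl (c n) r x) - ψ (B (bl (c n) r z0))) (hcont.sub continuousOn_const) le_rfl
    (fun x hx => (hS'.1 x hx).1)
  have hz : z0 ∈ Kr m (C + 1) ν' := by
    have z1 : (z0).1 = -I := rfl
    have z2 : (z0).2 = I / 4 := rfl
    have z3 : (I / 4 : ℂ).im = 1 / 4 := by simp
    have z4 : ν' ≤ 1 / 4 := min_le_right _ _
    refine ⟨?_, ?_, ?_, ?_⟩
    · rw [z1]; simp; linarith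
    · rw [z2, norm_div, Complex.norm_I]; norm_num; linarith
    · rw [z2, z3]; exact z4
    · rw [z1, z2, z3]; simp only [Complex.neg_im, Complex.I_im]; nlinarith
  obtain ⟨x, rfl⟩ := SlowS.exists_bl r0 (p := c n) q
  have hx : x ∈ Kr m (C + 1) ν' := by
    have a0 : (bl (c n) r x).1 - ((c n).1 : ℂ) = (r : ℂ) * x.1 := by simp [bl]
    have a2 : (bl (c n) r x).1.im = r * x.1.im := by simp [bl]
    have a3 : (bl (c n) r x).2 - ((c n).2 : ℂ) = (r : ℂ) * x.2 := by simp [bl]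
    have a4 : (bl (c n) r x).2.im = r * x.2.im := by simp [bl]
    rw [a0, norm_mul, Complex.norm_real, Real.norm_of_nonneg r0.le] at hq1
    rw [a3, norm_mul, Complex.norm_real, Real.norm_of_nonneg r0.le] at hq2
    rw [a4] at hq3
    rw [a2, a4] at hq4
    have b1 : ‖x.1‖ ≤ C := by
      have : r * ‖x.1‖ ≤ r * C := by linarith
      exact le_of_mul_le_mul_left this r0
    have b2 : ‖x.2‖ ≤ C := by
      have : r * ‖x.2‖ ≤ r * C := by linarith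
      exact le_of_mul_le_mul_left this r0
    have b3 : ν ≤ x.2.im := by
      have : r * ν ≤ r * x.2.im := by linarith
      exact le_of_mul_le_mul_left this r0
    have b4 : x.1.im ≤ m * x.2.im - ν := by
      have : r * x.1.im ≤ r * (m * x.2.im - ν) := by linarith
      exact le_of_mul_le_mul_left this r0
    have b5 : ν' ≤ ν := min_le_left _ _
    exact ⟨by linarith, by linarith, b5.trans b3, by linarith⟩
  have c1 := hj x hx
  have c2 := hj z0 hz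
  have c3 : ‖φ (bl (c n) r x) - φ (bl (c n) r z0)‖ ≤ 1 := by
    have : φ (bl (c n) r x) - φ (bl (c n) r z0) =
        (φ (bl (c n) r x) - ψ (B (bl (c n) r z0)) - j * Real.pi) -
        (φ (bl (c n) r z0) - ψ (B (bl (c n) r z0)) - j * Real.pi) := by ring
    rw [this]
    refine (norm_sub_le _ _).trans ?_
    linarith
  have hray : ray (c n) r = bl (c n) r z0 := rfl
  have c4 := hV n r hrs hrs1
  have c5 := hV n (s n) le_rfl (hrs.trans hrs1)
  have c6 : ‖φ (bl (c n) r x) - φ (ray (c n) (s n))‖ ≤ 3 := by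
    have : φ (bl (c n) r x) - φ (ray (c n) (s n)) =
        (φ (bl (c n) r x) - φ (bl (c n) r z0)) + (φ (ray (c n) r) - b0 n) -
        (φ (ray (c n) (s n)) - b0 n) := by rw [hray]; ring
    rw [this]
    refine (norm_sub_le _ _).trans ?_
    have := norm_add_le (φ (bl (c n) r x) - φ (bl (c n) r z0)) (φ (ray (c n) r) - b0 n)
    linarith
  refine c6.trans ?_
  rw [Real.exp_log (by positivity)]
  have : om n * (3 / om n) = 3 := by field_simp
  rw [this]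

end Crest.Agent.R102.NoRec971
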