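import Crest.Agent.R102.SideB_669
import Crest.Agent.R102.SideLab_426
import Crest.Agent.R102.NormP_864

-- ▼ part R102/SideC_669
section

/-!
Row 102, T1-B, EDGE, SIDE (helper669), one-variable part 3: two sided bound of `Re L` and of the
oscillation of `L` along a segment, quotient at the end of the segment.
-/

set_option autoImplicit false
set_option linter.unusedVariables false

open Set Filter Metric Complex Topology

namespace Crest.Agent.R102.Side669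

open Crest.Agent.R102.G864

/-- zeros of `Y` near `x` -/
theorem seg_zeros {δ0 a b : ℝ} (hδ0 : 0 < δ0) (hb : 0 < b) (hba : b ≤ a) {Y L : ℂ → ℂ} {M : ℝ}
    (hM : 0 < M) (hS : Seg δ0 a b Y L M) {x ℓ : ℝ} (hx0 : 0 ≤ x) (hx1 : x ≤ 1)
    {a' : ℂ} (ha' : ‖a' - x‖ ≤ δ0 * wd a b x / 100) (hY : M * Real.exp (-ℓ) ≤ ‖Y a'‖)
    {N : ℕ} (hN : ℓ ≤ N) :
    ∃ Zs : Finset ℂ, Zs.card ≤ N ∧ ∀ z ∈ ball (x : ℂ) (δ0 * wd a b x / 10), Y z = 0 → z ∈ Zs := by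
  have hw : 0 < wd a b x := hb.trans_le (wd_ge hba hx0 hx1)
  set r : ℝ := δ0 * wd a b x with hr
  have hr0 : 0 < r := by positivity
  have hsub : ball a' (9 / 10 * r) ⊆ ball (x : ℂ) r := by
    intro z hz
    rw [mem_ball, dist_eq_norm] at hz ⊢
    calc ‖z - x‖ = ‖(z - a') + (a' - x)‖ := by congr 1; ring
      _ ≤ ‖z - a'‖ + ‖a' - x‖ := norm_add_le _ _
      _ < r := by linarith
  have hlt : M < 3 ^ (N + 1) * (M * Real.exp (-ℓ)) := by
    have h1 : Real.exp ℓ < 3 ^ (N + 1) := by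
      calc Real.exp ℓ ≤ Real.exp (N * 1) := Real.exp_le_exp.2 (by linarith)
        _ = Real.exp 1 ^ N := by rw [Real.exp_nat_mul]
        _ ≤ 3 ^ N := pow_le_pow_left₀ (Real.exp_pos 1).le
            (le_trans Real.exp_one_lt_d9.le (by norm_num)) N
        _ < 3 ^ (N + 1) := by
            rw [pow_succ]; nlinarith [pow_pos (by norm_num : (0 : ℝ) < 3) N]
    have h2 : (3 : ℝ) ^ (N + 1) * (M * Real.exp (-ℓ)) = M * (3 ^ (N + 1) / Real.exp ℓ) := by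
      rw [Real.exp_neg]; ring
    rw [h2]
    have h3 : 1 < 3 ^ (N + 1) / Real.exp ℓ := by
      rw [one_lt_div (Real.exp_pos ℓ)]; exact h1
    nlinarith
  obtain ⟨Zs, hc, hZ⟩ := zeros_finset (c := a') (R := r / 2) (R' := 9 / 10 * r) (by positivity)
    (by linarith) ((hS.Yd x hx0 hx1).mono hsub)
    (fun z hz => hS.YM x hx0 hx1 z (hsub (by
      rw [mem_sphere, dist_eq_norm] at hz
      rw [mem_ball, dist_eq_norm, hz]; linarith)))
    (by positivity) hY hlt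
  refine ⟨Zs, hc, fun z hz hz0 => hZ z ?_ hz0⟩
  rw [mem_ball, dist_eq_norm] at hz
  calc ‖z - a'‖ = ‖(z - x) - (a' - x)‖ := by congr 1; ring
    _ ≤ ‖z - x‖ + ‖a' - x‖ := norm_sub_le _ _
    _ ≤ r / 2 / 4 := by linarith

/-- one Schottky step on a segment -/
theorem seg_sch {δ0 a b : ℝ} (hδ0 : 0 < δ0) (hb : 0 < b) (hba : b ≤ a) {Y L : ℂ → ℂ} {M : ℝ}
    (hM : 0 < M) (hS : Seg δ0 a b Y L M) {N : ℕ}
    (hZ : ∀ x : ℝ, 0 ≤ x → x ≤ 1 → ∃ Zs : Finset ℂ, Zs.card ≤ N ∧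
      ∀ z ∈ ball (x : ℂ) (δ0 * wd a b x / 10), Y z = 0 → z ∈ Zs) {x : ℝ} (hx0 : 0 ≤ x)
    (hx1 : x ≤ 1) : ∀ z : ℂ, ‖z - x‖ ≤ δ0 * wd a b x / 20 →
      |(L z).re| ≤ KS (1 / 2) * (N + 1 + |(L x).re|) := by
  intro z hz
  have hw : 0 < wd a b x := hb.trans_le (wd_ge hba hx0 hx1)
  set r : ℝ := δ0 * wd a b x with hr
  have hr0 : 0 < r := by positivity
  obtain ⟨Zs, hc, hZs⟩ := hZ x hx0 hx1
  have hsub : ball (x : ℂ) (r / 10) ⊆ ball (x : ℂ) r := ball_subset_ball (by linarith)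
  have h := RootSch909.root_schottky (F := fun w => cexp (L w)) (c := (x : ℂ)) (R := r / 10)
    (by positivity) (((hS.Ld x hx0 hx1).mono hsub).cexp) (fun w _ => Complex.exp_ne_zero _) hc
    (fun w hw1 hw2 => hZs w hw1 (hS.LY x hx0 hx1 w (hsub hw1) hw2)) (θ := 1 / 2) (by norm_num)
    (by norm_num) z (by
      rw [mem_closedBall, dist_eq_norm]; linarith)
  simp only [Complex.norm_exp, Real.log_exp] at h
  exact h

theorem seg_osc {δ0 a b : ℝ} (hδ0 : 0 < δ0) (hb : 0 < b) (hba : b ≤ a) {Y L : ℂ → ℂ} {M : ℝ}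
    (hM : 0 < M) (hS : Seg δ0 a b Y L M) {N : ℕ}
    (hZ : ∀ x : ℝ, 0 ≤ x → x ≤ 1 → ∃ Zs : Finset ℂ, Zs.card ≤ N ∧
      ∀ z ∈ ball (x : ℂ) (δ0 * wd a b x / 10), Y z = 0 → z ∈ Zs) {x : ℝ} (hx0 : 0 ≤ x)
    (hx1 : x ≤ 1) : ∀ z : ℂ, ‖z - x‖ ≤ δ0 * wd a b x / 40 →
      ‖L z - L x‖ ≤ 2 * (KS (1 / 2) + 1) * (N + 1 + |(L x).re|) := by
  intro z hz
  have hw : 0 < wd a b x := hb.trans_le (wd_ge hba hx0 hx1)
  set r : ℝ := δ0 * wd a b x with hr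
  have hr0 : 0 < r := by positivity
  have hKS := KS_pos (1 / 2)
  have hsch := seg_sch hδ0 hb hba hM hS hZ hx0 hx1
  rw [← hr] at hsch
  set S : ℝ := (KS (1 / 2) + 1) * (N + 1 + |(L x).re|) with hSdef
  have hS0 : 0 < S := by positivity
  have hmap : ∀ w ∈ ball (0 : ℂ) (r / 20), (x : ℂ) + w ∈ ball (x : ℂ) r := by
    intro w hw
    rw [mem_ball, dist_eq_norm, sub_zero] at hw
    rw [mem_ball, dist_eq_norm]
    have : (x : ℂ) + w - x = w := by ring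
    rw [this]; linarith
  have hd : DifferentiableOn ℂ (fun w => L ((x : ℂ) + w) - L x) (ball 0 (r / 20)) := by
    have h1 : DifferentiableOn ℂ (fun w : ℂ => (x : ℂ) + w) (ball 0 (r / 20)) := by fun_prop
    exact ((hS.Ld x hx0 hx1).comp h1 hmap).sub_const _
  have hre : MapsTo (fun w => L ((x : ℂ) + w) - L x) (ball 0 (r / 20)) {z | z.re ≤ S} := by
    intro w hw
    rw [mem_ball, dist_eq_norm, sub_zero] at hw
    have h1 := hsch ((x : ℂ) + w) (by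
      have : (x : ℂ) + w - x = w := by ring
      rw [this]; linarith)
    change (L ((x : ℂ) + w) - L x).re ≤ S
    rw [Complex.sub_re]
    have h2 := le_abs_self (L ((x : ℂ) + w)).re
    have h3 := neg_abs_le (L x).re
    have h4 : S = KS (1 / 2) * (N + 1 + |(L x).re|) + (N + 1 + |(L x).re|) := by
      rw [hSdef]; ring
    have h5 : (0 : ℝ) ≤ N := Nat.cast_nonneg N
    linarith
  have hzz : z - x ∈ ball (0 : ℂ) (r / 20) := by
    rw [mem_ball, dist_eq_norm, sub_zero]; linarith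
  have h := Complex.borelCaratheodory_zero hS0 hd hre (by positivity) hzz (by simp)
  have e1 : (x : ℂ) + (z - x) = z := by ring
  simp only [e1] at h
  refine h.trans ?_
  rw [div_le_iff₀ (by linarith)]
  have h6 : ‖z - (x : ℂ)‖ ≤ r / 20 - ‖z - (x : ℂ)‖ := by linarith
  have h7 : 2 * (KS (1 / 2) + 1) * (N + 1 + |(L x).re|) = 2 * S := by rw [hSdef]; ring
  rw [h7]
  exact mul_le_mul_of_nonneg_left h6 (by positivity)

/-- **main theorem on a segment** -/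
theorem seg_main {δ0 a : ℝ} (hδ0 : 0 < δ0) (hδ1 : δ0 ≤ 1) (ha : 0 < a) (ha1 : a ≤ 1) :
    ∃ K : ℝ, 1 ≤ K ∧ ∃ p : ℕ, ∀ b : ℝ, 0 < b → b ≤ a → ∀ (Y L : ℂ → ℂ) (M : ℝ), 0 < M →
      Seg δ0 a b Y L M → ∀ ℓ : ℝ, 1 ≤ ℓ → M * Real.exp (-ℓ) ≤ ‖Y 0‖ →
        (1 + |(L 1).re| + ‖L 1 - L 0‖ ≤ K * (1 / b) ^ p * ℓ * (1 + |(L 0).re|)) ∧
        1 + |(L 0).re| ≤ K * (1 / b) ^ p * ℓ * (1 + |(L 1).re|) := by
  obtain ⟨K1, hK1, p1, H1⟩ := seg_low hδ0 hδ1 ha ha1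
  have hKS := KS_pos (1 / 2)
  obtain ⟨C, hCdef⟩ : ∃ C : ℝ, C = 3 + 3 * KS (1 / 2) := ⟨_, rfl⟩
  obtain ⟨K2, hK2, p2, H2⟩ := chain (δ := δ0 / 40) (a := a) (C := C) (by positivity) (by linarith)
    ha ha1 (by rw [hCdef]; linarith)
  refine ⟨3 * K1 * K2, by nlinarith, p1 + p2, fun b hb hba Y L M hM hS ℓ hℓ h0 => ?_⟩
  have hb1 : b ≤ 1 := hba.trans ha1
  have hib : 1 ≤ 1 / b := by rw [le_div_iff₀ hb]; linarith
  obtain ⟨ℓ1, hℓ1⟩ : ∃ ℓ1 : ℝ, ℓ1 = K1 * (1 / b) ^ p1 * ℓ := ⟨_, rfl⟩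
  have hpp1 : (1 : ℝ) ≤ (1 / b) ^ p1 := one_le_pow₀ hib
  have hpp2 : (1 : ℝ) ≤ (1 / b) ^ p2 := one_le_pow₀ hib
  have hℓ11 : 1 ≤ ℓ1 := by
    rw [hℓ1]
    calc (1 : ℝ) = 1 * 1 * 1 := by norm_num
      _ ≤ _ := by gcongr
  obtain ⟨N, hN⟩ : ∃ N : ℕ, N = ⌈ℓ1⌉₊ := ⟨_, rfl⟩
  have hN1 : ℓ1 ≤ N := by rw [hN]; exact Nat.le_ceil _
  have hN2 : (N : ℝ) ≤ ℓ1 + 1 := by rw [hN]; exact (Nat.ceil_lt_add_one (by linarith)).le
  have hZ : ∀ x : ℝ, 0 ≤ x → x ≤ 1 → ∃ Zs : Finset ℂ, Zs.card ≤ N ∧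
      ∀ z ∈ ball (x : ℂ) (δ0 * wd a b x / 10), Y z = 0 → z ∈ Zs := by
    intro x hx0 hx1
    obtain ⟨a', ha', hYa⟩ := H1 b hb hba Y L M hM hS ℓ hℓ h0 x hx0 hx1
    rw [← hℓ1] at hYa
    exact seg_zeros hδ0 hb hba hM hS hx0 hx1 ha' hYa hN1
  obtain ⟨f, hf⟩ : ∃ f : ℝ → ℝ, f = fun x : ℝ => (N : ℝ) + 1 + |(L x).re| := ⟨_, rfl⟩
  have hf0 : ∀ x, 0 < f x := fun x => by rw [hf]; positivity
  -- the two one step estimates
  have st1 : ∀ x x' : ℝ, 0 ≤ x → x ≤ x' → x' ≤ 1 → x' - x ≤ δ0 / 40 * wd a b x →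
      f x' ≤ (1 + KS (1 / 2)) * f x ∧ ‖L x' - L x‖ ≤ 2 * (KS (1 / 2) + 1) * f x ∧
      f x ≤ (1 + KS (1 / 2)) * f x' := by
    intro x x' hx0 hxx hx1 hst
    have hx01 : x ≤ 1 := hxx.trans hx1
    have hx'0 : 0 ≤ x' := hx0.trans hxx
    have hw : 0 < wd a b x := hb.trans_le (wd_ge hba hx0 hx01)
    have hw' : 0 < wd a b x' := hb.trans_le (wd_ge hba hx'0 hx1)
    have hws := wd_step hb ha1 hxx hst
    have h9 : 1 / 2 * wd a b x ≤ wd a b x' := by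
      refine le_trans ?_ hws
      exact mul_le_mul_of_nonneg_right (by linarith) hw.le
    have e1 : ‖((x' : ℝ) : ℂ) - x‖ = x' - x := by
      rw [← Complex.ofReal_sub, Complex.norm_real, Real.norm_eq_abs, abs_of_nonneg (by linarith)]
    have e2 : ‖((x : ℝ) : ℂ) - x'‖ = x' - x := by rw [norm_sub_rev, e1]
    have hp1 : 0 < δ0 * wd a b x := by positivity
    have h10 : δ0 * wd a b x ≤ 2 * (δ0 * wd a b x') := by
      have := mul_le_mul_of_nonneg_left h9 hδ0.le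
      linarith
    have A := seg_sch hδ0 hb hba hM hS hZ hx0 hx01 (x' : ℂ) (by rw [e1]; linarith)
    have B := seg_osc hδ0 hb hba hM hS hZ hx0 hx01 (x' : ℂ) (by rw [e1]; linarith)
    have D := seg_sch hδ0 hb hba hM hS hZ hx'0 hx1 (x : ℂ) (by rw [e2]; linarith)
    have hN0 : (0 : ℝ) ≤ N := Nat.cast_nonneg N
    rw [hf]
    simp only
    have a1 := abs_nonneg (L x).re
    have a2 := abs_nonneg (L x').re
    refine ⟨by nlinarith, B, by nlinarith⟩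
  have hf1 : f 1 = (N : ℝ) + 1 + |(L 1).re| := by rw [hf]; simp
  have hf00 : f 0 = (N : ℝ) + 1 + |(L 0).re| := by rw [hf]; simp
  have hN3 : (N : ℝ) + 1 ≤ 3 * ℓ1 := by linarith
  have fin0 : ∀ t : ℝ, 0 ≤ t → (N : ℝ) + 1 + t ≤ 3 * ℓ1 * (1 + t) := by
    intro t ht
    have : t ≤ 3 * ℓ1 * t := by nlinarith
    nlinarith
  have e0 : 3 * K1 * K2 * (1 / b) ^ (p1 + p2) * ℓ = K2 * (1 / b) ^ p2 * (3 * ℓ1) := by
    rw [hℓ1, pow_add]; ring
  constructor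
  · have h := H2 b hb hba (fun x Λ => f x + ‖L x - L 0‖ ≤ Λ * f 0) ?_ ?_ 1 le_rfl ?_ 1 zero_le_one
      le_rfl
    · simp only [Complex.ofReal_one, mul_one] at h
      rw [e0]
      have h1 : 1 + |(L 1).re| + ‖L 1 - L 0‖ ≤ f 1 + ‖L 1 - L 0‖ := by
        rw [hf1]; have : (0 : ℝ) ≤ N := Nat.cast_nonneg N
        linarith
      refine h1.trans (h.trans ?_)
      rw [mul_assoc (K2 * (1 / b) ^ p2)]
      refine mul_le_mul_of_nonneg_left ?_ (by positivity)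
      rw [hf00]
      exact fin0 _ (abs_nonneg _)
    · intro x x' Λ hx0 hxx hx1 hst hΛ hP
      obtain ⟨s1, s2, s3⟩ := st1 x x' hx0 hxx hx1 hst
      have h3 : ‖L x' - L 0‖ ≤ ‖L x' - L x‖ + ‖L x - L 0‖ := by
        calc ‖L x' - L 0‖ = ‖(L x' - L x) + (L x - L 0)‖ := by congr 1; ring
          _ ≤ _ := norm_add_le _ _
      have h4 : C * (f x + ‖L x - L 0‖) ≤ C * (Λ * f 0) :=
        mul_le_mul_of_nonneg_left hP (by rw [hCdef]; positivity)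
      have h5 : f x' + ‖L x' - L 0‖ ≤ C * (f x + ‖L x - L 0‖) := by
        rw [hCdef]
        have := norm_nonneg (L x - L 0)
        nlinarith [hf0 x]
      rw [mul_assoc]
      exact h5.trans h4
    · intro x Λ Λ' hΛ hP
      exact hP.trans (mul_le_mul_of_nonneg_right hΛ (hf0 0).le)
    · simp
  · have h := H2 b hb hba (fun x Λ => f 0 ≤ Λ * f x) ?_ ?_ 1 le_rfl ?_ 1 zero_le_one le_rfl
    · rw [e0]
      have h1 : 1 + |(L 0).re| ≤ f 0 := by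
        rw [hf00]; have : (0 : ℝ) ≤ N := Nat.cast_nonneg N
        linarith
      refine h1.trans (h.trans ?_)
      rw [mul_one, mul_assoc (K2 * (1 / b) ^ p2)]
      refine mul_le_mul_of_nonneg_left ?_ (by positivity)
      rw [hf1]
      exact fin0 _ (abs_nonneg _)
    · intro x x' Λ hx0 hxx hx1 hst hΛ hP
      obtain ⟨s1, s2, s3⟩ := st1 x x' hx0 hxx hx1 hst
      have h4 : Λ * f x ≤ Λ * ((1 + KS (1 / 2)) * f x') :=
        mul_le_mul_of_nonneg_left s3 (by linarith)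
      have h5 : Λ * ((1 + KS (1 / 2)) * f x') ≤ C * Λ * f x' := by
        have h6 : (1 + KS (1 / 2)) ≤ C := by rw [hCdef]; linarith
        have h7 : 0 ≤ Λ * f x' := mul_nonneg (by linarith) (hf0 x').le
        calc Λ * ((1 + KS (1 / 2)) * f x') = (1 + KS (1 / 2)) * (Λ * f x') := by ring
          _ ≤ C * (Λ * f x') := mul_le_mul_of_nonneg_right h6 h7
          _ = _ := by ring
      exact hP.trans (h4.trans h5)
    · intro x Λ Λ' hΛ hP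
      exact hP.trans (mul_le_mul_of_nonneg_right hΛ (hf0 x).le)
    · simp

/-- **quotient at the end of the segment** -/
theorem seg_quot {δ0 a : ℝ} (hδ0 : 0 < δ0) (hδ1 : δ0 ≤ 1) (ha : 0 < a) (ha1 : a ≤ 1) :
    ∃ K : ℝ, 1 ≤ K ∧ ∃ p : ℕ, ∀ b : ℝ, 0 < b → b ≤ a → ∀ (Y L : ℂ → ℂ) (M : ℝ), 0 < M →
      Seg δ0 a b Y L M → ∀ ℓ : ℝ, 1 ≤ ℓ → M * Real.exp (-ℓ) ≤ ‖Y 0‖ →
      ∀ (F G : ℂ → ℂ) (M' : ℝ), DifferentiableOn ℂ F (ball 1 (δ0 * b)) →
        DifferentiableOn ℂ G (ball 1 (δ0 * b)) → (∀ z ∈ ball (1 : ℂ) (δ0 * b), F z * Y z = G z) →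
        (∀ z ∈ ball (1 : ℂ) (δ0 * b), ‖G z‖ ≤ M') →
        ‖F 1‖ ≤ M' / M * Real.exp (K * (1 / b) ^ p * ℓ) := by
  obtain ⟨K1, hK1, p1, H1⟩ := seg_low hδ0 hδ1 ha ha1
  refine ⟨3 * K1, by linarith, p1, fun b hb hba Y L M hM hS ℓ hℓ h0 F G M' hF hG hFG hM' => ?_⟩
  obtain ⟨a', ha', hYa⟩ := H1 b hb hba Y L M hM hS ℓ hℓ h0 1 zero_le_one le_rfl
  obtain ⟨ℓ1, hℓ1⟩ : ∃ ℓ1 : ℝ, ℓ1 = K1 * (1 / b) ^ p1 * ℓ := ⟨_, rfl⟩
  rw [← hℓ1] at hYa
  have ew : wd a b 1 = b := by unfold wd; ring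
  have hYd := hS.Yd 1 zero_le_one le_rfl
  have hYM := hS.YM 1 zero_le_one le_rfl
  rw [ew] at ha' hYd hYM
  rw [Complex.ofReal_one] at ha' hYd hYM
  have hr : 0 < δ0 * b := by positivity
  set r : ℝ := δ0 * b with hrdef
  have hsub : ball a' (9 / 10 * r) ⊆ ball (1 : ℂ) r := by
    intro z hz
    rw [mem_ball, dist_eq_norm] at hz ⊢
    calc ‖z - 1‖ = ‖(z - a') + (a' - 1)‖ := by congr 1; ring
      _ ≤ ‖z - a'‖ + ‖a' - 1‖ := norm_add_le _ _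
      _ < r := by linarith
  have hsph : ∀ z ∈ sphere a' (r / 2), z ∈ ball (1 : ℂ) r := by
    intro z hz
    apply hsub
    rw [mem_sphere, dist_eq_norm] at hz
    rw [mem_ball, dist_eq_norm, hz]; linarith
  obtain ⟨n, hn⟩ : ∃ n : ℕ, Real.exp ℓ1 < 3 ^ n := pow_unbounded_of_one_lt _ (by norm_num)
  have h := quot (c := a') (R := r / 2) (R' := 9 / 10 * r) (by positivity) (by linarith)
    (hF.mono hsub) n Y G M M' (M * Real.exp (-ℓ1)) (hYd.mono hsub) (hG.mono hsub)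
    (fun z hz => hFG z (hsub hz)) (fun z hz => hYM z (hsph z hz)) (fun z hz => hM' z (hsph z hz))
    (by positivity) hYa ?_ 1 ?_
  · refine h.trans (le_of_eq ?_)
    have e1 : M / (M * Real.exp (-ℓ1)) = Real.exp ℓ1 := by
      rw [Real.exp_neg]; field_simp
    rw [e1, ← Real.exp_nat_mul, hℓ1]
    congr 2
    push_cast
    ring
  · have e2 : (3 : ℝ) ^ n * (M * Real.exp (-ℓ1)) = M * (3 ^ n / Real.exp ℓ1) := by
      rw [Real.exp_neg]; ring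
    rw [e2]
    have h3 : 1 < 3 ^ n / Real.exp ℓ1 := by
      rw [one_lt_div (Real.exp_pos ℓ1)]; exact hn
    nlinarith
  · rw [norm_sub_rev]; linarith

end Crest.Agent.R102.Side669
end

-- ▼ part R102/SideD_669
section

/-!
Row 102, T1-B, EDGE, SIDE (helper669), two-variable part: two point estimate and quotient on the
product windows `DW e A d s`, through a point `q0` where `Y` is bounded below.
-/

set_option autoImplicit false

open Set Filter Metric Complex Topology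

noncomputable section

namespace Crest.Agent.R102.Side669

open Crest.Agent.R102.Side426 (PB)

/-- product window, relative depth `d` -/
def DW (e : ℝ × ℝ) (A d s : ℝ) : Set (ℂ × ℂ) :=
  {q | ‖q.1 - (e.1 : ℂ)‖ ≤ A * s ∧ ‖q.2 - (e.2 : ℂ)‖ ≤ A * s ∧ d * s ≤ -q.1.im ∧ d * s ≤ q.2.im}

theorem DW_sub {e : ℝ × ℝ} {A d s ρ : ℝ} (hs : 0 < s) (hd : 0 < d) (h : A * s < ρ) :
    DW e A d s ⊆ PB e ρ := by
  rintro q ⟨h1, h2, h3, h4⟩
  have : 0 < d * s := by positivity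
  exact ⟨by linarith, by linarith, by linarith, by linarith⟩

theorem DW_mono {e : ℝ × ℝ} {A A' d d' s : ℝ} (hs : 0 < s) (hA : A ≤ A') (hd : d' ≤ d) :
    DW e A d s ⊆ DW e A' d' s := by
  rintro q ⟨h1, h2, h3, h4⟩
  have e1 := mul_le_mul_of_nonneg_right hA hs.le
  have e2 := mul_le_mul_of_nonneg_right hd hs.le
  exact ⟨by linarith, by linarith, by linarith, by linarith⟩

theorem DW_convex {e : ℝ × ℝ} {A d s : ℝ} : Convex ℝ (DW e A d s) := by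
  intro q hq q' hq' a b ha hb hab
  obtain ⟨h1, h2, h3, h4⟩ := hq
  obtain ⟨k1, k2, k3, k4⟩ := hq'
  have e1 : (a • q + b • q').1 - (e.1 : ℂ) = (a : ℂ) * (q.1 - e.1) + (b : ℂ) * (q'.1 - e.1) := by
    simp only [Prod.fst_add, Prod.smul_fst, Complex.real_smul]
    have : ((a + b : ℝ) : ℂ) = 1 := by rw [hab]; simp
    push_cast at this
    linear_combination (e.1 : ℂ) * this
  have e2 : (a • q + b • q').2 - (e.2 : ℂ) = (a : ℂ) * (q.2 - e.2) + (b : ℂ) * (q'.2 - e.2) := by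
    simp only [Prod.snd_add, Prod.smul_snd, Complex.real_smul]
    have : ((a + b : ℝ) : ℂ) = 1 := by rw [hab]; simp
    push_cast at this
    linear_combination (e.2 : ℂ) * this
  have e3 : (a • q + b • q').1.im = a * q.1.im + b * q'.1.im := by
    simp [Prod.fst_add, Prod.smul_fst]
  have e4 : (a • q + b • q').2.im = a * q.2.im + b * q'.2.im := by
    simp [Prod.snd_add, Prod.smul_snd]
  have nn : ∀ (x y : ℂ), ‖x‖ ≤ A * s → ‖y‖ ≤ A * s → ‖(a : ℂ) * x + (b : ℂ) * y‖ ≤ A * s := by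
    intro x y hx hy
    refine (norm_add_le _ _).trans ?_
    rw [norm_mul, norm_mul, Complex.norm_real, Complex.norm_real, Real.norm_eq_abs,
      Real.norm_eq_abs, abs_of_nonneg ha, abs_of_nonneg hb]
    have a1 := mul_le_mul_of_nonneg_left hx ha
    have a2 := mul_le_mul_of_nonneg_left hy hb
    have a3 : a * (A * s) + b * (A * s) = A * s := by rw [← add_mul, hab, one_mul]
    linarith
  have a4 : a * (d * s) + b * (d * s) = d * s := by rw [← add_mul, hab, one_mul]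
  refine ⟨?_, ?_, ?_, ?_⟩
  · rw [e1]; exact nn _ _ h1 k1
  · rw [e2]; exact nn _ _ h2 k2
  · rw [e3]
    have a1 := mul_le_mul_of_nonneg_left h3 ha
    have a2 := mul_le_mul_of_nonneg_left k3 hb
    linarith
  · rw [e4]
    have a1 := mul_le_mul_of_nonneg_left h4 ha
    have a2 := mul_le_mul_of_nonneg_left k4 hb
    linarith

/-- the complex line through `q0` and `q` -/
def ln2 (q0 q : ℂ × ℂ) (z : ℂ) : ℂ × ℂ := q0 + z • (q - q0)

theorem ln2_mem {e : ℝ × ℝ} {A a d s : ℝ} (hA : 1 ≤ A) (hs : 0 < s) (hd : 0 < d)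
    (hda : d ≤ a) (ha1 : a ≤ 1) {q0 q : ℂ × ℂ} (hq0 : q0 ∈ DW e A a s) (hq : q ∈ DW e A d s) {x : ℝ}
    (hx0 : 0 ≤ x) (hx1 : x ≤ 1) {z : ℂ} (hz : z ∈ ball (x : ℂ) (1 / (4 * A) * wd a d x)) :
    ln2 q0 q z ∈ DW e (2 * A) (d / 2) s := by
  obtain ⟨h1, h2, h3, h4⟩ := hq0
  obtain ⟨k1, k2, k3, k4⟩ := hq
  rw [mem_ball, dist_eq_norm] at hz
  have hA0 : 0 < A := by linarith
  have hw1 : wd a d x ≤ 1 := (wd_le hda hx0 hx1).trans ha1
  have hwd : d ≤ wd a d x := wd_ge hda hx0 hx1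
  have dd : ∀ (u0 u c : ℂ), ‖u0 - c‖ ≤ A * s → ‖u - c‖ ≤ A * s →
      ‖(z - x) * (u - u0)‖ ≤ wd a d x * s / 2 ∧ ‖u0 + z * (u - u0) - c‖ ≤ 2 * A * s := by
    intro u0 u c hu0 hu
    have e1 : ‖u - u0‖ ≤ 2 * A * s := by
      calc ‖u - u0‖ = ‖(u - c) - (u0 - c)‖ := by congr 1; ring
        _ ≤ ‖u - c‖ + ‖u0 - c‖ := norm_sub_le _ _
        _ ≤ 2 * A * s := by linarith
    have e2 : ‖(z - x) * (u - u0)‖ ≤ wd a d x * s / 2 := by
      rw [norm_mul]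
      calc ‖z - x‖ * ‖u - u0‖ ≤ (1 / (4 * A) * wd a d x) * (2 * A * s) := by
            apply mul_le_mul hz.le e1 (norm_nonneg _)
            exact mul_nonneg (by positivity) (hd.le.trans hwd)
        _ = wd a d x * s / 2 := by field_simp; ring
    refine ⟨e2, ?_⟩
    have e3 : u0 + z * (u - u0) - c = (((1 - x : ℝ) : ℂ) * (u0 - c) + ((x : ℝ) : ℂ) * (u - c)) +
        (z - x) * (u - u0) := by push_cast; ring
    rw [e3]
    refine (norm_add_le _ _).trans ?_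
    have e4 : ‖((1 - x : ℝ) : ℂ) * (u0 - c) + ((x : ℝ) : ℂ) * (u - c)‖ ≤ A * s := by
      refine (norm_add_le _ _).trans ?_
      rw [norm_mul, norm_mul, Complex.norm_real, Complex.norm_real, Real.norm_eq_abs,
        Real.norm_eq_abs, abs_of_nonneg (by linarith : (0 : ℝ) ≤ 1 - x), abs_of_nonneg hx0]
      have a1 := mul_le_mul_of_nonneg_left hu0 (by linarith : (0 : ℝ) ≤ 1 - x)
      have a2 := mul_le_mul_of_nonneg_left hu hx0
      nlinarith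
    have e5 : wd a d x * s / 2 ≤ A * s := by nlinarith
    linarith
  have im1 : ∀ u0 u : ℂ, (u0 + z * (u - u0)).im = (1 - x) * u0.im + x * u.im +
      ((z - x) * (u - u0)).im := by
    intro u0 u
    have : u0 + z * (u - u0) = (((1 - x : ℝ) : ℂ) * u0 + ((x : ℝ) : ℂ) * u) +
        (z - x) * (u - u0) := by push_cast; ring
    rw [this, Complex.add_im, Complex.add_im, Complex.im_ofReal_mul, Complex.im_ofReal_mul]
  have p1 := dd q0.1 q.1 e.1 h1 k1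
  have p2 := dd q0.2 q.2 e.2 h2 k2
  have c1 : (ln2 q0 q z).1 = q0.1 + z * (q.1 - q0.1) := by simp [ln2]
  have c2 : (ln2 q0 q z).2 = q0.2 + z * (q.2 - q0.2) := by simp [ln2]
  have hwe : wd a d x = (1 - x) * a + x * d := rfl
  have m1 : (1 - x) * (a * s) ≤ (1 - x) * (-q0.1.im) := mul_le_mul_of_nonneg_left h3 (by linarith)
  have m2 : x * (d * s) ≤ x * (-q.1.im) := mul_le_mul_of_nonneg_left k3 hx0
  have m3 : (1 - x) * (a * s) ≤ (1 - x) * q0.2.im := mul_le_mul_of_nonneg_left h4 (by linarith)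
  have m4 : x * (d * s) ≤ x * q.2.im := mul_le_mul_of_nonneg_left k4 hx0
  have m5 : wd a d x * s = (1 - x) * (a * s) + x * (d * s) := by rw [hwe]; ring
  have m6 : d * s ≤ wd a d x * s := mul_le_mul_of_nonneg_right hwd hs.le
  have n1 := (abs_le.1 (Complex.abs_im_le_norm ((z - x) * (q.1 - q0.1)))).2
  have n2 := (abs_le.1 (Complex.abs_im_le_norm ((z - x) * (q.2 - q0.2)))).1
  refine ⟨?_, ?_, ?_, ?_⟩
  · rw [c1]; exact p1.2
  · rw [c2]; exact p2.2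
  · rw [c1, im1]; linarith [p1.1]
  · rw [c2, im1]; linarith [p2.1]

theorem ln2_diff (q0 q : ℂ × ℂ) : Differentiable ℂ (ln2 q0 q) := by
  unfold ln2; fun_prop

theorem ln2_zero (q0 q : ℂ × ℂ) : ln2 q0 q 0 = q0 := by simp [ln2]

theorem ln2_one (q0 q : ℂ × ℂ) : ln2 q0 q 1 = q := by simp [ln2]

/-- the data on the line -/
theorem seg_of {e : ℝ × ℝ} {A a d s ρ : ℝ} (hA : 1 ≤ A) (hs : 0 < s) (hd : 0 < d)
    (hda : d ≤ a) (ha1 : a ≤ 1) (hρ : 2 * A * s < ρ) {Y L : ℂ × ℂ → ℂ}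
    (hY : DifferentiableOn ℂ Y (PB e ρ)) (hL : DifferentiableOn ℂ L (PB e ρ)) {M : ℝ}
    (hM : ∀ x ∈ DW e (2 * A) (d / 2) s, ‖Y x‖ ≤ M)
    (hLY : ∀ x ∈ DW e (2 * A) (d / 2) s, cexp (L x) = 1 → Y x = 0)
    {q0 q : ℂ × ℂ} (hq0 : q0 ∈ DW e A a s) (hq : q ∈ DW e A d s) :
    Seg (1 / (4 * A)) a d (fun z => Y (ln2 q0 q z)) (fun z => L (ln2 q0 q z)) M := by
  have hmem : ∀ x : ℝ, 0 ≤ x → x ≤ 1 → ∀ z ∈ ball (x : ℂ) (1 / (4 * A) * wd a d x),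
      ln2 q0 q z ∈ DW e (2 * A) (d / 2) s := fun x hx0 hx1 z hz =>
    ln2_mem hA hs hd hda ha1 hq0 hq hx0 hx1 hz
  have hsub : DW e (2 * A) (d / 2) s ⊆ PB e ρ := DW_sub hs (by positivity) (by linarith)
  exact
    { Yd := fun x hx0 hx1 => hY.comp (ln2_diff q0 q).differentiableOn
        (fun z hz => hsub (hmem x hx0 hx1 z hz))
      Ld := fun x hx0 hx1 => hL.comp (ln2_diff q0 q).differentiableOn
        (fun z hz => hsub (hmem x hx0 hx1 z hz))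
      YM := fun x hx0 hx1 z hz => hM _ (hmem x hx0 hx1 z hz)
      LY := fun x hx0 hx1 z hz h => hLY _ (hmem x hx0 hx1 z hz) h }

/-- **two point estimate** -/
theorem two_pt {A a : ℝ} (hA : 1 ≤ A) (ha : 0 < a) (ha1 : a ≤ 1) :
    ∃ K : ℝ, 1 ≤ K ∧ ∃ p : ℕ, ∀ d : ℝ, 0 < d → d ≤ a → ∀ (e : ℝ × ℝ) (s ρ : ℝ), 0 < s →
      2 * A * s < ρ → ∀ Y L : ℂ × ℂ → ℂ, DifferentiableOn ℂ Y (PB e ρ) →
      DifferentiableOn ℂ L (PB e ρ) → ∀ M : ℝ, 0 < M →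
      (∀ x ∈ DW e (2 * A) (d / 2) s, ‖Y x‖ ≤ M) →
      (∀ x ∈ DW e (2 * A) (d / 2) s, cexp (L x) = 1 → Y x = 0) →
      ∀ ℓ : ℝ, 1 ≤ ℓ → ∀ q0 ∈ DW e A a s, M * Real.exp (-ℓ) ≤ ‖Y q0‖ →
      ∀ q ∈ DW e A d s, ∀ q' ∈ DW e A d s,
        1 + |(L q).re| + ‖L q - L q'‖ ≤ K * (1 / d) ^ p * ℓ ^ 2 * (1 + |(L q').re|) := by
  have hA0 : 0 < A := by linarith
  obtain ⟨K, hK, p, H⟩ := seg_main (δ0 := 1 / (4 * A)) (a := a) (by positivity)
    (by rw [div_le_iff₀ (by positivity)]; linarith) ha ha1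
  refine ⟨3 * K ^ 2, by nlinarith, 2 * p, ?_⟩
  intro d hd hda e s ρ hs hρ Y L hY hL M hM hYM hLY ℓ hℓ q0 hq0 hY0 q hq q' hq'
  have S1 := seg_of hA hs hd hda ha1 hρ hY hL hYM hLY hq0 hq
  have S2 := seg_of hA hs hd hda ha1 hρ hY hL hYM hLY hq0 hq'
  obtain ⟨a1, _⟩ := H d hd hda _ _ M hM S1 ℓ hℓ (by simp only [ln2_zero]; exact hY0)
  obtain ⟨b1, b2⟩ := H d hd hda _ _ M hM S2 ℓ hℓ (by simp only [ln2_zero]; exact hY0)
  simp only [ln2_zero, ln2_one] at a1 b1 b2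
  obtain ⟨T, hT⟩ : ∃ T : ℝ, T = K * (1 / d) ^ p * ℓ := ⟨_, rfl⟩
  rw [← hT] at a1 b1 b2
  have hid : 1 ≤ 1 / d := by rw [le_div_iff₀ hd]; linarith
  have hT1 : 1 ≤ T := by
    rw [hT]
    have : (1 : ℝ) ≤ (1 / d) ^ p := one_le_pow₀ hid
    calc (1 : ℝ) = 1 * 1 * 1 := by norm_num
      _ ≤ _ := by gcongr
  have e1 : 3 * K ^ 2 * (1 / d) ^ (2 * p) * ℓ ^ 2 = 3 * T ^ 2 := by
    rw [hT]; ring
  rw [e1]
  have h3 : ‖L q - L q'‖ ≤ ‖L q - L q0‖ + ‖L q' - L q0‖ := by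
    calc ‖L q - L q'‖ = ‖(L q - L q0) - (L q' - L q0)‖ := by congr 1; ring
      _ ≤ _ := norm_sub_le _ _
  have n1 := abs_nonneg (L q).re
  have n2 := abs_nonneg (L q0).re
  have n3 := abs_nonneg (L q').re
  have n4 := norm_nonneg (L q - L q0)
  have h4 : T * (1 + |(L q0).re|) ≤ T * (T * (1 + |(L q').re|)) :=
    mul_le_mul_of_nonneg_left b2 (by linarith)
  have h5 : 1 + |(L q).re| + ‖L q - L q'‖ ≤ 2 * (T * (1 + |(L q0).re|)) := by linarith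
  nlinarith

/-- **quotient on the window** -/
theorem quot2 {A a : ℝ} (hA : 1 ≤ A) (ha : 0 < a) (ha1 : a ≤ 1) :
    ∃ K : ℝ, 1 ≤ K ∧ ∃ p : ℕ, ∀ d : ℝ, 0 < d → d ≤ a → ∀ (e : ℝ × ℝ) (s ρ : ℝ), 0 < s →
      2 * A * s < ρ → ∀ Y L : ℂ × ℂ → ℂ, DifferentiableOn ℂ Y (PB e ρ) →
      DifferentiableOn ℂ L (PB e ρ) → ∀ M : ℝ, 0 < M →
      (∀ x ∈ DW e (2 * A) (d / 2) s, ‖Y x‖ ≤ M) →
      (∀ x ∈ DW e (2 * A) (d / 2) s, cexp (L x) = 1 → Y x = 0) →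
      ∀ ℓ : ℝ, 1 ≤ ℓ → ∀ q0 ∈ DW e A a s, M * Real.exp (-ℓ) ≤ ‖Y q0‖ →
      ∀ (F G : ℂ × ℂ → ℂ) (M' : ℝ), DifferentiableOn ℂ F (PB e ρ) →
        DifferentiableOn ℂ G (PB e ρ) → (∀ x ∈ DW e (2 * A) (d / 2) s, F x * Y x = G x) →
        (∀ x ∈ DW e (2 * A) (d / 2) s, ‖G x‖ ≤ M') →
      ∀ q ∈ DW e A d s, ‖F q‖ ≤ M' / M * Real.exp (K * (1 / d) ^ p * ℓ) := by
  have hA0 : 0 < A := by linarith
  obtain ⟨K, hK, p, H⟩ := seg_quot (δ0 := 1 / (4 * A)) (a := a) (by positivity)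
    (by rw [div_le_iff₀ (by positivity)]; linarith) ha ha1
  refine ⟨K, hK, p, ?_⟩
  intro d hd hda e s ρ hs hρ Y L hY hL M hM hYM hLY ℓ hℓ q0 hq0 hY0 F G M' hF hG hFG hM' q hq
  have S1 := seg_of hA hs hd hda ha1 hρ hY hL hYM hLY hq0 hq
  have hsub : DW e (2 * A) (d / 2) s ⊆ PB e ρ := DW_sub hs (by positivity) (by linarith)
  have ew : wd a d 1 = d := by unfold wd; ring
  have hmem : ∀ z ∈ ball (1 : ℂ) (1 / (4 * A) * d), ln2 q0 q z ∈ DW e (2 * A) (d / 2) s := by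
    intro z hz
    refine ln2_mem hA hs hd hda ha1 hq0 hq zero_le_one le_rfl ?_
    rw [ew, Complex.ofReal_one]; exact hz
  have h := H d hd hda _ _ M hM S1 ℓ hℓ (by simp only [ln2_zero]; exact hY0)
    (fun z => F (ln2 q0 q z)) (fun z => G (ln2 q0 q z)) M'
    (hF.comp (ln2_diff q0 q).differentiableOn (fun z hz => hsub (hmem z hz)))
    (hG.comp (ln2_diff q0 q).differentiableOn (fun z hz => hsub (hmem z hz)))
    (fun z hz => hFG _ (hmem z hz)) (fun z hz => hM' _ (hmem z hz))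
  simp only [ln2_one] at h
  exact h

end Crest.Agent.R102.Side669
end
end

-- ▼ part R102/SideE_864

/-!
Row 102, EDGE: `side_of_ed` (spare copy, helper864): the D-side bounds `N12.Side` on the objects,
from 669's two point estimate and quotient lemma.
-/

set_option autoImplicit false

open Set Filter Metric Complex Topology

noncomputable section

namespace Crest.Agent.R102.SideE864

open Crest.Agent.R102.Edge255
open Crest.Agent.R102.S5 (Half bl ray)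
open Crest.Agent.R102.Side426 (PB KA LA)
open Crest.Agent.R102.Side669 (DW)

/-! ### tame functions of the depth -/

/-- `f d ≤ exp (C d^{-κ})` on `(0,1]` -/
def Tame (κ : ℝ) (f : ℝ → ℝ) : Prop :=
  ∃ C : ℝ, 0 ≤ C ∧ ∀ d : ℝ, 0 < d → d ≤ 1 → f d ≤ Real.exp (C * d ^ (-κ))

lemma one_le_rp {κ d : ℝ} (hκ : 0 < κ) (hd : 0 < d) (hd1 : d ≤ 1) : 1 ≤ d ^ (-κ) :=
  Real.one_le_rpow_of_pos_of_le_one_of_nonpos hd hd1 (by linarith)

lemma Tame.mono {κ : ℝ} {f g : ℝ → ℝ} (hg : Tame κ g)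
    (h : ∀ d : ℝ, 0 < d → d ≤ 1 → f d ≤ g d) : Tame κ f := by
  obtain ⟨C, hC, h1⟩ := hg
  exact ⟨C, hC, fun d hd hd1 => (h d hd hd1).trans (h1 d hd hd1)⟩

lemma tame_const {κ : ℝ} (hκ : 0 < κ) (c : ℝ) : Tame κ (fun _ => c) := by
  refine ⟨|c|, abs_nonneg _, fun d hd hd1 => ?_⟩
  have h1 := one_le_rp hκ hd hd1
  have h2 : c + 1 ≤ Real.exp c := Real.add_one_le_exp c
  have h3 : Real.exp c ≤ Real.exp (|c| * d ^ (-κ)) := by
    refine Real.exp_le_exp.2 ((le_abs_self c).trans ?_)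
    nlinarith [abs_nonneg c]
  linarith

lemma Tame.mul {κ : ℝ} {f g : ℝ → ℝ} (hf : Tame κ f) (hg : Tame κ g)
    (h0 : ∀ d : ℝ, 0 < d → d ≤ 1 → 0 ≤ g d) : Tame κ (fun d => f d * g d) := by
  obtain ⟨C, hC, h1⟩ := hf
  obtain ⟨C', hC', h2⟩ := hg
  refine ⟨C + C', by positivity, fun d hd hd1 => ?_⟩
  rw [add_mul, Real.exp_add]
  exact mul_le_mul (h1 d hd hd1) (h2 d hd hd1) (h0 d hd hd1) (Real.exp_pos _).le

lemma Tame.add {κ : ℝ} (hκ : 0 < κ) {f g : ℝ → ℝ} (hf : Tame κ f) (hg : Tame κ g) :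
    Tame κ (fun d => f d + g d) := by
  obtain ⟨C, hC, h1⟩ := hf
  obtain ⟨C', hC', h2⟩ := hg
  refine ⟨C + C' + 1, by positivity, fun d hd hd1 => ?_⟩
  have hx := one_le_rp hκ hd hd1
  have a1 : Real.exp (C * d ^ (-κ)) ≤ Real.exp ((C + C') * d ^ (-κ)) := by
    refine Real.exp_le_exp.2 ?_
    nlinarith
  have a2 : Real.exp (C' * d ^ (-κ)) ≤ Real.exp ((C + C') * d ^ (-κ)) := by
    refine Real.exp_le_exp.2 ?_
    nlinarith
  have a3 : 2 * Real.exp ((C + C') * d ^ (-κ)) ≤ Real.exp ((C + C' + 1) * d ^ (-κ)) := by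
    have e1 : (C + C' + 1) * d ^ (-κ) = (C + C') * d ^ (-κ) + d ^ (-κ) := by ring
    rw [e1, Real.exp_add]
    have e2 : (2 : ℝ) ≤ Real.exp (d ^ (-κ)) := by
      have := Real.add_one_le_exp (d ^ (-κ))
      linarith
    have e3 := Real.exp_pos ((C + C') * d ^ (-κ))
    nlinarith
  have b1 := h1 d hd hd1
  have b2 := h2 d hd hd1
  linarith

lemma tame_inv_pow {κ : ℝ} (hκ : 0 < κ) (p : ℕ) : Tame κ (fun d => (1 / d) ^ p) := by
  refine ⟨p / κ, by positivity, fun d hd hd1 => ?_⟩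
  have h1 : Real.log (1 / d) ≤ (1 / d) ^ κ / κ := Real.log_le_rpow_div (by positivity) hκ
  have h2 : (1 / d : ℝ) ^ κ = d ^ (-κ) := by
    rw [one_div, Real.inv_rpow hd.le, ← Real.rpow_neg hd.le]
  rw [h2] at h1
  have h3 : (1 / d : ℝ) ^ p = Real.exp (p * Real.log (1 / d)) := by
    rw [← Real.log_pow, Real.exp_log (by positivity)]
  show (1 / d : ℝ) ^ p ≤ _
  rw [h3]
  refine Real.exp_le_exp.2 ?_
  have : (p : ℝ) * Real.log (1 / d) ≤ p * (d ^ (-κ) / κ) :=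
    mul_le_mul_of_nonneg_left h1 (Nat.cast_nonneg p)
  calc (p : ℝ) * Real.log (1 / d) ≤ p * (d ^ (-κ) / κ) := this
    _ = p / κ * d ^ (-κ) := by ring

lemma tame_log {κ : ℝ} (hκ : 0 < κ) : Tame κ (fun d => 1 + Real.log (1 / d)) := by
  refine (tame_inv_pow hκ 1).mono fun d hd hd1 => ?_
  have := Real.log_le_sub_one_of_pos (show 0 < 1 / d by positivity)
  simp only [pow_one]
  linarith

/-- the growth exponent -/
lemma rp_le {κ x c1 d : ℝ} (hκ : 2 * x ≤ κ) (hc1 : 0 < c1) (hd : 0 < d) (hd1 : d ≤ 1) :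
    (c1 * d ^ 2) ^ (-x) ≤ c1 ^ (-x) * d ^ (-κ) := by
  rw [Real.mul_rpow hc1.le (by positivity)]
  refine mul_le_mul_of_nonneg_left ?_ (Real.rpow_nonneg hc1.le _)
  rw [← Real.rpow_natCast, ← Real.rpow_mul hd.le]
  refine Real.rpow_le_rpow_of_exponent_ge hd hd1 ?_
  push_cast
  linarith

lemma tame_growth {κ x C c1 : ℝ} (hκ : 2 * x ≤ κ) (hC : 0 ≤ C) (hc1 : 0 < c1) :
    Tame κ (fun d => Real.exp (C * (c1 * d ^ 2) ^ (-x))) := by
  refine ⟨C * c1 ^ (-x), by positivity, fun d hd hd1 => Real.exp_le_exp.2 ?_⟩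
  rw [mul_assoc]
  exact mul_le_mul_of_nonneg_left (rp_le hκ hc1 hd hd1) hC

lemma tame_growth' {κ x C c1 : ℝ} (hκ : 2 * x ≤ κ) (hC : 0 ≤ C) (hc1 : 0 < c1) :
    Tame κ (fun d => C * (c1 * d ^ 2) ^ (-x)) := by
  refine (tame_growth hκ hC hc1).mono fun d hd hd1 => ?_
  have := Real.add_one_le_exp (C * (c1 * d ^ 2) ^ (-x))
  linarith

/-- change of scale of the depth -/
lemma Tame.scale {κ : ℝ} {f : ℝ → ℝ} (hf : Tame κ f) {r : ℝ} (hr : 0 < r) (hr1 : r ≤ 1) :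
    Tame κ (fun d => f (r * d)) := by
  obtain ⟨C, hC, h1⟩ := hf
  refine ⟨C * r ^ (-κ), by positivity, fun d hd hd1 => ?_⟩
  have h2 := h1 (r * d) (by positivity) (by nlinarith)
  rw [Real.mul_rpow hr.le hd.le, ← mul_assoc] at h2
  exact h2

/-! ### one window -/

/-- the objects near one window `(e, t)` with interior label -/
structure Loc (h κ A : ℝ) (ψ H : ℂ → ℂ) (φ p B : ℂ × ℂ → ℂ) (e : ℝ × ℝ) (t ρ : ℝ) : Prop where
  t_pos : 0 < t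
  le : 40 * A * t ≤ ρ
  φd : DifferentiableOn ℂ φ (PB e ρ)
  pd : DifferentiableOn ℂ p (PB e ρ)
  Bd : DifferentiableOn ℂ B (PB e ρ)
  Bim : ∀ q ∈ PB e ρ, |(B q).im| < h
  inc : ∀ q ∈ PB e ρ, F300.Inc ψ H (φ q) (p q) (B q)
  sin_ne : ∀ q ∈ PB e ρ, deriv ψ (B q) ≠ 0 → Complex.sin (φ q - ψ (B q)) ≠ 0
  intr : Intr h κ ψ B e t

/-- `log R₀` -/
def LL (ψ : ℂ → ℂ) (φ B : ℂ × ℂ → ℂ) (q : ℂ × ℂ) : ℂ := 2 * I * (ψ (B q) - φ q)

lemma LL_re (ψ : ℂ → ℂ) (φ B : ℂ × ℂ → ℂ) (q : ℂ × ℂ) :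
    (LL ψ φ B q).re = 2 * (φ q).im - 2 * (ψ (B q)).im := by
  unfold LL
  simp [Complex.mul_re, Complex.mul_im]
  ring

lemma log_R0 (ψ : ℂ → ℂ) (φ B : ℂ × ℂ → ℂ) (q : ℂ × ℂ) :
    Real.log ‖R0 ψ φ B q‖ = (LL ψ φ B q).re := by
  unfold R0 LL
  rw [Complex.norm_exp, Real.log_exp]

/-- the margin on the deep side -/
def c1 (κ A : ℝ) : ℝ := κ / (4 * KA (8 * A))

lemma c1_pos {κ A : ℝ} (hκ : 0 < κ) (hA : 1 ≤ A) : 0 < c1 κ A := by
  have := Side426.KA_pos (A := 8 * A) (by linarith)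
  unfold c1; positivity

section One

variable {h κ A : ℝ} {ψ H : ℂ → ℂ} {φ p B : ℂ × ℂ → ℂ} {e : ℝ × ℝ} {t ρ : ℝ}

lemma Loc.ρ_gt (l : Loc h κ A ψ H φ p B e t ρ) (hA : 1 ≤ A) : 8 * A * t < ρ := by
  have h1 := l.t_pos
  have h2 := l.le
  have : 0 < A * t := by positivity
  linarith

lemma Loc.DWsub (l : Loc h κ A ψ H φ p B e t ρ) (hA : 1 ≤ A) {d : ℝ} (hd : 0 < d) :
    DW e (8 * A) d t ⊆ PB e ρ :=
  Side669.DW_sub l.t_pos hd (l.ρ_gt hA)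

/-- the label on the deep side -/
lemma Loc.depth (l : Loc h κ A ψ H φ p B e t ρ) (hA : 1 ≤ A) {d : ℝ} (hκ : 0 < κ) (hd : 0 < d)
    {q : ℂ × ℂ} (hq : q ∈ DW e (8 * A) (d / 2) t) : |(B q).im| ≤ h - c1 κ A * d ^ 2 := by
  obtain ⟨h1, h2, h3, h4⟩ := hq
  have h5 : 5 * ((8 * A) * t) ≤ ρ := by have := l.le; linarith
  have := Side426.side_depth (A := 8 * A) (d := d / 2) (by linarith) l.t_pos h5 (by positivity)
    l.Bd (fun q hq => (l.Bim q hq).le) hκ.le l.intr.1 h1 h2 h3 h4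
  refine this.trans (le_of_eq ?_)
  unfold c1
  have := Side426.KA_pos (A := 8 * A) (by linarith)
  field_simp
  ring

lemma Loc.κ_lt (l : Loc h κ A ψ H φ p B e t ρ) : κ ≤ h := by
  have h1 := l.intr.1
  have h2 := abs_nonneg (B (ray e t)).im
  linarith

lemma c1_lt {h κ A d : ℝ} (hκ : 0 < κ) (hκh : κ ≤ h) (hA : 1 ≤ A) (hd : 0 < d) (hd1 : d ≤ 1) :
    c1 κ A * d ^ 2 < h := by
  have h0 : (1 : ℝ) ≤ KA (8 * A) := by
    unfold Side426.KA
    have : (1 : ℝ) ≤ (64 * (8 * A)) ^ 4 := one_le_pow₀ (by linarith)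
    linarith
  have h1 : c1 κ A ≤ κ / 4 := by
    unfold c1
    exact div_le_div_of_nonneg_left hκ.le (by norm_num) (by linarith)
  have h2 : d ^ 2 ≤ 1 := pow_le_one₀ hd.le hd1
  have h3 := c1_pos hκ hA
  nlinarith

lemma isOpen_Str' (h : ℝ) : IsOpen (T5.Str h) := by
  have : T5.Str h = (fun z : ℂ => |z.im|) ⁻¹' Iio h := by
    ext z; rfl
  rw [this]
  exact isOpen_Iio.preimage (by fun_prop)

lemma Loc.mem (l : Loc h κ A ψ H φ p B e t ρ) {q : ℂ × ℂ} (hq : q ∈ PB e ρ) :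
    B q ∈ T5.Str h := l.Bim q hq

lemma Loc.Yd (l : Loc h κ A ψ H φ p B e t ρ) (hc : Curve h ψ H) :
    DifferentiableOn ℂ (fun q => deriv ψ (B q)) (PB e ρ) :=
  (hc.ψ_diff.deriv (isOpen_Str' h)).comp l.Bd fun _ hq => l.mem hq

lemma Loc.ψd (l : Loc h κ A ψ H φ p B e t ρ) (hc : Curve h ψ H) :
    DifferentiableOn ℂ (fun q => ψ (B q)) (PB e ρ) :=
  hc.ψ_diff.comp l.Bd fun _ hq => l.mem hq

lemma Loc.Ld (l : Loc h κ A ψ H φ p B e t ρ) (hc : Curve h ψ H) :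
    DifferentiableOn ℂ (LL ψ φ B) (PB e ρ) :=
  ((l.ψd hc).sub l.φd).const_mul _

lemma Loc.LY (l : Loc h κ A ψ H φ p B e t ρ) {q : ℂ × ℂ} (hq : q ∈ PB e ρ)
    (h1 : cexp (LL ψ φ B q) = 1) : deriv ψ (B q) = 0 := by
  by_contra hne
  refine l.sin_ne q hq hne ?_
  unfold LL at h1
  rw [Complex.exp_eq_one_iff] at h1
  obtain ⟨n, hn⟩ := h1
  have h2 : ψ (B q) - φ q = n * Real.pi := by
    have h2I : (2 : ℂ) * I ≠ 0 := by simp
    apply mul_left_cancel₀ h2I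
    rw [hn]; ring
  have h3 : φ q - ψ (B q) = ((-n : ℤ) : ℂ) * Real.pi := by
    push_cast
    linear_combination -h2
  rw [h3]
  exact Complex.sin_int_mul_pi _

/-- growth constants of the curve -/
structure Gr (h : ℝ) (ψ H : ℂ → ℂ) (x Cy Cg : ℝ) : Prop where
  x_pos : 0 < x
  x_le : x ≤ 1
  Cy_pos : 0 ≤ Cy
  Cg_pos : 0 ≤ Cg
  gy : ∀ d : ℝ, 0 < d → d < h → ∀ z : ℂ, |z.im| ≤ h - d →
    Real.log (1 + ‖deriv ψ z‖) ≤ Cy * d ^ (-x)
  gψ : ∀ d : ℝ, 0 < d → d < h → ∀ z : ℂ, |z.im| ≤ h - d →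
    ‖ψ z - 2 * Real.pi * z‖ ≤ Real.exp (Cg * d ^ (-x))
  gH : ∀ d : ℝ, 0 < d → d < h → ∀ z : ℂ, |z.im| ≤ h - d →
    Real.log (1 + ‖H z‖ + ‖deriv H z‖ + ‖deriv (deriv H) z‖) ≤ Real.exp (Cg * d ^ (-x))

lemma gr_of (hc : Curve h ψ H) {κ' : ℝ} (hκ' : 0 < κ') :
    ∃ x Cy Cg : ℝ, 2 * x ≤ κ' ∧ Gr h ψ H x Cy Cg := by
  obtain ⟨k, hk⟩ := exists_nat_gt (2 / κ')
  obtain ⟨Cy, hCy, h1⟩ := hc.grow_y k
  obtain ⟨Cg, hCg, h2⟩ := hc.grow k
  have hk1 : (0 : ℝ) < (k : ℝ) + 1 := by positivity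
  refine ⟨1 / ((k : ℝ) + 1), Cy, Cg, ?_, ⟨by positivity, ?_, hCy.le, hCg.le, h1,
    fun d a b z c => (h2 d a b z c).1, fun d a b z c => (h2 d a b z c).2.1⟩⟩
  · rw [mul_one_div, div_le_iff₀ hk1]
    rw [div_lt_iff₀ hκ'] at hk
    nlinarith
  · rw [div_le_one hk1]
    linarith [(Nat.cast_nonneg k : (0 : ℝ) ≤ k)]

/-- the growth exponent of `y` on the deep side -/
def gyf (κ A x Cy d : ℝ) : ℝ := Cy * (c1 κ A * d ^ 2) ^ (-x)

/-- the growth function of the curve on the deep side -/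
def Gf (κ A x Cg d : ℝ) : ℝ := Real.exp (Cg * (c1 κ A * d ^ 2) ^ (-x))

def ellf (κ A x Cy d : ℝ) : ℝ := 1 + gyf κ A x Cy d + |Real.log κ|

lemma gyf_nonneg {x Cy Cg d : ℝ} (hG : Gr h ψ H x Cy Cg) (hκ : 0 < κ) (hA : 1 ≤ A) (hd : 0 < d) :
    0 ≤ gyf κ A x Cy d := by
  have := c1_pos hκ hA
  have := hG.Cy_pos
  unfold gyf; positivity

lemma Loc.y_le (l : Loc h κ A ψ H φ p B e t ρ) {x Cy Cg : ℝ} (hG : Gr h ψ H x Cy Cg)
    (hκ : 0 < κ) (hA : 1 ≤ A) {d : ℝ} (hd : 0 < d) (hd1 : d ≤ 1) {q : ℂ × ℂ}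
    (hq : q ∈ DW e (8 * A) (d / 2) t) :
    ‖deriv ψ (B q)‖ ≤ Real.exp (gyf κ A x Cy d) := by
  have h1 := hG.gy (c1 κ A * d ^ 2) (by have := c1_pos hκ hA; positivity)
    (c1_lt hκ l.κ_lt hA hd hd1) (B q) (l.depth hA hκ hd hq)
  have h2 : 1 + ‖deriv ψ (B q)‖ ≤ Real.exp (gyf κ A x Cy d) := by
    rw [← Real.log_le_iff_le_exp (by positivity)]
    exact h1
  linarith

lemma Loc.ψ_le (l : Loc h κ A ψ H φ p B e t ρ) {x Cy Cg : ℝ} (hG : Gr h ψ H x Cy Cg)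
    (hκ : 0 < κ) (hA : 1 ≤ A) {d : ℝ} (hd : 0 < d) (hd1 : d ≤ 1) {q : ℂ × ℂ}
    (hq : q ∈ DW e (8 * A) (d / 2) t) :
    ‖ψ (B q) - 2 * Real.pi * B q‖ ≤ Gf κ A x Cg d :=
  hG.gψ (c1 κ A * d ^ 2) (by have := c1_pos hκ hA; positivity)
    (c1_lt hκ l.κ_lt hA hd hd1) (B q) (l.depth hA hκ hd hq)

lemma Loc.H_le (l : Loc h κ A ψ H φ p B e t ρ) {x Cy Cg : ℝ} (hG : Gr h ψ H x Cy Cg)
    (hκ : 0 < κ) (hA : 1 ≤ A) {d : ℝ} (hd : 0 < d) (hd1 : d ≤ 1) {q : ℂ × ℂ}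
    (hq : q ∈ DW e (8 * A) (d / 2) t) :
    ‖H (B q)‖ ≤ Real.exp (Gf κ A x Cg d) ∧ ‖deriv H (B q)‖ ≤ Real.exp (Gf κ A x Cg d) := by
  have h1 := hG.gH (c1 κ A * d ^ 2) (by have := c1_pos hκ hA; positivity)
    (c1_lt hκ l.κ_lt hA hd hd1) (B q) (l.depth hA hκ hd hq)
  have h2 : 1 + ‖H (B q)‖ + ‖deriv H (B q)‖ + ‖deriv (deriv H) (B q)‖ ≤
      Real.exp (Gf κ A x Cg d) := by
    rw [← Real.log_le_iff_le_exp (by positivity)]
    exact h1
  have := norm_nonneg (H (B q))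
  have := norm_nonneg (deriv H (B q))
  have := norm_nonneg (deriv (deriv H) (B q))
  constructor <;> linarith

lemma Loc.imψ (l : Loc h κ A ψ H φ p B e t ρ) {x Cy Cg : ℝ} (hG : Gr h ψ H x Cy Cg)
    (hκ : 0 < κ) (hA : 1 ≤ A) {d : ℝ} (hd : 0 < d) (hd1 : d ≤ 1) {q : ℂ × ℂ}
    (hq : q ∈ DW e (8 * A) (d / 2) t) :
    |(ψ (B q)).im| ≤ 2 * Real.pi * h + Gf κ A x Cg d := by
  have h1 := l.ψ_le hG hκ hA hd hd1 hq
  have h2 : (ψ (B q)).im = (ψ (B q) - 2 * Real.pi * B q).im + 2 * Real.pi * (B q).im := by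
    simp [Complex.mul_im]
  have h3 : |(B q).im| < h := l.Bim q (l.DWsub hA (by positivity) hq)
  rw [h2]
  refine (abs_add_le _ _).trans ?_
  rw [abs_mul, abs_of_pos (show (0 : ℝ) < 2 * Real.pi by positivity)]
  have h4 := (Complex.abs_im_le_norm (ψ (B q) - 2 * Real.pi * B q)).trans h1
  have h5 : 2 * Real.pi * |(B q).im| ≤ 2 * Real.pi * h :=
    mul_le_mul_of_nonneg_left h3.le (by positivity)
  linarith

/-- the point of non degeneracy -/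
lemma Loc.q0 (l : Loc h κ A ψ H φ p B e t ρ) (hA : 1 ≤ A) :
    ∃ q0 ∈ DW e (2 * A) (1 / 10) t, κ ≤ ‖deriv ψ (B q0)‖ := by
  obtain ⟨-, q, hq, hκ⟩ := l.intr
  have ht := l.t_pos
  refine ⟨bl e t q, ?_, hκ⟩
  rw [mem_closedBall, dist_eq_norm] at hq
  have a1 : ‖q.1 - (-I)‖ ≤ 1 / 10 := (norm_fst_le _).trans hq
  have a2 : ‖q.2 - I / 4‖ ≤ 1 / 10 := (norm_snd_le _).trans hq
  have b1 : ‖q.1‖ ≤ 2 := by
    have : q.1 = (q.1 - (-I)) + (-I) := by ring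
    rw [this]
    refine (norm_add_le _ _).trans ?_
    rw [norm_neg, norm_I]; linarith
  have b2 : ‖q.2‖ ≤ 2 := by
    have : q.2 = (q.2 - I / 4) + I / 4 := by ring
    rw [this]
    refine (norm_add_le _ _).trans ?_
    rw [norm_div, norm_I]; norm_num; linarith
  have c1' : q.1.im ≤ -(9 / 10) := by
    have := (abs_le.1 ((Complex.abs_im_le_norm (q.1 - (-I))).trans a1)).2
    simp at this; linarith
  have c2' : 3 / 20 ≤ q.2.im := by
    have := (abs_le.1 ((Complex.abs_im_le_norm (q.2 - I / 4)).trans a2)).1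
    have e1 : (q.2 - I / 4).im = q.2.im - 1 / 4 := by
      simp
    rw [e1] at this; linarith
  refine ⟨?_, ?_, ?_, ?_⟩
  · rw [NormP864.bl_fst, norm_mul, Complex.norm_real, Real.norm_of_nonneg ht.le, mul_comm]
    nlinarith
  · rw [NormP864.bl_snd, norm_mul, Complex.norm_real, Real.norm_of_nonneg ht.le, mul_comm]
    nlinarith
  · rw [NormP864.bl_fst_im]; nlinarith
  · rw [NormP864.bl_snd_im]; nlinarith

lemma ray_DW {e : ℝ × ℝ} {A t t' : ℝ} (hA : 1 ≤ A) (ht : 0 < t) (htt : t ≤ t') :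
    ray e t ∈ DW e A (t / t' / 10) t' := by
  have ht' : 0 < t' := by linarith
  have e1 : t / t' / 10 * t' = t / 10 := by field_simp
  refine ⟨?_, ?_, ?_, ?_⟩
  · rw [Side426.ray_fst, norm_mul, norm_I, mul_one, Complex.norm_real, Real.norm_eq_abs, abs_neg,
      abs_of_pos ht]
    nlinarith
  · rw [Side426.ray_snd, norm_mul, norm_I, mul_one, Complex.norm_real, Real.norm_eq_abs,
      abs_of_pos (by positivity)]
    nlinarith
  · rw [e1, Side426.ray_fst_im]; linarith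
  · rw [e1, Side426.ray_snd_im]; linarith

lemma ell_ok {κ M g : ℝ} (hκ : 0 < κ) (hM : M = Real.exp g) :
    M * Real.exp (-(1 + g + |Real.log κ|)) ≤ κ := by
  rw [hM, ← Real.exp_add, ← Real.le_log_iff_exp_le hκ]
  have := neg_abs_le (Real.log κ)
  linarith

/-! ### the two point estimate and the quotient lemma at one window -/

/-- 669's `two_pt` with `a = 1/10` -/
def TwoS (A K : ℝ) (p : ℕ) : Prop :=
  ∀ d : ℝ, 0 < d → d ≤ 1 / 10 → ∀ (e : ℝ × ℝ) (s ρ : ℝ), 0 < s →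
      2 * A * s < ρ → ∀ Y L : ℂ × ℂ → ℂ, DifferentiableOn ℂ Y (PB e ρ) →
      DifferentiableOn ℂ L (PB e ρ) → ∀ M : ℝ, 0 < M →
      (∀ x ∈ DW e (2 * A) (d / 2) s, ‖Y x‖ ≤ M) →
      (∀ x ∈ DW e (2 * A) (d / 2) s, cexp (L x) = 1 → Y x = 0) →
      ∀ ℓ : ℝ, 1 ≤ ℓ → ∀ q0 ∈ DW e A (1 / 10) s, M * Real.exp (-ℓ) ≤ ‖Y q0‖ →
      ∀ q ∈ DW e A d s, ∀ q' ∈ DW e A d s,
        1 + |(L q).re| + ‖L q - L q'‖ ≤ K * (1 / d) ^ p * ℓ ^ 2 * (1 + |(L q').re|)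

/-- 669's `quot2` with `a = 1/10` -/
def QuoS (A K : ℝ) (p : ℕ) : Prop :=
  ∀ d : ℝ, 0 < d → d ≤ 1 / 10 → ∀ (e : ℝ × ℝ) (s ρ : ℝ), 0 < s →
      2 * A * s < ρ → ∀ Y L : ℂ × ℂ → ℂ, DifferentiableOn ℂ Y (PB e ρ) →
      DifferentiableOn ℂ L (PB e ρ) → ∀ M : ℝ, 0 < M →
      (∀ x ∈ DW e (2 * A) (d / 2) s, ‖Y x‖ ≤ M) →
      (∀ x ∈ DW e (2 * A) (d / 2) s, cexp (L x) = 1 → Y x = 0) →
      ∀ ℓ : ℝ, 1 ≤ ℓ → ∀ q0 ∈ DW e A (1 / 10) s, M * Real.exp (-ℓ) ≤ ‖Y q0‖ →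
      ∀ (F G : ℂ × ℂ → ℂ) (M' : ℝ), DifferentiableOn ℂ F (PB e ρ) →
        DifferentiableOn ℂ G (PB e ρ) → (∀ x ∈ DW e (2 * A) (d / 2) s, F x * Y x = G x) →
        (∀ x ∈ DW e (2 * A) (d / 2) s, ‖G x‖ ≤ M') →
      ∀ q ∈ DW e A d s, ‖F q‖ ≤ M' / M * Real.exp (K * (1 / d) ^ p * ℓ)

/-- the constant of the two point estimate -/
def T1f (κ A x Cy K : ℝ) (p : ℕ) (d : ℝ) : ℝ := K * (1 / d) ^ p * (ellf κ A x Cy d) ^ 2

lemma ellf_ge {x Cy Cg d : ℝ} (hG : Gr h ψ H x Cy Cg) (hκ : 0 < κ) (hA : 1 ≤ A) (hd : 0 < d) :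
    1 ≤ ellf κ A x Cy d := by
  have := gyf_nonneg hG hκ hA hd
  unfold ellf
  linarith [abs_nonneg (Real.log κ)]

lemma T1f_nonneg {x Cy K d : ℝ} {n : ℕ} (hK : 1 ≤ K) (hd : 0 < d) : 0 ≤ T1f κ A x Cy K n d := by
  unfold T1f; positivity

lemma Loc.two (l : Loc h κ A ψ H φ p B e t ρ) (hc : Curve h ψ H) {x Cy Cg : ℝ}
    (hG : Gr h ψ H x Cy Cg) (hκ : 0 < κ) (hA : 1 ≤ A) {K : ℝ} {n : ℕ} (hT : TwoS (4 * A) K n)
    {d : ℝ} (hd : 0 < d) (hd1 : d ≤ 1 / 10) {q q' : ℂ × ℂ} (hq : q ∈ DW e (4 * A) d t)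
    (hq' : q' ∈ DW e (4 * A) d t) :
    1 + |(LL ψ φ B q).re| + ‖LL ψ φ B q - LL ψ φ B q'‖ ≤
      T1f κ A x Cy K n d * (1 + |(LL ψ φ B q').re|) := by
  obtain ⟨q0, hq0, hq0κ⟩ := l.q0 hA
  have e8 : 2 * (4 * A) = 8 * A := by ring
  have hd2 : 0 < d / 2 := by positivity
  refine hT d hd hd1 e t ρ l.t_pos (by rw [e8]; exact l.ρ_gt hA) (fun q => deriv ψ (B q))
    (LL ψ φ B) (l.Yd hc) (l.Ld hc) (Real.exp (gyf κ A x Cy d)) (Real.exp_pos _) ?_ ?_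
    (ellf κ A x Cy d) (ellf_ge hG hκ hA hd) q0
    (Side669.DW_mono l.t_pos (by linarith) le_rfl hq0) ?_ q hq q' hq'
  · intro y hy
    rw [e8] at hy
    exact l.y_le hG hκ hA hd (by linarith) hy
  · intro y hy h1
    rw [e8] at hy
    exact l.LY (l.DWsub hA hd2 hy) h1
  · exact (ell_ok hκ rfl).trans hq0κ

lemma ray_DW1 {e : ℝ × ℝ} {A t : ℝ} (hA : 1 ≤ A) (ht : 0 < t) : ray e t ∈ DW e A (1 / 10) t := by
  have := ray_DW (e := e) hA ht le_rfl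
  rwa [div_self ht.ne'] at this

/-- the wrong sign is bounded -/
lemma Loc.sign (l : Loc h κ A ψ H φ p B e t ρ) (hc : Curve h ψ H) {x Cy Cg : ℝ}
    (hG : Gr h ψ H x Cy Cg) (hκ : 0 < κ) (hA : 1 ≤ A) {K : ℝ} {n : ℕ} (hK : 1 ≤ K)
    (hT : TwoS (4 * A) K n) {d : ℝ} (hd : 0 < d) (hd1 : d ≤ 1 / 10) {σ : ℝ}
    (hσ : σ = 1 ∨ σ = -1) (h0 : 0 ≤ σ * (LL ψ φ B (ray e t)).re) {q : ℂ × ℂ}
    (hq : q ∈ DW e (4 * A) d t) : -T1f κ A x Cy K n d ≤ σ * (LL ψ φ B q).re := by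
  have hT0 : 0 ≤ T1f κ A x Cy K n d := T1f_nonneg hK hd
  rcases le_or_gt 0 (σ * (LL ψ φ B q).re) with h1 | h1
  · linarith
  have hr : ray e t ∈ DW e (4 * A) d t :=
    Side669.DW_mono l.t_pos (by linarith) hd1 (ray_DW1 hA l.t_pos)
  have hsub : DW e (4 * A) d t ⊆ PB e ρ :=
    (Side669.DW_mono l.t_pos (by linarith) le_rfl).trans (l.DWsub hA hd)
  have hcont : ContinuousOn (fun q => σ * (LL ψ φ B q).re) (DW e (4 * A) d t) :=
    (Complex.continuous_re.comp_continuousOn ((l.Ld hc).continuousOn.mono hsub)).const_smul σ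
  obtain ⟨q', hq', h2⟩ := (Side669.DW_convex (e := e) (A := 4 * A) (d := d)
    (s := t)).isPreconnected.intermediate_value hq hr hcont ⟨h1.le, h0⟩
  have h3 : (LL ψ φ B q').re = 0 := by
    have h4 : σ * (LL ψ φ B q').re = 0 := h2
    rcases hσ with rfl | rfl
    · simpa using h4
    · simpa using h4
  have h5 := l.two hc hG hκ hA hT hd hd1 hq hq'
  rw [h3, abs_zero, add_zero, mul_one] at h5
  have h6 : |(LL ψ φ B q).re| ≤ T1f κ A x Cy K n d := by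
    have := norm_nonneg (LL ψ φ B q - LL ψ φ B q'); linarith
  have h7 : |σ * (LL ψ φ B q).re| = |(LL ψ φ B q).re| := by
    rw [abs_mul]
    rcases hσ with rfl | rfl <;> simp
  have h8 := neg_abs_le (σ * (LL ψ φ B q).re)
  linarith

/-- the lower bound of the signed height -/
lemma Loc.height (l : Loc h κ A ψ H φ p B e t ρ) (hc : Curve h ψ H) {x Cy Cg : ℝ}
    (hG : Gr h ψ H x Cy Cg) (hκ : 0 < κ) (hA : 1 ≤ A) {K : ℝ} {n : ℕ} (hK : 1 ≤ K)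
    (hT : TwoS (4 * A) K n) {d : ℝ} (hd : 0 < d) (hd1 : d ≤ 1 / 10) {σ : ℝ}
    (hσ : σ = 1 ∨ σ = -1) (h0 : 0 ≤ σ * (LL ψ φ B (ray e t)).re) {q : ℂ × ℂ}
    (hq : q ∈ DW e (4 * A) d t) :
    -(2 * Real.pi * h + Gf κ A x Cg d + T1f κ A x Cy K n d) ≤ σ * (φ q).im := by
  have h1 := l.sign hc hG hκ hA hK hT hd hd1 hσ h0 hq
  have h2 := l.imψ hG hκ hA hd (by linarith)
    (Side669.DW_mono l.t_pos (by linarith) (by linarith) hq : q ∈ DW e (8 * A) (d / 2) t)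
  have hT0 : 0 ≤ T1f κ A x Cy K n d := T1f_nonneg hK hd
  rw [LL_re] at h1
  have h3 : |σ * (ψ (B q)).im| = |(ψ (B q)).im| := by
    rw [abs_mul]
    rcases hσ with rfl | rfl <;> simp
  have h4 := neg_abs_le (σ * (ψ (B q)).im)
  nlinarith

/-- the angle on the deep side -/
lemma Loc.angle (l : Loc h κ A ψ H φ p B e t ρ) (hc : Curve h ψ H) {x Cy Cg : ℝ}
    (hG : Gr h ψ H x Cy Cg) (hκ : 0 < κ) (hA : 1 ≤ A) {K : ℝ} {n : ℕ} (hK : 1 ≤ K)
    (hT : TwoS (4 * A) K n) {d : ℝ} (hd : 0 < d) (hd1 : d ≤ 1 / 10) {q : ℂ × ℂ}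
    (hq : q ∈ DW e A d t) :
    ‖φ q - ((φ (ray e t)).re : ℂ)‖ ≤
      (3 * Gf κ A x Cg d + 2 * Real.pi * (LA A * h * (1 + Real.log (1 / d))) +
        T1f κ A x Cy K n d + 2 * Real.pi * h + 1) * (1 + |(LL ψ φ B (ray e t)).re|) := by
  have ht := l.t_pos
  have hr : ray e t ∈ DW e A d t := Side669.DW_mono ht le_rfl hd1 (ray_DW1 hA ht)
  have hq4 : q ∈ DW e (4 * A) d t := Side669.DW_mono ht (by linarith) le_rfl hq
  have hr4 : ray e t ∈ DW e (4 * A) d t := Side669.DW_mono ht (by linarith) le_rfl hr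
  have hq8 : q ∈ DW e (8 * A) (d / 2) t := Side669.DW_mono ht (by linarith) (by linarith) hq
  have hr8 : ray e t ∈ DW e (8 * A) (d / 2) t := Side669.DW_mono ht (by linarith) (by linarith) hr
  have a1 := l.two hc hG hκ hA hT hd hd1 hq4 hr4
  have a2 := l.ψ_le hG hκ hA hd (by linarith) hq8
  have a3 := l.ψ_le hG hκ hA hd (by linarith) hr8
  have a4 := l.imψ hG hκ hA hd (by linarith) hr8
  have hh : 0 < h := hc.h_pos
  have h5 : 5 * (A * t) ≤ ρ := by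
    have := l.le
    have : 0 < A * t := by positivity
    linarith
  have a5 := Side426.side_dist (B := B) hA ht h5 hd (by linarith) hh l.Bd l.Bim hq.1 hq.2.1
    hq.2.2.1 hq.2.2.2
  set Lm := LL ψ φ B (ray e t) with hLm
  set lam := |Lm.re| with hlam
  have hlam0 : 0 ≤ lam := abs_nonneg _
  -- decomposition
  have e0 : ∀ y : ℂ × ℂ, φ y = ψ (B y) + I / 2 * LL ψ φ B y := by
    intro y
    unfold LL
    have hI : I * I = -1 := I_mul_I
    linear_combination (-(ψ (B y)) + φ y) * hI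
  have e1 : φ q - ((φ (ray e t)).re : ℂ) = (ψ (B q) - 2 * Real.pi * B q) +
      2 * Real.pi * (B q - B (ray e t)) - (ψ (B (ray e t)) - 2 * Real.pi * B (ray e t)) +
      I / 2 * (LL ψ φ B q - Lm) + ((φ (ray e t)).im : ℂ) * I := by
    have e2 := e0 q
    have e3 := e0 (ray e t)
    have e4 : ((φ (ray e t)).re : ℂ) = φ (ray e t) - ((φ (ray e t)).im : ℂ) * I := by
      have := Complex.re_add_im (φ (ray e t))
      linear_combination this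
    rw [e4]
    linear_combination e2 - e3
  have e5 : |(φ (ray e t)).im| ≤ 2 * Real.pi * h + Gf κ A x Cg d + lam / 2 := by
    have e6 : (φ (ray e t)).im = (ψ (B (ray e t))).im + Lm.re / 2 := by
      rw [hLm, LL_re]; ring
    rw [e6]
    refine (abs_add_le _ _).trans ?_
    rw [abs_div, abs_two]
    linarith
  rw [e1]
  have n1 : ‖(2 * Real.pi : ℂ) * (B q - B (ray e t))‖ ≤
      2 * Real.pi * (LA A * h * (1 + Real.log (1 / d))) := by
    have e7 : (2 * Real.pi : ℂ) = ((2 * Real.pi : ℝ) : ℂ) := by push_cast; ring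
    rw [e7, norm_mul, Complex.norm_real, Real.norm_of_nonneg (by positivity)]
    exact mul_le_mul_of_nonneg_left a5 (by positivity)
  have n2 : ‖I / 2 * (LL ψ φ B q - Lm)‖ ≤ T1f κ A x Cy K n d * (1 + lam) := by
    rw [norm_mul, norm_div, norm_I]
    have := norm_nonneg (LL ψ φ B q - Lm)
    have := abs_nonneg (LL ψ φ B q).re
    have e8 : ‖(2 : ℂ)‖ = 2 := by simp
    rw [e8]
    linarith
  have n3 : ‖((φ (ray e t)).im : ℂ) * I‖ ≤ 2 * Real.pi * h + Gf κ A x Cg d + lam / 2 := by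
    rw [norm_mul, norm_I, mul_one, Complex.norm_real]
    exact e5
  have n4 : 0 ≤ 2 * Real.pi * (LA A * h * (1 + Real.log (1 / d))) := (norm_nonneg _).trans n1
  have n5 : 0 < Gf κ A x Cg d := Real.exp_pos _
  have hT0 : 0 ≤ T1f κ A x Cy K n d := T1f_nonneg hK hd
  have n6 : 0 < 2 * Real.pi * h := by positivity
  calc ‖(ψ (B q) - 2 * Real.pi * B q) + 2 * Real.pi * (B q - B (ray e t)) -
      (ψ (B (ray e t)) - 2 * Real.pi * B (ray e t)) + I / 2 * (LL ψ φ B q - Lm) +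
      ((φ (ray e t)).im : ℂ) * I‖
      ≤ Gf κ A x Cg d + 2 * Real.pi * (LA A * h * (1 + Real.log (1 / d))) + Gf κ A x Cg d +
        T1f κ A x Cy K n d * (1 + lam) + (2 * Real.pi * h + Gf κ A x Cg d + lam / 2) := by
        refine (norm_add_le _ _).trans (add_le_add ?_ n3)
        refine (norm_add_le _ _).trans (add_le_add ?_ n2)
        refine (norm_sub_le _ _).trans (add_le_add ?_ a3)
        exact (norm_add_le _ _).trans (add_le_add a2 n1)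
    _ ≤ _ := by nlinarith

/-- `‖y p e^{iσφ}‖` -/
lemma yp_bound {ψ H : ℂ → ℂ} {φ p b : ℂ} {σ Ψ S P Q : ℝ} (hσ : σ = 1 ∨ σ = -1)
    (hInc : F300.Inc ψ H φ p b) (hψ : |(ψ b).im| ≤ Ψ) (hS : -S ≤ σ * φ.im) (hS0 : 0 ≤ S)
    (hH : ‖H b‖ ≤ Real.exp P) (hH' : ‖deriv H b‖ ≤ Real.exp P)
    (hY : ‖deriv ψ b‖ ≤ Real.exp Q) (hQ : 0 ≤ Q) :
    ‖p * cexp (σ * I * φ) * deriv ψ b‖ ≤ Real.exp (Q + 1 + P + (2 * S + Ψ)) := by
  have hψ1 := abs_le.1 hψ
  have nE : ‖cexp (I * (φ - ψ b)) * cexp (σ * I * φ)‖ ≤ Real.exp (2 * S + Ψ) := by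
    rw [← Complex.exp_add, Complex.norm_exp]
    refine Real.exp_le_exp.2 ?_
    have : (I * (φ - ψ b) + σ * I * φ).re = -((φ.im - (ψ b).im) + σ * φ.im) := by
      simp [Complex.mul_re, Complex.mul_im]; ring
    rw [this]
    rcases hσ with rfl | rfl <;> linarith
  have nE' : ‖cexp (-(I * (φ - ψ b))) * cexp (σ * I * φ)‖ ≤ Real.exp (2 * S + Ψ) := by
    rw [← Complex.exp_add, Complex.norm_exp]
    refine Real.exp_le_exp.2 ?_
    have : (-(I * (φ - ψ b)) + σ * I * φ).re = (φ.im - (ψ b).im) - σ * φ.im := by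
      simp [Complex.mul_re, Complex.mul_im]; ring
    rw [this]
    rcases hσ with rfl | rfl <;> linarith
  have hcos : ‖Complex.cos (φ - ψ b) * cexp (σ * I * φ)‖ ≤ Real.exp (2 * S + Ψ) := by
    have e1 : Complex.cos (φ - ψ b) * cexp (σ * I * φ) =
        (cexp (I * (φ - ψ b)) * cexp (σ * I * φ) +
          cexp (-(I * (φ - ψ b))) * cexp (σ * I * φ)) / 2 := by
      unfold Complex.cos
      rw [show (φ - ψ b) * I = I * (φ - ψ b) by ring,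
        show -(φ - ψ b) * I = -(I * (φ - ψ b)) by ring]
      ring
    rw [e1, norm_div]
    have e2 := norm_add_le (cexp (I * (φ - ψ b)) * cexp (σ * I * φ))
      (cexp (-(I * (φ - ψ b))) * cexp (σ * I * φ))
    have e8 : ‖(2 : ℂ)‖ = 2 := by simp
    rw [e8]; linarith
  have hsin : ‖Complex.sin (φ - ψ b) * cexp (σ * I * φ)‖ ≤ Real.exp (2 * S + Ψ) := by
    have e1 : Complex.sin (φ - ψ b) * cexp (σ * I * φ) =
        (cexp (-(I * (φ - ψ b))) * cexp (σ * I * φ) -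
          cexp (I * (φ - ψ b)) * cexp (σ * I * φ)) * (I / 2) := by
      unfold Complex.sin
      rw [show (φ - ψ b) * I = I * (φ - ψ b) by ring,
        show -(φ - ψ b) * I = -(I * (φ - ψ b)) by ring]
      ring
    rw [e1, norm_mul, norm_div, norm_I]
    have e2 := norm_sub_le (cexp (-(I * (φ - ψ b))) * cexp (σ * I * φ))
      (cexp (I * (φ - ψ b)) * cexp (σ * I * φ))
    have e8 : ‖(2 : ℂ)‖ = 2 := by simp
    rw [e8]; linarith
  have e3 : p * cexp (σ * I * φ) * deriv ψ b =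
      deriv ψ b * H b * (Complex.cos (φ - ψ b) * cexp (σ * I * φ)) +
        deriv H b * (Complex.sin (φ - ψ b) * cexp (σ * I * φ)) := by
    have : deriv ψ b * p = deriv ψ b * H b * Complex.cos (φ - ψ b) +
      deriv H b * Complex.sin (φ - ψ b) := hInc
    linear_combination cexp (σ * I * φ) * this
  rw [e3]
  refine (norm_add_le _ _).trans ?_
  rw [norm_mul, norm_mul, norm_mul (deriv H b)]
  have f1 : ‖deriv ψ b‖ * ‖H b‖ * ‖Complex.cos (φ - ψ b) * cexp (σ * I * φ)‖ ≤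
      Real.exp Q * Real.exp P * Real.exp (2 * S + Ψ) := by
    gcongr
  have f2 : ‖deriv H b‖ * ‖Complex.sin (φ - ψ b) * cexp (σ * I * φ)‖ ≤
      1 * Real.exp P * Real.exp (2 * S + Ψ) := by
    rw [one_mul]; gcongr
  have f3 : Real.exp Q + 1 ≤ Real.exp (Q + 1) := by
    rw [Real.exp_add]
    have g1 : 1 ≤ Real.exp Q := Real.one_le_exp hQ
    have g2 : (2 : ℝ) ≤ Real.exp 1 := by have := Real.add_one_le_exp (1 : ℝ); linarith
    nlinarith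
  calc _ ≤ Real.exp Q * Real.exp P * Real.exp (2 * S + Ψ) +
        1 * Real.exp P * Real.exp (2 * S + Ψ) := add_le_add f1 f2
    _ = (Real.exp Q + 1) * (Real.exp P * Real.exp (2 * S + Ψ)) := by ring
    _ ≤ Real.exp (Q + 1) * (Real.exp P * Real.exp (2 * S + Ψ)) :=
        mul_le_mul_of_nonneg_right f3 (by positivity)
    _ = Real.exp (Q + 1 + P + (2 * S + Ψ)) := by
        rw [← Real.exp_add, ← Real.exp_add]; congr 1; ring

/-- the exponent of the bound of `p` -/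
def Pf (h κ A x Cy Cg K1 K2 : ℝ) (n1 n2 : ℕ) (d : ℝ) : ℝ :=
  gyf κ A x Cy d + 1 + Gf κ A x Cg d +
    (2 * (2 * Real.pi * h + Gf κ A x Cg (d / 2) + T1f κ A x Cy K1 n1 (d / 2)) +
      (2 * Real.pi * h + Gf κ A x Cg d)) + K2 * (1 / d) ^ n2 * ellf κ A x Cy d

/-- the signed quotient -/
lemma Loc.pbound (l : Loc h κ A ψ H φ p B e t ρ) (hc : Curve h ψ H) {x Cy Cg : ℝ}
    (hG : Gr h ψ H x Cy Cg) (hκ : 0 < κ) (hA : 1 ≤ A) {K1 K2 : ℝ} {n1 n2 : ℕ} (hK1 : 1 ≤ K1)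
    (hT : TwoS (4 * A) K1 n1) (hQ : QuoS (2 * A) K2 n2) {d : ℝ} (hd : 0 < d) (hd1 : d ≤ 1 / 10)
    {σ : ℝ} (hσ : σ = 1 ∨ σ = -1) (h0 : 0 ≤ σ * (LL ψ φ B (ray e t)).re) {q : ℂ × ℂ}
    (hq : q ∈ DW e (2 * A) d t) :
    ‖p q * cexp (σ * I * φ q)‖ ≤ Real.exp (Pf h κ A x Cy Cg K1 K2 n1 n2 d) := by
  obtain ⟨q0, hq0, hq0κ⟩ := l.q0 hA
  have ht := l.t_pos
  have e4 : 2 * (2 * A) = 4 * A := by ring
  have hd2 : 0 < d / 2 := by positivity
  have hsub : DW e (4 * A) (d / 2) t ⊆ DW e (8 * A) (d / 2) t :=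
    Side669.DW_mono ht (by linarith) le_rfl
  have hgy : 0 ≤ gyf κ A x Cy d := gyf_nonneg hG hκ hA hd
  have hFd : DifferentiableOn ℂ (fun q => p q * cexp (σ * I * φ q)) (PB e ρ) :=
    l.pd.mul ((l.φd.const_mul _).cexp)
  have hGd : DifferentiableOn ℂ (fun q => p q * cexp (σ * I * φ q) * deriv ψ (B q)) (PB e ρ) :=
    hFd.mul (l.Yd hc)
  set S : ℝ := 2 * Real.pi * h + Gf κ A x Cg (d / 2) + T1f κ A x Cy K1 n1 (d / 2) with hS
  have hh : 0 < h := hc.h_pos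
  have hG0 : ∀ y, 0 < Gf κ A x Cg y := fun y => Real.exp_pos _
  have hT0 : 0 ≤ T1f κ A x Cy K1 n1 (d / 2) := T1f_nonneg hK1 hd2
  have hS0 : 0 ≤ S := by
    have := hG0 (d / 2)
    have : 0 < 2 * Real.pi * h := by positivity
    rw [hS]; linarith
  have key := hQ d hd hd1 e t ρ ht
    (by rw [e4]; have := l.ρ_gt hA; have : 0 < A * t := by positivity
        linarith) (fun q => deriv ψ (B q))
    (LL ψ φ B) (l.Yd hc) (l.Ld hc) (Real.exp (gyf κ A x Cy d)) (Real.exp_pos _)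
    (fun y hy => by
      rw [e4] at hy
      exact l.y_le hG hκ hA hd (by linarith) (hsub hy))
    (fun y hy h1 => by
      rw [e4] at hy
      exact l.LY (l.DWsub hA hd2 (hsub hy)) h1)
    (ellf κ A x Cy d) (ellf_ge hG hκ hA hd) q0 hq0 ((ell_ok hκ rfl).trans hq0κ)
    (fun q => p q * cexp (σ * I * φ q)) (fun q => p q * cexp (σ * I * φ q) * deriv ψ (B q))
    (Real.exp (gyf κ A x Cy d + 1 + Gf κ A x Cg d + (2 * S + (2 * Real.pi * h + Gf κ A x Cg d))))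
    hFd hGd (fun y _ => rfl)
    (fun y hy => by
      rw [e4] at hy
      have hy8 := hsub hy
      obtain ⟨b1, b2⟩ := l.H_le hG hκ hA hd (by linarith) hy8
      exact yp_bound hσ (l.inc y (l.DWsub hA hd2 hy8)) (l.imψ hG hκ hA hd (by linarith) hy8)
        (l.height hc hG hκ hA hK1 hT hd2 (by linarith) hσ h0 hy) hS0 b1 b2
        (l.y_le hG hκ hA hd (by linarith) hy8) hgy) q hq
  refine key.trans ?_
  have hdiv : Real.exp (gyf κ A x Cy d + 1 + Gf κ A x Cg d +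
      (2 * S + (2 * Real.pi * h + Gf κ A x Cg d))) / Real.exp (gyf κ A x Cy d) ≤
      Real.exp (gyf κ A x Cy d + 1 + Gf κ A x Cg d +
      (2 * S + (2 * Real.pi * h + Gf κ A x Cg d))) :=
    div_le_self (Real.exp_pos _).le (Real.one_le_exp hgy)
  calc _ ≤ Real.exp (gyf κ A x Cy d + 1 + Gf κ A x Cg d +
      (2 * S + (2 * Real.pi * h + Gf κ A x Cg d))) *
        Real.exp (K2 * (1 / d) ^ n2 * ellf κ A x Cy d) :=
        mul_le_mul_of_nonneg_right hdiv (Real.exp_pos _).le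
    _ = Real.exp (Pf h κ A x Cy Cg K1 K2 n1 n2 d) := by
        rw [← Real.exp_add]; congr 1

/-- comparison of two ray points -/
lemma Loc.lip1 (l : Loc h κ A ψ H φ p B e t ρ) (hc : Curve h ψ H) {x Cy Cg : ℝ}
    (hG : Gr h ψ H x Cy Cg) (hκ : 0 < κ) (hA : 1 ≤ A) {K : ℝ} {n : ℕ}
    (hT : TwoS (4 * A) K n) {t' : ℝ} (ht' : 0 < t') (htt : t' ≤ t) :
    1 + |(LL ψ φ B (ray e t)).re| ≤
      T1f κ A x Cy K n (t' / t / 10) * (1 + |(LL ψ φ B (ray e t')).re|) := by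
  have ht := l.t_pos
  have hd : 0 < t' / t / 10 := by positivity
  have hd1 : t' / t / 10 ≤ 1 / 10 := by
    have : t' / t ≤ 1 := (div_le_one ht).2 htt
    linarith
  have a1 : ray e t ∈ DW e (4 * A) (t' / t / 10) t :=
    Side669.DW_mono ht (by linarith) hd1 (ray_DW1 hA ht)
  have a2 : ray e t' ∈ DW e (4 * A) (t' / t / 10) t :=
    Side669.DW_mono ht (by linarith) le_rfl (ray_DW hA ht' htt)
  have := l.two hc hG hκ hA hT hd hd1 a1 a2
  have := norm_nonneg (LL ψ φ B (ray e t) - LL ψ φ B (ray e t'))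
  linarith

end One

lemma T1f_pow {h κ A x Cy Cg K : ℝ} {ψ H : ℂ → ℂ} {n : ℕ} (hG : Gr h ψ H x Cy Cg) (hκ : 0 < κ)
    (hA : 1 ≤ A) (hK : 1 ≤ K) {d : ℝ} (hd : 0 < d) (hd1 : d ≤ 1) :
    T1f κ A x Cy K n d ≤
      K * (1 + Cy * c1 κ A ^ (-x) + |Real.log κ|) ^ 2 * (1 / d) ^ (n + 4) := by
  have hc1 := c1_pos hκ hA
  have hCy := hG.Cy_pos
  have h1 : 1 ≤ (1 / d : ℝ) ^ 2 := one_le_pow₀ (by rw [le_div_iff₀ hd]; linarith)
  have h2 : ellf κ A x Cy d ≤ (1 + Cy * c1 κ A ^ (-x) + |Real.log κ|) * (1 / d) ^ 2 := by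
    have h3 := rp_le (κ := 2) (x := x) (by linarith [hG.x_le]) hc1 hd hd1
    have h4 : d ^ (-(2 : ℝ)) = (1 / d) ^ 2 := by
      rw [Real.rpow_neg hd.le, one_div, inv_pow]; norm_num
    rw [h4] at h3
    unfold ellf gyf
    have h5 := mul_le_mul_of_nonneg_left h3 hCy
    have h6 := abs_nonneg (Real.log κ)
    have h7 : 0 ≤ Cy * c1 κ A ^ (-x) := by positivity
    nlinarith
  have h8 : 0 ≤ ellf κ A x Cy d := by linarith [ellf_ge hG hκ hA hd]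
  unfold T1f
  calc K * (1 / d) ^ n * ellf κ A x Cy d ^ 2
      ≤ K * (1 / d) ^ n * ((1 + Cy * c1 κ A ^ (-x) + |Real.log κ|) * (1 / d) ^ 2) ^ 2 := by
        gcongr
    _ = _ := by ring

/-- the objects at one window -/
lemma loc_of {u0 R d h κ A : ℝ} {ψ H Af : ℂ → ℂ} {φ p B : ℂ × ℂ → ℂ} {X L : Set (ℂ × ℂ)}
    (hD : ED u0 R d h ψ H Af φ p B X L) {e : ℝ × ℝ} {σ t : ℝ} (hA : 1 ≤ A) (ht : 0 < t)
    (htσ : t ≤ σ) (hd : 40 * A * σ ≤ d) (hb : ball ((e.2 : ℝ) : ℂ) (40 * A * σ) ⊆ ball (u0 : ℂ) R)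
    (hI : Intr h κ ψ B e t) : Loc h κ A ψ H φ p B e t (40 * A * σ) := by
  have hsub : PB e (40 * A * σ) ⊆ Sup115.Dp u0 R d := by
    rintro q ⟨h1, h2, h3, h4⟩
    refine ⟨?_, h3, hb ?_, h4⟩
    · have h5 := abs_le.1 (Complex.abs_im_le_norm (q.1 - (e.1 : ℂ)))
      have h6 : (q.1 - (e.1 : ℂ)).im = q.1.im := by simp
      rw [h6] at h5
      linarith [h5.1]
    · rw [mem_ball, dist_eq_norm]; exact h2
  have hX := hsub.trans hD.Dp_X
  have hL := hsub.trans hD.Dp_L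
  refine ⟨ht, ?_, hD.φ_diff.mono hL, hD.p_diff.mono hL, hD.B_diff.mono hX,
    fun q hq => hD.B_im q (hX hq), fun q hq => hD.inc q ⟨hX hq, hL hq⟩, fun q hq hne => ?_, hI⟩
  · have : A * t ≤ A * σ := mul_le_mul_of_nonneg_left htσ (by linarith)
    linarith
  · refine hD.sin_ne q ⟨hX hq, hL hq⟩ ?_ hne
    intro h0
    have := hq.2.2.2
    rw [h0] at this
    simp at this

/-- **SIDE ON THE OBJECTS** -/
theorem sideStmt : NormP864.SideStmt := by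
  intro h ψ H hc κ A κ' hκ hA hκ'
  obtain ⟨x, Cy, Cg, hx, hG⟩ := gr_of hc hκ'
  obtain ⟨K1, hK1, n1, h1⟩ := Side669.two_pt (A := 4 * A) (a := 1 / 10) (by linarith)
    (by norm_num) (by norm_num)
  obtain ⟨K2, hK2, n2, h2⟩ := Side669.quot2 (A := 2 * A) (a := 1 / 10) (by linarith)
    (by norm_num) (by norm_num)
  have hT : TwoS (4 * A) K1 n1 := h1
  have hQ : QuoS (2 * A) K2 n2 := h2
  have hh : 0 < h := hc.h_pos
  have hcc := c1_pos hκ hA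
  -- tame functions
  have tG : Tame κ' (Gf κ A x Cg) := tame_growth hx hG.Cg_pos hcc
  have tgy : Tame κ' (gyf κ A x Cy) := tame_growth' hx hG.Cy_pos hcc
  have tell : Tame κ' (ellf κ A x Cy) :=
    ((tame_const hκ' 1).add hκ' tgy).add hκ' (tame_const hκ' |Real.log κ|)
  have ell0 : ∀ d : ℝ, 0 < d → d ≤ 1 → 0 ≤ ellf κ A x Cy d := fun d hd _ => by
    linarith [ellf_ge hG hκ hA hd]
  have tT : Tame κ' (T1f κ A x Cy K1 n1) := by
    have := (((tame_const hκ' K1).mul (tame_inv_pow hκ' n1) fun d hd _ => by positivity).mul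
      (tell.mul tell ell0) fun d hd hd1 => mul_nonneg (ell0 d hd hd1) (ell0 d hd hd1))
    refine this.mono fun d hd hd1 => le_of_eq ?_
    unfold T1f; ring
  have tQ : Tame κ' (fun d => K2 * (1 / d) ^ n2 * ellf κ A x Cy d) :=
    ((tame_const hκ' K2).mul (tame_inv_pow hκ' n2) fun d hd _ => by positivity).mul tell ell0
  have tAng : Tame κ' (fun d => 3 * Gf κ A x Cg d +
      2 * Real.pi * (LA A * h * (1 + Real.log (1 / d))) +
        T1f κ A x Cy K1 n1 d + 2 * Real.pi * h + 1) := by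
    have a1 : Tame κ' (fun d => 3 * Gf κ A x Cg d) :=
      (tame_const hκ' 3).mul tG fun d _ _ => (Real.exp_pos _).le
    have a2 : Tame κ' (fun d => 2 * Real.pi * (LA A * h * (1 + Real.log (1 / d)))) := by
      have := (tame_const hκ' (2 * Real.pi * (LA A * h))).mul (tame_log hκ') fun d hd hd1 => by
        have : 0 ≤ Real.log (1 / d) := Real.log_nonneg (by rw [le_div_iff₀ hd]; linarith)
        linarith
      refine this.mono fun d hd hd1 => le_of_eq ?_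
      ring
    exact (((a1.add hκ' a2).add hκ' tT).add hκ' (tame_const hκ' _)).add hκ' (tame_const hκ' 1)
  have tHt : Tame κ' (fun d => 2 * Real.pi * h + Gf κ A x Cg d + T1f κ A x Cy K1 n1 d) :=
    ((tame_const hκ' _).add hκ' tG).add hκ' tT
  have tP : Tame κ' (Pf h κ A x Cy Cg K1 K2 n1 n2) := by
    have b1 : Tame κ' (fun d => Gf κ A x Cg (d / 2)) :=
      (tG.scale (r := 1 / 2) (by norm_num) (by norm_num)).mono fun d _ _ =>
        le_of_eq (by rw [show d / 2 = 1 / 2 * d by ring])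
    have b2 : Tame κ' (fun d => T1f κ A x Cy K1 n1 (d / 2)) :=
      (tT.scale (r := 1 / 2) (by norm_num) (by norm_num)).mono fun d _ _ =>
        le_of_eq (by rw [show d / 2 = 1 / 2 * d by ring])
    have b3 := ((tame_const hκ' (2 * Real.pi * h)).add hκ' b1).add hκ' b2
    have b4 := b3.add hκ' b3
    have b5 := (b4.add hκ' ((tame_const hκ' (2 * Real.pi * h)).add hκ' tG))
    refine ((((tgy.add hκ' (tame_const hκ' 1)).add hκ' tG).add hκ' b5).add hκ' tQ).mono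
      fun d _ _ => le_of_eq ?_
    unfold Pf; ring
  obtain ⟨Ca, hCa, hang⟩ := tAng.scale (r := 1 / 10) (by norm_num) (by norm_num)
  obtain ⟨Ch, hCh, hht⟩ := tHt.scale (r := 1 / 10) (by norm_num) (by norm_num)
  obtain ⟨Cp, hCp, hpt⟩ := tP.scale (r := 1 / 10) (by norm_num) (by norm_num)
  obtain ⟨E, hE⟩ : ∃ E : ℝ, E = K1 * (1 + Cy * c1 κ A ^ (-x) + |Real.log κ|) ^ 2 *
    10 ^ (n1 + 4) := ⟨_, rfl⟩
  have hE0 : 0 ≤ E := by
    have := hG.Cy_pos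
    rw [hE]; positivity
  obtain ⟨C0, hC0⟩ : ∃ C0 : ℝ, C0 = 1 + Ca + Ch + Cp + E + (n1 + 4 : ℕ) := ⟨_, rfl⟩
  have hn0 : (0 : ℝ) ≤ ((n1 + 4 : ℕ) : ℝ) := Nat.cast_nonneg _
  refine ⟨C0, by rw [hC0]; linarith, ?_⟩
  intro u0 R d Af φ p B X L hD e s σ hs hsσ hd hb hcol
  have hloc : ∀ t ∈ Icc s σ, Loc h κ A ψ H φ p B e t (40 * A * σ) := fun t ht =>
    loc_of hD hA (hs.trans_le ht.1) ht.2 hd hb (hcol t ht)
  have hrp : ∀ y : ℝ, 0 < y → 0 ≤ y ^ (-κ') := fun y hy => (Real.rpow_pos_of_pos hy _).le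
  refine ⟨?_, ?_, ?_, ?_⟩
  · -- continuity
    have h3 : ContinuousOn (fun s' => (LL ψ φ B (ray e s')).re) (Icc s σ) := by
      refine Complex.continuous_re.comp_continuousOn ?_
      refine ((hloc s (left_mem_Icc.2 hsσ)).Ld hc).continuousOn.comp ?_ ?_
      · unfold S5.ray S5.bl
        fun_prop
      · intro t ht
        have l := hloc t ht
        exact l.DWsub hA (by norm_num : (0 : ℝ) < 1 / 10)
          (Side669.DW_mono l.t_pos (by linarith) le_rfl (ray_DW1 hA l.t_pos))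
    refine h3.congr fun t _ => log_R0 ψ φ B (ray e t)
  · -- lip
    intro s' s'' h3 h4 h5
    have hs' : 0 < s' := hs.trans_le h3
    have hs'' : 0 < s'' := hs'.trans_le h4
    have l := hloc s'' ⟨h3.trans h4, h5⟩
    simp only [log_R0]
    refine (l.lip1 hc hG hκ hA hT hs' h4).trans ?_
    refine mul_le_mul_of_nonneg_right ?_ (by positivity)
    have hq1 : s' / s'' ≤ 1 := (div_le_one hs'').2 h4
    have hq0 : 0 < s' / s'' / 10 := by positivity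
    refine (T1f_pow hG hκ hA hK1 hq0 (by linarith)).trans ?_
    have h6 : (1 / (s' / s'' / 10) : ℝ) = 10 * (s'' / s') := by field_simp
    rw [h6, mul_pow]
    have h7 : 1 ≤ s'' / s' := (one_le_div hs').2 h4
    have h8 : (s'' / s') ^ (n1 + 4) ≤ (s'' / s') ^ C0 := by
      rw [← Real.rpow_natCast]
      refine Real.rpow_le_rpow_of_exponent_le h7 ?_
      rw [hC0]; linarith
    calc K1 * (1 + Cy * c1 κ A ^ (-x) + |Real.log κ|) ^ 2 * (10 ^ (n1 + 4) *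
        (s'' / s') ^ (n1 + 4)) = E * (s'' / s') ^ (n1 + 4) := by rw [hE]; ring
      _ ≤ C0 * (s'' / s') ^ C0 := by
        refine mul_le_mul ?_ h8 (by positivity) ?_
        · rw [hC0]; linarith
        · rw [hC0]; linarith
  · -- angle
    intro s' hs' dd hdd q hq
    have l := hloc s' hs'
    simp only [log_R0]
    have hq' : q ∈ DW e A (1 / 10 * dd) s' :=
      Side669.DW_mono l.t_pos le_rfl (by linarith [hdd.1]) (hq : q ∈ DW e A dd s')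
    refine (l.angle hc hG hκ hA hK1 hT (by linarith [hdd.1]) (by linarith [hdd.2]) hq').trans ?_
    refine mul_le_mul_of_nonneg_right ?_ (by positivity)
    refine (hang dd hdd.1 hdd.2).trans (Real.exp_le_exp.2 ?_)
    refine mul_le_mul_of_nonneg_right ?_ (hrp dd hdd.1)
    rw [hC0]; linarith
  · -- signs
    intro s' hs' dd hdd τ hτ h0 q hq
    have l := hloc s' hs'
    simp only [log_R0] at h0
    have hdd1 := hdd.1
    have hdd2 := hdd.2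
    have hq' : q ∈ DW e (2 * A) (1 / 10 * dd) s' :=
      Side669.DW_mono l.t_pos (by linarith) (by linarith) (hq : q ∈ DW e A dd s')
    have hq4 : q ∈ DW e (4 * A) (1 / 10 * dd) s' :=
      Side669.DW_mono l.t_pos (by linarith) le_rfl hq'
    constructor
    · have h3 := l.height hc hG hκ hA hK1 hT (by linarith) (by linarith) hτ h0 hq4
      have h4 := (hht dd hdd.1 hdd.2).trans (Real.exp_le_exp.2
        (mul_le_mul_of_nonneg_right (show Ch ≤ C0 by rw [hC0]; linarith) (hrp dd hdd.1)))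
      simp only at h4
      linarith
    · refine (l.pbound hc hG hκ hA hK1 hT hQ (by linarith) (by linarith) hτ h0 hq').trans ?_
      refine Real.exp_le_exp.2 ((hpt dd hdd.1 hdd.2).trans (Real.exp_le_exp.2 ?_))
      refine mul_le_mul_of_nonneg_right ?_ (hrp dd hdd.1)
      rw [hC0]; linarith


end Crest.Agent.R102.SideE864
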