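import Crest.Agent.R102.BalP_953_Mg
import Crest.Agent.R102.NormP_864
import Crest.Agent.R102.SlowJ_486
import Crest.Agent.R102.SideE_864
import Crest.Agent.R102.ColPhi_841
import Crest.Agent.R102.NoRecB_971
import Mathlib
import Crest.Agent.R102.End2_613
import Crest.Agent.R102.EdgeDefs_255
import Crest.Agent.R102.LemX_262
import Crest.Agent.R102.Tang_654
import Crest.Agent.R102.NoRecW_203

-- ▼ part R102/Final3_802
section

/-!
Row 102, the final assembly (helper802): `Chain559.EdgeO` from the last three literals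
`NormP864.SideStmt` (669), `SlowJ486.ColPhi` (172 / 841), `SlowJ486.NoRecP` (314).
-/

set_option autoImplicit false

namespace Crest.Agent.R102.Final802

open Crest.Agent.R102 Crest.Agent.R102.Edge255 Crest.AnalysisR.Billiard

theorem edgeO_of_last (hSd : NormP864.SideStmt) (hC : SlowJ486.ColPhi) (hN : SlowJ486.NoRecP) :
    Chain559.EdgeO :=
  edgeO_of3 BalP953.balP (NormP864.normP_of_side hSd) (SlowJ486.slowP_of hC hN)

/-- both results of row 102 from the last three literals -/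
theorem concl_of_last (hSd : NormP864.SideStmt) (hC : SlowJ486.ColPhi) (hN : SlowJ486.NoRecP)
    {Ω : Set (ℝ × ℝ)} {γ : ℝ → ℝ × ℝ} {P : ℝ} (ht : IsTable Ω γ P)
    (hf : HasCausticCollar Ω γ ∨ HasInvariantPhaseFoliation Ω γ) :
    ∃ (c : ℝ × ℝ) (Q : Matrix (Fin 2) (Fin 2) ℝ), Q.PosDef ∧
      Ω = {x : ℝ × ℝ | dotProduct ![x.1 - c.1, x.2 - c.2]
        (Q.mulVec ![x.1 - c.1, x.2 - c.2]) < 1} :=
  concl_of (edgeO_of_last hSd hC hN) ht hf

end Crest.Agent.R102.Final802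
end

-- ▼ part R102/Final4_802
section

/-!
Row 102, the final assembly (helper802): everything from the last literal `SlowJ486.NoRecP`.
-/

set_option autoImplicit false

namespace Crest.Agent.R102.Final802

open Crest.Agent.R102 Crest.AnalysisR.Billiard

/-- both results of row 102 from the last literal -/
theorem concl_of_norec (hN : SlowJ486.NoRecP)
    {Ω : Set (ℝ × ℝ)} {γ : ℝ → ℝ × ℝ} {P : ℝ} (ht : IsTable Ω γ P)
    (hf : HasCausticCollar Ω γ ∨ HasInvariantPhaseFoliation Ω γ) :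
    ∃ (c : ℝ × ℝ) (Q : Matrix (Fin 2) (Fin 2) ℝ), Q.PosDef ∧
      Ω = {x : ℝ × ℝ | dotProduct ![x.1 - c.1, x.2 - c.2]
        (Q.mulVec ![x.1 - c.1, x.2 - c.2]) < 1} :=
  concl_of_last SideE864.sideStmt ColPhi841.colPhi hN ht hf

end Crest.Agent.R102.Final802
end

-- ▼ part R102/NoRecC_971
section

/-! Row 102, EDGE / SLOW (helper971): `NoRecP` from `ColPhi` and `SlowWorld`. -/

set_option autoImplicit false

open Set Filter Topology Metric Complex

noncomputable section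

namespace Crest.Agent.R102.NoRec971

open Crest.Agent.R102.Sup115 (E2)
open Crest.Agent.R102.S5 (ray bl Half)
open Crest.Agent.R102.TreeS174 (KD)
open Crest.Agent.R102.Edge255
open Crest.Agent.R102.SlowE (oe)
open Crest.Agent.R102.SlowS (kd)
open Crest.Agent.R102.Chain859 (V rho V_up)
open Crest.Agent.R102.SlowJ486
open Crest.Agent.R102.LocGrow115 (HSide HArc)
open Crest.Agent.R102.NoRecW203 (SlowWorld)

set_option maxHeartbeats 1000000 in
/-- **NoRecP** -/
theorem noRecP_of (hC : ColPhi) (SW : SlowWorld) : NoRecP := by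
  intro u0 R d h ψ H Ar φ p B X L D u s₀ a g hu hu0 ha hg hR
  refine ⟨8, le_refl _, fun κ hκ => ?_⟩
  obtain ⟨kc, hkc, κ', hκ', hcs⟩ := col_seq hC D hu hu0 ha hg hR hκ
  refine ⟨min kc 1, lt_min hkc one_pos, fun k hk hk1 => ?_⟩
  have hkkc : k ≤ kc := hk1.trans (min_le_left _ _)
  have hk1' : k ≤ 1 := hk1.trans (min_le_right _ _)
  refine hcs _ (fun n ρ δ U => min (1 / ((n : ℝ) + 1)) (δ / 4))
    (fun n ρ δ U hρ hδ => by positivity)
    (fun n ρ δ U x σ => min 1 δ * (1 / (100 * ((n : ℝ) + 1))))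
    (fun n ρ δ U x σ hρ hδ hσ => by positivity) ?_
  intro ρ δ U x σ s1 hρ hb hx hσ hI hs1 hs1m hS hneg
  push Not at hneg
  choose c s hV hinf hdist hoe hrec using hneg
  -- elementary
  have hδ : ∀ n, 0 < δ n := fun n => (hb n).δ_pos
  have hs : ∀ n, 0 < s n := fun n => (hV n).1
  have hss1 : ∀ n, s n ≤ s1 n := fun n => (hV n).2.1
  have hn1 : Tendsto (fun n : ℕ => 1 / ((n : ℝ) + 1)) atTop (𝓝 0) :=
    tendsto_one_div_add_atTop_nhds_zero_nat
  have hs1b : ∀ n, s1 n ≤ 1 / ((n : ℝ) + 1) ∧ s1 n ≤ δ n * (1 / ((n : ℝ) + 1)) ∧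
      100 * s1 n ≤ δ n := by
    intro n
    have h1 := hs1m n
    have h2 : (0 : ℝ) < (n : ℝ) + 1 := by positivity
    have h2' : (1 : ℝ) ≤ (n : ℝ) + 1 := by
      have : (0 : ℝ) ≤ n := Nat.cast_nonneg n
      linarith
    have h3 : 1 / (100 * ((n : ℝ) + 1)) = 1 / ((n : ℝ) + 1) / 100 := by field_simp
    have h4 : min 1 (δ n) ≤ 1 := min_le_left _ _
    have h5 : min 1 (δ n) ≤ δ n := min_le_right _ _
    have h6 : 0 < 1 / ((n : ℝ) + 1) := by positivity
    have h7 : 1 / ((n : ℝ) + 1) ≤ 1 := by rw [div_le_one h2]; exact h2'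
    have h8 := hδ n
    rw [h3] at h1
    have h9 : min 1 (δ n) * (1 / ((n : ℝ) + 1) / 100) ≤ 1 * (1 / ((n : ℝ) + 1) / 100) := by
      gcongr
    have h10 : min 1 (δ n) * (1 / ((n : ℝ) + 1) / 100) ≤ δ n * (1 / ((n : ℝ) + 1) / 100) := by
      gcongr
    refine ⟨by linarith, ?_, ?_⟩
    · have : 0 < δ n * (1 / ((n : ℝ) + 1)) := by positivity
      linarith
    · have : δ n * (1 / ((n : ℝ) + 1)) ≤ δ n * 1 := by gcongr
      linarith
  have hs10 : Tendsto s1 atTop (𝓝 0) :=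
    squeeze_zero (fun n => (hs1 n).le) (fun n => (hs1b n).1) hn1
  have hs0 : Tendsto s atTop (𝓝 0) := squeeze_zero (fun n => (hs n).le) hss1 hs10
  have hρ0 : Tendsto ρ atTop (𝓝 0) := squeeze_zero (fun n => (hb n).ρ_pos.le) hρ hn1
  have hx1 : ∀ n, |x n - s₀| < 1 / ((n : ℝ) + 1) := fun n => (hx n).trans_le (min_le_left _ _)
  have hx2 : ∀ n, |x n - s₀| < δ n / 4 := fun n => (hx n).trans_le (min_le_right _ _)
  have hc1 : ∀ n, |(c n).1 - x n| ≤ s1 n / 2 := by
    intro n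
    have := hdist n
    rw [Prod.dist_eq, Real.dist_eq, Real.dist_eq] at this
    exact (le_max_left _ _).trans this
  have hc2 : ∀ n, |(c n).2 - u| ≤ s1 n / 2 := by
    intro n
    have := hdist n
    rw [Prod.dist_eq, Real.dist_eq, Real.dist_eq] at this
    exact (le_max_right _ _).trans this
  -- the root
  have hE2r : ∀ n, E2 X L a g (ρ n) (δ n) (x n, u) := fun n =>
    (hb n).e2 u (hb n).mem (x n) ((hx2 n).trans (by have := hδ n; linarith))
  -- good base
  have hex : ∀ n, ∃ u'' ∈ U n, |u'' - (c n).2| ≤ s n := by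
    intro n
    obtain ⟨u'', hu'', h1⟩ := (hb n).closed.exists_infDist_eq_dist ⟨u, (hb n).mem⟩ (c n).2
    refine ⟨u'', hu'', ?_⟩
    have h2 := hinf n
    rw [h1, Real.dist_eq, abs_sub_comm] at h2
    exact h2
  choose u'' hu'' hu''c using hex
  have he : Tendsto (fun n => ((c n).1, u'' n)) atTop (𝓝 (s₀, u)) := by
    refine Tendsto.prodMk_nhds ?_ ?_
    · rw [tendsto_iff_dist_tendsto_zero]
      refine squeeze_zero (fun n => dist_nonneg) (fun n => ?_) (hs10.add hn1 |>.trans (by simp))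
      rw [Real.dist_eq]
      have h1 : |(c n).1 - s₀| ≤ |(c n).1 - x n| + |x n - s₀| := abs_sub_le _ _ _
      have h2 := hc1 n
      have h3 := hx1 n
      have h4 := hs1 n
      linarith
    · rw [tendsto_iff_dist_tendsto_zero]
      refine squeeze_zero (fun n => dist_nonneg) (fun n => ?_) (hs10.const_mul 2 |>.trans (by simp))
      rw [Real.dist_eq]
      have h1 : |u'' n - u| ≤ |u'' n - (c n).2| + |(c n).2 - u| := abs_sub_le _ _ _
      have h2 := hc2 n
      have h3 := hu''c n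
      have h4 := hss1 n
      have h5 := hs1 n
      linarith
  have hE2 : ∀ n, E2 X L a g (ρ n) (δ n) ((c n).1, u'' n) := fun n =>
    (hb n).e2 (u'' n) (hu'' n) (c n).1 (by
      have h1 : |(c n).1 - s₀| ≤ |(c n).1 - x n| + |x n - s₀| := abs_sub_le _ _ _
      have h2 := hc1 n
      have h3 := hx2 n
      have h4 := (hs1b n).2.2
      have h5 := hs1 n
      linarith)
  have hsδ : Tendsto (fun n => s n / δ n) atTop (𝓝 0) := by
    refine squeeze_zero (fun n => by have := hs n; have := hδ n; positivity) (fun n => ?_) hn1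
    have h1 := hδ n
    rw [div_le_iff₀ h1]
    have := (hs1b n).2.1
    have := hss1 n
    linarith
  -- windows of the tree
  have hVk : ∀ n, ∀ t, s n ≤ t → t ≤ s1 n → V (fun q s => φ (ray q s)) (φ (ray (x n, u) (s1 n)))
      (s1 n) (x n, u) kc (c n) t := fun n t h1 h2 =>
    V_up (hV n) (by linarith) h1 h2
  have hSc : ∀ ε > 0, ∀ K ⊆ Wg (a + g), IsCompact K → ∀ K' ⊆ Wg a, IsCompact K' →
      ∀ᶠ n in atTop, ∀ t, s n ≤ t → t ≤ s1 n → Intr h κ' ψ B (c n) t ∧
        SlowAt ε K K' ψ (fun q => φ (bl (c n) t q)) (fun q => p (bl (c n) t q))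
          (fun q => B (bl (c n) t q)) := by
    intro ε hε K hK hKc K' hK' hKc'
    filter_upwards [hS ε hε K hK hKc K' hK' hKc'] with n hn t h1 h2
    exact hn (c n) t (hVk n t h1 h2) ((hinf n).trans h1)
  have hφKD : ∀ n, ∀ (q : ℝ × ℝ) (t : ℝ), V (fun q s => φ (ray q s)) (φ (ray (x n, u) (s1 n)))
      (s1 n) (x n, u) k q t → DifferentiableOn ℂ φ (KD 8 q.1 q.2 t) := by
    intro n q t hv
    refine D.φ_diff.mono (KD_sub (hE2r n) ha hg le_rfl hv.1 hv.2.1 hv.2.2.1 ?_)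
    have h1 := (hs1b n).2.2
    have h2 := hs1 n
    linarith
  set om : ℕ → ℝ := fun n => oe 8 φ (c n) (s n) with hom_def
  have hom : ∀ n, 0 < om n := fun n =>
    lt_of_lt_of_le (Real.rpow_pos_of_pos (div_pos (hs n) (hs1 n)) _) (hoe n)
  have hom1 : ∀ n, om n ≤ 1 := fun n => SlowE.oe_le_one _ _ _ _
  have hosc : ∀ ε > 0, ∀ᶠ n in atTop, ∀ t, s n ≤ t → t ≤ s1 n → oe 8 φ (c n) t ≤ ε := by
    intro ε hε
    have hε' : 0 < min (1 / 2) (ε / 2) := by positivity
    filter_upwards [hSc _ hε' (kd 8) (SlowS.kd_sub_Wg le_rfl (by linarith))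
      (SlowS.isCompact_kd le_rfl) ∅ (empty_subset _) isCompact_empty] with n hn t h1 h2
    have h3 := SlowS.slow_osc (A := 8) le_rfl (min_le_left _ _) subset_rfl
      (lt_of_lt_of_le (hs n) h1)
      (hφKD n (c n) t (V_up (hV n) (by linarith) h1 h2)).continuousOn (hn t h1 h2).2
    have h4 : min (1 / 2) (ε / 2) ≤ ε / 2 := min_le_right _ _
    linarith
  have hom0 : Tendsto om atTop (𝓝 0) := by
    rw [Metric.tendsto_atTop]
    intro ε hε
    obtain ⟨N, hN⟩ := eventually_atTop.1 (hosc (ε / 2) (by positivity))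
    refine ⟨N, fun n hn => ?_⟩
    have h1 := hN n hn (s n) le_rfl (hss1 n)
    rw [Real.dist_eq, sub_zero, abs_of_pos (hom n)]
    exact lt_of_le_of_lt h1 (by linarith)
  have hsr : Tendsto (fun n => s n / (s n / om n)) atTop (𝓝 0) := by
    have e : (fun n => s n / (s n / om n)) = om := by
      funext n
      have h1 := hs n
      have h2 := hom n
      field_simp
    rw [e]; exact hom0
  have hdiff : ∀ C : ℝ, ∀ᶠ n in atTop,
      DifferentiableOn ℂ φ (Half (c n) (C * (s n / om n)) (a + g)) := by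
    intro C
    have h1 : ∀ᶠ n in atTop, om n < 1 / (|C| + 1) := hom0.eventually_lt_const (by positivity)
    filter_upwards [h1] with n hn
    refine D.φ_diff.mono (Subset.trans ?_ (hE2r n).line)
    have hr := r_le (hs n) (hs1 n) (hom n) (hoe n)
    have hCr : C * (s n / om n) ≤ s1 n := by
      have h2 : 0 < s n / om n := div_pos (hs n) (hom n)
      have h3 : (|C| + 1) * om n ≤ 1 := by
        rw [lt_div_iff₀ (by positivity)] at hn
        linarith
      calc C * (s n / om n) ≤ (|C| + 1) * (s n / om n) := by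
            apply mul_le_mul_of_nonneg_right _ h2.le
            linarith [le_abs_self C]
        _ ≤ (|C| + 1) * (om n * s1 n) := by gcongr
        _ = ((|C| + 1) * om n) * s1 n := by ring
        _ ≤ 1 * s1 n := by
            apply mul_le_mul_of_nonneg_right h3 (hs1 n).le
        _ = s1 n := one_mul _
    rintro q ⟨q1, q2, q3, q4, q5⟩
    have h4 := hc1 n
    have h5 := hc2 n
    have h6 := (hs1b n).2.2
    have h7 := hs1 n
    refine ⟨?_, by linarith, ?_, q4, q5⟩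
    · show |q.1.re - x n| < δ n
      have : |q.1.re - x n| ≤ |q.1.re - (c n).1| + |(c n).1 - x n| := abs_sub_le _ _ _
      linarith
    · show ‖q.2 - (u : ℂ)‖ < δ n
      have e : q.2 - (u : ℂ) = (q.2 - ((c n).2 : ℂ)) + (((c n).2 - u : ℝ) : ℂ) := by
        push_cast; ring
      rw [e]
      refine lt_of_le_of_lt (norm_add_le _ _) ?_
      rw [Complex.norm_real, Real.norm_eq_abs]
      linarith
  have hside : HSide (1 / 2) (1 / 2) φ c s (fun n => s n / om n) om :=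
    hside_rec hk (fun n => rfl) hom hom1 hom0 hs1 hoe hV hdist hrec hosc hφKD
  have harc : HArc (a + g) (1 / 2) φ c s (fun n => s n / om n) om := by
    refine harc_rec (by linarith) (ψ := ψ) (P := p) (B := B) hk hk1' hs hom hom1 hom0 hs1 hoe
      (fun n t h1 h2 => (hV n).2.2.2 t h1 h2) hdiff ?_
    intro K hK hKc
    filter_upwards [hSc (1 / 2) (by norm_num) K hK hKc ∅ (empty_subset _) isCompact_empty]
      with n hn t h1 h2
    exact (hn t h1 h2).2
  have hgrow := LocGrow115.grow_rec (g' := g) ha hg le_rfl (by norm_num : (0 : ℝ) ≤ 1 / 2)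
    (by norm_num : (0 : ℝ) < 1 / 2) (by norm_num : (1 / 2 : ℝ) < 1) hs
    (fun n => div_pos (hs n) (hom n)) hom hsr hdiff hside harc
  refine NoRecX985.norec_oe SW D hu hu0 ha hg hκ' (c := c) (e := fun n => ((c n).1, u'' n))
    (s := s) (ρ := ρ) (η := δ) he hs hs0 (fun n => (hb n).ρ_pos) hρ0 hδ hsδ hE2
    (fun n => rfl) (fun n => hu''c n) ?_ ?_ (AK := 8) le_rfl hom hg le_rfl
    (th := 1 / 2) (by norm_num) (by norm_num) hgrow
  · filter_upwards [hSc 1 one_pos ∅ (empty_subset _) isCompact_empty ∅ (empty_subset _)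
      isCompact_empty] with n hn
    exact (hn (s n) le_rfl (hss1 n)).1
  · intro ε hε K hK hKc K' hK' hKc'
    filter_upwards [hSc ε hε K hK hKc K' hK' hKc'] with n hn
    exact (hn (s n) le_rfl (hss1 n)).2

end Crest.Agent.R102.NoRec971
end
end

-- ▼ part R102/Liou_203
section

/-!
# Row 102, T1-B, EDGE: Liouville leaves (helper203)

* `const_of_re_le`, `const_of_im_le` : entire, one sided bound `≤ C (1 + ‖s‖)^θ`, `θ < 1` ⟹ constant;
* `const_of_norm_le` : entire, `‖f s‖ ≤ C (1 + ‖s‖)^θ`, `θ < 1` ⟹ constant;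
* `const_of_zero_free` : entire, zero free, `log ‖f s‖ ≤ C (1 + ‖s‖)^θ`, `θ < 1` ⟹ constant;
* `exists_entire` : `F` holomorphic on `{0 < Im ζ, Im T < (a + c) Im ζ}`, `c > 0`, which on a
  nonempty open subset depends on `s = T - a ζ` only, is `g (T - a ζ)` with `g` entire;
* `pt_mem`, `pt_norm` : the point over `s` in the cone of level `a + c / 2` (transfer of growth).
-/

set_option autoImplicit false

open Set Filter Topology Metric Complex

namespace Crest.Agent.R102.Liou203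

/-- one sided Liouville theorem with sublinear growth -/
theorem const_of_re_le {f : ℂ → ℂ} (hf : Differentiable ℂ f) {C θ : ℝ} (hθ : θ < 1)
    (h : ∀ s, (f s).re ≤ C * (1 + ‖s‖) ^ θ) (z : ℂ) : f z = f 0 := by
  obtain ⟨t, ht⟩ : ∃ t, t = max θ 0 := ⟨_, rfl⟩
  have ht0 : 0 ≤ t := by rw [ht]; exact le_max_right _ _
  have htθ : θ ≤ t := by rw [ht]; exact le_max_left _ _
  have ht1 : t < 1 := by rw [ht]; exact max_lt hθ one_pos
  obtain ⟨B, hB⟩ : ∃ B, B = |(f 0).re| + 1 := ⟨_, rfl⟩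
  have hB0 : 0 < B := by rw [hB]; positivity
  have key : ∀ᶠ u : ℝ in atTop, ‖f z - f 0‖ ≤
      4 * ‖z‖ * (|C| * u ^ (-(1 - t)) + B * u⁻¹) := by
    filter_upwards [eventually_ge_atTop (2 * (1 + ‖z‖)), eventually_ge_atTop (2 : ℝ)]
      with u hu hu2
    have hu0 : 0 < u := by linarith
    have hR : 0 < u - 1 := by linarith
    have hzR : ‖z‖ < u - 1 := by linarith [norm_nonneg z]
    have hM : 0 < |C| * u ^ t + B := by positivity
    have h1 := borelCaratheodory_zero (f := fun s => f s - f 0) (M := |C| * u ^ t + B)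
      (R := u - 1) (z := z) hM (hf.sub_const (f 0)).differentiableOn ?_ hR
      (mem_ball_zero_iff.2 hzR) (by simp)
    · refine h1.trans ?_
      have h2 : u / 2 ≤ u - 1 - ‖z‖ := by linarith
      have h3 : 2 * (|C| * u ^ t + B) * ‖z‖ / (u - 1 - ‖z‖) ≤
          2 * (|C| * u ^ t + B) * ‖z‖ / (u / 2) :=
        div_le_div_of_nonneg_left (by positivity) (by positivity) h2
      refine h3.trans (le_of_eq ?_)
      have h4 : u ^ (-(1 - t)) = u ^ t * u⁻¹ := by
        rw [← Real.rpow_neg_one u, ← Real.rpow_add hu0]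
        congr 1
        ring
      rw [h4]
      field_simp
      ring
    · intro s hs
      have hs' : ‖s‖ < u - 1 := mem_ball_zero_iff.1 hs
      have h5 : (1 + ‖s‖) ^ θ ≤ u ^ t := by
        have h6 : (1 + ‖s‖) ^ θ ≤ (1 + ‖s‖) ^ t :=
          Real.rpow_le_rpow_of_exponent_le (by linarith [norm_nonneg s]) htθ
        have h7 : (1 + ‖s‖) ^ t ≤ u ^ t :=
          Real.rpow_le_rpow (by positivity) (by linarith) ht0
        exact h6.trans h7
      have h8 : C * (1 + ‖s‖) ^ θ ≤ |C| * u ^ t := by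
        have h9 : C * (1 + ‖s‖) ^ θ ≤ |C| * (1 + ‖s‖) ^ θ :=
          mul_le_mul_of_nonneg_right (le_abs_self C) (by positivity)
        exact h9.trans (mul_le_mul_of_nonneg_left h5 (abs_nonneg C))
      show (f s - f 0).re ≤ |C| * u ^ t + B
      rw [sub_re]
      have := h s
      have := neg_abs_le (f 0).re
      rw [hB]
      linarith
  have hlim : Tendsto (fun u : ℝ => 4 * ‖z‖ * (|C| * u ^ (-(1 - t)) + B * u⁻¹)) atTop
      (𝓝 (4 * ‖z‖ * (|C| * 0 + B * 0))) := by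
    refine Tendsto.const_mul _ ((Tendsto.const_mul _ ?_).add (Tendsto.const_mul _ ?_))
    · exact tendsto_rpow_neg_atTop (by linarith)
    · exact tendsto_inv_atTop_zero
  have h0 : ‖f z - f 0‖ ≤ 4 * ‖z‖ * (|C| * 0 + B * 0) := ge_of_tendsto hlim key
  simp only [mul_zero, add_zero] at h0
  exact sub_eq_zero.1 (norm_le_zero_iff.1 h0)




theorem const_of_norm_le {f : ℂ → ℂ} (hf : Differentiable ℂ f) {C θ : ℝ} (hθ : θ < 1)
    (h : ∀ s, ‖f s‖ ≤ C * (1 + ‖s‖) ^ θ) (z : ℂ) : f z = f 0 :=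
  const_of_re_le hf hθ (fun s => (re_le_norm _).trans (h s)) z



/-- the blow-up of `Om_c` -/
def Gam (l : ℝ) : Set (ℂ × ℂ) := {q | 0 < q.2.im ∧ q.1.im < l * q.2.im}

theorem isOpen_Gam (l : ℝ) : IsOpen (Gam l) := by
  refine IsOpen.and ?_ ?_
  · exact isOpen_lt continuous_const (continuous_im.comp continuous_snd)
  · exact isOpen_lt (continuous_im.comp continuous_fst)
      (continuous_const.mul (continuous_im.comp continuous_snd))

/-- the point over `s` -/
noncomputable def pt (a c : ℝ) (s : ℂ) : ℂ × ℂ :=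
  (s + (a : ℂ) * (((1 + 2 * ‖s‖ / c : ℝ) : ℂ) * I), ((1 + 2 * ‖s‖ / c : ℝ) : ℂ) * I)

theorem pt_s (a c : ℝ) (s : ℂ) : (pt a c s).1 - (a : ℂ) * (pt a c s).2 = s := by
  simp [pt]

theorem pt_im (a c : ℝ) (s : ℂ) : (pt a c s).2.im = 1 + 2 * ‖s‖ / c := by
  simp [pt]

theorem pt_im1 (a c : ℝ) (s : ℂ) : (pt a c s).1.im = s.im + a * (1 + 2 * ‖s‖ / c) := by
  have : (pt a c s).1 = s + ((a * (1 + 2 * ‖s‖ / c) : ℝ) : ℂ) * I := by
    simp only [pt]; push_cast; ring
  rw [this]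
  simp [-ofReal_mul, -ofReal_add]

/-- the point over `s` lies in the cone of level `a + c / 2` -/
theorem pt_mem {a c : ℝ} (hc : 0 < c) (s : ℂ) : pt a c s ∈ Gam (a + c / 2) := by
  refine ⟨?_, ?_⟩
  · rw [pt_im]; positivity
  · rw [pt_im, pt_im1]
    have h1 : s.im ≤ ‖s‖ := (le_abs_self _).trans (abs_im_le_norm s)
    have h2 : (a + c / 2) * (1 + 2 * ‖s‖ / c) = a * (1 + 2 * ‖s‖ / c) + c / 2 + ‖s‖ := by
      field_simp
      ring
    rw [h2]
    linarith


/-- `F` is a function of `s = T - a ζ` on the whole cone if it is one on an open subset -/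
theorem const_on_leaves {a c : ℝ} (hc : 0 < c) {F : ℂ × ℂ → ℂ}
    (hF : DifferentiableOn ℂ F (Gam (a + c))) {O : Set (ℂ × ℂ)} (hO : IsOpen O)
    (hne : O.Nonempty) (hsub : O ⊆ Gam (a + c))
    (h : ∀ q ∈ O, ∀ q' ∈ O, q.1 - (a : ℂ) * q.2 = q'.1 - (a : ℂ) * q'.2 → F q = F q') :
    ∀ q ∈ Gam (a + c), ∀ q' ∈ Gam (a + c),
      q.1 - (a : ℂ) * q.2 = q'.1 - (a : ℂ) * q'.2 → F q = F q' := by
  -- the coordinates `(s, ζ)`
  have hlev : ∀ s ζ : ℂ, ((s + (a : ℂ) * ζ, ζ) : ℂ × ℂ) ∈ Gam (a + c) ↔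
      0 < ζ.im ∧ s.im < c * ζ.im := by
    intro s ζ
    show (0 < ζ.im ∧ (s + (a : ℂ) * ζ).im < (a + c) * ζ.im) ↔ _
    have : (s + (a : ℂ) * ζ).im = s.im + a * ζ.im := by simp
    rw [this]
    constructor
    · rintro ⟨h1, h2⟩; exact ⟨h1, by linarith⟩
    · rintro ⟨h1, h2⟩; exact ⟨h1, by linarith⟩
  -- slices in `ζ`
  have hζ : ∀ s : ℂ, DifferentiableOn ℂ (fun ζ => F (s + (a : ℂ) * ζ, ζ))
      {ζ | 0 < ζ.im ∧ s.im < c * ζ.im} := by
    intro s
    refine hF.comp (t := Gam (a + c)) ?_ (fun ζ hζ => (hlev s ζ).2 hζ)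
    exact (((differentiable_const s).add (differentiable_id.const_mul (a : ℂ))).prodMk
      differentiable_id).differentiableOn
  have hs : ∀ ζ : ℂ, 0 < ζ.im → DifferentiableOn ℂ (fun s => F (s + (a : ℂ) * ζ, ζ))
      {s | s.im < c * ζ.im} := by
    intro ζ hζ0
    refine hF.comp (t := Gam (a + c)) ?_ (fun s hs => (hlev s ζ).2 ⟨hζ0, hs⟩)
    exact (((differentiable_id (𝕜 := ℂ) (E := ℂ)).add_const _).prodMk
      (differentiable_const ζ)).differentiableOn
  have hoζ : ∀ s : ℂ, IsOpen {ζ : ℂ | 0 < ζ.im ∧ s.im < c * ζ.im} := fun s =>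
    (isOpen_lt continuous_const continuous_im).inter
      (isOpen_lt continuous_const (continuous_const.mul continuous_im))
  have hcζ : ∀ s : ℂ, Convex ℝ {ζ : ℂ | 0 < ζ.im ∧ s.im < c * ζ.im} := by
    intro s
    refine (convex_halfSpace_im_gt 0).inter ?_
    intro x hx y hy p r hp hr hpr
    show s.im < c * (p • x + r • y).im
    have hx' : s.im < c * x.im := hx
    have hy' : s.im < c * y.im := hy
    have e : (p • x + r • y).im = p * x.im + r * y.im := by simp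
    rw [e]
    have e2 : c * (p * x.im + r * y.im) = p * (c * x.im) + r * (c * y.im) := by ring
    rw [e2]
    have e3 : s.im = p * s.im + r * s.im := by rw [← add_mul, hpr, one_mul]
    rcases eq_or_lt_of_le hp with h0 | h0
    · have hr1 : r = 1 := by linarith
      rw [← h0, hr1]; simpa using hy'
    · have h1 := mul_lt_mul_of_pos_left hx' h0
      have h2 := mul_le_mul_of_nonneg_left hy'.le hr
      linarith
  -- base point
  obtain ⟨q0, hq0⟩ := hne
  obtain ⟨s0, hs0⟩ : ∃ s0 : ℂ, s0 = q0.1 - (a : ℂ) * q0.2 := ⟨_, rfl⟩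
  have hq0e : ((s0 + (a : ℂ) * q0.2, q0.2) : ℂ × ℂ) = q0 := by
    rw [hs0]; ext <;> simp
  have hq0G := (hlev s0 q0.2).1 (by rw [hq0e]; exact hsub hq0)
  -- (1) for `s` near `s0` the slice is constant
  have hev : ∀ᶠ p : ℂ × ℂ in 𝓝 (s0, q0.2), ((p.1 + (a : ℂ) * p.2, p.2) : ℂ × ℂ) ∈ O := by
    have hcont : Continuous fun p : ℂ × ℂ => ((p.1 + (a : ℂ) * p.2, p.2) : ℂ × ℂ) := by fun_prop
    have := hcont.continuousAt (x := (s0, q0.2))
    refine this.eventually ?_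
    show ∀ᶠ y in 𝓝 ((s0 + (a : ℂ) * q0.2, q0.2) : ℂ × ℂ), y ∈ O
    rw [hq0e]
    exact hO.mem_nhds hq0
  obtain ⟨U, hU, W, hW, hUW⟩ := Filter.eventually_prod_iff.1 (by rw [nhds_prod_eq] at hev; exact hev)
  have hnear : ∀ᶠ s in 𝓝 s0, ∀ ζ ζ' : ℂ, 0 < ζ.im → s.im < c * ζ.im → 0 < ζ'.im →
      s.im < c * ζ'.im → F (s + (a : ℂ) * ζ, ζ) = F (s + (a : ℂ) * ζ', ζ') := by
    have hin : ∀ᶠ s : ℂ in 𝓝 s0, s.im < c * q0.2.im :=
      (isOpen_lt continuous_im continuous_const).mem_nhds hq0G.2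
    filter_upwards [hU, hin] with s hsU hsin
    have hz0 : q0.2 ∈ {ζ : ℂ | 0 < ζ.im ∧ s.im < c * ζ.im} := ⟨hq0G.1, hsin⟩
    have heq : (fun ζ => F (s + (a : ℂ) * ζ, ζ)) =ᶠ[𝓝 q0.2]
        fun _ => F (s + (a : ℂ) * q0.2, q0.2) := by
      filter_upwards [hW] with ζ hζW
      refine h _ (hUW hsU hζW) _ (hUW hsU (mem_of_mem_nhds hW)) ?_
      simp
    have hid := ((hζ s).analyticOnNhd (hoζ s)).eqOn_of_preconnected_of_eventuallyEq
      (analyticOnNhd_const) (hcζ s).isPreconnected hz0 heq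
    intro ζ ζ' h1 h2 h3 h4
    have e1 := hid (show ζ ∈ {ζ : ℂ | 0 < ζ.im ∧ s.im < c * ζ.im} from ⟨h1, h2⟩)
    have e2 := hid (show ζ' ∈ {ζ : ℂ | 0 < ζ.im ∧ s.im < c * ζ.im} from ⟨h3, h4⟩)
    exact e1.trans e2.symm
  -- (2) for `ζ, ζ'` high all `s`
  have hhigh : ∀ ζ ζ' : ℂ, 0 < ζ.im → 0 < ζ'.im → s0.im < c * ζ.im → s0.im < c * ζ'.im →
      ∀ s : ℂ, s.im < c * ζ.im → s.im < c * ζ'.im →
        F (s + (a : ℂ) * ζ, ζ) = F (s + (a : ℂ) * ζ', ζ') := by
    intro ζ ζ' h1 h2 h3 h4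
    have ho : IsOpen ({s : ℂ | s.im < c * ζ.im} ∩ {s : ℂ | s.im < c * ζ'.im}) :=
      (isOpen_lt continuous_im continuous_const).inter
        (isOpen_lt continuous_im continuous_const)
    have hcv : Convex ℝ ({s : ℂ | s.im < c * ζ.im} ∩ {s : ℂ | s.im < c * ζ'.im}) :=
      (convex_halfSpace_im_lt _).inter (convex_halfSpace_im_lt _)
    have heq : (fun s => F (s + (a : ℂ) * ζ, ζ)) =ᶠ[𝓝 s0]
        fun s => F (s + (a : ℂ) * ζ', ζ') := by
      have i1 : ∀ᶠ s : ℂ in 𝓝 s0, s.im < c * ζ.im :=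
        (isOpen_lt continuous_im continuous_const).mem_nhds h3
      have i2 : ∀ᶠ s : ℂ in 𝓝 s0, s.im < c * ζ'.im :=
        (isOpen_lt continuous_im continuous_const).mem_nhds h4
      filter_upwards [hnear, i1, i2] with s hs1 hs2 hs3
      exact hs1 ζ ζ' h1 hs2 h2 hs3
    have hid := (((hs ζ h1).mono inter_subset_left).analyticOnNhd ho).eqOn_of_preconnected_of_eventuallyEq
      (((hs ζ' h2).mono inter_subset_right).analyticOnNhd ho) hcv.isPreconnected ⟨h3, h4⟩ heq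
    intro s h5 h6
    exact hid ⟨h5, h6⟩
  -- (3) all
  intro q hq q' hq' hqq
  obtain ⟨s, hs'⟩ : ∃ s : ℂ, s = q.1 - (a : ℂ) * q.2 := ⟨_, rfl⟩
  have hqe : ((s + (a : ℂ) * q.2, q.2) : ℂ × ℂ) = q := by
    rw [hs']; ext <;> simp
  have hqe' : ((s + (a : ℂ) * q'.2, q'.2) : ℂ × ℂ) = q' := by
    rw [hs', hqq]; ext <;> simp
  have g1 := (hlev s q.2).1 (by rw [hqe]; exact hq)
  have g2 := (hlev s q'.2).1 (by rw [hqe']; exact hq')
  -- a high point
  obtain ⟨Y, hY⟩ : ∃ Y : ℝ, Y = 1 + (|s0.im| + |s.im|) / c := ⟨_, rfl⟩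
  have hY0 : 0 < Y := by rw [hY]; positivity
  have hcY : c * Y = c + (|s0.im| + |s.im|) := by rw [hY]; field_simp
  have hYs0 : s0.im < c * Y := by
    rw [hcY]; linarith [le_abs_self s0.im, abs_nonneg s.im]
  have hYs : s.im < c * Y := by
    rw [hcY]; linarith [le_abs_self s.im, abs_nonneg s0.im]
  obtain ⟨ζ1, hζ1⟩ : ∃ ζ1 : ℂ, ζ1 = ((Y : ℝ) : ℂ) * I := ⟨_, rfl⟩
  have hζ1i : ζ1.im = Y := by rw [hζ1]; simp
  have hz1 : ζ1 ∈ {ζ : ℂ | 0 < ζ.im ∧ s.im < c * ζ.im} := by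
    refine ⟨?_, ?_⟩
    · rw [hζ1i]; exact hY0
    · rw [hζ1i]; exact hYs
  have heq : (fun ζ => F (s + (a : ℂ) * ζ, ζ)) =ᶠ[𝓝 ζ1]
      fun _ => F (s + (a : ℂ) * ζ1, ζ1) := by
    have i1 : ∀ᶠ ζ : ℂ in 𝓝 ζ1, 0 < ζ.im :=
      (isOpen_lt continuous_const continuous_im).mem_nhds hz1.1
    have i2 : ∀ᶠ ζ : ℂ in 𝓝 ζ1, s.im < c * ζ.im :=
      (isOpen_lt continuous_const (continuous_const.mul continuous_im)).mem_nhds hz1.2
    have i3 : ∀ᶠ ζ : ℂ in 𝓝 ζ1, s0.im < c * ζ.im :=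
      (isOpen_lt continuous_const (continuous_const.mul continuous_im)).mem_nhds
        (show s0.im < c * ζ1.im by rw [hζ1i]; exact hYs0)
    filter_upwards [i1, i2, i3] with ζ j1 j2 j3
    exact hhigh ζ ζ1 j1 hz1.1 j3 (by rw [hζ1i]; exact hYs0) s j2 hz1.2
  have hid := ((hζ s).analyticOnNhd (hoζ s)).eqOn_of_preconnected_of_eventuallyEq
    (analyticOnNhd_const) (hcζ s).isPreconnected hz1 heq
  have e1 := hid (show q.2 ∈ {ζ : ℂ | 0 < ζ.im ∧ s.im < c * ζ.im} from g1)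
  have e2 := hid (show q'.2 ∈ {ζ : ℂ | 0 < ζ.im ∧ s.im < c * ζ.im} from g2)
  have e3 : F (s + (a : ℂ) * q.2, q.2) = F (s + (a : ℂ) * q'.2, q'.2) := e1.trans e2.symm
  rwa [hqe, hqe'] at e3

/-- a function of `s` only is entire -/
theorem exists_entire {a c : ℝ} (hc : 0 < c) {F : ℂ × ℂ → ℂ}
    (hF : DifferentiableOn ℂ F (Gam (a + c))) {O : Set (ℂ × ℂ)} (hO : IsOpen O)
    (hne : O.Nonempty) (hsub : O ⊆ Gam (a + c))
    (h : ∀ q ∈ O, ∀ q' ∈ O, q.1 - (a : ℂ) * q.2 = q'.1 - (a : ℂ) * q'.2 → F q = F q') :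
    ∃ g : ℂ → ℂ, Differentiable ℂ g ∧ (∀ q ∈ Gam (a + c), F q = g (q.1 - (a : ℂ) * q.2)) ∧
      ∀ s, g s = F (pt a c s) := by
  have hall := const_on_leaves hc hF hO hne hsub h
  have hpt : ∀ s, pt a c s ∈ Gam (a + c) := by
    intro s
    have := pt_mem (a := a) hc s
    refine ⟨this.1, this.2.trans ?_⟩
    have := mul_pos hc this.1
    nlinarith
  refine ⟨fun s => F (pt a c s), ?_, ?_, fun s => rfl⟩
  · intro s
    obtain ⟨ζ, hζ⟩ : ∃ ζ : ℂ, ζ = (pt a c s).2 := ⟨_, rfl⟩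
    have hmem : ((s + (a : ℂ) * ζ, ζ) : ℂ × ℂ) ∈ Gam (a + c) := by
      have : ((s + (a : ℂ) * ζ, ζ) : ℂ × ℂ) = pt a c s := by
        rw [hζ]; ext <;> simp [pt]
      rw [this]; exact hpt s
    have hcont : Continuous fun s' : ℂ => ((s' + (a : ℂ) * ζ, ζ) : ℂ × ℂ) := by fun_prop
    have hev : ∀ᶠ s' in 𝓝 s, ((s' + (a : ℂ) * ζ, ζ) : ℂ × ℂ) ∈ Gam (a + c) :=
      hcont.continuousAt.eventually ((isOpen_Gam _).mem_nhds hmem)
    have heq : (fun s => F (pt a c s)) =ᶠ[𝓝 s] fun s' => F (s' + (a : ℂ) * ζ, ζ) := by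
      filter_upwards [hev] with s' hs'
      refine hall _ (hpt s') _ hs' ?_
      rw [pt_s]; simp
    refine DifferentiableAt.congr_of_eventuallyEq ?_ heq
    have hd : DifferentiableAt ℂ F (s + (a : ℂ) * ζ, ζ) :=
      hF.differentiableAt ((isOpen_Gam _).mem_nhds hmem)
    have hi : DifferentiableAt ℂ (fun s' : ℂ => ((s' + (a : ℂ) * ζ, ζ) : ℂ × ℂ)) s :=
      (((differentiable_id (𝕜 := ℂ) (E := ℂ)).add_const _).prodMk (differentiable_const ζ)) s
    exact DifferentiableAt.comp s hd hi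
  · intro q hq
    refine hall q hq _ (hpt _) ?_
    rw [pt_s]

end Crest.Agent.R102.Liou203
end

-- ▼ part R102/SlowLim_575
section

/-!
Row 102, T1-B, EDGE, slow regime, leaf SL5 (909 #28960 (S4)-(S5)): the limit.

`slow_limit` : midpoints `T i` (normalised), offsets `Q i`; locally bounded `T i`, growth `θ < 1`,
unit jacobian after normalisation, `Q i` zero free below the face, zeros dense on the face,
oscillation of `T i` below the face `≥ 1/2` : contradiction.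
-/

set_option autoImplicit false
set_option linter.unusedSectionVars false
set_option linter.unusedVariables false

open Set Filter Topology Metric Complex

noncomputable section

namespace Crest.Agent.R102.Slow575

open Crest.Agent.R102.Liou203 Crest.Agent.R102.End613

variable {ι : Type}

/-- **Lemma X**, along the filter `l`; coordinates `(s, ζ)`, face `{im s = 0}` -/
def LemX (l : Filter ι) : Prop :=
  ∀ (s0 : ℝ) (z0 : ℂ) (r : ℝ), 0 < r → ∀ (m D k : ι → ℂ × ℂ → ℂ) (mu kap : ℂ × ℂ → ℂ),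
    (∀ᶠ i in l, DifferentiableOn ℂ (m i) (ball (s0 : ℂ) r ×ˢ ball z0 r) ∧
      DifferentiableOn ℂ (D i) (ball (s0 : ℂ) r ×ˢ ball z0 r)) →
    TendstoLocallyUniformlyOn m mu l (ball (s0 : ℂ) r ×ˢ ball z0 r) →
    (∀ᶠ i in l, ∀ q ∈ ball (s0 : ℂ) r ×ˢ ball z0 r,
      fderiv ℂ (m i) q (1, 0) * fderiv ℂ (D i) q (0, 1) -
        fderiv ℂ (m i) q (0, 1) * fderiv ℂ (D i) q (1, 0) = k i q) →
    TendstoLocallyUniformlyOn k kap l (ball (s0 : ℂ) r ×ˢ ball z0 r) →
    (∀ q ∈ ball (s0 : ℂ) r ×ˢ ball z0 r, kap q ≠ 0) →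
    (∀ K ⊆ (ball (s0 : ℂ) r ×ˢ ball z0 r) ∩ {q : ℂ × ℂ | q.1.im < 0}, IsCompact K →
      ∀ᶠ i in l, ∀ q ∈ K, D i q ≠ 0) →
    (∀ q ∈ ball (s0 : ℂ) r ×ˢ ball z0 r, q.1.im = 0 → ∀ e > 0, ∀ᶠ i in l,
      ∃ q' ∈ ball q e, D i q' = 0) →
    ∀ q ∈ ball (s0 : ℂ) r ×ˢ ball z0 r, q.1.im = 0 → fderiv ℂ mu q (0, 1) = 0

/-- the shear `(s, ζ) ↦ (s + a ζ, ζ)` -/
def sh (a : ℝ) : (ℂ × ℂ) →L[ℂ] (ℂ × ℂ) :=
  ((ContinuousLinearMap.fst ℂ ℂ ℂ) + (a : ℂ) • ContinuousLinearMap.snd ℂ ℂ ℂ).prod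
    (ContinuousLinearMap.snd ℂ ℂ ℂ)

@[simp] theorem sh_apply (a : ℝ) (q : ℂ × ℂ) : sh a q = (q.1 + (a : ℂ) * q.2, q.2) := by
  simp [sh]

theorem sh_dist (a : ℝ) (q q' : ℂ × ℂ) : dist (sh a q) (sh a q') ≤ (1 + |a|) * dist q q' := by
  have h1 : dist q.1 q'.1 ≤ dist q q' := by rw [Prod.dist_eq]; exact le_max_left _ _
  have h2 : dist q.2 q'.2 ≤ dist q q' := by rw [Prod.dist_eq]; exact le_max_right _ _
  have ha := abs_nonneg a
  rw [sh_apply, sh_apply, Prod.dist_eq]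
  refine max_le ?_ ?_
  · show dist (q.1 + (a : ℂ) * q.2) (q'.1 + (a : ℂ) * q'.2) ≤ _
    rw [dist_eq_norm]
    have e : q.1 + (a : ℂ) * q.2 - (q'.1 + (a : ℂ) * q'.2) = (q.1 - q'.1) + (a : ℂ) * (q.2 - q'.2) := by
      ring
    rw [e]
    refine (norm_add_le _ _).trans ?_
    rw [norm_mul, norm_real, Real.norm_eq_abs, ← dist_eq_norm, ← dist_eq_norm]
    nlinarith [dist_nonneg (x := q) (y := q')]
  · show dist q.2 q'.2 ≤ _
    nlinarith [dist_nonneg (x := q) (y := q')]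

/-- `f ∘ sh`, partial derivatives -/
theorem fderiv_sh {a : ℝ} {f : ℂ × ℂ → ℂ} {q : ℂ × ℂ} (hf : DifferentiableAt ℂ f (sh a q))
    (v : ℂ × ℂ) : fderiv ℂ (fun x => f (sh a x)) q v = fderiv ℂ f (sh a q) (sh a v) := by
  have h := hf.hasFDerivAt.comp q (sh a).hasFDerivAt
  have h' : fderiv ℂ (fun x => f (sh a x)) q = (fderiv ℂ f (sh a q)).comp (sh a) := h.fderiv
  rw [h']
  rfl

theorem isPreconnected_Gam (l : ℝ) : IsPreconnected (Gam l) := by
  apply Convex.isPreconnected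
  intro x hx y hy s t hs ht hst
  have hx1 := hx.1
  have hx2 := hx.2
  have hy1 := hy.1
  have hy2 := hy.2
  have e1 : (s • x + t • y).1.im = s * x.1.im + t * y.1.im := by simp
  have e2 : (s • x + t • y).2.im = s * x.2.im + t * y.2.im := by simp
  refine ⟨?_, ?_⟩
  · show 0 < (s • x + t • y).2.im
    rw [e2]
    rcases eq_or_lt_of_le hs with h | h
    · have : t = 1 := by linarith
      rw [← h, this]; linarith
    · have := mul_pos h hx1
      have := mul_nonneg ht hy1.le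
      linarith
  · show (s • x + t • y).1.im < l * (s • x + t • y).2.im
    rw [e1, e2]
    rcases eq_or_lt_of_le hs with h | h
    · have : t = 1 := by linarith
      rw [← h, this]; linarith
    · have h1 := mul_pos h (sub_pos.2 hx2)
      have h2 := mul_nonneg ht (sub_pos.2 hy2).le
      nlinarith

/-- **SL5** -/
theorem slow_limit (l : Filter ι) [l.NeBot] (hX : ∀ u : Ultrafilter ι, (u : Filter ι) ≤ l → LemX (u : Filter ι))
    {a c : ℝ} (hc : 0 < c) {T Q k : ι → ℂ × ℂ → ℂ} {J : ι → ℂ} {kap : ℂ × ℂ → ℂ}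
    (hloc : ∀ x ∈ Gam (a + c), ∃ r > 0, ∃ M : ℝ, ball x r ⊆ Gam (a + c) ∧ ∀ᶠ i in l,
      DifferentiableOn ℂ (T i) (ball x r) ∧ DifferentiableOn ℂ (Q i) (ball x r) ∧
      (∀ w ∈ ball x r, ‖T i w‖ ≤ M) ∧
      ∀ w ∈ ball x r, fderiv ℂ (Q i) w (1, 0) * fderiv ℂ (T i) w (0, 1) -
        fderiv ℂ (Q i) w (0, 1) * fderiv ℂ (T i) w (1, 0) = J i * k i w)
    {th : ℝ} (hth0 : 0 ≤ th) (hth : th < 1) {C : ℝ}
    (hgrow : ∀ q : ℂ × ℂ, 1 ≤ q.2.im → q.1.im ≤ (a + c / 2) * q.2.im →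
      ‖q.1‖ ≤ (|a| + c) * q.2.im → ‖q.2‖ ≤ q.2.im → ∀ᶠ i in l, ‖T i q‖ ≤ C * q.2.im ^ th)
    {K0 : Set (ℂ × ℂ)} (hK0 : IsCompact K0) (hK0s : K0 ⊆ Gam a)
    (hosc : ∀ᶠ i in l, ∃ q ∈ K0, ∃ q' ∈ K0, 1 / 2 ≤ ‖T i q - T i q'‖)
    (hJ : ∀ᶠ i in l, J i ≠ 0) (hk : TendstoLocallyUniformlyOn k kap l (Gam (a + c)))
    (hkap : ∀ q ∈ Gam (a + c), kap q ≠ 0)
    (hfree : ∀ K ⊆ Gam a, IsCompact K → ∀ᶠ i in l, ∀ q ∈ K, Q i q ≠ 0)
    (hdense : ∀ q : ℂ × ℂ, 0 < q.2.im → q.1.im = a * q.2.im → ∀ e > 0, ∀ᶠ i in l,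
      ∃ q' ∈ ball q e, Q i q' = 0) : False := by
  classical
  set u : Ultrafilter ι := Ultrafilter.of l with hu
  have hul : (u : Filter ι) ≤ l := Ultrafilter.of_le l
  have hne : (u : Filter ι).NeBot := u.neBot
  have hGo := isOpen_Gam (a + c)
  have hGc := isPreconnected_Gam (a + c)
  have hsubG : Gam a ⊆ Gam (a + c) := fun q hq => ⟨hq.1, by
    have := mul_pos hc hq.1
    have := hq.2
    nlinarith⟩
  obtain ⟨F, hF, hFl⟩ := montel_ev u hGo (f := T) (fun x hx => by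
    obtain ⟨r, hr, M, hs, h⟩ := hloc x hx
    exact ⟨r, hr, M, hs, (h.filter_mono hul).mono fun i hi => ⟨hi.1, hi.2.2.1⟩⟩)
  have hku : TendstoLocallyUniformlyOn k kap u (Gam (a + c)) := by
    rw [Metric.tendstoLocallyUniformlyOn_iff] at hk ⊢
    intro ε hε x hx
    obtain ⟨t, ht, h⟩ := hk ε hε x hx
    exact ⟨t, ht, hul h⟩
  -- the derivative along the leaves vanishes on the face
  have hface : ∀ q ∈ Gam (a + c), q.1.im = a * q.2.im → fderiv ℂ F q ((a : ℂ), 1) = 0 := by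
    intro q hq hqf
    obtain ⟨r, hr, M, hs, h⟩ := hloc q hq
    set s0 : ℂ := q.1 - a * q.2 with hs0
    have hs0r : s0 = (s0.re : ℂ) := by
      apply Complex.ext
      · simp
      · rw [Complex.ofReal_im, hs0, Complex.sub_im, hqf]; simp
    set r' : ℝ := r / (1 + |a|) with hr'
    have hr'0 : 0 < r' := by positivity
    have hshq : sh a (s0, q.2) = q := by
      rw [sh_apply]
      ext <;> simp [hs0]
    have hmem : ∀ x ∈ ball ((s0.re : ℝ) : ℂ) r' ×ˢ ball q.2 r', sh a x ∈ ball q r := by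
      intro x hx
      have h1 : dist x (s0, q.2) < r' := by
        rw [Prod.dist_eq]
        refine max_lt ?_ hx.2
        have := hx.1
        rwa [← hs0r] at this
      have h2 := sh_dist a x (s0, q.2)
      rw [hshq] at h2
      rw [mem_ball]
      refine lt_of_le_of_lt h2 ?_
      have h3 : (1 + |a|) * dist x (s0, q.2) < (1 + |a|) * r' :=
        mul_lt_mul_of_pos_left h1 (by positivity)
      rw [hr'] at h3
      rwa [mul_div_cancel₀ _ (by positivity : (1 + |a|) ≠ 0)] at h3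
    set P : Set (ℂ × ℂ) := ball ((s0.re : ℝ) : ℂ) r' ×ˢ ball q.2 r' with hP
    have hmt : MapsTo (sh a) P (ball q r) := hmem
    have hx0 : ((s0, q.2) : ℂ × ℂ) ∈ P := by
      refine ⟨?_, mem_ball_self hr'0⟩
      show s0 ∈ ball ((s0.re : ℝ) : ℂ) r'
      rw [← hs0r]; exact mem_ball_self hr'0
    have hcs : ContinuousOn (sh a) P := (sh a).continuous.continuousOn
    have hu1 := hul h
    have key := hX u hul s0.re q.2 r' hr'0 (fun i x => T i (sh a x))
      (fun i x => Q i (sh a x) / J i) (fun i x => -(k i (sh a x))) (fun x => F (sh a x))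
      (fun x => -(kap (sh a x))) ?_ ?_ ?_ ?_ ?_ ?_ ?_ (s0, q.2) hx0 ?_
    · have hd : DifferentiableAt ℂ F (sh a (s0, q.2)) := by
        rw [hshq]; exact hF.differentiableAt (hGo.mem_nhds hq)
      rw [fderiv_sh hd, hshq] at key
      have e : sh a ((0, 1) : ℂ × ℂ) = ((a : ℂ), 1) := by rw [sh_apply]; simp
      rwa [e] at key
    · filter_upwards [hu1] with i hi
      refine ⟨hi.1.comp (sh a).differentiable.differentiableOn hmt, ?_⟩
      have h2 : DifferentiableOn ℂ (fun x => Q i (sh a x)) P :=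
        hi.2.1.comp (sh a).differentiable.differentiableOn hmt
      simpa only [div_eq_mul_inv] using h2.mul_const (J i)⁻¹
    · exact (hFl.mono hs).comp (sh a) hmt hcs
    · filter_upwards [hu1, hul hJ] with i hi hJi x hx
      have hT : DifferentiableAt ℂ (T i) (sh a x) :=
        hi.1.differentiableAt (isOpen_ball.mem_nhds (hmem x hx))
      have hQ : DifferentiableAt ℂ (Q i) (sh a x) :=
        hi.2.1.differentiableAt (isOpen_ball.mem_nhds (hmem x hx))
      have hQ' : ∀ v, fderiv ℂ (fun y => Q i (sh a y) / J i) x v =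
          fderiv ℂ (Q i) (sh a x) (sh a v) / J i := by
        intro v
        have h1 : DifferentiableAt ℂ (fun y => Q i (sh a y)) x :=
          hQ.comp x (sh a).differentiableAt
        have h2 : (fun y => Q i (sh a y) / J i) = fun y => (J i)⁻¹ • Q i (sh a y) := by
          funext y; rw [smul_eq_mul, div_eq_inv_mul]
        rw [h2, fderiv_fun_const_smul h1]
        simp only [FunLike.coe_smul, Pi.smul_apply, smul_eq_mul]
        rw [fderiv_sh hQ, div_eq_inv_mul]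
      have e10 : sh a ((1, 0) : ℂ × ℂ) = (1, 0) := by rw [sh_apply]; simp
      have e01 : sh a ((0, 1) : ℂ × ℂ) = (a : ℂ) • ((1, 0) : ℂ × ℂ) + (0, 1) := by
        rw [sh_apply]; simp
      rw [hQ', hQ', fderiv_sh hT, fderiv_sh hT, e10, e01]
      simp only [map_add, map_smul, smul_eq_mul]
      have h3 := hi.2.2.2 (sh a x) (hmem x hx)
      field_simp
      linear_combination -h3
    · have h1 := (hku.mono hs).comp (sh a) hmt hcs
      exact h1.neg
    · intro x hx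
      exact neg_ne_zero.2 (hkap _ (hs (hmem x hx)))
    · intro K hK hKc
      have h1 : sh a '' K ⊆ Gam a := by
        rintro _ ⟨x, hx, rfl⟩
        have hx1 := hK hx
        have h2 : (sh a x) ∈ Gam (a + c) := hs (hmem x hx1.1)
        refine ⟨h2.1, ?_⟩
        have h3 : x.1.im < 0 := hx1.2
        show (sh a x).1.im < a * (sh a x).2.im
        rw [sh_apply]
        simp
        exact h3
      filter_upwards [hul (hfree _ h1 (hKc.image (sh a).continuous)), hul hJ] with i hi hJi x hx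
      exact div_ne_zero (hi _ (mem_image_of_mem _ hx)) hJi
    · intro x hx hx0' e he
      have h2 : (sh a x) ∈ Gam (a + c) := hs (hmem x hx)
      have h3 : (sh a x).1.im = a * (sh a x).2.im := by
        rw [sh_apply]; simp [hx0']
      -- the inverse shear
      have h4 := hdense (sh a x) h2.1 h3 (e / (1 + |a|)) (by positivity)
      filter_upwards [hul h4, hul hJ] with i hi hJi
      obtain ⟨y, hy, hy0⟩ := hi
      refine ⟨(y.1 - (a : ℂ) * y.2, y.2), ?_, ?_⟩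
      · have h5 : sh (-a) y = (y.1 - (a : ℂ) * y.2, y.2) := by
          rw [sh_apply]; push_cast; ring_nf
        have h6 : sh (-a) (sh a x) = x := by
          rw [sh_apply, sh_apply]; ext <;> simp
        have h7 := sh_dist (-a) y (sh a x)
        rw [h5, h6, abs_neg] at h7
        rw [mem_ball]
        refine lt_of_le_of_lt h7 ?_
        rw [mem_ball] at hy
        have h8 : (1 + |a|) * dist y (sh a x) < (1 + |a|) * (e / (1 + |a|)) :=
          mul_lt_mul_of_pos_left hy (by positivity)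
        rwa [mul_div_cancel₀ _ (by positivity : (1 + |a|) ≠ 0)] at h8
      · have h5 : sh a (y.1 - (a : ℂ) * y.2, y.2) = y := by
          rw [sh_apply]; ext <;> simp
        show Q i (sh a (y.1 - (a : ℂ) * y.2, y.2)) / J i = 0
        rw [h5, hy0, zero_div]
    · show s0.im = 0
      rw [hs0r, Complex.ofReal_im]
  -- the derivative along the leaves vanishes everywhere
  have hFan : AnalyticOnNhd ℂ F (Gam (a + c)) :=
    Crest.Agent.R266.SCV.analyticOnNhd_of_differentiableOn hGo hF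
  have hdiff : DifferentiableOn ℂ (fun q => fderiv ℂ F q ((a : ℂ), 1)) (Gam (a + c)) := by
    intro q hq
    have h1 : AnalyticAt ℂ (fderiv ℂ F) q := (hFan q hq).fderiv
    exact (h1.differentiableAt.clm_apply (differentiableAt_const _)).differentiableWithinAt
  obtain ⟨q₀, hq₀, hq₀f⟩ : ∃ q₀ ∈ Gam (a + c), q₀.1.im = a * q₀.2.im := by
    refine ⟨((a : ℂ) * I, I), ⟨by simp, ?_⟩, by simp⟩
    show ((a : ℂ) * I).im < (a + c) * (I : ℂ).im
    simp [hc]
  have hall := face_unique hGo hGc (μ := (a : ℂ)) hdiff hq₀ (by rw [hq₀f]; simp) (by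
    filter_upwards [hGo.mem_nhds hq₀] with q hq hqf
    exact hface q hq (by rw [hqf]; simp))
  -- constant on leaves in a ball
  obtain ⟨r, hr, hball⟩ := Metric.isOpen_iff.1 hGo q₀ hq₀
  have hleaf : ∀ q ∈ ball q₀ r, ∀ q' ∈ ball q₀ r,
      q.1 - (a : ℂ) * q.2 = q'.1 - (a : ℂ) * q'.2 → F q = F q' := by
    intro q hq q' hq' hs
    have hseg : ∀ t : ℝ, t ∈ Icc (0 : ℝ) 1 → q + (t : ℂ) • (q' - q) ∈ ball q₀ r := by
      intro t ht
      have := (convex_ball q₀ r) hq hq' (sub_nonneg.2 ht.2) ht.1 (by ring)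
      have e : (1 - t) • q + t • q' = q + (t : ℂ) • (q' - q) := by
        ext <;> simp <;> ring
      rwa [e] at this
    have hv : q' - q = (q'.2 - q.2) • (((a : ℂ), 1) : ℂ × ℂ) := by
      ext
      · simp
        linear_combination -hs
      · simp
    have hder : ∀ t ∈ Icc (0 : ℝ) 1, HasDerivWithinAt (fun t : ℝ => F (q + (t : ℂ) • (q' - q))) 0
        (Icc 0 1) t := by
      intro t ht
      have h1 : HasFDerivAt F (fderiv ℂ F (q + (t : ℂ) • (q' - q))) (q + (t : ℂ) • (q' - q)) :=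
        (hF.differentiableAt (hGo.mem_nhds (hball (hseg t ht)))).hasFDerivAt
      have h2 : HasDerivAt (fun t : ℝ => q + (t : ℂ) • (q' - q)) (q' - q) t := by
        have h3 : HasDerivAt (fun t : ℝ => (t : ℂ)) 1 t := Complex.ofRealCLM.hasDerivAt
        have h4 := (h3.smul_const (q' - q)).const_add q
        simpa using h4
      have h5' : HasDerivAt (F ∘ fun t : ℝ => q + (t : ℂ) • (q' - q))
          (((fderiv ℂ F (q + (t : ℂ) • (q' - q))).restrictScalars ℝ) (q' - q)) t :=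
        HasFDerivAt.comp_hasDerivAt (l := F) (f := fun t : ℝ => q + (t : ℂ) • (q' - q)) t
          (h1.restrictScalars ℝ) h2
      have h5 : HasDerivAt (fun t : ℝ => F (q + (t : ℂ) • (q' - q)))
          ((fderiv ℂ F (q + (t : ℂ) • (q' - q))) (q' - q)) t := h5'
      have h6 : (fderiv ℂ F (q + (t : ℂ) • (q' - q))) (q' - q) = 0 := by
        rw [hv, map_smul]
        have := hall _ (hball (hseg t ht))
        rw [hv] at this
        rw [this, smul_zero]
      rw [h6] at h5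
      exact h5.hasDerivWithinAt
    have h0 : (0 : ℝ) ∈ Icc (0 : ℝ) 1 := by simp
    have h1 : (1 : ℝ) ∈ Icc (0 : ℝ) 1 := by simp
    have hconst := (convex_Icc (0 : ℝ) 1).is_const_of_fderivWithin_eq_zero (𝕜 := ℝ)
      (f := fun t : ℝ => F (q + (t : ℂ) • (q' - q)))
      (fun t ht => (hder t ht).differentiableWithinAt) (fun t ht => by
        have hud : UniqueDiffWithinAt ℝ (Icc (0 : ℝ) 1) t :=
          (uniqueDiffOn_Icc zero_lt_one) t ht
        have := (hder t ht).hasFDerivWithinAt.fderivWithin hud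
        rw [this]
        ext
        simp) h0 h1
    simpa using hconst
  obtain ⟨G, hG, hGF, hGpt⟩ := exists_entire hc hF isOpen_ball ⟨q₀, mem_ball_self hr⟩ hball hleaf
  -- growth
  have hGgrow : ∀ s, ‖G s‖ ≤ |C| * (1 + 2 / c) ^ th * (1 + ‖s‖) ^ th := by
    intro s
    have h1 : (pt a c s).2.im = 1 + 2 * ‖s‖ / c := pt_im a c s
    have h2 : 1 ≤ (pt a c s).2.im := by
      rw [h1]
      have : 0 ≤ 2 * ‖s‖ / c := by positivity
      linarith
    have h3 : ‖(pt a c s).2‖ = 1 + 2 * ‖s‖ / c := by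
      have : ‖(((1 + 2 * ‖s‖ / c : ℝ) : ℂ) * I)‖ = |1 + 2 * ‖s‖ / c| := by
        rw [norm_mul, norm_I, mul_one, norm_real, Real.norm_eq_abs]
      show ‖(((1 + 2 * ‖s‖ / c : ℝ) : ℂ) * I)‖ = _
      rw [this, abs_of_nonneg (by positivity)]
    have h4 : ‖(pt a c s).1‖ ≤ (|a| + c) * (pt a c s).2.im := by
      have e : (pt a c s).1 = s + (a : ℂ) * (pt a c s).2 := by simp [pt]
      rw [e]
      refine (norm_add_le _ _).trans ?_
      rw [norm_mul, h3, norm_real, Real.norm_eq_abs, h1]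
      have h5 : ‖s‖ ≤ c * (1 + 2 * ‖s‖ / c) := by
        have : c * (1 + 2 * ‖s‖ / c) = c + 2 * ‖s‖ := by field_simp
        rw [this]
        linarith [norm_nonneg s]
      nlinarith [abs_nonneg a]
    have h5 := hgrow (pt a c s) h2 (pt_mem hc s).2.le h4 (by rw [h3, h1])
    have h6 : Tendsto (fun i => ‖T i (pt a c s)‖) u (𝓝 ‖F (pt a c s)‖) :=
      (hFl.tendsto_at (by
        have := pt_mem (a := a) hc s
        refine ⟨this.1, this.2.trans ?_⟩
        have := mul_pos hc this.1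
        nlinarith)).norm
    have h7 : ‖F (pt a c s)‖ ≤ C * (pt a c s).2.im ^ th := le_of_tendsto h6 (hul h5)
    rw [hGpt]
    refine h7.trans ?_
    have h8 : (pt a c s).2.im ≤ (1 + 2 / c) * (1 + ‖s‖) := by
      rw [h1]
      have h9 : 2 * ‖s‖ / c = 2 / c * ‖s‖ := by ring
      rw [h9]
      have : 0 < 2 / c := by positivity
      nlinarith [norm_nonneg s]
    have h9 : (pt a c s).2.im ^ th ≤ ((1 + 2 / c) * (1 + ‖s‖)) ^ th :=
      Real.rpow_le_rpow (by linarith) h8 hth0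
    rw [Real.mul_rpow (by positivity) (by positivity)] at h9
    calc C * (pt a c s).2.im ^ th ≤ |C| * (pt a c s).2.im ^ th :=
          mul_le_mul_of_nonneg_right (le_abs_self C) (Real.rpow_nonneg (by linarith) _)
      _ ≤ |C| * ((1 + 2 / c) ^ th * (1 + ‖s‖) ^ th) :=
          mul_le_mul_of_nonneg_left h9 (abs_nonneg C)
      _ = _ := by ring
  have hconst := const_of_norm_le hG hth hGgrow
  -- the oscillation
  have hunif : TendstoUniformlyOn T F u K0 :=
    (tendstoLocallyUniformlyOn_iff_tendstoUniformlyOn_of_compact hK0).1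
      (hFl.mono (hK0s.trans hsubG))
  have h1 := Metric.tendstoUniformlyOn_iff.1 hunif (1 / 8) (by norm_num)
  obtain ⟨i, hi, q, hq, q', hq', ho⟩ := (h1.and (hul hosc)).exists
  have e1 := hi q hq
  have e2 := hi q' hq'
  have e3 : F q = F q' := by
    rw [hGF q (hsubG (hK0s hq)), hGF q' (hsubG (hK0s hq')), hconst, ← hconst (q'.1 - a * q'.2)]
  rw [dist_eq_norm] at e1 e2
  have e4 : T i q - T i q' = -(F q - T i q) + (F q' - T i q') := by rw [e3]; ring
  rw [e4] at ho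
  have e5 := norm_add_le (-(F q - T i q)) (F q' - T i q')
  rw [norm_neg] at e5
  linarith

end Crest.Agent.R102.Slow575
end
end

-- ▼ part R102/LimK_654
section

/-!
Row 102, T1-B, EDGE / SLOW (helper654): the tangent chart on the worlds of `EdgeDefs_255`.

* `offs`  : in a world whose labels tend to `b₀` (`ψ' b₀ ≠ 0`) and whose lines tend to the tangent at
  `b₀`, the offsets `Q n = ± p n - hs (φ n - j π)` are zero free below the face, and their zeros are
  dense at the face; `dφ ∧ dQ = ± dφ ∧ dp`;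
* `limK`  : the end of the slow regime (with `Slow575.slow_limit` and `LemX262`).
-/

set_option autoImplicit false

open Set Filter Topology Metric Complex

noncomputable section

namespace Crest.Agent.R102.LimK654

open Crest.Agent.R102.Edge255
open Crest.Agent.R102.T5 (Str isOpen_Str)
open Crest.Agent.R102.B821 (q1 q2)
open Crest.Agent.R102.F300 (ZZ ZZc Sreg)
open Crest.Agent.R102.Tang654

/-! ### geometry of the wedges -/

theorem isOpen_Wg (m : ℝ) : IsOpen (Wg m) := by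
  have h1 : IsOpen {q : ℂ × ℂ | 0 < q.2.im} := isOpen_lt (by fun_prop) (by fun_prop)
  have h2 : IsOpen {q : ℂ × ℂ | q.1.im < m * q.2.im} := isOpen_lt (by fun_prop) (by fun_prop)
  exact h1.inter h2

theorem convex_Wg (m : ℝ) : Convex ℝ (Wg m) := by
  intro x hx y hy s t hs ht hst
  have e1 : (s • x + t • y).1.im = s * x.1.im + t * y.1.im := by simp
  have e2 : (s • x + t • y).2.im = s * x.2.im + t * y.2.im := by simp
  obtain ⟨hx1, hx2⟩ := hx
  obtain ⟨hy1, hy2⟩ := hy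
  refine ⟨?_, ?_⟩
  · rw [e2]
    rcases eq_or_lt_of_le hs with h | h
    · have : t = 1 := by linarith
      rw [← h, this]
      linarith
    · have := mul_pos h hx1
      have := mul_nonneg ht hy1.le
      linarith
  · rw [e1, e2]
    rcases eq_or_lt_of_le hs with h | h
    · have : t = 1 := by linarith
      rw [← h, this]
      linarith
    · nlinarith [mul_lt_mul_of_pos_left hx2 h, mul_le_mul_of_nonneg_left hy2.le ht]

theorem Wg_mono {a g : ℝ} (hg : 0 < g) : Wg a ⊆ Wg (a + g) := by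
  rintro q ⟨h1, h2⟩
  refine ⟨h1, ?_⟩
  nlinarith [mul_pos hg h1]

theorem face_mem {a g : ℝ} (hg : 0 < g) {q : ℂ × ℂ} (h1 : 0 < q.2.im) (h2 : q.1.im = a * q.2.im) :
    q ∈ Wg (a + g) := by
  refine ⟨h1, ?_⟩
  rw [h2]
  nlinarith [mul_pos hg h1]

theorem z0_mem {a : ℝ} (ha : 0 ≤ a) : z0 ∈ Wg a := by
  refine ⟨?_, ?_⟩
  · simp [z0]
  · simp [z0]
    have : (0 : ℝ) ≤ a * 4⁻¹ := by positivity
    linarith

/-- a compact convex set between a compact set and an open convex set -/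
theorem hull {K U : Set (ℂ × ℂ)} (hK : IsCompact K) (hU : IsOpen U) (hUc : Convex ℝ U)
    (hKU : K ⊆ U) : ∃ K' : Set (ℂ × ℂ), K ⊆ K' ∧ K' ⊆ U ∧ IsCompact K' ∧ Convex ℝ K' := by
  obtain ⟨F, hF, hFU, hKF⟩ : ∃ F : Set (ℂ × ℂ), F.Finite ∧ F ⊆ U ∧ K ⊆ convexHull ℝ F := by
    refine hK.induction_on (p := fun s => ∃ F : Set (ℂ × ℂ), F.Finite ∧ F ⊆ U ∧
      s ⊆ convexHull ℝ F) ⟨∅, finite_empty, empty_subset _, empty_subset _⟩ ?_ ?_ ?_
    · rintro s t hst ⟨F, h1, h2, h3⟩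
      exact ⟨F, h1, h2, hst.trans h3⟩
    · rintro s t ⟨F, h1, h2, h3⟩ ⟨F', h1', h2', h3'⟩
      exact ⟨F ∪ F', h1.union h1', union_subset h2 h2',
        union_subset (h3.trans (convexHull_mono subset_union_left))
          (h3'.trans (convexHull_mono subset_union_right))⟩
    · intro x hx
      obtain ⟨b, hb1, hb2⟩ := exists_mem_interior_convexHull_affineBasis
        (hU.mem_nhds (hKU hx))
      exact ⟨interior (convexHull ℝ (range b)),
        mem_nhdsWithin_of_mem_nhds (isOpen_interior.mem_nhds hb1), range b, finite_range b,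
        (subset_convexHull ℝ (range b)).trans hb2, interior_subset⟩
  exact ⟨convexHull ℝ F, hKF, convexHull_min hFU hUc, hF.isCompact_convexHull ℝ,
    convex_convexHull ℝ F⟩

/-! ### the chart at a regular label -/

theorem chart_of {h : ℝ} {ψ H : ℂ → ℂ} (hC : Curve h ψ H) {b₀ : ℂ} (hb₀ : |b₀.im| < h)
    (hy : deriv ψ b₀ ≠ 0) {r0 : ℝ} (hr0 : 0 < r0) :
    ∃ r > 0, r ≤ r0 ∧ closedBall b₀ r ⊆ Sreg (Str h) ψ ∧ ∃ δ > 0, δ ≤ r0 ∧ ∃ (τ : ℂ → ℂ) (k₀ : ℂ),
      Chart (ZZ ψ H) (ZZc ψ H) ψ (fun z => 1 / deriv ψ z ^ 2) b₀ r δ τ k₀ := by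
  have hS : IsOpen (Sreg (Str h) ψ) := F300.isOpen_Sreg (isOpen_Str h) hC.ψ_diff
  have hbS : b₀ ∈ Sreg (Str h) ψ := ⟨hb₀, hy⟩
  refine exists_chart hS hbS ?_ ?_ (hC.ψ_diff.mono fun z hz => hz.1) ?_ ?_ hy hr0
  · intro z hz
    have h1 := (F300.hasDerivAt_ZZ (isOpen_Str h) hC.ψ_diff hC.H_diff hC.rel hz.1 hz.2).1
    rwa [neg_neg] at h1
  · intro z hz
    have h1 := (F300.hasDerivAt_ZZ (isOpen_Str h) hC.ψ_diff hC.H_diff hC.rel hz.1 hz.2).2
    rwa [neg_neg] at h1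
  · have h1 : ContinuousAt (deriv ψ) b₀ :=
      (hC.ψ_diff.analyticAt ((isOpen_Str h).mem_nhds hb₀)).deriv.continuousAt
    exact continuousAt_const.div (h1.pow 2) (pow_ne_zero 2 hy)
  · exact one_div_ne_zero (pow_ne_zero 2 hy)

/-! ### half turns of a line -/

theorem cos_sq (j : ℤ) : Complex.cos (j * Real.pi) * Complex.cos (j * Real.pi) = 1 := by
  have h1 := Complex.sin_sq_add_cos_sq ((j : ℂ) * Real.pi)
  rw [Complex.sin_int_mul_pi] at h1
  linear_combination h1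

theorem cos_ne (j : ℤ) : Complex.cos (j * Real.pi) ≠ 0 := by
  intro h
  have := cos_sq j
  rw [h] at this
  simp at this

theorem inc_shift {ψ H : ℂ → ℂ} {φ p b : ℂ} (j : ℤ) (h : F300.Inc ψ H φ p b) :
    F300.Inc ψ H (φ - j * Real.pi) (Complex.cos (j * Real.pi) * p) b := by
  unfold F300.Inc at h ⊢
  have e : φ - j * Real.pi - ψ b = (φ - ψ b) - j * Real.pi := by ring
  rw [e, Complex.cos_sub (φ - ψ b) (j * Real.pi), Complex.sin_sub (φ - ψ b) (j * Real.pi),
    Complex.sin_int_mul_pi]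
  linear_combination (Complex.cos (j * Real.pi)) * h

theorem sin_shift {ψ : ℂ → ℂ} {φ b : ℂ} (j : ℤ) :
    Complex.sin (φ - j * Real.pi - ψ b) = Complex.sin (φ - ψ b) * Complex.cos (j * Real.pi) := by
  have e : φ - j * Real.pi - ψ b = (φ - ψ b) - j * Real.pi := by ring
  rw [e, Complex.sin_sub, Complex.sin_int_mul_pi]
  ring

theorem inc613 {ψ H : ℂ → ℂ} {φ p b : ℂ} (hb : deriv ψ b ≠ 0) (h : F300.Inc ψ H φ p b) :
    End613.Inc φ p (ZZ ψ H b) (ZZc ψ H b) = 0 := by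
  have h1 := (F300.onLine_iff ψ H hb).2 h
  unfold C0.OnLine at h1
  unfold End613.Inc
  linear_combination h1

theorem hsf_val {ψ H c τ : ℂ → ℂ} {b₀ k₀ : ℂ} {r δ : ℝ}
    (hch : Chart (ZZ ψ H) (ZZc ψ H) ψ c b₀ r δ τ k₀) (hy : deriv ψ b₀ ≠ 0) :
    hsf (ZZ ψ H) (ZZc ψ H) τ (ψ b₀) = H b₀ := by
  rw [hch.hsf_b₀]
  refine inc_iff.1 (inc613 hy ?_)
  unfold F300.Inc
  rw [sub_self]
  simp

/-! ### offsets in a world -/

variable {h a g : ℝ} {ψ H : ℂ → ℂ} {A0 : ℂ} {φ p B : ℕ → ℂ × ℂ → ℂ}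

theorem offs (W : World h a g ψ H A0 φ p B) {l : Filter ℕ} (hl : l ≤ atTop) {b₀ : ℂ}
    (hb₀ : |b₀.im| < h) (hy : deriv ψ b₀ ≠ 0) (j : ℤ)
    (hB : ∀ K ⊆ Wg a, IsCompact K → ∀ ε > 0, ∀ᶠ n in l, ∀ q ∈ K, ‖B n q - b₀‖ < ε)
    (hφ : ∀ K ⊆ Wg (a + g), IsCompact K → ∀ ε > 0, ∀ᶠ n in l, ∀ q ∈ K,
      ‖φ n q - j * Real.pi - ψ b₀‖ < ε)
    (hp : ∀ K ⊆ Wg (a + g), IsCompact K → ∀ ε > 0, ∀ᶠ n in l, ∀ q ∈ K,
      ‖Complex.cos (j * Real.pi) * p n q - H b₀‖ < ε) :
    ∃ hs : ℂ → ℂ,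
      (∀ K ⊆ Wg (a + g), IsCompact K → ∀ᶠ n in l, ∃ U : Set (ℂ × ℂ), IsOpen U ∧ K ⊆ U ∧
        DifferentiableOn ℂ (φ n) U ∧
        DifferentiableOn ℂ
          (fun q => Complex.cos (j * Real.pi) * p n q - hs (φ n q - j * Real.pi)) U ∧
        ∀ q ∈ U, q1 (φ n) q *
            q2 (fun q => Complex.cos (j * Real.pi) * p n q - hs (φ n q - j * Real.pi)) q -
          q2 (φ n) q *
            q1 (fun q => Complex.cos (j * Real.pi) * p n q - hs (φ n q - j * Real.pi)) q =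
          Complex.cos (j * Real.pi) * (q1 (φ n) q * q2 (p n) q - q2 (φ n) q * q1 (p n) q)) ∧
      (∀ K ⊆ Wg a, IsCompact K → ∀ᶠ n in l, ∀ q ∈ K,
        Complex.cos (j * Real.pi) * p n q - hs (φ n q - j * Real.pi) ≠ 0) ∧
      ∀ q : ℂ × ℂ, 0 < q.2.im → q.1.im = a * q.2.im → ∀ e > 0, ∀ᶠ n in l, ∃ q' ∈ ball q e,
        Complex.cos (j * Real.pi) * p n q' - hs (φ n q' - j * Real.pi) = 0 := by
  obtain ⟨r, hr, -, hrS, δ, hδ, -, τ, k₀, hch⟩ := chart_of W.curve hb₀ hy one_pos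
  have hHb := hsf_val hch hy
  have hgp := W.g_pos
  refine ⟨hsf (ZZ ψ H) (ZZc ψ H) τ, ?_, ?_, ?_⟩
  · intro K hK hKc
    filter_upwards [hl (W.regL K hK hKc), hφ K hK hKc δ hδ] with n hn hφn
    obtain ⟨U, hU, hKU, h1, h2⟩ := hn
    have hopen : IsOpen (U ∩ (fun q => φ n q - j * Real.pi) ⁻¹' ball (ψ b₀) δ) :=
      (h1.continuousOn.sub continuousOn_const).isOpen_inter_preimage hU isOpen_ball
    refine ⟨_, hopen, fun q hq => ⟨hKU hq, mem_ball_iff_norm.2 (hφn q hq)⟩,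
      h1.mono inter_subset_left, ?_, ?_⟩
    · intro q hq
      have d1 : DifferentiableAt ℂ (φ n) q := h1.differentiableAt (hU.mem_nhds hq.1)
      have d2 : DifferentiableAt ℂ (p n) q := h2.differentiableAt (hU.mem_nhds hq.1)
      have d3 : DifferentiableAt ℂ (hsf (ZZ ψ H) (ZZc ψ H) τ) (φ n q - j * Real.pi) :=
        hch.hsf_diff.differentiableAt (isOpen_ball.mem_nhds hq.2)
      exact ((d2.const_mul _).sub
        (DifferentiableAt.comp q d3 (d1.sub_const _))).differentiableWithinAt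
    · intro q hq
      have d1 : DifferentiableAt ℂ (φ n) q := h1.differentiableAt (hU.mem_nhds hq.1)
      have d2 : DifferentiableAt ℂ (p n) q := h2.differentiableAt (hU.mem_nhds hq.1)
      obtain ⟨Q', hQ', harea⟩ := hch.area (d1.sub_const (j * Real.pi : ℂ)).hasFDerivAt
        (d2.const_mul (Complex.cos (j * Real.pi))).hasFDerivAt hq.2
      have e1 : fderiv ℂ (fun q => φ n q - (j * Real.pi : ℂ)) q = fderiv ℂ (φ n) q := by
        rw [fderiv_sub_const]
      have e2 : fderiv ℂ (fun q => Complex.cos (j * Real.pi) * p n q) q =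
          Complex.cos (j * Real.pi) • fderiv ℂ (p n) q := fderiv_const_mul d2 _
      have h3 := harea (1, 0) (0, 1)
      rw [e1, e2] at h3
      simp only [q1, q2]
      rw [hQ'.fderiv, h3]
      simp only [_root_.smul_apply, smul_eq_mul]
      ring
  · intro K hK hKc
    filter_upwards [hl (W.regX K hK hKc), hB K hK hKc r hr,
      hφ K (hK.trans (Wg_mono hgp)) hKc δ hδ] with n hn hBn hφn q hq hQ
    obtain ⟨U, hU, hKU, h1, h2⟩ := hn
    obtain ⟨-, h3, h4⟩ := h2 q (hKU hq)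
    have hbm : B n q ∈ closedBall b₀ r := mem_closedBall_iff_norm.2 (hBn q hq).le
    have hyB : deriv ψ (B n q) ≠ 0 := (hrS hbm).2
    have h5 := inc613 hyB (inc_shift j h3)
    have hφm : φ n q - j * Real.pi ∈ ball (ψ b₀) δ := mem_ball_iff_norm.2 (hφn q hq)
    have h6 := hch.size_le hφm hbm h5
    rw [hQ, norm_zero] at h6
    have hμ := hch.mu_pos
    have h7 : ‖B n q - τ (φ n q - j * Real.pi)‖ = 0 := by
      by_contra hne
      have h8 : 0 < ‖B n q - τ (φ n q - j * Real.pi)‖ := lt_of_le_of_ne (norm_nonneg _) (Ne.symm hne)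
      have : 0 < 15 / 32 * ‖1 / deriv ψ b₀ ^ 2 * deriv ψ b₀‖ *
        ‖B n q - τ (φ n q - j * Real.pi)‖ ^ 2 := by positivity
      linarith
    have h8 : B n q = τ (φ n q - j * Real.pi) := sub_eq_zero.1 (norm_eq_zero.1 h7)
    have h9 : ψ (B n q) = φ n q - j * Real.pi := by
      rw [h8]
      exact hch.τ_eq _ hφm
    apply h4 hyB
    have h10 := sin_shift (ψ := ψ) (φ := φ n q) (b := B n q) j
    rw [h9, sub_self, Complex.sin_zero] at h10
    rcases mul_eq_zero.1 h10.symm with h11 | h11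
    · rw [h9]
      exact h11
    · exact absurd h11 (cos_ne j)
  · intro q hq1 hq2 e he
    -- radii
    obtain ⟨r0, hr0, hr0s⟩ := Metric.isOpen_iff.1 (isOpen_Wg (a + g)) q (face_mem hgp hq1 hq2)
    let r1 : ℝ := min (r0 / 2) (e / 2)
    have hr1 : 0 < r1 := by
      simp only [r1]
      positivity
    have hr1r0 : r1 < r0 := (min_le_left _ _).trans_lt (by linarith)
    have hr1e : r1 < e := (min_le_right _ _).trans_lt (by linarith)
    have hcb : closedBall q r1 ⊆ Wg (a + g) := (closedBall_subset_ball hr1r0).trans hr0s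
    obtain ⟨K, hK, hKc, hbirth⟩ := W.births q hq1 hq2 (r1 / 2) (by positivity)
      ((closedBall_subset_closedBall (by linarith)).trans hcb)
    -- the compact convex set
    let K1 : Set (ℂ × ℂ) := K ∩ closedBall q (3 / 4 * r1)
    have hK1c : IsCompact K1 := hKc.inter_right isClosed_closedBall
    obtain ⟨K2, hK12, hK2, hK2c, hK2v⟩ := hull hK1c ((isOpen_Wg a).inter isOpen_ball)
      ((convex_Wg a).inter (convex_ball q r1)) (subset_inter (inter_subset_left.trans hK)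
        (inter_subset_right.trans (closedBall_subset_ball (by linarith))))
    have hK2a : K2 ⊆ Wg a := hK2.trans inter_subset_left
    have hK2b : K2 ⊆ ball q r1 := hK2.trans inter_subset_right
    filter_upwards [hl hbirth, hl (W.regX _ hK2a hK2c), hl (W.regL _ hcb (isCompact_closedBall _ _)),
      hB _ hK2a hK2c r hr, hφ _ hcb (isCompact_closedBall _ _) δ hδ,
      hp _ hcb (isCompact_closedBall _ _) δ hδ] with n hnb hX hL hBn hφn hpn
    by_contra hcon
    push Not at hcon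
    apply hnb
    obtain ⟨U, hU, hKU, hBd, hBU⟩ := hX
    obtain ⟨U', hU', hKU', hφd, hpd⟩ := hL
    have hV : ball q r1 ⊆ U' := ball_subset_closedBall.trans hKU'
    have hφ' : DifferentiableOn ℂ (fun x => φ n x - j * Real.pi) (ball q r1) :=
      (hφd.mono hV).sub_const _
    have hp' : DifferentiableOn ℂ (fun x => Complex.cos (j * Real.pi) * p n x) (ball q r1) :=
      (hpd.mono hV).const_mul _
    obtain ⟨G, g1, g2, g3⟩ := hch.extend isOpen_ball (convex_ball q r1) hφ' hp'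
      (fun x hx => mem_ball_iff_norm.2 (hφn x (ball_subset_closedBall hx)))
      (fun x hx => by
        rw [hHb]
        exact mem_ball_iff_norm.2 (hpn x (ball_subset_closedBall hx)))
      (fun x hx h0 => hcon x (ball_subset_ball hr1e.le hx) (sub_eq_zero.2 h0))
      (W := K2) hK2b hK2v.isPreconnected (hBd.continuousOn.mono hKU)
      (fun x hx => by
        have hbm : B n x ∈ closedBall b₀ r := mem_closedBall_iff_norm.2 (hBn x hx).le
        exact ⟨hbm, inc613 (hrS hbm).2 (inc_shift j (hBU x (hKU hx)).2.1)⟩)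
    refine ⟨G, ball q (3 / 4 * r1), isOpen_ball, closedBall_subset_ball (by linarith),
      g1.mono (ball_subset_ball (by linarith)), ?_, ?_⟩
    · intro x hx
      have h1 := (g3 x (ball_subset_ball (by linarith) hx)).1
      exact (hrS (closedBall_subset_closedBall (by linarith) (ball_subset_closedBall h1))).1
    · intro x hx
      exact (g2 (hK12 ⟨hx.1, ball_subset_closedBall hx.2⟩)).symm

/-! ### integers -/

theorem near_int {z : ℂ} {ε : ℝ} (hε : ε ≤ 1 / 2) (hz : ‖cexp (2 * I * z) - 1‖ ≤ ε) :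
    ∃ m : ℤ, ‖z - m * Real.pi‖ ≤ ε := by
  set w : ℂ := cexp (2 * I * z) - 1 with hw
  have h1 : ‖Complex.log (1 + w)‖ ≤ 3 / 2 * ‖w‖ := Complex.norm_log_one_add_half_le_self
    (hz.trans hε)
  have h2 : cexp (2 * I * z) = 1 + w := by rw [hw]; ring
  have h0 : 1 + w ≠ 0 := by
    rw [← h2]
    exact Complex.exp_ne_zero _
  have h3 : cexp (2 * I * z - Complex.log (1 + w)) = 1 := by
    rw [Complex.exp_sub, Complex.exp_log h0, h2, div_self h0]
  obtain ⟨n, hn⟩ := Complex.exp_eq_one_iff.1 h3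
  refine ⟨n, ?_⟩
  have hI : (2 * I : ℂ) ≠ 0 := by simp
  have h4 : z - n * Real.pi = Complex.log (1 + w) / (2 * I) := by
    rw [eq_div_iff hI]
    linear_combination hn
  rw [h4, norm_div]
  have h5 : ‖(2 * I : ℂ)‖ = 2 := by simp
  rw [h5, div_le_iff₀ two_pos]
  have := norm_nonneg w
  linarith

theorem int_unique {z : ℂ} {m m' : ℤ} (h1 : ‖z - m * Real.pi‖ ≤ 1) (h2 : ‖z - m' * Real.pi‖ ≤ 1) :
    m = m' := by
  by_contra hne
  have h3 : ‖((m : ℂ) - m') * Real.pi‖ ≤ 2 := by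
    have e : ((m : ℂ) - m') * Real.pi = (z - m' * Real.pi) - (z - m * Real.pi) := by ring
    rw [e]
    refine (norm_sub_le _ _).trans ?_
    linarith
  have h4 : (1 : ℝ) ≤ |((m - m' : ℤ) : ℝ)| := by
    exact_mod_cast Int.one_le_abs (sub_ne_zero.2 hne)
  have h5 : ‖((m : ℂ) - m') * Real.pi‖ = |((m - m' : ℤ) : ℝ)| * Real.pi := by
    rw [norm_mul, Complex.norm_real, Real.norm_eq_abs, abs_of_pos Real.pi_pos]
    congr 1
    rw [← Int.cast_sub, Complex.norm_intCast]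
  rw [h5] at h3
  nlinarith [Real.pi_gt_three]

theorem int_const {K : Set (ℂ × ℂ)} (hK : IsPreconnected K) {f : ℂ × ℂ → ℂ}
    (hf : ContinuousOn f K) {ε : ℝ} (hε : ε ≤ 1 / 4)
    (hexp : ∀ q ∈ K, ‖cexp (2 * I * f q) - 1‖ ≤ ε) {q₀ : ℂ × ℂ} (hq₀ : q₀ ∈ K) :
    ∃ m : ℤ, ∀ q ∈ K, ‖f q - m * Real.pi‖ ≤ ε := by
  have h1 : ∀ q ∈ K, ∃ m : ℤ, ‖f q - m * Real.pi‖ ≤ ε := fun q hq =>
    near_int (by linarith) (hexp q hq)
  choose! m hm using h1
  have hc : ContinuousOn m K := by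
    intro q hq
    have h2 : ∀ᶠ x in 𝓝[K] q, ‖f x - f q‖ < 1 / 4 := by
      have := (Metric.tendsto_nhds.1 (hf q hq)) (1 / 4) (by norm_num)
      simpa [dist_eq_norm] using this
    have h3 : ∀ᶠ x in 𝓝[K] q, m x = m q := by
      filter_upwards [h2, self_mem_nhdsWithin] with x hx hxK
      refine int_unique (z := f x) ((hm x hxK).trans (by linarith)) ?_
      have e : f x - m q * Real.pi = (f x - f q) + (f q - m q * Real.pi) := by ring
      rw [e]
      refine (norm_add_le _ _).trans ?_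
      have := hm q hq
      linarith
    exact tendsto_const_nhds.congr' (h3.mono fun x hx => hx.symm)
  refine ⟨m q₀, fun q hq => ?_⟩
  rw [← hK.constant hc hq hq₀]
  exact hm q hq

theorem lemX_inst (u : Ultrafilter ℕ) : Slow575.LemX (u : Filter ℕ) := by
  intro s0 z0 r hr m D k mu kap h1 h2 h3 h4 h5 h6 h7 q hq hq0
  exact LemX262.lemX_ball (h1.mono fun _ h => h.1) (h1.mono fun _ h => h.2) h2 h3 h4 h5 h6 h7 q hq
    hq0

/-! ### the limits along an ultrafilter -/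

/-- normalised slow world along an ultrafilter: the labels tend to `b₀`, the lines to the tangent -/
theorem limits (W : World h a g ψ H A0 φ p B) {κ : ℝ} (hκ : 0 < κ) (hI : IntrW h κ ψ B)
    (hre : ∀ n, 0 ≤ (B n z0).re ∧ (B n z0).re ≤ 1)
    (hslow : ∀ ε > 0, ∀ K ⊆ Wg (a + g), IsCompact K → ∀ K' ⊆ Wg a, IsCompact K' →
      ∀ᶠ n in atTop, SlowAt ε K K' ψ (φ n) (p n) (B n))
    (hφ0 : ∃ C : ℝ, ∀ᶠ n in atTop, |(φ n z0).re| ≤ C)
    {u : Ultrafilter ℕ} (hu : (u : Filter ℕ) ≤ atTop) :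
    ∃ (b₀ : ℂ) (j : ℤ), |b₀.im| < h ∧ deriv ψ b₀ ≠ 0 ∧
      (∀ K ⊆ Wg a, IsCompact K → ∀ ε > 0, ∀ᶠ n in (u : Filter ℕ), ∀ q ∈ K, ‖B n q - b₀‖ < ε) ∧
      (∀ K ⊆ Wg (a + g), IsCompact K → ∀ ε > 0, ∀ᶠ n in (u : Filter ℕ), ∀ q ∈ K,
        ‖φ n q - j * Real.pi - ψ b₀‖ < ε) ∧
      (∀ K ⊆ Wg (a + g), IsCompact K → ∀ ε > 0, ∀ᶠ n in (u : Filter ℕ), ∀ q ∈ K,
        ‖Complex.cos (j * Real.pi) * p n q - H b₀‖ < ε) := by
  have ha := W.a_nonneg
  have hg := W.g_pos
  have hC := W.curve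
  have hz0 : z0 ∈ Wg a := z0_mem ha
  have hz0' : z0 ∈ Wg (a + g) := Wg_mono hg hz0
  -- the label
  have hR : IsCompact (Icc (0 : ℝ) 1 ×ℂ Icc (-(h - κ)) (h - κ)) := isCompact_Icc.reProdIm isCompact_Icc
  have hBR : ((u.map fun n => B n z0 : Ultrafilter ℂ) : Filter ℂ) ≤
      𝓟 (Icc (0 : ℝ) 1 ×ℂ Icc (-(h - κ)) (h - κ)) := by
    rw [le_principal_iff]
    show ∀ᶠ n in (u : Filter ℕ), B n z0 ∈ Icc (0 : ℝ) 1 ×ℂ Icc (-(h - κ)) (h - κ)
    exact Eventually.of_forall fun n => ⟨⟨(hre n).1, (hre n).2⟩, abs_le.1 (hI n).1⟩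
  obtain ⟨b₀, hb₀R, hb₀⟩ := hR.ultrafilter_le_nhds _ hBR
  have hBt : Tendsto (fun n => B n z0) u (𝓝 b₀) := hb₀
  have hb₀h : |b₀.im| < h := (abs_le.2 hb₀R.2).trans_lt (by linarith)
  have hdψ : ContinuousAt (deriv ψ) b₀ :=
    (hC.ψ_diff.analyticAt ((isOpen_Str h).mem_nhds hb₀h)).deriv.continuousAt
  have hψc : ContinuousAt ψ b₀ :=
    (hC.ψ_diff.differentiableAt ((isOpen_Str h).mem_nhds hb₀h)).continuousAt
  have hBl : ∀ K ⊆ Wg a, IsCompact K → ∀ ε > 0, ∀ᶠ n in (u : Filter ℕ), ∀ q ∈ K,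
      ‖B n q - b₀‖ < ε := by
    intro K hK hKc ε hε
    have h2 := (Metric.tendsto_nhds.1 hBt) (ε / 2) (by positivity)
    filter_upwards [hu (hslow (ε / 2) (by positivity) ∅ (empty_subset _) isCompact_empty K hK hKc),
      h2] with n h3 h4 q hq
    have h5 := h3.2 q hq
    rw [dist_eq_norm] at h4
    have e : B n q - b₀ = (B n q - B n z0) + (B n z0 - b₀) := by ring
    rw [e]
    refine (norm_add_le _ _).trans_lt ?_
    linarith
  have hcz : closedBall z0 (1 / 10) ⊆ Wg a := by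
    intro q hq
    rw [mem_closedBall, Prod.dist_eq, max_le_iff, dist_eq_norm, dist_eq_norm] at hq
    have h1 := (Complex.abs_im_le_norm _).trans hq.1
    have h2 := (Complex.abs_im_le_norm _).trans hq.2
    rw [abs_le] at h1 h2
    simp [z0] at h1 h2
    refine ⟨by linarith, ?_⟩
    have : 0 ≤ a * q.2.im := mul_nonneg ha (by linarith)
    linarith
  have hy : deriv ψ b₀ ≠ 0 := by
    intro h0
    have h1 := (Metric.continuousAt_iff.1 hdψ) κ hκ
    obtain ⟨ε, hε, h2⟩ := h1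
    obtain ⟨n, hn⟩ := (hBl _ hcz (isCompact_closedBall _ _) ε hε).exists
    obtain ⟨q, hq, h3⟩ := (hI n).2
    have h4 := h2 (x := B n q) (by rw [dist_eq_norm]; exact hn q hq)
    rw [dist_eq_norm, h0, sub_zero] at h4
    linarith
  have hψt : Tendsto (fun n => ψ (B n z0)) u (𝓝 (ψ b₀)) := hψc.tendsto.comp hBt
  -- the angle at the base point
  obtain ⟨C, hC0⟩ := hφ0
  have hexp : ∀ ε > 0, ∀ᶠ n in (u : Filter ℕ),
      ‖cexp (2 * I * (φ n z0 - ψ (B n z0))) - 1‖ ≤ ε := by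
    intro ε hε
    filter_upwards [hu (hslow ε hε {z0} (singleton_subset_iff.2 hz0') isCompact_singleton ∅
      (empty_subset _) isCompact_empty)] with n hn
    exact (hn.1 z0 rfl).1
  have hψb : ∀ᶠ n in (u : Filter ℕ), ‖ψ (B n z0) - ψ b₀‖ < 1 := by
    have := (Metric.tendsto_nhds.1 hψt) 1 one_pos
    simpa [dist_eq_norm] using this
  have hφR : ((u.map fun n => φ n z0 : Ultrafilter ℂ) : Filter ℂ) ≤
      𝓟 (Icc (-C) C ×ℂ Icc (-(‖ψ b₀‖ + 2)) (‖ψ b₀‖ + 2)) := by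
    rw [le_principal_iff]
    show ∀ᶠ n in (u : Filter ℕ), φ n z0 ∈ Icc (-C) C ×ℂ Icc (-(‖ψ b₀‖ + 2)) (‖ψ b₀‖ + 2)
    filter_upwards [hu hC0, hexp (1 / 2) (by norm_num), hψb] with n h1 h2 h3
    refine ⟨abs_le.1 h1, abs_le.1 ?_⟩
    obtain ⟨m, hm⟩ := near_int le_rfl h2
    have e1 : (φ n z0).im = (φ n z0 - ψ (B n z0) - m * Real.pi).im + (ψ (B n z0) - ψ b₀).im +
        (ψ b₀).im := by
      simp
    rw [e1]
    have a1 := (Complex.abs_im_le_norm (φ n z0 - ψ (B n z0) - m * Real.pi)).trans hm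
    have a2 := (Complex.abs_im_le_norm (ψ (B n z0) - ψ b₀)).trans h3.le
    have a3 := Complex.abs_im_le_norm (ψ b₀)
    refine (abs_add_three _ _ _).trans ?_
    linarith
  obtain ⟨φ₀, -, hφ₀⟩ := (isCompact_Icc.reProdIm isCompact_Icc).ultrafilter_le_nhds _ hφR
  have hφt : Tendsto (fun n => φ n z0) u (𝓝 φ₀) := hφ₀
  have h1 : cexp (2 * I * (φ₀ - ψ b₀)) = 1 := by
    have h2 : Tendsto (fun n => cexp (2 * I * (φ n z0 - ψ (B n z0)))) u
        (𝓝 (cexp (2 * I * (φ₀ - ψ b₀)))) :=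
      (Complex.continuous_exp.tendsto _).comp ((hφt.sub hψt).const_mul (2 * I))
    have h3 : Tendsto (fun n => cexp (2 * I * (φ n z0 - ψ (B n z0)))) u (𝓝 1) := by
      rw [Metric.tendsto_nhds]
      intro ε hε
      filter_upwards [hexp (ε / 2) (by positivity)] with n hn
      rw [dist_eq_norm]
      linarith
    exact tendsto_nhds_unique h2 h3
  obtain ⟨j, hj⟩ := Complex.exp_eq_one_iff.1 h1
  have hj' : φ₀ - ψ b₀ = j * Real.pi := by
    have hI : (2 * I : ℂ) ≠ 0 := by simp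
    refine mul_left_cancel₀ hI ?_
    rw [hj]
    ring
  have hφl : ∀ K ⊆ Wg (a + g), IsCompact K → ∀ ε > 0, ∀ᶠ n in (u : Filter ℕ), ∀ q ∈ K,
      ‖φ n q - j * Real.pi - ψ b₀‖ < ε := by
    intro K hK hKc ε hε
    obtain ⟨K', hKK', hK', hK'c, hK'v⟩ := hull (hKc.insert z0) (isOpen_Wg (a + g)) (convex_Wg _)
      (insert_subset hz0' hK)
    let ε1 : ℝ := min (ε / 4) (1 / 4)
    have hε1 : 0 < ε1 := by
      simp only [ε1]
      positivity
    have hε1a : ε1 ≤ ε / 4 := min_le_left _ _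
    have hε1b : ε1 ≤ 1 / 4 := min_le_right _ _
    have h2 := (Metric.tendsto_nhds.1 hψt) (min (ε / 4) (1 / 4)) (by positivity)
    have h3 := (Metric.tendsto_nhds.1 hφt) (1 / 4) (by positivity)
    filter_upwards [hu (hslow ε1 hε1 _ hK' hK'c ∅ (empty_subset _) isCompact_empty), h2, h3,
      hu (W.regL _ hK' hK'c)] with n h4 h5 h6 h7 q hq
    obtain ⟨U, hU, hKU, hφd, -⟩ := h7
    have hz0K : z0 ∈ K' := hKK' (mem_insert _ _)
    obtain ⟨m, hm⟩ := int_const hK'v.isPreconnected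
      (f := fun q => φ n q - ψ (B n z0)) ((hφd.continuousOn.mono hKU).sub continuousOn_const)
      hε1b (fun q hq => (h4.1 q hq).1) hz0K
    rw [dist_eq_norm] at h5 h6
    have h5a : ‖ψ (B n z0) - ψ b₀‖ < ε / 4 := h5.trans_le (min_le_left _ _)
    have h5b : ‖ψ (B n z0) - ψ b₀‖ < 1 / 4 := h5.trans_le (min_le_right _ _)
    have hmj : m = j := by
      refine int_unique (z := φ n z0 - ψ (B n z0)) ((hm z0 hz0K).trans (by linarith)) ?_
      have e : φ n z0 - ψ (B n z0) - j * Real.pi = (φ n z0 - φ₀) - (ψ (B n z0) - ψ b₀) := by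
        rw [← hj']
        ring
      rw [e]
      refine (norm_sub_le _ _).trans ?_
      linarith
    have h8 := hm q (hKK' (mem_insert_of_mem _ hq))
    rw [hmj] at h8
    have e : φ n q - j * Real.pi - ψ b₀ = (φ n q - ψ (B n z0) - j * Real.pi) +
      (ψ (B n z0) - ψ b₀) := by ring
    rw [e]
    refine (norm_add_le _ _).trans_lt ?_
    have h9 : ‖φ n q - ψ (B n z0) - j * Real.pi‖ ≤ ε1 := h8
    linarith
  refine ⟨b₀, j, hb₀h, hy, hBl, hφl, ?_⟩
  -- the support function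
  have hHc : ContinuousAt H b₀ :=
    (hC.H_diff.differentiableAt ((isOpen_Str h).mem_nhds hb₀h)).continuousAt
  have hdH : ContinuousAt (deriv H) b₀ :=
    (hC.H_diff.analyticAt ((isOpen_Str h).mem_nhds hb₀h)).deriv.continuousAt
  have hP0 : Tendsto (fun n => Complex.cos (j * Real.pi) * p n z0) u (𝓝 (H b₀)) := by
    have t3 : Tendsto (fun n => φ n z0 - j * Real.pi) u (𝓝 (ψ b₀)) := by
      rw [Metric.tendsto_nhds]
      intro ε hε
      filter_upwards [hφl {z0} (singleton_subset_iff.2 hz0') isCompact_singleton ε hε] with n hn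
      rw [dist_eq_norm]
      exact hn z0 rfl
    have t4 : Tendsto (fun n => deriv ψ (B n z0)) u (𝓝 (deriv ψ b₀)) := hdψ.tendsto.comp hBt
    have t5 : Tendsto (fun n => φ n z0 - j * Real.pi - ψ (B n z0)) u (𝓝 0) := by
      have := t3.sub hψt
      rw [sub_self] at this
      exact this
    have t6 : Tendsto (fun n => (deriv ψ (B n z0) * H (B n z0) *
        Complex.cos (φ n z0 - j * Real.pi - ψ (B n z0)) +
        deriv H (B n z0) * Complex.sin (φ n z0 - j * Real.pi - ψ (B n z0))) / deriv ψ (B n z0)) u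
        (𝓝 ((deriv ψ b₀ * H b₀ * Complex.cos 0 + deriv H b₀ * Complex.sin 0) / deriv ψ b₀)) :=
      (((t4.mul (hHc.tendsto.comp hBt)).mul
        ((Complex.continuous_cos.tendsto 0).comp t5)).add
        ((hdH.tendsto.comp hBt).mul ((Complex.continuous_sin.tendsto 0).comp t5))).div t4 hy
    have e1 : (deriv ψ b₀ * H b₀ * Complex.cos 0 + deriv H b₀ * Complex.sin 0) / deriv ψ b₀ =
        H b₀ := by
      rw [Complex.cos_zero, Complex.sin_zero, mul_one, mul_zero, add_zero,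
        mul_div_cancel_left₀ _ hy]
    rw [e1] at t6
    refine t6.congr' ?_
    filter_upwards [hu (W.regX {z0} (singleton_subset_iff.2 hz0) isCompact_singleton),
      t4.eventually_ne hy] with n hn hne
    obtain ⟨U, hU, hKU, -, h2⟩ := hn
    have h3 := inc_shift j (h2 z0 (hKU rfl)).2.1
    unfold F300.Inc at h3
    rw [← h3, mul_div_cancel_left₀ _ hne]
  intro K hK hKc ε hε
  have hcn : 0 < ‖Complex.cos (j * Real.pi)‖ := norm_pos_iff.2 (cos_ne j)
  have h2 := (Metric.tendsto_nhds.1 hP0) (ε / 2) (by positivity)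
  filter_upwards [hu (hslow (ε / 4 / ‖Complex.cos (j * Real.pi)‖) (by positivity) K hK hKc ∅
    (empty_subset _) isCompact_empty), h2] with n h3 h4 q hq
  rw [dist_eq_norm] at h4
  have h5 := (h3.1 q hq).2
  have e : Complex.cos (j * Real.pi) * p n q - H b₀ = Complex.cos (j * Real.pi) * (p n q - p n z0) +
    (Complex.cos (j * Real.pi) * p n z0 - H b₀) := by ring
  rw [e]
  refine (norm_add_le _ _).trans_lt ?_
  rw [norm_mul]
  have h6 : ‖Complex.cos (j * Real.pi)‖ * ‖p n q - p n z0‖ ≤ ε / 4 := by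
    calc ‖Complex.cos (j * Real.pi)‖ * ‖p n q - p n z0‖
        ≤ ‖Complex.cos (j * Real.pi)‖ * (ε / 4 / ‖Complex.cos (j * Real.pi)‖) := by gcongr
      _ = ε / 4 := by field_simp
  linarith

/-! ### the end of the slow regime -/

/-- **(N4)** in a slow world the angle, normalised by its oscillation, cannot be locally bounded on
the big wedge with growth `θ < 1` -/
theorem limK (W : World h a g ψ H A0 φ p B) {κ : ℝ} (hκ : 0 < κ) (hI : IntrW h κ ψ B)
    (hre : ∀ n, 0 ≤ (B n z0).re ∧ (B n z0).re ≤ 1)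
    (hslow : ∀ ε > 0, ∀ K ⊆ Wg (a + g), IsCompact K → ∀ K' ⊆ Wg a, IsCompact K' →
      ∀ᶠ n in atTop, SlowAt ε K K' ψ (φ n) (p n) (B n))
    (hφ0 : ∃ C : ℝ, ∀ᶠ n in atTop, |(φ n z0).re| ≤ C)
    {E : ℕ → ℝ} (hE : ∀ n, 0 < E n) (c : ℕ → ℂ)
    (hloc : ∀ K ⊆ Wg (a + g), IsCompact K → ∃ M : ℝ, ∀ᶠ n in atTop, ∀ q ∈ K,
      ‖φ n q - c n‖ ≤ M * E n)
    {θ : ℝ} (hθ0 : 0 ≤ θ) (hθ : θ < 1) {C : ℝ}
    (hgrow : ∀ q : ℂ × ℂ, 1 ≤ q.2.im → q.1.im ≤ (a + g / 2) * q.2.im →
      ‖q.1‖ ≤ (|a| + g) * q.2.im → ‖q.2‖ ≤ q.2.im →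
      ∀ᶠ n in atTop, ‖φ n q - c n‖ ≤ C * E n * q.2.im ^ θ)
    {K0 : Set (ℂ × ℂ)} (hK0 : IsCompact K0) (hK0s : K0 ⊆ Wg a)
    (hosc : ∀ᶠ n in atTop, ∃ q ∈ K0, ∃ q' ∈ K0, E n / 2 ≤ ‖φ n q - φ n q'‖) : False := by
  have hg := W.g_pos
  let u : Ultrafilter ℕ := Ultrafilter.of atTop
  have hu : (u : Filter ℕ) ≤ atTop := Ultrafilter.of_le atTop
  obtain ⟨b₀, j, hb₀, hy, hBl, hφl, hpl⟩ := limits W hκ hI hre hslow hφ0 hu
  obtain ⟨hs, o1, o2, o3⟩ := offs W hu hb₀ hy j hBl hφl hpl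
  obtain ⟨J, k, hJ, -, hk, harea⟩ := W.area
  have hGam : ∀ l : ℝ, Liou203.Gam l = Wg l := fun _ => rfl
  have hEc : ∀ n, (E n : ℂ) ≠ 0 := fun n => by exact_mod_cast (hE n).ne'
  refine Slow575.slow_limit (u : Filter ℕ) (fun v hv => lemX_inst v) (a := a) (c := g) hg
    (T := fun n q => (φ n q - c n) / E n)
    (Q := fun n q => Complex.cos (j * Real.pi) * p n q - hs (φ n q - j * Real.pi))
    (k := fun n q => k n q.2) (J := fun n => -(Complex.cos (j * Real.pi) * J n / E n))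
    (kap := fun _ => A0) ?_ hθ0 hθ (C := C) ?_ (K0 := K0) hK0 hK0s ?_ ?_ ?_ ?_ ?_ ?_
  · intro x hx
    obtain ⟨r0, hr0, hr0s⟩ := Metric.isOpen_iff.1 (isOpen_Wg (a + g)) x hx
    have hcb : closedBall x (r0 / 2) ⊆ Wg (a + g) :=
      (closedBall_subset_ball (by linarith)).trans hr0s
    obtain ⟨M, hM⟩ := hloc _ hcb (isCompact_closedBall _ _)
    refine ⟨r0 / 2, by positivity, M, ball_subset_closedBall.trans hcb, ?_⟩
    filter_upwards [hu hM, o1 _ hcb (isCompact_closedBall _ _),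
      hu (harea _ hcb (isCompact_closedBall _ _))] with n h2 h3 h4
    obtain ⟨U, hU, hKU, hφd, hQd, hQa⟩ := h3
    have hbU : ball x (r0 / 2) ⊆ U := ball_subset_closedBall.trans hKU
    have hTd : DifferentiableOn ℂ (fun q => (φ n q - c n) / (E n : ℂ)) (ball x (r0 / 2)) := by
      have h7 := ((hφd.mono hbU).sub_const (c n)).mul_const ((E n : ℂ)⁻¹)
      simpa only [div_eq_mul_inv] using h7
    refine ⟨hTd, hQd.mono hbU, fun w hw => ?_, fun w hw => ?_⟩
    · rw [norm_div, Complex.norm_real, Real.norm_eq_abs, abs_of_pos (hE n),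
        div_le_iff₀ (hE n)]
      exact h2 w (ball_subset_closedBall hw)
    · have h5 := hQa w (hbU hw)
      rw [h4 w (ball_subset_closedBall hw)] at h5
      have hφw : DifferentiableAt ℂ (φ n) w := hφd.differentiableAt (hU.mem_nhds (hbU hw))
      have h6 : HasFDerivAt (fun q => (φ n q - c n) / (E n : ℂ))
          ((E n : ℂ)⁻¹ • fderiv ℂ (φ n) w) w := by
        have h7 := (hφw.hasFDerivAt.sub_const (c n)).mul_const ((E n : ℂ)⁻¹)
        simpa only [div_eq_mul_inv] using h7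
      rw [h6.fderiv]
      simp only [_root_.smul_apply, smul_eq_mul]
      simp only [q1, q2] at h5
      have hEn := hEc n
      field_simp
      linear_combination (-1 : ℂ) * h5
  · intro q h1 h2 h3 h4
    filter_upwards [hu (hgrow q h1 h2 h3 h4)] with n hn
    rw [norm_div, Complex.norm_real, Real.norm_eq_abs, abs_of_pos (hE n), div_le_iff₀ (hE n)]
    linarith
  · filter_upwards [hu hosc] with n hn
    obtain ⟨q, hq, q', hq', h1⟩ := hn
    refine ⟨q, hq, q', hq', ?_⟩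
    have e : (φ n q - c n) / (E n : ℂ) - (φ n q' - c n) / (E n : ℂ) = (φ n q - φ n q') / E n := by
      ring
    rw [e, norm_div, Complex.norm_real, Real.norm_eq_abs, abs_of_pos (hE n), le_div_iff₀ (hE n)]
    linarith
  · refine Eventually.of_forall fun n => ?_
    rw [neg_ne_zero]
    refine div_ne_zero (mul_ne_zero (cos_ne j) ?_) (hEc n)
    exact_mod_cast (hJ n).ne'
  · rw [hGam, tendstoLocallyUniformlyOn_iff_forall_isCompact (isOpen_Wg (a + g))]
    intro K hK hKc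
    have hc2 : IsCompact (Prod.snd '' K) := hKc.image continuous_snd
    have h1 := Metric.tendstoUniformlyOn_iff.1 (hk _ hc2)
    rw [Metric.tendstoUniformlyOn_iff]
    intro ε hε
    filter_upwards [hu (h1 ε hε)] with n hn q hq
    exact hn q.2 (mem_image_of_mem _ hq)
  · intro q _
    exact W.A0_ne
  · exact o2
  · exact o3

/-- a world with a smaller gap -/
theorem world_mono (W : World h a g ψ H A0 φ p B) {g' : ℝ} (hg' : 0 < g') (hgg : g' ≤ g) :
    World h a g' ψ H A0 φ p B := by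
  have hsub : Wg (a + g') ⊆ Wg (a + g) := by
    rintro q ⟨h1, h2⟩
    refine ⟨h1, h2.trans_le ?_⟩
    nlinarith [mul_le_mul_of_nonneg_right hgg h1.le]
  obtain ⟨J, k, hJ, hJ0, hk, harea⟩ := W.area
  exact ⟨W.a_nonneg, hg', W.A0_ne, W.curve, fun K hK hKc => W.regL K (hK.trans hsub) hKc, W.regX,
    ⟨J, k, hJ, hJ0, hk, fun K hK hKc => harea K (hK.trans hsub) hKc⟩,
    fun q h1 h2 r hr hb => W.births q h1 h2 r hr (hb.trans hsub)⟩

/-- the form of helper575's `slowWorld` (one more hypothesis `hφ0`, trivial for `ToWorld`) -/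
theorem slowWorld (W : World h a g ψ H A0 φ p B) {κ : ℝ} (hκ : 0 < κ) (hI : IntrW h κ ψ B)
    (hre : ∀ n, 0 ≤ (B n z0).re ∧ (B n z0).re ≤ 1)
    (hslow : ∀ ε > 0, ∀ K ⊆ Wg (a + g), IsCompact K → ∀ K' ⊆ Wg a, IsCompact K' →
      ∀ᶠ n in atTop, SlowAt ε K K' ψ (φ n) (p n) (B n))
    (hφ0 : ∃ C : ℝ, ∀ᶠ n in atTop, |(φ n z0).re| ≤ C)
    {om : ℕ → ℝ} (hom : ∀ n, 0 < om n) {g' : ℝ} (hg' : 0 < g') (hgg : g' ≤ g)
    (hloc : ∀ K ⊆ Wg (a + g'), IsCompact K → ∃ M : ℝ, ∀ᶠ n in atTop, ∀ q ∈ K,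
      ‖φ n q - φ n z0‖ ≤ M * om n)
    {θ C : ℝ} (hθ0 : 0 ≤ θ) (hθ : θ < 1)
    (hgrow : ∀ q : ℂ × ℂ, 1 ≤ q.2.im → q.1.im ≤ (a + g' / 2) * q.2.im →
      ‖q.1‖ ≤ (|a| + g') * q.2.im → ‖q.2‖ ≤ q.2.im →
      ∀ᶠ n in atTop, ‖φ n q - φ n z0‖ ≤ C * om n * q.2.im ^ θ)
    {K0 : Set (ℂ × ℂ)} (hK0 : IsCompact K0) (hK0s : K0 ⊆ Wg a)
    (hosc : ∃ c > 0, ∀ᶠ n in atTop, ∃ q ∈ K0, ∃ q' ∈ K0, c * om n ≤ ‖φ n q - φ n q'‖) : False := by
  obtain ⟨c, hc, hosc⟩ := hosc
  have hsub : Wg (a + g') ⊆ Wg (a + g) := by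
    rintro q ⟨h1, h2⟩
    refine ⟨h1, h2.trans_le ?_⟩
    nlinarith [mul_le_mul_of_nonneg_right hgg h1.le]
  refine limK (world_mono W hg' hgg) hκ hI hre
    (fun ε hε K hK hKc K' hK' hKc' => hslow ε hε K (hK.trans hsub) hKc K' hK' hKc') hφ0
    (E := fun n => 2 * c * om n) (fun n => by have := hom n; positivity) (fun n => φ n z0) ?_ hθ0 hθ
    (C := C / (2 * c)) ?_ hK0 hK0s ?_
  · intro K hK hKc
    obtain ⟨M, hM⟩ := hloc K hK hKc
    refine ⟨M / (2 * c), ?_⟩
    filter_upwards [hM] with n hn q hq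
    refine (hn q hq).trans (le_of_eq ?_)
    field_simp
  · intro q h1 h2 h3 h4
    filter_upwards [hgrow q h1 h2 h3 h4] with n hn
    refine hn.trans (le_of_eq ?_)
    field_simp
  · filter_upwards [hosc] with n hn
    obtain ⟨q, hq, q', hq', h1⟩ := hn
    refine ⟨q, hq, q', hq', ?_⟩
    linarith

end Crest.Agent.R102.LimK654
end
end

-- ▼ part R102/LimP_654
section

/-!
Row 102, T1-B, EDGE / SLOW (helper654): `NoRecW203.SlowWorld` (= helper575's `slowWorld`) is a theorem.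
-/

set_option autoImplicit false

open Set Filter Topology Metric Complex

noncomputable section

namespace Crest.Agent.R102.LimK654

open Crest.Agent.R102.Edge255
open Crest.Agent.R102.T5 (Str isOpen_Str)
open Crest.Agent.R102.B821 (q1 q2)

variable {h a g : ℝ} {ψ H : ℂ → ℂ} {A0 : ℂ} {φ p B : ℕ → ℂ × ℂ → ℂ}

theorem cos_turn (x : ℂ) (m : ℤ) : Complex.cos (x - 2 * Real.pi * m) = Complex.cos x := by
  have e : x - 2 * Real.pi * m = x - m * (2 * Real.pi) := by ring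
  rw [e, Complex.cos_sub_int_mul_two_pi]

theorem sin_turn (x : ℂ) (m : ℤ) : Complex.sin (x - 2 * Real.pi * m) = Complex.sin x := by
  have e : x - 2 * Real.pi * m = x - m * (2 * Real.pi) := by ring
  rw [e, Complex.sin_sub_int_mul_two_pi]

/-- full turns of the lines -/
theorem world_turn (W : World h a g ψ H A0 φ p B) (m : ℕ → ℤ) :
    World h a g ψ H A0 (fun n q => φ n q - 2 * Real.pi * m n) p B := by
  obtain ⟨J, k, hJ, hJ0, hk, harea⟩ := W.area
  refine ⟨W.a_nonneg, W.g_pos, W.A0_ne, W.curve, ?_, ?_, ⟨J, k, hJ, hJ0, hk, ?_⟩, W.births⟩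
  · intro K hK hKc
    filter_upwards [W.regL K hK hKc] with n hn
    obtain ⟨U, hU, hKU, h1, h2⟩ := hn
    exact ⟨U, hU, hKU, h1.sub_const _, h2⟩
  · intro K hK hKc
    filter_upwards [W.regX K hK hKc] with n hn
    obtain ⟨U, hU, hKU, h1, h2⟩ := hn
    refine ⟨U, hU, hKU, h1, fun q hq => ?_⟩
    obtain ⟨h3, h4, h5⟩ := h2 q hq
    have e : φ n q - 2 * Real.pi * m n - ψ (B n q) = (φ n q - ψ (B n q)) - 2 * Real.pi * m n := by
      ring
    refine ⟨h3, ?_, fun hy => ?_⟩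
    · unfold F300.Inc at h4 ⊢
      rw [e, cos_turn, sin_turn]
      exact h4
    · rw [e, sin_turn]
      exact h5 hy
  · intro K hK hKc
    filter_upwards [harea K hK hKc] with n hn q hq
    have h1 := hn q hq
    have e : fderiv ℂ (fun q => φ n q - 2 * Real.pi * (m n : ℂ)) q = fderiv ℂ (φ n) q := by
      rw [fderiv_sub_const]
    simp only [q1, q2] at h1 ⊢
    rw [e]
    exact h1

/-- **`SlowWorld`** -/
theorem slowWorldP : NoRecW203.SlowWorld := by
  intro h a g κ ψ H A0 φ p B hκ W hI hre hslow om hom g' hg' hgg hloc th C hth0 hth hgrow K0 hK0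
    hK0s hosc
  let m : ℕ → ℤ := fun n => ⌊(φ n z0).re / (2 * Real.pi)⌋
  have hdiff : ∀ n q q', (φ n q - 2 * Real.pi * m n) - (φ n q' - 2 * Real.pi * m n) =
      φ n q - φ n q' := fun n q q' => by ring
  refine slowWorld (C := C) (world_turn W m) hκ hI hre ?_ ?_ hom hg' hgg ?_ hth0 hth ?_ hK0 hK0s ?_
  · intro ε hε K hK hKc K' hK' hKc'
    filter_upwards [hslow ε hε K hK hKc K' hK' hKc'] with n hn
    refine ⟨fun q hq => ⟨?_, (hn.1 q hq).2⟩, hn.2⟩
    have e : 2 * I * (φ n q - 2 * Real.pi * m n - ψ (B n z0)) =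
        2 * I * (φ n q - ψ (B n z0)) + ((-2 * m n : ℤ) : ℂ) * (2 * Real.pi * I) := by
      push_cast
      ring
    rw [e, Complex.exp_periodic.int_mul]
    exact (hn.1 q hq).1
  · refine ⟨2 * Real.pi, Eventually.of_forall fun n => ?_⟩
    have hpi : 0 < 2 * Real.pi := by positivity
    have e : (φ n z0 - 2 * Real.pi * m n).re = (φ n z0).re - 2 * Real.pi * m n := by
      simp
    have h1 := Int.floor_le ((φ n z0).re / (2 * Real.pi))
    have h2 := Int.lt_floor_add_one ((φ n z0).re / (2 * Real.pi))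
    rw [le_div_iff₀ hpi] at h1
    rw [div_lt_iff₀ hpi] at h2
    rw [e, abs_le]
    refine ⟨?_, ?_⟩
    · have : (m n : ℝ) * (2 * Real.pi) ≤ (φ n z0).re := h1
      linarith
    · have : (φ n z0).re < ((m n : ℝ) + 1) * (2 * Real.pi) := h2
      linarith
  · intro K hK hKc
    obtain ⟨M, hM⟩ := hloc K hK hKc
    refine ⟨M, ?_⟩
    filter_upwards [hM] with n hn q hq
    rw [hdiff]
    exact hn q hq
  · intro q h1 h2 h3 h4
    filter_upwards [hgrow q h1 h2 h3 h4] with n hn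
    rw [hdiff]
    exact hn
  · obtain ⟨c, hc, h1⟩ := hosc
    refine ⟨c, hc, ?_⟩
    filter_upwards [h1] with n hn
    obtain ⟨q, hq, q', hq', h2⟩ := hn
    refine ⟨q, hq, q', hq', ?_⟩
    rw [hdiff]
    exact h2

end Crest.Agent.R102.LimK654
end
end

-- ▼ part R102/NoRecP_971

/-! Row 102, EDGE / SLOW (helper971): `NoRecP` and `SlowP` without hypotheses. -/

set_option autoImplicit false

namespace Crest.Agent.R102.NoRec971

/-- **NoRecP** -/
theorem noRecP : SlowJ486.NoRecP := noRecP_of ColPhi841.colPhi LimK654.slowWorldP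


end Crest.Agent.R102.NoRec971
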