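import Crest.Agent.R102.LVB_669
import Mathlib
import Crest.Agent.R102.SlopeA_845
import Crest.Agent.R102.Fatou_472

-- ▼ part R102/LVC_669
section

/-!
Row 102, T1-B (helper669), part C: the sheared sets over the half disc and 150's pointwise rules
from the three set inclusions.
-/

set_option autoImplicit false
set_option linter.unusedSectionVars false

open Set Filter Topology Metric Complex MeasureTheory
open scoped Real

noncomputable section

namespace Crest.Agent.R102.K669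

open Crest.Agent.R102.Heights150 (HD pen Dh tilt Rule mn pl)

lemma isOpen_HD (R : ℝ) : IsOpen (HD R) :=
  (isOpen_lt continuous_const Complex.continuous_im).inter
    (isOpen_lt (by fun_prop : Continuous (fun z : ℂ => ‖z‖)) continuous_const)

/-- the set `Om` in the coordinates `t' = t - G z`, `w = u + z`, `z ∈ HD R` -/
def half (u R : ℝ) (G : ℂ → ℂ) (Om : Set (ℂ × ℂ)) : Set (ℂ × ℂ) :=
  {q | q.2 ∈ HD R ∧ (q.1 + G q.2, (u : ℂ) + q.2) ∈ Om}

lemma half_eq (u R : ℝ) (G : ℂ → ℂ) (Om : Set (ℂ × ℂ)) :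
    half u R G Om = shr (HD R) G {q | (q.1, (u : ℂ) + q.2) ∈ Om} := rfl

/-- **the set over the half disc is an LV set** -/
theorem LV.half {b : ℝ} {W : Set ℂ} {Om : Set (ℂ × ℂ)} (h : LV b W Om) {u R : ℝ}
    (hsub : ∀ z ∈ HD R, (u : ℂ) + z ∈ W) {G : ℂ → ℂ} (hG : DifferentiableOn ℂ G (HD R)) {b' : ℝ}
    (hb : ∀ z ∈ HD R, ∀ t : ℂ, t.im < b' + (G z).im → (t, (u : ℂ) + z) ∈ Om) :
    LV b' (HD R) (half u R G Om) := by
  rw [half_eq]
  exact (h.translate (u : ℂ)).shear (isOpen_HD R) (fun z hz => hsub z hz) hG hb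

section Rules

variable {u R : ℝ} {G : ℂ → ℂ} {A B D : Set (ℂ × ℂ)} {A' B' D' : Set (ℂ × ℂ)}

/-- general form: `A` shifted by `a w`, `B` shifted by `c w`, `D` shifted by `d w` -/
theorem rule_gen {bD : ℝ} (hR1 : R ≤ 1)
    (hA : LV 0 (HD R) (half u R G A)) (hB : LV 0 (HD R) (half u R G B))
    (hD : LV bD (HD R) (half u R G D)) {a c d : ℝ} (hd : |d| ≤ 1 / 2)
    (hrule : ∀ t : ℂ, ∀ z ∈ HD R, (t + a * ((u : ℂ) + z), (u : ℂ) + z) ∈ A →
      (t + c * ((u : ℂ) + z), (u : ℂ) + z) ∈ B → (t + d * ((u : ℂ) + z), (u : ℂ) + z) ∈ D) :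
    Rule (fun x z => kO (half u R G A) (x + a * (u + z.re)) z - a * z.im)
      (fun x z => kO (half u R G B) (x + c * (u + z.re)) z - c * z.im)
      (fun x z => kO (half u R G D) (x + d * (u + z.re)) z - d * z.im) R := by
  intro x z hz e he h1 h2
  have hzim : 0 < z.im := hz.1
  have hzR : z.im < R := Heights150.im_lt_of_mem hz
  obtain ⟨d1, d2⟩ := abs_le.1 hd
  have hdz : d * z.im ≤ 1 / 2 := by nlinarith
  have key : e + d * z.im ≤ kO (half u R G D) (x + d * (u + z.re)) z := by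
    refine hD.le_kO hz (by linarith) (fun y' hy' => ?_)
    set y := y' - d * z.im with hy
    have hye : y < e := by rw [hy]; linarith
    have m1 := hA.mem_of_lt (x := x + a * (u + z.re)) (y := y + a * z.im) hz (by linarith)
    have m2 := hB.mem_of_lt (x := x + c * (u + z.re)) (y := y + c * z.im) hz (by linarith)
    have conv : ∀ (S : Set (ℂ × ℂ)) (α : ℝ),
        ((((x + α * (u + z.re) : ℝ) : ℂ) + ((y + α * z.im : ℝ) : ℂ) * I, z) : ℂ × ℂ) ∈
          half u R G S ↔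
        (((x : ℂ) + y * I + G z) + α * ((u : ℂ) + z), (u : ℂ) + z) ∈ S := by
      intro S α
      have e1 : ((x + α * (u + z.re) : ℝ) : ℂ) + ((y + α * z.im : ℝ) : ℂ) * I + G z =
          ((x : ℂ) + y * I + G z) + α * ((u : ℂ) + z) := by
        apply Complex.ext <;> simp <;> ring
      constructor
      · rintro ⟨-, h⟩
        simp only at h
        rwa [e1] at h
      · intro h
        refine ⟨hz, ?_⟩
        simp only
        rwa [e1]
    have m3 := hrule _ z hz ((conv A a).1 m1) ((conv B c).1 m2)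
    have m4 := (conv D d).2 m3
    have e2 : y + d * z.im = y' := by rw [hy]; ring
    rw [e2] at m4
    exact m4
  linarith

lemma mn_eq : mn u (kO (half u R G A)) =
    (fun x z => kO (half u R G A) (x + (-(1 / 2) : ℝ) * (u + z.re)) z - (-(1 / 2) : ℝ) * z.im) := by
  funext x z
  unfold mn
  have : x - (u + z.re) / 2 = x + (-(1 / 2) : ℝ) * (u + z.re) := by ring
  rw [this]; ring

lemma pl_eq : pl u (kO (half u R G A)) =
    (fun x z => kO (half u R G A) (x + ((1 / 2 : ℝ)) * (u + z.re)) z - ((1 / 2 : ℝ)) * z.im) := by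
  funext x z
  unfold pl
  have : x + (u + z.re) / 2 = x + ((1 / 2 : ℝ)) * (u + z.re) := by ring
  rw [this]; ring

lemma k_eq : kO (half u R G A) =
    (fun x z => kO (half u R G A) (x + (0 : ℝ) * (u + z.re)) z - (0 : ℝ) * z.im) := by
  funext x z
  simp

/-- **150's three rules from the three set inclusions** -/
theorem rules {L X : Set (ℂ × ℂ)} (hR1 : R ≤ 1)
    (hL : LV 0 (HD R) (half u R G L)) (hX : LV 0 (HD R) (half u R G X))
    (h1 : ∀ t : ℂ, ∀ z ∈ HD R, (t - ((u : ℂ) + z) / 2, (u : ℂ) + z) ∈ L →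
      (t + ((u : ℂ) + z) / 2, (u : ℂ) + z) ∈ L → (t, (u : ℂ) + z) ∈ X)
    (h2 : ∀ t : ℂ, ∀ z ∈ HD R, (t, (u : ℂ) + z) ∈ X →
      (t + ((u : ℂ) + z) / 2, (u : ℂ) + z) ∈ L → (t - ((u : ℂ) + z) / 2, (u : ℂ) + z) ∈ L)
    (h3 : ∀ t : ℂ, ∀ z ∈ HD R, (t - ((u : ℂ) + z) / 2, (u : ℂ) + z) ∈ L →
      (t, (u : ℂ) + z) ∈ X → (t + ((u : ℂ) + z) / 2, (u : ℂ) + z) ∈ L) :
    Rule (mn u (kO (half u R G L))) (pl u (kO (half u R G L))) (kO (half u R G X)) R ∧
    Rule (kO (half u R G X)) (pl u (kO (half u R G L))) (mn u (kO (half u R G L))) R ∧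
    Rule (mn u (kO (half u R G L))) (kO (half u R G X)) (pl u (kO (half u R G L))) R := by
  have em : ∀ (t z : ℂ), t + ((-(1 / 2) : ℝ) : ℂ) * ((u : ℂ) + z) = t - ((u : ℂ) + z) / 2 := by
    intro t z; push_cast; ring
  have ep : ∀ (t z : ℂ), t + ((1 / 2 : ℝ) : ℂ) * ((u : ℂ) + z) = t + ((u : ℂ) + z) / 2 := by
    intro t z; push_cast; ring
  have e0 : ∀ (t z : ℂ), t + ((0 : ℝ) : ℂ) * ((u : ℂ) + z) = t := by
    intro t z; simp
  have n1 : |(-(1 / 2) : ℝ)| ≤ 1 / 2 := by norm_num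
  have n2 : |((1 / 2 : ℝ))| ≤ 1 / 2 := by norm_num
  have n0 : |(0 : ℝ)| ≤ 1 / 2 := by norm_num
  have r1 := rule_gen hR1 hL hL hX (a := -(1 / 2)) (c := 1 / 2) (d := 0) n0
    (fun t z hz => by simp only [em, ep, e0]; exact h1 t z hz)
  have r2 := rule_gen hR1 hX hL hL (a := 0) (c := 1 / 2) (d := -(1 / 2)) n1
    (fun t z hz => by simp only [em, ep, e0]; exact h2 t z hz)
  have r3 := rule_gen hR1 hL hX hL (a := -(1 / 2)) (c := 0) (d := 1 / 2) n2
    (fun t z hz => by simp only [em, ep, e0]; exact h3 t z hz)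
  rw [← mn_eq, ← pl_eq, ← k_eq] at r1
  rw [← mn_eq, ← pl_eq, ← k_eq] at r2
  rw [← mn_eq, ← pl_eq, ← k_eq] at r3
  exact ⟨r1, r2, r3⟩

end Rules

end Crest.Agent.R102.K669
end
end

-- ▼ part R102/SlopeK_814
section

/-!
Row 102, T1-B, leaf (c): the explicit harmonic shift of the half disc.

`K R z s = (1/(s-z) - z/(R²-sz))/π`; `G R F z = ∫_{(-R,R)} F(s) K R z s ds`; `Im G` is the harmonic
function of the half disc with boundary values `F` on the diameter and `0` on the arc.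
-/

set_option autoImplicit false

open Set Filter Topology MeasureTheory

noncomputable section

namespace Crest.Agent.R102.SlopeK

def K (R : ℝ) (z : ℂ) (s : ℝ) : ℂ := (1 / ((s:ℂ) - z) - z / ((R:ℂ)^2 - s*z)) / (Real.pi : ℂ)
def G (R : ℝ) (F : ℝ → ℝ) (z : ℂ) : ℂ := ∫ s in Set.Ioo (-R) R, (F s : ℂ) * K R z s
def HD (R : ℝ) : Set ℂ := Metric.ball 0 R ∩ {z | 0 < z.im}

theorem isOpen_HD (R : ℝ) : IsOpen (HD R) :=
  Metric.isOpen_ball.inter (isOpen_lt continuous_const Complex.continuous_im)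

theorem HD_norm {R : ℝ} {z : ℂ} (hz : z ∈ HD R) : ‖z‖ < R := by
  have := hz.1
  rwa [Metric.mem_ball, dist_zero_right] at this

theorem HD_im {R : ℝ} {z : ℂ} (hz : z ∈ HD R) : 0 < z.im := hz.2

/-! ### elementary estimates -/

theorem im_le_norm_sub {z : ℂ} (hz : 0 < z.im) (s : ℝ) : z.im ≤ ‖(s:ℂ) - z‖ := by
  have h1 := Complex.abs_im_le_norm ((s:ℂ) - z)
  have h2 : ((s:ℂ) - z).im = -z.im := by simp
  rw [h2, abs_neg, abs_of_pos hz] at h1
  exact h1

theorem sub_ne {z : ℂ} (hz : 0 < z.im) (s : ℝ) : (s:ℂ) - z ≠ 0 := by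
  intro h
  have := im_le_norm_sub hz s
  rw [h, norm_zero] at this
  linarith

theorem den_lower {R : ℝ} {z : ℂ} (hz : ‖z‖ < R) {s : ℝ} (hs : |s| ≤ R) :
    R * (R - ‖z‖) ≤ ‖(R:ℂ)^2 - s*z‖ := by
  have hR : 0 < R := (norm_nonneg z).trans_lt hz
  have h1 : ‖(R:ℂ)^2‖ - ‖(s:ℂ)*z‖ ≤ ‖(R:ℂ)^2 - s*z‖ := norm_sub_norm_le _ _
  have h2 : ‖(R:ℂ)^2‖ = R^2 := by
    rw [norm_pow, Complex.norm_real, Real.norm_of_nonneg hR.le]
  have h3 : ‖(s:ℂ)*z‖ ≤ R * ‖z‖ := by
    rw [norm_mul, Complex.norm_real, Real.norm_eq_abs]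
    exact mul_le_mul_of_nonneg_right hs (norm_nonneg z)
  nlinarith

theorem den_ne {R : ℝ} {z : ℂ} (hz : ‖z‖ < R) {s : ℝ} (hs : |s| ≤ R) :
    (R:ℂ)^2 - s*z ≠ 0 := by
  intro h
  have hR : 0 < R := (norm_nonneg z).trans_lt hz
  have h1 := den_lower hz hs
  rw [h, norm_zero] at h1
  have : 0 < R * (R - ‖z‖) := mul_pos hR (by linarith)
  linarith

theorem den_lower0 {R : ℝ} {z : ℂ} (hz : ‖z‖ < R) {s : ℝ} (hs : |s| ≤ R) :
    0 < ‖(R:ℂ)^2 - s*z‖ := norm_pos_iff.2 (den_ne hz hs)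

theorem abs_le_of_mem {R s : ℝ} (hs : s ∈ Ioo (-R) R) : |s| ≤ R :=
  abs_le.2 ⟨hs.1.le, hs.2.le⟩

theorem K_norm_le {R : ℝ} {z : ℂ} (hz : z ∈ HD R) {s : ℝ} (hs : |s| ≤ R) :
    ‖K R z s‖ ≤ (1 / z.im + 1 / (R - ‖z‖)) / Real.pi := by
  have hpi := Real.pi_pos
  have h0 := HD_im hz
  have h1 := HD_norm hz
  have hR : 0 < R := (norm_nonneg z).trans_lt h1
  unfold K
  rw [norm_div, Complex.norm_real, Real.norm_of_nonneg hpi.le]
  refine div_le_div_of_nonneg_right ?_ hpi.le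
  refine (norm_sub_le _ _).trans (add_le_add ?_ ?_)
  · rw [norm_div, norm_one]
    exact one_div_le_one_div_of_le h0 (im_le_norm_sub h0 s)
  · rw [norm_div, div_le_div_iff₀ (den_lower0 h1 hs) (by linarith)]
    have h2 := den_lower h1 hs
    have h3 : 0 ≤ R - ‖z‖ := by linarith
    nlinarith [norm_nonneg z]

theorem K_continuousOn {R : ℝ} {z : ℂ} (hz : z ∈ HD R) :
    ContinuousOn (K R z) (Icc (-R) R) := by
  unfold K
  have hz1 := HD_im hz
  have hz2 := HD_norm hz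
  refine ContinuousOn.div_const ?_ _
  refine ContinuousOn.sub ?_ ?_
  · refine continuousOn_const.div (by fun_prop) ?_
    intro s _
    exact sub_ne hz1 s
  · refine continuousOn_const.div (by fun_prop) ?_
    intro s hs
    exact den_ne hz2 (abs_le.2 hs)

theorem K_aesm {R : ℝ} {z : ℂ} (hz : z ∈ HD R) :
    AEStronglyMeasurable (K R z) (volume.restrict (Ioo (-R) R)) :=
  ((K_continuousOn hz).mono Ioo_subset_Icc_self).aestronglyMeasurable measurableSet_Ioo

theorem K_integrable {R : ℝ} {z : ℂ} (hz : z ∈ HD R) {F : ℝ → ℝ} (hF : Measurable F) {M : ℝ}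
    (hM : ∀ s, |F s| ≤ M) :
    Integrable (fun s => (F s : ℂ) * K R z s) (volume.restrict (Ioo (-R) R)) := by
  have hfin : IsFiniteMeasure (volume.restrict (Ioo (-R) R)) := ⟨by
    rw [Measure.restrict_apply_univ, Real.volume_Ioo]; exact ENNReal.ofReal_lt_top⟩
  refine Integrable.of_bound (C := M * ((1 / z.im + 1 / (R - ‖z‖)) / Real.pi)) ?_ ?_
  · exact (Complex.measurable_ofReal.comp hF).aestronglyMeasurable.mul (K_aesm hz)
  · rw [ae_restrict_iff' measurableSet_Ioo]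
    refine ae_of_all _ fun s hs => ?_
    rw [norm_mul, Complex.norm_real, Real.norm_eq_abs]
    have h1 := K_norm_le hz (abs_le_of_mem hs)
    exact mul_le_mul (hM s) h1 (norm_nonneg _) ((abs_nonneg _).trans (hM s))

/-! ### imaginary part of the kernel -/

theorem K_im {R : ℝ} (z : ℂ) (s : ℝ) :
    (K R z s).im = z.im / Real.pi * (1 / ‖(s:ℂ) - z‖^2 - R^2 / ‖(R:ℂ)^2 - s*z‖^2) := by
  unfold K
  rw [Complex.div_ofReal_im, Complex.sub_im, Complex.div_im, Complex.div_im,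
    Complex.sq_norm, Complex.sq_norm]
  simp only [Complex.one_im, Complex.one_re, Complex.sub_re, Complex.sub_im, Complex.ofReal_re,
    Complex.ofReal_im, Complex.mul_im, Complex.mul_re]
  have e1 : ((R:ℂ)^2).re = R^2 := by norm_cast
  have e2 : ((R:ℂ)^2).im = 0 := by norm_cast
  rw [e1, e2]
  ring

theorem key_id {R : ℝ} (z : ℂ) (s : ℝ) :
    ‖(R:ℂ)^2 - s*z‖^2 - R^2 * ‖(s:ℂ) - z‖^2 = (R^2 - ‖z‖^2) * (R^2 - s^2) := by
  rw [Complex.sq_norm, Complex.sq_norm, Complex.sq_norm, Complex.normSq_apply,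
    Complex.normSq_apply, Complex.normSq_apply]
  have e1 : ((R:ℂ)^2).re = R^2 := by norm_cast
  have e2 : ((R:ℂ)^2).im = 0 := by norm_cast
  simp only [Complex.sub_re, Complex.sub_im, Complex.ofReal_re,
    Complex.ofReal_im, Complex.mul_im, Complex.mul_re, e1, e2]
  ring

theorem K_im' {R : ℝ} {z : ℂ} (hz : z ∈ HD R) {s : ℝ} (hs : |s| ≤ R) :
    (K R z s).im = z.im / Real.pi * ((R^2 - ‖z‖^2) * (R^2 - s^2) /
      (‖(s:ℂ) - z‖^2 * ‖(R:ℂ)^2 - s*z‖^2)) := by
  have h1 : ‖(s:ℂ) - z‖ ≠ 0 := norm_ne_zero_iff.2 (sub_ne (HD_im hz) s)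
  have h2 : ‖(R:ℂ)^2 - s*z‖ ≠ 0 := norm_ne_zero_iff.2 (den_ne (HD_norm hz) hs)
  rw [K_im, ← key_id]
  congr 1
  field_simp

theorem sq_sub_nonneg {R : ℝ} {z : ℂ} (hz : z ∈ HD R) : 0 ≤ R^2 - ‖z‖^2 := by
  have := HD_norm hz
  have := norm_nonneg z
  nlinarith

theorem sq_sub_nonneg' {R s : ℝ} (hs : |s| ≤ R) : 0 ≤ R^2 - s^2 := by
  have h1 := abs_nonneg s
  have h2 := sq_abs s
  nlinarith

theorem K_im_nonneg' {R : ℝ} {z : ℂ} (hz : z ∈ HD R) {s : ℝ} (hs : |s| ≤ R) :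
    0 ≤ (K R z s).im := by
  rw [K_im' hz hs]
  have h1 := sq_sub_nonneg hz
  have h2 := sq_sub_nonneg' hs
  have h3 := HD_im hz
  have h4 := Real.pi_pos
  positivity


/-- Poisson kernel of the half plane -/
def pk (z : ℂ) (s : ℝ) : ℝ := z.im / Real.pi * (1 / ‖(s:ℂ) - z‖^2)

theorem norm_sub_sq (z : ℂ) (s : ℝ) : ‖(s:ℂ) - z‖^2 = (s - z.re)^2 + z.im^2 := by
  rw [Complex.sq_norm, Complex.normSq_apply]
  simp
  ring

theorem pk_eq {z : ℂ} (hz : 0 < z.im) (s : ℝ) :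
    pk z s = Real.pi⁻¹ * z.im⁻¹ * (1 + ((s - z.re) / z.im) ^ 2)⁻¹ := by
  unfold pk
  rw [norm_sub_sq]
  have h1 : (s - z.re) ^ 2 + z.im ^ 2 ≠ 0 := by positivity
  have h2 : (1 + ((s - z.re) / z.im) ^ 2) ≠ 0 := by positivity
  have := Real.pi_ne_zero
  field_simp
  ring

theorem pk_nonneg {z : ℂ} (hz : 0 < z.im) (s : ℝ) : 0 ≤ pk z s := by
  unfold pk
  have := Real.pi_pos
  positivity

theorem integrable_pk {z : ℂ} (hz : 0 < z.im) : Integrable (pk z) := by
  have h0 := integrable_inv_one_add_sq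
  have h1 : Integrable fun t : ℝ => (1 + (t / z.im) ^ 2)⁻¹ := h0.comp_div hz.ne'
  have h2 : Integrable fun t : ℝ => (1 + ((t - z.re) / z.im) ^ 2)⁻¹ := h1.comp_sub_right z.re
  have h3 := h2.const_mul (Real.pi⁻¹ * z.im⁻¹)
  refine h3.congr (Eventually.of_forall fun t => ?_)
  simp only [pk_eq hz]

theorem integral_pk {z : ℂ} (hz : 0 < z.im) : ∫ t, pk z t = 1 := by
  simp only [pk_eq hz]
  rw [integral_const_mul]
  rw [integral_sub_right_eq_self (fun x : ℝ => (1 + (x / z.im) ^ 2)⁻¹) z.re,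
    Measure.integral_comp_div (fun x : ℝ => (1 + x ^ 2)⁻¹) z.im, integral_univ_inv_one_add_sq,
    abs_of_pos hz, smul_eq_mul]
  have := Real.pi_ne_zero
  field_simp

theorem K_im_le_pk {R : ℝ} {z : ℂ} (hz : z ∈ HD R) (s : ℝ) : (K R z s).im ≤ pk z s := by
  rw [K_im]
  unfold pk
  have h3 := HD_im hz
  have h4 := Real.pi_pos
  have h5 : 0 ≤ R^2 / ‖(R:ℂ)^2 - s*z‖^2 := by positivity
  exact mul_le_mul_of_nonneg_left (by linarith) (by positivity)

theorem pk_sub_K_im {R : ℝ} {z : ℂ} (s : ℝ) :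
    pk z s - (K R z s).im = z.im / Real.pi * (R^2 / ‖(R:ℂ)^2 - s*z‖^2) := by
  rw [K_im]
  unfold pk
  ring

/-! ### imaginary part of `G` -/

theorem G_im {R : ℝ} {z : ℂ} (hz : z ∈ HD R) {F : ℝ → ℝ} (hF : Measurable F) {M : ℝ}
    (hM : ∀ s, |F s| ≤ M) :
    (G R F z).im = ∫ s in Ioo (-R) R, F s * (K R z s).im := by
  have h := Complex.imCLM.integral_comp_comm (K_integrable hz hF hM)
  unfold G
  simp only [Complex.imCLM_apply, Complex.im_ofReal_mul] at h
  exact h.symm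

theorem K_im_integrable {R : ℝ} {z : ℂ} (hz : z ∈ HD R) {F : ℝ → ℝ} (hF : Measurable F) {M : ℝ}
    (hM : ∀ s, |F s| ≤ M) :
    Integrable (fun s => F s * (K R z s).im) (volume.restrict (Ioo (-R) R)) := by
  have h := (K_integrable hz hF hM).im
  refine h.congr (ae_of_all _ fun s => ?_)
  exact Complex.im_ofReal_mul _ _

theorem G_im_mono {R : ℝ} (_hR : 0 < R) {F F' : ℝ → ℝ} {M : ℝ} (hF : Measurable F)
    (hF' : Measurable F') (hM : ∀ s, |F s| ≤ M) (hM' : ∀ s, |F' s| ≤ M)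
    (h : ∀ s ∈ Ioo (-R) R, F s ≤ F' s) {z : ℂ} (hz : z ∈ HD R) :
    (G R F z).im ≤ (G R F' z).im := by
  rw [G_im hz hF hM, G_im hz hF' hM']
  refine setIntegral_mono_on (K_im_integrable hz hF hM) (K_im_integrable hz hF' hM')
    measurableSet_Ioo fun s hs => ?_
  exact mul_le_mul_of_nonneg_right (h s hs) (K_im_nonneg' hz (abs_le_of_mem hs))

theorem G_im_nonneg {R : ℝ} (_hR : 0 < R) {F : ℝ → ℝ} (_hF : Measurable F) (h : ∀ s, 0 ≤ F s)
    {z : ℂ} (hz : z ∈ HD R) : 0 ≤ (G R F z).im := by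
  by_cases hi : Integrable (fun s => (F s : ℂ) * K R z s) (volume.restrict (Ioo (-R) R))
  · have h1 := Complex.imCLM.integral_comp_comm hi
    simp only [Complex.imCLM_apply, Complex.im_ofReal_mul] at h1
    unfold G
    rw [← h1]
    exact setIntegral_nonneg measurableSet_Ioo fun s hs =>
      mul_nonneg (h s) (K_im_nonneg' hz (abs_le_of_mem hs))
  · unfold G
    rw [integral_undef hi, Complex.zero_im]

theorem G_im_abs_le {R : ℝ} (_hR : 0 < R) {F : ℝ → ℝ} {z : ℂ} (hz : z ∈ HD R) {M : ℝ}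
    (hF : Measurable F) (hM : ∀ s, |F s| ≤ M) : |(G R F z).im| ≤ M := by
  have hM0 : 0 ≤ M := (abs_nonneg _).trans (hM 0)
  rw [G_im hz hF hM]
  have h1 : |∫ s in Ioo (-R) R, F s * (K R z s).im| ≤ ∫ s in Ioo (-R) R, M * pk z s := by
    rw [← Real.norm_eq_abs]
    refine norm_integral_le_of_norm_le (((integrable_pk (HD_im hz)).const_mul M).restrict) ?_
    rw [ae_restrict_iff' measurableSet_Ioo]
    refine ae_of_all _ fun s hs => ?_
    rw [norm_mul, Real.norm_eq_abs, Real.norm_eq_abs,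
      abs_of_nonneg (K_im_nonneg' hz (abs_le_of_mem hs))]
    exact mul_le_mul (hM s) (K_im_le_pk hz s) (K_im_nonneg' hz (abs_le_of_mem hs)) hM0
  refine h1.trans ?_
  rw [integral_const_mul]
  have h2 : ∫ s in Ioo (-R) R, pk z s ≤ 1 := by
    rw [← integral_pk (HD_im hz)]
    exact setIntegral_le_integral (integrable_pk (HD_im hz))
      (Eventually.of_forall (pk_nonneg (HD_im hz)))
  nlinarith

theorem G_im_le {R : ℝ} (hR : 0 < R) {F : ℝ → ℝ} {M : ℝ} (hF : Measurable F) (h0 : ∀ s, 0 ≤ F s)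
    (hM : ∀ s, F s ≤ M) {z : ℂ} (hz : z ∈ HD R) : (G R F z).im ≤ M :=
  (le_abs_self _).trans (G_im_abs_le hR hz hF fun s => by rw [abs_of_nonneg (h0 s)]; exact hM s)

theorem G_im_tendsto {R : ℝ} (_hR : 0 < R) {f : ℕ → ℝ → ℝ} {F : ℝ → ℝ} {M : ℝ}
    (hf : ∀ n, Measurable (f n)) (hM : ∀ n s, |f n s| ≤ M)
    (hlim : ∀ s, Tendsto (fun n => f n s) atTop (𝓝 (F s))) {z : ℂ} (hz : z ∈ HD R) :
    Tendsto (fun n => (G R (f n) z).im) atTop (𝓝 (G R F z).im) := by
  have hF : Measurable F := measurable_of_tendsto_metrizable hf (tendsto_pi_nhds.2 hlim)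
  have hFM : ∀ s, |F s| ≤ M := fun s =>
    le_of_tendsto ((hlim s).abs) (Eventually.of_forall fun n => hM n s)
  have e1 : (fun n => (G R (f n) z).im) = fun n => ∫ s in Ioo (-R) R, f n s * (K R z s).im := by
    funext n
    exact G_im hz (hf n) (hM n)
  rw [e1, G_im hz hF hFM]
  refine tendsto_integral_of_dominated_convergence (fun s => M * pk z s) ?_
    (((integrable_pk (HD_im hz)).const_mul M).restrict) ?_ ?_
  · intro n
    exact (K_im_integrable hz (hf n) (hM n)).aestronglyMeasurable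
  · intro n
    rw [ae_restrict_iff' measurableSet_Ioo]
    refine ae_of_all _ fun s hs => ?_
    rw [norm_mul, Real.norm_eq_abs, Real.norm_eq_abs,
      abs_of_nonneg (K_im_nonneg' hz (abs_le_of_mem hs))]
    exact mul_le_mul (hM n s) (K_im_le_pk hz s) (K_im_nonneg' hz (abs_le_of_mem hs))
      ((abs_nonneg _).trans (hM n s))
  · exact ae_of_all _ fun s => (hlim s).mul_const _

/-! ### holomorphy -/

/-- derivative of the kernel in `z` -/
def K1 (R : ℝ) (z : ℂ) (s : ℝ) : ℂ :=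
  (1 / ((s:ℂ) - z)^2 - (R:ℂ)^2 / ((R:ℂ)^2 - s*z)^2) / (Real.pi : ℂ)

theorem K_hasDerivAt {R : ℝ} {z : ℂ} (hz : z ∈ HD R) {s : ℝ} (hs : |s| ≤ R) :
    HasDerivAt (fun z => K R z s) (K1 R z s) z := by
  unfold K K1
  have h1 := sub_ne (HD_im hz) s
  have h2 := den_ne (HD_norm hz) hs
  refine HasDerivAt.div_const ?_ _
  have d1 : HasDerivAt (fun z : ℂ => 1 / ((s:ℂ) - z)) (1 / ((s:ℂ) - z)^2) z := by
    have := HasDerivAt.fun_inv ((hasDerivAt_id z).const_sub (s:ℂ)) h1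
    simpa using this
  have d2 : HasDerivAt (fun z : ℂ => z / ((R:ℂ)^2 - s*z)) ((R:ℂ)^2 / ((R:ℂ)^2 - s*z)^2) z := by
    have e1 : HasDerivAt (fun z : ℂ => (R:ℂ)^2 - s*z) (-(s:ℂ)) z := by
      have := ((hasDerivAt_id z).const_mul (s:ℂ)).const_sub ((R:ℂ)^2)
      simpa using this
    have := (hasDerivAt_id z).div e1 h2
    refine this.congr_deriv ?_
    simp only [id]
    congr 1
    ring
  exact d1.sub d2

theorem K1_norm_le {R : ℝ} (hR : 0 < R) {z : ℂ} (hz : z ∈ HD R) {a b : ℝ} (ha : 0 < a)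
    (hb : 0 < b) (hza : a ≤ z.im) (hzb : b ≤ R - ‖z‖) {s : ℝ} (hs : |s| ≤ R) :
    ‖K1 R z s‖ ≤ (1 / a^2 + 1 / b^2) / Real.pi := by
  have hpi := Real.pi_pos
  have h0 := HD_im hz
  have h1 := HD_norm hz
  unfold K1
  rw [norm_div, Complex.norm_real, Real.norm_of_nonneg hpi.le]
  refine div_le_div_of_nonneg_right ?_ hpi.le
  refine (norm_sub_le _ _).trans (add_le_add ?_ ?_)
  · rw [norm_div, norm_one, norm_pow]
    refine one_div_le_one_div_of_le (by positivity) ?_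
    exact pow_le_pow_left₀ ha.le (hza.trans (im_le_norm_sub h0 s)) 2
  · rw [norm_div, norm_pow, norm_pow, Complex.norm_real, Real.norm_of_nonneg hR.le,
      div_le_div_iff₀ (by have := den_lower0 h1 hs; positivity) (by positivity), one_mul]
    have h2 := den_lower h1 hs
    have h3 : R * b ≤ ‖(R:ℂ)^2 - s*z‖ := (mul_le_mul_of_nonneg_left hzb hR.le).trans h2
    calc R^2 * b^2 = (R*b)^2 := by ring
      _ ≤ _ := pow_le_pow_left₀ (by positivity) h3 2

theorem G_hasDerivAt {R : ℝ} (hR : 0 < R) {F : ℝ → ℝ} (hF : Measurable F) {M : ℝ}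
    (hM : ∀ s, |F s| ≤ M) {z : ℂ} (hz : z ∈ HD R) :
    HasDerivAt (G R F) (∫ s in Ioo (-R) R, (F s : ℂ) * K1 R z s) z := by
  have hM0 : 0 ≤ M := (abs_nonneg _).trans (hM 0)
  have h0 := HD_im hz
  have h1 := HD_norm hz
  set a := z.im / 2 with ha
  set b := (R - ‖z‖) / 2 with hb
  have ha0 : 0 < a := by rw [ha]; linarith
  have hb0 : 0 < b := by rw [hb]; linarith
  set ε := min a b with hε
  have hε0 : 0 < ε := lt_min ha0 hb0
  have hball : ∀ x ∈ Metric.ball z ε, x ∈ HD R ∧ a ≤ x.im ∧ b ≤ R - ‖x‖ := by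
    intro x hx
    rw [Metric.mem_ball, dist_eq_norm] at hx
    have h2 : ‖x - z‖ < a := hx.trans_le (min_le_left _ _)
    have h3 : ‖x - z‖ < b := hx.trans_le (min_le_right _ _)
    have h4 : |x.im - z.im| < a := by
      have := Complex.abs_im_le_norm (x - z)
      rw [Complex.sub_im] at this
      linarith
    have h5 : ‖x‖ ≤ ‖z‖ + ‖x - z‖ := by
      calc ‖x‖ = ‖z + (x - z)‖ := by congr 1; ring
        _ ≤ _ := norm_add_le _ _
    have h6 := abs_lt.1 h4
    have h7 : a ≤ x.im := by rw [ha] at h6 ⊢; linarith [h6.1]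
    have h8 : b ≤ R - ‖x‖ := by rw [hb] at h3 ⊢; linarith
    refine ⟨⟨?_, ?_⟩, h7, h8⟩
    · rw [Metric.mem_ball, dist_zero_right]; linarith
    · exact ha0.trans_le h7
  have hfin : IsFiniteMeasure (volume.restrict (Ioo (-R) R)) := ⟨by
    rw [Measure.restrict_apply_univ, Real.volume_Ioo]; exact ENNReal.ofReal_lt_top⟩
  have hK1m : AEStronglyMeasurable (fun s => (F s : ℂ) * K1 R z s)
      (volume.restrict (Ioo (-R) R)) := by
    refine (Complex.measurable_ofReal.comp hF).aestronglyMeasurable.mul ?_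
    refine ContinuousOn.aestronglyMeasurable ?_ measurableSet_Ioo
    unfold K1
    refine ContinuousOn.div_const ?_ _
    refine ContinuousOn.sub ?_ ?_
    · refine continuousOn_const.div (by fun_prop) ?_
      intro s _
      exact pow_ne_zero 2 (sub_ne h0 s)
    · refine continuousOn_const.div (by fun_prop) ?_
      intro s hs
      exact pow_ne_zero 2 (den_ne h1 (abs_le_of_mem hs))
  have key := hasDerivAt_integral_of_dominated_loc_of_deriv_le
    (μ := volume.restrict (Ioo (-R) R)) (F := fun x s => (F s : ℂ) * K R x s)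
    (F' := fun x s => (F s : ℂ) * K1 R x s) (x₀ := z)
    (bound := fun _ => M * ((1 / a^2 + 1 / b^2) / Real.pi)) (s := Metric.ball z ε)
    (Metric.ball_mem_nhds z hε0) ?_ (K_integrable hz hF hM) hK1m ?_ (integrable_const _) ?_
  · exact key.2
  · filter_upwards [Metric.ball_mem_nhds z hε0] with x hx
    exact (K_integrable (hball x hx).1 hF hM).aestronglyMeasurable
  · rw [ae_restrict_iff' measurableSet_Ioo]
    refine ae_of_all _ fun s hs x hx => ?_
    obtain ⟨h2, h3, h4⟩ := hball x hx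
    rw [norm_mul, Complex.norm_real, Real.norm_eq_abs]
    exact mul_le_mul (hM s) (K1_norm_le hR h2 ha0 hb0 h3 h4 (abs_le_of_mem hs)) (norm_nonneg _) hM0
  · rw [ae_restrict_iff' measurableSet_Ioo]
    refine ae_of_all _ fun s hs x hx => ?_
    exact (K_hasDerivAt (hball x hx).1 (abs_le_of_mem hs)).const_mul _

theorem G_diff {R : ℝ} (hR : 0 < R) {F : ℝ → ℝ} {M : ℝ} (hF : Measurable F)
    (hM : ∀ s, |F s| ≤ M) : DifferentiableOn ℂ (G R F) (HD R) := fun _ hz =>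
  (G_hasDerivAt hR hF hM hz).differentiableAt.differentiableWithinAt

/-! ### boundary values -/

theorem G_bdry_arc {R : ℝ} (hR : 0 < R) {F : ℝ → ℝ} {M : ℝ} (hF : Measurable F)
    (hM : ∀ s, |F s| ≤ M) {ζ : ℂ} (hζ : ‖ζ‖ = R) (hζ' : 0 < ζ.im) :
    Tendsto (fun z => (G R F z).im) (𝓝[HD R] ζ) (𝓝 0) := by
  have hM0 : 0 ≤ M := (abs_nonneg _).trans (hM 0)
  have hpi := Real.pi_pos
  -- pointwise bound
  have hbound : ∀ z ∈ HD R, |(G R F z).im| ≤ 2 * R * (M * ((R^2 - ‖z‖^2) / (Real.pi * z.im^3))) := by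
    intro z hz
    rw [G_im hz hF hM, ← Real.norm_eq_abs]
    have h1 : ∀ s ∈ Ioo (-R) R, ‖F s * (K R z s).im‖ ≤
        M * ((R^2 - ‖z‖^2) / (Real.pi * z.im^3)) := by
      intro s hs
      rw [norm_mul, Real.norm_eq_abs, Real.norm_eq_abs,
        abs_of_nonneg (K_im_nonneg' hz (abs_le_of_mem hs))]
      refine mul_le_mul (hM s) ?_ (K_im_nonneg' hz (abs_le_of_mem hs)) hM0
      rw [K_im' hz (abs_le_of_mem hs)]
      have a1 := im_le_norm_sub (HD_im hz) s
      have a2 := HD_im hz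
      have a3 := sq_sub_nonneg hz
      have a4 := sq_sub_nonneg' (abs_le_of_mem hs)
      have a5 : R^2 * z.im^2 ≤ ‖(R:ℂ)^2 - s*z‖^2 := by
        have b1 := key_id (R := R) z s
        have b2 : z.im^2 ≤ ‖(s:ℂ) - z‖^2 := pow_le_pow_left₀ a2.le a1 2
        have b3 : 0 ≤ (R^2 - ‖z‖^2) * (R^2 - s^2) := mul_nonneg a3 a4
        nlinarith [sq_nonneg R]
      have a6 : z.im^2 ≤ ‖(s:ℂ) - z‖^2 := pow_le_pow_left₀ a2.le a1 2
      have a7 : z.im^2 * (R^2 * z.im^2) ≤ ‖(s:ℂ) - z‖^2 * ‖(R:ℂ)^2 - s*z‖^2 :=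
        mul_le_mul a6 a5 (by positivity) (by positivity)
      have a8 : (R^2 - ‖z‖^2) * (R^2 - s^2) ≤ (R^2 - ‖z‖^2) * R^2 :=
        mul_le_mul_of_nonneg_left (by nlinarith [sq_nonneg s]) a3
      have a9 : (R^2 - ‖z‖^2) * (R^2 - s^2) / (‖(s:ℂ) - z‖^2 * ‖(R:ℂ)^2 - s*z‖^2) ≤
          (R^2 - ‖z‖^2) * R^2 / (z.im^2 * (R^2 * z.im^2)) :=
        div_le_div₀ (by positivity) a8 (by positivity) a7
      calc z.im / Real.pi * ((R^2 - ‖z‖^2) * (R^2 - s^2) /
            (‖(s:ℂ) - z‖^2 * ‖(R:ℂ)^2 - s*z‖^2))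
          ≤ z.im / Real.pi * ((R^2 - ‖z‖^2) * R^2 / (z.im^2 * (R^2 * z.im^2))) :=
            mul_le_mul_of_nonneg_left a9 (by positivity)
        _ = (R^2 - ‖z‖^2) / (Real.pi * z.im^3) := by
            field_simp
    have h2 := norm_setIntegral_le_of_norm_le_const (μ := volume) (s := Ioo (-R) R)
      (by rw [Real.volume_Ioo]; exact ENNReal.ofReal_lt_top) h1
    refine h2.trans (le_of_eq ?_)
    have e1 : volume.real (Ioo (-R) R) = 2 * R := by
      rw [Measure.real, Real.volume_Ioo, ENNReal.toReal_ofReal (by linarith)]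
      ring
    rw [e1]; ring
  have hlim : Tendsto (fun z : ℂ => 2 * R * (M * ((R^2 - ‖z‖^2) / (Real.pi * z.im^3))))
      (𝓝[HD R] ζ) (𝓝 0) := by
    have hc : ContinuousAt (fun z : ℂ => 2 * R * (M * ((R^2 - ‖z‖^2) / (Real.pi * z.im^3)))) ζ := by
      have h3 : Real.pi * ζ.im^3 ≠ 0 := by positivity
      have hi : ContinuousAt (fun z : ℂ => z.im) ζ := Complex.continuous_im.continuousAt
      have hn : ContinuousAt (fun z : ℂ => ‖z‖) ζ := continuous_norm.continuousAt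
      exact continuousAt_const.mul (continuousAt_const.mul
        ((continuousAt_const.sub (hn.pow 2)).div (continuousAt_const.mul (hi.pow 3)) h3))
    have h4 := hc.tendsto
    simp only [hζ, sub_self, zero_div, mul_zero] at h4
    exact h4.mono_left nhdsWithin_le_nhds
  refine squeeze_zero_norm' ?_ hlim
  filter_upwards [self_mem_nhdsWithin] with z hz
  rw [Real.norm_eq_abs]
  exact hbound z hz

/-- Poisson kernel away from a point -/
theorem pk_far {u δ : ℝ} (hδ : 0 < δ) {z : ℂ} (hz : 0 < z.im) (hu : |z.re - u| < δ / 2)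
    {s : ℝ} (hs : δ ≤ |s - u|) : pk z s ≤ (8 * z.im / δ) * pk ((u:ℂ) + δ * Complex.I) s := by
  have hpi := Real.pi_pos
  unfold pk
  rw [norm_sub_sq, norm_sub_sq]
  have e1 : ((u:ℂ) + δ * Complex.I).re = u := by simp
  have e2 : ((u:ℂ) + δ * Complex.I).im = δ := by simp
  rw [e1, e2]
  have h3 : |s - u| ≤ 2 * |s - z.re| := by
    have h4 : |s - u| ≤ |s - z.re| + |z.re - u| := abs_sub_le _ _ _
    linarith
  have h5 : (s - u)^2 ≤ 4 * (s - z.re)^2 := by
    rw [← sq_abs (s - u), ← sq_abs (s - z.re)]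
    nlinarith [abs_nonneg (s - u), abs_nonneg (s - z.re)]
  have h6 : δ^2 ≤ (s - u)^2 := by
    rw [← sq_abs (s - u)]
    exact pow_le_pow_left₀ hδ.le hs 2
  have h7 : 1 / ((s - z.re) ^ 2 + z.im ^ 2) ≤ 8 * (1 / ((s - u) ^ 2 + δ ^ 2)) := by
    rw [mul_one_div, div_le_div_iff₀ (by positivity) (by positivity)]
    nlinarith [sq_nonneg z.im]
  calc z.im / Real.pi * (1 / ((s - z.re) ^ 2 + z.im ^ 2))
      ≤ z.im / Real.pi * (8 * (1 / ((s - u) ^ 2 + δ ^ 2))) :=
        mul_le_mul_of_nonneg_left h7 (by positivity)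
    _ = 8 * z.im / δ * (δ / Real.pi * (1 / ((s - u) ^ 2 + δ ^ 2))) := by
        field_simp

theorem pk_mul_integrable {φ : ℝ → ℝ} (hφ : Measurable φ) {M : ℝ} (hM : ∀ s, |φ s| ≤ M)
    {z : ℂ} (hz : 0 < z.im) : Integrable fun s => φ s * pk z s := by
  refine Integrable.bdd_mul (c := M) (integrable_pk hz) hφ.aestronglyMeasurable ?_
  exact ae_of_all _ fun s => by rw [Real.norm_eq_abs]; exact hM s

/-- quantitative convergence of the Poisson integral -/
theorem pk_conv {φ : ℝ → ℝ} (hφ : Measurable φ) {M : ℝ} (hM : ∀ s, |φ s| ≤ M) {u δ ε : ℝ}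
    (hδ : 0 < δ) (hε : 0 ≤ ε) (hc : ∀ s, |s - u| < δ → |φ s - φ u| ≤ ε) {z : ℂ} (hz : 0 < z.im)
    (hu : |z.re - u| < δ / 2) :
    |(∫ s, φ s * pk z s) - φ u| ≤ ε + 2 * M * (8 * z.im / δ) := by
  have hM0 : 0 ≤ M := (abs_nonneg _).trans (hM 0)
  have h1 : (∫ s, φ s * pk z s) - φ u = ∫ s, (φ s - φ u) * pk z s := by
    have e1 : ∫ s, φ u * pk z s = φ u := by rw [integral_const_mul, integral_pk hz, mul_one]
    calc (∫ s, φ s * pk z s) - φ u = (∫ s, φ s * pk z s) - ∫ s, φ u * pk z s := by rw [e1]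
      _ = ∫ s, (φ s * pk z s - φ u * pk z s) :=
          (integral_sub (pk_mul_integrable hφ hM hz) ((integrable_pk hz).const_mul _)).symm
      _ = _ := by congr 1; ext s; ring
  have him : 0 < ((u:ℂ) + δ * Complex.I).im := by simp [hδ]
  have h2 : Integrable fun s => ε * pk z s + 2 * M * (8 * z.im / δ) *
      pk ((u:ℂ) + δ * Complex.I) s :=
    ((integrable_pk hz).const_mul _).add ((integrable_pk him).const_mul _)
  rw [h1, ← Real.norm_eq_abs]
  refine (norm_integral_le_of_norm_le h2 (ae_of_all _ fun s => ?_)).trans (le_of_eq ?_)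
  · have h3 := pk_nonneg hz s
    have h4 := pk_nonneg him s
    rw [norm_mul, Real.norm_eq_abs, Real.norm_eq_abs, abs_of_nonneg h3]
    by_cases hs : |s - u| < δ
    · have h5 := mul_le_mul_of_nonneg_right (hc s hs) h3
      have h6 : 0 ≤ 2 * M * (8 * z.im / δ) * pk ((u:ℂ) + δ * Complex.I) s := by positivity
      linarith
    · push Not at hs
      have h5 := pk_far hδ hz hu hs
      have h6 : |φ s - φ u| ≤ 2 * M := by
        have := abs_sub (φ s) (φ u)
        have := hM s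
        have := hM u
        linarith
      have h7 : |φ s - φ u| * pk z s ≤ 2 * M * (8 * z.im / δ * pk ((u:ℂ) + δ * Complex.I) s) :=
        mul_le_mul h6 h5 h3 (by positivity)
      have h8 : 0 ≤ ε * pk z s := by positivity
      linarith
  · rw [integral_add ((integrable_pk hz).const_mul _) ((integrable_pk him).const_mul _),
      integral_const_mul, integral_const_mul, integral_pk hz, integral_pk him]
    ring

theorem pk_tendsto {φ : ℝ → ℝ} (hφ : Measurable φ) {M : ℝ} (hM : ∀ s, |φ s| ≤ M) {u : ℝ}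
    (hc : ContinuousAt φ u) :
    Tendsto (fun z : ℂ => ∫ s, φ s * pk z s) (𝓝[{z | 0 < z.im}] (u:ℂ)) (𝓝 (φ u)) := by
  have hM0 : 0 ≤ M := (abs_nonneg _).trans (hM 0)
  rw [Metric.tendsto_nhds]
  intro ε hε
  obtain ⟨δ, hδ, hδ'⟩ := Metric.continuousAt_iff.1 hc (ε / 2) (by positivity)
  have h1 : ∀ᶠ z : ℂ in 𝓝 (u:ℂ), |z.re - u| < δ / 2 := by
    have : Tendsto (fun z : ℂ => |z.re - u|) (𝓝 (u:ℂ)) (𝓝 |(u:ℂ).re - u|) :=
      ((Complex.continuous_re.sub continuous_const).abs).tendsto _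
    simp only [Complex.ofReal_re, sub_self, abs_zero] at this
    exact this.eventually (gt_mem_nhds (by positivity))
  have h2 : ∀ᶠ z : ℂ in 𝓝 (u:ℂ), 2 * M * (8 * z.im / δ) < ε / 2 := by
    have : Tendsto (fun z : ℂ => 2 * M * (8 * z.im / δ)) (𝓝 (u:ℂ))
        (𝓝 (2 * M * (8 * (u:ℂ).im / δ))) :=
      (continuous_const.mul ((continuous_const.mul Complex.continuous_im).div_const _)).tendsto _
    simp only [Complex.ofReal_im, mul_zero, zero_div] at this
    exact this.eventually (gt_mem_nhds (by positivity))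
  filter_upwards [nhdsWithin_le_nhds h1, nhdsWithin_le_nhds h2, self_mem_nhdsWithin]
    with z hz1 hz2 hz3
  rw [Real.dist_eq]
  have h3 := pk_conv hφ hM hδ (show 0 ≤ ε / 2 by positivity) (fun s hs => by
    have := hδ' (x := s) (by rwa [Real.dist_eq])
    rw [Real.dist_eq] at this
    exact this.le) hz3 hz1
  linarith

theorem ind_mul_pk (R : ℝ) (f : ℝ → ℝ) (z : ℂ) :
    ∫ s, (Ioo (-R) R).indicator f s * pk z s = ∫ s in Ioo (-R) R, f s * pk z s := by
  rw [← integral_indicator measurableSet_Ioo]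
  congr 1
  ext s
  by_cases hs : s ∈ Ioo (-R) R
  · simp [hs]
  · simp [hs]

theorem ind_bound (R : ℝ) {f : ℝ → ℝ} {M : ℝ} (hM : ∀ s, |f s| ≤ M) (s : ℝ) :
    |(Ioo (-R) R).indicator f s| ≤ M := by
  by_cases hs : s ∈ Ioo (-R) R
  · simp only [indicator_of_mem hs]; exact hM s
  · simp only [indicator_of_notMem hs, abs_zero]; exact (abs_nonneg _).trans (hM s)

/-- boundary values at points of the open diameter, for a bounded measurable function which is
continuous at the point -/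
theorem G_bdry_real' {R : ℝ} (hR : 0 < R) {f : ℝ → ℝ} {M : ℝ} (hf : Measurable f)
    (hM : ∀ s, |f s| ≤ M) {u : ℝ} (hu : u ∈ Ioo (-R) R) (hc : ContinuousAt f u) :
    Tendsto (fun z => (G R f z).im) (𝓝[HD R] (u:ℂ)) (𝓝 (f u)) := by
  have hM0 : 0 ≤ M := (abs_nonneg _).trans (hM 0)
  have hpi := Real.pi_pos
  set φ := (Ioo (-R) R).indicator f with hφ
  have hφm : Measurable φ := hf.indicator measurableSet_Ioo
  have hφM : ∀ s, |φ s| ≤ M := ind_bound R hM
  have hφu : φ u = f u := indicator_of_mem hu f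
  have hφc : ContinuousAt φ u := by
    have h1 : f =ᶠ[𝓝 u] φ := by
      filter_upwards [isOpen_Ioo.mem_nhds hu] with s hs
      exact (indicator_of_mem hs f).symm
    exact hc.congr h1
  have hmain : Tendsto (fun z : ℂ => ∫ s, φ s * pk z s) (𝓝[HD R] (u:ℂ)) (𝓝 (f u)) := by
    rw [← hφu]
    exact (pk_tendsto hφm hφM hφc).mono_left (nhdsWithin_mono _ fun z hz => hz.2)
  -- the correction term
  have hcorr : ∀ z ∈ HD R, |(∫ s, φ s * pk z s) - (G R f z).im| ≤
      2 * R * (M * (z.im / Real.pi * (1 / (R - ‖z‖)^2))) := by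
    intro z hz
    have hz1 := HD_im hz
    have hz2 := HD_norm hz
    rw [ind_mul_pk, G_im hz hf hM]
    have i1 : Integrable (fun s => f s * pk z s) (volume.restrict (Ioo (-R) R)) :=
      (pk_mul_integrable hf hM hz1).restrict
    rw [← integral_sub i1 (K_im_integrable hz hf hM), ← Real.norm_eq_abs]
    have h1 : ∀ s ∈ Ioo (-R) R, ‖f s * pk z s - f s * (K R z s).im‖ ≤
        M * (z.im / Real.pi * (1 / (R - ‖z‖)^2)) := by
      intro s hs
      rw [← mul_sub, pk_sub_K_im, norm_mul, Real.norm_eq_abs, Real.norm_eq_abs]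
      have h2 : 0 ≤ z.im / Real.pi * (R^2 / ‖(R:ℂ)^2 - s*z‖^2) := by positivity
      rw [abs_of_nonneg h2]
      refine mul_le_mul (hM s) ?_ h2 hM0
      refine mul_le_mul_of_nonneg_left ?_ (by positivity)
      have h3 := den_lower hz2 (abs_le_of_mem hs)
      have h4 : 0 < R - ‖z‖ := by linarith
      have h5 : (R * (R - ‖z‖))^2 ≤ ‖(R:ℂ)^2 - s*z‖^2 := pow_le_pow_left₀ (by positivity) h3 2
      calc R^2 / ‖(R:ℂ)^2 - s*z‖^2 ≤ R^2 / (R * (R - ‖z‖))^2 :=
            div_le_div_of_nonneg_left (by positivity) (by positivity) h5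
        _ = 1 / (R - ‖z‖)^2 := by field_simp
    have h2 := norm_setIntegral_le_of_norm_le_const (μ := volume) (s := Ioo (-R) R)
      (by rw [Real.volume_Ioo]; exact ENNReal.ofReal_lt_top) h1
    refine h2.trans (le_of_eq ?_)
    have e1 : volume.real (Ioo (-R) R) = 2 * R := by
      rw [Measure.real, Real.volume_Ioo, ENNReal.toReal_ofReal (by linarith)]
      ring
    rw [e1]; ring
  have hlim : Tendsto (fun z : ℂ => 2 * R * (M * (z.im / Real.pi * (1 / (R - ‖z‖)^2))))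
      (𝓝[HD R] (u:ℂ)) (𝓝 0) := by
    have hun : R - ‖(u:ℂ)‖ ≠ 0 := by
      rw [Complex.norm_real, Real.norm_eq_abs]
      have : |u| < R := abs_lt.2 ⟨hu.1, hu.2⟩
      linarith
    have hc : ContinuousAt (fun z : ℂ => 2 * R * (M * (z.im / Real.pi * (1 / (R - ‖z‖)^2))))
        (u:ℂ) := by
      have hi : ContinuousAt (fun z : ℂ => z.im) (u:ℂ) := Complex.continuous_im.continuousAt
      have hn : ContinuousAt (fun z : ℂ => ‖z‖) (u:ℂ) := continuous_norm.continuousAt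
      exact continuousAt_const.mul (continuousAt_const.mul ((hi.div_const _).mul
        (continuousAt_const.div ((continuousAt_const.sub hn).pow 2) (pow_ne_zero 2 hun))))
    have h4 := hc.tendsto
    simp only [Complex.ofReal_im, zero_div, zero_mul, mul_zero] at h4
    exact h4.mono_left nhdsWithin_le_nhds
  have hdiff : Tendsto (fun z => (∫ s, φ s * pk z s) - (G R f z).im) (𝓝[HD R] (u:ℂ)) (𝓝 0) := by
    refine squeeze_zero_norm' ?_ hlim
    filter_upwards [self_mem_nhdsWithin] with z hz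
    rw [Real.norm_eq_abs]
    exact hcorr z hz
  have := hmain.sub hdiff
  simpa using this

theorem G_bdry_real {R : ℝ} (hR : 0 < R) {f : ℝ → ℝ} {M : ℝ} (hf : Continuous f)
    (hM : ∀ s, |f s| ≤ M) {u : ℝ} (hu : u ∈ Ioo (-R) R) :
    Tendsto (fun z => (G R f z).im) (𝓝[HD R] (u:ℂ)) (𝓝 (f u)) :=
  G_bdry_real' hR hf.measurable hM hu hf.continuousAt

theorem G_bdry_corner {R : ℝ} (hR : 0 < R) {f : ℝ → ℝ} {M : ℝ} (hf : Continuous f)
    (h0 : ∀ s, 0 ≤ f s) (hM : ∀ s, |f s| ≤ M) (hout : ∀ s, s ∉ Ioo (-R) R → f s = 0) {ζ : ℂ}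
    (hζ : ζ = (R:ℂ) ∨ ζ = -(R:ℂ)) : Tendsto (fun z => (G R f z).im) (𝓝[HD R] ζ) (𝓝 0) := by
  obtain ⟨u, hu, hfu⟩ : ∃ u : ℝ, ζ = (u:ℂ) ∧ f u = 0 := by
    rcases hζ with h | h
    · exact ⟨R, h, hout R fun h => lt_irrefl _ h.2⟩
    · exact ⟨-R, by rw [h]; simp, hout (-R) fun h => lt_irrefl _ h.1⟩
  have h1 := (pk_tendsto hf.measurable hM (u := u) hf.continuousAt).mono_left
    (nhdsWithin_mono _ fun (z : ℂ) (hz : z ∈ HD R) => hz.2)
  rw [hfu] at h1
  rw [hu]
  refine tendsto_of_tendsto_of_tendsto_of_le_of_le' tendsto_const_nhds h1 ?_ ?_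
  · filter_upwards [self_mem_nhdsWithin] with z hz
    exact G_im_nonneg hR hf.measurable h0 hz
  · filter_upwards [self_mem_nhdsWithin] with z hz
    rw [G_im hz hf.measurable hM]
    have e1 : ∫ s, f s * pk z s = ∫ s in Ioo (-R) R, f s * pk z s := by
      rw [← ind_mul_pk]
      congr 1
      ext s
      by_cases hs : s ∈ Ioo (-R) R
      · rw [indicator_of_mem hs]
      · rw [indicator_of_notMem hs, hout s hs]
    rw [e1]
    refine setIntegral_mono_on (K_im_integrable hz hf.measurable hM)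
      (pk_mul_integrable hf.measurable hM (HD_im hz)).restrict measurableSet_Ioo fun s _ => ?_
    exact mul_le_mul_of_nonneg_left (K_im_le_pk hz s) (h0 s)

end Crest.Agent.R102.SlopeK
end
end

-- ▼ part R102/SlopeB_845
section

/-!
Row 102, T1-B (c) (helper845), part B: the symmetric harmonic shift `EE` of a bounded
superharmonic function on a disc centred on the real line: `EE ≤ V`, `EE` is superharmonic on
the whole disc, moving planes.
-/

set_option autoImplicit false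

open Set Filter Topology Metric Complex MeasureTheory
open scoped Real ComplexConjugate

noncomputable section

namespace Crest.Agent.R102.Slope845

open Crest.Agent.R102.SH712 (NT ic ic_le le_ic ic_cont ic_tendsto)
open Crest.Agent.R102.SlopeK

/-- the trace on the real segment, zero outside -/
def Fr (R : ℝ) (V : ℂ → ℝ) (s : ℝ) : ℝ := open Classical in if s ∈ Ioo (-R) R then V (s : ℂ) else 0

theorem Fr_of_mem {R : ℝ} {V : ℂ → ℝ} {s : ℝ} (h : s ∈ Ioo (-R) R) : Fr R V s = V (s : ℂ) := by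
  unfold Fr; exact if_pos h

theorem Fr_of_not_mem {R : ℝ} {V : ℂ → ℝ} {s : ℝ} (h : s ∉ Ioo (-R) R) : Fr R V s = 0 := by
  unfold Fr; exact if_neg h

theorem mem_ball_real {R : ℝ} {s : ℝ} : (s : ℂ) ∈ ball (0 : ℂ) R ↔ s ∈ Ioo (-R) R := by
  rw [mem_ball_zero_iff, Complex.norm_real, Real.norm_eq_abs, abs_lt]
  rfl

theorem isOpen_HD (R : ℝ) : IsOpen (HD R) :=
  isOpen_ball.inter (isOpen_lt continuous_const Complex.continuous_im)

theorem mem_HD {R : ℝ} {z : ℂ} : z ∈ HD R ↔ ‖z‖ < R ∧ 0 < z.im := by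
  unfold HD
  rw [mem_inter_iff, mem_ball_zero_iff]
  rfl

variable {R M : ℝ} {V : ℂ → ℝ}

theorem Fr_nonneg (hb : ∀ w ∈ ball (0 : ℂ) R, 0 ≤ V w ∧ V w ≤ M) (s : ℝ) : 0 ≤ Fr R V s := by
  by_cases h : s ∈ Ioo (-R) R
  · rw [Fr_of_mem h]; exact (hb _ (mem_ball_real.2 h)).1
  · rw [Fr_of_not_mem h]

theorem Fr_le (hM : 0 ≤ M) (hb : ∀ w ∈ ball (0 : ℂ) R, 0 ≤ V w ∧ V w ≤ M) (s : ℝ) :
    Fr R V s ≤ M := by
  by_cases h : s ∈ Ioo (-R) R
  · rw [Fr_of_mem h]; exact (hb _ (mem_ball_real.2 h)).2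
  · rw [Fr_of_not_mem h]; exact hM

theorem Fr_abs (hM : 0 ≤ M) (hb : ∀ w ∈ ball (0 : ℂ) R, 0 ≤ V w ∧ V w ≤ M) (s : ℝ) :
    |Fr R V s| ≤ M := by
  rw [abs_of_nonneg (Fr_nonneg hb s)]; exact Fr_le hM hb s

theorem Fr_lsc (hb : ∀ w ∈ ball (0 : ℂ) R, 0 ≤ V w ∧ V w ≤ M)
    (hl : LowerSemicontinuousOn V (ball 0 R)) : LowerSemicontinuous (Fr R V) := by
  intro s y hy
  by_cases h : s ∈ Ioo (-R) R
  · rw [Fr_of_mem h] at hy
    have h1 := hl s (mem_ball_real.2 h) y hy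
    have h2 : Tendsto (fun t : ℝ => (t : ℂ)) (𝓝 s) (𝓝[ball 0 R] (s : ℂ)) := by
      refine tendsto_nhdsWithin_iff.2 ⟨Complex.continuous_ofReal.tendsto s, ?_⟩
      filter_upwards [isOpen_Ioo.mem_nhds h] with t ht
      exact mem_ball_real.2 ht
    filter_upwards [h2.eventually h1, isOpen_Ioo.mem_nhds h] with t ht1 ht2
    rw [Fr_of_mem ht2]; exact ht1
  · rw [Fr_of_not_mem h] at hy
    exact Eventually.of_forall fun t => hy.trans_le (Fr_nonneg hb t)

theorem ic_nonneg {r : ℝ → ℝ} (h : ∀ s, 0 ≤ r s) (n : ℕ) (s : ℝ) : 0 ≤ ic r n s := by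
  unfold ic
  refine le_ciInf fun t => ?_
  have := h t
  positivity

/-- the closure of a cap -/
theorem closure_cap {R h : ℝ} {ζ : ℂ} (hζ : ζ ∈ closure (ball (0 : ℂ) R ∩ {z | h < z.im})) :
    ‖ζ‖ ≤ R ∧ h ≤ ζ.im := by
  have h1 : closure (ball (0 : ℂ) R ∩ {z | h < z.im}) ⊆ closedBall 0 R ∩ {z | h ≤ z.im} := by
    apply closure_minimal
    · rintro z ⟨h1, h2⟩
      exact ⟨ball_subset_closedBall h1, show h ≤ z.im from le_of_lt h2⟩
    · exact isClosed_closedBall.inter (isClosed_le continuous_const Complex.continuous_im)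
  have := h1 hζ
  exact ⟨mem_closedBall_zero_iff.1 this.1, this.2⟩

theorem bdry_HD {R : ℝ} {ζ : ℂ} (hζ : ζ ∈ closure (HD R)) (hn : ζ ∉ HD R) :
    (∃ u ∈ Ioo (-R) R, ζ = (u : ℂ)) ∨ (‖ζ‖ = R ∧ 0 < ζ.im) ∨ (ζ = (R : ℂ) ∨ ζ = -(R : ℂ)) := by
  obtain ⟨h1, h2⟩ := closure_cap hζ
  rw [mem_HD] at hn
  rcases h1.lt_or_eq with h3 | h3
  · left
    have h4 : ζ.im = 0 := by
      by_contra hne
      exact hn ⟨h3, lt_of_le_of_ne h2 (Ne.symm hne)⟩
    have h5 : ζ = (ζ.re : ℂ) := Complex.ext (by simp) (by simpa using h4)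
    refine ⟨ζ.re, ?_, h5⟩
    rw [← mem_ball_real, ← h5, mem_ball_zero_iff]
    exact h3
  · right
    rcases h2.lt_or_eq with h4 | h4
    · left; exact ⟨h3, h4⟩
    · right
      have h5 : ζ = (ζ.re : ℂ) := Complex.ext (by simp) (by simpa using h4.symm)
      rw [h5, Complex.norm_real, Real.norm_eq_abs] at h3
      rcases abs_cases ζ.re with ⟨h6, _⟩ | ⟨h6, _⟩
      · left; rw [h5, ← h6, h3]
      · right
        rw [h5]
        have : ζ.re = -R := by linarith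
        rw [this]; push_cast; rfl

theorem analyticAt_G (hR : 0 < R) {F : ℝ → ℝ} (hF : Measurable F) (hFM : ∀ s, |F s| ≤ M) :
    ∀ w ∈ HD R, AnalyticAt ℂ (G R F) w := fun w hw =>
  (G_diff hR hF hFM).analyticAt ((isOpen_HD R).mem_nhds hw)

theorem V_ge_n (hR : 0 < R) (hM : 0 ≤ M) (hb : ∀ w ∈ ball (0 : ℂ) R, 0 ≤ V w ∧ V w ≤ M)
    (hl : LowerSemicontinuousOn V (ball 0 R)) (hNT : NT V (ball 0 R)) (n : ℕ) :
    ∀ z ∈ HD R, (G R (ic (Fr R V) n) z).im ≤ V z := by
  have hFa := Fr_abs hM hb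
  have hc : Continuous (ic (Fr R V) n) := ic_cont hFa n
  have h0 : ∀ s, 0 ≤ ic (Fr R V) n s := ic_nonneg (Fr_nonneg hb) n
  have hle : ∀ s, ic (Fr R V) n s ≤ Fr R V s := ic_le hFa n
  have habs : ∀ s, |ic (Fr R V) n s| ≤ M := fun s => by
    rw [abs_of_nonneg (h0 s)]; exact (hle s).trans (Fr_le hM hb s)
  have hsub : HD R ⊆ ball 0 R := inter_subset_left
  have hGa := analyticAt_G hR hc.measurable habs
  have hGc : ContinuousOn (fun z => (G R (ic (Fr R V) n) z).im) (HD R) := fun z hz =>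
    (Complex.continuous_im.continuousAt.comp (hGa z hz).continuousAt).continuousWithinAt
  have hlv : LowerSemicontinuousOn (fun z => V z + -(G R (ic (Fr R V) n) z).im) (HD R) :=
    LowerSemicontinuousOn.add (hl.mono hsub) (hGc.neg.lowerSemicontinuousOn)
  have hmain := minp (Ω := HD R) (B := R) (fun z hz => (mem_HD.1 hz).1.le) (isOpen_HD R)
    (v := fun z => V z + -(G R (ic (Fr R V) n) z).im) hlv
    (by simpa only [sub_eq_add_neg] using NT_sub_im (NT_mono hNT hsub) hGa) ?_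
  · intro z hz
    have := hmain z hz
    linarith
  · intro ζ hζ hζn ε hε
    rcases bdry_HD hζ hζn with ⟨u, hu, rfl⟩ | ⟨h1, h2⟩ | h1
    · have h3 := hl u (mem_ball_real.2 hu) (V u - ε / 2) (by linarith)
      have h4 := G_bdry_real hR hc habs hu
      have h5 : ic (Fr R V) n u ≤ V u := (hle u).trans_eq (Fr_of_mem hu)
      have h6 := h4.eventually (gt_mem_nhds (show ic (Fr R V) n u < V u + ε / 2 by linarith))
      have h7 : ∀ᶠ z in 𝓝[HD R] (u : ℂ), V u - ε / 2 < V z := nhdsWithin_mono _ hsub h3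
      filter_upwards [h6, h7] with z hz1 hz2
      linarith
    · have h4 := G_bdry_arc hR hc.measurable habs h1 h2
      filter_upwards [h4.eventually (gt_mem_nhds hε), self_mem_nhdsWithin] with z hz1 hz2
      have := (hb z (hsub hz2)).1
      linarith
    · have h4 := G_bdry_corner hR hc h0 habs (fun s hs => le_antisymm
        ((hle s).trans_eq (Fr_of_not_mem hs)) (h0 s)) h1
      filter_upwards [h4.eventually (gt_mem_nhds hε), self_mem_nhdsWithin] with z hz1 hz2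
      have := (hb z (hsub hz2)).1
      linarith

theorem V_ge (hR : 0 < R) (hM : 0 ≤ M) (hb : ∀ w ∈ ball (0 : ℂ) R, 0 ≤ V w ∧ V w ≤ M)
    (hl : LowerSemicontinuousOn V (ball 0 R)) (hNT : NT V (ball 0 R)) :
    ∀ z ∈ HD R, (G R (Fr R V) z).im ≤ V z := by
  intro z hz
  have hFa := Fr_abs hM hb
  have hle : ∀ n s, ic (Fr R V) n s ≤ Fr R V s := fun n => ic_le hFa n
  have h0 : ∀ n s, 0 ≤ ic (Fr R V) n s := fun n => ic_nonneg (Fr_nonneg hb) n
  refine le_of_tendsto (G_im_tendsto (M := M) hR (fun n => (ic_cont hFa n).measurable)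
    (fun n s => ?_) (ic_tendsto hFa (Fr_lsc hb hl)) hz)
    (Eventually.of_forall fun n => V_ge_n hR hM hb hl hNT n z hz)
  rw [abs_of_nonneg (h0 n s)]; exact (hle n s).trans (Fr_le hM hb s)

theorem conj_mem_ball {z : ℂ} : conj z ∈ ball (0 : ℂ) R ↔ z ∈ ball (0 : ℂ) R := by
  rw [mem_ball_zero_iff, mem_ball_zero_iff, Complex.norm_conj]

theorem V_ge_conj (hR : 0 < R) (hM : 0 ≤ M) (hb : ∀ w ∈ ball (0 : ℂ) R, 0 ≤ V w ∧ V w ≤ M)
    (hl : LowerSemicontinuousOn V (ball 0 R)) (hNT : NT V (ball 0 R)) :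
    ∀ z ∈ HD R, (G R (Fr R V) z).im ≤ V (conj z) := by
  have h1 : Fr R (fun z => V (conj z)) = Fr R V := by
    ext s
    by_cases h : s ∈ Ioo (-R) R
    · rw [Fr_of_mem h, Fr_of_mem h, Complex.conj_ofReal]
    · rw [Fr_of_not_mem h, Fr_of_not_mem h]
  have h2 : LowerSemicontinuousOn (fun z => V (conj z)) (ball 0 R) := by
    intro z hz y hy
    have h3 := hl (conj z) (conj_mem_ball.2 hz) y hy
    have h4 : Tendsto (fun z : ℂ => conj z) (𝓝[ball 0 R] z) (𝓝[ball 0 R] (conj z)) := by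
      refine tendsto_nhdsWithin_iff.2 ⟨?_, ?_⟩
      · exact (Complex.continuous_conj.tendsto z).mono_left nhdsWithin_le_nhds
      · filter_upwards [self_mem_nhdsWithin] with w hw
        exact conj_mem_ball.2 hw
    exact h4.eventually h3
  have h3 : NT (fun z => V (conj z)) (ball 0 R) :=
    NT_mono (NT_conj hNT) (fun z hz => conj_mem_ball.2 hz)
  intro z hz
  have := V_ge hR hM (V := fun z => V (conj z)) (fun w hw => hb _ (conj_mem_ball.2 hw)) h2 h3 z hz
  rwa [h1] at this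

/-- the symmetric function -/
def EE (R : ℝ) (V : ℂ → ℝ) (z : ℂ) : ℝ :=
  if z.im = 0 then Fr R V z.re else (G R (Fr R V) ⟨z.re, |z.im|⟩).im

theorem EE_pos {z : ℂ} (hz : 0 < z.im) : EE R V z = (G R (Fr R V) z).im := by
  unfold EE
  rw [if_neg hz.ne', abs_of_pos hz]

theorem EE_conj (z : ℂ) : EE R V (conj z) = EE R V z := by
  unfold EE
  simp

theorem EE_real (x : ℝ) : EE R V (x : ℂ) = Fr R V x := by
  unfold EE
  simp

theorem EE_le (hR : 0 < R) (hM : 0 ≤ M) (hb : ∀ w ∈ ball (0 : ℂ) R, 0 ≤ V w ∧ V w ≤ M)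
    (hl : LowerSemicontinuousOn V (ball 0 R)) (hNT : NT V (ball 0 R)) :
    ∀ z ∈ ball (0 : ℂ) R, EE R V z ≤ V z := by
  intro z hz
  rcases lt_trichotomy z.im 0 with h | h | h
  · have h1 : conj z ∈ HD R := mem_HD.2 ⟨mem_ball_zero_iff.1 (conj_mem_ball.2 hz), by simpa using h⟩
    have h2 := V_ge_conj hR hM hb hl hNT _ h1
    rw [← EE_conj, EE_pos (mem_HD.1 h1).2]
    simpa using h2
  · have h5 : z = (z.re : ℂ) := Complex.ext (by simp) (by simpa using h)
    rw [h5] at hz ⊢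
    rw [EE_real, Fr_of_mem (mem_ball_real.1 hz)]
  · rw [EE_pos h]
    exact V_ge hR hM hb hl hNT z (mem_HD.2 ⟨mem_ball_zero_iff.1 hz, h⟩)

theorem EE_nonneg (hR : 0 < R) (hM : 0 ≤ M) (hb : ∀ w ∈ ball (0 : ℂ) R, 0 ≤ V w ∧ V w ≤ M)
    (hl : LowerSemicontinuousOn V (ball 0 R)) : ∀ z ∈ ball (0 : ℂ) R, 0 ≤ EE R V z := by
  have hpos : ∀ z ∈ HD R, 0 ≤ EE R V z := fun z hz => by
    rw [EE_pos (mem_HD.1 hz).2]
    exact G_im_nonneg hR (Fr_lsc hb hl).measurable (Fr_nonneg hb) hz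
  intro z hz
  rcases lt_trichotomy z.im 0 with h | h | h
  · have h1 : conj z ∈ HD R := mem_HD.2 ⟨mem_ball_zero_iff.1 (conj_mem_ball.2 hz), by simpa using h⟩
    rw [← EE_conj]
    exact hpos _ h1
  · have h5 : z = (z.re : ℂ) := Complex.ext (by simp) (by simpa using h)
    rw [h5, EE_real]
    exact Fr_nonneg hb _
  · exact hpos z (mem_HD.2 ⟨mem_ball_zero_iff.1 hz, h⟩)

theorem EE_lsc_at (hR : 0 < R) (hM : 0 ≤ M) (hb : ∀ w ∈ ball (0 : ℂ) R, 0 ≤ V w ∧ V w ≤ M)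
    (hl : LowerSemicontinuousOn V (ball 0 R)) :
    ∀ z0 ∈ ball (0 : ℂ) R, ∀ y < EE R V z0, ∀ᶠ z in 𝓝 z0, y < EE R V z := by
  have hmeas := (Fr_lsc hb hl).measurable
  have hFa := Fr_abs hM hb
  have hle : ∀ n s, ic (Fr R V) n s ≤ Fr R V s := fun n => ic_le hFa n
  have h0 : ∀ n s, 0 ≤ ic (Fr R V) n s := fun n => ic_nonneg (Fr_nonneg hb) n
  have habs : ∀ n s, |ic (Fr R V) n s| ≤ M := fun n s => by
    rw [abs_of_nonneg (h0 n s)]; exact (hle n s).trans (Fr_le hM hb s)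
  have hpos : ∀ z0 ∈ HD R, ∀ y < EE R V z0, ∀ᶠ z in 𝓝 z0, y < EE R V z := by
    intro z0 hz0 y hy
    rw [EE_pos (mem_HD.1 hz0).2] at hy
    have h1 : ContinuousAt (fun z => (G R (Fr R V) z).im) z0 :=
      Complex.continuous_im.continuousAt.comp (analyticAt_G hR hmeas hFa z0 hz0).continuousAt
    filter_upwards [h1.eventually (lt_mem_nhds hy), (isOpen_HD R).mem_nhds hz0] with z hz1 hz2
    rw [EE_pos (mem_HD.1 hz2).2]; exact hz1
  intro z0 hz0 y hy
  rcases lt_trichotomy z0.im 0 with h | h | h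
  · have h1 : conj z0 ∈ HD R :=
      mem_HD.2 ⟨mem_ball_zero_iff.1 (conj_mem_ball.2 hz0), by simpa using h⟩
    rw [← EE_conj] at hy
    have h2 := hpos _ h1 y hy
    have h3 := (Complex.continuous_conj.tendsto z0).eventually h2
    filter_upwards [h3] with z hz
    rwa [EE_conj] at hz
  · have h5 : z0 = (z0.re : ℂ) := Complex.ext (by simp) (by simpa using h)
    set u := z0.re with hu
    rw [h5] at hy hz0 ⊢
    have huI := mem_ball_real.1 hz0
    rw [EE_real] at hy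
    have hlsc := Fr_lsc hb hl u y hy
    obtain ⟨n, hn⟩ := ((ic_tendsto hFa (Fr_lsc hb hl) u).eventually (lt_mem_nhds hy)).exists
    have h6 := (G_bdry_real hR (ic_cont hFa n) (habs n) huI).eventually (lt_mem_nhds hn)
    rw [eventually_nhdsWithin_iff] at h6
    have h7 : ∀ᶠ z in 𝓝 (u : ℂ), z ∈ HD R → y < EE R V z := by
      filter_upwards [h6] with z hz hzH
      rw [EE_pos (mem_HD.1 hzH).2]
      exact (hz hzH).trans_le (G_im_mono hR (ic_cont hFa n).measurable hmeas (habs n) hFa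
        (fun s _ => hle n s) hzH)
    have h8 : Tendsto (fun z : ℂ => conj z) (𝓝 (u : ℂ)) (𝓝 (u : ℂ)) := by
      have := Complex.continuous_conj.tendsto (u : ℂ)
      rwa [Complex.conj_ofReal] at this
    have h9 : Tendsto (fun z : ℂ => z.re) (𝓝 (u : ℂ)) (𝓝 u) := by
      have := Complex.continuous_re.tendsto (u : ℂ)
      rwa [Complex.ofReal_re] at this
    filter_upwards [h7, h8.eventually h7, h9.eventually hlsc, isOpen_ball.mem_nhds hz0]
      with z a1 a2 a3 a4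
    rcases lt_trichotomy z.im 0 with h | h | h
    · rw [← EE_conj]
      exact a2 (mem_HD.2 ⟨mem_ball_zero_iff.1 (conj_mem_ball.2 a4), by simpa using h⟩)
    · have h5 : z = (z.re : ℂ) := Complex.ext (by simp) (by simpa using h)
      rw [h5, EE_real]; exact a3
    · exact a1 (mem_HD.2 ⟨mem_ball_zero_iff.1 a4, h⟩)
  · exact hpos z0 (mem_HD.2 ⟨mem_ball_zero_iff.1 hz0, h⟩) y hy


theorem EE_NT (hR : 0 < R) (hM : 0 ≤ M) (hb : ∀ w ∈ ball (0 : ℂ) R, 0 ≤ V w ∧ V w ≤ M)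
    (hl : LowerSemicontinuousOn V (ball 0 R)) (hNT : NT V (ball 0 R)) :
    NT (EE R V) (ball 0 R) := by
  have hmeas := (Fr_lsc hb hl).measurable
  have hFa := Fr_abs hM hb
  have h1 : NT (EE R V) (HD R) :=
    NT_congr (isOpen_HD R) (NT_im (analyticAt_G hR hmeas hFa))
      (fun w hw => (EE_pos (mem_HD.1 hw).2).symm)
  have h2 : NT (EE R V) {z | conj z ∈ HD R} := by
    have := NT_conj h1
    simpa only [EE_conj] using this
  intro w2 hw2
  rcases lt_trichotomy w2.im 0 with h | h | h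
  · exact h2 w2 (mem_HD.2 ⟨mem_ball_zero_iff.1 (conj_mem_ball.2 hw2), by simpa using h⟩)
  · intro H hH δ hδ h3
    refine hNT w2 hw2 H hH δ hδ ⟨?_, ?_⟩
    · rw [← h3.1]
      have h5 : w2 = (w2.re : ℂ) := Complex.ext (by simp) (by simpa using h)
      rw [h5] at hw2 ⊢
      rw [EE_real, Fr_of_mem (mem_ball_real.1 hw2)]
    · filter_upwards [h3.2, isOpen_ball.mem_nhds hw2] with w a1 a2
      exact a1.trans (EE_le hR hM hb hl hNT w a2)
  · exact h1 w2 (mem_HD.2 ⟨mem_ball_zero_iff.1 hw2, h⟩)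

/-- moving planes -/
theorem moving (hR : 0 < R) (hM : 0 ≤ M) (hb : ∀ w ∈ ball (0 : ℂ) R, 0 ≤ V w ∧ V w ≤ M)
    (hl : LowerSemicontinuousOn V (ball 0 R)) (hNT : NT V (ball 0 R)) {l : ℝ} (hl0 : 0 < l) :
    ∀ z ∈ ball (0 : ℂ) R, l < z.im → EE R V z ≤ EE R V (z - 2 * l * I) := by
  have hmeas := (Fr_lsc hb hl).measurable
  have hFa := Fr_abs hM hb
  set Ω : Set ℂ := ball (0 : ℂ) R ∩ {z | l < z.im} with hΩ
  have hΩo : IsOpen Ω := isOpen_ball.inter (isOpen_lt continuous_const Complex.continuous_im)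
  have him : ∀ z : ℂ, (z - 2 * l * I).im = z.im - 2 * l := fun z => by simp
  have hre : ∀ z : ℂ, (z - 2 * l * I).re = z.re := fun z => by simp
  have hmaps : ∀ z ∈ ball (0 : ℂ) R, l ≤ z.im → z - 2 * l * I ∈ ball (0 : ℂ) R := by
    intro z hz hzl
    rw [mem_ball_zero_iff] at hz ⊢
    refine lt_of_le_of_lt ?_ hz
    rw [← abs_of_nonneg (norm_nonneg (z - 2 * l * I)), ← abs_of_nonneg (norm_nonneg z), ← sq_le_sq,
      ← Complex.normSq_eq_norm_sq, ← Complex.normSq_eq_norm_sq, Complex.normSq_apply,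
      Complex.normSq_apply, him, hre]
    nlinarith
  have hsub : Ω ⊆ HD R := fun z hz => mem_HD.2 ⟨mem_ball_zero_iff.1 hz.1, hl0.trans hz.2⟩
  have hGa : ∀ w ∈ Ω, AnalyticAt ℂ (G R (Fr R V)) w := fun w hw =>
    analyticAt_G hR hmeas hFa w (hsub hw)
  have hGc : ContinuousOn (fun z => (G R (Fr R V) z).im) Ω := fun z hz =>
    (Complex.continuous_im.continuousAt.comp (hGa z hz).continuousAt).continuousWithinAt
  have hl1 : LowerSemicontinuousOn (fun z => EE R V (z - 2 * l * I)) Ω := by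
    intro z hz y hy
    have h1 := EE_lsc_at hR hM hb hl _ (hmaps z hz.1 (le_of_lt hz.2)) y hy
    have h2 : Tendsto (fun z : ℂ => z - 2 * l * I) (𝓝 z) (𝓝 (z - 2 * l * I)) := by
      have : Continuous (fun z : ℂ => z - 2 * l * I) := by fun_prop
      exact this.tendsto z
    exact nhdsWithin_le_nhds (h2.eventually h1)
  have hlv : LowerSemicontinuousOn (fun z => EE R V (z - 2 * l * I) + -(G R (Fr R V) z).im) Ω :=
    LowerSemicontinuousOn.add hl1 (hGc.neg.lowerSemicontinuousOn)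
  have hNT1 : NT (fun z => EE R V (z - 2 * l * I)) Ω :=
    NT_mono (NT_comp_sub (EE_NT hR hM hb hl hNT) (2 * l * I))
      (fun z hz => hmaps z hz.1 (le_of_lt hz.2))
  have hmain := minp (Ω := Ω) (B := R) (fun z hz => (mem_ball_zero_iff.1 hz.1).le) hΩo
    (v := fun z => EE R V (z - 2 * l * I) + -(G R (Fr R V) z).im) hlv
    (by simpa only [sub_eq_add_neg] using NT_sub_im hNT1 hGa) ?_
  · intro z hz hzl
    have := hmain z ⟨hz, hzl⟩
    rw [EE_pos (hl0.trans hzl)]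
    linarith
  · intro ζ hζ hζn ε hε
    obtain ⟨h1, h2⟩ := closure_cap hζ
    rcases h1.lt_or_eq with h3 | h3
    · -- the flat side
      have h4 : ζ.im = l := by
        by_contra hne
        exact hζn ⟨mem_ball_zero_iff.2 h3, lt_of_le_of_ne h2 (Ne.symm hne)⟩
      have hζH : ζ ∈ HD R := mem_HD.2 ⟨h3, by rw [h4]; exact hl0⟩
      have h5 : ζ - 2 * l * I = conj ζ := by
        apply Complex.ext
        · rw [hre]; simp
        · rw [him, Complex.conj_im, h4]; ring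
      have h6 : ContinuousAt (fun z => (G R (Fr R V) z).im) ζ :=
        Complex.continuous_im.continuousAt.comp (analyticAt_G hR hmeas hFa ζ hζH).continuousAt
      have h7 : EE R V (ζ - 2 * l * I) = (G R (Fr R V) ζ).im := by
        rw [h5, EE_conj, EE_pos (mem_HD.1 hζH).2]
      have h8 := EE_lsc_at hR hM hb hl (ζ - 2 * l * I)
        (hmaps ζ (mem_ball_zero_iff.2 h3) h2) ((G R (Fr R V) ζ).im - ε / 2) (by rw [h7]; linarith)
      have h9 : Tendsto (fun z : ℂ => z - 2 * l * I) (𝓝 ζ) (𝓝 (ζ - 2 * l * I)) := by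
        have : Continuous (fun z : ℂ => z - 2 * l * I) := by fun_prop
        exact this.tendsto ζ
      have h10 := h6.eventually (gt_mem_nhds
        (show (G R (Fr R V) ζ).im < (G R (Fr R V) ζ).im + ε / 2 by linarith))
      apply nhdsWithin_le_nhds
      filter_upwards [h9.eventually h8, h10] with z a1 a2
      linarith
    · -- the arc
      have h4 := G_bdry_arc hR hmeas hFa h3 (hl0.trans_le h2)
      have h5 : 𝓝[Ω] ζ ≤ 𝓝[HD R] ζ := nhdsWithin_mono _ hsub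
      filter_upwards [(h4.mono_left h5).eventually (gt_mem_nhds hε), self_mem_nhdsWithin]
        with z a1 a2
      have := EE_nonneg hR hM hb hl _ (hmaps z a2.1 (le_of_lt a2.2))
      linarith

theorem EE_mono (hR : 0 < R) (hM : 0 ≤ M) (hb : ∀ w ∈ ball (0 : ℂ) R, 0 ≤ V w ∧ V w ≤ M)
    (hl : LowerSemicontinuousOn V (ball 0 R)) (hNT : NT V (ball 0 R)) {x y1 y2 : ℝ}
    (h1 : 0 ≤ y1) (h12 : y1 ≤ y2) (hz : (x : ℂ) + y2 * I ∈ ball (0 : ℂ) R) :
    EE R V (x + y2 * I) ≤ EE R V (x + y1 * I) := by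
  rcases h12.lt_or_eq with h | h
  · have h3 := moving hR hM hb hl hNT (l := (y2 - y1) / 2) (by linarith) _ hz (by simp; linarith)
    have h4 : (x : ℂ) + y2 * I - 2 * (((y2 - y1) / 2 : ℝ) : ℂ) * I = x + y1 * I := by
      push_cast; ring
    rwa [h4] at h3
  · rw [h]

/-- radial limit at every real point -/
theorem tendsto_vert (hR : 0 < R) (hM : 0 ≤ M) (hb : ∀ w ∈ ball (0 : ℂ) R, 0 ≤ V w ∧ V w ≤ M)
    (hl : LowerSemicontinuousOn V (ball 0 R)) (hNT : NT V (ball 0 R)) {u : ℝ}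
    (hu : u ∈ Ioo (-R) R) :
    Tendsto (fun y : ℝ => (G R (Fr R V) (u + y * I)).im) (𝓝[>] 0) (𝓝 (V u)) := by
  have hcont : Tendsto (fun y : ℝ => (u : ℂ) + y * I) (𝓝 0) (𝓝 (u : ℂ)) := by
    have h1 : Continuous (fun y : ℝ => (u : ℂ) + y * I) := by fun_prop
    have := h1.tendsto 0
    simpa using this
  have hV : EE R V (u : ℂ) = V u := by rw [EE_real, Fr_of_mem hu]
  rw [tendsto_order]
  constructor
  · intro a ha
    have h1 := EE_lsc_at hR hM hb hl (u : ℂ) (mem_ball_real.2 hu) a (by rw [hV]; exact ha)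
    filter_upwards [nhdsWithin_le_nhds (hcont.eventually h1), self_mem_nhdsWithin] with y a1 a2
    rwa [EE_pos (by simpa using a2)] at a1
  · intro a ha
    have h1 := hcont.eventually (isOpen_ball.mem_nhds (mem_ball_real.2 hu))
    filter_upwards [nhdsWithin_le_nhds h1, self_mem_nhdsWithin] with y a1 a2
    have h2 := EE_mono hR hM hb hl hNT (x := u) le_rfl (le_of_lt a2) a1
    rw [EE_pos (by simpa using a2)] at h2
    refine h2.trans_lt ?_
    simpa [hV] using ha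

theorem deriv_re_nonpos (hR : 0 < R) (hM : 0 ≤ M) (hb : ∀ w ∈ ball (0 : ℂ) R, 0 ≤ V w ∧ V w ≤ M)
    (hl : LowerSemicontinuousOn V (ball 0 R)) (hNT : NT V (ball 0 R)) :
    ∀ z ∈ HD R, (deriv (G R (Fr R V)) z).re ≤ 0 := by
  intro z hz
  have hmeas := (Fr_lsc hb hl).measurable
  have hFa := Fr_abs hM hb
  have hd : HasDerivAt (G R (Fr R V)) (deriv (G R (Fr R V)) z) z :=
    (analyticAt_G hR hmeas hFa z hz).differentiableAt.hasDerivAt
  set g : ℝ → ℝ := fun y => (G R (Fr R V) (z + y * I)).im with hg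
  have hcurve : HasDerivAt (fun y : ℝ => z + y * I) I 0 := by
    have h1 : HasDerivAt (fun y : ℝ => (y : ℂ)) 1 (0 : ℝ) := Complex.ofRealCLM.hasDerivAt
    have h2 := (h1.mul_const I).const_add z
    simpa using h2
  have hcomp : HasDerivAt (fun y : ℝ => G R (Fr R V) (z + y * I))
      (deriv (G R (Fr R V)) z * I) 0 := by
    have hd' : HasDerivAt (G R (Fr R V)) (deriv (G R (Fr R V)) z) (z + ((0 : ℝ) : ℂ) * I) := by
      simpa using hd
    exact hd'.comp_of_eq (0 : ℝ) hcurve rfl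
  have hgd : HasDerivAt g (deriv (G R (Fr R V)) z).re 0 := by
    have h1 := (Complex.imCLM.hasFDerivAt (x := G R (Fr R V) (z + ((0 : ℝ) : ℂ) * I))).comp_hasDerivAt
      (0 : ℝ) hcomp
    have h2 : Complex.imCLM (deriv (G R (Fr R V)) z * I) = (deriv (G R (Fr R V)) z).re := by
      simp
    rw [h2] at h1
    exact h1
  -- the right difference quotients are nonpositive
  have hslope := hgd.tendsto_slope
  have hslope2 : Tendsto (slope g 0) (𝓝[>] 0) (𝓝 (deriv (G R (Fr R V)) z).re) :=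
    hslope.mono_left (nhdsWithin_mono _ (fun y hy => ne_of_gt hy))
  refine le_of_tendsto hslope2 ?_
  have hcont : Tendsto (fun y : ℝ => z + y * I) (𝓝 0) (𝓝 z) := by
    have := hcurve.continuousAt.tendsto
    simpa using this
  filter_upwards [nhdsWithin_le_nhds (hcont.eventually ((isOpen_HD R).mem_nhds hz)),
    self_mem_nhdsWithin] with y a1 a2
  have a2' : 0 < y := a2
  rw [slope_def_field, sub_zero]
  apply div_nonpos_of_nonpos_of_nonneg _ a2'.le
  have h1 : z + y * I = (z.re : ℂ) + ((z.im + y : ℝ) : ℂ) * I := by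
    apply Complex.ext <;> simp
  have h2 : z = (z.re : ℂ) + (z.im : ℂ) * I := (Complex.re_add_im z).symm
  have h3 := EE_mono hR hM hb hl hNT (x := z.re) (y1 := z.im) (y2 := z.im + y)
    (mem_HD.1 hz).2.le (by linarith) (by rw [← h1]; exact mem_ball_zero_iff.2 (mem_HD.1 a1).1)
  rw [← h1, ← h2, EE_pos (mem_HD.1 a1).2, EE_pos (mem_HD.1 hz).2] at h3
  have h4 : g 0 = (G R (Fr R V) z).im := by simp [hg]
  rw [h4]
  show (G R (Fr R V) (z + y * I)).im - _ ≤ 0
  linarith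

end Crest.Agent.R102.Slope845
end
end

-- ▼ part R102/SlopeI_845
section

/-!
Row 102, T1-B (c) (helper845): a.e. nontangential limits of the derivative (`Re G' ≤ 0`) and
integration along cones.
-/

set_option autoImplicit false

open Set Metric Filter Topology MeasureTheory Complex

noncomputable section

namespace Crest.Agent.R102.Slope845

open Crest.Agent.R102.LP472 (Cone mem_Cone fatou_bounded lusin_privalov eventually_Cone)

theorem isOpen_hd (R : ℝ) : IsOpen (Metric.ball (0:ℂ) R ∩ {z | 0 < z.im}) :=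
  isOpen_ball.inter (isOpen_lt continuous_const Complex.continuous_im)

theorem cone_sub_hd {R x : ℝ} (hx : x ∈ Ioo (-R) R) {b : ℝ} (hb : 0 < b) :
    ∃ h > 0, Cone b h x ⊆ Metric.ball (0:ℂ) R ∩ {z | 0 < z.im} := by
  have h1 : ∀ᶠ z in 𝓝 (x : ℂ), z ∈ Metric.ball (0:ℂ) R := by
    refine isOpen_ball.mem_nhds ?_
    rw [mem_ball_zero_iff, Complex.norm_real, Real.norm_eq_abs]
    exact abs_lt.2 hx
  obtain ⟨δ, hδ, _, h2⟩ := eventually_Cone (x := x) (h := 1) hb one_pos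
    (nhdsWithin_le_nhds h1 : ∀ᶠ z in 𝓝[Cone b 1 x] (x : ℂ), z ∈ Metric.ball (0:ℂ) R)
  exact ⟨δ, hδ, fun z hz => ⟨h2 z hz, hz.1⟩⟩

theorem tendsto_vertical (x : ℝ) {b h : ℝ} (hb : 0 < b) (hh : 0 < h) :
    Tendsto (fun y : ℝ => (x : ℂ) + y * I) (𝓝[>] 0) (𝓝[Cone b h x] (x : ℂ)) := by
  have hcont : Tendsto (fun y : ℝ => (x : ℂ) + y * I) (𝓝 0) (𝓝 (x : ℂ)) := by
    have h1 : Continuous (fun y : ℝ => (x : ℂ) + y * I) := by fun_prop
    have := h1.tendsto 0
    simpa using this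
  refine tendsto_nhdsWithin_iff.2 ⟨hcont.mono_left nhdsWithin_le_nhds, ?_⟩
  filter_upwards [Ioo_mem_nhdsGT hh] with y hy
  rw [mem_Cone]
  have h1 : ((x : ℂ) + y * I).im = y := by simp
  have h2 : ((x : ℂ) + y * I).re = x := by simp
  rw [h1, h2, sub_self, abs_zero]
  exact ⟨hy.1, hy.2, mul_pos hb hy.1⟩

theorem cone_neBot (x : ℝ) {b h : ℝ} (hb : 0 < b) (hh : 0 < h) :
    (𝓝[Cone b h x] (x : ℂ)).NeBot :=
  (tendsto_vertical x hb hh).neBot

theorem convex_Cone (b h x : ℝ) : Convex ℝ (Cone b h x) := by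
  intro z hz w hw s t hs ht hst
  rw [mem_Cone] at hz hw ⊢
  have e1 : (s • z + t • w).im = s * z.im + t * w.im := by simp
  have e2 : (s • z + t • w).re - x = s * (z.re - x) + t * (w.re - x) := by
    have : (s • z + t • w).re = s * z.re + t * w.re := by simp
    rw [this]
    have : x = (s + t) * x := by rw [hst, one_mul]
    nth_rewrite 1 [this]; ring
  rw [e1, e2]
  rcases hs.lt_or_eq with hs0 | hs0
  · refine ⟨?_, ?_, ?_⟩
    · nlinarith [mul_pos hs0 hz.1, mul_nonneg ht hw.1.le]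
    · have h1 : s * z.im < s * h := mul_lt_mul_of_pos_left hz.2.1 hs0
      have h2 : t * w.im ≤ t * h := mul_le_mul_of_nonneg_left hw.2.1.le ht
      have h3 : s * h + t * h = h := by rw [← add_mul, hst, one_mul]
      linarith
    · calc |s * (z.re - x) + t * (w.re - x)| ≤ |s * (z.re - x)| + |t * (w.re - x)| := abs_add_le _ _
        _ = s * |z.re - x| + t * |w.re - x| := by
            rw [abs_mul, abs_mul, abs_of_nonneg hs, abs_of_nonneg ht]
        _ < s * (b * z.im) + t * (b * w.im) :=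
            add_lt_add_of_lt_of_le (mul_lt_mul_of_pos_left hz.2.2 hs0)
              (mul_le_mul_of_nonneg_left hw.2.2.le ht)
        _ = b * (s * z.im + t * w.im) := by ring
  · have ht1 : t = 1 := by rw [← hs0] at hst; linarith
    rw [← hs0, ht1]
    simpa using hw

theorem ae_ntlim {R : ℝ} {G : ℂ → ℂ}
    (hG : DifferentiableOn ℂ G (Metric.ball (0:ℂ) R ∩ {z | 0 < z.im}))
    (hre : ∀ z ∈ (Metric.ball (0:ℂ) R ∩ {z | 0 < z.im}), (deriv G z).re ≤ 0) :
    ∀ᵐ u : ℝ, u ∈ Ioo (-R) R → ∃ c : ℂ, c.re ≤ 0 ∧ ∀ b > 0, ∃ h > 0,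
      Cone b h u ⊆ (Metric.ball (0:ℂ) R ∩ {z | 0 < z.im}) ∧
      Tendsto (deriv G) (𝓝[Cone b h u] (u:ℂ)) (𝓝 c) := by
  set W : Set ℂ := Metric.ball (0:ℂ) R ∩ {z | 0 < z.im} with hW
  have hWo : IsOpen W := isOpen_hd R
  set g : ℂ → ℂ := fun z => (1 - deriv G z)⁻¹ with hg
  have hne1 : ∀ z ∈ W, 1 ≤ ‖1 - deriv G z‖ := by
    intro z hz
    have h1 := Complex.re_le_norm (1 - deriv G z)
    have h2 := hre z hz
    simp only [Complex.sub_re, Complex.one_re] at h1
    linarith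
  have hne : ∀ z ∈ W, 1 - deriv G z ≠ 0 := fun z hz h0 => by
    have := hne1 z hz
    rw [h0, norm_zero] at this
    linarith
  have hdG : DifferentiableOn ℂ (deriv G) W := hG.deriv hWo
  have hgd : DifferentiableOn ℂ g W := by
    have h1 : DifferentiableOn ℂ (fun z => 1 - deriv G z) W :=
      (differentiableOn_const 1).sub hdG
    exact h1.inv hne
  have hgb : ∀ z ∈ W, ‖g z‖ ≤ 1 := by
    intro z hz
    rw [hg]
    simp only [norm_inv]
    exact inv_le_one_of_one_le₀ (hne1 z hz)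
  have hF := fatou_bounded hWo hgd hgb one_pos (E := Ioo (-R) R)
    (fun x hx => cone_sub_hd hx one_pos)
  set Z : Set ℝ := {x | ∃ h > 0, Cone 1 h x ⊆ W ∧ Tendsto g (𝓝[Cone 1 h x] (x : ℂ)) (𝓝 0)} with hZ
  have hZ0 : volume Z = 0 := by
    by_contra hcon
    obtain ⟨z, hz, h1⟩ := lusin_privalov hWo hgd one_pos hcon (fun x hx => hx)
    have h2 : g z = 0 := h1.eq_of_nhds
    rw [hg] at h2
    exact hne z hz (inv_eq_zero.1 h2)
  have hZae : ∀ᵐ x : ℝ, x ∉ Z := measure_eq_zero_iff_ae_notMem.1 hZ0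
  filter_upwards [hF, hZae] with x hx hxZ hxI
  obtain ⟨l, hl⟩ := hx hxI
  have hl0 : l ≠ 0 := by
    intro h0
    obtain ⟨h, hh, h1, h2⟩ := hl 1 one_pos
    rw [h0] at h2
    exact hxZ ⟨h, hh, h1, h2⟩
  have hder : ∀ b > 0, ∃ h > 0, Cone b h x ⊆ W ∧
      Tendsto (deriv G) (𝓝[Cone b h x] (x:ℂ)) (𝓝 (1 - l⁻¹)) := by
    intro b hb
    obtain ⟨h, hh, h1, h2⟩ := hl b hb
    refine ⟨h, hh, h1, ?_⟩
    have h3 : Tendsto (fun z => 1 - (g z)⁻¹) (𝓝[Cone b h x] (x:ℂ)) (𝓝 (1 - l⁻¹)) :=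
      (h2.inv₀ hl0).const_sub 1
    refine h3.congr' ?_
    filter_upwards [self_mem_nhdsWithin] with z hz
    rw [hg]
    simp
  refine ⟨1 - l⁻¹, ?_, hder⟩
  obtain ⟨h, hh, h1, h2⟩ := hder 1 one_pos
  have hnb := cone_neBot x (b := 1) one_pos hh
  have h3 : Tendsto (fun z => (deriv G z).re) (𝓝[Cone 1 h x] (x:ℂ)) (𝓝 (1 - l⁻¹).re) :=
    (Complex.continuous_re.tendsto _).comp h2
  refine le_of_tendsto h3 ?_
  filter_upwards [self_mem_nhdsWithin] with z hz
  exact hre z (h1 hz)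

theorem int_cone {R : ℝ} {G : ℂ → ℂ}
    (hG : DifferentiableOn ℂ G (Metric.ball (0:ℂ) R ∩ {z | 0 < z.im})) {u v : ℝ} {c : ℂ}
    (hlim : ∀ b > 0, ∃ h > 0, Cone b h u ⊆ (Metric.ball (0:ℂ) R ∩ {z | 0 < z.im}) ∧
      Tendsto (deriv G) (𝓝[Cone b h u] (u:ℂ)) (𝓝 c))
    (hv : Tendsto (fun y : ℝ => (G (u + y * I)).im) (𝓝[>] 0) (𝓝 v)) :
    ∀ κ > 0, ∀ ε > 0, ∃ δ > 0, ∀ z : ℂ, ‖z‖ < δ → 0 < z.im → κ * ‖z‖ ≤ z.im →
      (u:ℂ) + z ∈ (Metric.ball (0:ℂ) R ∩ {z | 0 < z.im}) ∧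
      |(G (u+z)).im - v - c.im * z.re - c.re * z.im| ≤ ε * ‖z‖ ∧ ‖deriv G (u+z) - c‖ ≤ ε := by
  intro κ hκ ε hε
  set W : Set ℂ := Metric.ball (0:ℂ) R ∩ {z | 0 < z.im} with hW
  have hWo : IsOpen W := isOpen_hd R
  set b : ℝ := 1 / κ + 1 with hb
  have hb0 : 0 < b := by positivity
  obtain ⟨h, hh, h1, h2⟩ := hlim b hb0
  have h3 : ∀ᶠ z in 𝓝[Cone b h u] (u:ℂ), ‖deriv G z - c‖ < ε := by
    have := (tendsto_iff_norm_sub_tendsto_zero.1 h2).eventually (gt_mem_nhds hε)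
    exact this
  obtain ⟨δ, hδ, hδh, h4⟩ := eventually_Cone hb0 hh h3
  have hsub : Cone b δ u ⊆ W := (LP472.Cone_mono hδh).trans h1
  have hf : ∀ w ∈ Cone b δ u, HasDerivWithinAt (fun w => G w - c * w) (deriv G w - c)
      (Cone b δ u) w := by
    intro w hw
    have h5 : HasDerivAt G (deriv G w) w :=
      ((hG w (hsub hw)).differentiableAt (hWo.mem_nhds (hsub hw))).hasDerivAt
    have h6 : HasDerivAt (fun w : ℂ => c * w) c w := by
      simpa using (hasDerivAt_id w).const_mul c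
    exact (h5.sub h6).hasDerivWithinAt
  have hlip : ∀ w ∈ Cone b δ u, ∀ w' ∈ Cone b δ u,
      ‖(G w - c * w) - (G w' - c * w')‖ ≤ ε * ‖w - w'‖ := fun w hw w' hw' =>
    (convex_Cone b δ u).norm_image_sub_le_of_norm_hasDerivWithin_le hf
      (fun x hx => (h4 x hx).le) hw' hw
  refine ⟨δ, hδ, fun z hz hz0 hzk => ?_⟩
  have hwC : (u : ℂ) + z ∈ Cone b δ u := by
    rw [mem_Cone]
    have e1 : ((u : ℂ) + z).im = z.im := by simp
    have e2 : ((u : ℂ) + z).re - u = z.re := by simp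
    rw [e1, e2]
    refine ⟨hz0, ?_, ?_⟩
    · have := Complex.abs_im_le_norm z
      rw [abs_of_pos hz0] at this
      linarith
    · have h5 := Complex.abs_re_le_norm z
      have h6 : ‖z‖ ≤ 1 / κ * z.im := by
        rw [div_mul_eq_mul_div, le_div_iff₀ hκ, one_mul]; linarith
      have h7 : b * z.im = 1 / κ * z.im + z.im := by rw [hb]; ring
      linarith
  refine ⟨hsub hwC, ?_, (h4 _ hwC).le⟩
  have h5 : ∀ᶠ y : ℝ in 𝓝[>] 0, |(G (u+z)).im - (G (u + y * I)).im - c.im * z.re - c.re * z.im +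
      c.re * y| ≤ ε * ‖z - y * I‖ := by
    have h6 : ∀ᶠ y : ℝ in 𝓝[>] 0, (u : ℂ) + y * I ∈ Cone b δ u :=
      (tendsto_vertical u hb0 hδ).eventually self_mem_nhdsWithin
    filter_upwards [h6] with y hy
    have h7 := hlip _ hwC _ hy
    have h8 := (Complex.abs_im_le_norm _).trans h7
    have e1 : ((u : ℂ) + z) - (u + y * I) = z - y * I := by ring
    rw [e1] at h8
    have e2 : ((G (u + z) - c * (u + z)) - (G (u + y * I) - c * (u + y * I))).im =
        (G (u+z)).im - (G (u + y * I)).im - c.im * z.re - c.re * z.im + c.re * y := by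
      simp only [Complex.sub_im, Complex.mul_im, Complex.add_im, Complex.add_re, Complex.ofReal_re,
        Complex.ofReal_im, Complex.mul_re, Complex.I_re, Complex.I_im]
      ring
    rw [e2] at h8
    exact h8
  have h6 : Tendsto (fun y : ℝ => |(G (u+z)).im - (G (u + y * I)).im - c.im * z.re - c.re * z.im +
      c.re * y|) (𝓝[>] 0) (𝓝 |(G (u+z)).im - v - c.im * z.re - c.re * z.im + c.re * 0|) := by
    have h7 : Tendsto (fun y : ℝ => c.re * y) (𝓝[>] 0) (𝓝 (c.re * 0)) := by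
      have : Continuous (fun y : ℝ => c.re * y) := by fun_prop
      exact (this.tendsto 0).mono_left nhdsWithin_le_nhds
    exact ((((hv.const_sub _).sub_const _).sub_const _).add h7).abs
  have h7 : Tendsto (fun y : ℝ => ε * ‖z - y * I‖) (𝓝[>] 0) (𝓝 (ε * ‖z - ((0:ℝ):ℂ) * I‖)) := by
    have : Continuous (fun y : ℝ => ε * ‖z - y * I‖) := by fun_prop
    exact (this.tendsto 0).mono_left nhdsWithin_le_nhds
  have h8 := le_of_tendsto_of_tendsto h6 h7 h5
  simpa using h8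

end Crest.Agent.R102.Slope845
end
end

-- ▼ part R102/Slope_845

/-!
Row 102, T1-B (c) (helper845): a.e. slope expansion of a bounded superharmonic function at real
points, with the exact harmonic shift `Im G`.
-/

set_option autoImplicit false

open Set Filter Topology Metric Complex MeasureTheory
open scoped Real ComplexConjugate

noncomputable section

namespace Crest.Agent.R102.Slope845

open Crest.Agent.R102.SH712 (NT)
open Crest.Agent.R102.LP472 (Cone)
open Crest.Agent.R102.SlopeK (HD)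

/-- the conclusion at a single real point `u` -/
def Expn (G : ℂ → ℂ) (V : ℂ → ℝ) (u α β : ℝ) : Prop :=
  β ≤ 0 ∧
  (∀ κ > 0, ∀ ε > 0, ∃ δ > 0, ∀ z : ℂ, ‖z‖ < δ → 0 < z.im → κ * ‖z‖ ≤ z.im →
    |(G (u + z)).im - V u - α * z.re - β * z.im| ≤ ε * ‖z‖ ∧
    ‖deriv G (u + z) - (β + I * α)‖ ≤ ε) ∧
  (∀ ε > 0, ∃ δ > 0, ∀ z : ℂ, ‖z‖ < δ → 0 < z.im →
    V u + α * z.re + β * z.im - ε * ‖z‖ ≤ (G (u + z)).im) ∧
  (∀ ε > 0, ∃ δ > 0, ∀ z : ℂ, ‖z‖ < δ →
    V u + α * z.re + β * |z.im| - ε * ‖z‖ ≤ V (u + z))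

/-- the deterministic part: from the cone expansion to the tangential bounds -/
theorem expn_of_cone {R : ℝ} {V : ℂ → ℝ} {G : ℂ → ℂ} {u : ℝ} (hu : u ∈ Ioo (-R) R)
    (hle : ∀ z ∈ HD R, (G z).im ≤ V z) (hle' : ∀ z ∈ HD R, (G z).im ≤ V (conj z))
    (hmono : ∀ x y1 y2 : ℝ, 0 < y1 → y1 ≤ y2 → (x : ℂ) + y2 * I ∈ HD R →
      (G (x + y2 * I)).im ≤ (G (x + y1 * I)).im)
    (hreal : ∀ x y : ℝ, 0 < y → (x : ℂ) + y * I ∈ HD R → (G (x + y * I)).im ≤ V x)
    {c : ℂ} (hc : c.re ≤ 0)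
    (hcone : ∀ κ > 0, ∀ ε > 0, ∃ δ > 0, ∀ z : ℂ, ‖z‖ < δ → 0 < z.im → κ * ‖z‖ ≤ z.im →
      (u : ℂ) + z ∈ HD R ∧ |(G (u + z)).im - V u - c.im * z.re - c.re * z.im| ≤ ε * ‖z‖ ∧
      ‖deriv G (u + z) - c‖ ≤ ε) :
    Expn G V u c.im c.re := by
  have hcc : (c.re : ℂ) + I * c.im = c := by
    rw [mul_comm]; exact Complex.re_add_im c
  have hR0 : |u| < R := abs_lt.2 hu
  have hHDu : ∀ z : ℂ, ‖z‖ < R - |u| → 0 < z.im → (u : ℂ) + z ∈ HD R := by
    intro z hz hz0
    refine mem_HD.2 ⟨?_, by simpa using hz0⟩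
    calc ‖(u : ℂ) + z‖ ≤ ‖(u : ℂ)‖ + ‖z‖ := norm_add_le _ _
      _ = |u| + ‖z‖ := by rw [Complex.norm_real, Real.norm_eq_abs]
      _ < R := by linarith
  -- (ii)
  have h2 : ∀ ε > 0, ∃ δ > 0, δ ≤ R - |u| ∧ ∀ z : ℂ, ‖z‖ < δ → 0 < z.im →
      V u + c.im * z.re + c.re * z.im - ε * ‖z‖ ≤ (G (u + z)).im := by
    intro ε hε
    set κ : ℝ := min (1 / 2) (ε / (4 * (|c.re| + 1))) with hκ
    have hκ0 : 0 < κ := by positivity
    have hκ1 : κ ≤ 1 / 2 := min_le_left _ _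
    have hκ2 : |c.re| * κ ≤ ε / 4 := by
      have h1 : κ ≤ ε / (4 * (|c.re| + 1)) := min_le_right _ _
      have h2 : 0 ≤ |c.re| := abs_nonneg _
      calc |c.re| * κ ≤ (|c.re| + 1) * (ε / (4 * (|c.re| + 1))) := by gcongr; linarith
        _ = ε / 4 := by field_simp
    obtain ⟨δ, hδ, hδc⟩ := hcone (κ / 2) (by positivity) (ε / 4) (by positivity)
    refine ⟨min (δ / 2) (R - |u|), by
      have : 0 < R - |u| := by linarith
      positivity, min_le_right _ _, ?_⟩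
    intro z hz hz0
    have hzδ : ‖z‖ < δ / 2 := hz.trans_le (min_le_left _ _)
    have hzR : ‖z‖ < R - |u| := hz.trans_le (min_le_right _ _)
    have hn0 := norm_nonneg z
    by_cases hcase : κ * ‖z‖ ≤ z.im
    · obtain ⟨_, h4, _⟩ := hδc z (by linarith) hz0 (by nlinarith)
      have h5 := (abs_le.1 h4).1
      nlinarith
    · push Not at hcase
      -- lift the point to height κ * ‖z‖
      set y : ℝ := κ * ‖z‖ with hy
      have hzpos : 0 < ‖z‖ := by
        have := Complex.abs_im_le_norm z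
        rw [abs_of_pos hz0] at this
        linarith
      have hy0 : 0 < y := by positivity
      set w : ℂ := (z.re : ℂ) + y * I with hw
      have hwre : w.re = z.re := by simp [hw]
      have hwim : w.im = y := by simp [hw]
      have hwn : ‖w‖ ≤ ‖z‖ + κ * ‖z‖ := by
        calc ‖w‖ ≤ ‖(z.re : ℂ)‖ + ‖(y : ℂ) * I‖ := norm_add_le _ _
          _ = |z.re| + y := by
              rw [Complex.norm_real, norm_mul, Complex.norm_real, Complex.norm_I, mul_one,
                Real.norm_eq_abs, Real.norm_eq_abs, abs_of_pos hy0]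
          _ ≤ ‖z‖ + κ * ‖z‖ := by
              have := Complex.abs_re_le_norm z
              linarith
      have hwn2 : ‖w‖ ≤ 2 * ‖z‖ := by nlinarith
      have hwδ : ‖w‖ < δ := by linarith
      obtain ⟨h3, h4, _⟩ := hδc w hwδ (by rw [hwim]; exact hy0) (by rw [hwim]; nlinarith)
      have h5 := (abs_le.1 h4).1
      rw [hwre, hwim] at h5
      have e1 : (u : ℂ) + w = ((u + z.re : ℝ) : ℂ) + y * I := by rw [hw]; push_cast; ring
      have e2 : (u : ℂ) + z = ((u + z.re : ℝ) : ℂ) + z.im * I := by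
        apply Complex.ext <;> simp
      have h6 := hmono (u + z.re) z.im y hz0 hcase.le (by rw [← e1]; exact h3)
      rw [← e1, ← e2] at h6
      have h7 : -(ε / 4) * ‖z‖ ≤ c.re * y := by
        have : -(|c.re| * κ) ≤ c.re * κ := by
          have := neg_abs_le c.re
          nlinarith
        rw [hy, ← mul_assoc]
        have h8 : -(ε / 4) ≤ c.re * κ := by linarith
        exact mul_le_mul_of_nonneg_right h8 hn0
      have h8 : c.re * z.im ≤ 0 := mul_nonpos_of_nonpos_of_nonneg hc hz0.le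
      nlinarith
  refine ⟨hc, ?_, ?_, ?_⟩
  · intro κ hκ ε hε
    obtain ⟨δ, hδ, h⟩ := hcone κ hκ ε hε
    refine ⟨δ, hδ, fun z hz hz0 hzk => ?_⟩
    rw [hcc]
    exact (h z hz hz0 hzk).2
  · intro ε hε
    obtain ⟨δ, hδ, _, h⟩ := h2 ε hε
    exact ⟨δ, hδ, h⟩
  · intro ε hε
    obtain ⟨δ, hδ, hδR, h⟩ := h2 ε hε
    refine ⟨δ, hδ, fun z hz => ?_⟩
    rcases lt_trichotomy z.im 0 with hz0 | hz0 | hz0
    · -- below
      have hz' : ‖conj z‖ < δ := by rwa [Complex.norm_conj]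
      have hzi : 0 < (conj z).im := by simpa using hz0
      have h3 := h (conj z) hz' hzi
      have h4 := hle' _ (hHDu (conj z) (hz'.trans_le hδR) hzi)
      have e1 : conj ((u : ℂ) + conj z) = u + z := by simp
      rw [e1] at h4
      rw [Complex.conj_re, Complex.conj_im, Complex.norm_conj] at h3
      rw [abs_of_neg hz0]
      exact h3.trans h4
    · -- real
      have ez : z = (z.re : ℂ) := Complex.ext (by simp) (by simpa using hz0)
      set x := z.re with hx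
      rw [hz0, abs_zero, mul_zero, add_zero, ez, Complex.norm_real, Real.norm_eq_abs]
      rw [ez, Complex.norm_real, Real.norm_eq_abs] at hz
      have hcont : Tendsto (fun y : ℝ => V u + c.im * x + c.re * y - ε * ‖(x : ℂ) + y * I‖)
          (𝓝[>] 0) (𝓝 (V u + c.im * x + c.re * 0 - ε * ‖(x : ℂ) + ((0 : ℝ) : ℂ) * I‖)) := by
        have : Continuous (fun y : ℝ => V u + c.im * x + c.re * y - ε * ‖(x : ℂ) + y * I‖) := by
          fun_prop
        exact (this.tendsto 0).mono_left nhdsWithin_le_nhds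
      have e2 : V u + c.im * x + c.re * 0 - ε * ‖(x : ℂ) + ((0 : ℝ) : ℂ) * I‖ =
          V u + c.im * x - ε * |x| := by
        simp
      rw [e2] at hcont
      refine le_of_tendsto hcont ?_
      have hn : Tendsto (fun y : ℝ => ‖(x : ℂ) + y * I‖) (𝓝 0) (𝓝 |x|) := by
        have h5 : Continuous (fun y : ℝ => ‖(x : ℂ) + y * I‖) := by fun_prop
        have := h5.tendsto 0
        simpa using this
      filter_upwards [nhdsWithin_le_nhds (hn.eventually (gt_mem_nhds hz)), self_mem_nhdsWithin]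
        with y hy1 hy2
      have hy0 : 0 < y := hy2
      have h6 := h ((x : ℂ) + y * I) hy1 (by simpa using hy0)
      have h7 : ((x : ℂ) + y * I).re = x := by simp
      have h8 : ((x : ℂ) + y * I).im = y := by simp
      rw [h7, h8] at h6
      have e3 : (u : ℂ) + ((x : ℂ) + y * I) = ((u + x : ℝ) : ℂ) + y * I := by push_cast; ring
      have h9 := hHDu ((x : ℂ) + y * I) (hy1.trans_le hδR) (by rw [h8]; exact hy0)
      rw [e3] at h9 h6
      have h10 := hreal (u + x) y hy0 h9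
      have e4 : ((u + x : ℝ) : ℂ) = (u : ℂ) + (x : ℂ) := by push_cast; ring
      rw [e4] at h10 h6
      exact h6.trans h10
    · -- above
      have h3 := h z hz hz0
      have h4 := hle _ (hHDu z (hz.trans_le hδR) hz0)
      rw [abs_of_pos hz0]
      exact h3.trans h4

/-- the theorem for a disc centred at `0`, local test form -/
theorem slope0 {R M : ℝ} (hR : 0 < R) {V : ℂ → ℝ} (hl : LowerSemicontinuousOn V (ball 0 R))
    (hNT : NT V (ball 0 R)) (hb : ∀ w ∈ ball (0 : ℂ) R, 0 ≤ V w ∧ V w ≤ M) :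
    ∃ G : ℂ → ℂ, DifferentiableOn ℂ G (HD R) ∧
      (∀ w ∈ HD R, 0 ≤ (G w).im ∧ (G w).im ≤ M ∧ (G w).im ≤ V w ∧ (G w).im ≤ V (conj w) ∧
        (deriv G w).re ≤ 0) ∧
      (∀ x y1 y2 : ℝ, 0 < y1 → y1 ≤ y2 → (x : ℂ) + y2 * I ∈ HD R →
        (G (x + y2 * I)).im ≤ (G (x + y1 * I)).im) ∧
      (∀ x y : ℝ, 0 < y → (x : ℂ) + y * I ∈ HD R → (G (x + y * I)).im ≤ V x) ∧
      (∀ u ∈ Ioo (-R) R, Tendsto (fun y : ℝ => (G (u + y * I)).im) (𝓝[>] 0) (𝓝 (V u))) ∧
      ∀ᵐ u : ℝ, u ∈ Ioo (-R) R → ∃ α β : ℝ, Expn G V u α β := by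
  have hM : 0 ≤ M := by
    have := hb 0 (mem_ball_self hR)
    exact this.1.trans this.2
  have hmeas := (Fr_lsc hb hl).measurable
  have hFa := Fr_abs hM hb
  have hdiff : DifferentiableOn ℂ (SlopeK.G R (Fr R V)) (HD R) := SlopeK.G_diff hR hmeas hFa
  have hd := deriv_re_nonpos hR hM hb hl hNT
  have hge := V_ge hR hM hb hl hNT
  have hge' := V_ge_conj hR hM hb hl hNT
  have hv : ∀ u ∈ Ioo (-R) R,
      Tendsto (fun y : ℝ => (SlopeK.G R (Fr R V) (u + y * I)).im) (𝓝[>] 0) (𝓝 (V u)) :=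
    fun u hu => tendsto_vert hR hM hb hl hNT hu
  have hmono : ∀ x y1 y2 : ℝ, 0 < y1 → y1 ≤ y2 → (x : ℂ) + y2 * I ∈ HD R →
      (SlopeK.G R (Fr R V) (x + y2 * I)).im ≤ (SlopeK.G R (Fr R V) (x + y1 * I)).im := by
    intro x y1 y2 h1 h12 hz
    have h2 := EE_mono hR hM hb hl hNT (x := x) h1.le h12 (mem_ball_zero_iff.2 (mem_HD.1 hz).1)
    rwa [EE_pos (mem_HD.1 hz).2, EE_pos (by simpa using h1)] at h2
  have hreal : ∀ x y : ℝ, 0 < y → (x : ℂ) + y * I ∈ HD R →
      (SlopeK.G R (Fr R V) (x + y * I)).im ≤ V x := by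
    intro x y h1 hz
    have h2 := EE_mono hR hM hb hl hNT (x := x) le_rfl h1.le (mem_ball_zero_iff.2 (mem_HD.1 hz).1)
    rw [EE_pos (mem_HD.1 hz).2] at h2
    refine h2.trans_eq ?_
    have hx : x ∈ Ioo (-R) R := by
      rw [← mem_ball_real, mem_ball_zero_iff, Complex.norm_real, Real.norm_eq_abs]
      have h3 := Complex.abs_re_le_norm ((x : ℂ) + y * I)
      have h4 : ((x : ℂ) + y * I).re = x := by simp
      rw [h4] at h3
      exact h3.trans_lt (mem_HD.1 hz).1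
    have h5 : (x : ℂ) + ((0 : ℝ) : ℂ) * I = x := by simp
    rw [h5, EE_real, Fr_of_mem hx]
  refine ⟨SlopeK.G R (Fr R V), hdiff, fun w hw =>
    ⟨SlopeK.G_im_nonneg hR hmeas (Fr_nonneg hb) hw,
      SlopeK.G_im_le hR hmeas (Fr_nonneg hb) (Fr_le hM hb) hw, hge w hw, hge' w hw, hd w hw⟩,
    hmono, hreal, hv, ?_⟩
  filter_upwards [ae_ntlim hdiff hd] with u hu huI
  obtain ⟨c, hc, hlim⟩ := hu huI
  exact ⟨c.im, c.re, expn_of_cone huI hge hge' hmono hreal hc
    (int_cone hdiff hlim (hv u huI))⟩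

/-- the half disc with real centre `u0` -/
def HDc (u0 R : ℝ) : Set ℂ := ball (u0 : ℂ) R ∩ {z | 0 < z.im}

theorem mem_HDc {u0 R : ℝ} {z : ℂ} : z ∈ HDc u0 R ↔ z - u0 ∈ HD R := by
  unfold HDc
  rw [mem_HD, mem_inter_iff, mem_ball, dist_eq_norm]
  simp

/-- **slope theorem**, local test form -/
theorem slope_NT {u0 R M : ℝ} (hR : 0 < R) {V : ℂ → ℝ}
    (hl : LowerSemicontinuousOn V (ball (u0 : ℂ) R)) (hNT : NT V (ball (u0 : ℂ) R))
    (hb : ∀ w ∈ ball (u0 : ℂ) R, 0 ≤ V w ∧ V w ≤ M) :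
    ∃ G : ℂ → ℂ, DifferentiableOn ℂ G (HDc u0 R) ∧
      (∀ w ∈ HDc u0 R, 0 ≤ (G w).im ∧ (G w).im ≤ M ∧ (G w).im ≤ V w ∧ (G w).im ≤ V (conj w) ∧
        (deriv G w).re ≤ 0) ∧
      (∀ x y1 y2 : ℝ, 0 < y1 → y1 ≤ y2 → (x : ℂ) + y2 * I ∈ HDc u0 R →
        (G (x + y2 * I)).im ≤ (G (x + y1 * I)).im) ∧
      (∀ x y : ℝ, 0 < y → (x : ℂ) + y * I ∈ HDc u0 R → (G (x + y * I)).im ≤ V x) ∧
      (∀ u ∈ Ioo (u0 - R) (u0 + R),
        Tendsto (fun y : ℝ => (G (u + y * I)).im) (𝓝[>] 0) (𝓝 (V u))) ∧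
      ∀ᵐ u : ℝ, u ∈ Ioo (u0 - R) (u0 + R) → ∃ α β : ℝ, Expn G V u α β := by
  have hshift : ∀ z : ℂ, z ∈ ball (0 : ℂ) R ↔ z + u0 ∈ ball (u0 : ℂ) R := fun z => by
    rw [mem_ball_zero_iff, mem_ball, dist_eq_norm, add_sub_cancel_right]
  have hcs : Continuous (fun z : ℂ => z + u0) := by fun_prop
  have hl0 : LowerSemicontinuousOn (fun z => V (z + u0)) (ball 0 R) := by
    intro z hz y hy
    have h1 := hl (z + u0) ((hshift z).1 hz) y hy
    have h2 : Tendsto (fun z : ℂ => z + u0) (𝓝[ball 0 R] z) (𝓝[ball (u0 : ℂ) R] (z + u0)) := by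
      refine tendsto_nhdsWithin_iff.2 ⟨(hcs.tendsto z).mono_left nhdsWithin_le_nhds, ?_⟩
      filter_upwards [self_mem_nhdsWithin] with w hw
      exact (hshift w).1 hw
    exact h2.eventually h1
  have hNT0 : NT (fun z => V (z + u0)) (ball 0 R) := by
    have h1 := NT_comp_sub hNT (-(u0 : ℂ))
    simp only [sub_neg_eq_add] at h1
    exact NT_mono h1 (fun z hz => (hshift z).1 hz)
  obtain ⟨G, g1, g2, g3, g4, g5, g6⟩ := slope0 hR hl0 hNT0 (fun w hw => hb _ ((hshift w).1 hw))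
  have hderiv : ∀ w : ℂ, deriv (fun z => G (z - u0)) w = deriv G (w - u0) := fun w =>
    deriv_comp_sub_const (f := G) (a := (u0 : ℂ)) w
  refine ⟨fun z => G (z - u0), ?_, ?_, ?_, ?_, ?_, ?_⟩
  · refine DifferentiableOn.comp (t := HD R) g1 (by fun_prop) ?_
    intro z hz
    exact mem_HDc.1 hz
  · intro w hw
    have h1 := g2 _ (mem_HDc.1 hw)
    have e1 : w - u0 + u0 = w := by ring
    have e2 : conj (w - u0) + u0 = conj w := by simp
    rw [e1, e2] at h1
    rw [hderiv]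
    exact h1
  · intro x y1 y2 h1 h2 hz
    have e : ∀ y : ℝ, (x : ℂ) + y * I - u0 = ((x - u0 : ℝ) : ℂ) + y * I := fun y => by
      push_cast; ring
    have hz' := mem_HDc.1 hz
    simp only [e] at hz' ⊢
    exact g3 _ _ _ h1 h2 hz'
  · intro x y h1 hz
    have e : ∀ y : ℝ, (x : ℂ) + y * I - u0 = ((x - u0 : ℝ) : ℂ) + y * I := fun y => by
      push_cast; ring
    have hz' := mem_HDc.1 hz
    simp only [e] at hz' ⊢
    have h2 := g4 _ _ h1 hz'
    have e3 : (((x - u0 : ℝ) : ℂ)) + u0 = x := by push_cast; ring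
    rwa [e3] at h2
  · intro u hu
    have h2 := g5 (u - u0) ⟨by linarith [hu.1], by linarith [hu.2]⟩
    have e : ∀ y : ℝ, (u : ℂ) + y * I - u0 = ((u - u0 : ℝ) : ℂ) + y * I := fun y => by
      push_cast; ring
    have e3 : (((u - u0 : ℝ) : ℂ)) + u0 = u := by push_cast; ring
    simp only [e]
    rwa [e3] at h2
  · have h1 : ∀ᵐ u : ℝ, u - u0 ∈ Ioo (-R) R →
        ∃ α β : ℝ, Expn G (fun z => V (z + u0)) (u - u0 : ℝ) α β :=
      (measurePreserving_sub_right volume u0).quasiMeasurePreserving.ae g6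
    filter_upwards [h1] with u hu huI
    obtain ⟨α, β, h2, h3, h4, h5⟩ := hu ⟨by linarith [huI.1], by linarith [huI.2]⟩
    have e3 : (((u - u0 : ℝ) : ℂ)) + u0 = u := by push_cast; ring
    have e4 : ∀ z : ℂ, (u : ℂ) + z - u0 = ((u - u0 : ℝ) : ℂ) + z := fun z => by push_cast; ring
    have e5 : ∀ z : ℂ, ((u - u0 : ℝ) : ℂ) + z + u0 = u + z := fun z => by push_cast; ring
    simp only [e3, e5] at h3 h4 h5
    refine ⟨α, β, h2, ?_, ?_, ?_⟩
    · simpa only [e4, hderiv] using h3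
    · simpa only [e4] using h4
    · exact h5


end Crest.Agent.R102.Slope845
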