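import Crest.Agent.R102.SlopeA_231
import Crest.Agent.R102.Slope_845_Mg

-- ▼ part R102/SlopeB_231
section

/-!
# Poisson integrals of semicontinuous functions, harmonic minorant of a superharmonic function
-/

namespace Crest.Agent.R102.Slope231

open MeasureTheory Set Filter Topology Complex Metric
open scoped Real NNReal
open Crest.Agent.R102.LP472











/-- the reflected function is superharmonic -/
theorem SuperH.conj {V : ℂ → ℝ} {W : Set ℂ} (hV : SuperH V W) :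
    SuperH (fun z => V (starRingEnd ℂ z)) ((starRingEnd ℂ) ⁻¹' W) := by
  have hcm : ∀ (c : ℂ) (r θ : ℝ), starRingEnd ℂ (circleMap c r θ) =
      circleMap (starRingEnd ℂ c) r (-θ) := by
    intro c r θ
    simp only [circleMap, map_add, map_mul, conj_ofReal]
    congr 2
    rw [← Complex.exp_conj]
    simp
  have hball : ∀ (c : ℂ) (r : ℝ), closedBall c r ⊆ (starRingEnd ℂ) ⁻¹' W →
      closedBall (starRingEnd ℂ c) r ⊆ W := by
    intro c r h z hz
    have h1 : starRingEnd ℂ z ∈ closedBall c r := by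
      rw [mem_closedBall, dist_eq_norm] at hz ⊢
      have : starRingEnd ℂ z - c = starRingEnd ℂ (z - starRingEnd ℂ c) := by simp
      rw [this, RCLike.norm_conj]; exact hz
    have := h h1
    simpa using this
  have hper : ∀ (c : ℂ) (r : ℝ), Function.Periodic (fun θ : ℝ => V (circleMap c r θ)) (2 * π) := by
    intro c r θ
    simp only [circleMap]
    congr 3
    push_cast
    rw [add_mul]
    exact Complex.exp_periodic _
  refine ⟨?_, ?_, ?_⟩
  · intro z hz y hy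
    have h1 := hV.lsc (starRingEnd ℂ z) hz y hy
    have h2 : Tendsto (starRingEnd ℂ) (𝓝[(starRingEnd ℂ) ⁻¹' W] z) (𝓝[W] (starRingEnd ℂ z)) := by
      rw [tendsto_nhdsWithin_iff]
      refine ⟨(Complex.continuous_conj.tendsto z).mono_left nhdsWithin_le_nhds, ?_⟩
      filter_upwards [self_mem_nhdsWithin] with w hw
      exact hw
    exact h2.eventually h1
  · intro c r hr hc
    have h1 := hV.int _ r hr (hball c r hc)
    have h2 : IntervalIntegrable (fun θ : ℝ => V (circleMap (starRingEnd ℂ c) r θ)) volume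
        (-(2 * π)) 0 := by
      have := (hper (starRingEnd ℂ c) r).intervalIntegrable₀ (by positivity) h1 (-(2 * π)) 0
      exact this
    have h3 := (IntervalIntegrable.iff_comp_neg (by finiteness)).1 h2
    simp only [hcm]
    simpa using h3.symm
  · intro c r hr hc
    have h1 := hV.mean _ r hr (hball c r hc)
    simp only [hcm]
    have h2 : (∫ θ in (0 : ℝ)..(2 * π), V (circleMap (starRingEnd ℂ c) r (-θ))) =
        ∫ θ in (0 : ℝ)..(2 * π), V (circleMap (starRingEnd ℂ c) r θ) := by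
      rw [intervalIntegral.integral_comp_neg (fun θ => V (circleMap (starRingEnd ℂ c) r θ))]
      have := (hper (starRingEnd ℂ c) r).intervalIntegral_add_eq (-(2 * π)) 0
      simpa using this
    rw [h2]
    exact h1

end Crest.Agent.R102.Slope231
end

-- ▼ part R102/SlopeF_231
section

/-!
# Upper bound of the sum of the two slopes (S2), nontangential expansion, thin sector bound
-/

namespace Crest.Agent.R102.Slope231

open MeasureTheory Set Filter Topology Complex Metric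
open scoped Real NNReal







/-- the sector `κ |z| ≤ Im z`, `0 < |z| < δ` -/
def Sec (κ δ : ℝ) : Set ℂ := {z | κ * ‖z‖ ≤ z.im ∧ 0 < z.im ∧ ‖z‖ < δ}

theorem convex_Sec {κ δ : ℝ} (hκ : 0 ≤ κ) : Convex ℝ (Sec κ δ) := by
  have h1 : Convex ℝ {z : ℂ | κ * ‖z‖ ≤ z.im} := by
    have hc : ConvexOn ℝ univ fun z : ℂ => κ * ‖z‖ - z.im := by
      have a1 : ConvexOn ℝ univ fun z : ℂ => κ * ‖z‖ := by
        have := (convexOn_norm (convex_univ (𝕜 := ℝ) (E := ℂ))).smul hκ
        simpa using this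
      have a2 : ConcaveOn ℝ univ fun z : ℂ => z.im :=
        (Complex.imLm : ℂ →ₗ[ℝ] ℝ).concaveOn convex_univ
      exact a1.sub a2
    have := hc.convex_le 0
    have e : {z : ℂ | κ * ‖z‖ ≤ z.im} = {x | x ∈ (univ : Set ℂ) ∧ κ * ‖x‖ - x.im ≤ 0} := by
      ext z; simp
    rw [e]; exact this
  have h2 : Convex ℝ {z : ℂ | 0 < z.im} := convex_halfSpace_im_gt 0
  have h3 : Convex ℝ {z : ℂ | ‖z‖ < δ} := by
    have e : {z : ℂ | ‖z‖ < δ} = ball 0 δ := by ext z; simp
    rw [e]; exact convex_ball 0 δ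
  have e : Sec κ δ = {z : ℂ | κ * ‖z‖ ≤ z.im} ∩ ({z : ℂ | 0 < z.im} ∩ {z : ℂ | ‖z‖ < δ}) := by
    ext z; simp [Sec]
  rw [e]
  exact h1.inter (h2.inter h3)

/-- nontangential first order expansion from the nontangential limit of the derivative -/
theorem nt_expansion {G : ℂ → ℂ} {W : Set ℂ} (hW : IsOpen W) (hG : DifferentiableOn ℂ G W) {u : ℝ}
    {h1 : ℂ} (hder : ∀ κ > 0, ∀ ε > 0, ∃ δ > 0, ∀ z ∈ Sec κ δ,
      (u : ℂ) + z ∈ W ∧ ‖deriv G (u + z) - h1‖ ≤ ε) :
    ∃ h0 : ℂ, ∀ κ > 0, ∀ ε > 0, ∃ δ > 0, ∀ z ∈ Sec κ δ, ‖G (u + z) - h0 - h1 * z‖ ≤ ε * ‖z‖ := by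
  -- Lipschitz estimate in every sector
  have hlip : ∀ κ > 0, ∀ ε > 0, ∃ δ > 0, ∀ z ∈ Sec κ δ, ∀ w ∈ Sec κ δ,
      ‖(G (u + z) - h1 * z) - (G (u + w) - h1 * w)‖ ≤ ε * ‖z - w‖ := by
    intro κ hκ ε hε
    obtain ⟨δ, hδ, h⟩ := hder κ hκ ε hε
    refine ⟨δ, hδ, fun z hz w hw => ?_⟩
    have hd : ∀ x ∈ Sec κ δ, HasDerivWithinAt (fun x => G (u + x) - h1 * x)
        (deriv G (u + x) - h1) (Sec κ δ) x := by
      intro x hx
      have a1 := (hG.differentiableAt (hW.mem_nhds (h x hx).1)).hasDerivAt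
      have a2 : HasDerivAt (fun x => G (u + x)) (deriv G (u + x)) x := by
        have := HasDerivAt.comp_const_add (u : ℂ) x a1
        simpa using this
      have a3 : HasDerivAt (fun x : ℂ => h1 * x) h1 x := by
        simpa using (hasDerivAt_id x).const_mul h1
      exact (a2.sub a3).hasDerivWithinAt
    exact Convex.norm_image_sub_le_of_norm_hasDerivWithin_le hd (fun x hx => (h x hx).2)
      (convex_Sec hκ.le) hw hz
  -- the vertical limit
  set F : ℝ → ℂ := fun y => G (u + (y : ℂ) * I) - h1 * ((y : ℂ) * I) with hF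
  have hsecy : ∀ δ > 0, ∀ y ∈ Ioo (0 : ℝ) δ, ((y : ℂ) * I) ∈ Sec 1 δ := by
    intro δ hδ y hy
    have : ‖(y : ℂ) * I‖ = y := by simp [abs_of_pos hy.1]
    refine ⟨by rw [this]; simp, by simpa using hy.1, by rw [this]; exact hy.2⟩
  have hcau : Cauchy (map F (𝓝[>] 0)) := by
    rw [Metric.cauchy_iff]
    refine ⟨inferInstance, fun ε hε => ?_⟩
    obtain ⟨δ, hδ, h⟩ := hlip 1 one_pos 1 one_pos
    set d : ℝ := min δ (ε / 2) with hd
    have hd0 : 0 < d := lt_min hδ (by positivity)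
    refine ⟨F '' Ioo 0 d, image_mem_map (Ioo_mem_nhdsGT hd0), ?_⟩
    rintro _ ⟨y, hy, rfl⟩ _ ⟨y', hy', rfl⟩
    have b1 := h _ (hsecy δ hδ y ⟨hy.1, hy.2.trans_le (min_le_left _ _)⟩) _
      (hsecy δ hδ y' ⟨hy'.1, hy'.2.trans_le (min_le_left _ _)⟩)
    rw [dist_eq_norm]
    refine lt_of_le_of_lt b1 ?_
    have b2 : ‖(y : ℂ) * I - (y' : ℂ) * I‖ = |y - y'| := by
      rw [← sub_mul, norm_mul, Complex.norm_I, mul_one, ← Complex.ofReal_sub, Complex.norm_real,
        Real.norm_eq_abs]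
    rw [b2, one_mul, abs_lt]
    have c1 := hy.1
    have c2 := hy.2.trans_le (min_le_right _ _)
    have c3 := hy'.1
    have c4 := hy'.2.trans_le (min_le_right _ _)
    constructor <;> linarith
  obtain ⟨h0, hh0⟩ := cauchy_iff_exists_le_nhds.1 hcau
  refine ⟨h0, fun κ hκ ε hε => ?_⟩
  obtain ⟨δ, hδ, h⟩ := hlip (min κ 1) (by positivity) ε hε
  refine ⟨δ, hδ, fun z hz => ?_⟩
  have hz' : z ∈ Sec (min κ 1) δ := by
    refine ⟨le_trans ?_ hz.1, hz.2⟩
    exact mul_le_mul_of_nonneg_right (min_le_left _ _) (norm_nonneg _)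
  have hlim : Tendsto (fun y : ℝ => ε * ‖z - (y : ℂ) * I‖) (𝓝[>] 0) (𝓝 (ε * ‖z‖)) := by
    have hc : Continuous fun y : ℝ => ε * ‖z - (y : ℂ) * I‖ := by fun_prop
    have := hc.tendsto 0
    simp only [ofReal_zero, zero_mul, sub_zero] at this
    exact this.mono_left nhdsWithin_le_nhds
  have hlim2 : Tendsto (fun y : ℝ => ‖(G (u + z) - h1 * z) - F y‖) (𝓝[>] 0)
      (𝓝 ‖(G (u + z) - h1 * z) - h0‖) := ((tendsto_const_nhds).sub hh0).norm
  have hle := le_of_tendsto_of_tendsto hlim2 hlim (by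
    filter_upwards [Ioo_mem_nhdsGT hδ] with y hy
    have hy1 : ((y : ℂ) * I) ∈ Sec (min κ 1) δ := by
      have := hsecy δ hδ y hy
      refine ⟨le_trans ?_ this.1, this.2⟩
      exact mul_le_mul_of_nonneg_right (min_le_right _ _) (norm_nonneg _)
    exact h z hz' _ hy1)
  have e : G (u + z) - h0 - h1 * z = (G (u + z) - h1 * z) - h0 := by ring
  rw [e]; exact hle


end Crest.Agent.R102.Slope231
end

-- ▼ part R102/JN_814
section

/-!
Row 102, T1-B, joint `JN`: if no point of the first line `Im t = V u` belongs to `OmL` (hypothesis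
(N) at the real parameter `u`), the local lower slopes of the heights of the sheared set
(`t' = t - G(u+z)`, `G` = exact harmonic shift of 845) are bounded.
-/

set_option autoImplicit false

open Set Filter Topology Metric Complex MeasureTheory
open scoped Real

noncomputable section

namespace Crest.Agent.R102.JN

open Crest.Agent.R102.K669 Crest.Agent.R102.Heights150
open Crest.Agent.R102.Slope811 (SupH)
open Crest.Agent.R102.Slope845 (Expn)

/-! ### a superharmonic function which is `≤ 0` at the centre and `≥ -C r` on the circle -/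

theorem re_test (A B : ℝ) (ζ : ℂ) (hζ : ‖ζ‖ = 1) :
    ((B : ℂ) + A * (1 / 4 - (3 / 4) * I * ζ - (1 / 2) * ζ ^ 2)).re =
      B + A * ((1 + ζ.im) * (ζ.im - 1 / 4)) := by
  have h1 : ζ.re ^ 2 + ζ.im ^ 2 = 1 := by
    have := Complex.sq_norm ζ
    rw [hζ, Complex.normSq_apply] at this
    linarith
  have h2 : ((B : ℂ) + A * (1 / 4 - (3 / 4) * I * ζ - (1 / 2) * ζ ^ 2)).re =
      B + A * (1 / 4 + (3 / 4) * ζ.im - (1 / 2) * (ζ.re ^ 2 - ζ.im ^ 2)) := by
    simp [Complex.add_re, Complex.mul_re, Complex.sub_re, pow_two]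
  rw [h2]
  have h3 : ζ.re ^ 2 = 1 - ζ.im ^ 2 := by linarith
  rw [h3]
  ring

/-- a superharmonic function which is `≤ 0` at `u` and `≥ -C r` on the circle of radius `r` is
`≤ (5 C + 12) r` somewhere on the upper part of the circle -/
theorem exists_small {W : Set ℂ} {D : ℂ → ℝ} (hD : SupH W D) {u : ℂ} (hu : u ∈ W)
    (h0 : D u ≤ 0) {C : ℝ} (hC : 0 ≤ C) {δ : ℝ} (hδ : 0 < δ)
    (hlow : ∀ z : ℂ, ‖z‖ < δ → -(C * ‖z‖) ≤ D (u + z)) :
    ∃ r0 > 0, ∀ r, 0 < r → r < r0 → ∃ z : ℂ, ‖z‖ = r ∧ r / 4 ≤ z.im ∧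
      D (u + z) ≤ (5 * C + 12) * r := by
  obtain ⟨r1, hr1, hcmp⟩ := hD.cmp u hu
  refine ⟨min r1 δ, lt_min hr1 hδ, fun r hr hrr => ?_⟩
  by_contra hcon
  push Not at hcon
  have h2 := (hcmp r hr (hrr.trans_le (min_le_left _ _))).2
  set A : ℝ := 4 * C + 8 with hA
  set B : ℝ := -(C * r) with hB
  have hr' : (r : ℂ) ≠ 0 := by exact_mod_cast hr.ne'
  set p : ℂ → ℂ := fun w => (B : ℂ) + ((A * r : ℝ) : ℂ) * (1 / 4 - (3 / 4) * I * ((w - u) / r) -
    (1 / 2) * ((w - u) / r) ^ 2) with hp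
  have hpa : AnalyticOnNhd ℂ p (closedBall u r) := by
    intro w _
    have : Differentiable ℂ p := by
      rw [hp]
      fun_prop
    exact this.analyticAt w
  have h3 := h2 p hpa ?_
  · have e1 : (p u).re = B + A * r / 4 := by
      rw [hp]
      simp only [sub_self, zero_div, mul_zero, sub_zero, ne_eq, OfNat.ofNat_ne_zero,
        not_false_eq_true, zero_pow]
      have : ((B : ℂ) + ((A * r : ℝ) : ℂ) * (1 / 4)) = ((B + A * r * (1 / 4) : ℝ) : ℂ) := by
        push_cast; ring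
      rw [this, Complex.ofReal_re]
      ring
    rw [e1, hB, hA] at h3
    nlinarith
  · intro w hw
    set z := w - u with hz
    have hwz : w = u + z := by rw [hz]; ring
    have hzr : ‖z‖ = r := by
      rw [mem_sphere, dist_eq_norm] at hw
      exact hw
    have hζ : ‖z / (r : ℂ)‖ = 1 := by
      rw [norm_div, hzr, Complex.norm_real, Real.norm_of_nonneg hr.le, div_self hr.ne']
    have hζim : (z / (r : ℂ)).im = z.im / r := by
      rw [Complex.div_ofReal_im]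
    have e1 : (p w).re = B + A * r * ((1 + z.im / r) * (z.im / r - 1 / 4)) := by
      rw [hp]
      simp only
      rw [re_test (A * r) B (z / r) hζ, hζim]
    rw [e1, hwz]
    have hσ : |z.im / r| ≤ 1 := by
      rw [← hζim, ← hζ]
      exact Complex.abs_im_le_norm _
    obtain ⟨hσ1, hσ2⟩ := abs_le.1 hσ
    have hlow' := hlow z (by rw [hzr]; exact hrr.trans_le (min_le_right _ _))
    rw [hzr] at hlow'
    have hAr : 0 ≤ A * r := by positivity
    by_cases hs : 1 / 4 ≤ z.im / r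
    · have hzim : r / 4 ≤ z.im := by
        rw [div_le_div_iff₀ (by norm_num) hr] at hs
        linarith
      have h4 := hcon z hzr hzim
      have h5 : (1 + z.im / r) * (z.im / r - 1 / 4) ≤ 3 / 2 := by nlinarith
      have h6 : A * r * ((1 + z.im / r) * (z.im / r - 1 / 4)) ≤ A * r * (3 / 2) :=
        mul_le_mul_of_nonneg_left h5 hAr
      rw [hA] at h6 ⊢
      rw [hB]
      nlinarith
    · push Not at hs
      have h5 : (1 + z.im / r) * (z.im / r - 1 / 4) ≤ 0 :=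
        mul_nonpos_of_nonneg_of_nonpos (by linarith) (by linarith)
      have h6 : A * r * ((1 + z.im / r) * (z.im / r - 1 / 4)) ≤ 0 :=
        mul_nonpos_of_nonneg_of_nonpos hAr h5
      rw [hB]
      linarith

/-! ### the joint -/

/-- the set sheared by the exact shift `G`, in the parameter `z = w - u` -/
def sheared (u : ℝ) (R : ℝ) (G : ℂ → ℂ) (Om : Set (ℂ × ℂ)) : Set (ℂ × ℂ) :=
  {q | q.2 ∈ HD R ∧ (q.1 + G (u + q.2), (u : ℂ) + q.2) ∈ Om}

theorem tilt_zero (k : ℝ → ℂ → ℝ) : tilt 0 k = k := by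
  funext x z
  simp [tilt]

set_option maxHeartbeats 1000000 in
/-- **JN.** -/
theorem jn {b : ℝ} {W : Set ℂ} {OmL : Set (ℂ × ℂ)} {V : ℂ → ℝ} {u R α β : ℝ} {G : ℂ → ℂ}
    (hL : LV b W OmL) (hu : (u : ℂ) ∈ W)
    (hV : ∀ w ∈ W, ∀ t : ℂ, t.im < V w → (t, w) ∈ OmL)
    (hN : ∀ x : ℝ, ((x : ℂ) + (V u) * I, (u : ℂ)) ∉ OmL)
    (hR : 0 < R) (hG : DifferentiableOn ℂ G {w | w - u ∈ HD R}) (hE : Expn G V u α β)
    (hS : LV 0 (HD R) (sheared u R G OmL)) :
    ∃ c2 : ℝ, 0 ≤ c2 ∧ ∀ s c : ℝ, LowAt (kO (sheared u R G OmL)) s c → c ≤ c2 := by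
  obtain ⟨-, hE1, -, hE3⟩ := hE
  -- constants
  set C : ℝ := |α| + |β| + 1 with hC
  have hC1 : 1 ≤ C := by
    rw [hC]; have := abs_nonneg α; have := abs_nonneg β; linarith
  have hlin : ∀ z : ℂ, |α * z.re| + |β| * |z.im| ≤ (|α| + |β|) * ‖z‖ := by
    intro z
    have h1 := Complex.abs_re_le_norm z
    have h2 := Complex.abs_im_le_norm z
    rw [abs_mul]
    have h3 := mul_le_mul_of_nonneg_left h1 (abs_nonneg α)
    have h4 := mul_le_mul_of_nonneg_left h2 (abs_nonneg β)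
    linarith
  -- lower bound of `V`
  obtain ⟨δ1, hδ1, hV1⟩ := hE3 1 one_pos
  have hVlow : ∀ z : ℂ, ‖z‖ < δ1 → V u - C * ‖z‖ ≤ V (u + z) := by
    intro z hz
    have h1 := hV1 z hz
    have h2 := hlin z
    have h3 := neg_abs_le (α * z.re)
    have h4 : -(|β| * |z.im|) ≤ β * |z.im| := by
      have := mul_le_mul_of_nonneg_right (neg_abs_le β) (abs_nonneg z.im)
      linarith
    have h5 : C * ‖z‖ = (|α| + |β|) * ‖z‖ + 1 * ‖z‖ := by rw [hC]; ring
    linarith
  -- the sector bounds of `G`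
  obtain ⟨δ2, hδ2, hG2⟩ := hE1 (1 / 4) (by norm_num) 1 one_pos
  have hGlow : ∀ z : ℂ, ‖z‖ < δ2 → 0 < z.im → 1 / 4 * ‖z‖ ≤ z.im →
      V u - C * ‖z‖ ≤ (G (u + z)).im := by
    intro z hz h0 hs
    have h1 := (abs_le.1 (hG2 z hz h0 hs).1).1
    have h2 := hlin z
    have h3 := neg_abs_le (α * z.re)
    have h4 : -(|β| * |z.im|) ≤ β * z.im := by
      rw [← abs_mul]; exact neg_abs_le _
    have h5 : C * ‖z‖ = (|α| + |β|) * ‖z‖ + 1 * ‖z‖ := by rw [hC]; ring
    linarith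
  -- the limit of `G` in the sector
  have hHDopen : IsOpen (HD R) := by
    have h1 : IsOpen {z : ℂ | 0 < z.im} := isOpen_lt continuous_const Complex.continuous_im
    have h2 : IsOpen {z : ℂ | ‖z‖ < R} := isOpen_lt continuous_norm continuous_const
    exact h1.inter h2
  have hWo : IsOpen {w : ℂ | w - u ∈ HD R} := hHDopen.preimage (by fun_prop)
  obtain ⟨h0, hh0⟩ := Slope231.nt_expansion (h1 := (β : ℂ) + I * α) (u := u) hWo hG (by
    intro κ hκ ε hε
    obtain ⟨δ, hδ, h⟩ := hE1 κ hκ ε hε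
    refine ⟨min δ R, lt_min hδ hR, fun z hz => ⟨?_, ?_⟩⟩
    · show (u : ℂ) + z - u ∈ HD R
      rw [add_sub_cancel_left]
      exact ⟨hz.2.1, hz.2.2.trans_le (min_le_right _ _)⟩
    · exact (h z (hz.2.2.trans_le (min_le_left _ _)) hz.2.1 hz.1).2)
  obtain ⟨δ3, hδ3, hG3⟩ := hh0 (1 / 4) (by norm_num) 1 one_pos
  have hGre : ∀ z : ℂ, ‖z‖ < δ3 → 0 < z.im → 1 / 4 * ‖z‖ ≤ z.im →
      |(G (u + z)).re - h0.re| ≤ 2 * C * ‖z‖ := by
    intro z hz hz0 hs
    have h1 := hG3 z ⟨hs, hz0, hz⟩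
    have h2 := Complex.abs_re_le_norm (G (u + z) - h0)
    rw [Complex.sub_re] at h2
    have h3 : ‖G (u + z) - h0‖ ≤ ‖G (u + z) - h0 - ((β : ℂ) + I * α) * z‖ +
        ‖((β : ℂ) + I * α) * z‖ := by
      have := norm_add_le (G (u + z) - h0 - ((β : ℂ) + I * α) * z) (((β : ℂ) + I * α) * z)
      rwa [sub_add_cancel] at this
    have h4 : ‖((β : ℂ) + I * α) * z‖ ≤ (|α| + |β|) * ‖z‖ := by
      rw [norm_mul]
      refine mul_le_mul_of_nonneg_right ?_ (norm_nonneg z)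
      refine (norm_add_le _ _).trans ?_
      rw [norm_mul, Complex.norm_I, one_mul, Complex.norm_real, Complex.norm_real,
        Real.norm_eq_abs, Real.norm_eq_abs]
      linarith
    have h5 : 2 * C * ‖z‖ = (|α| + |β|) * ‖z‖ + 1 * ‖z‖ + C * ‖z‖ := by rw [hC]; ring
    have h6 : 0 ≤ C * ‖z‖ := by positivity
    linarith
  -- the unsheared set in the height relative to `V u`
  set Om' : Set (ℂ × ℂ) := shr W (fun _ => ((V u : ℝ) : ℂ) * I) OmL with hOm'
  have him : (((V u : ℝ) : ℂ) * I).im = V u := by simp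
  have hLV' : LV (b - V u) W Om' := by
    refine hL.shear hL.WO (subset_refl _) (differentiableOn_const _) ?_
    intro w hw t ht
    rw [him] at ht
    exact hL.base w hw t (by linarith)
  have hb0 : b - V u ≤ 0 := by
    by_contra hcon
    push Not at hcon
    apply hN 0
    apply hL.base _ hu
    simp only [Complex.add_im, Complex.ofReal_im, him, zero_add]
    linarith
  have hmem' : ∀ x y : ℝ, ∀ w ∈ W, (((x : ℂ) + y * I, w) ∈ Om' ↔
      ((x : ℂ) + ((y + V u : ℝ) : ℂ) * I, w) ∈ OmL) := by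
    intro x y w hw
    have e : (x : ℂ) + y * I + ((V u : ℝ) : ℂ) * I = (x : ℂ) + ((y + V u : ℝ) : ℂ) * I := by
      push_cast; ring
    constructor
    · intro h
      have h1 := h.2
      simp only at h1
      rwa [e] at h1
    · intro h
      refine ⟨hw, ?_⟩
      simp only
      rwa [e]
  -- a neighbourhood of `u` in `W`
  obtain ⟨δ4, hδ4, hW4⟩ := Metric.isOpen_iff.1 hL.WO u hu
  have hW4' : ∀ z : ℂ, ‖z‖ < δ4 → (u : ℂ) + z ∈ W := by
    intro z hz
    apply hW4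
    rw [mem_ball, dist_eq_norm, add_sub_cancel_left]
    exact hz
  -- lower bound of the heights
  have hk : ∀ z : ℂ, ‖z‖ < min δ1 δ4 → ∀ x, -(C * ‖z‖) ≤ kO Om' x (u + z) := by
    intro z hz x
    have hzW := hW4' z (hz.trans_le (min_le_right _ _))
    refine hLV'.le_kO hzW ?_ (fun y' hy' => ?_)
    · have : 0 ≤ C * ‖z‖ := by positivity
      linarith
    · rw [hmem' _ _ _ hzW]
      apply hV _ hzW
      have h1 := hVlow z (hz.trans_le (min_le_left _ _))
      simp only [Complex.add_im, Complex.ofReal_im, Complex.mul_im, Complex.ofReal_re, Complex.I_im,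
        Complex.I_re, mul_one, mul_zero, add_zero, zero_add]
      linarith
  set C' : ℝ := 5 * (2 * C) + 12 with hC'
  have hC'0 : 0 < C' := by rw [hC']; linarith
  set C'' : ℝ := 2 * (C' + 1) + C with hC''
  refine ⟨4 * C'', by rw [hC'', hC']; linarith, fun s c hsc => ?_⟩
  obtain ⟨d, hd, hlow⟩ := hsc
  set x0 : ℝ := s + h0.re with hx0
  -- the penalised height
  have hDsup : SupH W (Dh (kO Om') 1 x0) := by
    have h1 := hLV'.supH_Dh (by linarith) (a := 0) (α := 0) (by intro w _; simp) (by norm_num)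
      (lam := 1) x0 le_rfl (by
        have := pen_le one_pos (b - V u - 0)
        norm_num at this ⊢
        linarith)
    rwa [tilt_zero] at h1
  have hD0 : Dh (kO Om') 1 x0 u ≤ 0 := by
    have hB : ∀ x, -(C * ‖(0 : ℂ)‖) ≤ kO Om' x ((u : ℂ) + 0) := hk 0 (by simpa using ⟨hδ1, hδ4⟩)
    simp only [add_zero, norm_zero, mul_zero, neg_zero] at hB
    refine (Dh_le_self one_pos hB).trans ?_
    refine csSup_le (hLV'.kO_ne x0 hu) ?_
    rintro y ⟨-, hy⟩
    by_contra hcon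
    push Not at hcon
    rw [hmem' _ _ _ hu] at hy
    exact hN x0 (hL.below (by linarith) hy)
  have hDlow : ∀ z : ℂ, ‖z‖ < min (min δ1 δ4) (1 / C) →
      -(2 * C * ‖z‖) ≤ Dh (kO Om') 1 x0 (u + z) := by
    intro z hz
    have hzn : 0 ≤ C * ‖z‖ := by positivity
    have hz1 : C * ‖z‖ < 1 := by
      have := hz.trans_le (min_le_right _ _)
      rwa [lt_div_iff₀ (by linarith), mul_comm] at this
    refine le_Dh (fun x => ?_)
    have h1 := pen_mono one_pos (hk z (hz.trans_le (min_le_left _ _)) x)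
    rw [pen_eq (show -(C * ‖z‖) ≤ 1 / (2 * 1) by linarith)] at h1
    refine le_min ?_ ?_
    · linarith
    · have h2 : 0 ≤ 1 * (x - x0) ^ 2 := by positivity
      have h3 : (-(C * ‖z‖)) ^ 2 = C * ‖z‖ * (C * ‖z‖) := by ring
      have h4 := mul_le_mul_of_nonneg_left hz1.le hzn
      linarith
  obtain ⟨r0, hr0, hex⟩ := exists_small hDsup hu hD0 (C := 2 * C) (by linarith)
    (δ := min (min δ1 δ4) (1 / C)) (lt_min (lt_min hδ1 hδ4) (by positivity)) hDlow
  -- choose the radius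
  set K : ℝ := C' + 1 + 2 * C with hK
  have hK0 : 0 < K := by rw [hK]; linarith
  obtain ⟨r, hr, hr1, hr2, hr3, hr4, hr5, hr6, hr7, hr8, hr9, hr10⟩ : ∃ r : ℝ, 0 < r ∧ r < r0 ∧
      r < δ1 ∧ r < δ2 ∧ r < δ3 ∧ r < δ4 ∧ r < R ∧ r < d ∧ (C' + 1) * r < 1 / 8 ∧
      K * r < (d / 2) ^ 2 ∧ 2 * C * r < d / 2 := by
    have hev : ∀ᶠ r : ℝ in 𝓝[>] 0, 0 < r ∧ r < r0 ∧
      r < δ1 ∧ r < δ2 ∧ r < δ3 ∧ r < δ4 ∧ r < R ∧ r < d ∧ (C' + 1) * r < 1 / 8 ∧
      K * r < (d / 2) ^ 2 ∧ 2 * C * r < d / 2 := by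
      have hlt : ∀ a : ℝ, 0 < a → ∀ᶠ r : ℝ in 𝓝[>] 0, r < a := fun a ha =>
        nhdsWithin_le_nhds (gt_mem_nhds ha)
      have hmul : ∀ k a : ℝ, 0 < k → 0 < a → ∀ᶠ r : ℝ in 𝓝[>] 0, k * r < a := fun k a hk ha => by
        filter_upwards [hlt (a / k) (by positivity)] with r hr
        rwa [lt_div_iff₀ hk, mul_comm] at hr
      filter_upwards [self_mem_nhdsWithin, hlt r0 hr0, hlt δ1 hδ1, hlt δ2 hδ2, hlt δ3 hδ3,
        hlt δ4 hδ4, hlt R hR, hlt d hd, hmul (C' + 1) (1 / 8) (by linarith) (by norm_num),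
        hmul K ((d / 2) ^ 2) hK0 (by positivity), hmul (2 * C) (d / 2) (by linarith)
        (by positivity)] with r a1 a2 a3 a4 a5 a6 a7 a8 a9 a10 a11
      exact ⟨a1, a2, a3, a4, a5, a6, a7, a8, a9, a10, a11⟩
    exact hev.exists
  obtain ⟨z, hz, hzim, hDz⟩ := hex r hr hr1
  have hz0 : 0 < z.im := by linarith
  have hzs : 1 / 4 * ‖z‖ ≤ z.im := by rw [hz]; linarith
  have hzHD : z ∈ HD R := ⟨hz0, by rw [hz]; exact hr6⟩
  have hzW := hW4' z (by rw [hz]; exact hr5)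
  -- a nearly minimal vertical line
  have hlt : Dh (kO Om') 1 x0 (u + z) < (C' + 1) * r := by
    refine hDz.trans_lt ?_
    have : (C' + 1) * r = (5 * (2 * C) + 12) * r + r := by rw [hC']; ring
    linarith
  obtain ⟨x1, hx1⟩ := exists_lt_of_ciInf_lt hlt
  rw [min_lt_iff] at hx1
  have hx1' : pen 1 (kO Om' x1 (u + z)) + 1 * (x1 - x0) ^ 2 < (C' + 1) * r := by
    rcases hx1 with h | h
    · linarith
    · exact h
  set k := kO Om' x1 (u + z) with hkdef
  have hk1 : -(C * r) ≤ k := by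
    have := hk z (by rw [hz]; exact lt_min hr2 hr5) x1
    rwa [hz] at this
  have hsq : 0 ≤ (x1 - x0) ^ 2 := sq_nonneg _
  have hpk : pen 1 k < (C' + 1) * r := by linarith
  have hk2 : k ≤ 1 / 2 := by
    by_contra hcon
    push Not at hcon
    unfold pen at hpk
    rw [if_neg (by linarith)] at hpk
    linarith
  have hpk' : k - k ^ 2 < (C' + 1) * r := by
    rw [pen_eq (by linarith)] at hpk
    linarith
  have hk3 : k ≤ 2 * (C' + 1) * r := by
    by_cases hk0 : 0 ≤ k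
    · have h1 := mul_le_mul_of_nonneg_left hk2 hk0
      have h2 : k ^ 2 = k * k := by ring
      linarith
    · push Not at hk0
      have : 0 ≤ 2 * (C' + 1) * r := by positivity
      linarith
  have hCr : C * r < 1 := by
    have : C * r ≤ (C' + 1) * r := mul_le_mul_of_nonneg_right (by rw [hC']; linarith) hr.le
    linarith
  have hpen_low : -(2 * C * r) ≤ pen 1 k := by
    have h1 := pen_mono one_pos hk1
    have hCr0 : 0 ≤ C * r := by positivity
    rw [pen_eq (show -(C * r) ≤ 1 / (2 * 1) by linarith)] at h1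
    have h3 : (-(C * r)) ^ 2 = C * r * (C * r) := by ring
    have h4 := mul_le_mul_of_nonneg_left hCr.le hCr0
    linarith
  have hx1sq : (x1 - x0) ^ 2 < (d / 2) ^ 2 := by
    have : K * r = (C' + 1) * r + 2 * C * r := by rw [hK]; ring
    linarith
  have hx1d : |x1 - x0| < d / 2 := abs_lt_of_sq_lt_sq hx1sq (by positivity)
  -- the singular point
  have hnot : ((x1 : ℂ) + ((k + V u : ℝ) : ℂ) * I, (u : ℂ) + z) ∉ OmL := by
    have h1 := hLV'.kO_notMem (x := x1) (y := k) (w := u + z) (by rw [← hkdef]; linarith) le_rfl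
    rwa [hmem' _ _ _ hzW] at h1
  set x' : ℝ := x1 - (G (u + z)).re with hx'
  set y' : ℝ := k + V u - (G (u + z)).im with hy'
  have hnotS : ((x' : ℂ) + y' * I, z) ∉ sheared u R G OmL := by
    intro hmem
    apply hnot
    have h1 := hmem.2
    simp only at h1
    have e : (x' : ℂ) + y' * I + G (u + z) = (x1 : ℂ) + ((k + V u : ℝ) : ℂ) * I := by
      apply Complex.ext
      · simp [hx']
      · simp [hy']
    rwa [e] at h1
  have hkS : kO (sheared u R G OmL) x' z ≤ y' := by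
    by_contra hcon
    push Not at hcon
    exact hnotS (hS.mem_of_lt hzHD hcon)
  have hy'le : y' ≤ C'' * r := by
    have h1 := hGlow z (by rw [hz]; exact hr3) hz0 hzs
    rw [hz] at h1
    rw [hy', hC'']
    have : (2 * (C' + 1) + C) * r = 2 * (C' + 1) * r + C * r := by ring
    linarith
  have hx's : |x' - s| < d := by
    have h1 := hGre z (by rw [hz]; exact hr4) hz0 hzs
    rw [hz] at h1
    have e : x' - s = (x1 - x0) - ((G (u + z)).re - h0.re) := by rw [hx', hx0]; ring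
    rw [e]
    have h2 := abs_sub (x1 - x0) ((G (u + z)).re - h0.re)
    linarith
  have hfin := hlow x' hx's z ⟨hz0, by rw [hz]; exact hr7⟩
  have h1 : c * z.im ≤ C'' * r := hfin.trans (hkS.trans hy'le)
  have hC''0 : 0 < C'' := by rw [hC'']; linarith
  have h2 : C'' * r ≤ 4 * C'' * z.im := by
    have h3 : r ≤ 4 * z.im := by linarith
    have h4 := mul_le_mul_of_nonneg_left h3 hC''0.le
    linarith
  have h3 : c * z.im ≤ 4 * C'' * z.im := h1.trans h2
  exact le_of_mul_le_mul_right h3 hz0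

/-- **JN** with the literal set `half` of `LVC_669` -/
theorem jn_half {b : ℝ} {W : Set ℂ} {OmL : Set (ℂ × ℂ)} {V : ℂ → ℝ} {u R α β : ℝ} {G : ℂ → ℂ}
    (hL : LV b W OmL) (hu : (u : ℂ) ∈ W)
    (hV : ∀ w ∈ W, ∀ t : ℂ, t.im < V w → (t, w) ∈ OmL)
    (hN : ∀ x : ℝ, ((x : ℂ) + (V u) * I, (u : ℂ)) ∉ OmL)
    (hR : 0 < R) (hG : DifferentiableOn ℂ G {w | w - u ∈ HD R}) (hE : Expn G V u α β)
    (hS : LV 0 (HD R) (half u R (fun z => G (u + z)) OmL)) :
    ∃ c2 : ℝ, 0 ≤ c2 ∧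
      ∀ s c : ℝ, LowAt (kO (half u R (fun z => G (u + z)) OmL)) s c → c ≤ c2 :=
  jn hL hu hV hN hR hG hE hS

end Crest.Agent.R102.JN
end
end

-- ▼ part R102/PartII_150
section

/-!
Row 102, T1-B, PART II (helper150): the main theorem of `Heights_150` on two LV sets
(`L` = main sheet of the lines, `X` = main sheet of the vertex labels) in the exact coordinates
`t' = t - G(u+z)`, `w = u + z`, at ONE real `u` at which no point of the first line `Im t = V u`
belongs to `L` and at which the exact harmonic shift has an expansion.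
-/

set_option autoImplicit false

open Set Filter Topology Metric Complex MeasureTheory
open scoped Real

noncomputable section

namespace Crest.Agent.R102.PartII150

open Crest.Agent.R102.K669 Crest.Agent.R102.Heights150
open Crest.Agent.R102.Slope811 (SupH)
open Crest.Agent.R102.Slope845 (Expn)

/-- two LV sets with the rule "two of the three points `(t - w/2, w) ∈ L`, `(t, w) ∈ X`,
`(t + w/2, w) ∈ L` give the third" -/
structure Pair (b : ℝ) (W : Set ℂ) (L X : Set (ℂ × ℂ)) : Prop where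
  hL : LV b W L
  hX : LV b W X
  r1 : ∀ t : ℂ, ∀ w ∈ W, (t - w / 2, w) ∈ L → (t + w / 2, w) ∈ L → (t, w) ∈ X
  r2 : ∀ t : ℂ, ∀ w ∈ W, (t, w) ∈ X → (t + w / 2, w) ∈ L → (t - w / 2, w) ∈ L
  r3 : ∀ t : ℂ, ∀ w ∈ W, (t - w / 2, w) ∈ L → (t, w) ∈ X → (t + w / 2, w) ∈ L

/-- the shift in the parameter `z = w - u` -/
def sft (u : ℝ) (G : ℂ → ℂ) : ℂ → ℂ := fun z => G (u + z)

/-- the height of the vertex label in the exact coordinates -/
def kX (u R : ℝ) (G : ℂ → ℂ) (X : Set (ℂ × ℂ)) : ℝ → ℂ → ℝ := kO (half u R (sft u G) X)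

theorem kO_half_mono {u R R' : ℝ} (h : R' ≤ R) (G : ℂ → ℂ) (Om : Set (ℂ × ℂ)) {z : ℂ}
    (hz : z ∈ HD R') (x : ℝ) : kO (half u R' G Om) x z = kO (half u R G Om) x z := by
  have hz' : z ∈ HD R := HD_mono h hz
  unfold kO
  congr 1
  ext y
  simp only [Set.mem_ofPred_eq, half]
  tauto

/-- the output of PART II -/
structure Out (L X : Set (ℂ × ℂ)) (u : ℝ) (G : ℂ → ℂ) (R s₀ a₀ c : ℝ) : Prop where
  c_pos : 0 < c
  a₀_nonneg : 0 ≤ a₀
  out : ∀ ε > (0 : ℝ), ∃ δ > (0 : ℝ), ∃ η₀ > (0 : ℝ), ∀ s, |s - s₀| < δ →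
        (∀ z ∈ HD η₀, (a₀ - ε) * z.im ≤ kX u R G X s z) ∧
        (∀ z ∈ HD η₀, (a₀ + c) * z.im ≤ mn u (kX u R G L) s z) ∧
        (∀ i : ℕ, LowAt (kX u R G L) (s - (i + 1/2) * u) (a₀ + c - (i + 1/2))) ∧
        ∀ η, 0 < η → η < η₀ → volume (Bad (kX u R G X) a₀ s ε η) ≤ ENNReal.ofReal ε

theorem partII {b : ℝ} {W : Set ℂ} {L X : Set (ℂ × ℂ)} (P : Pair b W L X) {V : ℂ → ℝ}
    (hVL : ∀ w ∈ W, ∀ t : ℂ, t.im < V w → (t, w) ∈ L)
    (hVX : ∀ w ∈ W, ∀ t : ℂ, t.im < V w → (t, w) ∈ X)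
    {u R α β : ℝ} {G : ℂ → ℂ} (hu : (u : ℂ) ∈ W) (hsub : ∀ z ∈ HD R, (u : ℂ) + z ∈ W)
    (hN : ∀ x : ℝ, ((x : ℂ) + (V u) * I, (u : ℂ)) ∉ L)
    (hR : 0 < R) (hG : DifferentiableOn ℂ G {w | w - u ∈ HD R})
    (hGV : ∀ w : ℂ, w - u ∈ HD R → (G w).im ≤ V w) (hE : Expn G V u α β) :
    ∃ R' : ℝ, 0 < R' ∧ R' ≤ R ∧ R' ≤ 1 ∧ LV 0 (HD R') (half u R' (sft u G) L) ∧
      LV 0 (HD R') (half u R' (sft u G) X) ∧ ∃ s₀ a₀ c : ℝ, Out L X u G R' s₀ a₀ c := by
  -- the sets over the half discs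
  have hLV : ∀ r : ℝ, r ≤ R → ∀ Om : Set (ℂ × ℂ), LV b W Om →
      (∀ w ∈ W, ∀ t : ℂ, t.im < V w → (t, w) ∈ Om) → LV 0 (HD r) (half u r (sft u G) Om) := by
    intro r hr Om hOm hV
    refine hOm.half (fun z hz => hsub z (HD_mono hr hz)) ?_ ?_
    · have h1 : Differentiable ℂ (fun z : ℂ => (u : ℂ) + z) := by fun_prop
      refine hG.comp h1.differentiableOn ?_
      intro z hz
      show (u : ℂ) + z - u ∈ HD R
      rw [add_sub_cancel_left]
      exact HD_mono hr hz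
    · intro z hz t ht
      refine hV _ (hsub z (HD_mono hr hz)) t ?_
      refine lt_of_lt_of_le ht ?_
      rw [zero_add]
      refine hGV _ ?_
      rw [add_sub_cancel_left]
      exact HD_mono hr hz
  obtain ⟨c2, hc2, hlow⟩ := JN.jn_half P.hL hu hVL hN hR hG hE (hLV R le_rfl L P.hL hVL)
  set R' : ℝ := min (min R 1) (1 / (2 * (c2 + 1))) with hR'
  have hR'0 : 0 < R' := by
    have : 0 < 1 / (2 * (c2 + 1)) := by positivity
    exact lt_min (lt_min hR one_pos) this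
  have hR'R : R' ≤ R := (min_le_left _ _).trans (min_le_left _ _)
  have hR'1 : R' ≤ 1 := (min_le_left _ _).trans (min_le_right _ _)
  have hR'c : (c2 + 1) * R' ≤ 1 / 2 := by
    have h1 : R' ≤ 1 / (2 * (c2 + 1)) := min_le_right _ _
    have h2 : (0 : ℝ) < c2 + 1 := by linarith
    calc (c2 + 1) * R' ≤ (c2 + 1) * (1 / (2 * (c2 + 1))) := mul_le_mul_of_nonneg_left h1 h2.le
      _ = 1 / 2 := by field_simp
  have hLL := hLV R' hR'R L P.hL hVL
  have hXX := hLV R' hR'R X P.hX hVX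
  refine ⟨R', hR'0, hR'R, hR'1, hLL, hXX, ?_⟩
  obtain ⟨q1, q2, q3⟩ := rules (G := sft u G) hR'1 hLL hXX
    (fun t z hz => P.r1 t _ (hsub z (HD_mono hR'R hz)))
    (fun t z hz => P.r2 t _ (hsub z (HD_mono hR'R hz)))
    (fun t z hz => P.r3 t _ (hsub z (HD_mono hR'R hz)))
  obtain ⟨s₀, a₀, c, hc, ha, -, hout⟩ := main (kX := kX u R' G X) (kL := kX u R' G L) (u := u)
    (R := R') (lam₀ := 1) (c₂ := c2) hR'0 one_pos
    (fun z hz x => hXX.base_le_kO (by norm_num) x hz)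
    (fun z hz x => hLL.base_le_kO (by norm_num) x hz) q1 q2 q3
    (by
      intro s c ⟨d, hd, hh⟩
      refine hlow s c ⟨min d R', lt_min hd hR'0, fun x hx z hz => ?_⟩
      have hzd : z ∈ HD d := HD_mono (min_le_left _ _) hz
      have hzR : z ∈ HD R' := HD_mono (min_le_right _ _) hz
      have h1 := hh x (hx.trans_le (min_le_left _ _)) z hzd
      have h2 := kO_half_mono (u := u) hR'R (sft u G) L hzR x
      exact h1.trans_eq h2)
    (by
      intro α' lam s h0 h1 hl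
      refine hXX.supH_HD hR'0.le ?_ s hl
      rw [abs_of_nonneg h0]
      exact (mul_le_mul_of_nonneg_right h1 hR'0.le).trans hR'c)
  exact ⟨s₀, a₀, c, hc, ha, hout⟩

end Crest.Agent.R102.PartII150
end
end

-- ▼ part R102/PartIIAt_150

/-!
Row 102, T1-B, PART II (helper150): the output of `partII` as set conditions in the exact
coordinates `(t', w)`, `t' = t - G w`, `w` absolute, with fixed constants (`At`); these conditions
are Borel in the real parameter `u`.
-/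

set_option autoImplicit false

open Set Filter Topology Metric Complex MeasureTheory
open scoped Real

noncomputable section

namespace Crest.Agent.R102.PartII150

open Crest.Agent.R102.K669 Crest.Agent.R102.Heights150
open Crest.Agent.R102.Slope811 (SupH)
open Crest.Agent.R102.Slope845 (Expn)

/-- exact coordinates to original coordinates (vertex) -/
def ex (G : ℂ → ℂ) (q : ℂ × ℂ) : ℂ × ℂ := (q.1 + G q.2, q.2)

/-- exact coordinates to original coordinates of the incoming line -/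
def ln (G : ℂ → ℂ) (q : ℂ × ℂ) : ℂ × ℂ := (q.1 + G q.2 - q.2 / 2, q.2)

/-- the output of PART II at `u` with fixed constants: level `a`, gap `c`, precision `ε`,
arc `|s - s₁| < δ`, scale `η` -/
structure At (L X : Set (ℂ × ℂ)) (G : ℂ → ℂ) (a c ε s₁ δ η u : ℝ) : Prop where
  low : ∀ q : ℂ × ℂ, |q.1.re - s₁| < δ → q.2 - u ∈ HD η → -η < q.1.im →
    q.1.im < (a - ε) * q.2.im → ex G q ∈ X
  line : ∀ q : ℂ × ℂ, |q.1.re - s₁| < δ → q.2 - u ∈ HD η → -η < q.1.im →
    q.1.im < (a + c) * q.2.im → ln G q ∈ L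
  births : ∀ x : ℝ, |x - s₁| < δ → ∀ z ∈ HD η, 2 * ε * ‖z‖ < z.im → ∃ q' : ℂ × ℂ,
    |q'.1.re - x| ≤ ε * ‖z‖ ∧ ‖q'.2 - (u + z)‖ ≤ ε * ‖z‖ ∧ (a - ε) * q'.2.im ≤ q'.1.im ∧
    q'.1.im ≤ (a + ε) * q'.2.im ∧ ex G q' ∉ X

variable {L X : Set (ℂ × ℂ)} {G : ℂ → ℂ} {u R s₀ a₀ c : ℝ}

theorem mem_X_of_lt (hXX : LV 0 (HD R) (half u R (sft u G) X)) {q : ℂ × ℂ}
    (hz : q.2 - u ∈ HD R) (h : q.1.im < kX u R G X q.1.re (q.2 - u)) : ex G q ∈ X := by
  have h1 := hXX.mem_of_lt hz h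
  have h2 := h1.2
  simp only [sft] at h2
  rw [Complex.re_add_im, add_sub_cancel] at h2
  exact h2

theorem mem_L_of_lt (hLL : LV 0 (HD R) (half u R (sft u G) L)) {q : ℂ × ℂ}
    (hz : q.2 - u ∈ HD R) (h : q.1.im < mn u (kX u R G L) q.1.re (q.2 - u)) : ln G q ∈ L := by
  unfold mn at h
  have h0 : q.1.im - (q.2 - u).im / 2 <
      kX u R G L (q.1.re - (u + (q.2 - u).re) / 2) (q.2 - u) := by linarith
  have h1 := hLL.mem_of_lt hz h0
  have h2 := h1.2
  simp only [sft] at h2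
  rw [add_sub_cancel] at h2
  have h3 : ((q.1.re - (u + (q.2 - u).re) / 2 : ℝ) : ℂ) +
      ((q.1.im - (q.2 - u).im / 2 : ℝ) : ℂ) * I + G q.2 = q.1 + G q.2 - q.2 / 2 := by
    apply Complex.ext
    · simp; ring
    · simp; ring
  rw [h3] at h2
  exact h2

theorem notMem_X {x : ℝ} {z : ℂ} (hXX : LV 0 (HD R) (half u R (sft u G) X))
    (hz : z ∈ HD R) (h : kX u R G X x z < 1) :
    ex G ((x : ℂ) + (kX u R G X x z : ℝ) * I, (u : ℂ) + z) ∉ X := by
  have h1 := hXX.kO_notMem (y := kX u R G X x z) h le_rfl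
  intro h2
  exact h1 ⟨hz, h2⟩

theorem exists_theta {θ ε₁ ε₂ : ℝ} (h0 : 0 < θ) (hπ : θ < π) (h12 : ε₁ < ε₂) (h1 : 0 ≤ ε₁)
    (h2 : ε₂ ≤ 1) {S : Set ℝ} (hS : volume S ≤ ENNReal.ofReal ε₁) :
    ∃ θ' ∈ Ioo 0 π, |θ' - θ| < ε₂ ∧ θ' ∉ S := by
  have hπ3 := Real.pi_gt_three
  obtain ⟨l, hl, hsub⟩ : ∃ l : ℝ, Ioo l (l + ε₂) ⊆ Ioo 0 π ∧
      ∀ x ∈ Ioo l (l + ε₂), |x - θ| < ε₂ := by
    rcases le_total θ (π / 2) with h | h
    · refine ⟨θ, fun x hx => ⟨h0.trans hx.1, by linarith [hx.2]⟩, fun x hx => ?_⟩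
      rw [abs_lt]; constructor <;> linarith [hx.1, hx.2]
    · refine ⟨θ - ε₂, fun x hx => ⟨by linarith [hx.1], by linarith [hx.2]⟩, fun x hx => ?_⟩
      rw [abs_lt]; constructor <;> linarith [hx.1, hx.2]
  by_contra hcon
  push Not at hcon
  have h3 : Ioo l (l + ε₂) ⊆ S := fun x hx => hcon x (hl hx) (hsub x hx)
  have h4 := (measure_mono h3).trans hS
  rw [Real.volume_Ioo, add_sub_cancel_left] at h4
  exact absurd h4 (not_le.2 ((ENNReal.ofReal_lt_ofReal_iff (h1.trans_lt h12)).2 h12))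

/-- **`Out` gives `At` for all nearby levels, arcs and smaller scales** -/
theorem at_of_out (hR : 0 < R) (hLL : LV 0 (HD R) (half u R (sft u G) L))
    (hXX : LV 0 (HD R) (half u R (sft u G) X)) (O : Out L X u G R s₀ a₀ c) {ε : ℝ} (hε : 0 < ε) :
    ∃ δ₀ > (0 : ℝ), ∃ η₁ > (0 : ℝ), ∀ a c' s₁ δ η : ℝ, |a - a₀| ≤ ε / 2 → a + c' ≤ a₀ + c →
      |s₁ - s₀| + δ ≤ δ₀ → η ≤ η₁ → At L X G a c' ε s₁ δ η u := by
  have ha₀ := O.a₀_nonneg
  set ε₂ : ℝ := min (ε / (2 * (a₀ + 1))) 1 with hε₂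
  have hε₂0 : 0 < ε₂ := lt_min (by positivity) one_pos
  have hε₂1 : ε₂ ≤ 1 := min_le_right _ _
  have hε₂a : (a₀ + 1) * ε₂ ≤ ε / 2 := by
    have h1 : ε₂ ≤ ε / (2 * (a₀ + 1)) := min_le_left _ _
    have h2 : (0 : ℝ) < a₀ + 1 := by linarith
    calc (a₀ + 1) * ε₂ ≤ (a₀ + 1) * (ε / (2 * (a₀ + 1))) := mul_le_mul_of_nonneg_left h1 h2.le
      _ = ε / 2 := by field_simp
  have hε₂ε : ε₂ ≤ ε / 2 := by nlinarith
  obtain ⟨D, hD, η₀, hη₀, H⟩ := O.out (ε₂ / 2) (by positivity)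
  set η₁ : ℝ := min (min η₀ R) (min (D / (4 * (a₀ + ε + 1))) (1 / (2 * (a₀ + ε + 1)))) with hη₁
  have hpos : (0 : ℝ) < a₀ + ε + 1 := by linarith
  have hη₁0 : 0 < η₁ := lt_min (lt_min hη₀ hR) (lt_min (by positivity) (by positivity))
  have e1 : η₁ ≤ η₀ := (min_le_left _ _).trans (min_le_left _ _)
  have e2 : η₁ ≤ R := (min_le_left _ _).trans (min_le_right _ _)
  have e3 : (a₀ + ε + 1) * η₁ ≤ D / 4 := by
    have h1 : η₁ ≤ D / (4 * (a₀ + ε + 1)) := (min_le_right _ _).trans (min_le_left _ _)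
    calc (a₀ + ε + 1) * η₁ ≤ (a₀ + ε + 1) * (D / (4 * (a₀ + ε + 1))) :=
          mul_le_mul_of_nonneg_left h1 hpos.le
      _ = D / 4 := by field_simp
  have e4 : (a₀ + ε + 1) * η₁ ≤ 1 / 2 := by
    have h1 : η₁ ≤ 1 / (2 * (a₀ + ε + 1)) := (min_le_right _ _).trans (min_le_right _ _)
    calc (a₀ + ε + 1) * η₁ ≤ (a₀ + ε + 1) * (1 / (2 * (a₀ + ε + 1))) :=
          mul_le_mul_of_nonneg_left h1 hpos.le
      _ = 1 / 2 := by field_simp
  refine ⟨D / 2, by positivity, η₁, hη₁0, ?_⟩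
  intro a c' s₁ δ η haa hac hs hη
  have haa' := abs_le.1 haa
  have hnear : ∀ x : ℝ, |x - s₁| < δ → |x - s₀| < D / 2 := by
    intro x hx
    calc |x - s₀| = |(x - s₁) + (s₁ - s₀)| := by ring_nf
      _ ≤ |x - s₁| + |s₁ - s₀| := abs_add_le _ _
      _ < D / 2 := by linarith
  refine ⟨?_, ?_, ?_⟩
  · intro q hq hz _ him
    have hz0 : 0 < (q.2 - u).im := hz.1
    have hzi : (q.2 - u).im = q.2.im := by simp
    have h1 := (H q.1.re (by linarith [hnear _ hq])).1 (q.2 - u) (HD_mono (hη.trans e1) hz)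
    refine mem_X_of_lt hXX (HD_mono (hη.trans e2) hz) (lt_of_lt_of_le him (le_trans ?_ h1))
    rw [hzi] at hz0 ⊢
    exact mul_le_mul_of_nonneg_right (by linarith) hz0.le
  · intro q hq hz _ him
    have hz0 : 0 < (q.2 - u).im := hz.1
    have hzi : (q.2 - u).im = q.2.im := by simp
    have h1 := (H q.1.re (by linarith [hnear _ hq])).2.1 (q.2 - u) (HD_mono (hη.trans e1) hz)
    refine mem_L_of_lt hLL (HD_mono (hη.trans e2) hz) (lt_of_lt_of_le him (le_trans ?_ h1))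
    rw [hzi] at hz0 ⊢
    exact mul_le_mul_of_nonneg_right hac hz0.le
  · intro x hx z hz hzc
    have hz0 : 0 < z.im := hz.1
    have hzn : ‖z‖ < η₁ := hz.2.trans_le hη
    have hzp : 0 < ‖z‖ := hz0.trans_le ((le_abs_self _).trans (Complex.abs_im_le_norm z))
    set ρ : ℝ := ‖z‖ with hρ
    set θ : ℝ := Complex.arg z with hθ
    have hθπ : θ < π := by
      rcases lt_or_eq_of_le (Complex.arg_le_pi z) with h | h
      · exact h
      · exfalso
        rw [Complex.arg_eq_pi_iff] at h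
        linarith [h.2]
    have hθ0 : 0 < θ := by
      rcases lt_or_eq_of_le (Complex.arg_nonneg_iff.2 hz0.le) with h | h
      · exact h
      · exfalso
        have := Complex.arg_eq_zero_iff.1 h.symm
        linarith [this.2]
    have hzc' : circleMap 0 ρ θ = z := by
      rw [circleMap, zero_add, hρ, hθ]
      exact Complex.norm_mul_exp_arg_mul_I z
    have hzre : z.re = ρ * Real.cos θ := by
      rw [← hzc']; simp [circleMap, Complex.exp_ofReal_mul_I_re]
    set s : ℝ := x - a₀ * z.re with hs'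
    have hreb : |z.re| ≤ ρ := Complex.abs_re_le_norm z
    have hρη : (a₀ + ε + 1) * ρ ≤ D / 4 :=
      (mul_le_mul_of_nonneg_left hzn.le hpos.le).trans e3
    have hsD : |s - s₀| < D := by
      have h1 := hnear x hx
      have h2 : |a₀ * z.re| ≤ a₀ * ρ := by
        rw [abs_mul, abs_of_nonneg ha₀]
        exact mul_le_mul_of_nonneg_left hreb ha₀
      have h3 : a₀ * ρ ≤ (a₀ + ε + 1) * ρ := mul_le_mul_of_nonneg_right (by linarith) hzp.le
      calc |s - s₀| = |(x - s₀) + (-(a₀ * z.re))| := by rw [hs']; ring_nf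
        _ ≤ |x - s₀| + |-(a₀ * z.re)| := abs_add_le _ _
        _ < D := by rw [abs_neg]; linarith
    have hB := (H s hsD).2.2.2 ρ hzp (hzn.trans_le e1)
    obtain ⟨θ', hθ', hθd, hθB⟩ := exists_theta (ε₂ := ε₂) hθ0 hθπ (by linarith) (by linarith)
      hε₂1 hB
    set z' : ℂ := circleMap 0 ρ θ' with hz'
    have hz'n : ‖z'‖ = ρ := by rw [hz', norm_circleMap_zero, abs_of_pos hzp]
    have hz're : z'.re = ρ * Real.cos θ' := by
      rw [hz']; simp [circleMap, Complex.exp_ofReal_mul_I_re]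
    have hz'im : z'.im = ρ * Real.sin θ' := by
      rw [hz']; simp [circleMap, Complex.exp_ofReal_mul_I_im]
    have hz'0 : 0 < z'.im := by
      rw [hz'im]; exact mul_pos hzp (Real.sin_pos_of_pos_of_lt_pi hθ'.1 hθ'.2)
    have hdz : ‖z' - z‖ ≤ ε₂ * ρ := by
      have h1 := (lipschitzWith_circleMap (0 : ℂ) ρ).dist_le_mul θ' θ
      rw [hzc', dist_eq_norm, Real.dist_eq] at h1
      refine h1.trans ?_
      rw [Real.coe_nnabs, abs_of_pos hzp, mul_comm]
      exact mul_le_mul_of_nonneg_right hθd.le hzp.le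
    have hex : ∃ x', |x' - (s + a₀ * (ρ * Real.cos θ'))| ≤ ε₂ / 2 * ρ ∧
        kX u R G X x' z' ≤ (a₀ + ε₂ / 2) * (ρ * Real.sin θ') := by
      by_contra hcon
      exact hθB ⟨hθ', hcon⟩
    obtain ⟨x', hx'1, hx'2⟩ := hex
    rw [← hz're] at hx'1
    rw [← hz'im] at hx'2
    have hxx : |x' - x| ≤ ε * ρ := by
      have h1 : |a₀ * (z'.re - z.re)| ≤ a₀ * (ε₂ * ρ) := by
        rw [abs_mul, abs_of_nonneg ha₀]
        refine mul_le_mul_of_nonneg_left ?_ ha₀
        rw [← Complex.sub_re]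
        exact (Complex.abs_re_le_norm _).trans hdz
      have h2 : x' - x = (x' - (s + a₀ * z'.re)) + a₀ * (z'.re - z.re) := by rw [hs']; ring
      have h3 : (ε₂ / 2 + a₀ * ε₂) ≤ ε := by linarith
      calc |x' - x| ≤ |x' - (s + a₀ * z'.re)| + |a₀ * (z'.re - z.re)| := by
            rw [h2]; exact abs_add_le _ _
        _ ≤ ε₂ / 2 * ρ + a₀ * (ε₂ * ρ) := add_le_add hx'1 h1
        _ = (ε₂ / 2 + a₀ * ε₂) * ρ := by ring
        _ ≤ ε * ρ := mul_le_mul_of_nonneg_right h3 hzp.le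
    have hz'R : z' ∈ HD R := ⟨hz'0, by rw [hz'n]; exact hzn.trans_le e2⟩
    have hz'η : z' ∈ HD η₀ := ⟨hz'0, by rw [hz'n]; exact hzn.trans_le e1⟩
    have hx'D : |x' - s₀| < D := by
      have h1 := hnear x hx
      have h3 : ε * ρ ≤ (a₀ + ε + 1) * ρ := mul_le_mul_of_nonneg_right (by linarith) hzp.le
      calc |x' - s₀| = |(x' - x) + (x - s₀)| := by ring_nf
        _ ≤ |x' - x| + |x - s₀| := abs_add_le _ _
        _ < D := by linarith
    have hlow := (H x' hx'D).1 z' hz'η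
    have hk1 : kX u R G X x' z' < 1 := by
      have h1 : z'.im ≤ ρ := by rw [← hz'n]; exact (le_abs_self _).trans (Complex.abs_im_le_norm _)
      have h2 : (a₀ + ε₂ / 2) * z'.im ≤ (a₀ + ε + 1) * η₁ :=
        mul_le_mul (by linarith) (h1.trans hzn.le) hz'0.le hpos.le
      linarith
    refine ⟨((x' : ℂ) + (kX u R G X x' z' : ℝ) * I, (u : ℂ) + z'), ?_, ?_, ?_, ?_, ?_⟩
    · simpa using hxx
    · have h1 : (u : ℂ) + z' - (u + z) = z' - z := by ring
      simp only [h1]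
      refine hdz.trans (mul_le_mul_of_nonneg_right (by linarith) hzp.le)
    · simp only [add_im, ofReal_im, mul_im, ofReal_re, I_im, I_re, mul_one, mul_zero, add_zero,
        zero_add]
      refine le_trans ?_ hlow
      exact mul_le_mul_of_nonneg_right (by linarith) hz'0.le
    · simp only [add_im, ofReal_im, mul_im, ofReal_re, I_im, I_re, mul_one, mul_zero, add_zero,
        zero_add]
      refine hx'2.trans ?_
      exact mul_le_mul_of_nonneg_right (by linarith) hz'0.le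
    · exact notMem_X hXX hz'R hk1

end Crest.Agent.R102.PartII150
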