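import Mathlib
import Crest.Agent.R102.F5_985
import Crest.Agent.R102.DerX_575

/-!
Row 102, part (C), leaf PSI (575 #25983 (3), with the constants hypothesis): generic lifts of
tangent vectors killing `m0`, `k0`, and derivations moving one vertex of a chain.
-/

set_option autoImplicit false

noncomputable section

namespace Crest.Agent.R102.Psi867

open scoped BigOperators

/-- Wronskian induction: linear dependence over the constants of `Δ` descends to `ℂ` for elements
of a differential subfield with constants `ℂ`. -/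
theorem wronsk {M ι : Type*} [Field M] [Algebra ℂ M] (Δ : Derivation ℂ M M)
    (F : IntermediateField ℂ M) (hF : ∀ x ∈ F, Δ x ∈ F)
    (hc : ∀ x ∈ F, Δ x = 0 → ∃ c : ℂ, x = algebraMap ℂ M c) (s : Finset ι) :
    ∀ (v c : ι → M), (∀ l ∈ s, v l ∈ F) → (∀ l ∈ s, Δ (c l) = 0) → ∑ l ∈ s, c l * v l = 0 →
      (∃ l ∈ s, c l ≠ 0) → ∃ e : ι → ℂ, (∃ l ∈ s, e l ≠ 0) ∧
        ∑ l ∈ s, algebraMap ℂ M (e l) * v l = 0 := by
  classical
  induction s using Finset.induction_on with
  | empty =>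
    rintro v c - - - ⟨l, hl, -⟩
    simp at hl
  | insert a s ha ih =>
    intro v c hv hcc hsum hne
    by_cases hva : v a = 0
    · refine ⟨fun l => if l = a then 1 else 0, ⟨a, Finset.mem_insert_self _ _, by simp⟩, ?_⟩
      refine Finset.sum_eq_zero fun l hl => ?_
      by_cases h : l = a
      · subst h; simp [hva]
      · simp [h]
    · rw [Finset.sum_insert ha] at hsum
      have hvF : ∀ l ∈ s, v l / v a ∈ F := fun l hl =>
        F.div_mem (hv l (Finset.mem_insert_of_mem hl)) (hv a (Finset.mem_insert_self _ _))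
      have h1 : ∑ l ∈ s, c l * (v l / v a) = - c a := by
        have h2 : ∑ l ∈ s, c l * (v l / v a) = (∑ l ∈ s, c l * v l) / v a := by
          rw [Finset.sum_div]
          exact Finset.sum_congr rfl fun l _ => by ring
        rw [h2, div_eq_iff hva]
        linear_combination hsum
      have h3 : ∑ l ∈ s, c l * Δ (v l / v a) = 0 := by
        have h4 : Δ (∑ l ∈ s, c l * (v l / v a)) = 0 := by
          rw [h1, map_neg, hcc a (Finset.mem_insert_self _ _), neg_zero]
        rw [map_sum] at h4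
        rw [← h4]
        refine Finset.sum_congr rfl fun l hl => ?_
        rw [Derivation.leibniz, hcc l (Finset.mem_insert_of_mem hl), smul_zero, add_zero,
          smul_eq_mul]
      have h5 : ∃ l ∈ s, c l ≠ 0 := by
        by_contra hcon
        push Not at hcon
        have h6 : ∑ l ∈ s, c l * v l = 0 :=
          Finset.sum_eq_zero fun l hl => by rw [hcon l hl, zero_mul]
        rw [h6, add_zero] at hsum
        have h7 : c a = 0 := by
          rcases mul_eq_zero.mp hsum with h | h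
          · exact h
          · exact absurd h hva
        obtain ⟨l, hl, hcl⟩ := hne
        rcases Finset.mem_insert.mp hl with rfl | hl
        · exact hcl h7
        · exact hcl (hcon l hl)
      obtain ⟨e, ⟨l0, hl0, he0⟩, he⟩ := ih (fun l => Δ (v l / v a)) c
        (fun l hl => hF _ (hvF l hl)) (fun l hl => hcc l (Finset.mem_insert_of_mem hl)) h3 h5
      have h8 : Δ (∑ l ∈ s, algebraMap ℂ M (e l) * (v l / v a)) = 0 := by
        rw [map_sum, ← he]
        refine Finset.sum_congr rfl fun l _ => ?_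
        rw [Derivation.leibniz, Derivation.map_algebraMap, smul_zero, add_zero, smul_eq_mul]
      obtain ⟨c0, hc0⟩ := hc _ (F.sum_mem fun l hl => F.mul_mem (F.algebraMap_mem _) (hvF l hl)) h8
      refine ⟨fun l => if l = a then -c0 else e l, ⟨l0, Finset.mem_insert_of_mem hl0, ?_⟩, ?_⟩
      · have : l0 ≠ a := fun h => ha (h ▸ hl0)
        simpa [this] using he0
      · rw [Finset.sum_insert ha]
        have h9 : ∑ l ∈ s, algebraMap ℂ M (if l = a then -c0 else e l) * v l =
            ∑ l ∈ s, algebraMap ℂ M (e l) * v l := by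
          refine Finset.sum_congr rfl fun l hl => ?_
          have : l ≠ a := fun h => ha (h ▸ hl)
          simp [this]
        have h10 : ∑ l ∈ s, algebraMap ℂ M (e l) * v l =
            (∑ l ∈ s, algebraMap ℂ M (e l) * (v l / v a)) * v a := by
          rw [Finset.sum_mul]
          refine Finset.sum_congr rfl fun l _ => ?_
          field_simp
        rw [h9, h10, hc0]
        simp

/-- algebraic independence over `ℂ` inside `F` gives algebraic independence over any field of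
constants -/
theorem algInd {M : Type*} [Field M] [Algebra ℂ M] (Δ : Derivation ℂ M M)
    (F : IntermediateField ℂ M) (hF : ∀ x ∈ F, Δ x ∈ F)
    (hc : ∀ x ∈ F, Δ x = 0 → ∃ c : ℂ, x = algebraMap ℂ M c) (K : IntermediateField ℂ M)
    (hK : ∀ x ∈ K, Δ x = 0) {n : ℕ} (y : Fin n → M) (hy : ∀ i, y i ∈ F)
    (hyi : AlgebraicIndependent ℂ y) : AlgebraicIndependent K y := by
  classical
  rw [algebraicIndependent_iff]
  intro p hp
  by_contra hp0
  have h1 : ∑ s ∈ p.support, ((p.coeff s : K) : M) * (∏ i, y i ^ s i) = 0 := by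
    rw [MvPolynomial.aeval_def, MvPolynomial.eval₂_eq'] at hp
    exact hp
  obtain ⟨s0, hs0⟩ := MvPolynomial.support_nonempty.mpr hp0
  obtain ⟨e, ⟨s1, hs1, he1⟩, he⟩ := wronsk Δ F hF hc p.support (fun s => ∏ i, y i ^ s i)
    (fun s => ((p.coeff s : K) : M)) (fun s _ => F.prod_mem fun i _ => pow_mem (hy i) _)
    (fun s _ => hK _ (p.coeff s).2) h1 ⟨s0, hs0, by
      have := MvPolynomial.mem_support_iff.mp hs0
      simpa using this⟩
  let q : MvPolynomial (Fin n) ℂ := ∑ s ∈ p.support, MvPolynomial.monomial s (e s)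
  have hq : MvPolynomial.aeval y q = 0 := by
    rw [← he, map_sum]
    refine Finset.sum_congr rfl fun s _ => ?_
    rw [MvPolynomial.aeval_monomial, Finsupp.prod_fintype _ _ (fun i => pow_zero _)]
  have hq0 : q = 0 := (algebraicIndependent_iff.mp hyi) q hq
  have h2 : MvPolynomial.coeff s1 q = e s1 := by
    simp only [q, MvPolynomial.coeff_sum, MvPolynomial.coeff_monomial]
    rw [Finset.sum_eq_single_of_mem s1 hs1]
    · simp
    · intro b _ hb
      simp [hb]
  rw [hq0, MvPolynomial.coeff_zero] at h2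
  exact he1 h2.symm

open scoped IntermediateField.algebraAdjoinAdjoin in
/-- a derivation over `k` with prescribed values `0`, `1` on an algebraically independent pair -/
theorem exDer {k M : Type} [Field k] [CharZero k] [Field M] [Algebra k M] (x y : M)
    (h : AlgebraicIndependent k ![x, y]) :
    ∃ δ : Derivation k M M, δ x = 0 ∧ δ y = 1 := by
  have h1 := h.transcendental_adjoin (s := {0}) (i := 1) (by simp)
  have h2 : (![x, y] '' ({0} : Set (Fin 2))) = {x} := by simp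
  rw [h2] at h1
  have h3 : Transcendental (IntermediateField.adjoin k ({x} : Set M)) y := fun h4 =>
    h1 ((IsFractionRing.isAlgebraic_iff (Algebra.adjoin k ({x} : Set M))
      (IntermediateField.adjoin k ({x} : Set M)) M).mpr h4)
  have hc : CharZero (IntermediateField.adjoin k ({x} : Set M)) :=
    charZero_of_injective_algebraMap (algebraMap k _).injective
  obtain ⟨D, hD⟩ := DerX575.leafDER _ M y h3
  have hD0 : ∀ z : IntermediateField.adjoin k ({x} : Set M), D (z : M) = 0 := fun z =>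
    D.map_algebraMap z
  exact ⟨D.restrictScalars k, hD0 ⟨x, IntermediateField.mem_adjoin_simple_self k x⟩, hD⟩

/-- the field of constants of a derivation -/
def consts {M : Type*} [Field M] [Algebra ℂ M] (Δ : Derivation ℂ M M) : IntermediateField ℂ M where
  carrier := {x | Δ x = 0}
  mul_mem' := by
    intro x y hx hy
    change Δ (x * y) = 0
    rw [Derivation.leibniz, show Δ x = 0 from hx, show Δ y = 0 from hy, smul_zero, smul_zero,
      add_zero]
  add_mem' := by
    intro x y hx hy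
    change Δ (x + y) = 0
    rw [map_add, show Δ x = 0 from hx, show Δ y = 0 from hy, add_zero]
  algebraMap_mem' := fun r => Δ.map_algebraMap r
  inv_mem' := by
    intro x hx
    change Δ x⁻¹ = 0
    rw [Derivation.leibniz_inv, show Δ x = 0 from hx, smul_zero]


/-- field level form of part 2 -/
theorem core2 {M A0 : Type} [Field M] [Algebra ℂ M] [CommRing A0] [Algebra ℂ A0]
    (D0 : Derivation ℂ A0 A0) (z0 g0 : A0) (hi : AlgebraicIndependent ℂ ![z0, g0])
    (hc : ∀ a b : A0, b ≠ 0 → D0 a * b = a * D0 b → ∃ c : ℂ, a = c • b)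
    (D1 D2 : Derivation ℂ M M) (u v : A0 →ₐ[ℂ] M) (hv : Function.Injective v)
    (hu1 : ∀ a, D1 (u a) = u (D0 a) * D1 (u z0)) (hu2 : ∀ a, D2 (u a) = u (D0 a) * D2 (u z0))
    (hv1 : ∀ a, D1 (v a) = v (D0 a) * D1 (v z0)) (hv2 : ∀ a, D2 (v a) = v (D0 a) * D2 (v z0))
    (hW : D1 (u z0) * D2 (v z0) - D2 (u z0) * D1 (v z0) ≠ 0) :
    ∃ δ : Derivation ℂ M M, (∀ a, δ (u a) = 0) ∧ δ (v z0) = 0 ∧ δ (v g0) = 1 := by
  set W := D1 (u z0) * D2 (v z0) - D2 (u z0) * D1 (v z0) with hWdef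
  let Δ : Derivation ℂ M M := W⁻¹ • (D1 (u z0) • D2 - D2 (u z0) • D1)
  have hΔ : ∀ x, Δ x = W⁻¹ * (D1 (u z0) * D2 x - D2 (u z0) * D1 x) := fun x => rfl
  have hΔu : ∀ a, Δ (u a) = 0 := by
    intro a
    rw [hΔ, hu1 a, hu2 a]
    ring
  have hΔv : ∀ a, Δ (v a) = v (D0 a) := by
    intro a
    rw [hΔ, hv1 a, hv2 a]
    have : D1 (u z0) * (v (D0 a) * D2 (v z0)) - D2 (u z0) * (v (D0 a) * D1 (v z0)) =
        W * v (D0 a) := by rw [hWdef]; ring
    rw [this, inv_mul_cancel_left₀ hW]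
  let F : IntermediateField ℂ M := IntermediateField.adjoin ℂ (Set.range v)
  have hFm : ∀ x, x ∈ F → ∃ a b : A0, b ≠ 0 ∧ x = v a / v b := by
    intro x hx
    obtain ⟨r, hr, t, ht, hxe⟩ := IntermediateField.mem_adjoin_iff_div.mp hx
    have hra : Algebra.adjoin ℂ (Set.range v) = v.range := by
      have : (Set.range v : Set M) = (v.range : Set M) := rfl
      rw [this, Algebra.adjoin_eq]
    rw [hra] at hr ht
    obtain ⟨a, rfl⟩ := hr
    obtain ⟨b, rfl⟩ := ht
    by_cases hb : b = 0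
    · have h10 : (1 : A0) ≠ 0 := by
        intro h
        have : v 1 = v 0 := by rw [h]
        rw [map_one, map_zero] at this
        exact one_ne_zero this
      refine ⟨0, 1, h10, ?_⟩
      rw [hxe, hb]
      simp
    · exact ⟨a, b, hb, hxe⟩
  have hvF : ∀ a, v a ∈ F := fun a => IntermediateField.subset_adjoin _ _ ⟨a, rfl⟩
  have hv0 : ∀ b : A0, b ≠ 0 → v b ≠ 0 := fun b hb h => hb (hv (by rw [h, map_zero]))
  have hder : ∀ a b : A0, b ≠ 0 → Δ (v a / v b) = v (D0 a * b - a * D0 b) / (v b) ^ 2 := by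
    intro a b hb
    rw [Derivation.leibniz_div, hΔv, hΔv, map_sub, map_mul, map_mul]
    simp only [smul_eq_mul]
    ring
  have hF : ∀ x ∈ F, Δ x ∈ F := by
    intro x hx
    obtain ⟨a, b, hb, rfl⟩ := hFm x hx
    rw [hder a b hb]
    exact F.div_mem (hvF _) (pow_mem (hvF _) 2)
  have hcF : ∀ x ∈ F, Δ x = 0 → ∃ c : ℂ, x = algebraMap ℂ M c := by
    intro x hx h0
    obtain ⟨a, b, hb, rfl⟩ := hFm x hx
    rw [hder a b hb, div_eq_zero_iff] at h0
    rcases h0 with h0 | h0
    · have h1 : D0 a * b - a * D0 b = 0 := hv (by rw [h0, map_zero])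
      obtain ⟨c, rfl⟩ := hc a b hb (sub_eq_zero.mp h1)
      refine ⟨c, ?_⟩
      rw [map_smul, Algebra.smul_def, mul_div_assoc, div_self (hv0 b hb), mul_one]
    · exact absurd (pow_eq_zero_iff (two_ne_zero)|>.mp h0) (hv0 b hb)
  have hvi : AlgebraicIndependent ℂ ![v z0, v g0] := by
    have h1 := hi.map' hv
    have h2 : (v ∘ ![z0, g0]) = ![v z0, v g0] := by
      ext i
      fin_cases i <;> rfl
    rwa [h2] at h1
  have hK := algInd Δ F hF hcF (consts Δ) (fun x hx => hx) ![v z0, v g0]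
    (by intro i; fin_cases i <;> exact hvF _) hvi
  have hcz : CharZero (consts Δ) := charZero_of_injective_algebraMap (algebraMap ℂ _).injective
  obtain ⟨δ, h1, h2⟩ := exDer _ _ hK
  refine ⟨δ.restrictScalars ℂ, fun a => ?_, h1, h2⟩
  exact δ.map_algebraMap (⟨u a, hΔu a⟩ : consts Δ)

/-- clearing denominators -/
theorem clear (A M : Type*) [CommRing A] [IsDomain A] [Algebra ℂ A] [Algebra.FiniteType ℂ A]
    [Field M] [Algebra A M] [IsFractionRing A M] [Algebra ℂ M] [IsScalarTower ℂ A M]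
    (δ : Derivation ℂ M M) :
    ∃ h : A, h ≠ 0 ∧ ∃ d : Derivation ℂ A A, ∀ a,
      algebraMap A M (d a) = algebraMap A M h * δ (algebraMap A M a) := by
  classical
  obtain ⟨s, hs⟩ := (inferInstance : Algebra.FiniteType ℂ A).out
  obtain ⟨b, hb⟩ := IsLocalization.exist_integer_multiples (nonZeroDivisors A) s
    (fun a => δ (algebraMap A M a))
  have hinj := IsFractionRing.injective A M
  let S : Subalgebra ℂ A :=
    { carrier := {a | ∃ c : A, algebraMap A M c = algebraMap A M b * δ (algebraMap A M a)}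
      mul_mem' := by
        rintro x y ⟨c, hc⟩ ⟨c', hc'⟩
        refine ⟨x * c' + y * c, ?_⟩
        rw [map_mul, Derivation.leibniz, map_add, map_mul, map_mul, hc, hc']
        simp only [smul_eq_mul]
        ring
      add_mem' := by
        rintro x y ⟨c, hc⟩ ⟨c', hc'⟩
        exact ⟨c + c', by rw [map_add, map_add, map_add, hc, hc']; ring⟩
      algebraMap_mem' := fun r => ⟨0, by
        rw [← IsScalarTower.algebraMap_apply ℂ A M, Derivation.map_algebraMap, mul_zero, map_zero]⟩ }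
  have hS : ∀ a : A, ∃ c : A, algebraMap A M c = algebraMap A M b * δ (algebraMap A M a) := by
    intro a
    have h1 : Algebra.adjoin ℂ (s : Set A) ≤ S := by
      rw [Algebra.adjoin_le_iff]
      intro x hx
      obtain ⟨c, hc⟩ := hb x hx
      exact ⟨c, by rw [hc, Algebra.smul_def]⟩
    rw [hs] at h1
    exact h1 (Algebra.mem_top (x := a))
  choose f hf using hS
  refine ⟨b, nonZeroDivisors.ne_zero b.2, Derivation.mk' { toFun := f, map_add' := ?_, map_smul' := ?_ } ?_, fun a => hf a⟩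
  · intro x y
    apply hinj
    rw [map_add, hf, hf, hf, map_add, map_add]
    ring
  · intro r x
    apply hinj
    rw [RingHom.id_apply, Algebra.smul_def, Algebra.smul_def, map_mul, hf, hf, map_mul,
      Derivation.leibniz, ← IsScalarTower.algebraMap_apply ℂ A M, Derivation.map_algebraMap]
    simp only [smul_eq_mul]
    ring
  · intro x y
    apply hinj
    change algebraMap A M (f (x * y)) = algebraMap A M (x • f y + y • f x)
    rw [hf, map_add, smul_eq_mul, smul_eq_mul, (algebraMap A M).map_mul, Derivation.leibniz,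
      (algebraMap A M).map_mul, (algebraMap A M).map_mul, hf, hf]
    simp only [smul_eq_mul]
    ring

/-- tangent vectors at `ev` killing `m0`, `k0` -/
def TV {A : Type*} [CommRing A] [Algebra ℂ A] (m0 k0 : A) (ev : A →ₐ[ℂ] ℂ) (d : A →ₗ[ℂ] ℂ) : Prop :=
  (∀ a b, d (a * b) = ev a * d b + ev b * d a) ∧ d m0 = 0 ∧ d k0 = 0

/-- generic lifting of tangent vectors which vanish on `B` -/
theorem part1B (B A : Type) [CommRing A] [IsDomain A] [Algebra ℂ A] [Algebra.FiniteType ℂ A]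
    [CommRing B] [IsDomain B] [Algebra ℂ B] [Algebra.FiniteType ℂ B] [Algebra B A]
    [IsScalarTower ℂ B A] (hinj : Function.Injective (algebraMap B A)) :
    ∃ f : A, f ≠ 0 ∧ ∀ ev : A →ₐ[ℂ] ℂ, ev f ≠ 0 → ∀ d : A →ₗ[ℂ] ℂ,
      (∀ a b, d (a * b) = ev a * d b + ev b * d a) → (∀ b : B, d (algebraMap B A b) = 0) →
      ∃ ψ : A →ₐ[ℂ] PowerSeries ℂ,
        (∀ a, PowerSeries.constantCoeff (ψ a) = ev a ∧ PowerSeries.coeff 1 (ψ a) = d a) ∧
        ∀ b : B, ψ (algebraMap B A b) = PowerSeries.C (ev (algebraMap B A b)) := by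
  obtain ⟨f, hf, hsm⟩ := F5.generic_smooth B A hinj
  refine ⟨f, hf, fun ev hev d hd1 hdB => ?_⟩
  let Af := Localization.Away f
  let ρ := F5.dualHom ev d hd1
  have hρ1 : ∀ a, (ρ a).fst = ev a := fun a => F5.dualHom_fst ev d hd1 a
  have hρ2 : ∀ a, (ρ a).snd = d a := fun a => F5.dualHom_snd ev d hd1 a
  have hunit : ∀ s : Submonoid.powers f, IsUnit (ρ s) := by
    rintro ⟨_, k, rfl⟩
    rw [TrivSqZeroExt.isUnit_iff_isUnit_fst, hρ1, map_pow]
    exact (isUnit_iff_ne_zero.mpr hev).pow k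
  let ρ' : Af →ₐ[ℂ] TrivSqZeroExt ℂ ℂ :=
    IsLocalization.liftAlgHom (M := Submonoid.powers f) (f := ρ) hunit
  have hρ' : ∀ a, ρ' (algebraMap A Af a) = ρ a := fun a => by simp [ρ']
  let ev' : Af →ₐ[ℂ] ℂ := (TrivSqZeroExt.fstHom ℂ ℂ ℂ).comp ρ'
  let d' : Af →ₗ[ℂ] ℂ := (TrivSqZeroExt.sndHom ℂ ℂ).comp ρ'.toLinearMap
  have hev' : ∀ a, ev' (algebraMap A Af a) = ev a := fun a => by
    change (ρ' (algebraMap A Af a)).fst = _
    rw [hρ', hρ1]
  have hd' : ∀ a, d' (algebraMap A Af a) = d a := fun a => by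
    change (ρ' (algebraMap A Af a)).snd = _
    rw [hρ', hρ2]
  have hdl : ∀ a b, d' (a * b) = ev' a * d' b + ev' b * d' a := by
    intro a b
    change (ρ' (a * b)).snd = (ρ' a).fst * (ρ' b).snd + (ρ' b).fst * (ρ' a).snd
    rw [map_mul, TrivSqZeroExt.snd_mul]
    simp
    ring
  let ψB : B →ₐ[ℂ] PowerSeries ℂ :=
    (Algebra.ofId ℂ (PowerSeries ℂ)).comp (ev.comp (IsScalarTower.toAlgHom ℂ B A))
  have hψB : ∀ b : B, ψB b = PowerSeries.C (ev (algebraMap B A b)) := fun b => rfl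
  have hBA : ∀ b : B, algebraMap B Af b = algebraMap A Af (algebraMap B A b) := fun b => rfl
  obtain ⟨ψ, h1, h2, h3⟩ := F5.exists_lift (B := B) (A := Af) ψB ev'
    (fun b => by rw [hBA, hev', hψB]; simp) d' hdl
    (fun b => by rw [hBA, hd', hψB, hdB b]; simp)
  refine ⟨ψ.comp (IsScalarTower.toAlgHom ℂ A Af), fun a => ⟨?_, ?_⟩, fun b => ?_⟩
  · change PowerSeries.constantCoeff (ψ (algebraMap A Af a)) = ev a
    rw [h2, hev']
  · change PowerSeries.coeff 1 (ψ (algebraMap A Af a)) = d a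
    rw [h3, hd']
  · exact (h1 b).trans (hψB b)

/-- part 1: generic lifting of tangent vectors -/
theorem part1 (A : Type) [CommRing A] [IsDomain A] [Algebra ℂ A] [Algebra.FiniteType ℂ A]
    (m0 k0 : A) : ∃ f : A, f ≠ 0 ∧ ∀ ev : A →ₐ[ℂ] ℂ, ev f ≠ 0 → ∀ d, TV m0 k0 ev d →
      ∃ ψ : A →ₐ[ℂ] PowerSeries ℂ,
        (∀ a, PowerSeries.constantCoeff (ψ a) = ev a ∧ PowerSeries.coeff 1 (ψ a) = d a) ∧
        ψ m0 = PowerSeries.C (ev m0) ∧ ψ k0 = PowerSeries.C (ev k0) := by
  let B : Subalgebra ℂ A := Algebra.adjoin ℂ {m0, k0}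
  have hm : m0 ∈ B := Algebra.subset_adjoin (by simp)
  have hk : k0 ∈ B := Algebra.subset_adjoin (by simp)
  have hBf : Algebra.FiniteType ℂ B := B.fg_iff_finiteType.mp (by
    classical
    exact ⟨{m0, k0}, by simp [B]⟩)
  obtain ⟨f, hf, h⟩ := part1B B A Subtype.val_injective
  refine ⟨f, hf, fun ev hev d hd => ?_⟩
  obtain ⟨hd1, hd2, hd3⟩ := hd
  have hdB : ∀ b ∈ B, d b = 0 := by
    have h1 : d 1 = 0 := by
      have := hd1 1 1
      simp at this
      exact this
    intro b hb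
    induction hb using Algebra.adjoin_induction with
    | mem x hx =>
      rcases hx with rfl | rfl
      · exact hd2
      · exact hd3
    | algebraMap r => rw [Algebra.algebraMap_eq_smul_one, map_smul, h1, smul_zero]
    | add x y _ _ hx hy => rw [map_add, hx, hy, add_zero]
    | mul x y _ _ hx hy => rw [hd1, hx, hy, mul_zero, mul_zero, add_zero]
  obtain ⟨ψ, h1, h2⟩ := h ev hev d hd1 (fun b => hdB b b.2)
  exact ⟨ψ, h1, h2 ⟨m0, hm⟩, h2 ⟨k0, hk⟩⟩

/-- from a derivation of the fraction field to tangent vectors at generic points -/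
theorem toTV (A M : Type) [CommRing A] [IsDomain A] [Algebra ℂ A] [Algebra.FiniteType ℂ A]
    [Field M] [Algebra A M] [IsFractionRing A M] [Algebra ℂ M] [IsScalarTower ℂ A M]
    (m0 k0 : A) (E1 E2 : Derivation ℂ M M) (h11 : E1 (algebraMap A M m0) = 1)
    (h12 : E1 (algebraMap A M k0) = 0) (h21 : E2 (algebraMap A M m0) = 0)
    (h22 : E2 (algebraMap A M k0) = 1) (δ : Derivation ℂ M M) :
    ∃ h : A, h ≠ 0 ∧ ∃ d : Derivation ℂ A A, d m0 = 0 ∧ d k0 = 0 ∧ ∀ a,
      algebraMap A M (d a) = algebraMap A M h * (δ (algebraMap A M a) -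
        δ (algebraMap A M m0) * E1 (algebraMap A M a) -
        δ (algebraMap A M k0) * E2 (algebraMap A M a)) := by
  obtain ⟨h, hh, d, hd⟩ := clear A M
    (δ - δ (algebraMap A M m0) • E1 - δ (algebraMap A M k0) • E2)
  have hd' : ∀ a, algebraMap A M (d a) = algebraMap A M h * (δ (algebraMap A M a) -
        δ (algebraMap A M m0) * E1 (algebraMap A M a) -
        δ (algebraMap A M k0) * E2 (algebraMap A M a)) := fun a => hd a
  have hinj := IsFractionRing.injective A M
  refine ⟨h, hh, d, hinj ?_, hinj ?_, hd'⟩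
  · rw [hd', h11, h21, map_zero]; ring
  · rw [hd', h12, h22, map_zero]; ring

/-- **PSI** (575 #25983 (3), with the hypothesis `hc` on the constants). -/
theorem psi (A A0 : Type) [CommRing A] [IsDomain A] [Algebra ℂ A] [Algebra.FiniteType ℂ A]
    [CommRing A0] [Algebra ℂ A0] (del0 : Derivation ℂ A0 A0) (z0 g0 : A0)
    (hi : AlgebraicIndependent ℂ ![z0, g0])
    (hc : ∀ a b : A0, b ≠ 0 → del0 a * b = a * del0 b → ∃ c : ℂ, a = c • b)
    (D1 D2 : Derivation ℂ A A) (m0 k0 : A) (h11 : D1 m0 = 1) (h12 : D1 k0 = 0)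
    (h21 : D2 m0 = 0) (h22 : D2 k0 = 1) (N : ℕ) (t : ℕ → (A0 →ₐ[ℂ] A))
    (htj : ∀ j < N, Function.Injective (t j))
    (ht1 : ∀ j < N, ∀ a, D1 (t j a) = t j (del0 a) * D1 (t j z0))
    (ht2 : ∀ j < N, ∀ a, D2 (t j a) = t j (del0 a) * D2 (t j z0))
    (hW : ∀ i < N, ∀ j < N, i ≠ j → D1 (t i z0) * D2 (t j z0) - D2 (t i z0) * D1 (t j z0) ≠ 0) :
    ∃ f : A, f ≠ 0 ∧ ∀ ev : A →ₐ[ℂ] ℂ, ev f ≠ 0 →
      (∀ d, TV m0 k0 ev d → ∃ ψ : A →ₐ[ℂ] PowerSeries ℂ,
        (∀ a, PowerSeries.constantCoeff (ψ a) = ev a ∧ PowerSeries.coeff 1 (ψ a) = d a) ∧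
        ψ m0 = PowerSeries.C (ev m0) ∧ ψ k0 = PowerSeries.C (ev k0)) ∧
      (∀ i < N, ∀ j < N, i ≠ j → ∃ d, TV m0 k0 ev d ∧
        (∀ a, d (t i a) = ev (t i (del0 a)) * d (t i z0)) ∧
        d (t j g0) ≠ ev (t j (del0 g0)) * d (t j z0)) ∧
      (∀ j < N, ∃ d, TV m0 k0 ev d ∧ d (t j g0) ≠ ev (t j (del0 g0)) * d (t j z0)) := by
  classical
  let M := FractionRing A
  have hinj : Function.Injective (algebraMap A M) := IsFractionRing.injective A M
  have het : Algebra.FormallyEtale A M :=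
    Algebra.FormallyEtale.of_isLocalization (nonZeroDivisors A)
  obtain ⟨E1, hE1⟩ := DerX575.extend (R := ℂ) (S := A) (T := M)
    ((Algebra.linearMap A M).compDer D1)
  obtain ⟨E2, hE2⟩ := DerX575.extend (R := ℂ) (S := A) (T := M)
    ((Algebra.linearMap A M).compDer D2)
  have hE1' : ∀ a, E1 (algebraMap A M a) = algebraMap A M (D1 a) := fun a => hE1 a
  have hE2' : ∀ a, E2 (algebraMap A M a) = algebraMap A M (D2 a) := fun a => hE2 a
  let τ : ℕ → (A0 →ₐ[ℂ] M) := fun j => (IsScalarTower.toAlgHom ℂ A M).comp (t j)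
  have hτ : ∀ j a, τ j a = algebraMap A M (t j a) := fun j a => rfl
  have hτ1 : ∀ j < N, ∀ a, E1 (τ j a) = τ j (del0 a) * E1 (τ j z0) := by
    intro j hj a
    rw [hτ, hτ, hτ, hE1', hE1', ht1 j hj a, map_mul]
  have hτ2 : ∀ j < N, ∀ a, E2 (τ j a) = τ j (del0 a) * E2 (τ j z0) := by
    intro j hj a
    rw [hτ, hτ, hτ, hE2', hE2', ht2 j hj a, map_mul]
  have hτi : ∀ j < N, Function.Injective (τ j) := fun j hj => hinj.comp (htj j hj)
  -- the common end of parts 2 and 3
  have key : ∀ (δ : Derivation ℂ M M) (j : ℕ), j < N → δ (τ j z0) = 0 → δ (τ j g0) = 1 →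
      ∃ h : A, h ≠ 0 ∧ ∀ ev : A →ₐ[ℂ] ℂ, ev h ≠ 0 → ∃ d, TV m0 k0 ev d ∧
        (∀ i < N, (∀ a, δ (τ i a) = 0) → ∀ a, d (t i a) = ev (t i (del0 a)) * d (t i z0)) ∧
        d (t j g0) ≠ ev (t j (del0 g0)) * d (t j z0) := by
    intro δ j hj hδ0 hδ1
    obtain ⟨h, hh, d, hdm, hdk, hd⟩ := toTV A M m0 k0 E1 E2 (by rw [hE1', h11, map_one])
      (by rw [hE1', h12, map_zero]) (by rw [hE2', h21, map_zero]) (by rw [hE2', h22, map_one]) δ
    refine ⟨h, hh, fun ev hev => ?_⟩
    refine ⟨ev.toLinearMap.comp (d : A →ₗ[ℂ] A), ⟨?_, ?_, ?_⟩, ?_, ?_⟩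
    · intro a b
      change ev (d (a * b)) = ev a * ev (d b) + ev b * ev (d a)
      rw [Derivation.leibniz, smul_eq_mul, smul_eq_mul, map_add, map_mul, map_mul]
    · change ev (d m0) = 0
      rw [hdm, map_zero]
    · change ev (d k0) = 0
      rw [hdk, map_zero]
    · intro i hi hδi a
      change ev (d (t i a)) = ev (t i (del0 a)) * ev (d (t i z0))
      rw [← map_mul]
      congr 1
      apply hinj
      have e1 := hτ1 i hi a
      have e2 := hτ2 i hi a
      have e3 := hδi a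
      have e4 := hδi z0
      rw [hτ] at e3 e4
      simp only [hτ] at e1 e2
      rw [map_mul, hd, hd, e3, e4, e1, e2]
      ring
    · change ev (d (t j g0)) ≠ ev (t j (del0 g0)) * ev (d (t j z0))
      rw [← map_mul, ← sub_ne_zero, ← map_sub]
      have h1 : d (t j g0) - t j (del0 g0) * d (t j z0) = h := by
        apply hinj
        have e1 := hτ1 j hj g0
        have e2 := hτ2 j hj g0
        rw [hτ] at hδ0 hδ1
        simp only [hτ] at e1 e2
        rw [map_sub, map_mul, hd, hd, hδ0, hδ1, e1, e2]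
        ring
      rw [h1]
      exact hev
  -- part 1
  obtain ⟨f1, hf1, H1⟩ := part1 A m0 k0
  -- part 2
  have H2 : ∀ i j : ℕ, ∃ h : A, h ≠ 0 ∧ (i < N → j < N → i ≠ j → ∀ ev : A →ₐ[ℂ] ℂ, ev h ≠ 0 →
      ∃ d, TV m0 k0 ev d ∧ (∀ a, d (t i a) = ev (t i (del0 a)) * d (t i z0)) ∧
        d (t j g0) ≠ ev (t j (del0 g0)) * d (t j z0)) := by
    intro i j
    by_cases hij : i < N ∧ j < N ∧ i ≠ j
    · obtain ⟨hi', hj', hne⟩ := hij
      have hWij : E1 (τ i z0) * E2 (τ j z0) - E2 (τ i z0) * E1 (τ j z0) ≠ 0 := by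
        rw [hτ, hτ, hE1', hE2', hE2', hE1', ← map_mul, ← map_mul, ← map_sub]
        intro h0
        exact hW i hi' j hj' hne (hinj (by rw [h0, map_zero]))
      obtain ⟨δ, hδu, hδ0, hδ1⟩ := core2 del0 z0 g0 hi hc E1 E2 (τ i) (τ j) (hτi j hj')
        (hτ1 i hi') (hτ2 i hi') (hτ1 j hj') (hτ2 j hj') hWij
      obtain ⟨h, hh, H⟩ := key δ j hj' hδ0 hδ1
      refine ⟨h, hh, fun _ _ _ ev hev => ?_⟩
      obtain ⟨d, hd1, hd2, hd3⟩ := H ev hev
      exact ⟨d, hd1, hd2 i hi' hδu, hd3⟩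
    · exact ⟨1, one_ne_zero, fun a b c => absurd ⟨a, b, c⟩ hij⟩
  -- part 3
  have H3 : ∀ j : ℕ, ∃ h : A, h ≠ 0 ∧ (j < N → ∀ ev : A →ₐ[ℂ] ℂ, ev h ≠ 0 →
      ∃ d, TV m0 k0 ev d ∧ d (t j g0) ≠ ev (t j (del0 g0)) * d (t j z0)) := by
    intro j
    by_cases hj : j < N
    · have hvi : AlgebraicIndependent ℂ ![τ j z0, τ j g0] := by
        have h1 := hi.map' (hτi j hj)
        have h2 : (τ j ∘ ![z0, g0]) = ![τ j z0, τ j g0] := by
          ext i
          fin_cases i <;> rfl
        rwa [h2] at h1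
      obtain ⟨δ, hδ0, hδ1⟩ := exDer _ _ hvi
      obtain ⟨h, hh, H⟩ := key δ j hj hδ0 hδ1
      refine ⟨h, hh, fun _ ev hev => ?_⟩
      obtain ⟨d, hd1, -, hd3⟩ := H ev hev
      exact ⟨d, hd1, hd3⟩
    · exact ⟨1, one_ne_zero, fun a => absurd a hj⟩
  choose h2 h2n H2 using H2
  choose h3 h3n H3 using H3
  refine ⟨f1 * ((∏ i ∈ Finset.range N, ∏ j ∈ Finset.range N, h2 i j) *
    ∏ j ∈ Finset.range N, h3 j), mul_ne_zero hf1 (mul_ne_zero ?_ ?_), fun ev hev => ?_⟩
  · exact Finset.prod_ne_zero_iff.mpr fun i _ => Finset.prod_ne_zero_iff.mpr fun j _ => h2n i j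
  · exact Finset.prod_ne_zero_iff.mpr fun j _ => h3n j
  · rw [map_mul, map_mul, map_prod, map_prod, mul_ne_zero_iff, mul_ne_zero_iff] at hev
    obtain ⟨hev1, hev2, hev3⟩ := hev
    refine ⟨fun d hd => H1 ev hev1 d hd, fun i hi' j hj' hne => ?_, fun j hj' => ?_⟩
    · refine H2 i j hi' hj' hne ev ?_
      have h4 := Finset.prod_ne_zero_iff.mp hev2 i (Finset.mem_range.mpr hi')
      rw [map_prod] at h4
      exact Finset.prod_ne_zero_iff.mp h4 j (Finset.mem_range.mpr hj')
    · exact H3 j hj' ev (Finset.prod_ne_zero_iff.mp hev3 j (Finset.mem_range.mpr hj'))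

end Crest.Agent.R102.Psi867
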