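import Crest.Agent.R102.Outer_575

/-!
Row 102, [H3], theorem (RAT), RAT-1, part B: deformed chains and words in two derivations.
-/

set_option linter.unusedSectionVars false
set_option autoImplicit false

namespace Crest.Agent.R102.H3

open PowerSeries Finset

section chainrule

variable {K H S : Type*} [Field K] [CharZero K] [CommRing H] [Algebra K H] [CommRing S]
  [Algebra K S]

theorem dn_comm (d : Derivation K H H) (n : ℕ) (f : H) : dn d n (d f) = d (dn d n f) := by
  rw [dn, dn, d.map_smul]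
  congr 1
  exact (Function.iterate_succ_apply d n f).symm.trans (Function.iterate_succ_apply' d n f)

/-- chain rule for translated points -/
theorem cD_pt (d : Derivation K H H) (δ : Derivation K S S) (φ : H →+* S⟦X⟧) (v : S⟦X⟧)
    (hφ : ∀ f, cD δ (φ f) = φ (d f) * v) {y : S⟦X⟧} (hy : X ∣ y) (f : H) :
    cD δ (pt d φ y hy f) = pt d φ y hy (d f) * (v + cD δ y) := by
  refine eq_of_forall_X_pow_dvd fun M => ?_
  obtain ⟨q, hq⟩ := pt_eq d φ hy f (M + 1)
  obtain ⟨q', hq'⟩ := pt_eq d φ hy (d f) M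
  have h1 : cD δ (∑ m ∈ range (M + 1), φ (dn d m f) * y ^ m) =
      (∑ m ∈ range (M + 1), φ (dn d m (d f)) * y ^ m) * v +
        (∑ m ∈ range M, φ (dn d m (d f)) * y ^ m) * cD δ y := by
    rw [map_sum]
    have h2 : ∀ m ∈ range (M + 1), cD δ (φ (dn d m f) * y ^ m) =
        φ (dn d m (d f)) * y ^ m * v + φ (dn d m f) * ((m : S⟦X⟧) * y ^ (m - 1)) * cD δ y := by
      intro m _
      rw [Derivation.leibniz, Derivation.leibniz_pow, hφ, dn_comm]
      simp only [smul_eq_mul, nsmul_eq_mul]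
      ring
    rw [Finset.sum_congr rfl h2, Finset.sum_add_distrib, ← Finset.sum_mul, ← Finset.sum_mul]
    congr 2
    rw [Finset.sum_range_succ']
    simp only [Nat.cast_zero, zero_mul, mul_zero, add_zero, Nat.add_sub_cancel]
    refine Finset.sum_congr rfl fun m _ => ?_
    have h3 := dn_succ d m f
    rw [dn_comm, ← h3, map_mul]
    simp only [map_add, map_natCast, map_one]
    push_cast
    ring
  have hyM := X_pow_dvd_pow hy M
  obtain ⟨u, hu⟩ := hyM
  rw [hq, hq', map_add, h1, Derivation.leibniz, Derivation.leibniz_pow]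
  simp only [smul_eq_mul, nsmul_eq_mul, Nat.add_sub_cancel]
  rw [Finset.sum_range_succ]
  refine ⟨(u * (φ (dn d M (d f)) * v + ((M + 1 : ℕ) : S⟦X⟧) * cD δ y * q + y * cD δ q
    - q' * (v + cD δ y))), ?_⟩
  linear_combination (φ (dn d M (d f)) * v + ((M + 1 : ℕ) : S⟦X⟧) * cD δ y * q + y * cD δ q
    - q' * (v + cD δ y)) * hu

end chainrule

section outer_ex

variable {K H S : Type*} [Field K] [CharZero K] [CommRing H] [Algebra K H] [CommRing S]

theorem constantCoeff_map {A B : Type*} [CommRing A] [CommRing B] (f : A →+* B) (F : A⟦X⟧) :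
    constantCoeff (PowerSeries.map f F) = f (constantCoeff F) := by
  rw [← coeff_zero_eq_constantCoeff_apply, coeff_map, coeff_zero_eq_constantCoeff_apply]

/-- existence of outer chains -/
theorem outer_exists (d : Derivation K H H) {z g : H} (hz : d z = 1) (N : ℕ) (G : ℕ → H⟦X⟧)
    (hG : ∀ i, constantCoeff (G i) = g) (φ : ℕ → H →+* S) (m0 k0 : ℕ → S)
    (hbase : Chain d z (fun _ => g) N φ m0 k0)
    (hum : ∀ i < N, IsUnit (m0 i)) (hut : ∀ i < N, IsUnit (φ i (d g) - m0 i)) :
    ∃ (y m k : ℕ → S⟦X⟧) (hy : ∀ i, X ∣ y i), m 0 = C (m0 0) ∧ k 0 = C (k0 0) ∧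
      Chain (cD d) (C z) G N (fun i => pt (cD d) (PowerSeries.map (φ i)) (y i) (hy i)) m k ∧
      ∀ i ≤ N, constantCoeff (m i) = m0 i ∧ constantCoeff (k i) = k0 i := by
  classical
  have hzz : cD d (C z) = (1 : H⟦X⟧) := by rw [cD_C, hz, map_one]
  have hG' : ∀ i, constantCoeff (cD d (G i)) = d g := by
    intro i
    rw [← coeff_zero_eq_constantCoeff_apply, coeff_cD, coeff_zero_eq_constantCoeff_apply, hG]
  -- one step
  have hstep : ∀ i < N, ∀ m k : S⟦X⟧, constantCoeff m = m0 i → constantCoeff k = k0 i →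
      ∃ (y m' k' : S⟦X⟧) (hy : X ∣ y),
        pt (cD d) (PowerSeries.map (φ i)) y hy (G i) =
          m * pt (cD d) (PowerSeries.map (φ i)) y hy (C z) + k ∧
        pt (cD d) (PowerSeries.map (φ i)) y hy (G i) =
          m' * pt (cD d) (PowerSeries.map (φ i)) y hy (C z) + k' ∧
        m' * m = (pt (cD d) (PowerSeries.map (φ i)) y hy (cD d (G i))) ^ 2 ∧
        constantCoeff m' = m0 (i + 1) ∧ constantCoeff k' = k0 (i + 1) := by
    intro i hi m k hm hk
    have g1 : constantCoeff (PowerSeries.map (φ i) (G i) -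
        (m * PowerSeries.map (φ i) (C z) + k)) = 0 := by
      rw [map_sub, constantCoeff_map, hG, map_add, map_mul, hm, hk, constantCoeff_map,
        constantCoeff_C, sub_eq_zero]
      exact hbase.inc i hi
    have g2 : IsUnit (constantCoeff (PowerSeries.map (φ i) (cD d (G i)) - m)) := by
      rw [map_sub, constantCoeff_map, hG', hm]
      exact hut i hi
    obtain ⟨y, hy, h1⟩ := outer_step (cD d) (PowerSeries.map (φ i)) hzz (G i) m k g1 g2
    have hmu : IsUnit m := by
      rw [PowerSeries.isUnit_iff_constantCoeff, hm]; exact hum i hi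
    obtain ⟨v, hv⟩ := hmu.exists_right_inv
    set s := pt (cD d) (PowerSeries.map (φ i)) y hy (cD d (G i)) with hs
    set b := pt (cD d) (PowerSeries.map (φ i)) y hy (C z) with hb
    have hs0 : constantCoeff s = φ i (d g) := by
      rw [hs, constantCoeff_pt, constantCoeff_map, hG']
    have hb0 : constantCoeff b = φ i z := by
      rw [hb, constantCoeff_pt, constantCoeff_map, constantCoeff_C]
    have hmm : s ^ 2 * v * m = s ^ 2 := by
      rw [mul_assoc, mul_comm v m, hv, mul_one]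
    have hm' : constantCoeff (s ^ 2 * v) = m0 (i + 1) := by
      have h2 := congrArg constantCoeff hmm
      rw [map_mul, hm, map_pow, hs0] at h2
      have h3 := hbase.refl i hi
      exact (hum i hi).mul_left_injective (h2.trans h3.symm)
    refine ⟨y, s ^ 2 * v, m * b + k - s ^ 2 * v * b, hy, h1, ?_, hmm, hm', ?_⟩
    · rw [h1]; ring
    · rw [map_sub, map_add, map_mul, map_mul, hm, hk, hm', hb0]
      have h3 := hbase.inc i hi
      have h4 := hbase.inc' i hi
      linear_combination h4 - h3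
  choose! yf mf kf hyf hf using hstep
  -- recursion
  let st : ℕ → S⟦X⟧ × S⟦X⟧ := fun i =>
    Nat.rec (C (m0 0), C (k0 0)) (fun i p => (mf i p.1 p.2, kf i p.1 p.2)) i
  have hst : ∀ i, st (i + 1) = (mf i (st i).1 (st i).2, kf i (st i).1 (st i).2) := fun i => rfl
  have hc0 : ∀ i ≤ N, constantCoeff (st i).1 = m0 i ∧ constantCoeff (st i).2 = k0 i := by
    intro i
    induction i with
    | zero => intro _; exact ⟨by simp [st], by simp [st]⟩
    | succ i ih =>
      intro hi
      obtain ⟨h1, h2⟩ := ih (by omega)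
      rw [hst]
      exact (hf i (by omega) _ _ h1 h2).2.2.2
  let y : ℕ → S⟦X⟧ := fun i => if i < N then yf i (st i).1 (st i).2 else 0
  have hyi : ∀ i, X ∣ y i := by
    intro i
    by_cases h : i < N
    · simp only [y, if_pos h]
      exact hyf i h _ _ (hc0 i h.le).1 (hc0 i h.le).2
    · simp only [y, if_neg h]
      exact dvd_zero _
  have hpt : ∀ i (h : i < N), pt (cD d) (PowerSeries.map (φ i)) (y i) (hyi i) =
      pt (cD d) (PowerSeries.map (φ i)) (yf i (st i).1 (st i).2)
        (hyf i h _ _ (hc0 i h.le).1 (hc0 i h.le).2) := by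
    intro i h
    exact pt_congr _ _ _ rfl (by simp only [y, if_pos h])
  refine ⟨y, fun i => (st i).1, fun i => (st i).2, hyi, rfl, rfl, ⟨?_, ?_, ?_⟩, hc0⟩
  · intro i hi
    rw [hpt i hi]
    exact (hf i hi _ _ (hc0 i hi.le).1 (hc0 i hi.le).2).1
  · intro i hi
    rw [hpt i hi, hst]
    exact (hf i hi _ _ (hc0 i hi.le).1 (hc0 i hi.le).2).2.1
  · intro i hi
    rw [hpt i hi, hst]
    exact (hf i hi _ _ (hc0 i hi.le).1 (hc0 i hi.le).2).2.2.1

end outer_ex

section gam

/-- iterated derivatives along a word -/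
def word {K Λ : Type*} [Field K] [CommRing Λ] [Algebra K Λ] {ι : Type*}
    (D : ι → Derivation K Λ Λ) (l : List ι) (f : Λ) : Λ := l.foldr (fun a f => D a f) f


theorem word_cons {K Λ : Type*} [Field K] [CommRing Λ] [Algebra K Λ] {ι : Type*}
    (D : ι → Derivation K Λ Λ) (a : ι) (l : List ι) (f : Λ) :
    word D (a :: l) f = D a (word D l f) := rfl

variable {K T Ω : Type*} [Field K] [CommRing T] [Algebra K T] [CommRing Ω]

theorem coeff_word_cD {ι : Type*} (D : ι → Derivation K T T) (l : List ι) (s : T⟦X⟧) (n : ℕ) :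
    coeff n (word (fun a => cD (D a)) l s) = word D l (coeff n s) := by
  induction l with
  | nil => rfl
  | cons a l ih => rw [word_cons, word_cons, coeff_cD, ih]

theorem constantCoeff_word_cD {ι : Type*} (D : ι → Derivation K T T) (l : List ι) (s : T⟦X⟧) :
    constantCoeff (word (fun a => cD (D a)) l s) = word D l (constantCoeff s) := by
  rw [← coeff_zero_eq_constantCoeff_apply, coeff_word_cD, coeff_zero_eq_constantCoeff_apply]

theorem word_zero {ι : Type*} (D : ι → Derivation K T T) (l : List ι) :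
    word D l (0 : T) = 0 := by
  induction l with
  | nil => rfl
  | cons a l ih => rw [word_cons, ih, map_zero]

/-- a subalgebra generated by a set whose elements have derivatives in the subalgebra is stable -/
theorem adjoin_stable {Λ : Type*} [CommRing Λ] [Algebra K Λ] (Δ : Derivation K Λ Λ) (S : Set Λ)
    (hS : ∀ s ∈ S, Δ s ∈ Algebra.adjoin K S) {s : Λ} (hs : s ∈ Algebra.adjoin K S) :
    Δ s ∈ Algebra.adjoin K S := by
  induction hs using Algebra.adjoin_induction with
  | mem x hx => exact hS x hx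
  | algebraMap r => rw [Derivation.map_algebraMap]; exact zero_mem _
  | add x y _ _ hx hy => rw [map_add]; exact add_mem hx hy
  | mul x y hx' hy' hx hy =>
    rw [Derivation.leibniz, smul_eq_mul, smul_eq_mul]
    exact add_mem (mul_mem hx' hy) (mul_mem hy' hx)

/-- **identity principle for deformations** (575's form) -/
theorem gam {ι : Type*} (D : ι → Derivation K T T) (e : T →+* Ω)
    (hid : ∀ t, (∀ l, e (word D l t) = 0) → t = 0)
    [Algebra K Ω] (A : Subalgebra K T) (ψ : A →ₐ[K] Ω⟦X⟧) (heK : ∀ c : K,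
      e (algebraMap K T c) = algebraMap K Ω c) (S : Set T⟦X⟧)
    (hS1 : ∀ s ∈ S, ∃ h : constantCoeff s ∈ A, PowerSeries.map e s = ψ ⟨constantCoeff s, h⟩)
    (hS2 : ∀ s ∈ S, ∀ a, cD (D a) s ∈ Algebra.adjoin K S) {s : T⟦X⟧}
    (hs : s ∈ Algebra.adjoin K S) (h0 : constantCoeff s = 0) : s = 0 := by
  -- agreement on the whole subalgebra
  have hag : ∀ s ∈ Algebra.adjoin K S,
      ∃ h : constantCoeff s ∈ A, PowerSeries.map e s = ψ ⟨constantCoeff s, h⟩ := by
    intro s hs
    induction hs using Algebra.adjoin_induction with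
    | mem x hx => exact hS1 x hx
    | algebraMap r =>
      have e1 : constantCoeff (algebraMap K T⟦X⟧ r) = algebraMap K T r := by
        rw [PowerSeries.algebraMap_apply]; simp
      refine ⟨by rw [e1]; exact A.algebraMap_mem r, ?_⟩
      have e2 : (⟨constantCoeff (algebraMap K T⟦X⟧ r), by rw [e1]; exact A.algebraMap_mem r⟩ : A)
          = algebraMap K A r := Subtype.ext e1
      rw [e2, AlgHom.commutes, PowerSeries.algebraMap_apply, PowerSeries.algebraMap_apply, map_C,
        heK]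
    | add x y _ _ hx hy =>
      obtain ⟨hx1, hx2⟩ := hx
      obtain ⟨hy1, hy2⟩ := hy
      refine ⟨by rw [map_add]; exact add_mem hx1 hy1, ?_⟩
      rw [map_add, hx2, hy2, ← map_add]
      congr 1
    | mul x y _ _ hx hy =>
      obtain ⟨hx1, hx2⟩ := hx
      obtain ⟨hy1, hy2⟩ := hy
      refine ⟨by rw [map_mul]; exact mul_mem hx1 hy1, ?_⟩
      rw [map_mul, hx2, hy2, ← map_mul]
      congr 1
      exact Subtype.ext (by simp)
  have hst : ∀ l : List ι, word (fun a => cD (D a)) l s ∈ Algebra.adjoin K S := by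
    intro l
    induction l with
    | nil => exact hs
    | cons a l ih => exact adjoin_stable (cD (D a)) S (fun s hs => hS2 s hs a) ih
  ext n
  rw [map_zero]
  refine hid _ fun l => ?_
  obtain ⟨h1, h2⟩ := hag _ (hst l)
  have h3 : (⟨constantCoeff (word (fun a => cD (D a)) l s), h1⟩ : A) = 0 := by
    refine Subtype.ext ?_
    change constantCoeff (word (fun a => cD (D a)) l s) = 0
    rw [constantCoeff_word_cD, h0, word_zero]
  rw [h3, map_zero] at h2
  have h4 := congrArg (coeff n) h2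
  rwa [coeff_map, coeff_word_cD, map_zero] at h4

variable {Λ A0 : Type*} [CommRing Λ] [Algebra K Λ] [CommRing A0] [Algebra K A0]

/-- closure at a vertex -/
theorem vertex_mem (Δ : Derivation K Λ Λ) (d0 : Derivation K A0 A0) {z0 g0 : A0}
    (Φ : A0 →+* Λ) (hΦ : ∀ a, Δ (Φ a) = Φ (d0 a) * Δ (Φ z0)) {m k τ : Λ}
    (hinc : Φ g0 = m * Φ z0 + k) (hτ : τ * (Φ (d0 g0) - m) = 1) (Γ : Subalgebra K Λ)
    (hΦΓ : ∀ a, Φ a ∈ Γ) (hτΓ : τ ∈ Γ) (hdm : Δ m ∈ Γ) (hdk : Δ k ∈ Γ) :
    Δ (Φ z0) ∈ Γ ∧ (∀ a, Δ (Φ a) ∈ Γ) ∧ Δ τ ∈ Γ := by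
  have h1 := congrArg Δ hinc
  rw [hΦ, map_add, Derivation.leibniz] at h1
  simp only [smul_eq_mul] at h1
  have h3 : (Φ (d0 g0) - m) * Δ (Φ z0) = Φ z0 * Δ m + Δ k := by
    linear_combination h1
  have h4 : Δ (Φ z0) = (Φ z0 * Δ m + Δ k) * τ := by
    rw [← h3]
    linear_combination (-(Δ (Φ z0))) * hτ
  have hz : Δ (Φ z0) ∈ Γ := by
    rw [h4]
    exact mul_mem (add_mem (mul_mem (hΦΓ _) hdm) hdk) hτΓ
  have ha : ∀ a, Δ (Φ a) ∈ Γ := by
    intro a
    rw [hΦ]
    exact mul_mem (hΦΓ _) hz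
  refine ⟨hz, ha, ?_⟩
  have h5 := congrArg Δ hτ
  rw [Derivation.leibniz, Derivation.map_one_eq_zero, map_sub] at h5
  simp only [smul_eq_mul] at h5
  have h6 : Δ τ = - τ ^ 2 * (Δ (Φ (d0 g0)) - Δ m) := by
    linear_combination τ * h5 - Δ τ * hτ
  rw [h6]
  exact mul_mem (neg_mem (pow_mem hτΓ 2)) (sub_mem (ha _) hdm)

/-- closure at a reflection -/
theorem line_mem (Δ : Derivation K Λ Λ) (d0 : Derivation K A0 A0) {z0 g0 : A0}
    (Φ : A0 →+* Λ) {m m' k' μ : Λ}
    (hinc' : Φ g0 = m' * Φ z0 + k') (hrefl : m' * m = Φ (d0 g0) ^ 2) (hμ : μ * m = 1)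
    (Γ : Subalgebra K Λ)
    (hΦΓ : ∀ a, Φ a ∈ Γ) (hdΦ : ∀ a, Δ (Φ a) ∈ Γ) (hm' : m' ∈ Γ) (hμΓ : μ ∈ Γ) (hdm : Δ m ∈ Γ) :
    Δ m' ∈ Γ ∧ Δ k' ∈ Γ ∧ Δ μ ∈ Γ := by
  have h1 := congrArg Δ hrefl
  rw [Derivation.leibniz, Derivation.leibniz_pow] at h1
  simp only [smul_eq_mul, nsmul_eq_mul, Nat.add_one_sub_one, pow_one] at h1
  push_cast at h1
  have h2 : Δ m' = (2 * (Φ (d0 g0) * Δ (Φ (d0 g0))) - m' * Δ m) * μ := by
    linear_combination μ * h1 - Δ m' * hμ
  have hdm' : Δ m' ∈ Γ := by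
    rw [h2]
    have h22 : (2 : Λ) ∈ Γ := by
      have : (2 : Λ) = 1 + 1 := by norm_num
      rw [this]
      exact add_mem (one_mem _) (one_mem _)
    exact mul_mem (sub_mem (mul_mem h22 (mul_mem (hΦΓ _) (hdΦ _))) (mul_mem hm' hdm)) hμΓ
  refine ⟨hdm', ?_, ?_⟩
  · have h3 := congrArg Δ hinc'
    rw [map_add, Derivation.leibniz] at h3
    simp only [smul_eq_mul] at h3
    have h4 : Δ k' = Δ (Φ g0) - m' * Δ (Φ z0) - Φ z0 * Δ m' := by
      linear_combination -h3
    rw [h4]
    exact sub_mem (sub_mem (hdΦ _) (mul_mem hm' (hdΦ _))) (mul_mem (hΦΓ _) hdm')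
  · have h5 := congrArg Δ hμ
    rw [Derivation.leibniz, Derivation.map_one_eq_zero] at h5
    simp only [smul_eq_mul] at h5
    have h6 : Δ μ = - μ ^ 2 * Δ m := by
      linear_combination μ * h5 - Δ μ * hμ
    rw [h6]
    exact mul_mem (neg_mem (pow_mem hμΓ 2)) hdm

end gam

section unique

variable {K H S S' : Type*} [Field K] [CharZero K] [CommRing H] [Algebra K H] [CommRing S]
  [CommRing S']

/-- **uniqueness of outer chains** -/
theorem outer_chain_unique (d : Derivation K H H) {z : H} (hz : d z = 1) (N : ℕ) (G : ℕ → H)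
    (φ : ℕ → H →+* S⟦X⟧) (y y' m m' k k' : ℕ → S⟦X⟧) (hy : ∀ i, X ∣ y i) (hy' : ∀ i, X ∣ y' i)
    (h : Chain d z G N (fun i => pt d (φ i) (y i) (hy i)) m k)
    (h' : Chain d z G N (fun i => pt d (φ i) (y' i) (hy' i)) m' k')
    (hm0 : m 0 = m' 0) (hk0 : k 0 = k' 0) (hum : ∀ i < N, IsUnit (m i))
    (hut : ∀ i < N, IsUnit (constantCoeff (φ i (d (G i)) - m i))) :
    (∀ i < N, y i = y' i) ∧ ∀ i ≤ N, m i = m' i ∧ k i = k' i := by
  have key : ∀ i ≤ N, (m i = m' i ∧ k i = k' i) ∧ ∀ j < i, y j = y' j := by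
    intro i
    induction i with
    | zero => intro _; exact ⟨⟨hm0, hk0⟩, fun j hj => absurd hj (by omega)⟩
    | succ i ih =>
      intro hi
      have hi' : i < N := hi
      obtain ⟨⟨h1, h2⟩, h3⟩ := ih hi'.le
      have hyy : y i = y' i := by
        refine outer_unique d (φ i) hz (G i) (m i) (k i) (hut i hi') (hy i) (hy' i)
          (h.inc i hi') ?_
        have := h'.inc i hi'
        rw [← h1, ← h2] at this
        exact this
      have hpt : pt d (φ i) (y i) (hy i) = pt d (φ i) (y' i) (hy' i) :=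
        pt_congr _ _ _ rfl hyy
      have hmm : m (i + 1) = m' (i + 1) := by
        have e1 := h.refl i hi'
        have e2 := h'.refl i hi'
        rw [← hpt, ← h1] at e2
        exact (hum i hi').mul_left_injective (e1.trans e2.symm)
      have hkk : k (i + 1) = k' (i + 1) := by
        have e1 := h.inc' i hi'
        have e2 := h'.inc' i hi'
        rw [← hpt, ← hmm] at e2
        exact add_left_cancel (e1.symm.trans e2)
      refine ⟨⟨hmm, hkk⟩, fun j hj => ?_⟩
      rcases Nat.lt_succ_iff_lt_or_eq.1 hj with h4 | h4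
      · exact h3 j h4
      · rw [h4]; exact hyy
  exact ⟨fun i hi => (key N le_rfl).2 i hi, fun i hi => (key i hi).1⟩

end unique

end Crest.Agent.R102.H3
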