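import Crest.Agent.R102.F5_985
import Crest.Agent.R102.RATDefs_926
import Crest.Agent.R102.DerX_575

-- ▼ part R102/LiftB_985
section

/-!
Row 102, part (C), leaf PSI, first half: lifting of a tangent vector at a generic point to a
formal curve which is constant along a given subalgebra.
-/

namespace Crest.Agent.R102.F5

open PowerSeries

/-- LIFT, general form: prescribed first order germ `ψB` on `B` -/
theorem exists_lift_gen {A B : Type*} [CommRing A] [IsDomain A] [Algebra ℂ A]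
    [Algebra.FiniteType ℂ A] [CommRing B] [Algebra ℂ B] [Algebra.FiniteType ℂ B]
    (iB : B →ₐ[ℂ] A) (hinj : Function.Injective iB) :
    ∃ f : A, f ≠ 0 ∧ ∀ ev : A →ₐ[ℂ] ℂ, ev f ≠ 0 → ∀ d : A →ₗ[ℂ] ℂ,
      (∀ a b, d (a * b) = ev a * d b + ev b * d a) → ∀ ψB : B →ₐ[ℂ] PowerSeries ℂ,
      (∀ b, constantCoeff (ψB b) = ev (iB b)) → (∀ b, coeff 1 (ψB b) = d (iB b)) →
      ∃ ψ : A →ₐ[ℂ] PowerSeries ℂ, (∀ a, constantCoeff (ψ a) = ev a ∧ coeff 1 (ψ a) = d a) ∧
        ∀ b, ψ (iB b) = ψB b := by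
  have hdomB : IsDomain B := hinj.isDomain iB.toRingHom
  let _ : Algebra B A := iB.toRingHom.toAlgebra
  have : IsScalarTower ℂ B A := IsScalarTower.of_algebraMap_eq fun x => (iB.commutes x).symm
  obtain ⟨f, hf, hsm⟩ := generic_smooth B A hinj
  refine ⟨f, hf, ?_⟩
  intro ev hev d hd ψB h0 h1
  let Af := Localization.Away f
  have hunit : ∀ s : Submonoid.powers f, IsUnit (ev s) := by
    rintro ⟨_, k, rfl⟩
    simpa using (isUnit_iff_ne_zero.mpr hev).pow k
  let ev' : Af →ₐ[ℂ] ℂ := IsLocalization.liftAlgHom (M := Submonoid.powers f) (f := ev) hunit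
  have hev' : ∀ a, ev' (algebraMap A Af a) = ev a := fun a => by
    simp [ev']
  have hfs : Algebra.FormallySmooth A Af :=
    Algebra.FormallySmooth.of_isLocalization (Submonoid.powers f)
  obtain ⟨d', hd', hdd'⟩ := exists_derivation (B := A) (A := Af) ev' d (fun a b => by
    rw [hev', hev', hd])
  obtain ⟨ψ, h2, h3, h4⟩ := exists_lift (B := B) (A := Af) ψB ev' (fun b => by
      rw [h0, IsScalarTower.algebraMap_apply B A Af, hev']
      rfl) d' hd' (fun b => by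
      rw [h1, IsScalarTower.algebraMap_apply B A Af, hdd']
      rfl)
  refine ⟨ψ.comp (IsScalarTower.toAlgHom ℂ A Af), fun a => ⟨?_, ?_⟩, fun b => ?_⟩
  · change constantCoeff (ψ (algebraMap A Af a)) = ev a
    rw [h3, hev']
  · change coeff 1 (ψ (algebraMap A Af a)) = d a
    rw [h4, hdd']
  · exact h2 b

/-- LIFT (389's form): the curve is constant along `B` -/
theorem exists_lift_sub {A B : Type*} [CommRing A] [IsDomain A] [Algebra ℂ A]
    [Algebra.FiniteType ℂ A] [CommRing B] [Algebra ℂ B] [Algebra.FiniteType ℂ B]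
    (iB : B →ₐ[ℂ] A) (hinj : Function.Injective iB) :
    ∃ f : A, f ≠ 0 ∧ ∀ ev : A →ₐ[ℂ] ℂ, ev f ≠ 0 → ∀ d : A →ₗ[ℂ] ℂ,
      (∀ a b, d (a * b) = ev a * d b + ev b * d a) → (∀ b, d (iB b) = 0) →
      ∃ ψ : A →ₐ[ℂ] PowerSeries ℂ, (∀ a, constantCoeff (ψ a) = ev a ∧ coeff 1 (ψ a) = d a) ∧
        ∀ b, ψ (iB b) = C (ev (iB b)) := by
  obtain ⟨f, hf, h⟩ := exists_lift_gen iB hinj
  refine ⟨f, hf, ?_⟩
  intro ev hev d hd hdB
  let ψB : B →ₐ[ℂ] PowerSeries ℂ := (Algebra.ofId ℂ (PowerSeries ℂ)).comp (ev.comp iB)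
  have hψB : ∀ b, ψB b = C (ev (iB b)) := fun b => rfl
  obtain ⟨ψ, h1, h2⟩ := h ev hev d hd ψB (fun b => by rw [hψB]; simp) (fun b => by
    rw [hψB, hdB]
    simp)
  exact ⟨ψ, h1, fun b => by rw [h2, hψB]⟩


end Crest.Agent.R102.F5
end

-- ▼ part R102/Rat1E_389

/-!
Row 102, [H3], theorem (RAT), RAT-1, part E: the field side.
-/

set_option linter.unusedSectionVars false
set_option autoImplicit false

open Set

noncomputable section

namespace Crest.Agent.R102.Rat1389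

open Crest.Agent.R102.RAT Crest.Agent.R102.DF389

variable {M : Type} [Field M] [Algebra ℂ M] {D₁ D₂ : Derivation ℂ M M} {N : ℕ} {b : ℕ → M}
  {x : ℕ → ℕ → M} {E k : ℕ → M}

theorem charZeroM (M : Type) [Field M] [Algebra ℂ M] : CharZero M :=
  charZero_of_injective_algebraMap (algebraMap ℂ M).injective

/-- closure of a field along the chain -/
theorem chain_field (h : FChain D₁ D₂ N b x E k) (F : IntermediateField ℂ M)
    (D : Derivation ℂ M M) (hD : ∀ j < N, ∀ r, D (x j r) = x j (r + 1) * D (b j))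
    (hE0 : E 0 ∈ F) (hk0 : k 0 ∈ F) (hDE : D (E 0) ∈ F) (hDk : D (k 0) ∈ F)
    (hb : ∀ i < N, b i ∈ F) (hx : ∀ i < N, ∀ r, x i r ∈ F) :
    (∀ i ≤ N, E i ∈ F ∧ k i ∈ F ∧ D (E i) ∈ F ∧ D (k i) ∈ F) ∧ ∀ i < N, D (b i) ∈ F := by
  have h2 : (2 : M) ∈ F := by
    have : (2 : M) = 1 + 1 := by norm_num
    rw [this]; exact F.add_mem F.one_mem F.one_mem
  have hDb : ∀ i < N, E i ∈ F → D (E i) ∈ F → D (k i) ∈ F → D (b i) ∈ F := by
    intro i hi e1 e2 e3
    have h1 := congrArg D (h.inc i hi)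
    rw [hD i hi, map_add, Derivation.leibniz, Derivation.leibniz_pow] at h1
    simp only [smul_eq_mul, nsmul_eq_mul, Nat.add_one_sub_one, pow_one] at h1
    push_cast at h1
    have h3 : x i 1 - E i ^ 2 ≠ 0 := sub_ne_zero.2 (h.tr i hi)
    have h4 : D (b i) = (b i * (2 * (E i * D (E i))) + D (k i)) * (x i 1 - E i ^ 2)⁻¹ := by
      rw [eq_mul_inv_iff_mul_eq₀ h3]
      linear_combination h1
    rw [h4]
    exact F.mul_mem (F.add_mem (F.mul_mem (hb i hi) (F.mul_mem h2 (F.mul_mem e1 e2))) e3)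
      (F.inv_mem (F.sub_mem (hx i hi 1) (pow_mem e1 2)))
  have key : ∀ i ≤ N, E i ∈ F ∧ k i ∈ F ∧ D (E i) ∈ F ∧ D (k i) ∈ F := by
    intro i
    induction i with
    | zero => intro _; exact ⟨hE0, hk0, hDE, hDk⟩
    | succ i ih =>
      intro hi
      have hi' : i < N := hi
      obtain ⟨e1, e2, e3, e4⟩ := ih hi'.le
      have hdb := hDb i hi' e1 e3 e4
      have hEi := h.E_ne i hi'.le
      have f1 : E (i + 1) = x i 1 * (E i)⁻¹ := by
        rw [eq_mul_inv_iff_mul_eq₀ hEi, mul_comm]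
        exact h.refl i hi'
      have f1' : E (i + 1) ∈ F := by
        rw [f1]; exact F.mul_mem (hx i hi' 1) (F.inv_mem e1)
      have f2 : k (i + 1) = x i 0 - E (i + 1) ^ 2 * b i := by
        rw [h.inc' i hi']; ring
      have f2' : k (i + 1) ∈ F := by
        rw [f2]; exact F.sub_mem (hx i hi' 0) (F.mul_mem (pow_mem f1' 2) (hb i hi'))
      have f3 : D (E (i + 1)) = (x i 2 * D (b i) - E (i + 1) * D (E i)) * (E i)⁻¹ := by
        rw [eq_mul_inv_iff_mul_eq₀ hEi]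
        have h5 := congrArg D (h.refl i hi')
        rw [Derivation.leibniz, hD i hi'] at h5
        simp only [smul_eq_mul] at h5
        linear_combination h5
      have f3' : D (E (i + 1)) ∈ F := by
        rw [f3]
        exact F.mul_mem (F.sub_mem (F.mul_mem (hx i hi' 2) hdb) (F.mul_mem f1' e3))
          (F.inv_mem e1)
      refine ⟨f1', f2', f3', ?_⟩
      rw [f2, map_sub, Derivation.leibniz, Derivation.leibniz_pow, hD i hi']
      simp only [smul_eq_mul, nsmul_eq_mul, Nat.add_one_sub_one, pow_one]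
      push_cast
      exact F.sub_mem (F.mul_mem (hx i hi' 1) hdb) (F.add_mem (F.mul_mem (pow_mem f1' 2) hdb)
        (F.mul_mem (hb i hi') (F.mul_mem h2 (F.mul_mem f1' f3'))))
  exact ⟨key, fun i hi => hDb i hi (key i hi.le).1 (key i hi.le).2.2.1 (key i hi.le).2.2.2⟩

theorem D₁E0 (h : FChain D₁ D₂ N b x E k) : D₁ (E 0) = (2 * E 0)⁻¹ := by
  have := charZeroM M
  have h0 := h.E_ne 0 (Nat.zero_le _)
  have h1 := h.D₁E
  rw [Derivation.leibniz_pow] at h1
  simp only [smul_eq_mul, nsmul_eq_mul, Nat.add_one_sub_one, pow_one] at h1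
  push_cast at h1
  have h2 : 2 * E 0 ≠ 0 := mul_ne_zero two_ne_zero h0
  exact eq_inv_of_mul_eq_one_left (by linear_combination h1)

theorem D₂E0 (h : FChain D₁ D₂ N b x E k) : D₂ (E 0) = 0 := by
  have := charZeroM M
  have h0 := h.E_ne 0 (Nat.zero_le _)
  have h1 := h.D₂E
  rw [Derivation.leibniz_pow] at h1
  simp only [smul_eq_mul, nsmul_eq_mul, Nat.add_one_sub_one, pow_one] at h1
  push_cast at h1
  have h2 : 2 * E 0 ≠ 0 := mul_ne_zero two_ne_zero h0
  have h3 : (2 * E 0) * D₂ (E 0) = 0 := by linear_combination h1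
  exact (mul_eq_zero.1 h3).resolve_left h2

section model

variable {A0 : Type} [CommRing A0] [Algebra ℂ A0] (d0 : Derivation ℂ A0 A0) (z0 g0 : A0)
  (s : ℕ → A0 →ₐ[ℂ] M)

/-- the field of a finite model -/
def FF (N : ℕ) (E k : ℕ → M) (s : ℕ → A0 →ₐ[ℂ] M) (sA : Finset A0) : IntermediateField ℂ M :=
  IntermediateField.adjoin ℂ ({E 0, k 0} ∪ {y | ∃ i < N, ∃ a ∈ sA, y = s i a})

theorem s_mem_FF (sA : Finset A0) (hsA : Algebra.adjoin ℂ (sA : Set A0) = ⊤) {i : ℕ} (hi : i < N)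
    (a : A0) : s i a ∈ FF N E k s sA := by
  have ha : a ∈ Algebra.adjoin ℂ (sA : Set A0) := by rw [hsA]; exact Algebra.mem_top
  induction ha using Algebra.adjoin_induction with
  | mem x hx => exact IntermediateField.subset_adjoin _ _ (Or.inr ⟨i, hi, x, hx, rfl⟩)
  | algebraMap r => rw [AlgHom.commutes]; exact (FF N E k s sA).algebraMap_mem r
  | add x y _ _ hx hy => rw [map_add]; exact add_mem hx hy
  | mul x y _ _ hx hy => rw [map_mul]; exact mul_mem hx hy

theorem KK_le_FF (h : FChain D₁ D₂ N b x E k) (hsz : ∀ i < N, s i z0 = b i)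
    (hsx : ∀ i < N, ∀ r, s i (d0^[r] g0) = x i r)
    (hs1 : ∀ i < N, ∀ f, D₁ (s i f) = s i (d0 f) * D₁ (b i))
    (hs2 : ∀ i < N, ∀ f, D₂ (s i f) = s i (d0 f) * D₂ (b i))
    (sA : Finset A0) (hsA : Algebra.adjoin ℂ (sA : Set A0) = ⊤) :
    KK D₁ D₂ N E k ≤ FF N E k s sA := by
  have hc := charZeroM M
  set F := FF N E k s sA with hF
  have hE0 : E 0 ∈ F := IntermediateField.subset_adjoin _ _ (Or.inl (Or.inl rfl))
  have hk0 : k 0 ∈ F := IntermediateField.subset_adjoin _ _ (Or.inl (Or.inr rfl))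
  have hb : ∀ i < N, b i ∈ F := fun i hi => by
    rw [← hsz i hi]; exact s_mem_FF s sA hsA hi _
  have hx : ∀ i < N, ∀ r, x i r ∈ F := fun i hi r => by
    rw [← hsx i hi]; exact s_mem_FF s sA hsA hi _
  have h2 : (2 : M) ∈ F := by
    have : (2 : M) = 1 + 1 := by norm_num
    rw [this]; exact F.add_mem F.one_mem F.one_mem
  have c1 := chain_field h F D₁ h.jet₁ hE0 hk0
    (by rw [D₁E0 h]; exact F.inv_mem (F.mul_mem h2 hE0)) (by rw [h.D₁k]; exact F.zero_mem) hb hx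
  have c2 := chain_field h F D₂ h.jet₂ hE0 hk0
    (by rw [D₂E0 h]; exact F.zero_mem) (by rw [h.D₂k]; exact F.one_mem) hb hx
  have st : ∀ D : Derivation ℂ M M, D (E 0) ∈ F → D (k 0) ∈ F → (∀ i < N, D (b i) ∈ F) →
      (∀ i < N, ∀ f, D (s i f) = s i (d0 f) * D (b i)) → ∀ y ∈ F, D y ∈ F := by
    intro D h1 h2 h3 h4 y hy
    refine der_adjoin D _ F (IntermediateField.subset_adjoin _ _) ?_ hy
    rintro y ((rfl | rfl) | ⟨i, hi, a, ha, rfl⟩)
    · exact h1
    · exact h2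
    · rw [h4 i hi]
      exact F.mul_mem (s_mem_FF s sA hsA hi _) (h3 i hi)
  refine dfield_le _ _ _ ?_ ?_
  · rintro y (rfl | rfl | rfl | rfl)
    · exact hE0
    · exact hk0
    · exact (c1.1 N le_rfl).1
    · exact (c1.1 N le_rfl).2.1
  · intro i y hy
    fin_cases i
    · exact st D₁ (c1.1 0 (Nat.zero_le _)).2.2.1 (c1.1 0 (Nat.zero_le _)).2.2.2 c1.2 hs1 y hy
    · exact st D₂ (c2.1 0 (Nat.zero_le _)).2.2.1 (c2.1 0 (Nat.zero_le _)).2.2.2 c2.2 hs2 y hy

/-- **the finitely generated differential subring of `K`** -/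
theorem exists_B (h : FChain D₁ D₂ N b x E k) (hsz : ∀ i < N, s i z0 = b i)
    (hsx : ∀ i < N, ∀ r, s i (d0^[r] g0) = x i r)
    (hs1 : ∀ i < N, ∀ f, D₁ (s i f) = s i (d0 f) * D₁ (b i))
    (hs2 : ∀ i < N, ∀ f, D₂ (s i f) = s i (d0 f) * D₂ (b i))
    (sA : Finset A0) (hsA : Algebra.adjoin ℂ (sA : Set A0) = ⊤) :
    ∃ B : Subalgebra ℂ M, B.FG ∧ E 0 ∈ B ∧ k 0 ∈ B ∧ E N ∈ B ∧ k N ∈ B ∧
      (∀ y ∈ B, y ∈ KK D₁ D₂ N E k) ∧ (∀ y ∈ B, D₁ y ∈ B) ∧ ∀ y ∈ B, D₂ y ∈ B := by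
  classical
  have hc := charZeroM M
  let s' : Finset M := {E 0, k 0} ∪ (Finset.range N).biUnion fun i => sA.image (s i)
  have hs' : IntermediateField.adjoin ℂ (s' : Set M) = FF N E k s sA := by
    rw [FF]
    congr 1
    ext y
    simp only [s', Finset.coe_union, Finset.coe_insert, Finset.coe_singleton, mem_union,
      Finset.coe_biUnion, Finset.coe_range, Finset.coe_image, mem_iUnion, mem_image,
      mem_ofPred_eq, Finset.mem_coe, exists_prop, mem_Iio]
    constructor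
    · rintro (h | ⟨i, hi, a, ha, rfl⟩)
      · exact Or.inl h
      · exact Or.inr ⟨i, hi, a, ha, rfl⟩
    · rintro (h | ⟨i, hi, a, ha, rfl⟩)
      · exact Or.inl h
      · exact Or.inr ⟨i, hi, a, ha, rfl⟩
  have hle := KK_le_FF d0 z0 g0 s h hsz hsx hs1 hs2 sA hsA
  obtain ⟨B, hB1, hB2, hB3, hB4⟩ := exists_algebra' ![D₁, D₂] (KK D₁ D₂ N E k)
    (fun i y hy => dfield_stable _ _ i y hy) s' (fun y hy => by
      have hy' : y ∈ IntermediateField.adjoin ℂ (s' : Set M) := by rw [hs']; exact hle hy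
      exact isAlgebraic_algebraMap
        (⟨y, hy'⟩ : IntermediateField.adjoin ℂ (s' : Set M))) {E 0, k 0, E N, k N} (by
      simp only [Finset.coe_insert, Finset.coe_singleton]
      exact subset_dfield _ _)
  refine ⟨B, hB1, hB2 (by simp), hB2 (by simp), hB2 (by simp), hB2 (by simp), hB3,
    fun y hy => hB4 0 y hy, fun y hy => hB4 1 y hy⟩

end model

/-- a derivation over `K` with value `1` at a transcendental element -/
theorem exists_Delta (K : IntermediateField ℂ M) (y : M) (hy : ¬ IsAlgebraic K y) :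
    ∃ Δ : Derivation ℂ M M, (∀ a ∈ K, Δ a = 0) ∧ Δ y = 1 := by
  have hc := charZeroM M
  have hcK : CharZero K := charZero_of_injective_algebraMap (algebraMap ℂ K).injective
  obtain ⟨D, hD⟩ := DerX575.leafDER K M y hy
  refine ⟨D.restrictScalars ℂ, fun a ha => ?_, hD⟩
  exact D.map_algebraMap (⟨a, ha⟩ : K)

/-- elements of `L` are quotients of polynomials in the generators -/
theorem LL_div {y : M} (hy : y ∈ LL N b x E k) :
    ∃ P ∈ Algebra.adjoin ℂ (({E 0, k 0} : Set M) ∪ {y | ∃ j < N, y = b j ∨ ∃ r, y = x j r}),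
    ∃ Q ∈ Algebra.adjoin ℂ (({E 0, k 0} : Set M) ∪ {y | ∃ j < N, y = b j ∨ ∃ r, y = x j r}),
      Q ≠ 0 ∧ Q * y = P := by
  obtain ⟨P, hP, Q, hQ, hQ0, rfl⟩ := mem_adjoin_div hy
  exact ⟨P, hP, Q, hQ, hQ0, by field_simp⟩

end Crest.Agent.R102.Rat1389
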