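import Crest.Agent.R102.Rat1F_389
import Crest.Agent.R102.RatGlueB_798

-- ▼ part R102/Rat1G_389
section

/-!
Row 102, [H3], theorem (RAT), RAT-1, part G: holomorphic models of finitely generated algebras of
meromorphic functions, chain rules.
-/

set_option linter.unusedSectionVars false
set_option autoImplicit false

open Set Filter Topology Metric TopologicalSpace

noncomputable section

namespace Crest.Agent.R102.Rat1389

open PowerSeries Crest.Agent.R102.H3 Crest.Agent.R102.Glue798 Crest.Agent.R102.CT575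
  Crest.Agent.R102.RAT

/-- chain rule for the derivation `dM` -/
theorem dM_compH {W : Opens (ℂ × ℂ)} (μ κ : Hol W) {V : Opens ℂ} (b : Hol W)
    (hb : ∀ p : W, (b : W → ℂ) p ∈ V) (f : Hol V) :
    dM (pdH W (1, 0)) (pdH W (0, 1)) μ κ (compH b hb f) =
      compH b hb (DH V f) * dM (pdH W (1, 0)) (pdH W (0, 1)) μ κ b := by
  rw [dM_apply, dM_apply, pdH_compH, pdH_compH]
  ring

theorem dK_compH {W : Opens (ℂ × ℂ)} (μ κ : Hol W) {V : Opens ℂ} (b : Hol W)
    (hb : ∀ p : W, (b : W → ℂ) p ∈ V) (f : Hol V) :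
    dK (pdH W (1, 0)) (pdH W (0, 1)) μ κ (compH b hb f) =
      compH b hb (DH V f) * dK (pdH W (1, 0)) (pdH W (0, 1)) μ κ b := by
  rw [dK_apply, dK_apply, pdH_compH, pdH_compH]
  ring

set_option maxHeartbeats 4000000 in
/-- **holomorphic models** -/
theorem exists_model {U : Opens (ℂ × ℂ)} (hU : IsPreconnected (U : Set (ℂ × ℂ)))
    (hne : (U : Set (ℂ × ℂ)).Nonempty) [IsDomain (Hol U)] {μ κ : Hol U}
    {D₁ D₂ : Derivation ℂ (FractionRing (Hol U)) (FractionRing (Hol U))}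
    (h : Rat7217.Dual μ κ D₁ D₂) (S : Set (FractionRing (Hol U))) (hS : S.Finite) :
    ∃ (W : Opens (ℂ × ℂ)) (hle : W ≤ U) (_ : IsDomain (Hol W)), (W : Set (ℂ × ℂ)).Nonempty ∧
      IsPreconnected (W : Set (ℂ × ℂ)) ∧
      ∃ (δ : Fin 2 → Derivation ℂ (Hol W) (Hol W))
        (φ : FractionRing (Hol U) →ₐ[ℂ] FractionRing (Hol W)),
        (∀ f : Hol U, φ (algebraMap _ _ f) = algebraMap _ _ (Hol.res hle f)) ∧
        (∀ t ∈ S, ∃ h : Hol W, φ t = algebraMap _ _ h) ∧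
        (∀ a x t, φ x = algebraMap _ _ t → φ ((![D₁, D₂] : Fin 2 → _) a x) =
          algebraMap _ _ (δ a t)) ∧
        (∀ (p : W) t, (∀ l, evH p (word δ l t) = 0) → t = 0) ∧
        ∀ (V : Opens ℂ) (b : Hol W) (hb : ∀ p : W, (b : W → ℂ) p ∈ V) (a : Fin 2) (f : Hol V),
          δ a (compH b hb f) = compH b hb (DH V f) * δ a b := by
  classical
  set J : Hol U := Rat7217.jcb μ κ with hJ
  obtain ⟨W, hle, hdom, -, hWne, hWp, ρ1, hρ1, hreg⟩ := Alg985.exists_W1 hU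
    (insert (algebraMap (Hol U) (FractionRing (Hol U)) J)⁻¹ S) (hS.insert _) U hne le_rfl
  have hneW : Nonempty W := hWne.to_subtype
  have hJres : Rat7217.jcb (Hol.res hle μ) (Hol.res hle κ) = Hol.res hle J := jcb_res hle μ κ
  obtain ⟨i, hi⟩ := hreg _ (mem_insert _ _)
  have hinjW := IsFractionRing.injective (Hol W) (FractionRing (Hol W))
  have hu0 : Hol.res hle J * i = 1 := by
    refine hinjW ?_
    rw [map_mul, map_one, ← hρ1, ← hi, ← map_mul, mul_inv_cancel₀ h.ne, map_one]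
  have hu : IsUnit (Hol.res hle J) := IsUnit.of_mul_eq_one _ hu0
  have huJ : IsUnit (Glue798.jcb (pdH W (1, 0)) (pdH W (0, 1)) (Hol.res hle μ)
      (Hol.res hle κ)) := by
    rw [← jcb217, hJres]; exact hu
  have hJne : algebraMap (Hol W) (FractionRing (Hol W))
      (Rat7217.jcb (Hol.res hle μ) (Hol.res hle κ)) ≠ 0 := by
    rw [hJres]
    exact (hu.map _).ne_zero
  have h' := dual_of_ne (M := FractionRing (Hol W)) hJne
  obtain ⟨φ, hφ, hφ1, hφ2⟩ := transferU hle hU h h'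
  have hφρ : φ = ρ1 := by
    have h1 : (φ : FractionRing (Hol U) →+* FractionRing (Hol W)) = ρ1 := by
      refine IsLocalization.ringHom_ext (nonZeroDivisors (Hol U)) ?_
      refine RingHom.ext fun f => ?_
      exact (hφ f).trans (hρ1 f).symm
    exact AlgHom.coe_ringHom_injective h1
  let δ : Fin 2 → Derivation ℂ (Hol W) (Hol W) :=
    ![dM (pdH W (1, 0)) (pdH W (0, 1)) (Hol.res hle μ) (Hol.res hle κ),
      dK (pdH W (1, 0)) (pdH W (0, 1)) (Hol.res hle μ) (Hol.res hle κ)]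
  refine ⟨W, hle, hdom, hWne, hWp, δ, φ, hφ, fun t ht => ?_, ?_, ?_, ?_⟩
  · rw [hφρ]
    exact hreg t (mem_insert_of_mem _ ht)
  · intro a x t ht
    have hP : ∀ f : Hol W, (IsScalarTower.toAlgHom ℂ (Hol W) (FractionRing (Hol W)))
        (pdH W (1, 0) f) = Pc W (FractionRing (Hol W))
          ((IsScalarTower.toAlgHom ℂ (Hol W) (FractionRing (Hol W))) f) := fun f =>
      (Pc_map f).symm
    have hQ : ∀ f : Hol W, (IsScalarTower.toAlgHom ℂ (Hol W) (FractionRing (Hol W)))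
        (pdH W (0, 1) f) = Pw W (FractionRing (Hol W))
          ((IsScalarTower.toAlgHom ℂ (Hol W) (FractionRing (Hol W))) f) := fun f =>
      (Pw_map f).symm
    fin_cases a
    · change φ (D₁ x) = algebraMap _ _ (dM _ _ _ _ t)
      rw [← hφ1, ht]
      exact (map_dM (IsScalarTower.toAlgHom ℂ (Hol W) (FractionRing (Hol W))) hP hQ huJ t).symm
    · change φ (D₂ x) = algebraMap _ _ (dK _ _ _ _ t)
      rw [← hφ2, ht]
      exact (map_dK (IsScalarTower.toAlgHom ℂ (Hol W) (FractionRing (Hol W))) hP hQ huJ t).symm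
  · intro p t ht
    refine HolXY289.eq_zero_of_words' δ hWp
      ![pdH W (1, 0) (Hol.res hle μ), pdH W (1, 0) (Hol.res hle κ)]
      ![pdH W (0, 1) (Hol.res hle μ), pdH W (0, 1) (Hol.res hle κ)] (fun f => ?_) (fun f => ?_)
      t p ht
    · rw [Fin.sum_univ_two]
      exact span_P huJ f
    · rw [Fin.sum_univ_two]
      exact span_Q huJ f
  · intro V b hb a f
    fin_cases a
    · exact dM_compH _ _ b hb f
    · exact dK_compH _ _ b hb f

set_option maxHeartbeats 4000000 in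
/-- chain rule in the field of meromorphic functions -/
theorem dual_compH {U : Opens (ℂ × ℂ)} [IsDomain (Hol U)] {μ κ : Hol U}
    {D₁ D₂ : Derivation ℂ (FractionRing (Hol U)) (FractionRing (Hol U))}
    (h : Rat7217.Dual μ κ D₁ D₂) {V : Opens ℂ} (b : Hol U) (hb : ∀ p : U, (b : U → ℂ) p ∈ V)
    (f : Hol V) :
    D₁ (algebraMap _ _ (compH b hb f)) = algebraMap _ _ (compH b hb (DH V f)) *
        D₁ (algebraMap _ _ b) ∧
      D₂ (algebraMap _ _ (compH b hb f)) = algebraMap _ _ (compH b hb (DH V f)) *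
        D₂ (algebraMap _ _ b) := by
  constructor
  · refine mul_left_cancel₀ h.ne ?_
    rw [h.d₁, mul_left_comm, h.d₁, ← map_mul]
    congr 1
    rw [jcb217, jcb217, Glue798.jcb, Glue798.jcb, pdH_compH, pdH_compH]
    ring
  · refine mul_left_cancel₀ h.ne ?_
    rw [h.d₂, mul_left_comm, h.d₂, ← map_mul]
    congr 1
    rw [jcb217, jcb217, Glue798.jcb, Glue798.jcb, pdH_compH, pdH_compH]
    ring

end Crest.Agent.R102.Rat1389
end
end

-- ▼ part R102/Rat1H_389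
section

/-!
Row 102, [H3], theorem (RAT), RAT-1 = R4: deformed mirrors, comparison of outer chains.
-/

set_option linter.unusedSectionVars false
set_option autoImplicit false

open Set Filter Topology Metric TopologicalSpace

noncomputable section

namespace Crest.Agent.R102.Rat1389

open PowerSeries Crest.Agent.R102.H3 Crest.Agent.R102.Glue798 Crest.Agent.R102.CT575
  Crest.Agent.R102.RAT

section deform

variable {c₁ : ℂ} {r : ℝ} {A0 : Type} [CommRing A0] [Algebra ℂ A0]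

/-- the deformed mirrors -/
theorem exists_F [Algebra.FiniteType ℂ A0] (δ : Derivation ℂ A0 A0)
    (ρ : A0 →ₐ[ℂ] Hol (bO c₁ r)) (hρ : ∀ a, ρ (δ a) = DH (bO c₁ r) (ρ a)) (z0 : A0)
    (hδz : δ z0 = 1) (hρz : ρ z0 = zH (bO c₁ r)) (χ : A0 →ₐ[ℂ] ℂ⟦X⟧) (p0 : bO c₁ r)
    (hχ : ∀ a, constantCoeff (χ a) = evH p0 (ρ a)) :
    ∃ (F : A0 →ₐ[ℂ] (Hol (bO c₁ r))⟦X⟧) (w : ℂ⟦X⟧) (hw : X ∣ w),
      (∀ a, F (δ a) = cD (DH (bO c₁ r)) (F a)) ∧ F z0 = C (zH (bO c₁ r)) ∧
      (∀ a, constantCoeff (F a) = ρ a) ∧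
      ∀ a, χ a = pt (cD (DH (bO c₁ r))) (PowerSeries.map (evH p0 : Hol (bO c₁ r) →+* ℂ)) w hw
        (F a) := by
  obtain ⟨Φ, h1, h2, h3⟩ := exists_Phi_H p0 hρ hχ
  obtain ⟨F, w, hw, f1, f2, f3, f4⟩ := normalise (DH (bO c₁ r)) (DH_zH _) (evH p0)
    δ z0 hδz ρ hρz Φ h1 h2
  exact ⟨F, w, hw, f1, f2, f3, fun a => (h3 a).symm.trans (f4 a)⟩

/-- the trivial deformation -/
theorem exists_F0 (δ : Derivation ℂ A0 A0)
    (ρ : A0 →ₐ[ℂ] Hol (bO c₁ r)) (hρ : ∀ a, ρ (δ a) = DH (bO c₁ r) (ρ a)) (z0 : A0)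
    (hρz : ρ z0 = zH (bO c₁ r)) :
    ∃ (F : A0 →ₐ[ℂ] (Hol (bO c₁ r))⟦X⟧),
      (∀ a, F (δ a) = cD (DH (bO c₁ r)) (F a)) ∧ F z0 = C (zH (bO c₁ r)) ∧
      (∀ a, constantCoeff (F a) = ρ a) := by
  have h0 : ∀ f : Hol (bO c₁ r),
      (IsScalarTower.toAlgHom ℂ (Hol (bO c₁ r)) (Hol (bO c₁ r))⟦X⟧) f = C f := fun f => rfl
  refine ⟨(IsScalarTower.toAlgHom ℂ (Hol (bO c₁ r)) (Hol (bO c₁ r))⟦X⟧).comp ρ,
    fun a => ?_, ?_, fun a => ?_⟩
  · rw [AlgHom.comp_apply, AlgHom.comp_apply, h0, h0, cD_C, hρ]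
  · rw [AlgHom.comp_apply, h0, hρz]
  · rw [AlgHom.comp_apply, h0, constantCoeff_C]

end deform

section compare

variable {K H T M1 M : Type*} [Field K] [CharZero K] [CommRing H] [Algebra K H] [CommRing T]
  [CommRing M1] [CommRing M]

/-- comparison of the outer chains over `T` and `M` in `M1` -/
theorem compare (d : Derivation K H H) {z : H} (hz : d z = 1) (N : ℕ) (G : ℕ → H⟦X⟧)
    (φT : ℕ → H →+* T) (φM : ℕ → H →+* M) (a : T →+* M1) (φ : M →+* M1)
    (hc : ∀ i < N, φ.comp (φM i) = a.comp (φT i))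
    (yT mT kT : ℕ → T⟦X⟧) (hyT : ∀ i, X ∣ yT i)
    (hT : Chain (cD d) (C z) G N (fun i => pt (cD d) (PowerSeries.map (φT i)) (yT i) (hyT i))
      mT kT)
    (yM mM kM : ℕ → M⟦X⟧) (hyM : ∀ i, X ∣ yM i)
    (hM : Chain (cD d) (C z) G N (fun i => pt (cD d) (PowerSeries.map (φM i)) (yM i) (hyM i))
      mM kM)
    (h0 : PowerSeries.map a (mT 0) = PowerSeries.map φ (mM 0))
    (h0' : PowerSeries.map a (kT 0) = PowerSeries.map φ (kM 0))
    (hum : ∀ i < N, IsUnit (mT i))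
    (hut : ∀ i < N, IsUnit (constantCoeff (PowerSeries.map (φT i) (cD d (G i)) - mT i))) :
    ∀ i ≤ N, PowerSeries.map a (mT i) = PowerSeries.map φ (mM i) ∧
      PowerSeries.map a (kT i) = PowerSeries.map φ (kM i) := by
  have hzz : cD d (C z) = (1 : H⟦X⟧) := by rw [cD_C, hz, map_one]
  have hXa : (X : M1⟦X⟧) ∣ PowerSeries.map a X := by rw [map_X]
  have hXφ : (X : M1⟦X⟧) ∣ PowerSeries.map φ X := by rw [map_X]
  have hyTa : ∀ i, X ∣ PowerSeries.map a (yT i) := fun i => hXa.trans (map_dvd _ (hyT i))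
  have hyMφ : ∀ i, X ∣ PowerSeries.map φ (yM i) := fun i => hXφ.trans (map_dvd _ (hyM i))
  have e1 : ∀ i < N, (PowerSeries.map a).comp
      (pt (cD d) (PowerSeries.map (φT i)) (yT i) (hyT i)) =
      pt (cD d) (PowerSeries.map (a.comp (φT i))) (PowerSeries.map a (yT i)) (hyTa i) := by
    intro i _
    rw [comp_pt (cD d) (PowerSeries.map a) hXa]
    exact pt_congr (cD d) _ _ (by rw [← PowerSeries.map_comp]) rfl
  have e2 : ∀ i < N, (PowerSeries.map φ).comp
      (pt (cD d) (PowerSeries.map (φM i)) (yM i) (hyM i)) =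
      pt (cD d) (PowerSeries.map (a.comp (φT i))) (PowerSeries.map φ (yM i)) (hyMφ i) := by
    intro i hi
    rw [comp_pt (cD d) (PowerSeries.map φ) hXφ]
    exact pt_congr (cD d) _ _ (by rw [← hc i hi, ← PowerSeries.map_comp]) rfl
  have c1 := (hT.map (PowerSeries.map a)).congr e1
  have c2 := (hM.map (PowerSeries.map φ)).congr e2
  exact (outer_chain_unique (cD d) hzz N G (fun i => PowerSeries.map (a.comp (φT i)))
    (fun i => PowerSeries.map a (yT i)) (fun i => PowerSeries.map φ (yM i))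
    (fun i => PowerSeries.map a (mT i)) (fun i => PowerSeries.map φ (mM i))
    (fun i => PowerSeries.map a (kT i)) (fun i => PowerSeries.map φ (kM i)) hyTa hyMφ c1 c2 h0 h0'
    (fun i hi => (hum i hi).map _) (fun i hi => by
      have h1 := (hut i hi).map a
      rw [← constantCoeff_map, map_sub, ← RingHom.comp_apply, ← PowerSeries.map_comp] at h1
      exact h1)).2

end compare

section finite

variable {M : Type} [Field M] [Algebra ℂ M]

/-- a derivation maps `ℂ[S]` into `ℂ[S ∪ Δ S]` -/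
theorem der_adjoin_mem (Δ : Derivation ℂ M M) (S : Set M) {y : M}
    (hy : y ∈ Algebra.adjoin ℂ S) : Δ y ∈ Algebra.adjoin ℂ (S ∪ Δ '' S) := by
  have h1 : Algebra.adjoin ℂ S ≤ Algebra.adjoin ℂ (S ∪ Δ '' S) :=
    Algebra.adjoin_mono subset_union_left
  induction hy using Algebra.adjoin_induction with
  | mem x hx => exact Algebra.subset_adjoin (Or.inr ⟨x, hx, rfl⟩)
  | algebraMap r => rw [Derivation.map_algebraMap]; exact zero_mem _
  | add x y _ _ hx hy => rw [map_add]; exact add_mem hx hy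
  | mul x y hx' hy' hx hy =>
    rw [Derivation.leibniz, smul_eq_mul, smul_eq_mul]
    exact add_mem (mul_mem (h1 hx') hy) (mul_mem (h1 hy') hx)

/-- generators of a subalgebra seen in a bigger one -/
theorem mem_adjoin_sub (A : Subalgebra ℂ M) (s : Set A) {y : M}
    (hy : y ∈ Algebra.adjoin ℂ ((fun a : A => (a : M)) '' s)) :
    ∃ a ∈ Algebra.adjoin ℂ s, (a : M) = y := by
  have h1 : Algebra.adjoin ℂ ((fun a : A => (a : M)) '' s) = (Algebra.adjoin ℂ s).map A.val :=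
    (AlgHom.map_adjoin A.val s).symm
  rw [h1] at hy
  obtain ⟨a, ha, rfl⟩ := hy
  exact ⟨a, ha, rfl⟩

end finite

end Crest.Agent.R102.Rat1389
end
end

-- ▼ part R102/Rat1J_389

/-!
Row 102, [H3], theorem (RAT), RAT-1 = R4: choice of the deformation.
-/

set_option linter.unusedSectionVars false
set_option autoImplicit false

open Set Filter Topology Metric TopologicalSpace

noncomputable section

namespace Crest.Agent.R102.Rat1389

open PowerSeries Crest.Agent.R102.H3 Crest.Agent.R102.Glue798 Crest.Agent.R102.CT575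
  Crest.Agent.R102.RAT

/-- **choice of the deformation** -/
theorem exists_psi {M M1 R1 Pt : Type} [Field M] [Algebra ℂ M] [Field M1] [Algebra ℂ M1]
    [CommRing R1] [Algebra ℂ R1] [Algebra R1 M1] [IsScalarTower ℂ R1 M1]
    (hinj : Function.Injective (algebraMap R1 M1)) (φ : M →ₐ[ℂ] M1) (S : Finset M)
    (B : Subalgebra ℂ M) (hBfg : B.FG) (hBS : B ≤ Algebra.adjoin ℂ (S : Set M))
    (Δ : Derivation ℂ M M) (hΔB : ∀ b ∈ B, Δ b = 0)
    (hreg : ∀ t ∈ (S : Set M) ∪ Δ '' (S : Set M), ∃ h : R1, φ t = algebraMap _ _ h)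
    (y : M) (hy : y ∈ Algebra.adjoin ℂ (S : Set M)) (hΔy : Δ y = 1)
    (Q : M) (hQ : Q ∈ Algebra.adjoin ℂ (S : Set M)) (hQ0 : Q ≠ 0)
    (ev : Pt → R1 →ₐ[ℂ] ℂ) (hev : ∀ t : R1, t ≠ 0 → ∃ p, ev p t ≠ 0) :
    ∃ (p : Pt) (inc : Algebra.adjoin ℂ (S : Set M) →ₐ[ℂ] R1)
      (ψ : Algebra.adjoin ℂ (S : Set M) →ₐ[ℂ] ℂ⟦X⟧),
      Function.Injective inc ∧ (∀ a, algebraMap R1 M1 (inc a) = φ a) ∧
      (∀ a, constantCoeff (ψ a) = ev p (inc a)) ∧
      (∀ b (hb : b ∈ B), ψ ⟨b, hBS hb⟩ = C (ev p (inc ⟨b, hBS hb⟩))) ∧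
      coeff 1 (ψ ⟨y, hy⟩) = 1 ∧ constantCoeff (ψ ⟨Q, hQ⟩) ≠ 0 := by
  classical
  set A1 := Algebra.adjoin ℂ (S : Set M) with hA1
  set A2 := Algebra.adjoin ℂ ((S : Set M) ∪ Δ '' (S : Set M)) with hA2
  have hA12 : A1 ≤ A2 := Algebra.adjoin_mono subset_union_left
  have hΔA : ∀ a : A1, Δ a ∈ A2 := fun a => der_adjoin_mem Δ _ a.2
  obtain ⟨inc2, hinc2inj, hinc2⟩ := Alg985.exists_sigma' hinj φ A2
    (Alg985.reg_adjoin _ φ hreg)
  let inc : A1 →ₐ[ℂ] R1 := inc2.comp (Subalgebra.inclusion hA12)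
  have hinc : ∀ a : A1, inc a = inc2 ⟨a, hA12 a.2⟩ := fun a => rfl
  have hincinj : Function.Injective inc := hinc2inj.comp (Subalgebra.inclusion_injective hA12)
  have hA1ft : Algebra.FiniteType ℂ A1 := A1.fg_iff_finiteType.1 ⟨S, rfl⟩
  have hBft : Algebra.FiniteType ℂ B := B.fg_iff_finiteType.1 hBfg
  obtain ⟨f, hf0, hlift⟩ := F5.exists_lift_sub (Subalgebra.inclusion hBS)
    (Subalgebra.inclusion_injective hBS)
  set QA : A1 := ⟨Q, hQ⟩ with hQA
  have hQA0 : QA ≠ 0 := fun h => hQ0 (congrArg Subtype.val h)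
  have hfQ : inc (f * QA) ≠ 0 := by
    intro h
    exact mul_ne_zero hf0 hQA0 (hincinj (h.trans (map_zero inc).symm))
  obtain ⟨p, hp⟩ := hev _ hfQ
  rw [map_mul, map_mul] at hp
  have hpf : ((ev p).comp inc) f ≠ 0 := left_ne_zero_of_mul hp
  have hpQ : ev p (inc QA) ≠ 0 := right_ne_zero_of_mul hp
  let d : A1 →ₗ[ℂ] ℂ :=
    { toFun := fun a => ev p (inc2 ⟨Δ a, hΔA a⟩)
      map_add' := fun a b => by
        rw [← map_add, ← map_add]
        congr 2
        exact Subtype.ext (map_add Δ _ _)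
      map_smul' := fun c a => by
        rw [RingHom.id_apply, ← map_smul, ← map_smul]
        congr 2
        exact Subtype.ext (Δ.map_smul c _) }
  have hd : ∀ a, d a = ev p (inc2 ⟨Δ a, hΔA a⟩) := fun a => rfl
  have hTV : ∀ a b, d (a * b) = ((ev p).comp inc) a * d b + ((ev p).comp inc) b * d a := by
    intro a b
    have hevinc : ∀ a : A1, ((ev p).comp inc) a = ev p (inc2 ⟨a, hA12 a.2⟩) := fun a => rfl
    rw [hd, hd, hd, hevinc, hevinc, ← map_mul, ← map_mul,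
      ← map_mul, ← map_mul, ← map_add, ← map_add]
    congr 2
    exact Subtype.ext (Δ.leibniz _ _)
  have hdB : ∀ b : B, d (Subalgebra.inclusion hBS b) = 0 := by
    intro b
    rw [hd]
    have h1 : (⟨Δ (Subalgebra.inclusion hBS b : A1), hΔA _⟩ : A2) = 0 :=
      Subtype.ext (hΔB b b.2)
    rw [h1, map_zero, map_zero]
  obtain ⟨ψ, hψ1, hψB⟩ := hlift ((ev p).comp inc) hpf d hTV hdB
  refine ⟨p, inc, ψ, hincinj, fun a => hinc2 _, fun a => (hψ1 a).1, fun b hb => hψB ⟨b, hb⟩, ?_, ?_⟩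
  · rw [(hψ1 _).2, hd]
    have h1 : (⟨Δ (⟨y, hy⟩ : A1), hΔA _⟩ : A2) = 1 := Subtype.ext hΔy
    rw [h1, map_one, map_one]
  · rw [(hψ1 _).1]
    exact hpQ

end Crest.Agent.R102.Rat1389
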