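import Mathlib
import Crest.Agent.R102.RATDefs_926
import Crest.Agent.R102.L1g_201
import Crest.Agent.R102.Form_575
import Crest.Agent.R102.Free_781

-- ▼ part R102/RatT_201
section

/-!
# Row 102, [H3], RAT toolkit 1 (helper201): the two-variable Taylor morphism, displacements

`M` a field of characteristic `0` with two commuting derivations `D₁ D₂`;
`TT : M →ₐ M⟦x₀, x₁⟧`, `f ↦ ∑ D₁^i D₂^j f / (i! j!) x₀^i x₁^j`; `cM δ` the coefficientwise
derivation; `sg z : M⟦X⟧ →ₐ M⟦x₀, x₁⟧` the substitution `X ↦ z`.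
-/

set_option autoImplicit false

open MvPowerSeries Finset

noncomputable section

namespace Crest.Agent.R102.RatT

variable {k M : Type*} [Field k] [Field M] [Algebra k M]

local notation "RR" => MvPowerSeries (Fin 2) M

/-! ## Coefficientwise derivations -/

/-- the coefficientwise derivation. -/
def cM (δ : Derivation k M M) : Derivation k RR RR :=
  Derivation.mk'
    { toFun := fun F n => δ (MvPowerSeries.coeff n F)
      map_add' := fun F G => by
        ext n
        show δ (MvPowerSeries.coeff n (F + G)) = δ (MvPowerSeries.coeff n F) +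
          δ (MvPowerSeries.coeff n G)
        rw [map_add, map_add]
      map_smul' := fun c F => by
        ext n
        show δ (MvPowerSeries.coeff n (c • F)) = c • δ (MvPowerSeries.coeff n F)
        rw [← δ.map_smul]
        rfl }
    (fun F G => by
      classical
      ext n
      show δ (MvPowerSeries.coeff n (F * G)) = MvPowerSeries.coeff n (F • (_ : RR) + G • (_ : RR))
      rw [map_add, smul_eq_mul, smul_eq_mul, mul_comm G, MvPowerSeries.coeff_mul,
        MvPowerSeries.coeff_mul, MvPowerSeries.coeff_mul, map_sum, ← Finset.sum_add_distrib]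
      refine Finset.sum_congr rfl fun p _ => ?_
      rw [Derivation.leibniz, smul_eq_mul, smul_eq_mul]
      show _ = MvPowerSeries.coeff p.1 F * δ (MvPowerSeries.coeff p.2 G) +
        δ (MvPowerSeries.coeff p.1 F) * MvPowerSeries.coeff p.2 G
      ring)

theorem coeff_cM (δ : Derivation k M M) (F : RR) (n : Fin 2 →₀ ℕ) :
    MvPowerSeries.coeff n (cM δ F) = δ (MvPowerSeries.coeff n F) := rfl

theorem constantCoeff_cM (δ : Derivation k M M) (F : RR) :
    MvPowerSeries.constantCoeff (cM δ F) = δ (MvPowerSeries.constantCoeff F) := rfl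

theorem cM_mul (δ : Derivation k M M) (F G : RR) : cM δ (F * G) = F * cM δ G + G * cM δ F := by
  rw [Derivation.leibniz, smul_eq_mul, smul_eq_mul]

theorem cM_C (δ : Derivation k M M) (c : M) :
    cM δ (MvPowerSeries.C c : RR) = MvPowerSeries.C (δ c) := by
  classical
  ext n
  rw [coeff_cM, MvPowerSeries.coeff_C, MvPowerSeries.coeff_C]
  split_ifs <;> simp

theorem pd_cM (δ : Derivation k M M) (i : Fin 2) (F : RR) :
    pderiv M i (cM δ F) = cM δ (pderiv M i F) := by
  ext n
  rw [coeff_pderiv, coeff_cM, coeff_cM, coeff_pderiv, Derivation.leibniz]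
  have h : δ ((n i : M) + 1) = 0 := by
    have := δ.map_natCast (n i + 1)
    push_cast at this
    exact this
  rw [h, smul_zero, zero_add, smul_eq_mul, mul_comm]

/-! ## Uniqueness principle -/

/-- a family of series, closed under partial derivatives up to multiplication. -/
theorem fam_zero [CharZero M] {ι : Type*} (R : ι → RR)
    (h0 : ∀ a, MvPowerSeries.constantCoeff (R a) = 0)
    (h : ∀ d : ℕ, (∀ b, ∀ n : Fin 2 →₀ ℕ, n.degree ≤ d → MvPowerSeries.coeff n (R b) = 0) →
      ∀ a i, ∀ n : Fin 2 →₀ ℕ, n.degree ≤ d → MvPowerSeries.coeff n (pderiv M i (R a)) = 0) (a : ι) :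
    R a = 0 := by
  have key : ∀ d : ℕ, ∀ b, ∀ n : Fin 2 →₀ ℕ, n.degree ≤ d → MvPowerSeries.coeff n (R b) = 0 := by
    intro d
    induction d with
    | zero =>
      intro b n hn
      have : n = 0 := by
        rw [← Finsupp.degree_eq_zero_iff]
        omega
      rw [this, MvPowerSeries.coeff_zero_eq_constantCoeff]
      exact h0 b
    | succ d ih =>
      intro b n hn
      by_cases hn0 : n = 0
      · rw [hn0, MvPowerSeries.coeff_zero_eq_constantCoeff]
        exact h0 b
      obtain ⟨i, hi⟩ := Finsupp.ne_iff.mp hn0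
      have hi' : n i ≠ 0 := hi
      have hle : Finsupp.single i 1 ≤ n := by
        rw [Finsupp.single_le_iff]
        omega
      have hdeg : (n - Finsupp.single i 1).degree + 1 = n.degree := by
        have := congrArg Finsupp.degree (tsub_add_cancel_of_le hle)
        rw [map_add, Finsupp.degree_single] at this
        exact this
      have h1 := h d ih b i (n - Finsupp.single i 1) (by omega)
      rw [coeff_pderiv, tsub_add_cancel_of_le hle] at h1
      rcases mul_eq_zero.mp h1 with h2 | h2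
      · exact h2
      · exact absurd h2 (Nat.cast_add_one_ne_zero _)
  ext n
  rw [key n.degree a n le_rfl, map_zero]

/-- if all partial derivatives vanish then the series is constant. -/
theorem eq_C_of_pd [CharZero M] {F : RR} (h : ∀ i, pderiv M i F = 0) :
    F = MvPowerSeries.C (MvPowerSeries.constantCoeff F) := by
  have : IsAddTorsionFree M := inferInstance
  apply pderiv.ext
  · intro i
    rw [h i, pderiv_C]
  · rw [MvPowerSeries.constantCoeff_C]

theorem coeff_mul_zero {F G : RR} {d : ℕ}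
    (hF : ∀ n : Fin 2 →₀ ℕ, n.degree ≤ d → MvPowerSeries.coeff n F = 0) (n : Fin 2 →₀ ℕ)
    (hn : n.degree ≤ d) : MvPowerSeries.coeff n (F * G) = 0 := by
  classical
  rw [MvPowerSeries.coeff_mul]
  refine Finset.sum_eq_zero fun p hp => ?_
  have h1 : p.1.degree ≤ d := by
    have := congrArg Finsupp.degree (Finset.HasAntidiagonal.mem_antidiagonal.mp hp)
    rw [map_add] at this
    omega
  rw [hF _ h1, zero_mul]

/-- uniqueness for `∂ᵢ F = δᵢ F`. -/
theorem ext_pde [CharZero M] {D : Fin 2 → Derivation k M M} {F G : RR}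
    (hF : ∀ i, pderiv M i F = cM (D i) F) (hG : ∀ i, pderiv M i G = cM (D i) G)
    (h0 : MvPowerSeries.constantCoeff F = MvPowerSeries.constantCoeff G) : F = G := by
  rw [← sub_eq_zero]
  refine fam_zero (ι := Unit) (fun _ => F - G) (fun _ => by rw [map_sub, h0, sub_self])
    (fun d hd a i n hn => ?_) ()
  rw [map_sub, hF, hG, ← map_sub, coeff_cM, hd () n hn, map_zero]

/-! ## The Taylor morphism -/

section Taylor

variable (D₁ D₂ : Derivation k M M)

/-- the raw Taylor series. -/
def tt (f : M) : RR := fun n =>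
  (D₁^[n 0] (D₂^[n 1] f)) / (((n 0).factorial : M) * ((n 1).factorial : M))

theorem coeff_tt (f : M) (n : Fin 2 →₀ ℕ) : MvPowerSeries.coeff n (tt D₁ D₂ f) =
    (D₁^[n 0] (D₂^[n 1] f)) / (((n 0).factorial : M) * ((n 1).factorial : M)) := rfl



theorem D_div_nat (D : Derivation k M M) (f : M) (a b : ℕ) :
    D (f / ((a : M) * (b : M))) = D f / ((a : M) * (b : M)) := by
  rw [div_eq_mul_inv, Derivation.leibniz, Derivation.leibniz_inv, Derivation.leibniz,
    D.map_natCast, D.map_natCast]
  simp only [smul_eq_mul, mul_zero, add_zero]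
  rw [div_eq_mul_inv]
  ring

variable {D₁ D₂}

theorem constantCoeff_tt (f : M) : MvPowerSeries.constantCoeff (tt D₁ D₂ f) = f := by
  rw [← MvPowerSeries.coeff_zero_eq_constantCoeff_apply, coeff_tt]
  simp

theorem pd0_tt [CharZero M] (h : ∀ f, D₁ (D₂ f) = D₂ (D₁ f)) (f : M) :
    pderiv M 0 (tt D₁ D₂ f) = tt D₁ D₂ (D₁ f) := by
  ext n
  rw [coeff_pderiv, coeff_tt, coeff_tt]
  have e0 : (n + Finsupp.single (0 : Fin 2) 1 : Fin 2 →₀ ℕ) 0 = n 0 + 1 := by simp
  have e1 : (n + Finsupp.single (0 : Fin 2) 1 : Fin 2 →₀ ℕ) 1 = n 1 := by simp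
  rw [e0, e1]
  have hc : D₂^[n 1] (D₁ f) = D₁ (D₂^[n 1] f) := by
    have : Function.Commute (D₂ : M → M) (D₁ : M → M) := fun f => (h f).symm
    exact this.iterate_left (n 1) f
  rw [hc, ← Function.iterate_succ_apply D₁, Nat.factorial_succ]
  have h1 : ((n 0 : M) + 1) ≠ 0 := Nat.cast_add_one_ne_zero _
  have h2 : ((n 0).factorial : M) ≠ 0 := by exact_mod_cast Nat.factorial_ne_zero _
  have h3 : ((n 1).factorial : M) ≠ 0 := by exact_mod_cast Nat.factorial_ne_zero _
  push_cast
  field_simp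

theorem pd1_tt [CharZero M] (f : M) :
    pderiv M 1 (tt D₁ D₂ f) = tt D₁ D₂ (D₂ f) := by
  ext n
  rw [coeff_pderiv, coeff_tt, coeff_tt]
  have e0 : (n + Finsupp.single (1 : Fin 2) 1 : Fin 2 →₀ ℕ) 0 = n 0 := by simp
  have e1 : (n + Finsupp.single (1 : Fin 2) 1 : Fin 2 →₀ ℕ) 1 = n 1 + 1 := by simp
  rw [e0, e1, ← Function.iterate_succ_apply D₂, Nat.factorial_succ]
  have h1 : ((n 1 : M) + 1) ≠ 0 := Nat.cast_add_one_ne_zero _
  have h2 : ((n 0).factorial : M) ≠ 0 := by exact_mod_cast Nat.factorial_ne_zero _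
  have h3 : ((n 1).factorial : M) ≠ 0 := by exact_mod_cast Nat.factorial_ne_zero _
  push_cast
  field_simp

theorem cM0_tt [CharZero M] (h : ∀ f, D₁ (D₂ f) = D₂ (D₁ f)) (f : M) :
    cM D₁ (tt D₁ D₂ f) = tt D₁ D₂ (D₁ f) := by
  ext n
  rw [coeff_cM, coeff_tt, coeff_tt, D_div_nat]
  have hc : D₂^[n 1] (D₁ f) = D₁ (D₂^[n 1] f) := by
    have : Function.Commute (D₂ : M → M) (D₁ : M → M) := fun f => (h f).symm
    exact this.iterate_left (n 1) f
  rw [hc, ← Function.iterate_succ_apply D₁, ← Function.iterate_succ_apply' D₁]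

theorem cM1_tt [CharZero M] (h : ∀ f, D₁ (D₂ f) = D₂ (D₁ f)) (f : M) :
    cM D₂ (tt D₁ D₂ f) = tt D₁ D₂ (D₂ f) := by
  ext n
  rw [coeff_cM, coeff_tt, coeff_tt, D_div_nat]
  have hc : D₂ (D₁^[n 0] (D₂^[n 1] f)) = D₁^[n 0] (D₂ (D₂^[n 1] f)) := by
    have : Function.Commute (D₁ : M → M) (D₂ : M → M) := fun f => h f
    exact (this.iterate_left (n 0) _).symm
  rw [hc, ← Function.iterate_succ_apply' D₂, ← Function.iterate_succ_apply D₂]

variable (D₁ D₂)

/-- the two derivations as a family. -/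
def DD : Fin 2 → Derivation k M M := ![D₁, D₂]

/-- **the two-variable Taylor morphism**. -/
def TT [CharZero M] (h : ∀ f, D₁ (D₂ f) = D₂ (D₁ f)) : M →ₐ[k] RR :=
  have hpd : ∀ i f, pderiv M i (tt D₁ D₂ f) = tt D₁ D₂ (DD D₁ D₂ i f) := by
    intro i f
    fin_cases i
    · exact pd0_tt h f
    · exact pd1_tt f
  have hcM : ∀ i f, cM (DD D₁ D₂ i) (tt D₁ D₂ f) = tt D₁ D₂ (DD D₁ D₂ i f) := by
    intro i f
    fin_cases i
    · exact cM0_tt h f
    · exact cM1_tt h f
  have hode : ∀ i f, pderiv M i (tt D₁ D₂ f) = cM (DD D₁ D₂ i) (tt D₁ D₂ f) := fun i f => by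
    rw [hpd, hcM]
  have hC : ∀ c : k, tt D₁ D₂ (algebraMap k M c) = algebraMap k RR c := by
    intro c
    refine ext_pde (D := DD D₁ D₂) (fun i => hode i _) (fun i => ?_) ?_
    · have e : algebraMap k RR c = MvPowerSeries.C (algebraMap k M c) := by
        rw [MvPowerSeries.algebraMap_apply]
      rw [e, pderiv_C, cM_C, Derivation.map_algebraMap, map_zero]
    · have e : algebraMap k RR c = MvPowerSeries.C (algebraMap k M c) := by
        rw [MvPowerSeries.algebraMap_apply]
      rw [constantCoeff_tt, e, MvPowerSeries.constantCoeff_C]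
  { toFun := tt D₁ D₂
    map_one' := by
      have := hC 1
      rwa [map_one, map_one] at this
    map_zero' := by
      have := hC 0
      rwa [map_zero, map_zero] at this
    map_add' := fun f g => by
      refine ext_pde (D := DD D₁ D₂) (fun i => hode i _) (fun i => ?_) ?_
      · rw [map_add, map_add, hode, hode]
      · rw [constantCoeff_tt, map_add, constantCoeff_tt, constantCoeff_tt]
    map_mul' := fun f g => by
      refine ext_pde (D := DD D₁ D₂) (fun i => hode i _) (fun i => ?_) ?_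
      · rw [Derivation.leibniz, Derivation.leibniz, hode, hode]
      · rw [constantCoeff_tt, map_mul, constantCoeff_tt, constantCoeff_tt]
    commutes' := hC }

variable {D₁ D₂}

variable [CharZero M] (h : ∀ f, D₁ (D₂ f) = D₂ (D₁ f))

theorem constantCoeff_TT (f : M) : MvPowerSeries.constantCoeff (TT D₁ D₂ h f) = f :=
  constantCoeff_tt f

theorem pd0_TT (f : M) : pderiv M 0 (TT D₁ D₂ h f) = TT D₁ D₂ h (D₁ f) := pd0_tt h f

theorem pd1_TT (f : M) : pderiv M 1 (TT D₁ D₂ h f) = TT D₁ D₂ h (D₂ f) := pd1_tt f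

theorem pd_TT (i : Fin 2) (f : M) :
    pderiv M i (TT D₁ D₂ h f) = TT D₁ D₂ h (DD D₁ D₂ i f) := by
  fin_cases i
  · exact pd0_tt h f
  · exact pd1_tt f



/-- the coefficientwise variation of the Taylor series. -/
def del (δ : Derivation k M M) (f : M) : RR := cM δ (TT D₁ D₂ h f)

theorem del_def (δ : Derivation k M M) (f : M) : del h δ f = cM δ (TT D₁ D₂ h f) := rfl

theorem constantCoeff_del (δ : Derivation k M M) (f : M) :
    MvPowerSeries.constantCoeff (del h δ f) = δ f := by
  rw [del, constantCoeff_cM, constantCoeff_TT]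

theorem del_add (δ : Derivation k M M) (f g : M) : del h δ (f + g) = del h δ f + del h δ g := by
  rw [del, map_add, map_add]; rfl

theorem del_sub (δ : Derivation k M M) (f g : M) : del h δ (f - g) = del h δ f - del h δ g := by
  rw [del, map_sub, map_sub]; rfl

theorem del_mul (δ : Derivation k M M) (f g : M) :
    del h δ (f * g) = TT D₁ D₂ h f * del h δ g + TT D₁ D₂ h g * del h δ f := by
  rw [del, map_mul, cM_mul]; rfl

theorem del_zero (δ : Derivation k M M) : del h δ 0 = 0 := by
  rw [del, map_zero, map_zero]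

theorem pd_del (δ : Derivation k M M) (i : Fin 2) (f : M) :
    pderiv M i (del h δ f) = del h δ (DD D₁ D₂ i f) := by
  rw [del, pd_cM, pd_TT, del]

/-- if `δ` kills a subset closed under `D₁, D₂`, then so does `del`. -/
theorem del_eq_zero {δ : Derivation k M M} {S : Set M} (hS1 : ∀ f ∈ S, D₁ f ∈ S)
    (hS2 : ∀ f ∈ S, D₂ f ∈ S) (hδ : ∀ f ∈ S, δ f = 0) {f : M} (hf : f ∈ S) : del h δ f = 0 := by
  refine fam_zero (ι := S) (fun f => del h δ f) (fun f => ?_) (fun d hd f i n hn => ?_) ⟨f, hf⟩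
  · rw [constantCoeff_del]; exact hδ f f.2
  · rw [pd_del]
    fin_cases i
    · exact hd ⟨D₁ f, hS1 f f.2⟩ n hn
    · exact hd ⟨D₂ f, hS2 f f.2⟩ n hn

end Taylor

/-! ## Substitution of a series without constant term -/

section Subst

theorem hasSubst {z : RR} (hz : MvPowerSeries.constantCoeff z = 0) : PowerSeries.HasSubst z :=
  PowerSeries.HasSubst.of_constantCoeff_zero hz

/-- the substitution `X ↦ z`. -/
def sg (z : RR) (hz : MvPowerSeries.constantCoeff z = 0) : PowerSeries M →ₐ[M] RR :=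
  PowerSeries.substAlgHom (hasSubst hz)

theorem sg_X {z : RR} (hz : MvPowerSeries.constantCoeff z = 0) : sg z hz PowerSeries.X = z :=
  PowerSeries.substAlgHom_X _

theorem sg_C {z : RR} (hz : MvPowerSeries.constantCoeff z = 0) (c : M) :
    sg z hz (PowerSeries.C c) = MvPowerSeries.C c := by
  have := (sg z hz).commutes c
  exact this

theorem constantCoeff_sg {z : RR} (hz : MvPowerSeries.constantCoeff z = 0) (n : PowerSeries M) :
    MvPowerSeries.constantCoeff (sg z hz n) = PowerSeries.constantCoeff n := by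
  obtain ⟨m, hm⟩ : ∃ m, n = PowerSeries.C (PowerSeries.constantCoeff n) + PowerSeries.X * m := by
    have : (PowerSeries.X : PowerSeries M) ∣ n - PowerSeries.C (PowerSeries.constantCoeff n) := by
      rw [PowerSeries.X_dvd_iff, map_sub, PowerSeries.constantCoeff_C, sub_self]
    obtain ⟨m, hm⟩ := this
    exact ⟨m, by rw [← hm]; ring⟩
  conv_lhs => rw [hm]
  rw [map_add, map_add, map_mul, map_mul, sg_X, hz, zero_mul, sg_C,
    MvPowerSeries.constantCoeff_C, add_zero]

theorem coeff_pow_mul {z : RR} (hz : MvPowerSeries.constantCoeff z = 0) (p : ℕ) (G : RR)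
    {n : Fin 2 →₀ ℕ} (hn : n.degree < p) : MvPowerSeries.coeff n (z ^ p * G) = 0 := by
  apply MvPowerSeries.coeff_of_lt_order
  refine lt_of_lt_of_le ?_ (le_trans (MvPowerSeries.le_order_pow_of_constantCoeff_eq_zero p hz)
    (le_trans ?_ (MvPowerSeries.le_order_mul)))
  · exact_mod_cast hn
  · exact le_add_of_nonneg_right bot_le

theorem pd_sg {z : RR} (hz : MvPowerSeries.constantCoeff z = 0) (i : Fin 2) (n : PowerSeries M) :
    pderiv M i (sg z hz n) = sg z hz (PowerSeries.derivative M n) * pderiv M i z := by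
  -- polynomials
  have hpol : ∀ P : Polynomial M, pderiv M i (sg z hz (P : PowerSeries M)) =
      sg z hz (PowerSeries.derivative M (P : PowerSeries M)) * pderiv M i z := by
    intro P
    have e : ∀ Q : Polynomial M, sg z hz (Q : PowerSeries M) = Polynomial.aeval z Q := by
      intro Q
      exact PowerSeries.substAlgHom_coe (hasSubst hz) Q
    rw [PowerSeries.derivative_coe, e, e, Derivation.map_aeval, smul_eq_mul]
  ext d
  obtain ⟨p, hp⟩ : ∃ p : ℕ, p = d.degree + 2 := ⟨_, rfl⟩
  obtain ⟨m, hm⟩ : ∃ m, n = (PowerSeries.trunc p n : PowerSeries M) + PowerSeries.X ^ p * m := by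
    have : (PowerSeries.X : PowerSeries M) ^ p ∣ n - (PowerSeries.trunc p n : PowerSeries M) := by
      rw [PowerSeries.X_pow_dvd_iff]
      intro j hj
      rw [map_sub, Polynomial.coeff_coe, PowerSeries.coeff_trunc, if_pos hj, sub_self]
    obtain ⟨m, hm⟩ := this
    exact ⟨m, by rw [← hm]; ring⟩
  have h1 : MvPowerSeries.coeff d (pderiv M i (sg z hz (PowerSeries.X ^ p * m))) = 0 := by
    rw [coeff_pderiv, map_mul, map_pow, sg_X, coeff_pow_mul hz p, zero_mul]
    rw [map_add, Finsupp.degree_single]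
    omega
  have h2 : MvPowerSeries.coeff d
      (sg z hz (PowerSeries.derivative M (PowerSeries.X ^ p * m)) * pderiv M i z) = 0 := by
    obtain ⟨q, hq⟩ : ∃ q, PowerSeries.derivative M (PowerSeries.X ^ p * m) =
        PowerSeries.X ^ (d.degree + 1) * q := by
      rw [Derivation.leibniz, Derivation.leibniz_pow, smul_eq_mul, smul_eq_mul, smul_eq_mul,
        nsmul_eq_mul]
      refine ⟨PowerSeries.X * PowerSeries.derivative M m + m * ((p : PowerSeries M) *
        PowerSeries.derivative M PowerSeries.X), ?_⟩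
      have e1 : p - 1 = d.degree + 1 := by omega
      rw [e1, hp]
      ring
    rw [hq, map_mul (sg z hz), map_pow (sg z hz), sg_X, mul_assoc,
      coeff_pow_mul hz _ _ (Nat.lt_succ_self _)]
  rw [hm, map_add, map_add, map_add, map_add, map_add, add_mul, map_add, h1, h2, hpol]

/-- **(FUN)** a sequence of series with `∂ᵢ R_r = R_{r+1} ∂ᵢ z` is a function of `z`. -/
theorem fun_of [CharZero M] {z : RR} (hz : MvPowerSeries.constantCoeff z = 0) (R : ℕ → RR)
    (hR : ∀ r i, pderiv M i (R r) = R (r + 1) * pderiv M i z) (r : ℕ) :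
    R r = sg z hz ((PowerSeries.derivative M)^[r]
      (PowerSeries.mk fun r => MvPowerSeries.constantCoeff (R r) / (r.factorial : M))) := by
  set ν : PowerSeries M :=
    PowerSeries.mk fun r => MvPowerSeries.constantCoeff (R r) / (r.factorial : M) with hν
  have hcoef : ∀ r n, PowerSeries.coeff n ((PowerSeries.derivative M)^[r] ν) =
      MvPowerSeries.constantCoeff (R (n + r)) / (n.factorial : M) := by
    intro r
    induction r with
    | zero => intro n; rw [Function.iterate_zero_apply, hν, PowerSeries.coeff_mk]; rfl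
    | succ r ih =>
      intro n
      rw [Function.iterate_succ_apply', PowerSeries.coeff_derivative, ih, Nat.factorial_succ]
      have h1 : ((n : M) + 1) ≠ 0 := Nat.cast_add_one_ne_zero _
      have h2 : (n.factorial : M) ≠ 0 := by exact_mod_cast Nat.factorial_ne_zero _
      have e : n + 1 + r = n + (r + 1) := by ring
      rw [e]
      push_cast
      field_simp
  rw [← sub_eq_zero]
  refine fam_zero (fun r => R r - sg z hz ((PowerSeries.derivative M)^[r] ν)) (fun r => ?_)
    (fun d hd r i n hn => ?_) r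
  · rw [map_sub, constantCoeff_sg, ← PowerSeries.coeff_zero_eq_constantCoeff_apply, hcoef]
    simp
  · rw [map_sub, hR, pd_sg, ← Function.iterate_succ_apply' (PowerSeries.derivative M), ← sub_mul]
    exact coeff_mul_zero (hd (r + 1)) n hn

/-- the coefficientwise derivation of `M⟦X⟧`. -/
def c1 (δ : Derivation k M M) (n : PowerSeries M) : PowerSeries M :=
  PowerSeries.mk fun r => δ (PowerSeries.coeff r n)

theorem coeff_c1 (δ : Derivation k M M) (n : PowerSeries M) (r : ℕ) :
    PowerSeries.coeff r (c1 δ n) = δ (PowerSeries.coeff r n) := by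
  rw [c1, PowerSeries.coeff_mk]

theorem c1_add (δ : Derivation k M M) (n m : PowerSeries M) :
    c1 δ (n + m) = c1 δ n + c1 δ m := by
  ext r; rw [coeff_c1, map_add, map_add, map_add, coeff_c1, coeff_c1]

/-- coefficientwise derivation of a function of `z`. -/
theorem cM_sg {z : RR} (hz : MvPowerSeries.constantCoeff z = 0) (δ : Derivation k M M)
    (n : PowerSeries M) : cM δ (sg z hz n) =
      sg z hz (c1 δ n) + sg z hz (PowerSeries.derivative M n) * cM δ z := by
  have e : ∀ Q : Polynomial M, sg z hz (Q : PowerSeries M) = Polynomial.aeval z Q := by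
    intro Q
    exact PowerSeries.substAlgHom_coe (hasSubst hz) Q
  -- polynomials
  have hpol : ∀ P : Polynomial M, cM δ (sg z hz (P : PowerSeries M)) =
      sg z hz (c1 δ (P : PowerSeries M)) +
        sg z hz (PowerSeries.derivative M (P : PowerSeries M)) * cM δ z := by
    intro P
    induction P using Polynomial.induction_on' with
    | add P Q hP hQ =>
      rw [Polynomial.coe_add, map_add, map_add, hP, hQ, c1_add, map_add, map_add, map_add]
      ring
    | monomial r a =>
      have h1 : ((Polynomial.monomial r a : Polynomial M) : PowerSeries M) =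
          PowerSeries.C a * PowerSeries.X ^ r := by
        ext j
        rw [Polynomial.coeff_coe, Polynomial.coeff_monomial, PowerSeries.coeff_C_mul,
          PowerSeries.coeff_X_pow]
        by_cases hj : j = r
        · rw [if_pos hj.symm, if_pos hj, mul_one]
        · rw [if_neg (fun h => hj h.symm), if_neg hj, mul_zero]
      have h2 : c1 δ (PowerSeries.C a * PowerSeries.X ^ r) =
          PowerSeries.C (δ a) * PowerSeries.X ^ r := by
        ext j
        rw [coeff_c1, PowerSeries.coeff_C_mul, PowerSeries.coeff_C_mul, PowerSeries.coeff_X_pow]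
        split_ifs
        · rw [mul_one, mul_one]
        · rw [mul_zero, mul_zero, map_zero]
      rw [h1, h2, map_mul, map_pow, sg_X, sg_C, cM_mul, cM_C, Derivation.leibniz_pow, map_mul,
        map_pow, sg_X, sg_C, Derivation.leibniz, Derivation.leibniz_pow, PowerSeries.derivative_C,
        PowerSeries.derivative_X]
      simp only [smul_eq_mul, nsmul_eq_mul, mul_one, mul_zero, add_zero, map_mul, map_pow, sg_X,
        sg_C, map_natCast]
      ring
  ext d
  obtain ⟨p, hp⟩ : ∃ p : ℕ, p = d.degree + 2 := ⟨_, rfl⟩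
  obtain ⟨m, hm⟩ : ∃ m, n = (PowerSeries.trunc p n : PowerSeries M) + PowerSeries.X ^ p * m := by
    have : (PowerSeries.X : PowerSeries M) ^ p ∣ n - (PowerSeries.trunc p n : PowerSeries M) := by
      rw [PowerSeries.X_pow_dvd_iff]
      intro j hj
      rw [map_sub, Polynomial.coeff_coe, PowerSeries.coeff_trunc, if_pos hj, sub_self]
    obtain ⟨m, hm⟩ := this
    exact ⟨m, by rw [← hm]; ring⟩
  have h1 : MvPowerSeries.coeff d (cM δ (sg z hz (PowerSeries.X ^ p * m))) = 0 := by
    rw [coeff_cM, map_mul, map_pow, sg_X, coeff_pow_mul hz p _ (by omega), map_zero]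
  have h2 : MvPowerSeries.coeff d
      (sg z hz (PowerSeries.derivative M (PowerSeries.X ^ p * m)) * cM δ z) = 0 := by
    obtain ⟨q, hq⟩ : ∃ q, PowerSeries.derivative M (PowerSeries.X ^ p * m) =
        PowerSeries.X ^ (d.degree + 1) * q := by
      rw [Derivation.leibniz, Derivation.leibniz_pow, smul_eq_mul, smul_eq_mul, smul_eq_mul,
        nsmul_eq_mul]
      refine ⟨PowerSeries.X * PowerSeries.derivative M m + m * ((p : PowerSeries M) *
        PowerSeries.derivative M PowerSeries.X), ?_⟩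
      have e1 : p - 1 = d.degree + 1 := by omega
      rw [e1, hp]
      ring
    rw [hq, map_mul (sg z hz), map_pow (sg z hz), sg_X, mul_assoc,
      coeff_pow_mul hz _ _ (Nat.lt_succ_self _)]
  have h3 : MvPowerSeries.coeff d (sg z hz (c1 δ (PowerSeries.X ^ p * m))) = 0 := by
    have : c1 δ (PowerSeries.X ^ p * m) = PowerSeries.X ^ p * c1 δ m := by
      ext j
      rw [coeff_c1, PowerSeries.coeff_X_pow_mul', PowerSeries.coeff_X_pow_mul', coeff_c1]
      split_ifs
      · rfl
      · rw [map_zero]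
    rw [this, map_mul, map_pow, sg_X, coeff_pow_mul hz p _ (by omega)]
  rw [hm, c1_add]
  simp only [map_add, add_mul]
  rw [h1, h2, h3, hpol, map_add]
  ring

end Subst

end Crest.Agent.R102.RatT
end
end

-- ▼ part R102/RatV_201
section

/-!
# Row 102, [H3], RAT toolkit 2 (helper201): the variation formula
-/

set_option autoImplicit false

open MvPowerSeries

noncomputable section

namespace Crest.Agent.R102.RatT

/-- the one-mirror identity, in a field. -/
theorem vf_field {F : Type*} [Field F] {E E' b dE dE' db pE pE' pb n0 n1 x2 : F}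
    (hE : E ≠ 0) (hE' : E' ≠ 0) (h1 : x2 * db = E * dE' + E' * dE)
    (h2 : n1 + x2 * pb = E * pE' + E' * pE) :
    (2 * E * pE * (E * E' * db - E ^ 2 * db - 2 * E * dE * b) -
        (n0 + E * E' * pb - E ^ 2 * pb - 2 * E * pE * b) * (2 * E * dE)) * (E ^ 3)⁻¹ -
      (2 * E' * pE' * (E * E' * db - E' ^ 2 * db - 2 * E' * dE' * b) -
        (n0 + E * E' * pb - E' ^ 2 * pb - 2 * E' * pE' * b) * (2 * E' * dE')) * (E' ^ 3)⁻¹ =
    2 * (db * n1 * (E⁻¹ - E'⁻¹) + n0 * (-(dE * (E ^ 2)⁻¹) + dE' * (E' ^ 2)⁻¹)) := by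
  have e : (2 * E * pE * (E * E' * db - E ^ 2 * db - 2 * E * dE * b) -
        (n0 + E * E' * pb - E ^ 2 * pb - 2 * E * pE * b) * (2 * E * dE)) * (E ^ 3)⁻¹ -
      (2 * E' * pE' * (E * E' * db - E' ^ 2 * db - 2 * E' * dE' * b) -
        (n0 + E * E' * pb - E' ^ 2 * pb - 2 * E' * pE' * b) * (2 * E' * dE')) * (E' ^ 3)⁻¹ -
    2 * (db * n1 * (E⁻¹ - E'⁻¹) + n0 * (-(dE * (E ^ 2)⁻¹) + dE' * (E' ^ 2)⁻¹)) =
    2 * (E' - E) * (E * E')⁻¹ * (-db * (n1 + x2 * pb - (E * pE' + E' * pE)) +
      pb * (x2 * db - (E * dE' + E' * dE))) := by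
    field_simp
    ring
  rw [← sub_eq_zero, e, h1, h2]
  ring

section VF

variable {k M : Type*} [Field k] [Field M] [Algebra k M] [CharZero M]

local notation "RR" => MvPowerSeries (Fin 2) M

variable {D₁ D₂ : Derivation k M M} (h : ∀ f, D₁ (D₂ f) = D₂ (D₁ f))

/-- the 1-form `(δm dk - δk dm) / E³` of the line `(E, k)`. -/
def om (δ : Derivation k M M) (E kk : M) (i : Fin 2) : RR :=
  (del h δ (E ^ 2) * TT D₁ D₂ h (DD D₁ D₂ i kk) -
    del h δ kk * TT D₁ D₂ h (DD D₁ D₂ i (E ^ 2))) * TT D₁ D₂ h ((E ^ 3)⁻¹)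

theorem pd_disp (δ : Derivation k M M) {y y' y'' b : M} (i : Fin 2)
    (hy : DD D₁ D₂ i y = y' * DD D₁ D₂ i b) (hy' : DD D₁ D₂ i y' = y'' * DD D₁ D₂ i b) :
    pderiv M i (del h δ y - TT D₁ D₂ h y' * del h δ b) =
      (del h δ y' - TT D₁ D₂ h y'' * del h δ b) * TT D₁ D₂ h (DD D₁ D₂ i b) := by
  rw [map_sub, pd_del, hy, del_mul, Derivation.leibniz, pd_TT, hy', pd_del, map_mul, smul_eq_mul,
    smul_eq_mul]
  ring

/-- **one-mirror variation formula**. -/
theorem vf_one (δ : Derivation k M M) {E E' x0 x1 x2 b kk kk' : M} (hE : E ≠ 0) (hE' : E' ≠ 0)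
    (inc : x0 = E ^ 2 * b + kk) (inc' : x0 = E' ^ 2 * b + kk') (hrefl : E * E' = x1) (i : Fin 2)
    (jet0 : DD D₁ D₂ i x0 = x1 * DD D₁ D₂ i b) (jet1 : DD D₁ D₂ i x1 = x2 * DD D₁ D₂ i b) :
    om h δ E kk i - om h δ E' kk' i =
      2 * pderiv M i ((del h δ x0 - TT D₁ D₂ h x1 * del h δ b) *
        TT D₁ D₂ h (E⁻¹ - E'⁻¹)) := by
  set Fr := FractionRing RR with hFr
  set τ : RR →+* Fr := algebraMap RR Fr with hτ
  have hinj : Function.Injective τ := IsFractionRing.injective RR Fr
  set T : M →+* Fr := τ.comp (TT D₁ D₂ h : M →+* RR) with hT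
  have hTa : ∀ a, τ (TT D₁ D₂ h a) = T a := fun a => rfl
  apply hinj
  set d : M → M := fun a => DD D₁ D₂ i a with hd
  set n0 : RR := del h δ x0 - TT D₁ D₂ h x1 * del h δ b with hn0
  set n1 : RR := del h δ x1 - TT D₁ D₂ h x2 * del h δ b with hn1
  -- expansions
  have hkk : kk = x0 - E ^ 2 * b := by rw [inc]; ring
  have hkk' : kk' = x0 - E' ^ 2 * b := by rw [inc']; ring
  have dsq : ∀ e : M, DD D₁ D₂ i (e ^ 2) = 2 * e * DD D₁ D₂ i e := by
    intro e
    rw [sq, Derivation.leibniz, smul_eq_mul]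
    ring
  have psq : ∀ e : M, del h δ (e ^ 2) = 2 * TT D₁ D₂ h e * del h δ e := by
    intro e
    rw [sq, del_mul]
    ring
  have hdk : ∀ e : M, DD D₁ D₂ i (x0 - e ^ 2 * b) =
      x1 * DD D₁ D₂ i b - e ^ 2 * DD D₁ D₂ i b - 2 * e * DD D₁ D₂ i e * b := by
    intro e
    rw [map_sub, jet0, Derivation.leibniz, dsq, smul_eq_mul, smul_eq_mul]
    ring
  have hpk : ∀ e : M, del h δ (x0 - e ^ 2 * b) =
      n0 + TT D₁ D₂ h x1 * del h δ b - TT D₁ D₂ h e ^ 2 * del h δ b -
        2 * TT D₁ D₂ h e * del h δ e * TT D₁ D₂ h b := by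
    intro e
    rw [del_sub, del_mul, psq, hn0, map_pow]
    ring
  have hpn : pderiv M i n0 = n1 * TT D₁ D₂ h (DD D₁ D₂ i b) := pd_disp h δ i jet0 jet1
  have dinv : DD D₁ D₂ i (E⁻¹ - E'⁻¹) =
      -(DD D₁ D₂ i E * (E ^ 2)⁻¹) + DD D₁ D₂ i E' * (E' ^ 2)⁻¹ := by
    rw [map_sub, Derivation.leibniz_inv, Derivation.leibniz_inv, smul_eq_mul, smul_eq_mul,
      inv_pow, inv_pow]
    ring
  have r1 : x2 * DD D₁ D₂ i b = E * DD D₁ D₂ i E' + E' * DD D₁ D₂ i E := by
    rw [← jet1, ← hrefl, Derivation.leibniz, smul_eq_mul, smul_eq_mul]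
  have r2 : n1 + TT D₁ D₂ h x2 * del h δ b =
      TT D₁ D₂ h E * del h δ E' + TT D₁ D₂ h E' * del h δ E := by
    rw [hn1, ← hrefl, del_mul]
    ring
  have key := vf_field (F := Fr) (E := T E) (E' := T E') (b := T b)
    (dE := T (DD D₁ D₂ i E)) (dE' := T (DD D₁ D₂ i E')) (db := T (DD D₁ D₂ i b))
    (pE := τ (del h δ E)) (pE' := τ (del h δ E')) (pb := τ (del h δ b)) (n0 := τ n0)
    (n1 := τ n1) (x2 := T x2)
    ((map_ne_zero T).mpr hE) ((map_ne_zero T).mpr hE')
    (by rw [← map_mul, r1, map_add, map_mul, map_mul])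
    (by
      have := congrArg τ r2
      simpa only [map_add, map_mul, hTa] using this)
  rw [om, om, hkk, hkk', dsq, dsq, psq, psq, hdk, hdk, hpk, hpk, Derivation.leibniz, hpn, pd_TT,
    dinv, ← hrefl]
  simp only [map_add, map_sub, map_mul, map_pow, smul_eq_mul, hTa, map_inv₀, map_neg, map_ofNat]
  rw [← hrefl] at hn0
  linear_combination key

end VF

end Crest.Agent.R102.RatT
end
end

-- ▼ part R102/RatL_201
section

/-!
# Row 102, [H3], RAT toolkit 3 (helper201): restriction to a leaf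
-/

set_option autoImplicit false

open MvPowerSeries

noncomputable section

namespace Crest.Agent.R102.RatT

open Crest.Agent.R102.H3 (Ty)

variable {k M : Type*} [Field k] [Field M] [Algebra k M] [CharZero M]

local notation "RR" => MvPowerSeries (Fin 2) M

/-! ## Algebra homomorphisms `M⟦x₀, x₁⟧ → M⟦X⟧` -/

omit [CharZero M] in
theorem split2 (F : RR) : ∃ F0 F1 : RR, F = MvPowerSeries.C (MvPowerSeries.constantCoeff F) +
    (MvPowerSeries.X 0 * F0 + MvPowerSeries.X 1 * F1) := by
  obtain ⟨F0, F1, h1, _, _⟩ := L1g201.exists_split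
    (f := F - MvPowerSeries.C (MvPowerSeries.constantCoeff F)) (q := 0) (by
      apply L1g201.one_le_order
      rw [map_sub, MvPowerSeries.constantCoeff_C, sub_self])
  exact ⟨F0, F1, by rw [← h1]; ring⟩

omit [CharZero M] in
theorem lam_C (lam : RR →ₐ[M] PowerSeries M) (c : M) :
    lam (MvPowerSeries.C c) = PowerSeries.C c := by
  have := lam.commutes c
  rw [MvPowerSeries.algebraMap_apply, PowerSeries.algebraMap_apply] at this
  simpa using this

omit [CharZero M] in
/-- chain rule. -/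
theorem lam_deriv (lam : RR →ₐ[M] PowerSeries M)
    (h0 : ∀ i, (PowerSeries.X : PowerSeries M) ∣ lam (MvPowerSeries.X i)) (F : RR) :
    PowerSeries.derivative M (lam F) =
      lam (pderiv M 0 F) * PowerSeries.derivative M (lam (MvPowerSeries.X 0)) +
      lam (pderiv M 1 F) * PowerSeries.derivative M (lam (MvPowerSeries.X 1)) := by
  set a0 := lam (MvPowerSeries.X 0) with ha0
  set a1 := lam (MvPowerSeries.X 1) with ha1
  have h01 : pderiv M (0 : Fin 2) (MvPowerSeries.X 1 : RR) = 0 := pderiv_X_of_ne (by decide)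
  have h10 : pderiv M (1 : Fin 2) (MvPowerSeries.X 0 : RR) = 0 := pderiv_X_of_ne (by decide)
  have key : ∀ n : ℕ, ∀ F : RR, (PowerSeries.X : PowerSeries M) ^ n ∣
      PowerSeries.derivative M (lam F) -
      (lam (pderiv M 0 F) * PowerSeries.derivative M a0 +
      lam (pderiv M 1 F) * PowerSeries.derivative M a1) := by
    intro n
    induction n with
    | zero => intro F; rw [pow_zero]; exact one_dvd _
    | succ n ih =>
      intro F
      obtain ⟨F0, F1, hF⟩ := split2 F
      have e : PowerSeries.derivative M (lam F) -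
          (lam (pderiv M 0 F) * PowerSeries.derivative M a0 +
            lam (pderiv M 1 F) * PowerSeries.derivative M a1) =
          (PowerSeries.derivative M (lam F0) -
            (lam (pderiv M 0 F0) * PowerSeries.derivative M a0 +
            lam (pderiv M 1 F0) * PowerSeries.derivative M a1)) * a0 +
          (PowerSeries.derivative M (lam F1) -
            (lam (pderiv M 0 F1) * PowerSeries.derivative M a0 +
            lam (pderiv M 1 F1) * PowerSeries.derivative M a1)) * a1 := by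
        rw [hF]
        simp only [map_add, map_mul, lam_C, Derivation.leibniz, smul_eq_mul, pderiv_C,
          pderiv_X_self, h01, h10, PowerSeries.derivative_C, ← ha0, ← ha1, map_zero, map_one]
        ring
      rw [e, pow_succ]
      exact dvd_add (mul_dvd_mul (ih F0) (h0 0)) (mul_dvd_mul (ih F1) (h0 1))
  exact H3.eq_of_forall_X_pow_dvd fun n => key n F

section Leaf

variable [CharZero k] {D₁ D₂ : Derivation k M M} (h : ∀ f, D₁ (D₂ f) = D₂ (D₁ f))

/-- **restriction of Taylor series to the orbit of a vector field** `V = α D₁ + β D₂`. -/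
theorem exists_lam {p q : M} (h1p : D₁ p = 1) (h2p : D₂ p = 0) (h1q : D₁ q = 0) (h2q : D₂ q = 1)
    (α β : M) : ∃ lam : RR →ₐ[M] PowerSeries M,
      ∀ a, lam (TT D₁ D₂ h a) = Ty (α • D₁ + β • D₂ : Derivation k M M) a := by
  set V : Derivation k M M := α • D₁ + β • D₂ with hV
  have hVa : ∀ a, V a = α * D₁ a + β * D₂ a := fun a => rfl
  set u : Fin 2 → PowerSeries M :=
    ![Ty V p - PowerSeries.C p, Ty V q - PowerSeries.C q] with hu
  have hu0 : ∀ i, PowerSeries.constantCoeff (u i) = 0 := by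
    intro i
    fin_cases i
    · show PowerSeries.constantCoeff (Ty V p - PowerSeries.C p) = 0
      rw [map_sub, H3.constantCoeff_Ty, PowerSeries.constantCoeff_C, sub_self]
    · show PowerSeries.constantCoeff (Ty V q - PowerSeries.C q) = 0
      rw [map_sub, H3.constantCoeff_Ty, PowerSeries.constantCoeff_C, sub_self]
  have hs : MvPowerSeries.HasSubst u := MvPowerSeries.hasSubst_of_constantCoeff_zero hu0
  set lam : RR →ₐ[M] PowerSeries M := MvPowerSeries.substAlgHom (R := M) (S := M) hs with hlam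
  have hX : ∀ i, lam (MvPowerSeries.X i) = u i := fun i => MvPowerSeries.substAlgHom_X hs i
  have hX' : ∀ i, (PowerSeries.X : PowerSeries M) ∣ lam (MvPowerSeries.X i) := fun i => by
    rw [hX, PowerSeries.X_dvd_iff]; exact hu0 i
  refine ⟨lam, fun a => ?_⟩
  have hc : ∀ F : RR, PowerSeries.constantCoeff (lam F) = MvPowerSeries.constantCoeff F := by
    intro F
    obtain ⟨F0, F1, hF⟩ := split2 F
    conv_lhs => rw [hF]
    simp only [map_add, map_mul, lam_C, hX, hu0, PowerSeries.constantCoeff_C, zero_mul, add_zero]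
  have hd0 : PowerSeries.derivative M (lam (MvPowerSeries.X 0)) = Ty V α := by
    rw [hX]
    show PowerSeries.derivative M (Ty V p - PowerSeries.C p) = _
    rw [map_sub, PowerSeries.derivative_C, sub_zero, H3.derivative_Ty, hVa, h1p, h2p]
    congr 1; ring
  have hd1 : PowerSeries.derivative M (lam (MvPowerSeries.X 1)) = Ty V β := by
    rw [hX]
    show PowerSeries.derivative M (Ty V q - PowerSeries.C q) = _
    rw [map_sub, PowerSeries.derivative_C, sub_zero, H3.derivative_Ty, hVa, h1q, h2q]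
    congr 1; ring
  have key : ∀ n : ℕ, ∀ a, (PowerSeries.X : PowerSeries M) ^ n ∣ lam (TT D₁ D₂ h a) - Ty V a := by
    intro n
    induction n with
    | zero => intro a; rw [pow_zero]; exact one_dvd _
    | succ n ih =>
      intro a
      have e : PowerSeries.derivative M (lam (TT D₁ D₂ h a) - Ty V a) =
          (lam (TT D₁ D₂ h (D₁ a)) - Ty V (D₁ a)) * Ty V α +
          (lam (TT D₁ D₂ h (D₂ a)) - Ty V (D₂ a)) * Ty V β := by
        rw [map_sub, lam_deriv lam hX', pd0_TT, pd1_TT, hd0, hd1, H3.derivative_Ty, hVa, map_add,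
          map_mul, map_mul]
        ring
      have hdvd : (PowerSeries.X : PowerSeries M) ^ n ∣
          PowerSeries.derivative M (lam (TT D₁ D₂ h a) - Ty V a) := by
        rw [e]
        exact dvd_add ((ih _).mul_right _) ((ih _).mul_right _)
      rw [PowerSeries.X_pow_dvd_iff] at hdvd ⊢
      intro m hm
      rcases Nat.eq_zero_or_pos m with rfl | hm0
      · rw [PowerSeries.coeff_zero_eq_constantCoeff_apply, map_sub, hc, constantCoeff_TT,
          H3.constantCoeff_Ty, sub_self]
      · obtain ⟨m', rfl⟩ : ∃ m', m = m' + 1 := ⟨m - 1, by omega⟩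
        have := hdvd m' (by omega)
        rw [PowerSeries.coeff_derivative] at this
        exact (mul_eq_zero.mp this).resolve_right (Nat.cast_add_one_ne_zero _)
  exact H3.eq_of_forall_X_pow_dvd fun n => key n a

omit [CharZero M] in
/-- constants of the vector field. -/
theorem Ty_const (V : Derivation k M M) {a : M} (ha : V a = 0) : Ty V a = PowerSeries.C a := by
  have : PowerSeries.C a = Ty V (PowerSeries.constantCoeff (PowerSeries.C a)) := by
    apply H3.eq_Ty
    rw [H3.cD_C, ha, map_zero]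
    ext n
    simp
  rw [this, PowerSeries.constantCoeff_C]

/-- **independence of the weights on a leaf.** -/
theorem weights (V : Derivation k M M) {E x1 : M} (hE : E ≠ 0) (hx : x1 ≠ 0) (hxE : x1 ≠ E ^ 2)
    (hVE : V E ≠ 0) (hVx : V x1 = 0) :
    LinearIndependent M fun i : Fin 3 => Ty V ((![E⁻¹, E, E / (x1 - E ^ 2)] : Fin 3 → M) i) := by
  have hxE' : x1 - E ^ 2 ≠ 0 := sub_ne_zero.mpr hxE
  rw [Fintype.linearIndependent_iff]
  intro g hg
  rw [Fin.sum_univ_three] at hg
  have hg' : g 0 • Ty V E⁻¹ + g 1 • Ty V E + g 2 • Ty V (E / (x1 - E ^ 2)) = 0 := hg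
  simp only [PowerSeries.smul_eq_C_mul] at hg'
  set w : PowerSeries M := Ty V (E ^ 2) with hw
  -- multiply by `E (x1 - E^2)`
  have h1 : Ty V E⁻¹ * Ty V (E * (x1 - E ^ 2)) = PowerSeries.C x1 - w := by
    rw [← map_mul, show E⁻¹ * (E * (x1 - E ^ 2)) = x1 - E ^ 2 by field_simp, map_sub,
      Ty_const V hVx]
  have h2 : Ty V E * Ty V (E * (x1 - E ^ 2)) = w * (PowerSeries.C x1 - w) := by
    rw [← map_mul, show E * (E * (x1 - E ^ 2)) = E ^ 2 * (x1 - E ^ 2) by ring, map_mul, map_sub,
      Ty_const V hVx]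
  have h3 : Ty V (E / (x1 - E ^ 2)) * Ty V (E * (x1 - E ^ 2)) = w := by
    rw [← map_mul, show E / (x1 - E ^ 2) * (E * (x1 - E ^ 2)) = E ^ 2 by field_simp]
  have h4 : PowerSeries.C (g 0 * x1) + PowerSeries.C (g 1 * x1 + g 2 - g 0) * w -
      PowerSeries.C (g 1) * w ^ 2 = 0 := by
    have h5 := congrArg (· * Ty V (E * (x1 - E ^ 2))) hg'
    simp only [zero_mul, add_mul, mul_assoc, h1, h2, h3] at h5
    rw [map_mul, map_sub, map_add, map_mul]
    linear_combination h5
  -- `w' ≠ 0`
  have hw' : PowerSeries.derivative M w ≠ 0 := by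
    intro h0
    rw [hw, H3.derivative_Ty] at h0
    have h6 := congrArg PowerSeries.constantCoeff h0
    rw [H3.constantCoeff_Ty, map_zero, sq, Derivation.leibniz, smul_eq_mul, ← two_mul] at h6
    rcases mul_eq_zero.mp h6 with h7 | h7
    · exact two_ne_zero h7
    · rcases mul_eq_zero.mp h7 with h8 | h8
      · exact hE h8
      · exact hVE h8
  have h5 : PowerSeries.C (g 1 * x1 + g 2 - g 0) - PowerSeries.C (g 1) * (2 * w) = 0 := by
    have h6 := congrArg (PowerSeries.derivative M) h4
    simp only [map_add, map_sub, Derivation.leibniz, PowerSeries.derivative_C, smul_eq_mul,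
      mul_zero, add_zero, zero_add, map_zero, Derivation.leibniz_pow] at h6
    have h7 : (PowerSeries.C (g 1 * x1 + g 2 - g 0) - PowerSeries.C (g 1) * (2 * w)) *
        PowerSeries.derivative M w = 0 := by
      rw [map_sub, map_add]
      rw [← h6]
      simp only [nsmul_eq_mul]
      push_cast
      ring
    exact (mul_eq_zero.mp h7).resolve_right hw'
  have h6 : g 1 = 0 := by
    have h7 := congrArg (PowerSeries.derivative M) h5
    simp only [map_sub, Derivation.leibniz, PowerSeries.derivative_C, smul_eq_mul,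
      mul_zero, add_zero, zero_sub, map_zero] at h7
    have h8 : PowerSeries.C (g 1) * 2 * PowerSeries.derivative M w = 0 := by
      have h9 : PowerSeries.derivative M (2 : PowerSeries M) = 0 := by
        have := (PowerSeries.derivative M).map_natCast 2
        exact_mod_cast this
      rw [h9, mul_zero, add_zero] at h7
      linear_combination -h7
    rcases mul_eq_zero.mp h8 with h9 | h9
    · rcases mul_eq_zero.mp h9 with h10 | h10
      · simpa using congrArg PowerSeries.constantCoeff h10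
      · exact absurd h10 (by
          intro h11
          have := congrArg PowerSeries.constantCoeff h11
          rw [map_ofNat, map_zero] at this
          exact two_ne_zero this)
    · exact absurd h9 hw'
  have h7 : g 2 = g 0 := by
    rw [h6, map_zero, zero_mul, zero_mul, sub_zero, zero_add] at h5
    have := congrArg PowerSeries.constantCoeff h5
    rw [PowerSeries.constantCoeff_C, map_zero] at this
    linear_combination this
  have h8 : g 0 = 0 := by
    rw [h6, h7] at h4
    have := congrArg PowerSeries.constantCoeff h4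
    simp only [map_add, map_sub, map_mul, PowerSeries.constantCoeff_C, map_zero] at this
    have h9 : g 0 * x1 = 0 := by linear_combination this
    exact (mul_eq_zero.mp h9).resolve_right hx
  intro i
  fin_cases i
  · exact h8
  · exact h6
  · show g 2 = 0
    rw [h7, h8]

end Leaf

end Crest.Agent.R102.RatT
end
end

-- ▼ part R102/Rat2a_201

/-!
# Row 102, [H3], (RAT), leaf R2d (helper201): `D = ∞` implies `L` algebraic over `K`
-/

set_option autoImplicit false
set_option linter.unusedSectionVars false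

open MvPowerSeries

noncomputable section

namespace Crest.Agent.R102.RAT

open RatT

variable {M : Type} [Field M] [Algebra ℂ M] [CharZero M] {D₁ D₂ : Derivation ℂ M M} {N : ℕ}
  {b : ℕ → M} {x : ℕ → ℕ → M} {E k : ℕ → M}

local notation "RR" => MvPowerSeries (Fin 2) M

/-! ## single mirrors -/

section single

variable (h : ∀ f, D₁ (D₂ f) = D₂ (D₁ f))

theorem TT_ne {a : M} (ha : a ≠ 0) : TT D₁ D₂ h a ≠ 0 := by
  intro h0
  apply ha
  have := congrArg MvPowerSeries.constantCoeff h0
  rwa [constantCoeff_TT, map_zero] at this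

theorem del_inv {δ : Derivation ℂ M M} {a : M} (ha : a ≠ 0) :
    del h δ a⁻¹ = -(TT D₁ D₂ h a⁻¹ ^ 2 * del h δ a) := by
  have h1 : del h δ (a * a⁻¹) = 0 := by
    rw [mul_inv_cancel₀ ha, del_def, map_one, Derivation.map_one_eq_zero]
  rw [del_mul] at h1
  have h2 : TT D₁ D₂ h a * TT D₁ D₂ h a⁻¹ = 1 := by rw [← map_mul, mul_inv_cancel₀ ha, map_one]
  linear_combination TT D₁ D₂ h a⁻¹ * h1 - del h δ a⁻¹ * h2

/-- `z = T(b) - b` -/
def zz (β : M) : RR := TT D₁ D₂ h β - MvPowerSeries.C β

theorem hzz (β : M) : MvPowerSeries.constantCoeff (zz h β) = 0 := by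
  rw [zz, map_sub, constantCoeff_TT, MvPowerSeries.constantCoeff_C, sub_self]

theorem pd_zz (β : M) (i : Fin 2) :
    pderiv M i (zz h β) = TT D₁ D₂ h (DD D₁ D₂ i β) := by
  rw [zz, map_sub, pd_TT, pderiv_C, sub_zero]

/-- the displacement series -/
def nu (δ : Derivation ℂ M M) (β : M) (y : ℕ → M) : PowerSeries M :=
  PowerSeries.mk fun r => (δ (y r) - y (r + 1) * δ β) / (r.factorial : M)

/-- the Taylor series of the jet -/
def tx (y : ℕ → M) : PowerSeries M := PowerSeries.mk fun r => y r / (r.factorial : M)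

theorem disp_fun (δ : Derivation ℂ M M) {β : M} {y : ℕ → M}
    (hy : ∀ r i, DD D₁ D₂ i (y r) = y (r + 1) * DD D₁ D₂ i β) (r : ℕ) :
    del h δ (y r) - TT D₁ D₂ h (y (r + 1)) * del h δ β =
      sg (zz h β) (hzz h β) ((PowerSeries.derivative M)^[r] (nu δ β y)) := by
  have := fun_of (hzz h β) (fun r => del h δ (y r) - TT D₁ D₂ h (y (r + 1)) * del h δ β)
    (fun r i => by
      rw [pd_zz]
      exact pd_disp h δ i (hy r i) (hy (r + 1) i)) r
  rw [this]
  congr 2
  ext n
  rw [PowerSeries.coeff_mk, nu, PowerSeries.coeff_mk, map_sub, map_mul, constantCoeff_del,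
    constantCoeff_del, constantCoeff_TT]

theorem tay_fun {β : M} {y : ℕ → M}
    (hy : ∀ r i, DD D₁ D₂ i (y r) = y (r + 1) * DD D₁ D₂ i β) (r : ℕ) :
    TT D₁ D₂ h (y r) =
      sg (zz h β) (hzz h β) ((PowerSeries.derivative M)^[r] (tx y)) := by
  have := fun_of (hzz h β) (fun r => TT D₁ D₂ h (y r))
    (fun r i => by rw [pd_zz, pd_TT, hy, map_mul]) r
  rw [this]
  congr 2
  ext n
  rw [PowerSeries.coeff_mk, tx, PowerSeries.coeff_mk, constantCoeff_TT]

theorem const_tx (y : ℕ → M) (r : ℕ) :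
    PowerSeries.constantCoeff ((PowerSeries.derivative M)^[r] (tx y)) = y r := by
  have hcoef : ∀ r n, PowerSeries.coeff n ((PowerSeries.derivative M)^[r] (tx y)) =
      y (n + r) / (n.factorial : M) := by
    intro r
    induction r with
    | zero => intro n; rw [Function.iterate_zero_apply, tx, PowerSeries.coeff_mk]; rfl
    | succ r ih =>
      intro n
      rw [Function.iterate_succ_apply', PowerSeries.coeff_derivative, ih, Nat.factorial_succ]
      have h1 : ((n : M) + 1) ≠ 0 := Nat.cast_add_one_ne_zero _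
      have h2 : (n.factorial : M) ≠ 0 := by exact_mod_cast Nat.factorial_ne_zero _
      have e : n + 1 + r = n + (r + 1) := by ring
      rw [e]
      push_cast
      field_simp
  rw [← PowerSeries.coeff_zero_eq_constantCoeff_apply, hcoef]
  simp

/-- the new coefficient functions -/
def nn (δ : Derivation ℂ M M) (β : M) (y : ℕ → M) (ν : PowerSeries M) : Fin 3 → PowerSeries M :=
  ![c1 δ ν - PowerSeries.C (δ β) * PowerSeries.derivative M ν -
      PowerSeries.derivative M ν * nu δ β y * (PowerSeries.derivative M (tx y))⁻¹,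
    -((c1 δ ν - PowerSeries.C (δ β) * PowerSeries.derivative M ν) *
      (PowerSeries.derivative M (tx y))⁻¹) +
      ν * PowerSeries.derivative M (nu δ β y) * (PowerSeries.derivative M (tx y))⁻¹ ^ 2,
    -(ν * PowerSeries.derivative M (PowerSeries.derivative M (tx y)) *
      (PowerSeries.derivative M (tx y))⁻¹ ^ 2) * nu δ β y]

/-- **second variation of one term**. -/
theorem second (δ : Derivation ℂ M M) {β kk e e' : M} {y : ℕ → M}
    (hy : ∀ r i, DD D₁ D₂ i (y r) = y (r + 1) * DD D₁ D₂ i β)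
    (he : e ≠ 0) (hy1 : y 1 ≠ 0) (hye : y 1 ≠ e ^ 2) (hinc : y 0 = e ^ 2 * β + kk)
    (hrefl : e * e' = y 1) (hde : del h δ e = 0) (hdk : del h δ kk = 0) (ν : PowerSeries M) :
    cM δ (sg (zz h β) (hzz h β) ν * TT D₁ D₂ h (e⁻¹ - e'⁻¹)) =
      sg (zz h β) (hzz h β) (nn δ β y ν 0) * TT D₁ D₂ h e⁻¹ +
      sg (zz h β) (hzz h β) (nn δ β y ν 1) * TT D₁ D₂ h e +
      sg (zz h β) (hzz h β) (nn δ β y ν 2) * TT D₁ D₂ h (e / (y 1 - e ^ 2)) := by
  set σ := sg (zz h β) (hzz h β) with hσ
  have hye' : y 1 - e ^ 2 ≠ 0 := sub_ne_zero.mpr hye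
  have he' : e'⁻¹ = e * (y 1)⁻¹ := by
    have : e' = y 1 / e := by rw [← hrefl]; field_simp
    rw [this]
    field_simp
  -- jets as functions
  have t1 : TT D₁ D₂ h (y 1) = σ (PowerSeries.derivative M (tx y)) := tay_fun h hy 1
  have t2 : TT D₁ D₂ h (y 2) = σ (PowerSeries.derivative M (PowerSeries.derivative M (tx y))) :=
    tay_fun h hy 2
  have m0 : del h δ (y 0) - TT D₁ D₂ h (y 1) * del h δ β = σ (nu δ β y) := disp_fun h δ hy 0
  have m1 : del h δ (y 1) - TT D₁ D₂ h (y 2) * del h δ β =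
      σ (PowerSeries.derivative M (nu δ β y)) := disp_fun h δ hy 1
  have hinv : TT D₁ D₂ h (y 1)⁻¹ = σ (PowerSeries.derivative M (tx y))⁻¹ := by
    have hc : PowerSeries.constantCoeff (PowerSeries.derivative M (tx y)) ≠ 0 := by
      have := const_tx y 1
      rw [Function.iterate_one] at this
      rwa [this]
    have h1 : σ (PowerSeries.derivative M (tx y)) * σ (PowerSeries.derivative M (tx y))⁻¹ = 1 := by
      rw [← map_mul, PowerSeries.mul_inv_cancel _ hc, map_one]
    have h2 : TT D₁ D₂ h (y 1) * TT D₁ D₂ h (y 1)⁻¹ = 1 := by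
      rw [← map_mul, mul_inv_cancel₀ hy1, map_one]
    rw [← t1] at h1
    exact mul_left_cancel₀ (TT_ne h hy1) (by rw [h1, h2])
  -- the variation of `b`
  have hdz : cM δ (zz h β) = del h δ β - MvPowerSeries.C (δ β) := by
    rw [zz, map_sub, cM_C]; rfl
  have hde2 : del h δ (e ^ 2) = 0 := by rw [sq, del_mul, hde]; ring
  have hd0 : del h δ (y 0) = TT D₁ D₂ h e ^ 2 * del h δ β := by
    rw [hinc, del_add, del_mul, hde2, hdk, map_pow]; ring
  have hw : TT D₁ D₂ h (y 1 - e ^ 2)⁻¹ * (TT D₁ D₂ h (y 1) - TT D₁ D₂ h e ^ 2) = 1 := by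
    rw [← map_pow, ← map_sub, ← map_mul, inv_mul_cancel₀ hye', map_one]
  have hdb : del h δ β = -(σ (nu δ β y) * TT D₁ D₂ h (y 1 - e ^ 2)⁻¹) := by
    rw [← m0, hd0]
    linear_combination -(del h δ β) * hw
  have hW : TT D₁ D₂ h (e / (y 1 - e ^ 2)) = TT D₁ D₂ h e * TT D₁ D₂ h (y 1 - e ^ 2)⁻¹ := by
    rw [div_eq_mul_inv, map_mul]
  have hwa : TT D₁ D₂ h (y 1 - e ^ 2)⁻¹ *
      (TT D₁ D₂ h e⁻¹ - TT D₁ D₂ h e * TT D₁ D₂ h (y 1)⁻¹) =
      TT D₁ D₂ h e⁻¹ * TT D₁ D₂ h (y 1)⁻¹ := by
    rw [← map_mul, ← map_sub, ← map_mul, ← map_mul]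
    congr 1
    field_simp
  have hS : cM δ (TT D₁ D₂ h (e⁻¹ - e'⁻¹)) =
      TT D₁ D₂ h e * TT D₁ D₂ h (y 1)⁻¹ ^ 2 * del h δ (y 1) := by
    rw [he', ← del_def, del_sub, del_mul, del_inv h he, del_inv h hy1, hde]
    ring
  have hST : TT D₁ D₂ h (e⁻¹ - e'⁻¹) =
      TT D₁ D₂ h e⁻¹ - TT D₁ D₂ h e * TT D₁ D₂ h (y 1)⁻¹ := by
    rw [he', map_sub, map_mul]
  have hd1 : del h δ (y 1) = σ (PowerSeries.derivative M (nu δ β y)) +
      TT D₁ D₂ h (y 2) * del h δ β := by rw [← m1]; ring
  have hCσ : ∀ c : M, σ (PowerSeries.C c) = MvPowerSeries.C c := fun c => sg_C _ c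
  rw [cM_mul, hS, hST, cM_sg, ← hσ, hdz, hd1, hW]
  simp only [nn, Matrix.cons_val_zero, Matrix.cons_val_one, Matrix.cons_val_two, Matrix.head_cons,
    Matrix.tail_cons, map_sub, map_add, map_mul, map_neg, map_pow, hCσ]
  rw [← hinv, ← t2, hdb]
  linear_combination -(σ (PowerSeries.derivative M ν) * σ (nu δ β y)) * hwa

end single

/-! ## the chain -/

section chain

variable (hc : FChain D₁ D₂ N b x E k)

include hc

theorem jets {j : ℕ} (hj : j < N) (r : ℕ) (i : Fin 2) :
    DD D₁ D₂ i (x j r) = x j (r + 1) * DD D₁ D₂ i (b j) := by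
  fin_cases i
  · exact hc.jet₁ j hj r
  · exact hc.jet₂ j hj r

theorem x1_ne {j : ℕ} (hj : j < N) : x j 1 ≠ 0 := by
  rw [← hc.refl j hj]
  exact mul_ne_zero (hc.E_ne j hj.le) (hc.E_ne (j + 1) hj)

theorem delE0 {δ : Derivation ℂ M M} (h0 : δ (E 0) = 0) : del hc.comm δ (E 0) = 0 := by
  have h1 : del hc.comm δ (E 0 ^ 2) = 0 := by
    have h2 : ∀ i, pderiv M i (del hc.comm δ (E 0 ^ 2)) = 0 := by
      intro i
      rw [pd_del]
      fin_cases i
      · show del hc.comm δ (D₁ (E 0 ^ 2)) = 0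
        rw [hc.D₁E, del_def, map_one, Derivation.map_one_eq_zero]
      · show del hc.comm δ (D₂ (E 0 ^ 2)) = 0
        rw [hc.D₂E, del_zero]
    rw [eq_C_of_pd h2, constantCoeff_del, Derivation.leibniz_pow, h0, smul_zero, smul_zero,
      map_zero]
  rw [sq, del_mul, ← two_mul] at h1
  rcases mul_eq_zero.mp h1 with h2 | h2
  · exfalso
    have := congrArg MvPowerSeries.constantCoeff h2
    rw [map_ofNat, map_zero] at this
    exact two_ne_zero this
  · exact (mul_eq_zero.mp h2).resolve_left (TT_ne hc.comm (hc.E_ne 0 (Nat.zero_le _)))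

theorem delk0 {δ : Derivation ℂ M M} (h0 : δ (k 0) = 0) : del hc.comm δ (k 0) = 0 := by
  have h2 : ∀ i, pderiv M i (del hc.comm δ (k 0)) = 0 := by
    intro i
    rw [pd_del]
    fin_cases i
    · show del hc.comm δ (D₁ (k 0)) = 0
      rw [hc.D₁k, del_zero]
    · show del hc.comm δ (D₂ (k 0)) = 0
      rw [hc.D₂k, del_def, map_one, Derivation.map_one_eq_zero]
  rw [eq_C_of_pd h2, constantCoeff_del, h0, map_zero]

/-- one step: no displacement. -/
theorem step {δ : Derivation ℂ M M} {j : ℕ} (hj : j < N) (hE : del hc.comm δ (E j) = 0)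
    (hk : del hc.comm δ (k j) = 0) (hν : nu δ (b j) (x j) = 0) :
    del hc.comm δ (b j) = 0 ∧ (∀ r, del hc.comm δ (x j r) = 0) ∧
      del hc.comm δ (E (j + 1)) = 0 ∧ del hc.comm δ (k (j + 1)) = 0 := by
  have h0 : ∀ r : ℕ, (PowerSeries.derivative M)^[r] (0 : PowerSeries M) = 0 := by
    intro r
    induction r with
    | zero => rfl
    | succ r ih => rw [Function.iterate_succ_apply, map_zero, ih]
  have hR : ∀ r, del hc.comm δ (x j r) = TT D₁ D₂ hc.comm (x j (r + 1)) * del hc.comm δ (b j) := by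
    intro r
    have := disp_fun hc.comm δ (jets hc hj) r
    rw [hν, h0, map_zero] at this
    exact sub_eq_zero.mp this
  have hE2 : del hc.comm δ (E j ^ 2) = 0 := by rw [sq, del_mul, hE]; ring
  have hb : del hc.comm δ (b j) = 0 := by
    have h1 := hR 0
    rw [hc.inc j hj, del_add, del_mul, hE2, hk] at h1
    have h2 : TT D₁ D₂ hc.comm (x j 1 - E j ^ 2) * del hc.comm δ (b j) = 0 := by
      rw [map_sub]
      linear_combination -h1
    exact (mul_eq_zero.mp h2).resolve_left (TT_ne hc.comm (sub_ne_zero.mpr (hc.tr j hj)))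
  have hx : ∀ r, del hc.comm δ (x j r) = 0 := fun r => by rw [hR, hb, mul_zero]
  have hE' : del hc.comm δ (E (j + 1)) = 0 := by
    have h1 := hx 1
    rw [← hc.refl j hj, del_mul, hE, mul_zero, add_zero] at h1
    exact (mul_eq_zero.mp h1).resolve_left (TT_ne hc.comm (hc.E_ne j hj.le))
  refine ⟨hb, hx, hE', ?_⟩
  have h1 : k (j + 1) = x j 0 - E (j + 1) ^ 2 * b j := by rw [hc.inc' j hj]; ring
  rw [h1, del_sub, del_mul, sq, del_mul, hx, hE', hb]
  ring

theorem run {δ : Derivation ℂ M M} (hE : del hc.comm δ (E 0) = 0)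
    (hk : del hc.comm δ (k 0) = 0) {s : ℕ} (hs : s ≤ N)
    (hν : ∀ j < s, nu δ (b j) (x j) = 0) (j : ℕ) (hj : j ≤ s) :
    del hc.comm δ (E j) = 0 ∧ del hc.comm δ (k j) = 0 := by
  induction j with
  | zero => exact ⟨hE, hk⟩
  | succ j ih =>
    obtain ⟨h1, h2⟩ := ih (by omega)
    obtain ⟨_, _, h3, h4⟩ := step hc (by omega) h1 h2 (hν j (by omega))
    exact ⟨h3, h4⟩

/-- **the relation**. -/
theorem relation {δ : Derivation ℂ M M} (hδ : ∀ f ∈ KK D₁ D₂ N E k, δ f = 0) :
    ∃ c : M, ∑ j ∈ Finset.range N, sg (zz hc.comm (b j)) (hzz hc.comm (b j)) (nu δ (b j) (x j)) *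
      TT D₁ D₂ hc.comm ((E j)⁻¹ - (E (j + 1))⁻¹) = MvPowerSeries.C c := by
  have hS1 : ∀ f ∈ KK D₁ D₂ N E k, D₁ f ∈ KK D₁ D₂ N E k := fun f hf =>
    DF389.dfield_stable ![D₁, D₂] _ 0 f hf
  have hS2 : ∀ f ∈ KK D₁ D₂ N E k, D₂ f ∈ KK D₁ D₂ N E k := fun f hf =>
    DF389.dfield_stable ![D₁, D₂] _ 1 f hf
  have hmem : ∀ f ∈ ({E 0, k 0, E N, k N} : Set M), f ∈ KK D₁ D₂ N E k := fun f hf =>
    DF389.subset_dfield _ _ hf
  have hz : ∀ f ∈ ({E 0, k 0, E N, k N} : Set M), del hc.comm δ f = 0 := fun f hf =>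
    del_eq_zero hc.comm (S := (KK D₁ D₂ N E k : Set M)) hS1 hS2 hδ (hmem f hf)
  have hE0 := hz (E 0) (by simp)
  have hk0 := hz (k 0) (by simp)
  have hEN := hz (E N) (by simp)
  have hkN := hz (k N) (by simp)
  refine ⟨_, eq_C_of_pd fun i => ?_⟩
  have h1 : ∀ j ∈ Finset.range N, 2 * pderiv M i (sg (zz hc.comm (b j)) (hzz hc.comm (b j))
      (nu δ (b j) (x j)) * TT D₁ D₂ hc.comm ((E j)⁻¹ - (E (j + 1))⁻¹)) =
      om hc.comm δ (E j) (k j) i - om hc.comm δ (E (j + 1)) (k (j + 1)) i := by
    intro j hj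
    have hj' := Finset.mem_range.mp hj
    rw [vf_one hc.comm δ (hc.E_ne j hj'.le) (hc.E_ne (j + 1) hj') (hc.inc j hj') (hc.inc' j hj')
      (hc.refl j hj') i (jets hc hj' 0 i) (jets hc hj' 1 i), disp_fun hc.comm δ (jets hc hj') 0]
    rfl
  have h2 : 2 * pderiv M i (∑ j ∈ Finset.range N, sg (zz hc.comm (b j)) (hzz hc.comm (b j))
      (nu δ (b j) (x j)) * TT D₁ D₂ hc.comm ((E j)⁻¹ - (E (j + 1))⁻¹)) = 0 := by
    rw [map_sum, Finset.mul_sum, Finset.sum_congr rfl h1,
      Finset.sum_range_sub' (fun j => om hc.comm δ (E j) (k j) i), om, om, hk0, hkN]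
    have hsq : ∀ e : M, del hc.comm δ e = 0 → del hc.comm δ (e ^ 2) = 0 := by
      intro e he
      rw [sq, del_mul, he]; ring
    rw [hsq _ hE0, hsq _ hEN]
    ring
  rcases mul_eq_zero.mp h2 with h3 | h3
  · exfalso
    have := congrArg MvPowerSeries.constantCoeff h3
    rw [map_ofNat, map_zero] at this
    exact two_ne_zero this
  · exact h3

/-- invariance of the area form along the chain. -/
theorem area {j : ℕ} (hj : j ≤ N) : jac D₁ D₂ (E j ^ 2) (k j) * (E j ^ 3)⁻¹ = (E 0 ^ 3)⁻¹ := by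
  induction j with
  | zero => rw [jac, hc.D₁E, hc.D₂E, hc.D₂k]; ring
  | succ j ih =>
    have hj' : j < N := hj
    rw [← ih (by omega)]
    have h1 := vf_field (F := M) (E := E j) (E' := E (j + 1)) (b := b j) (dE := D₂ (E j))
      (dE' := D₂ (E (j + 1))) (db := D₂ (b j)) (pE := D₁ (E j)) (pE' := D₁ (E (j + 1)))
      (pb := D₁ (b j)) (n0 := 0) (n1 := 0) (x2 := x j 2) (hc.E_ne j hj'.le) (hc.E_ne (j + 1) hj')
      (by rw [← hc.jet₂ j hj' 1, ← hc.refl j hj', Derivation.leibniz, smul_eq_mul, smul_eq_mul])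
      (by rw [← hc.jet₁ j hj' 1, ← hc.refl j hj', Derivation.leibniz, smul_eq_mul, smul_eq_mul,
        zero_add])
    have dsq : ∀ (D : Derivation ℂ M M) (e : M), D (e ^ 2) = 2 * e * D e := by
      intro D e
      rw [sq, Derivation.leibniz, smul_eq_mul]
      ring
    have hk1 : k j = x j 0 - E j ^ 2 * b j := by rw [hc.inc j hj']; ring
    have hk2 : k (j + 1) = x j 0 - E (j + 1) ^ 2 * b j := by rw [hc.inc' j hj']; ring
    rw [jac, jac, hk1, hk2]
    simp only [map_sub, Derivation.leibniz, dsq, smul_eq_mul, hc.jet₁ j hj' 0, hc.jet₂ j hj' 0,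
      ← hc.refl j hj']
    linear_combination -h1

theorem jacE_ne {j : ℕ} (hj : j < N) : jac D₁ D₂ (E j) (b j) ≠ 0 := by
  intro h0
  have h1 := area hc hj.le
  have dsq : ∀ (D : Derivation ℂ M M) (e : M), D (e ^ 2) = 2 * e * D e := by
    intro D e
    rw [sq, Derivation.leibniz, smul_eq_mul]
    ring
  have hk1 : k j = x j 0 - E j ^ 2 * b j := by rw [hc.inc j hj]; ring
  have h2 : jac D₁ D₂ (E j ^ 2) (k j) = 2 * E j * (x j 1 - E j ^ 2) * jac D₁ D₂ (E j) (b j) := by
    rw [jac, jac, hk1]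
    simp only [map_sub, Derivation.leibniz, dsq, smul_eq_mul, hc.jet₁ j hj 0, hc.jet₂ j hj 0]
    ring
  rw [h2, h0, mul_zero, zero_mul] at h1
  exact inv_ne_zero (pow_ne_zero 3 (hc.E_ne 0 (Nat.zero_le _))) h1.symm

end chain

/-! ## the web -/

section web

variable (hc : FChain D₁ D₂ N b x E k)

/-- weights -/
def wt (x : ℕ → ℕ → M) (E : ℕ → M) (j : ℕ) : Fin 3 → M :=
  ![(E j)⁻¹, E j, E j / (x j 1 - E j ^ 2)]

/-- the total map -/
def Tot (h : ∀ f, D₁ (D₂ f) = D₂ (D₁ f)) (N : ℕ) (b : ℕ → M) (x : ℕ → ℕ → M) (E : ℕ → M) :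
    ((j : Fin N) → Fin 3 → PowerSeries M) →ₗ[M] RR where
  toFun n := ∑ j : Fin N, ∑ i : Fin 3, sg (zz h (b j)) (hzz h (b j)) (n j i) * TT D₁ D₂ h (wt x E j i)
  map_add' n m := by
    rw [← Finset.sum_add_distrib]
    refine Finset.sum_congr rfl fun j _ => ?_
    rw [← Finset.sum_add_distrib]
    refine Finset.sum_congr rfl fun i _ => ?_
    rw [Pi.add_apply, Pi.add_apply, map_add, add_mul]
  map_smul' c n := by
    rw [RingHom.id_apply, Finset.smul_sum]
    refine Finset.sum_congr rfl fun j _ => ?_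
    rw [Finset.smul_sum]
    refine Finset.sum_congr rfl fun i _ => ?_
    rw [Pi.smul_apply, Pi.smul_apply, map_smul, smul_mul_assoc]

include hc

theorem sol_finite : Module.Finite M
    (LinearMap.ker (Tot hc.comm N b x E)) := by
  classical
  -- the leaves
  have hlam : ∀ j : Fin N, ∃ lam : RR →ₐ[M] PowerSeries M, ∀ a,
      lam (TT D₁ D₂ hc.comm a) =
        H3.Ty (D₂ (b j) • D₁ + (-D₁ (b j)) • D₂ : Derivation ℂ M M) a := fun j =>
    exists_lam hc.comm hc.D₁E hc.D₂E hc.D₁k hc.D₂k _ _
  choose lam hlam using hlam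
  have hV : ∀ (j : ℕ) (a : M), (D₂ (b j) • D₁ + (-D₁ (b j)) • D₂ : Derivation ℂ M M) a =
      jac D₁ D₂ a (b j) := by
    intro j a
    show D₂ (b j) • D₁ a + (-D₁ (b j)) • D₂ a = _
    rw [jac, smul_eq_mul, smul_eq_mul]
    ring
  have hfin := L1g201.web_finite (k := M) (z := fun j : Fin N => zz hc.comm (b j))
    (fun j => hzz hc.comm (b j)) (fun i j hij => by
      have e : ∀ j : Fin N, ∀ e : Fin 2, L1g201.lin e (zz hc.comm (b j)) = DD D₁ D₂ e (b j) := by
        intro j e
        have h1 := congrArg MvPowerSeries.constantCoeff (pd_zz hc.comm (b j) e)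
        rw [constantCoeff_TT, ← MvPowerSeries.coeff_zero_eq_constantCoeff_apply, coeff_pderiv] at h1
        rw [L1g201.lin, ← h1]
        simp
      rw [e, e, e, e]
      show D₂ (b i) * D₁ (b j) - D₁ (b i) * D₂ (b j) ≠ 0
      have hij' : (i : ℕ) ≠ j := fun h => hij (Fin.ext h)
      rcases Nat.lt_or_gt_of_ne hij' with h1 | h1
      · intro h2
        apply hc.ind i j h1 j.2
        rw [jac]; linear_combination -h2
      · intro h2
        apply hc.ind j i h1 i.2
        rw [jac]; linear_combination h2)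
    (fun j => by
      have e : ∀ e : Fin 2, L1g201.lin e (zz hc.comm (b j)) = DD D₁ D₂ e (b j) := by
        intro e
        have h1 := congrArg MvPowerSeries.constantCoeff (pd_zz hc.comm (b j) e)
        rw [constantCoeff_TT, ← MvPowerSeries.coeff_zero_eq_constantCoeff_apply, coeff_pderiv] at h1
        rw [L1g201.lin, ← h1]
        simp
      rw [e, e]
      show D₁ (b j) ≠ 0 ∨ D₂ (b j) ≠ 0
      by_contra hcon
      push Not at hcon
      apply jacE_ne hc j.2
      rw [jac, hcon.1, hcon.2]; ring)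
    (σ := fun j => sg (zz hc.comm (b j)) (hzz hc.comm (b j))) (fun j => sg_X _)
    (lam := lam) (fun j => by
      rw [zz, map_sub, hlam, lam_C, Ty_const _ (by rw [hV, jac]; ring), sub_self])
    (G := fun _ => Fin 3) (g := fun j i => TT D₁ D₂ hc.comm (wt x E j i))
    (fun j => by
      have := weights (k := ℂ) (D₂ (b j) • D₁ + (-D₁ (b j)) • D₂ : Derivation ℂ M M)
        (hc.E_ne j j.2.le) (x1_ne hc j.2) (hc.tr j j.2) (by rw [hV]; exact jacE_ne hc j.2)
        (by rw [hV, jac, hc.jet₁ j j.2, hc.jet₂ j j.2]; ring)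
      convert this using 1
      funext i
      rw [hlam]
      rfl)
  have e : LinearMap.ker (Tot hc.comm N b x E) = L1g201.Sol
      (fun j : Fin N => sg (zz hc.comm (b j)) (hzz hc.comm (b j)))
      (fun j i => TT D₁ D₂ hc.comm (wt x E j i)) := by
    ext n
    rw [LinearMap.mem_ker]
    rfl
  rw [e]
  exact hfin

/-- solutions with constant right hand side. -/
def Sol' (h : ∀ f, D₁ (D₂ f) = D₂ (D₁ f)) (N : ℕ) (b : ℕ → M) (x : ℕ → ℕ → M) (E : ℕ → M) :
    Submodule M ((j : Fin N) → Fin 3 → PowerSeries M) :=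
  Submodule.comap (Tot h N b x E) (Submodule.span M {1})

theorem sol'_fg : (Sol' hc.comm N b x E).FG := by
  apply Submodule.fg_of_fg_map_of_fg_inf_ker (Tot hc.comm N b x E)
  · have h1 : (Sol' hc.comm N b x E).map (Tot hc.comm N b x E) ≤ Submodule.span M {1} :=
      Submodule.map_comap_le _ _
    have : FiniteDimensional M (Submodule.span M ({1} : Set RR)) :=
      FiniteDimensional.span_of_finite M (Set.finite_singleton _)
    have h2 := Submodule.finiteDimensional_of_le h1
    exact Module.Finite.iff_fg.mp h2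
  · have h1 : Sol' hc.comm N b x E ⊓ LinearMap.ker (Tot hc.comm N b x E) =
        LinearMap.ker (Tot hc.comm N b x E) := by
      apply inf_eq_right.mpr
      intro n hn
      rw [LinearMap.mem_ker] at hn
      rw [Sol', Submodule.mem_comap, hn]
      exact Submodule.zero_mem _
    rw [h1]
    exact Module.Finite.iff_fg.mp (sol_finite hc)

end web

theorem ps_not_finite : ¬ Module.Finite M (PowerSeries M) := by
  intro h
  have h1 : Function.Injective (Polynomial.coeToPowerSeries.algHom (R := M) M).toLinearMap := by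
    intro p q hpq
    have h2 : (Polynomial.coeToPowerSeries.algHom (R := M) M) p =
      (Polynomial.coeToPowerSeries.algHom (R := M) M) q := hpq
    rw [Polynomial.coeToPowerSeries.algHom_apply, Polynomial.coeToPowerSeries.algHom_apply] at h2
    apply Polynomial.coe_injective
    ext n
    have := congrArg (PowerSeries.coeff n) h2
    simpa using this
  have := Module.Finite.of_injective (Polynomial.coeToPowerSeries.algHom (R := M) M).toLinearMap h1
  exact Polynomial.not_finite this

/-- **main step**: no derivation over `K` displaces a mirror. -/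
theorem main (hc : FChain D₁ D₂ N b x E k) (hd : Disp N b x E k) {δ₀ : Derivation ℂ M M}
    (hδ₀ : ∀ f ∈ KK D₁ D₂ N E k, δ₀ f = 0) : ∀ j < N, nu δ₀ (b j) (x j) = 0 := by
  classical
  by_contra hcon
  push Not at hcon
  -- the last displaced mirror
  set S := (Finset.range N).filter (fun j => nu δ₀ (b j) (x j) ≠ 0) with hS
  have hSne : S.Nonempty := by
    obtain ⟨j, hj, hj'⟩ := hcon
    exact ⟨j, by rw [hS, Finset.mem_filter]; exact ⟨Finset.mem_range.mpr hj, hj'⟩⟩
  set s := S.max' hSne with hs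
  have hsS : s ∈ S := S.max'_mem hSne
  rw [hS, Finset.mem_filter, Finset.mem_range] at hsS
  obtain ⟨hsN, hsν⟩ := hsS
  have hgt : ∀ j < N, s < j → nu δ₀ (b j) (x j) = 0 := by
    intro j hj hsj
    by_contra hne
    have : j ∈ S := by rw [hS, Finset.mem_filter]; exact ⟨Finset.mem_range.mpr hj, hne⟩
    exact absurd (S.le_max' j this) (not_le.mpr hsj)
  obtain ⟨c, hcrel⟩ := relation hc hδ₀
  set ν : ℕ → PowerSeries M := fun j => nu δ₀ (b j) (x j) with hν
  -- arbitrary displacement of the mirror `s`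
  have hkey : ∀ m : PowerSeries M, ∃ n ∈ Sol' hc.comm N b x E,
      n ⟨s, hsN⟩ 2 = -(ν s * PowerSeries.derivative M (PowerSeries.derivative M (tx (x s))) *
        (PowerSeries.derivative M (tx (x s)))⁻¹ ^ 2) * m := by
    intro m
    obtain ⟨δ, hδE, hδk, hδx⟩ := hd fun j r =>
      if j = s then (r.factorial : M) * PowerSeries.coeff r m else 0
    have hνs : nu δ (b s) (x s) = m := by
      ext r
      rw [nu, PowerSeries.coeff_mk, hδx s hsN r, if_pos rfl]
      have : (r.factorial : M) ≠ 0 := by exact_mod_cast Nat.factorial_ne_zero _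
      field_simp
      ring
    have hνj : ∀ j < s, nu δ (b j) (x j) = 0 := by
      intro j hj
      ext r
      rw [nu, PowerSeries.coeff_mk, hδx j (by omega) r, if_neg (by omega)]
      simp
    have hrun := run hc (delE0 hc hδE) (delk0 hc hδk) hsN.le hνj
    refine ⟨fun j => if (j : ℕ) ≤ s then nn δ (b j) (x j) (ν j) else 0, ?_, ?_⟩
    · rw [Sol', Submodule.mem_comap, Submodule.mem_span_singleton]
      refine ⟨δ c, ?_⟩
      have h1 := congrArg (cM δ) hcrel
      rw [cM_C, map_sum] at h1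
      rw [MvPowerSeries.smul_eq_C_mul, mul_one, ← h1]
      show _ = ∑ j : Fin N, ∑ i : Fin 3, _
      rw [Finset.sum_range]
      refine Finset.sum_congr rfl fun j _ => ?_
      by_cases hjs : (j : ℕ) ≤ s
      · obtain ⟨h2, h3⟩ := hrun j hjs
        rw [second hc.comm δ (jets hc j.2) (hc.E_ne j j.2.le) (x1_ne hc j.2) (hc.tr j j.2)
          (hc.inc j j.2) (hc.refl j j.2) h2 h3 (nu δ₀ (b j) (x j)), Fin.sum_univ_three]
        simp only [if_pos hjs]
        rfl
      · have h2 : nu δ₀ (b j) (x j) = 0 := hgt j j.2 (by omega)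
        rw [h2, map_zero, zero_mul, map_zero]
        symm
        refine Finset.sum_eq_zero fun i _ => ?_
        simp only [if_neg hjs, Pi.zero_apply, map_zero, zero_mul]
    · simp only [le_refl, if_true]
      rw [← hνs]
      rfl
  -- contradiction with finiteness
  set a : PowerSeries M := -(ν s * PowerSeries.derivative M (PowerSeries.derivative M (tx (x s))) *
        (PowerSeries.derivative M (tx (x s)))⁻¹ ^ 2) with ha
  have hane : a ≠ 0 := by
    rw [ha, neg_ne_zero]
    refine mul_ne_zero (mul_ne_zero hsν ?_) (pow_ne_zero 2 ?_)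
    · intro h0
      have := const_tx (x s) 2
      have e : (PowerSeries.derivative M)^[2] (tx (x s)) =
        PowerSeries.derivative M (PowerSeries.derivative M (tx (x s))) := rfl
      rw [e, h0, map_zero] at this
      exact hc.x2_ne s hsN this.symm
    · intro h0
      have h1 : PowerSeries.constantCoeff (PowerSeries.derivative M (tx (x s))) = x s 1 := by
        have := const_tx (x s) 1
        rwa [Function.iterate_one] at this
      have h2 := PowerSeries.mul_inv_cancel (PowerSeries.derivative M (tx (x s)))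
        (by rw [h1]; exact x1_ne hc hsN)
      rw [h0, mul_zero] at h2
      exact zero_ne_one h2
  apply ps_not_finite (M := M)
  have hfg := sol'_fg hc
  have : Module.Finite M (Sol' hc.comm N b x E) := Module.Finite.iff_fg.mpr hfg
  -- projection
  let pr : ((j : Fin N) → Fin 3 → PowerSeries M) →ₗ[M] PowerSeries M :=
    { toFun := fun n => n ⟨s, hsN⟩ 2
      map_add' := fun _ _ => rfl
      map_smul' := fun _ _ => rfl }
  have h2 : LinearMap.range (LinearMap.mulLeft M a) ≤ (Sol' hc.comm N b x E).map pr := by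
    rintro _ ⟨m, rfl⟩
    obtain ⟨n, hn, hn'⟩ := hkey m
    exact ⟨n, hn, hn'⟩
  have h3 : Module.Finite M ((Sol' hc.comm N b x E).map pr) :=
    Module.Finite.iff_fg.mpr (hfg.map pr)
  have h4 : FiniteDimensional M (LinearMap.range (LinearMap.mulLeft M a)) :=
    Submodule.finiteDimensional_of_le h2
  have hinj : Function.Injective (LinearMap.mulLeft M a) := by
    intro p q hpq
    exact mul_left_cancel₀ hane hpq
  exact Module.Finite.equiv (LinearEquiv.ofInjective _ hinj).symm

/-- a derivation over `K` kills `L`. -/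
theorem kills (hc : FChain D₁ D₂ N b x E k) (hd : Disp N b x E k) {δ₀ : Derivation ℂ M M}
    (hδ₀ : ∀ f ∈ KK D₁ D₂ N E k, δ₀ f = 0) : ∀ f ∈ LL N b x E k, δ₀ f = 0 := by
  have hν := main hc hd hδ₀
  have h0 : δ₀ (E 0) = 0 := hδ₀ _ (DF389.subset_dfield _ _ (by simp))
  have hk0 : δ₀ (k 0) = 0 := hδ₀ _ (DF389.subset_dfield _ _ (by simp))
  have hrun := run hc (delE0 hc h0) (delk0 hc hk0) le_rfl hν
  intro f hf
  rw [LL] at hf
  induction hf using IntermediateField.adjoin_induction with
  | mem y hy =>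
    rcases hy with hy | ⟨j, hj, hy⟩
    · rcases hy with rfl | hy
      · exact h0
      · rw [Set.mem_singleton_iff] at hy
        rw [hy]; exact hk0
    · obtain ⟨h1, h2⟩ := hrun j hj.le
      obtain ⟨h3, h4, _, _⟩ := step hc hj h1 h2 (hν j hj)
      rcases hy with rfl | ⟨r, rfl⟩
      · have := congrArg MvPowerSeries.constantCoeff h3
        rwa [constantCoeff_del, map_zero] at this
      · have := congrArg MvPowerSeries.constantCoeff (h4 r)
        rwa [constantCoeff_del, map_zero] at this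
  | algebraMap c => exact Derivation.map_algebraMap _ _
  | add y z _ _ hy hz => rw [map_add, hy, hz, add_zero]
  | inv y _ hy => rw [Derivation.leibniz_inv, hy, smul_zero]
  | mul y z _ _ hy hz => rw [Derivation.leibniz, hy, hz, smul_zero, smul_zero, add_zero]

/-- **(R2d)** `D = ∞` implies that `L` is algebraic over `K`. -/
theorem rat2a : Rat2aStmt := by
  intro M _ _ D₁ D₂ N b x E k hc hd f hf
  have : CharZero M := charZero_of_injective_algebraMap (algebraMap ℂ M).injective
  by_contra htr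
  have hai : AlgebraicIndependent (KK D₁ D₂ N E k) (fun _ : Unit => f) :=
    algebraicIndependent_unique_type_iff.mpr htr
  obtain ⟨δ, hδ⟩ := Free781.exists_derivation (k := KK D₁ D₂ N E k) (S := M)
    (fun _ : Unit => f) hai (fun _ => 1)
  have h1 : ∀ g ∈ KK D₁ D₂ N E k, (δ.restrictScalars ℂ) g = 0 := by
    intro g hg
    exact δ.map_algebraMap ⟨g, hg⟩
  have h2 := kills hc hd h1 f hf
  have h3 : δ f = 1 := hδ ()
  have h4 : (δ.restrictScalars ℂ) f = δ f := rfl
  rw [h4, h3] at h2
  exact one_ne_zero h2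

end Crest.Agent.R102.RAT
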