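import Crest.Agent.R102.DFin_781
import Crest.Agent.R102.RATDefs_926
import Crest.Agent.R102.RATDefs2_926
import Crest.Agent.R102.RATDefs4_926
import Crest.Agent.R102.RatGlueB_798

-- ▼ part R102/Dich_781
section

/-!
# Row 102, [H3], (RAT): D-DICH in the form of `RATDefs2_926` (helper781)
-/

set_option autoImplicit false

noncomputable section

namespace Crest.Agent.R102.Free781

open Set Filter Topology TopologicalSpace Metric Crest.Agent.R102.H3 Crest.Agent.R102.RAT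

/-- **D-DICH**: if `g` is not differentially transcendental near `c₀` then, on arbitrarily small
discs arbitrarily near `c₀`, `g` is of finite differential type; the elements of the algebra are
quotients of polynomials in `z, g, g', …` -/
theorem dich {g : ℂ → ℂ} {c₀ : ℂ} (hg : AnalyticAt ℂ g c₀) (h1 : deriv g c₀ ≠ 0)
    (h2 : deriv (deriv g) c₀ ≠ 0) (hfin : ¬ DiffTr g c₀) {δ : ℝ} (hδ : 0 < δ) :
    ∃ c₁ r, 0 < r ∧ r < δ ∧ dist c₁ c₀ < δ ∧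
      ∃ (A : Subalgebra ℂ (Hol (bO c₁ r))) (G : Hol (bO c₁ r)), FT g c₁ r A G ∧
        ∀ a ∈ A, Quo (bO c₁ r) G a := by
  have hev : ∀ᶠ c in 𝓝 c₀, AnalyticAt ℂ g c ∧ deriv g c ≠ 0 ∧ deriv (deriv g) c ≠ 0 :=
    hg.eventually_analyticAt.and ((hg.deriv.continuousAt.eventually_ne h1).and
      (hg.deriv.deriv.continuousAt.eventually_ne h2))
  obtain ⟨r, hr, hrs⟩ := Metric.eventually_nhds_iff_ball.1 hev
  obtain ⟨c₁, ρ, a1, a2, a3, hs, A, a4, a5, a6, a7, a8, a9, a10⟩ :=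
    exists_A0' (g := g) (c₀ := c₀) hr (fun c hc => (hrs c hc).1) (fun c hc => (hrs c hc).2.1)
      (fun c hc => (hrs c hc).2.2) hfin hδ
  exact ⟨c₁, ρ, a1, a2, a3, A, _, ⟨a1, fun z => rfl, a4, a5, a6, a7, a8, a9⟩, a10⟩

section LL

variable {M : Type*} [Field M] [Algebra ℂ M] {N : ℕ} {b : ℕ → M} {x : ℕ → ℕ → M} {E k : ℕ → M}
  {g : ℂ → ℂ} {c₀ : ℂ} {r : ℝ} {A : Subalgebra ℂ (Hol (bO c₀ r))} {G : Hol (bO c₀ r)}





end LL

end Crest.Agent.R102.Free781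
end
namespace Crest.Agent.R102.Free781.FT
end Crest.Agent.R102.Free781.FT
end

-- ▼ part R102/RatFin_926

/-!
# Row 102, [H3], THEOREM (RAT): RAT-FIN (helper926): `CT + R4 + RUN ⟹ RatFinStmt`
-/

set_option autoImplicit false

open Set Filter Topology Metric TopologicalSpace

noncomputable section

namespace Crest.Agent.R102.RAT

open Crest.Agent.R102.H3 Crest.Agent.R102.Glue798 Crest.Agent.R102.Rat7217
  Crest.Agent.R102.Free781 Crest.Agent.R102.DF389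

theorem Sq.of {g : ℂ → ℂ} {c₀ : ℂ} {N : ℕ} {ρ : ℝ} {β m k q q' e : ℕ → ℂ × ℂ → ℂ}
    (h : SChain g c₀ N ρ β m k q q' e) : Sq g c₀ N ρ β m e := ⟨h.an_e, h.e_sq, h.e_mul⟩

theorem sChain_of {g : ℂ → ℂ} {c₀ : ℂ} {N : ℕ} {ρ : ℝ} {β m k q q' e : ℕ → ℂ × ℂ → ℂ}
    (h : F7389.Chain g c₀ N ρ β m k q q') (hs : Sq g c₀ N ρ β m e) :
    SChain g c₀ N ρ β m k q q' e := ⟨h, hs.an, hs.sq, hs.refl⟩

theorem Sq.le {g : ℂ → ℂ} {c₀ : ℂ} {P N : ℕ} {ρ : ℝ} {β m e : ℕ → ℂ × ℂ → ℂ}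
    (h : Sq g c₀ P ρ β m e) (hN : N ≤ P) : Sq g c₀ N ρ β m e :=
  ⟨fun i hi => h.an i (hi.trans hN), fun i hi => h.sq i (hi.trans hN),
    fun i hi => h.refl i (hi.trans_le hN)⟩

/-- the formal chain over the field of fractions -/
theorem fChainStmt : FChainStmt := by
  intro g c₀ N ρ β m k q q' e hC hs _ D₁ D₂ hD
  have : Nonempty (WO c₀ ρ) := ⟨⟨(c₀, 0), center_mem hC⟩⟩
  exact fchain (sChain_of hC hs) (le_refl _) hD

theorem gen_of_quo {c₀ : ℂ} {r : ℝ} (hr : 0 < r) {A : Subalgebra ℂ (Hol (bO c₀ r))}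
    {G : Hol (bO c₀ r)} (h : ∀ a ∈ A, Quo (bO c₀ r) G a) : Gen A G := by
  intro f hf
  obtain ⟨P, hP, Q, hQ, hu, he⟩ := h f hf
  have : Nonempty (bO c₀ r) := ⟨⟨c₀, mem_ball_self hr⟩⟩
  have : Nontrivial (Hol (bO c₀ r)) := inferInstance
  exact ⟨P, hP, Q, hQ, hu.ne_zero, by rw [mul_comm]; exact he⟩

set_option maxHeartbeats 2000000 in
/-- **RAT-FIN** -/
theorem ratFin (hCT : CTStmt) (hR4 : R4Stmt) (hRun : RunStmt) : RatFinStmt := by
  intro g c₀ N ρ β m k q q' hN hC hfin hna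
  have h2N : N ≤ 2 * N := by omega
  have hcm : c₀ ∈ ball c₀ ρ := mem_ball_self hC.ρ_pos
  have hg : AnalyticOnNhd ℂ g (ball c₀ ρ) := an_g_V hC
  have hg1 : ∀ c ∈ ball c₀ ρ, deriv g c ≠ 0 := by
    intro c hc h0
    refine hC.m_ne 0 (Nat.zero_le _) (c, 0) ⟨hc, mem_ball_self hC.ρ_pos⟩ ?_
    rw [hC.m_c 0 (Nat.zero_le _) c hc, h0]
  have hg2 : ∀ c ∈ ball c₀ ρ, deriv (deriv g) c ≠ 0 := by
    intro c hc h0
    refine hC.q_ne 0 (Nat.zero_le _) (c, 0) ⟨hc, mem_ball_self hC.ρ_pos⟩ ?_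
    rw [hC.q_c 0 (Nat.zero_le _) c hc, h0]
  obtain ⟨c₁, r, hr, -, hc₁, A, G, hFT, hQ⟩ := dich (hg c₀ hcm) (hg1 c₀ hcm) (hg2 c₀ hcm) hfin
    hC.ρ_pos
  have hGen := gen_of_quo hr hQ
  have hc₁m : c₁ ∈ ball c₀ ρ := mem_ball.2 hc₁
  -- the chain at `c₁`
  set ρ₁ := ρ - dist c₁ c₀ with hρ₁
  have hρ₁p : 0 < ρ₁ := by rw [hρ₁]; linarith
  have hρ₁le : ρ₁ ≤ ρ := by rw [hρ₁]; linarith [dist_nonneg (x := c₁) (y := c₀)]
  have hsub : ball c₁ ρ₁ ⊆ ball c₀ ρ := by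
    intro z hz
    rw [mem_ball] at hz ⊢
    calc dist z c₀ ≤ dist z c₁ + dist c₁ c₀ := dist_triangle _ _ _
      _ < ρ := by linarith
  have hC₁ : F7389.Chain g c₁ (2 * N) ρ₁ β m k q q' := chain_mono hC le_rfl hρ₁p hsub hρ₁le
  obtain ⟨Ra, hRa, hRale, hsmall⟩ := exists_small hC₁ (ball_mem_nhds c₁ hr)
  obtain ⟨e, Rb, hRb, hRble, hsq⟩ := exists_sqrt hC₁
  set ρ₂ := min Ra Rb with hρ₂
  have hρ₂p : 0 < ρ₂ := lt_min hRa hRb
  have hS₂ : SChain g c₁ (2 * N) ρ₂ β m k q q' e := hsq ρ₂ hρ₂p (min_le_right _ _)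
  have hIn₂ : InD c₁ r (2 * N) ρ₂ β := by
    intro x hx
    have hx' := hsmall x (sub_polydisc (min_le_left _ _) hx)
    exact ⟨hx'.2, hx'.1⟩
  obtain ⟨R, hR, hRle, hrun⟩ := hRun g c₁ r A G hFT hGen N ρ₂ β m k q q' e hN hS₂.toChain
    (Sq.of hS₂) hIn₂
  have hS₃ : SChain g c₁ (2 * N) R β m k q q' e := hS₂.mono hR hRle
  have hC₃ := hS₃.toChain
  have hC₃N : F7389.Chain g c₁ N R β m k q q' := chain_mono hC₃ h2N hR (le_refl _) le_rfl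
  have hSq : Sq g c₁ (2 * N) R β m e := Sq.of hS₃
  have hSqN : Sq g c₁ N R β m e := hSq.le h2N
  have hIn : InD c₁ r (2 * N) R β := fun x hx => hIn₂ x (sub_polydisc hRle hx)
  have hInN : InD c₁ r N R β := fun x hx =>
    ⟨(hIn x hx).1, fun j hj => (hIn x hx).2 j (hj.trans h2N)⟩
  set U : Opens (ℂ × ℂ) := WO c₁ R with hU
  have hUne : Nonempty U := ⟨⟨(c₁, 0), center_mem hC₃⟩⟩
  have hUp : IsPreconnected (U : Set (ℂ × ℂ)) := WO_preconnected c₁ R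
  have hdom : IsDomain (Hol U) := Hol.isDomain hUp
  obtain ⟨D₁, D₂, hDual⟩ := exists_dual (W := U) (M := FractionRing (Hol U)) hC₃ subset_rfl
  have hF2 := fChainStmt g c₁ (2 * N) R β m k q q' e hC₃ hSq D₁ D₂ hDual
  have hF1 := fChainStmt g c₁ N R β m k q q' e hC₃N hSqN D₁ D₂ hDual
  have halg := hR4 g c₁ r A G hFT hGen N R β m k q q' e hN hC₃N hSqN hInN D₁ D₂ hDual hF1
  -- the germ at `c₁` is not algebraic
  have hna₁ : ¬ ∃ Q : MvPolynomial (Fin 2) ℂ, Q ≠ 0 ∧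
      ∀ᶠ z in 𝓝 c₁, MvPolynomial.eval ![z, g z] Q = 0 := by
    rintro ⟨Q, hQ0, hQe⟩
    refine hna ⟨Q, hQ0, ?_⟩
    have h3 := (an_eval₂ hg Q).eqOn_zero_of_preconnected_of_eventuallyEq_zero
      (convex_ball c₀ ρ).isPreconnected hc₁m hQe
    filter_upwards [ball_mem_nhds c₀ hC.ρ_pos] with z hz using h3 hz
  -- RAT-3
  have hb0 : bM U β 0 ∈ KK D₁ D₂ N (lM U e) (lM U k) := by
    by_contra hcon
    exact rat3_core hCT hFT hC₃ hIn (hg2 c₁ hc₁m) hna₁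
      (hrun R hR le_rfl D₁ D₂ hDual hF2 halg hcon)
  -- the open set
  let W : Opens (ℂ × ℂ) := ⟨ball c₁ (R / 4) ×ˢ ball ((R / 2 : ℝ) : ℂ) (R / 4),
    isOpen_ball.prod isOpen_ball⟩
  have hWU : W ≤ U := by
    intro x hx
    obtain ⟨hx1, hx2⟩ := hx
    refine ⟨ball_subset_ball (by linarith) hx1, ?_⟩
    rw [mem_ball_zero_iff]
    rw [mem_ball_iff_norm] at hx2
    have e1 : ‖((R / 2 : ℝ) : ℂ)‖ = R / 2 := by
      rw [Complex.norm_real, Real.norm_eq_abs, abs_of_pos (by linarith)]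
    calc ‖x.2‖ = ‖(x.2 - ((R / 2 : ℝ) : ℂ)) + ((R / 2 : ℝ) : ℂ)‖ := by ring_nf
      _ ≤ ‖x.2 - ((R / 2 : ℝ) : ℂ)‖ + ‖((R / 2 : ℝ) : ℂ)‖ := norm_add_le _ _
      _ < R := by rw [e1]; linarith
  have hWne : Nonempty W := ⟨⟨(c₁, ((R / 2 : ℝ) : ℂ)),
    mem_ball_self (by linarith), mem_ball_self (by linarith)⟩⟩
  have hUsub : (U : Set (ℂ × ℂ)) ⊆ ball c₀ ρ ×ˢ ball (0 : ℂ) ρ :=
    Set.prod_mono ((ball_subset_ball (hRle.trans ((min_le_left _ _).trans hRale))).trans hsub)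
      (ball_subset_ball ((hRle.trans ((min_le_left _ _).trans hRale)).trans hρ₁le))
  refine ⟨W, ⟨_, hWne.some.2⟩, (convex_ball _ _).isPreconnected.prod (convex_ball _ _).isPreconnected,
    (show (W : Set (ℂ × ℂ)) ⊆ U from hWU).trans hUsub, ?_, ?_⟩
  · rintro x ⟨-, hx2⟩ h0
    rw [h0, mem_ball, dist_comm, dist_zero_right, Complex.norm_real, Real.norm_eq_abs,
      abs_of_pos (by linarith)] at hx2
    linarith
  have ae : ∀ i ≤ 2 * N, AnalyticOnNhd ℂ (e i) U := hSq.an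
  have ak : ∀ i ≤ 2 * N, AnalyticOnNhd ℂ (k i) U := hC₃.an_k
  have am : ∀ i ≤ 2 * N, AnalyticOnNhd ℂ (m i) U := hC₃.an_m
  have ab : AnalyticOnNhd ℂ (fun x : ℂ × ℂ => x.1 + x.2 * β 0 x) U := an_b hC₃ 0 (Nat.zero_le _)
  refine ⟨Hol.res hWU (toH U (e 0)), Hol.res hWU (toH U (k 0)), Hol.res hWU (toH U (e N)),
    Hol.res hWU (toH U (k N)), Hol.res hWU (toH U fun x => x.1 + x.2 * β 0 x), ?_, ?_⟩
  · intro x
    have hx : (x : ℂ × ℂ) ∈ U := hWU x.2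
    simp only [Hol.res_apply]
    rw [toH_apply (ae 0 (Nat.zero_le _)), toH_apply (ae N h2N), toH_apply (ak 0 (Nat.zero_le _)),
      toH_apply (ak N h2N), toH_apply ab]
    refine ⟨hSq.sq 0 (Nat.zero_le _) x hx, hSq.sq N h2N x hx, rfl, rfl, ?_⟩
    rw [hC.β_zero, mul_one]
  · intro M _ _ _ _ _ D₁' D₂' hDual'
    have hmu : (Hol.res hWU (toH U (e 0))) ^ 2 = Hol.res hWU (toH U (m 0)) := by
      rw [← map_pow]
      congr 1
      ext x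
      have h1 : ((toH U (e 0) ^ 2 : Hol U) : U → ℂ) x = (toH U (e 0) : U → ℂ) x ^ 2 := rfl
      rw [h1, toH_apply (ae 0 (Nat.zero_le _)), toH_apply (am 0 (Nat.zero_le _))]
      exact hSq.sq 0 (Nat.zero_le _) x x.2
    rw [hmu] at hDual'
    obtain ⟨φ, hφ, h₁, h₂⟩ := transferU hWU hUp hDual hDual'
    have hmem := dfield_map_le ![D₁, D₂] ![D₁', D₂'] φ (by
      intro i x
      fin_cases i
      · exact h₁ x
      · exact h₂ x) _ hb0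
    have e1 : φ (bM U β 0) = algebraMap (Hol W) M
        (Hol.res hWU (toH U fun x => x.1 + x.2 * β 0 x)) := hφ _
    rw [← e1]
    convert hmem using 2
    simp only [image_insert_eq, image_singleton, lM, toM, hφ]

end Crest.Agent.R102.RAT
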