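import Crest.Agent.R102.RATDefs_926
import Crest.Agent.R102.Free_781
import Mathlib
import Crest.Agent.R102.Match_554
import Crest.Agent.R102.RatGlueB_798
import Crest.Agent.R102.Foc_554
import Crest.Agent.R102.FreeAn_781
import Crest.Agent.R102.Rat2a_201
import Crest.Agent.R102.RatDefs7_217
import Crest.Agent.R102.RatFin_926

-- ▼ part R102/Disp_781
section

/-!
# Row 102, [H3], (RAT): leaf R2c (helper781)

`disp : DispStmt`: if the generators `m₀, k₀, b j, x j r` (`r ≥ 1`) are algebraically independent,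
every family of displacements of the mirrors is realised by a derivation fixing the line `0`.
-/

set_option autoImplicit false

noncomputable section

namespace Crest.Agent.R102.RAT

variable {M : Type*} [Field M]

/-- the displacement of the vertex `j` along the mirror, from `(δ E_j, δ k_j)`. -/
def bet (μ : ℕ → ℕ → M) (b : ℕ → M) (x : ℕ → ℕ → M) (E : ℕ → M) (j : ℕ) (p : M × M) : M :=
  (2 * E j * p.1 * b j + p.2 - μ j 0) / (x j 1 - E j ^ 2)

/-- `(δ E_j, δ k_j)` by recursion -/
def ek (μ : ℕ → ℕ → M) (b : ℕ → M) (x : ℕ → ℕ → M) (E : ℕ → M) : ℕ → M × M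
  | 0 => (0, 0)
  | j + 1 =>
    let p := ek μ b x E j
    let β := bet μ b x E j p
    let ε := (μ j 1 + x j 2 * β - E (j + 1) * p.1) / E j
    (ε, μ j 0 + x j 1 * β - 2 * E (j + 1) * ε * b j - E (j + 1) ^ 2 * β)

theorem disp : DispStmt := by
  intro M _ _ D₁ D₂ N b x E k hch hfree μ
  have hchar : CharZero M := charZero_of_injective_algebraMap (algebraMap ℂ M).injective
  obtain ⟨δ, hδ⟩ := Free781.exists_derivation _ hfree
    (Sum.elim (fun _ => 0) fun i : Fin N × ℕ =>
      if i.2 = 0 then bet μ b x E i.1 (ek μ b x E i.1)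
      else μ i.1 i.2 + x i.1 (i.2 + 1) * bet μ b x E i.1 (ek μ b x E i.1))
  have h0 : δ (E 0 ^ 2) = 0 := hδ (Sum.inl 0)
  have hk0 : δ (k 0) = 0 := hδ (Sum.inl 1)
  have hE0 : δ (E 0) = 0 := by
    rw [Derivation.leibniz_pow] at h0
    have hne : E 0 ≠ 0 := hch.E_ne 0 (Nat.zero_le _)
    simpa [hne] using h0
  have hb : ∀ j, j < N → δ (b j) = bet μ b x E j (ek μ b x E j) := by
    intro j hj
    have := hδ (Sum.inr (⟨j, hj⟩, 0))
    simpa using this
  have hx : ∀ j, j < N → ∀ r, δ (x j (r + 1)) = μ j (r + 1) + x j (r + 1 + 1) * δ (b j) := by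
    intro j hj r
    have := hδ (Sum.inr (⟨j, hj⟩, r + 1))
    rw [hb j hj]
    simpa using this
  have key : ∀ j, j ≤ N → δ (E j) = (ek μ b x E j).1 ∧ δ (k j) = (ek μ b x E j).2 := by
    intro j
    induction j with
    | zero => exact fun _ => ⟨hE0, hk0⟩
    | succ j ih =>
      intro hj
      obtain ⟨i1, i2⟩ := ih (by omega)
      have hjN : j < N := by omega
      have htr : x j 1 - E j ^ 2 ≠ 0 := sub_ne_zero.2 (hch.tr j hjN)
      have hEj : E j ≠ 0 := hch.E_ne j (by omega)
      have hβ := hb j hjN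
      have hE : δ (E (j + 1)) = (ek μ b x E (j + 1)).1 := by
        have h1 := congrArg δ (hch.refl j hjN)
        rw [hx j hjN 0, Derivation.leibniz, i1, hβ] at h1
        simp only [smul_eq_mul] at h1
        have h2 : (ek μ b x E (j + 1)).1 = (μ j 1 + x j 2 * bet μ b x E j (ek μ b x E j)
          - E (j + 1) * (ek μ b x E j).1) / E j := rfl
        rw [h2, eq_div_iff hEj]
        linear_combination h1
      refine ⟨hE, ?_⟩
      have h1 := congrArg δ (hch.inc' j hjN)
      have h3 := congrArg δ (hch.inc j hjN)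
      rw [h3] at h1
      rw [map_add, map_add, Derivation.leibniz, Derivation.leibniz, Derivation.leibniz_pow,
        Derivation.leibniz_pow, hE, i1, i2, hβ] at h1
      simp only [smul_eq_mul, nsmul_eq_mul, Nat.cast_ofNat] at h1
      have h4 : (ek μ b x E (j + 1)).2 = μ j 0 + x j 1 * bet μ b x E j (ek μ b x E j)
        - 2 * E (j + 1) * (ek μ b x E (j + 1)).1 * b j
        - E (j + 1) ^ 2 * bet μ b x E j (ek μ b x E j) := rfl
      have h5 : bet μ b x E j (ek μ b x E j) * (x j 1 - E j ^ 2)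
          = 2 * E j * (ek μ b x E j).1 * b j + (ek μ b x E j).2 - μ j 0 := by
        rw [bet, div_mul_cancel₀ _ htr]
      rw [h4]
      linear_combination (-1 : M) * h1 - h5
  refine ⟨δ, hE0, hk0, fun j hj r => ?_⟩
  cases r with
  | succ r => exact hx j hj r
  | zero =>
    obtain ⟨i1, i2⟩ := key j hj.le
    have htr : x j 1 - E j ^ 2 ≠ 0 := sub_ne_zero.2 (hch.tr j hj)
    have h3 := congrArg δ (hch.inc j hj)
    rw [map_add, Derivation.leibniz, Derivation.leibniz_pow, i1, i2, hb j hj] at h3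
    simp only [smul_eq_mul, nsmul_eq_mul, Nat.cast_ofNat] at h3
    have h5 : bet μ b x E j (ek μ b x E j) * (x j 1 - E j ^ 2)
        = 2 * E j * (ek μ b x E j).1 * b j + (ek μ b x E j).2 - μ j 0 := by
      rw [bet, div_mul_cancel₀ _ htr]
    rw [h3, hb j hj]
    linear_combination (-1 : M) * h5

end Crest.Agent.R102.RAT
end
end

-- ▼ part R102/ExtDer_554
section

/-!
# Row 102, (RAT), helper554: extension of derivations to algebraic extensions, commutation with
automorphisms

* `extDer` : a derivation of a field `M` of characteristic `0` extends to an algebraic extension.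
* `der_unique` : a derivation of an algebraic extension is determined on the base field.
* `alg_der` : if `K ≤ M` is stable under `D` and `a ∈ Ω` is algebraic over `K`, ...
-/

set_option autoImplicit false

noncomputable section

namespace Crest.Agent.R102.RAT554

open TensorProduct

variable {A M L : Type*} [CommRing A] [Field M] [Field L] [Algebra A M] [Algebra A L] [Algebra M L]
  [IsScalarTower A M L]

/-- extension of a derivation of `M` with values in `L` to `L`, for `L / M` algebraic
(characteristic `0`). -/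
def extDer' [CharZero M] [Algebra.IsAlgebraic M L] (d : Derivation A M L) : Derivation A L L :=
  haveI : Algebra.FormallyEtale M L := Algebra.FormallyEtale.of_isSeparable M L
  (((d.liftKaehlerDifferential).liftBaseChange L).comp
    (KaehlerDifferential.tensorKaehlerEquivOfFormallyEtale A M L).symm.toLinearMap).compDer
      (KaehlerDifferential.D A L)

theorem extDer'_apply [CharZero M] [Algebra.IsAlgebraic M L] (d : Derivation A M L) (m : M) :
    extDer' d (algebraMap M L m) = d m := by
  haveI : Algebra.FormallyEtale M L := Algebra.FormallyEtale.of_isSeparable M L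
  show ((d.liftKaehlerDifferential).liftBaseChange L)
    ((KaehlerDifferential.tensorKaehlerEquivOfFormallyEtale A M L).symm
      (KaehlerDifferential.D A L (algebraMap M L m))) = d m
  rw [KaehlerDifferential.tensorKaehlerEquivOfFormallyEtale_symm_D_algebraMap,
    LinearMap.liftBaseChange_tmul, one_smul, Derivation.liftKaehlerDifferential_comp_D]

/-- extension of a derivation of `M` to `L`. -/
def extDer [CharZero M] [Algebra.IsAlgebraic M L] (d : Derivation A M M) : Derivation A L L :=
  extDer' ((Algebra.linearMap M L).compDer d)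

theorem extDer_apply [CharZero M] [Algebra.IsAlgebraic M L] (d : Derivation A M M) (m : M) :
    (extDer d : Derivation A L L) (algebraMap M L m) = algebraMap M L (d m) := by
  rw [extDer, extDer'_apply]
  rfl

/-- a derivation of an algebraic extension with values in a vector space is determined on the
base field. -/
theorem der_unique [CharZero M] [Algebra.IsAlgebraic M L] {V : Type*} [AddCommGroup V]
    [Module L V] [Module A V] [Module M V] [IsScalarTower M L V]
    (d e : Derivation A L V) (h : ∀ m : M, d (algebraMap M L m) = e (algebraMap M L m)) :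
    d = e := by
  haveI : Algebra.FormallyUnramified M L := Algebra.FormallyUnramified.of_isSeparable M L
  have h0 : ∀ m : M, (d - e) (algebraMap M L m) = 0 := fun m => by
    rw [Derivation.sub_apply, h m, sub_self]
  let f : L →ₗ[M] V :=
    { toFun := fun x => (d - e) x
      map_add' := fun x y => map_add _ x y
      map_smul' := fun m x => by
        rw [Algebra.smul_def, Derivation.leibniz, h0, smul_zero, add_zero, RingHom.id_apply,
          algebraMap_smul] }
  let g : Derivation M L V := Derivation.mk' f fun x y => Derivation.leibniz (d - e) x y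
  have hg : g = 0 := by
    have h1 := Derivation.liftKaehlerDifferential_comp g
    have h2 : g.liftKaehlerDifferential = 0 := by
      apply LinearMap.ext
      intro x
      rw [Subsingleton.elim x 0, map_zero, map_zero]
    rw [← h1, h2]
    rfl
  ext x
  have h3 : (d - e) x = 0 := by
    have := congrArg (fun D : Derivation M L V => D x) hg
    exact this
  rw [Derivation.sub_apply] at h3
  exact sub_eq_zero.mp h3

/-- an automorphism commutes with a derivation if this holds on the base field -/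
theorem der_aut [CharZero M] [Algebra.IsAlgebraic M L] (d : Derivation A L L) (τ : L ≃ₐ[M] L)
    (h : ∀ m : M, ∃ m' : M, d (algebraMap M L m) = algebraMap M L m') (x : L) :
    τ (d x) = d (τ x) := by
  have hA : ∀ (a : A) (x : L), τ (a • x) = a • τ x := by
    intro a x
    rw [← algebraMap_smul M a x, map_smul, algebraMap_smul]
  have hA' : ∀ (a : A) (x : L), τ.symm (a • x) = a • τ.symm x := by
    intro a x
    rw [← algebraMap_smul M a x, map_smul, algebraMap_smul]
  let f : L →ₗ[A] L :=
    { toFun := fun x => τ (d (τ.symm x))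
      map_add' := fun x y => by rw [map_add, map_add, map_add]
      map_smul' := fun a x => by rw [hA', Derivation.map_smul, hA, RingHom.id_apply] }
  let g : Derivation A L L := Derivation.mk' f fun x y => by
    show τ (d (τ.symm (x * y))) = x • τ (d (τ.symm y)) + y • τ (d (τ.symm x))
    rw [map_mul, Derivation.leibniz, map_add, smul_eq_mul, smul_eq_mul, map_mul, map_mul,
      AlgEquiv.apply_symm_apply, AlgEquiv.apply_symm_apply, smul_eq_mul, smul_eq_mul]
  have hgd : g = d := by
    apply der_unique (M := M)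
    intro m
    show τ (d (τ.symm (algebraMap M L m))) = _
    obtain ⟨m', hm'⟩ := h m
    rw [AlgEquiv.commutes, hm', AlgEquiv.commutes]
  have h1 : g (τ x) = d (τ x) := by rw [hgd]
  rw [← h1]
  show τ (d x) = τ (d (τ.symm (τ x)))
  rw [AlgEquiv.symm_apply_apply]

end Crest.Agent.R102.RAT554
end
end

-- ▼ part R102/RAT2b_554
section

/-!
# Row 102, (RAT-2b) = leaf R2e, helper554

A formal chain over `(M, D₀, D₁)` all of whose elements are algebraic over a `D`-stable subfield `K`
containing the first and the last line; every mirror can be displaced alone by every monomial; then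
`b 0 ∈ K`.
-/

set_option autoImplicit false
set_option linter.unusedSectionVars false
set_option linter.style.haveILetI false

noncomputable section

namespace Crest.Agent.R102.RAT554

variable {A k : Type*} [CommRing A] [Field k] [Algebra A k] [CharZero k]
  {D : Fin 2 → Derivation A k k} {N : ℕ} {b : ℕ → k} {x : ℕ → ℕ → k} {E l : ℕ → k}
  {b' : ℕ → k} {x' : ℕ → ℕ → k} {E' l' : ℕ → k} {N' : ℕ}

/-- gradient of the first mirror label, if line `0` is a coordinate line -/
theorem first_grad (h : Chain D N b x E l) (hN : 0 < N) (h00 : D 0 (E 0 ^ 2) = 1)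
    (h10 : D 1 (E 0 ^ 2) = 0) (l00 : D 0 (l 0) = 0) (l10 : D 1 (l 0) = 1) :
    D 1 (b 0) ≠ 0 ∧ D 0 (b 0) = b 0 * D 1 (b 0) := by
  have key : ∀ i, x 0 1 * D i (b 0) = D i (E 0 ^ 2) * b 0 + E 0 ^ 2 * D i (b 0) + D i (l 0) := by
    intro i
    rw [← h.dx 0 hN 0 i, h.l0 0 hN, map_add, Derivation.leibniz, smul_eq_mul, smul_eq_mul]
    ring
  have k0 := key 0
  have k1 := key 1
  rw [h00, l00] at k0
  rw [h10, l10] at k1
  have h1 : (x 0 1 - E 0 ^ 2) * D 1 (b 0) = 1 := by linear_combination k1
  have hne : D 1 (b 0) ≠ 0 := by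
    intro h0
    rw [h0, mul_zero] at h1
    exact zero_ne_one h1
  refine ⟨hne, ?_⟩
  have h2 : (x 0 1 - E 0 ^ 2) * D 0 (b 0) = b 0 := by linear_combination k0
  linear_combination D 1 (b 0) * h2 - D 0 (b 0) * h1

/-- **formal core of RAT-2b**: two chains of the same length and with the same end lines. -/
theorem same_first (hc : ∀ f, D 0 (D 1 f) = D 1 (D 0 f)) (h : Chain D N b x E l)
    (h' : Chain D N b' x' E' l') (hN : 0 < N) (hE0 : E' 0 = E 0) (hl0 : l' 0 = l 0)
    (hEN : E' N = E N) (hlN : l' N = l N) (hS : ∀ j < N, E j ≠ E (j + 1))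
    (hS' : ∀ j < N, E' j ≠ E' (j + 1))
    (hjac : ∀ i < N, ∀ j < N, i ≠ j → jac D (b i) (b j) ≠ 0)
    (hjac' : ∀ i < N, ∀ j < N, i ≠ j → jac D (b' i) (b' j) ≠ 0)
    (h00 : D 0 (E 0 ^ 2) = 1) (h10 : D 1 (E 0 ^ 2) = 0) (l00 : D 0 (l 0) = 0)
    (l10 : D 1 (l 0) = 1)
    (disp : ∀ j < N, ∀ p : ℕ, ∃ δ : Derivation A k k, ∀ i < N, ∀ r,
      δ (x i r) - x i (r + 1) * δ (b i) = if i = j ∧ r = p then 1 else 0)
    (foc : ∀ j, 0 < j → j < N → D 1 (b j) ≠ 0 → jac D (D 0 (b j) / D 1 (b j)) (b j) ≠ 0) : b' 0 = b 0 := by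
  classical
  have hm : ∀ j : Fin N, ∃ i : Fin N, jac D (b j) (b' i) = 0 := by
    intro j
    choose δ hδ using disp j j.2
    obtain ⟨i, hi, hij⟩ := match_mirror hc h h' hE0 hl0 hEN hlN hS hS' hjac' hN j.2 δ hδ
    exact ⟨⟨i, hi⟩, hij⟩
  choose m hm using hm
  have hg' := first_grad h' hN (by rw [hE0]; exact h00) (by rw [hE0]; exact h10)
    (by rw [hl0]; exact l00) (by rw [hl0]; exact l10)
  have hg := first_grad h hN h00 h10 l00 l10
  have hinj : Function.Injective m := by
    intro j1 j2 hj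
    by_contra hne
    have hgr : D 0 (b' (m j1)) ≠ 0 ∨ D 1 (b' (m j1)) ≠ 0 := by
      by_cases h0 : m j1 = ⟨0, hN⟩
      · right
        rw [h0]
        exact hg'.1
      · have := hjac' (m j1) (m j1).2 0 hN fun he => h0 (Fin.ext he)
        by_contra hc'
        push Not at hc'
        apply this
        rw [jac, hc'.1, hc'.2, zero_mul, zero_mul, sub_zero]
    apply hjac j1 j1.2 j2 j2.2 fun he => hne (Fin.ext he)
    have e1 := hm j1
    have e2 := hm j2
    rw [← hj] at e2
    rw [jac] at e1 e2 ⊢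
    rcases hgr with hgr | hgr
    · apply mul_left_cancel₀ hgr
      linear_combination D 0 (b j2) * e1 - D 0 (b j1) * e2
    · apply mul_left_cancel₀ hgr
      linear_combination D 1 (b j2) * e1 - D 1 (b j1) * e2
  obtain ⟨j, hj⟩ := (Finite.injective_iff_surjective.mp hinj) ⟨0, hN⟩
  have e1 := hm j
  rw [hj] at e1
  have e2 : jac D (b j) (b' 0) = 0 := e1
  have hgj : D 0 (b j) ≠ 0 ∨ D 1 (b j) ≠ 0 := by
    by_cases h0 : (j : ℕ) = 0
    · right
      rw [h0]
      exact hg.1
    · have := hjac j j.2 0 hN h0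
      by_contra hc'
      push Not at hc'
      apply this
      rw [jac, hc'.1, hc'.2, zero_mul, zero_mul, sub_zero]
  have hj1 : D 1 (b j) ≠ 0 := by
    intro h0
    rw [jac, h0, zero_mul, sub_zero] at e2
    rcases mul_eq_zero.mp e2 with h1 | h1
    · rcases hgj with h2 | h2
      · exact h2 h1
      · exact h2 h0
    · exact hg'.1 h1
  have hq : b' 0 = D 0 (b j) / D 1 (b j) := by
    rw [eq_div_iff hj1]
    rw [jac, hg'.2] at e2
    apply mul_left_cancel₀ hg'.1
    linear_combination -e2
  by_cases h0 : (j : ℕ) = 0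
  · rw [hq, h0, hg.2, mul_div_assoc, div_self hg.1, mul_one]
  · exfalso
    apply foc j (Nat.pos_of_ne_zero h0) j.2 hj1
    rw [← hq, jac_swap, e2, neg_zero]

/-! ## transport of chains -/

section Transport

variable {A' k' : Type*} [CommRing A'] [Field k'] [Algebra A' k'] {D' : Fin 2 → Derivation A' k' k'}

theorem Chain.map (h : Chain D N b x E l) (φ : k →+* k') (hφ : ∀ i a, φ (D i a) = D' i (φ a)) :
    Chain D' N (fun j => φ (b j)) (fun j r => φ (x j r)) (fun j => φ (E j)) (fun j => φ (l j)) where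
  dx j hj r i := by rw [← hφ, ← hφ, h.dx j hj r i, map_mul]
  l0 j hj := by rw [h.l0 j hj, map_add, map_mul, map_pow]
  l1 j hj := by rw [h.l1 j hj, map_add, map_mul, map_pow]
  re j hj := by rw [← h.re j hj, map_mul]
  ne j hj := by
    intro h0
    exact h.ne j hj ((map_eq_zero φ).mp h0)

theorem jac_map (φ : k →+* k') (hφ : ∀ i a, φ (D i a) = D' i (φ a)) (f g : k) :
    φ (jac D f g) = jac D' (φ f) (φ g) := by
  rw [jac, jac, map_sub, map_mul, map_mul, hφ, hφ, hφ, hφ]

theorem Chain.comap {b : ℕ → k'} {x : ℕ → ℕ → k'} {E l : ℕ → k'} (h : Chain D' N b x E l)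
    (φ : k →+* k') (hφ : ∀ i a, φ (D i a) = D' i (φ a)) {b0 : ℕ → k} {x0 : ℕ → ℕ → k}
    {E0 l0 : ℕ → k} (hb : ∀ j < N, φ (b0 j) = b j) (hx : ∀ j < N, ∀ r, φ (x0 j r) = x j r)
    (hE : ∀ j ≤ N, φ (E0 j) = E j) (hl : ∀ j ≤ N, φ (l0 j) = l j) : Chain D N b0 x0 E0 l0 where
  dx j hj r i := by
    apply φ.injective
    rw [map_mul, hφ, hφ, hx j hj, hx j hj, hb j hj, h.dx j hj r i]
  l0 j hj := by
    apply φ.injective
    rw [map_add, map_mul, map_pow, hx j hj, hE j hj.le, hb j hj, hl j hj.le, h.l0 j hj]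
  l1 j hj := by
    apply φ.injective
    rw [map_add, map_mul, map_pow, hx j hj, hE (j + 1) hj, hb j hj, hl (j + 1) hj, h.l1 j hj]
  re j hj := by
    apply φ.injective
    rw [map_mul, hx j hj, hE j hj.le, hE (j + 1) hj, h.re j hj]
  ne j hj := by
    intro h0
    apply h.ne j hj
    rw [← hE j hj, h0, map_zero]

end Transport

/-! ## the theorem over an arbitrary field -/

section Final

variable {F M : Type*} [Field F] [Field M] [Algebra F M] [CharZero M]

/-- restriction of a derivation to a stable subfield -/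
def resDer (K : IntermediateField F M) (d : Derivation F M M) (h : ∀ a ∈ K, d a ∈ K) :
    Derivation F K K :=
  Derivation.mk'
    { toFun := fun a => ⟨d a, h a a.2⟩
      map_add' := fun a c => Subtype.ext (map_add d (a : M) (c : M))
      map_smul' := fun r a => Subtype.ext (Derivation.map_smul d r (a : M)) }
    fun a c => Subtype.ext (Derivation.leibniz d (a : M) (c : M))


/-- **RAT-2b** (leaf R2e). -/
theorem rat2b (D : Fin 2 → Derivation F M M) (hc : ∀ f, D 0 (D 1 f) = D 1 (D 0 f)) {N : ℕ}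
    {b : ℕ → M} {x : ℕ → ℕ → M} {E l : ℕ → M} (h : Chain D N b x E l) (hN : 0 < N)
    (hS : ∀ j < N, E j ≠ E (j + 1))
    (hjac : ∀ i < N, ∀ j < N, i ≠ j → jac D (b i) (b j) ≠ 0)
    (h00 : D 0 (E 0 ^ 2) = 1) (h10 : D 1 (E 0 ^ 2) = 0) (l00 : D 0 (l 0) = 0)
    (l10 : D 1 (l 0) = 1)
    (disp : ∀ j < N, ∀ p : ℕ, ∃ δ : Derivation F M M, ∀ i < N, ∀ r,
      δ (x i r) - x i (r + 1) * δ (b i) = if i = j ∧ r = p then 1 else 0)
    (foc : ∀ j, 0 < j → j < N → D 1 (b j) ≠ 0 → jac D (D 0 (b j) / D 1 (b j)) (b j) ≠ 0)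
    (K : IntermediateField F M) (hK : ∀ i, ∀ a ∈ K, D i a ∈ K)
    (kE0 : E 0 ∈ K) (kl0 : l 0 ∈ K) (kEN : E N ∈ K) (klN : l N ∈ K)
    (ab : ∀ j < N, IsAlgebraic K (b j)) (ax : ∀ j < N, ∀ r, IsAlgebraic K (x j r))
    (aE : ∀ j ≤ N, IsAlgebraic K (E j)) (al : ∀ j ≤ N, IsAlgebraic K (l j)) : b 0 ∈ K := by
  classical
  let Ω := AlgebraicClosure M
  haveI : CharZero Ω := charZero_of_injective_algebraMap (algebraMap M Ω).injective
  let L := algebraicClosure K Ω
  let DΩ : Fin 2 → Derivation F Ω Ω := fun i => extDer (D i)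
  have hDΩ : ∀ i a, algebraMap M Ω (D i a) = DΩ i (algebraMap M Ω a) := fun i a =>
    (extDer_apply (D i) a).symm
  have hcΩ : ∀ f, DΩ 0 (DΩ 1 f) = DΩ 1 (DΩ 0 f) := by
    have h1 : ⁅DΩ 0, DΩ 1⁆ = (0 : Derivation F Ω Ω) := by
      apply der_unique (M := M)
      intro m
      rw [Derivation.commutator_apply, ← hDΩ, ← hDΩ, ← hDΩ, ← hDΩ, hc, sub_self]
      rfl
    intro f
    have h2 := congrArg (fun d : Derivation F Ω Ω => d f) h1
    simp only [Derivation.commutator_apply] at h2
    exact sub_eq_zero.mp h2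
  let dK : Fin 2 → Derivation F K K := fun i => resDer K (D i) (hK i)
  haveI : CharZero K := ⟨fun m n hmn => Nat.cast_injective (R := M) (by
    have := congrArg (algebraMap K M) hmn
    simpa using this)⟩
  haveI : Algebra.IsAlgebraic K L := algebraicClosure.isAlgebraic K Ω
  haveI : IsAlgClosure K L := algebraicClosure.isAlgClosure K Ω
  haveI : Normal K L := IsAlgClosure.normal K L
  haveI : IsGalois K L := ⟨⟩
  let φ : L →+* Ω := algebraMap L Ω
  haveI : IsScalarTower F L Ω := ⟨fun a y z => smul_mul_assoc a (y : Ω) z⟩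
  let dL : Fin 2 → Derivation F L L := fun i => extDer (dK i)
  have hdL0 : ∀ i (a : K), dL i (algebraMap K L a) = algebraMap K L (dK i a) := fun i a =>
    extDer_apply (dK i) a
  have hφK : ∀ a : K, φ (algebraMap K L a) = algebraMap M Ω (a : M) := fun a => rfl
  have hφ : ∀ i a, φ (dL i a) = DΩ i (φ a) := by
    intro i a
    have h1 : ((Algebra.linearMap L Ω).compDer (dL i) : Derivation F L Ω) =
        (DΩ i).compAlgebraMap L := by
      apply der_unique (M := K)
      intro m
      show φ (dL i (algebraMap K L m)) = DΩ i (φ (algebraMap K L m))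
      rw [hdL0, hφK, hφK, ← hDΩ]
      rfl
    exact congrArg (fun d : Derivation F L Ω => d a) h1
  have hτ : ∀ (τ : L ≃ₐ[K] L) i a, τ (dL i a) = dL i (τ a) := fun τ i a =>
    der_aut (dL i) τ (fun m => ⟨dK i m, hdL0 i m⟩) a
  -- lifts
  have hlift : ∀ a : M, IsAlgebraic K a → ∃ y : L, φ y = algebraMap M Ω a := by
    intro a ha
    exact ⟨⟨algebraMap M Ω a, mem_algebraicClosure_iff.mpr ha.algebraMap⟩, rfl⟩
  let lift : M → L := fun a => if h : IsAlgebraic K a then (hlift a h).choose else 0
  have hl : ∀ a : M, IsAlgebraic K a → φ (lift a) = algebraMap M Ω a := by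
    intro a ha
    show φ (if h : IsAlgebraic K a then (hlift a h).choose else 0) = _
    rw [dif_pos ha]
    exact (hlift a ha).choose_spec
  have hlK : ∀ (τ : L ≃ₐ[K] L) (a : M), a ∈ K → τ (lift a) = lift a := by
    intro τ a ha
    have h1 : lift a = algebraMap K L ⟨a, ha⟩ := by
      apply φ.injective
      rw [hl a (isAlgebraic_algebraMap (⟨a, ha⟩ : K)), hφK]
    rw [h1, AlgEquiv.commutes]
  have hΩ : Chain DΩ N (fun j => algebraMap M Ω (b j)) (fun j r => algebraMap M Ω (x j r))
      (fun j => algebraMap M Ω (E j)) (fun j => algebraMap M Ω (l j)) :=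
    h.map (algebraMap M Ω) hDΩ
  have hL : Chain dL N (fun j => lift (b j)) (fun j r => lift (x j r)) (fun j => lift (E j))
      (fun j => lift (l j)) :=
    hΩ.comap φ hφ (fun j hj => hl _ (ab j hj)) (fun j hj r => hl _ (ax j hj r))
      (fun j hj => hl _ (aE j hj)) (fun j hj => hl _ (al j hj))
  have key : ∀ τ : L ≃ₐ[K] L, τ (lift (b 0)) = lift (b 0) := by
    intro τ
    let ψ : L →+* Ω := φ.comp (τ : L →+* L)
    have hψ : ∀ i a, ψ (dL i a) = DΩ i (ψ a) := by
      intro i a
      show φ (τ (dL i a)) = DΩ i (φ (τ a))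
      rw [hτ, hφ]
    have h' := hL.map ψ hψ
    have hE' : ∀ a ∈ K, ψ (lift a) = algebraMap M Ω a := by
      intro a ha
      show φ (τ (lift a)) = _
      rw [hlK τ a ha, hl a (isAlgebraic_algebraMap (⟨a, ha⟩ : K))]
    have hb : ∀ j < N, φ (lift (b j)) = algebraMap M Ω (b j) := fun j hj => hl _ (ab j hj)
    have hSL : ∀ j < N, lift (E j) ≠ lift (E (j + 1)) := by
      intro j hj he
      apply hS j hj
      apply (algebraMap M Ω).injective
      rw [← hl _ (aE j hj.le), ← hl _ (aE (j + 1) hj), he]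
    have hjL : ∀ i < N, ∀ j < N, i ≠ j → jac dL (lift (b i)) (lift (b j)) ≠ 0 := by
      intro i hi j hj hij h0
      apply hjac i hi j hj hij
      apply (algebraMap M Ω).injective
      rw [jac_map (algebraMap M Ω) hDΩ, ← hb i hi, ← hb j hj, ← jac_map φ hφ, h0, map_zero,
        map_zero]
    have h1 := same_first hcΩ hΩ h' hN (hE' _ kE0) (hE' _ kl0) (hE' _ kEN) (hE' _ klN)
      (fun j hj he => hS j hj ((algebraMap M Ω).injective he))
      (fun j hj he => hSL j hj (ψ.injective he))
      (by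
        intro i hi j hj hij h0
        apply hjac i hi j hj hij
        apply (algebraMap M Ω).injective
        rw [jac_map (algebraMap M Ω) hDΩ, h0, map_zero])
      (by
        intro i hi j hj hij h0
        apply hjL i hi j hj hij
        apply ψ.injective
        rw [jac_map ψ hψ, h0, map_zero])
      (by rw [← map_pow, ← hDΩ, h00, map_one])
      (by rw [← map_pow, ← hDΩ, h10, map_zero])
      (by rw [← hDΩ, l00, map_zero])
      (by rw [← hDΩ, l10, map_one])
      (by
        intro j hj p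
        obtain ⟨δ, hδ⟩ := disp j hj p
        refine ⟨extDer δ, fun i hi r => ?_⟩
        rw [extDer_apply, extDer_apply, ← map_mul, ← map_sub, hδ i hi r]
        split_ifs <;> simp)
      (by
        intro j h0 hj h3 h2
        apply foc j h0 hj (fun h4 => h3 (by rw [← hDΩ, h4, map_zero]))
        apply (algebraMap M Ω).injective
        rw [jac_map (algebraMap M Ω) hDΩ, map_div₀, hDΩ, hDΩ, h2, map_zero])
    apply φ.injective
    rw [hb 0 hN]
    exact h1
  obtain ⟨y, hy⟩ := (InfiniteGalois.mem_range_algebraMap_iff_fixed (lift (b 0))).mpr key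
  have h3 : algebraMap M Ω (y : M) = algebraMap M Ω (b 0) := by
    rw [← hφK, hy, hl _ (ab 0 hN)]
  have h4 : (y : M) = b 0 := (algebraMap M Ω).injective h3
  rw [← h4]
  exact y.2

end Final

end Crest.Agent.R102.RAT554
end
end

-- ▼ part R102/Rat2bStmt_554
section

/-!
# Row 102, [H3], THEOREM (RAT), leaf R2e: `RAT.Rat2bStmt` (helper554)
-/

set_option autoImplicit false

noncomputable section

namespace Crest.Agent.R102.RAT554

open Crest.Agent.R102.RAT

theorem rat2bStmt : Rat2bStmt := by
  intro M _ _ D₁ D₂ N b x E k hN h hD hF hal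
  have : CharZero M := charZero_of_injective_algebraMap (algebraMap ℂ M).injective
  let D : Fin 2 → Derivation ℂ M M := ![D₁, D₂]
  let K : IntermediateField ℂ M := KK D₁ D₂ N E k
  have hsub : ({E 0, k 0, E N, k N} : Set M) ⊆ (K : Set M) := DF389.subset_dfield _ _
  have hx : ∀ j < N, ∀ r, x j r ∈ LL N b x E k := fun j hj r =>
    IntermediateField.subset_adjoin _ _ (Or.inr ⟨j, hj, Or.inr ⟨r, rfl⟩⟩)
  have hb : ∀ j < N, b j ∈ LL N b x E k := fun j hj =>
    IntermediateField.subset_adjoin _ _ (Or.inr ⟨j, hj, Or.inl rfl⟩)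
  have h0E : E 0 ∈ LL N b x E k := IntermediateField.subset_adjoin _ _ (Or.inl (by simp))
  have h0k : k 0 ∈ LL N b x E k := IntermediateField.subset_adjoin _ _ (Or.inl (by simp))
  have hEk : ∀ j ≤ N, E j ∈ LL N b x E k ∧ k j ∈ LL N b x E k := by
    intro j
    induction j with
    | zero => intro _; exact ⟨h0E, h0k⟩
    | succ j ih =>
      intro hj
      have h1 := ih (by omega)
      have h2 : E (j + 1) = x j 1 / E j := by
        rw [eq_div_iff (h.E_ne j (by omega)), mul_comm]
        exact h.refl j hj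
      have h3 : E (j + 1) ∈ LL N b x E k := by
        rw [h2]
        exact div_mem (hx j hj 1) h1.1
      refine ⟨h3, ?_⟩
      have h4 : k (j + 1) = x j 0 - E (j + 1) ^ 2 * b j := by
        rw [h.inc' j hj]
        ring
      rw [h4]
      exact sub_mem (hx j hj 0) (mul_mem (pow_mem h3 2) (hb j hj))
  have hch : Chain D N b x E k :=
    { dx := fun j hj r i => by
        fin_cases i
        · exact h.jet₁ j hj r
        · exact h.jet₂ j hj r
      l0 := h.inc
      l1 := h.inc'
      re := h.refl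
      ne := h.E_ne }
  have hjac : ∀ i < N, ∀ j < N, i ≠ j → RAT554.jac D (b i) (b j) ≠ 0 := by
    intro i hi j hj hij
    rcases lt_or_gt_of_ne hij with hlt | hlt
    · exact h.ind i j hlt hj
    · rw [jac_swap]
      exact neg_ne_zero.mpr (h.ind j i hlt hi)
  exact rat2b D h.comm hch hN
    (fun j hj he => h.tr j hj (by rw [← h.refl j hj, ← he, sq]))
    hjac h.D₁E h.D₂E h.D₁k h.D₂k
    (by
      intro j hj p
      obtain ⟨δ, _, _, hδ⟩ := hD fun i r => if i = j ∧ r = p then 1 else 0
      refine ⟨δ, fun i hi r => ?_⟩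
      rw [hδ i hi r]
      ring)
    (by
      intro j h0 hj h1
      exact hF j h0 hj (D 0 (b j) / D 1 (b j)) (div_mul_cancel₀ _ h1))
    K (fun i a ha => DF389.dfield_stable _ _ i a ha) (hsub (by simp)) (hsub (by simp))
    (hsub (by simp)) (hsub (by simp))
    (fun j hj => hal _ (hb j hj)) (fun j hj r => hal _ (hx j hj r))
    (fun j hj => hal _ (hEk j hj).1) (fun j hj => hal _ (hEk j hj).2)

end Crest.Agent.R102.RAT554
end
end

-- ▼ part R102/RatInf_201
section

/-!
# Row 102, [H3], THEOREM (RAT), case `D = ∞` (helper201)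

`ratInf` : the literal conclusion of `Rat7217.RatGerm` for a germ all of whose derivatives are
algebraically independent (`Free781.DiffTr g c₀`).
-/

set_option autoImplicit false

open Set Filter Topology Metric TopologicalSpace

noncomputable section

namespace Crest.Agent.R102.RATINF

open Crest.Agent.R102.H3 Crest.Agent.R102.Glue798

variable {g : ℂ → ℂ} {c₀ : ℂ} {N : ℕ} {ρ : ℝ} {β m k q q' e : ℕ → ℂ × ℂ → ℂ}

/-- the generators are algebraically independent in the field of fractions -/
theorem free_M {W : Opens (ℂ × ℂ)} {M : Type} [Field M] [Algebra ℂ M] [Algebra (Hol W) M]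
    [IsScalarTower ℂ (Hol W) M] [IsFractionRing (Hol W) M] [Nonempty W]
    (hC : SChain g c₀ N ρ β m k q q' e) (hinf : Free781.DiffTr g c₀)
    (hW : (W : Set (ℂ × ℂ)) ⊆ ball c₀ ρ ×ˢ ball (0 : ℂ) ρ) :
    RAT.Free N (fun j => sM W M (fun p => p.1 + p.2 * β j p))
      (fun j r => sM W M (fun p => iteratedDeriv r g (p.1 + p.2 * β j p)))
      (fun j => sM W M (e j)) (fun j => sM W M (k j)) := by
  classical
  -- the functions
  set F : Fin 2 ⊕ (Fin (N + 1) × ℕ) → ℂ × ℂ → ℂ := Sum.elim ![m 0, k 0]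
    (fun i : Fin (N + 1) × ℕ => if i.2 = 0 then (fun p => p.1 + p.2 * β i.1 p)
      else (fun p => iteratedDeriv i.2 g (p.1 + p.2 * β i.1 p))) with hF
  have am : AnalyticOnNhd ℂ (m 0) W := (hC.an_m 0 (Nat.zero_le _)).mono hW
  have ae : AnalyticOnNhd ℂ (e 0) W := (hC.an_e 0 (Nat.zero_le _)).mono hW
  have ak : AnalyticOnNhd ℂ (k 0) W := (hC.an_k 0 (Nat.zero_le _)).mono hW
  have aF : ∀ i, AnalyticOnNhd ℂ (F i) W := by
    rintro (i | i)
    · fin_cases i
      · exact am
      · exact ak
    · rw [hF]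
      simp only [Sum.elim_inr]
      split_ifs with h
      · exact (an_b hC.toChain i.1 (Nat.lt_succ_iff.1 i.1.2)).mono hW
      · exact (an_gb hC.toChain i.1 (Nat.lt_succ_iff.1 i.1.2) i.2).mono hW
  have hinj : Function.Injective (algebraMap (Hol W) M) := IsFractionRing.injective (Hol W) M
  have key : AlgebraicIndependent ℂ (fun i => sM W M (F i)) := by
    rw [algebraicIndependent_iff]
    intro P hP
    -- the polynomial vanishes in `Hol W`
    have h1 : MvPolynomial.aeval (fun i => toH W (F i)) P = 0 := by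
      apply hinj
      rw [map_zero, ← hP]
      have : (IsScalarTower.toAlgHom ℂ (Hol W) M) (MvPolynomial.aeval (fun i => toH W (F i)) P) =
          MvPolynomial.aeval (fun i => sM W M (F i)) P := by
        rw [MvPolynomial.comp_aeval_apply]
        rfl
      exact this
    refine Free781.free_fun hC.toChain hinf P (W : Set (ℂ × ℂ)) W.isOpen ?_ hW ?_
    · obtain ⟨x⟩ := ‹Nonempty W›
      exact ⟨x, x.2⟩
    intro p hp
    have h2 := congrArg (evH (⟨p, hp⟩ : W)) h1
    rw [map_zero, MvPolynomial.comp_aeval_apply] at h2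
    have e1 : (fun i => evH (⟨p, hp⟩ : W) (toH W (F i))) = Sum.elim ![m 0 p, k 0 p]
      (fun i : Fin (N + 1) × ℕ => if i.2 = 0 then p.1 + p.2 * β i.1 p
        else iteratedDeriv i.2 g (p.1 + p.2 * β i.1 p)) := by
      funext i
      have e2 : evH (⟨p, hp⟩ : W) (toH W (F i)) = F i p := toH_apply (aF i) _
      rw [e2]
      rcases i with i | i
      · fin_cases i <;> rfl
      · simp only [hF, Sum.elim_inr]
        split_ifs <;> rfl
    rw [e1] at h2
    exact h2
  -- restriction of the index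
  have h3 := key.comp (Sum.map id (fun i : Fin N × ℕ => ((⟨i.1, by omega⟩ : Fin (N + 1)), i.2)))
    (by
      rintro (i | ⟨i, i'⟩) (j | ⟨j, j'⟩) h
      · simpa using h
      · simp at h
      · simp at h
      · simp only [Sum.map_inr, Sum.inr.injEq, Prod.mk.injEq, Fin.mk.injEq] at h
        rw [Fin.ext h.1, h.2])
  have h4 : ((fun i => sM W M (F i)) ∘ (Sum.map id (fun i : Fin N × ℕ =>
      ((⟨i.1, by omega⟩ : Fin (N + 1)), i.2)))) =
      Sum.elim (![sM W M (e 0) ^ 2, sM W M (k 0)] : Fin 2 → M)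
        (fun i : Fin N × ℕ => if i.2 = 0 then sM W M (fun p => p.1 + p.2 * β i.1 p)
          else sM W M (fun p => iteratedDeriv i.2 g (p.1 + p.2 * β i.1 p))) := by
    funext i
    rcases i with i | i
    · fin_cases i
      · show sM W M (m 0) = sM W M (e 0) ^ 2
        rw [sq, ← sM_mul ae ae]
        refine sM_congr am (an_mul ae ae) fun p hp => ?_
        rw [← sq]; exact (hC.e_sq 0 (Nat.zero_le _) p (hW hp)).symm
      · rfl
    · simp only [Function.comp, hF, Sum.map_inr, Sum.elim_inr]
      split_ifs <;> rfl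
  rw [h4] at h3
  exact h3

/-- **case `D = ∞` of (RAT)** -/
theorem ratInf (hN : 0 < N) (hC0 : F7389.Chain g c₀ N ρ β m k q q') (hinf : Free781.DiffTr g c₀) :
    ∃ W : Opens (ℂ × ℂ), (W : Set (ℂ × ℂ)).Nonempty ∧ IsPreconnected (W : Set (ℂ × ℂ)) ∧
      (W : Set (ℂ × ℂ)) ⊆ ball c₀ ρ ×ˢ ball 0 ρ ∧ (∀ x ∈ W, x.2 ≠ 0) ∧
      ∃ E0 k0 EN kN b0 : Hol W,
        (∀ x : W, (E0 : W → ℂ) x ^ 2 = m 0 x ∧ (EN : W → ℂ) x ^ 2 = m N x ∧
          (k0 : W → ℂ) x = k 0 x ∧ (kN : W → ℂ) x = k N x ∧
          (b0 : W → ℂ) x = (x : ℂ × ℂ).1 + (x : ℂ × ℂ).2) ∧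
        ∀ (M : Type) [Field M] [Algebra ℂ M] [Algebra (Hol W) M] [IsScalarTower ℂ (Hol W) M]
          [IsFractionRing (Hol W) M] (D₁ D₂ : Derivation ℂ M M),
          Rat7217.Dual (E0 ^ 2) k0 D₁ D₂ →
          algebraMap (Hol W) M b0 ∈ DF389.dfield ![D₁, D₂]
            {algebraMap (Hol W) M E0, algebraMap (Hol W) M k0, algebraMap (Hol W) M EN,
              algebraMap (Hol W) M kN} := by
  obtain ⟨e, R, hR, hRρ, hS⟩ := exists_sqrt hC0
  have hC := hS R hR le_rfl
  -- the open set
  set W : Opens (ℂ × ℂ) := ⟨ball c₀ R ×ˢ ball ((R / 2 : ℝ) : ℂ) (R / 4),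
    isOpen_ball.prod isOpen_ball⟩ with hWdef
  have hWR : (W : Set (ℂ × ℂ)) ⊆ ball c₀ R ×ˢ ball (0 : ℂ) R := by
    refine Set.prod_mono le_rfl ?_
    refine ball_subset_ball' ?_
    rw [dist_zero_right, Complex.norm_real, Real.norm_of_nonneg (by positivity)]
    linarith
  have hc : ((c₀, ((R / 2 : ℝ) : ℂ)) : ℂ × ℂ) ∈ W :=
    ⟨mem_ball_self hR, mem_ball_self (by positivity)⟩
  have hne : Nonempty W := ⟨⟨_, hc⟩⟩
  have h0 : ∀ x ∈ W, x.2 ≠ 0 := by
    intro x hx h
    have h1 : x.2 ∈ ball ((R / 2 : ℝ) : ℂ) (R / 4) := hx.2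
    rw [h, mem_ball, dist_comm, dist_zero_right, Complex.norm_real,
      Real.norm_of_nonneg (by positivity)] at h1
    linarith
  have am : ∀ i ≤ N, AnalyticOnNhd ℂ (m i) W := fun i hi => (hC.an_m i hi).mono hWR
  have ak : ∀ i ≤ N, AnalyticOnNhd ℂ (k i) W := fun i hi => (hC.an_k i hi).mono hWR
  have ae : ∀ i ≤ N, AnalyticOnNhd ℂ (e i) W := fun i hi => (hC.an_e i hi).mono hWR
  have ab : ∀ i ≤ N, AnalyticOnNhd ℂ (fun p : ℂ × ℂ => p.1 + p.2 * β i p) W := fun i hi =>
    (an_b hC.toChain i hi).mono hWR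
  refine ⟨W, ⟨_, hc⟩, (convex_ball c₀ R).isPreconnected.prod (convex_ball _ _).isPreconnected,
    hWR.trans (sub_polydisc hRρ), h0, toH W (e 0), toH W (k 0), toH W (e N), toH W (k N),
    toH W (fun p => p.1 + p.2 * β 0 p), ?_, ?_⟩
  · intro x
    rw [toH_apply (ae 0 (Nat.zero_le _)), toH_apply (ae N le_rfl), toH_apply (ak 0 (Nat.zero_le _)),
      toH_apply (ak N le_rfl), toH_apply (ab 0 (Nat.zero_le _)),
      hC.e_sq 0 (Nat.zero_le _) x (hWR x.2), hC.e_sq N le_rfl x (hWR x.2), hC.β_zero, mul_one]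
    exact ⟨rfl, rfl, rfl, rfl, rfl⟩
  · intro M _ _ _ _ _ D₁ D₂ hD
    have hsq : toH W (e 0) ^ 2 = toH W (m 0) := by
      ext x
      rw [toH_apply (am 0 (Nat.zero_le _)), ← hC.e_sq 0 (Nat.zero_le _) x (hWR x.2)]
      show (toH W (e 0) : W → ℂ) x ^ 2 = _
      rw [toH_apply (ae 0 (Nat.zero_le _))]
    rw [hsq] at hD
    have hFC := fchain hC hWR hD
    have hfree := free_M (M := M) hC hinf hWR
    have hdisp : RAT.Disp N (fun j => sM W M (fun p => p.1 + p.2 * β j p))
        (fun j r => sM W M (fun p => iteratedDeriv r g (p.1 + p.2 * β j p)))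
        (fun j => sM W M (e j)) (fun j => sM W M (k j)) := RAT.disp M D₁ D₂ N _ _ _ _ hFC hfree
    have hinj : Function.Injective (algebraMap (Hol W) M) := IsFractionRing.injective (Hol W) M
    have hfoc : RAT.Foc D₁ D₂ N (fun j => sM W M (fun p => p.1 + p.2 * β j p)) := by
      have hj1 : algebraMap (Hol W) M (Foc554.jH (toH W (m 0)) (toH W (k 0))) ≠ 0 := by
        have := hD.ne
        rw [jcb217] at this
        exact this
      have hj2 : ∀ f : Hol W, algebraMap (Hol W) M (Foc554.jH (toH W (m 0)) (toH W (k 0))) *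
          D₁ (algebraMap (Hol W) M f) = algebraMap (Hol W) M (Foc554.jH f (toH W (k 0))) := by
        intro f
        have := hD.d₁ f
        rw [jcb217, jcb217] at this
        exact this
      have hj3 : ∀ f : Hol W, algebraMap (Hol W) M (Foc554.jH (toH W (m 0)) (toH W (k 0))) *
          D₂ (algebraMap (Hol W) M f) = algebraMap (Hol W) M (Foc554.jH (toH W (m 0)) f) := by
        intro f
        have := hD.d₂ f
        rw [jcb217, jcb217] at this
        exact this
      intro j hj0 hjN Q hQ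
      exact Foc554.foc hC.toChain hWR (algebraMap (Hol W) M) hinj D₁ D₂ hj1 hj2 hj3 hjN.le hj0 Q hQ
    have hmem := RAT554.rat2bStmt M D₁ D₂ N _ _ _ _ hN hFC hdisp hfoc
      (RAT.rat2a M D₁ D₂ N _ _ _ _ hFC hdisp)
    exact hmem

end Crest.Agent.R102.RATINF
end
end

-- ▼ part R102/RatAsm_926

/-!
# Row 102, [H3], THEOREM (RAT): assembly (helper926)
-/

set_option autoImplicit false

open Set Filter Topology Metric TopologicalSpace

noncomputable section

namespace Crest.Agent.R102.RAT

open Crest.Agent.R102.H3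

theorem ratInfStmt : RatInfStmt := by
  intro g c₀ N ρ β m k q q' hN hC hD
  exact RATINF.ratInf hN (chain_mono hC (by omega) hC.ρ_pos (le_refl _) le_rfl) hD

theorem ratGerm2_of_leaves (hCT : CTStmt) (hR4 : R4Stmt) (hRun : RunStmt) : RatGerm2 :=
  ratGerm2_of ratInfStmt (ratFin hCT hR4 hRun)

end Crest.Agent.R102.RAT
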