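import Mathlib
import Crest.Agent.R102.RatTrans_217
import Crest.Agent.R102.C0Defs_821

/-!
Row 102, (RAT), R7 (helper217): the differential field of an analytic family of lines.

`U N` = the points `(t, w)` with `(t, w), (t + N w, w) ∈ PD ρ r`; in the field of fractions of
`Hol (U N)`: if the first vertex lies in the differential field generated by the lines `0` and `N`
(for all `N ≥ 1`), so do all lines `j ≤ N`.
-/

set_option autoImplicit false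
set_option linter.unusedSectionVars false

open Set Filter Topology Metric TopologicalSpace

noncomputable section

namespace Crest.Agent.R102.Rat7217

open Crest.Agent.R102.Mer88 Crest.Agent.R102.H3 Crest.Agent.R102.MerF217 Crest.Agent.R102.DF389
open Crest.Agent.R102.C0 Crest.Agent.R102.B821 Crest.Agent.R102.T5 Crest.Agent.R102.G576
open Crest.Agent.R102.A929
open Crest.Agent.R102.Glue798 (pdH frD frMap toH frD_algebraMap frMap_algebraMap fr_ext frD_ext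
  pdH_apply toH_apply ext0_toH)

/-! ### the domains -/

theorem isOpen_PD (ρ r : ℝ) : IsOpen (PD ρ r) :=
  (isOpen_lt (continuous_abs.comp (Complex.continuous_im.comp continuous_fst))
    continuous_const).inter (isOpen_lt (continuous_norm.comp continuous_snd) continuous_const)

theorem convex_PD (ρ r : ℝ) : Convex ℝ (PD ρ r) := by
  have h1 : Convex ℝ {p : ℂ × ℂ | |p.1.im| < ρ} := by
    have : {p : ℂ × ℂ | |p.1.im| < ρ} = (fun p : ℂ × ℂ => p.1.im) ⁻¹' (ball 0 ρ) := by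
      ext p; simp [Real.dist_eq]
    rw [this]
    exact (convex_ball (0 : ℝ) ρ).is_linear_preimage
      ⟨fun x y => by simp, fun c x => by simp⟩
  have h2 : Convex ℝ {p : ℂ × ℂ | ‖p.2‖ < r} := by
    have : {p : ℂ × ℂ | ‖p.2‖ < r} = (fun p : ℂ × ℂ => p.2) ⁻¹' (ball 0 r) := by
      ext p; simp
    rw [this]
    exact (convex_ball (0 : ℂ) r).is_linear_preimage
      ⟨fun x y => by simp, fun c x => by simp⟩
  exact h1.inter h2

/-- the shear `(t, w) ↦ (t + s w, w)` -/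
def sh (s : ℂ) (x : ℂ × ℂ) : ℂ × ℂ := (x.1 + s * x.2, x.2)


theorem continuous_sh (s : ℂ) : Continuous (sh s) := by unfold sh; fun_prop

theorem analyticAt_sh (s : ℂ) (x : ℂ × ℂ) : AnalyticAt ℂ (sh s) x :=
  (analyticAt_fst.add (analyticAt_const.mul analyticAt_snd)).prod analyticAt_snd

theorem sh_mem_PD {ρ r : ℝ} {x : ℂ × ℂ} {N : ℕ} (h0 : x ∈ PD ρ r) (h1 : sh N x ∈ PD ρ r)
    {s : ℝ} (hs0 : 0 ≤ s) (hs1 : s ≤ N) : sh (s : ℂ) x ∈ PD ρ r := by
  refine ⟨?_, h0.2⟩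
  have e1 : |x.1.im| < ρ := h0.1
  have e2 : |x.1.im + N * x.2.im| < ρ := by
    have := h1.1
    simpa [sh, Complex.add_im, Complex.mul_im] using this
  have e3 : (sh (s : ℂ) x).1.im = x.1.im + s * x.2.im := by
    simp [sh, Complex.add_im, Complex.mul_im]
  show |(sh (s : ℂ) x).1.im| < ρ
  rw [e3, abs_lt]
  rw [abs_lt] at e1 e2
  rcases le_total 0 x.2.im with h | h
  · constructor
    · nlinarith [mul_nonneg hs0 h]
    · nlinarith [mul_le_mul_of_nonneg_right hs1 h]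
  · constructor
    · nlinarith [mul_le_mul_of_nonpos_right hs1 h]
    · nlinarith [mul_nonpos_of_nonneg_of_nonpos hs0 h]

/-- the domain of the chain of `N` mirrors -/
def UN (ρ r : ℝ) (N : ℕ) : Opens (ℂ × ℂ) :=
  ⟨{x | x ∈ PD ρ r ∧ sh N x ∈ PD ρ r},
    (isOpen_PD ρ r).inter ((isOpen_PD ρ r).preimage (continuous_sh N))⟩


theorem UN_pre (ρ r : ℝ) (N : ℕ) : IsPreconnected ((UN ρ r N : Opens (ℂ × ℂ)) : Set (ℂ × ℂ)) := by
  refine Convex.isPreconnected ?_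
  refine (convex_PD ρ r).inter ((convex_PD ρ r).is_linear_preimage ?_)
  exact ⟨fun x y => by simp only [sh]; ext <;> simp; ring, fun c x => by
    simp only [sh]; ext <;> simp; ring⟩

theorem zero_mem_UN {ρ r : ℝ} (hρ : 0 < ρ) (hr : 0 < r) (N : ℕ) : ((0, 0) : ℂ × ℂ) ∈ UN ρ r N := by
  refine ⟨⟨?_, ?_⟩, ⟨?_, ?_⟩⟩ <;> simp [sh, hρ, hr]

theorem sh_mem {ρ r : ℝ} {N : ℕ} {x : ℂ × ℂ} (hx : x ∈ UN ρ r N) {j : ℕ} (hj : j ≤ N) :
    sh j x ∈ PD ρ r := by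
  have := sh_mem_PD hx.1 hx.2 (s := (j : ℝ)) (Nat.cast_nonneg j) (by exact_mod_cast hj)
  simpa using this

theorem sh_half_mem {ρ r : ℝ} {N : ℕ} {x : ℂ × ℂ} (hx : x ∈ UN ρ r N) (hN : 0 < N) :
    sh (1 / 2) x ∈ PD ρ r := by
  have h1 : (1 : ℝ) ≤ N := by exact_mod_cast hN
  have := sh_mem_PD hx.1 hx.2 (s := 1 / 2) (by norm_num) (by linarith)
  simpa using this

/-- the shear maps `U N` to `U (N - 1)` -/
theorem sh_one_mem {ρ r : ℝ} {N : ℕ} {x : ℂ × ℂ} (hx : x ∈ UN ρ r (N + 1)) :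
    sh 1 x ∈ UN ρ r N := by
  refine ⟨by simpa using sh_mem hx (j := 1) (by omega), ?_⟩
  have e : sh (N : ℂ) (sh 1 x) = sh ((N + 1 : ℕ) : ℂ) x := by
    simp only [sh, Nat.cast_add, Nat.cast_one]
    ext
    · simp only; ring
    · rfl
  rw [e]
  exact hx.2

section fam

variable {q : C(ℂ, ℂ)} {η ρ r B : ℝ} {b φ p : ℂ × ℂ → ℂ} {m₀ : ℂ → ℂ}

theorem an_φ (hF : LineFam q η ρ r B b φ p m₀) : AnalyticOnNhd ℂ φ (PD ρ r) :=
  R266.SCV.analyticOnNhd_of_differentiableOn (isOpen_PD ρ r) hF.φ_diff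

theorem an_p (hF : LineFam q η ρ r B b φ p m₀) : AnalyticOnNhd ℂ p (PD ρ r) :=
  R266.SCV.analyticOnNhd_of_differentiableOn (isOpen_PD ρ r) hF.p_diff

theorem an_b (hF : LineFam q η ρ r B b φ p m₀) : AnalyticOnNhd ℂ b (PD ρ r) :=
  R266.SCV.analyticOnNhd_of_differentiableOn (isOpen_PD ρ r) hF.b_diff

/-- the functions of the lines and of the first vertex -/
def fe (φ : ℂ × ℂ → ℂ) (j : ℕ) (x : ℂ × ℂ) : ℂ := Complex.exp (Complex.I * φ (sh j x))
def fp (p : ℂ × ℂ → ℂ) (j : ℕ) (x : ℂ × ℂ) : ℂ := p (sh j x)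
def fb (q : C(ℂ, ℂ)) (b : ℂ × ℂ → ℂ) (x : ℂ × ℂ) : ℂ := Zs q (-1) (b (sh (1 / 2) x))

theorem an_fe (hF : LineFam q η ρ r B b φ p m₀) {N j : ℕ} (hj : j ≤ N) :
    AnalyticOnNhd ℂ (fe φ j) (UN ρ r N) := fun x hx =>
  (analyticAt_const.mul ((an_φ hF _ (sh_mem hx hj)).comp' (analyticAt_sh j x))).cexp

theorem an_fp (hF : LineFam q η ρ r B b φ p m₀) {N j : ℕ} (hj : j ≤ N) :
    AnalyticOnNhd ℂ (fp p j) (UN ρ r N) := fun x hx =>
  (an_p hF _ (sh_mem hx hj)).comp' (analyticAt_sh j x)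

theorem b_mem_Str (hF : LineFam q η ρ r B b φ p m₀) {x : ℂ × ℂ} (hx : x ∈ PD ρ r) :
    b x ∈ Str η := (hF.b_mem x hx).trans hF.ρ_lt

theorem an_fb (hF : LineFam q η ρ r B b φ p m₀) {N : ℕ} (hN : 0 < N) :
    AnalyticOnNhd ℂ (fb q b) (UN ρ r N) := by
  intro x hx
  have h1 : AnalyticAt ℂ b (sh (1 / 2) x) := an_b hF _ (sh_half_mem hx hN)
  have h2 : AnalyticAt ℂ (Zs q (-1)) (b (sh (1 / 2) x)) :=
    (hF.dat.Zs_diff (-1)).analyticAt ((isOpen_Str η).mem_nhds (b_mem_Str hF (sh_half_mem hx hN)))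
  exact AnalyticAt.comp' (g := Zs q (-1)) (f := fun x => b (sh (1 / 2) x)) h2
    (h1.comp' (analyticAt_sh _ x))

/-- the corresponding elements of `Hol (U N)` -/
def eH (ρ r : ℝ) (φ : ℂ × ℂ → ℂ) (N j : ℕ) : Hol (UN ρ r N) := toH (UN ρ r N) (fe φ j)
def pH (ρ r : ℝ) (p : ℂ × ℂ → ℂ) (N j : ℕ) : Hol (UN ρ r N) := toH (UN ρ r N) (fp p j)
def bH (ρ r : ℝ) (q : C(ℂ, ℂ)) (b : ℂ × ℂ → ℂ) (N : ℕ) : Hol (UN ρ r N) :=
  toH (UN ρ r N) (fb q b)

/-- the constant `2 i` -/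
def cI (ρ r : ℝ) (N : ℕ) : Hol (UN ρ r N) := algebraMap ℂ (Hol (UN ρ r N)) (2 * Complex.I)

/-- intercept of the line `j` -/
def kH (ρ r : ℝ) (φ p : ℂ × ℂ → ℂ) (N j : ℕ) : Hol (UN ρ r N) :=
  cI ρ r N * pH ρ r p N j * eH ρ r φ N j

theorem eH_apply (hF : LineFam q η ρ r B b φ p m₀) {N j : ℕ} (hj : j ≤ N) (x : UN ρ r N) :
    (eH ρ r φ N j : UN ρ r N → ℂ) x = Complex.exp (Complex.I * φ (sh j x)) :=
  toH_apply (an_fe hF hj) x

theorem pH_apply (hF : LineFam q η ρ r B b φ p m₀) {N j : ℕ} (hj : j ≤ N) (x : UN ρ r N) :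
    (pH ρ r p N j : UN ρ r N → ℂ) x = p (sh j x) :=
  toH_apply (an_fp hF hj) x

theorem bH_apply (hF : LineFam q η ρ r B b φ p m₀) {N : ℕ} (hN : 0 < N) (x : UN ρ r N) :
    (bH ρ r q b N : UN ρ r N → ℂ) x = Zs q (-1) (b (sh (1 / 2) x)) :=
  toH_apply (an_fb hF hN) x

theorem kH_apply (hF : LineFam q η ρ r B b φ p m₀) {N j : ℕ} (hj : j ≤ N) (x : UN ρ r N) :
    (kH ρ r φ p N j : UN ρ r N → ℂ) x =
      2 * Complex.I * p (sh j x) * Complex.exp (Complex.I * φ (sh j x)) := by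
  show (2 * Complex.I) * (pH ρ r p N j : UN ρ r N → ℂ) x * (eH ρ r φ N j : UN ρ r N → ℂ) x = _
  rw [eH_apply hF hj, pH_apply hF hj]

/-- incidence in slope form -/
theorem onLine_slope {φ p Z Zc : ℂ} (h : OnLine φ p Z Zc) :
    Z = Complex.exp (Complex.I * φ) ^ 2 * Zc + 2 * Complex.I * p * Complex.exp (Complex.I * φ) := by
  unfold OnLine at h
  have h1 : Complex.exp (Complex.I * φ) * Complex.exp (-(Complex.I * φ)) = 1 := by
    rw [← Complex.exp_add]; simp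
  linear_combination Complex.exp (Complex.I * φ) * h - Z * h1

/-- incidence at the first vertex -/
theorem inc0 (hF : LineFam q η ρ r B b φ p m₀) {N : ℕ} (hN : 0 < N) {x : ℂ × ℂ}
    (hx : x ∈ UN ρ r N) : Zs q 1 (b (sh (1 / 2) x)) =
      Complex.exp (Complex.I * φ x) ^ 2 * Zs q (-1) (b (sh (1 / 2) x)) +
        2 * Complex.I * p x * Complex.exp (Complex.I * φ x) := by
  have e : sh (1 / 2) x = (x.1 + x.2 / 2, x.2) := by simp only [sh]; ring_nf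
  have h := hF.inc x.1 x.2 hx.1 (by rw [← e]; exact sh_half_mem hx hN)
  rw [← e] at h
  exact onLine_slope h

theorem inc1 (hF : LineFam q η ρ r B b φ p m₀) {N : ℕ} (hN : 0 < N) {x : ℂ × ℂ}
    (hx : x ∈ UN ρ r N) : Zs q 1 (b (sh (1 / 2) x)) =
      Complex.exp (Complex.I * φ (sh 1 x)) ^ 2 * Zs q (-1) (b (sh (1 / 2) x)) +
        2 * Complex.I * p (sh 1 x) * Complex.exp (Complex.I * φ (sh 1 x)) := by
  have e : sh (1 / 2) x = ((sh 1 x).1 - (sh 1 x).2 / 2, (sh 1 x).2) := by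
    simp only [sh]; ring_nf
  have h := hF.inc' (sh 1 x).1 (sh 1 x).2 (by simpa using sh_mem hx (j := 1) hN)
    (by rw [← e]; exact sh_half_mem hx hN)
  rw [← e] at h
  exact onLine_slope h

theorem refl1 (hF : LineFam q η ρ r B b φ p m₀) {N : ℕ} (hN : 0 < N) {x : ℂ × ℂ}
    (hx : x ∈ UN ρ r N) : φ x + φ (sh 1 x) = 2 * Tc q (b (sh (1 / 2) x)) := by
  have e0 : x = ((sh (1 / 2) x).1 - (sh (1 / 2) x).2 / 2, (sh (1 / 2) x).2) := by
    simp only [sh]; ext <;> simp; ring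
  have e1 : sh 1 x = ((sh (1 / 2) x).1 + (sh (1 / 2) x).2 / 2, (sh (1 / 2) x).2) := by
    simp only [sh]; ext <;> simp; ring
  have h := hF.refl (sh (1 / 2) x).1 (sh (1 / 2) x).2 (sh_half_mem hx hN)
    (by rw [← e0]; exact hx.1) (by rw [← e1]; simpa using sh_mem hx (j := 1) hN)
  rw [← e0, ← e1] at h
  exact h

/-- the derivatives in `t` of the coordinates of the first vertex -/
theorem hasD (hF : LineFam q η ρ r B b φ p m₀) {N : ℕ} (hN : 0 < N) {x : ℂ × ℂ}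
    (hx : x ∈ UN ρ r N) (s : ℂ) :
    fderiv ℂ (fun y => Zs q s (b (sh (1 / 2) y))) x (1, 0) =
      vel q s (b (sh (1 / 2) x)) * q1 b (sh (1 / 2) x) := by
  have hm := sh_half_mem hx hN
  have h1 : HasFDerivAt b (fderiv ℂ b (sh (1 / 2) x)) (sh (1 / 2) x) :=
    (an_b hF _ hm).differentiableAt.hasFDerivAt
  have h2 : HasFDerivAt (sh (1 / 2)) (fderiv ℂ (sh (1 / 2)) x) x :=
    (analyticAt_sh _ x).differentiableAt.hasFDerivAt
  have h3 : HasDerivAt (Zs q s) (vel q s (b (sh (1 / 2) x))) (b (sh (1 / 2) x)) :=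
    hF.dat.hasDerivAt_Zs s (b_mem_Str hF hm)
  have h4 := h3.comp_hasFDerivAt x (h1.comp x h2)
  have h5 : fderiv ℂ (sh (1 / 2)) x (1, 0) = (1, 0) := by
    have e : sh (1 / 2) = fun y : ℂ × ℂ => (y.1 + 1 / 2 * y.2, y.2) := rfl
    have h6 : HasFDerivAt (fun y : ℂ × ℂ => (y.1 + 1 / 2 * y.2, y.2))
        (((ContinuousLinearMap.fst ℂ ℂ ℂ) + (1 / 2 : ℂ) • (ContinuousLinearMap.snd ℂ ℂ ℂ)).prod
          (ContinuousLinearMap.snd ℂ ℂ ℂ)) x := by
      refine HasFDerivAt.prodMk ?_ hasFDerivAt_snd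
      exact hasFDerivAt_fst.add (hasFDerivAt_snd.const_mul (1 / 2 : ℂ))
    rw [e, h6.fderiv]
    simp
  have h7 : HasFDerivAt (fun y => Zs q s (b (sh (1 / 2) y))) _ x := h4
  rw [h7.fderiv]
  simp only [ContinuousLinearMap.smul_apply, ContinuousLinearMap.comp_apply, h5, smul_eq_mul, q1]

theorem q1b_ne (hF : LineFam q η ρ r B b φ p m₀) {x : ℂ × ℂ} (hx : x ∈ PD ρ r) : q1 b x ≠ 0 := by
  intro h
  have := hF.b_t x hx
  rw [h] at this
  norm_num at this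

end fam

end Crest.Agent.R102.Rat7217
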