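import Mathlib
import Crest.Agent.R102.RatInd_217
import Crest.Agent.R102.RATDefs4_926
import Crest.Agent.R102.Match_337_Mg
import Crest.Agent.R102.SpineDefs_478
import Crest.Agent.R102.RatAsm_926
import Crest.Agent.R102.CT_575
import Crest.Agent.R102.Rat1_389

-- ▼ part R102/RatCont_217
section

/-!
Row 102, (RAT), R7 (helper217): `ratCont : RatGerm2 → Spine.RatCont`.
-/

set_option autoImplicit false
set_option linter.unusedSectionVars false

open Set Filter Topology Metric TopologicalSpace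

noncomputable section

namespace Crest.Agent.R102.Rat7217

open Crest.Agent.R102.Mer88 Crest.Agent.R102.H3 Crest.Agent.R102.MerF217 Crest.Agent.R102.DF389
open Crest.Agent.R102.C0 Crest.Agent.R102.B821 Crest.Agent.R102.T5 Crest.Agent.R102.G576
open Crest.Agent.R102.A929
open Crest.Agent.R102.Glue798 (pdH frD frMap toH frD_algebraMap frMap_algebraMap fr_ext frD_ext
  pdH_apply toH_apply ext0_toH)

variable {q : C(ℂ, ℂ)} {η ρ r B : ℝ} {b φ p : ℂ × ℂ → ℂ} {m₀ : ℂ → ℂ}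

/-! ### the Jacobian of the first line -/

theorem m0_ne (hF : LineFam q η ρ r B b φ p m₀) {w : ℂ} (hw : ‖w‖ < r) : m₀ w ≠ 0 := by
  intro h
  have := hF.m_near w hw
  rw [h] at this
  norm_num at this

theorem jcb_ne (hF : LineFam q η ρ r B b φ p m₀) (N : ℕ) :
    jcb (eH ρ r φ N 0 ^ 2) (kH ρ r φ p N 0) ≠ 0 := by
  intro h
  set x₀ : ℂ × ℂ := (0, ((r / 2 : ℝ) : ℂ)) with hx₀
  have hr := hF.r_pos
  have hρ := hF.ρ_pos
  have hn : ‖((r / 2 : ℝ) : ℂ)‖ < r := by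
    rw [Complex.norm_real, Real.norm_of_nonneg (by linarith)]; linarith
  have hx : x₀ ∈ UN ρ r N := by
    refine ⟨⟨?_, ?_⟩, ⟨?_, ?_⟩⟩
    · simpa [hx₀] using hρ
    · exact hn
    · show |(0 + (N : ℂ) * ((r / 2 : ℝ) : ℂ)).im| < ρ
      have : (0 + (N : ℂ) * ((r / 2 : ℝ) : ℂ)).im = 0 := by
        rw [zero_add, Complex.mul_im]; simp
      rw [this, abs_zero]; exact hρ
    · exact hn
  have hPD : x₀ ∈ PD ρ r := hx.1
  have h1 := congrArg (fun F : Hol (UN ρ r N) => (F : UN ρ r N → ℂ) ⟨x₀, hx⟩) h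
  -- the derivatives
  have aφ : AnalyticAt ℂ φ x₀ := an_φ hF _ hPD
  have ap : AnalyticAt ℂ p x₀ := an_p hF _ hPD
  have ee : fe φ 0 = fun x => Complex.exp (Complex.I * φ x) := by
    funext x; simp only [fe, Nat.cast_zero, sh_zero]
  have ep : fp p 0 = p := by
    funext x; simp only [fp, Nat.cast_zero, sh_zero]
  have de : ∀ v : ℂ × ℂ, (pdH (UN ρ r N) v (eH ρ r φ N 0) : UN ρ r N → ℂ) ⟨x₀, hx⟩ =
      Complex.exp (Complex.I * φ x₀) * (Complex.I * fderiv ℂ φ x₀ v) := by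
    intro v
    rw [eH, pd_toH_apply (an_fe hF (Nat.zero_le N)), ee]
    have h2 : HasFDerivAt (fun x => Complex.exp (Complex.I * φ x))
        (Complex.exp (Complex.I * φ x₀) • (Complex.I • fderiv ℂ φ x₀)) x₀ :=
      (aφ.differentiableAt.hasFDerivAt.const_mul Complex.I).cexp
    rw [h2.fderiv]
    simp
  have dp : ∀ v : ℂ × ℂ, (pdH (UN ρ r N) v (pH ρ r p N 0) : UN ρ r N → ℂ) ⟨x₀, hx⟩ =
      fderiv ℂ p x₀ v := by
    intro v
    rw [pH, pd_toH_apply (an_fp hF (Nat.zero_le N)), ep]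
  have dc : ∀ v : ℂ × ℂ, pdH (UN ρ r N) v (cI ρ r N) = 0 := by
    intro v
    rw [cI, Derivation.map_algebraMap]
  have j1 : jcb (eH ρ r φ N 0 ^ 2) (kH ρ r φ p N 0) = 2 * cI ρ r N * eH ρ r φ N 0 ^ 2 *
      (pdH (UN ρ r N) (1, 0) (eH ρ r φ N 0) * pdH (UN ρ r N) (0, 1) (pH ρ r p N 0) -
        pdH (UN ρ r N) (0, 1) (eH ρ r φ N 0) * pdH (UN ρ r N) (1, 0) (pH ρ r p N 0)) := by
    simp only [jcb, dV_eq, kH, Derivation.leibniz, Derivation.leibniz_pow, dc, smul_eq_mul,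
      nsmul_eq_mul]
    push_cast
    ring
  rw [j1] at h1
  have h2 : 2 * (2 * Complex.I) * (eH ρ r φ N 0 : UN ρ r N → ℂ) ⟨x₀, hx⟩ ^ 2 *
      ((pdH (UN ρ r N) (1, 0) (eH ρ r φ N 0) : UN ρ r N → ℂ) ⟨x₀, hx⟩ *
        (pdH (UN ρ r N) (0, 1) (pH ρ r p N 0) : UN ρ r N → ℂ) ⟨x₀, hx⟩ -
      (pdH (UN ρ r N) (0, 1) (eH ρ r φ N 0) : UN ρ r N → ℂ) ⟨x₀, hx⟩ *
        (pdH (UN ρ r N) (1, 0) (pH ρ r p N 0) : UN ρ r N → ℂ) ⟨x₀, hx⟩) = 0 := h1
  rw [de, de, dp, dp, eH_apply hF (Nat.zero_le N)] at h2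
  have area := hF.area 0 ((r / 2 : ℝ) : ℂ) hPD
  rw [← hx₀] at area
  simp only [q1, q2] at area
  simp only [Nat.cast_zero, sh_zero] at h2
  set E := Complex.exp (Complex.I * φ x₀) with hE
  have hE0 : E ≠ 0 := Complex.exp_ne_zero _
  have h3 : 2 * (2 * Complex.I) * E ^ 3 * Complex.I *
      (((r / 2 : ℝ) : ℂ) / 4 * m₀ ((r / 2 : ℝ) : ℂ)) = 0 := by
    rw [← area]; linear_combination h2
  have h4 : ((r / 2 : ℝ) : ℂ) ≠ 0 := by
    rw [Complex.ofReal_ne_zero]; linarith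
  have h5 := m0_ne hF hn
  refine absurd h3 ?_
  simp [hE0, h4, h5, Complex.I_ne_zero]
  exact ⟨hr.ne', by simpa using h5⟩

/-! ### the first vertex -/

theorem not_algGerm (hd : Datum q η) (hna : ¬ Spine.AlgC q) {g : ℂ → ℂ}
    (hgZ : ∀ᶠ z in 𝓝 (0 : ℂ), g (Zs q (-1) z) = Zs q 1 z) : ¬ AlgGerm g 0 := by
  rintro ⟨P, hP, h⟩
  refine hna ⟨P, hP, ?_⟩
  have h0 : (0 : ℂ) ∈ Str η := by
    show |(0 : ℂ).im| < η
    simpa using hd.η_pos
  have ht : Tendsto (Zs q (-1)) (𝓝 0) (𝓝 0) := by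
    have h1 := (hd.hasDerivAt_Zs (-1) h0).continuousAt
    have h2 : Zs q (-1) 0 = 0 := prim_zero _
    rw [ContinuousAt, h2] at h1
    exact h1
  filter_upwards [ht.eventually h, hgZ] with z h1 h2
  rw [h2] at h1
  exact h1

theorem first_vertex (hG : RAT.RatGerm2) (hF : LineFam q η ρ r B b φ p m₀) (hna : ¬ Spine.AlgC q)
    [hdom : ∀ N, IsDomain (Hol (UN ρ r N))] {N : ℕ} (hN : 0 < N) :
    al (bH ρ r q b N) ∈ FN ρ r φ p N := by
  obtain ⟨g, hg, hg1, hg2, hgZ⟩ := Match337.exists_g hF.dat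
  have hnag := not_algGerm hF.dat hna hgZ
  obtain ⟨β, m, k, q1', q2', R, hR, hch⟩ := F7389.chain hg hg1 hg2 (2 * N)
  have hmatch := Match337.match_chain hF hg hg2 hgZ (hch R hR le_rfl)
  obtain ⟨Ψ, hΨa, hL1, hL2⟩ := Match337.phi_inv hF
  have hPhi0 : Match337.Phi q b (0, 0) = (0, 0) := Match337.Phi_zero hF
  have hΨ0 : Ψ (0, 0) = (0, 0) := by
    have := hL1.left
    rwa [hPhi0] at this
  have hev : ∀ᶠ x in 𝓝 ((0, 0) : ℂ × ℂ), (x.2 ≠ 0 →
      Match337.Phi q b x ∈ ball (0 : ℂ) R ×ˢ ball (0 : ℂ) R ∧ (Match337.Phi q b x).2 ≠ 0 ∧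
      ∀ j : ℕ, j ≤ 2 * N →
        m j (Match337.Phi q b x) = Complex.exp (2 * Complex.I * φ (x.1 + j * x.2, x.2)) ∧
        k j (Match337.Phi q b x) = 2 * Complex.I * p (x.1 + j * x.2, x.2) *
          Complex.exp (Complex.I * φ (x.1 + j * x.2, x.2)) ∧
        (Match337.Phi q b x).1 + (Match337.Phi q b x).2 * β j (Match337.Phi q b x) =
          Zs q (-1) (b (x.1 + (j + 1 / 2) * x.2, x.2))) ∧ x ∈ UN ρ r N ∧
      AnalyticAt ℂ (Match337.Phi q b) x := by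
    filter_upwards [hmatch, (UN ρ r N).isOpen.mem_nhds (zero_mem_UN hF.ρ_pos hF.r_pos N),
      hL1.an.eventually_analyticAt] with x h1 h2 h3
    exact ⟨h1, h2, h3⟩
  have hΨt : Tendsto Ψ (𝓝 (0, 0)) (𝓝 (0, 0)) := by
    have := hΨa.continuousAt
    rwa [ContinuousAt, hΨ0] at this
  have hright : ∀ᶠ y in 𝓝 ((0, 0) : ℂ × ℂ), Match337.Phi q b (Ψ y) = y := by
    have := hL1.right
    rwa [hPhi0] at this
  obtain ⟨ε, hε, hball⟩ := Metric.eventually_nhds_iff_ball.1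
    ((hΨt.eventually hev.eventually_nhds).and
      (hright.eventually_nhds.and hΨa.eventually_analyticAt))
  set ρ' := min R ε with hρ'
  have hρ'pos : 0 < ρ' := lt_min hR hε
  obtain ⟨W, hWne, hWpre, hWsub, hW2, E0, k0, EN, kN, b0, hval, hrat⟩ :=
    hG g 0 N ρ' β m k q1' q2' hN (hch ρ' hρ'pos (min_le_left _ _)) hnag
  obtain ⟨y0, hy0⟩ := hWne
  have hy0' : y0 ∈ W := hy0
  have hy0b : y0 ∈ ball ((0, 0) : ℂ × ℂ) ε := by
    have h1 := hWsub hy0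
    rw [ball_prod_same] at h1
    exact ball_subset_ball (min_le_right _ _) h1
  obtain ⟨a1, a2', a3⟩ := hball y0 hy0b
  have a2 : Match337.Phi q b (Ψ y0) = y0 := a2'.self_of_nhds
  set x0 := Ψ y0 with hx0
  have hx0U : x0 ∈ UN ρ r N := a1.self_of_nhds.2.1
  have hΦ0 : AnalyticAt ℂ (Match337.Phi q b) x0 := a1.self_of_nhds.2.2
  have hx02 : x0.2 ≠ 0 := by
    intro h0
    apply hW2 y0 hy0
    rw [← a2]
    show (Match337.Bp q b x0 - Match337.Bm q b x0) / 2 = 0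
    simp only [Match337.Bp, Match337.Bm, h0, zero_div, add_zero, sub_zero, sub_self]
  have hopen : ∀ s ∈ 𝓝 x0, Match337.Phi q b '' s ∈ 𝓝 (Match337.Phi q b x0) := by
    intro s hs
    rw [a2]
    filter_upwards [a3.continuousAt.eventually hs, a2'] with y h1 h2
    exact ⟨Ψ y, h1, h2⟩
  have hdW : IsDomain (Hol W) := isDomain_of_mem hWpre hy0'
  have hvals : ∀ᶠ x in 𝓝 x0,
      ext0 (E0 : W → ℂ) (Match337.Phi q b x) ^ 2 = ext0 (eH ρ r φ N 0 : UN ρ r N → ℂ) x ^ 2 ∧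
      ext0 (EN : W → ℂ) (Match337.Phi q b x) ^ 2 = ext0 (eH ρ r φ N N : UN ρ r N → ℂ) x ^ 2 ∧
      ext0 (k0 : W → ℂ) (Match337.Phi q b x) = ext0 (kH ρ r φ p N 0 : UN ρ r N → ℂ) x ∧
      ext0 (kN : W → ℂ) (Match337.Phi q b x) = ext0 (kH ρ r φ p N N : UN ρ r N → ℂ) x ∧
      ext0 (b0 : W → ℂ) (Match337.Phi q b x) = ext0 (bH ρ r q b N : UN ρ r N → ℂ) x := by
    have c1 : ∀ᶠ x in 𝓝 x0, x.2 ≠ 0 := continuous_snd.continuousAt.eventually_ne hx02
    have c2 : ∀ᶠ x in 𝓝 x0, Match337.Phi q b x ∈ W := by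
      refine hΦ0.continuousAt.eventually (W.isOpen.mem_nhds ?_)
      rw [a2]; exact hy0
    filter_upwards [a1, c1, c2] with x hx hx2 hxW
    obtain ⟨hm, hxU, -⟩ := hx
    obtain ⟨-, -, hmm⟩ := hm hx2
    have sq : ∀ z : ℂ, Complex.exp (Complex.I * z) ^ 2 = Complex.exp (2 * Complex.I * z) := by
      intro z
      rw [← Complex.exp_nat_mul]; congr 1; push_cast; ring
    obtain ⟨v1, v2, v3, v4, v5⟩ := hval ⟨_, hxW⟩
    have m0 := hmm 0 (Nat.zero_le _)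
    have mN := hmm N (by omega)
    rw [ext0_of_mem _ hxW, ext0_of_mem _ hxW, ext0_of_mem _ hxW, ext0_of_mem _ hxW,
      ext0_of_mem _ hxW, ext0_of_mem _ hxU, ext0_of_mem _ hxU, ext0_of_mem _ hxU,
      ext0_of_mem _ hxU, ext0_of_mem _ hxU]
    rw [eH_apply hF (Nat.zero_le N), eH_apply hF le_rfl, kH_apply hF (Nat.zero_le N),
      kH_apply hF le_rfl, bH_apply hF hN, v1, v2, v3, v4, v5, sq, sq]
    refine ⟨m0.1, mN.1, m0.2.1, mN.2.1, ?_⟩
    have h6 := m0.2.2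
    have h7 : β 0 = fun _ => 1 := (hch R hR le_rfl).β_zero
    rw [h7, mul_one] at h6
    rw [h6]
    simp only [sh, Nat.cast_zero, zero_add]
  obtain ⟨D₁, D₂, hD, A₁, B₁, A₂, B₂, hD1, hD2⟩ := exists_dual (jcb_ne hF N)
  have key := transport (UN_pre ρ r N) hWpre hx0U (by rw [a2]; exact hy0') hΦ0 hopen hvals
    (jcb_ne hF N) (fun P₁ P₂ hP => hrat (FR W) P₁ P₂ hP) hD
  have hv := hD.vals
  have he0 : al (eH ρ r φ N 0) ∈ FN ρ r φ p N := FN_gen (SN_e0 _ _ _ _ N)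
  have hp0 : al (pH ρ r p N 0) ∈ FN ρ r φ p N := FN_gen (SN_p0 _ _ _ _ N)
  have heN : al (eH ρ r φ N N) ∈ FN ρ r φ p N := FN_gen (SN_eN _ _ _ _ N)
  have hpN : al (pH ρ r p N N) ∈ FN ρ r φ p N := FN_gen (SN_pN _ _ _ _ N)
  have hst := stable_of_dual (dt (UN ρ r N)) (dw (UN ρ r N)) D₁ D₂ hD1 hD2 hv.1 hv.2.1 hv.2.2.1
    hv.2.2.2 (FN ρ r φ p N) (by rw [map_pow]; exact pow_mem he0 2) (k_mem he0 hp0)
    (fun x hx => FN_dt hx) (fun x hx => FN_dw hx)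
  refine (dfield_le ![D₁, D₂] _ (FN ρ r φ p N) ?_ ?_) key
  · intro f hf
    rcases hf with rfl | rfl | rfl | rfl
    · exact he0
    · exact k_mem he0 hp0
    · exact heN
    · exact k_mem heN hpN
  · intro i x hx
    fin_cases i
    · exact hst.1 x hx
    · exact hst.2 x hx

/-! ### continuation -/

/-- a function meromorphic on `Ω` which represents the analytic function `f` near `x0` may be
changed near `x0` to be equal to `f` -/
theorem fix_germ {Ω : Set (ℂ × ℂ)} {x0 : ℂ × ℂ} {f g : ℂ × ℂ → ℂ} (hg : ∀ c ∈ Ω, MerAt g c)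
    (hf : AnalyticAt ℂ f x0) (h : Rep g f (fun _ => 1) x0) :
    ∃ E : ℂ × ℂ → ℂ, (∀ c ∈ Ω, MerAt E c) ∧ ∀ᶠ x in 𝓝 x0, E x = f x := by
  classical
  obtain ⟨D, hD, h1⟩ := h
  obtain ⟨ε, hε, hball⟩ := Metric.eventually_nhds_iff_ball.1 (h1.and hD.eventually)
  refine ⟨fun x => if x ∈ ball x0 (ε / 2) then f x else g x, fun c hc => ?_, ?_⟩
  · by_cases hcb : c ∈ ball x0 ε
    · obtain ⟨P, Q, hP, hQ, D', hD', hR⟩ := hg c hc
      refine ⟨P, Q, hP, hQ, fun x => D x * D' x, (hball c hcb).2.mul hD', ?_⟩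
      filter_upwards [hR, isOpen_ball.mem_nhds hcb] with x hx hxb h0
      have h2 := hx (right_ne_zero_of_mul h0)
      have h3 := (hball x hxb).1 (left_ne_zero_of_mul h0)
      rw [one_mul] at h3
      by_cases hxx : x ∈ ball x0 (ε / 2)
      · simp only [hxx, if_true]
        rw [← h3]; exact h2
      · simp only [hxx, if_false]
        exact h2
    · obtain ⟨P, Q, hP, hQ, D', hD', hR⟩ := hg c hc
      refine ⟨P, Q, hP, hQ, D', hD', ?_⟩
      have h2 : ∀ᶠ x in 𝓝 c, x ∉ ball x0 (ε / 2) := by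
        have h3 : c ∈ (closedBall x0 (ε / 2))ᶜ := by
          intro h4
          apply hcb
          rw [mem_closedBall] at h4
          rw [mem_ball]
          linarith
        filter_upwards [isClosed_closedBall.isOpen_compl.mem_nhds h3] with x hx hx2
        exact hx (ball_subset_closedBall hx2)
      filter_upwards [hR, h2] with x hx hx2 h0
      simp only [hx2, if_false]
      exact hx h0
  · filter_upwards [ball_mem_nhds x0 (half_pos hε)] with x hx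
    simp only [hx, if_true]

/-- **(RAT) in the coordinates `(t, w)`** -/
theorem ratCont (hG : RAT.RatGerm2) : Spine.RatCont := by
  intro q η ρ r B b φ p m₀ hF hna N Ω x0 G hΩo hΩ hx0 hPD0 hPDN hmer hgerm j hj
  have hdom : ∀ N, IsDomain (Hol (UN ρ r N)) := isDom hF.ρ_pos hF.r_pos
  have hx0U : x0 ∈ UN ρ r N := ⟨hPD0, hPDN⟩
  have h1 : (1 : Hol (UN ρ r N)) ≠ 0 := one_ne_zero
  -- the generators are continuable
  have hof : ∀ (f : Hol (UN ρ r N)) (i : Fin 4), (∀ᶠ x in 𝓝 x0, G i x = ext0 (f : UN ρ r N → ℂ) x) →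
      Cont (UN ρ r N) Ω x0 (al f) := by
    intro f i hi
    exact ⟨G i, hmer i, Germ.of_hol f h1 hx0U hi⟩
  have hev : ∀ᶠ x in 𝓝 x0, x ∈ UN ρ r N := (UN ρ r N).isOpen.mem_nhds hx0U
  have c0 : Cont (UN ρ r N) Ω x0 (al (eH ρ r φ N 0)) := hof _ 0 (by
    filter_upwards [hgerm, hev] with x hx hxU
    rw [ext0_of_mem _ hxU, eH_apply hF (Nat.zero_le N), hx.1]
    simp only [Nat.cast_zero, sh_zero])
  have c1 : Cont (UN ρ r N) Ω x0 (al (pH ρ r p N 0)) := hof _ 1 (by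
    filter_upwards [hgerm, hev] with x hx hxU
    rw [ext0_of_mem _ hxU, pH_apply hF (Nat.zero_le N), hx.2.1]
    simp only [Nat.cast_zero, sh_zero])
  have c2 : Cont (UN ρ r N) Ω x0 (al (eH ρ r φ N N)) := hof _ 2 (by
    filter_upwards [hgerm, hev] with x hx hxU
    rw [ext0_of_mem _ hxU, eH_apply hF le_rfl, hx.2.2.1]
    rfl)
  have c3 : Cont (UN ρ r N) Ω x0 (al (pH ρ r p N N)) := hof _ 3 (by
    filter_upwards [hgerm, hev] with x hx hxU
    rw [ext0_of_mem _ hxU, pH_apply hF le_rfl, hx.2.2.2]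
    rfl)
  have hS : ∀ s ∈ SN ρ r φ p N, Cont (UN ρ r N) Ω x0 s := by
    intro s hs
    rcases hs with rfl | rfl | rfl | rfl
    · exact c0
    · exact c1
    · exact c2
    · exact c3
  have key : ∀ f ∈ FN ρ r φ p N, Cont (UN ρ r N) Ω x0 f := by
    intro f hf
    refine cont_of_dfield (UN_pre ρ r N) hx0U hΩ hx0 ![dt (UN ρ r N), dw (UN ρ r N)]
      ![((1 : ℂ), (0 : ℂ)), ((0 : ℂ), (1 : ℂ))] ?_ hS hf
    intro i f
    fin_cases i
    · exact dt_alg f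
    · exact dw_alg f
  obtain ⟨hje, hjp⟩ := all_lines hF (fun N hN => first_vertex hG hF hna hN) N j hj
  -- conclusion
  have fin : ∀ (F : ℂ × ℂ → ℂ) (f : Hol (UN ρ r N)), AnalyticAt ℂ F x0 →
      (∀ᶠ x in 𝓝 x0, ext0 (f : UN ρ r N → ℂ) x = F x) → Cont (UN ρ r N) Ω x0 (al f) →
      ∃ E : ℂ × ℂ → ℂ, (∀ c ∈ Ω, MerAt E c) ∧ ∀ᶠ x in 𝓝 x0, E x = F x := by
    intro F f hFa hfF hc
    obtain ⟨g, hg, hgerm⟩ := hc
    have h2 := hgerm.rep (UN_pre ρ r N) hx0U (P := f) (Q := 1) (by rw [map_one, one_mul])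
    refine fix_germ hg hFa ?_
    obtain ⟨D, hD, h3⟩ := h2
    refine ⟨D, hD, ?_⟩
    filter_upwards [h3, hfF, hev] with x hx hx2 hxU h0
    have h4 := hx h0
    rw [hx2, ext0_of_mem _ hxU] at h4
    exact h4
  have hmem := sh_mem hx0U hj
  have aE : AnalyticAt ℂ (fun x : ℂ × ℂ => Complex.exp (Complex.I * φ (x.1 + j * x.2, x.2))) x0 :=
    an_fe hF hj x0 hx0U
  have aP : AnalyticAt ℂ (fun x : ℂ × ℂ => p (x.1 + j * x.2, x.2)) x0 := an_fp hF hj x0 hx0U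
  obtain ⟨E, hE1, hE2⟩ := fin _ (eH ρ r φ N j) aE (by
    filter_upwards [hev] with x hxU
    rw [ext0_of_mem _ hxU, eH_apply hF hj]; rfl) (key _ hje)
  obtain ⟨P, hP1, hP2⟩ := fin _ (pH ρ r p N j) aP (by
    filter_upwards [hev] with x hxU
    rw [ext0_of_mem _ hxU, pH_apply hF hj]; rfl) (key _ hjp)
  refine ⟨E, P, fun c hc => ⟨hE1 c hc, hP1 c hc⟩, ?_⟩
  filter_upwards [hE2, hP2] with x h1 h2
  exact ⟨h1, h2⟩

end Crest.Agent.R102.Rat7217
end
end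

-- ▼ part R102/RatAll_926

/-!
# Row 102, [H3], THEOREM (RAT): everything except `SecondStmt` (helper926)
-/

set_option autoImplicit false

noncomputable section

namespace Crest.Agent.R102.RAT

theorem ratGerm2_of_run (hRun : RunStmt) : RatGerm2 :=
  ratGerm2_of_leaves CT575.ct Rat1389.r4Stmt hRun

theorem ratGerm2_of_second (hS : RunE58.SecondStmt) : RatGerm2 :=
  ratGerm2_of_run (RunE58.runStmt_of hS)

theorem ratCont_of_second (hS : RunE58.SecondStmt) : Spine.RatCont :=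
  Rat7217.ratCont (ratGerm2_of_second hS)

end Crest.Agent.R102.RAT
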