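import Crest.Agent.R102.Run_58
import Crest.Agent.R102.RATDefs_926
import Crest.Agent.R102.RatGlueA_798

-- ▼ part R102/RunD_58
section

/-!
# Row 102, [H3], THEOREM (RAT), leaf R5 = RUN (helper58): the shift of the chain

`Th β a p` = the chord coordinates of the line `l_{-a}(p)`; the chain of `Th β a p` is the chain of
`p` shifted by `a`, and `Th β a` is locally invertible, with inverse `fl ∘ Th β a ∘ fl`.
-/

set_option autoImplicit false

open Set Filter Topology Metric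

noncomputable section

namespace Crest.Agent.R102.RunD58

open Crest.Agent.R102.F7389 Crest.Agent.R102.Run58

/-- vertices with integer index, `B (-1-i) = bm i` -/
def Bz (β : ℕ → ℂ × ℂ → ℂ) : ℤ → ℂ × ℂ → ℂ
  | Int.ofNat j => bp β j
  | Int.negSucc i => bm β i

/-- lines with integer index -/
def Lz (m : ℕ → ℂ × ℂ → ℂ) : ℤ → ℂ × ℂ → ℂ
  | Int.ofNat j => m j
  | Int.negSucc i => lm m (i + 1)

/-- the chord coordinates of the line `l_{-a}` -/
def Th (β : ℕ → ℂ × ℂ → ℂ) (a : ℕ) (p : ℂ × ℂ) : ℂ × ℂ :=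
  ((Bz β (-a) p + Bz β (-a - 1) p) / 2, (Bz β (-a) p - Bz β (-a - 1) p) / 2)

theorem Th_add (β : ℕ → ℂ × ℂ → ℂ) (a : ℕ) (p : ℂ × ℂ) :
    (Th β a p).1 + (Th β a p).2 = Bz β (-a) p := by
  simp only [Th]; ring

theorem Th_sub (β : ℕ → ℂ × ℂ → ℂ) (a : ℕ) (p : ℂ × ℂ) :
    (Th β a p).1 - (Th β a p).2 = Bz β (-a - 1) p := by
  simp only [Th]; ring


theorem Bz_neg (β : ℕ → ℂ × ℂ → ℂ) (i : ℕ) : Bz β (-1 - (i : ℤ)) = bm β i := by
  have : (-1 - (i : ℤ)) = Int.negSucc i := by rw [Int.negSucc_eq]; ring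
  rw [this]; rfl


theorem Lz_neg (m : ℕ → ℂ × ℂ → ℂ) (i : ℕ) (hi : 0 < i) : Lz m (-(i : ℤ)) = lm m i := by
  obtain ⟨j, rfl⟩ : ∃ j, i = j + 1 := ⟨i - 1, by omega⟩
  have : (-((j + 1 : ℕ) : ℤ)) = Int.negSucc j := by rw [Int.negSucc_eq]; push_cast; ring
  rw [this]; rfl

theorem Bz_zero {g : ℂ → ℂ} {c₀ : ℂ} {N : ℕ} {ρ : ℝ} {β m k q q' : ℕ → ℂ × ℂ → ℂ}
    (C : Chain g c₀ N ρ β m k q q') (p : ℂ × ℂ) : Bz β 0 p = p.1 + p.2 := by
  change bp β 0 p = _
  simp [bp, C.β_zero]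

theorem bm_zero {g : ℂ → ℂ} {c₀ : ℂ} {N : ℕ} {ρ : ℝ} {β m k q q' : ℕ → ℂ × ℂ → ℂ}
    (C : Chain g c₀ N ρ β m k q q') (p : ℂ × ℂ) : bm β 0 p = p.1 - p.2 := by
  simp [bm, bp, fl, C.β_zero, sub_eq_add_neg]

/-- `Θ_0 = id` -/
theorem Th_zero {g : ℂ → ℂ} {c₀ : ℂ} {N : ℕ} {ρ : ℝ} {β m k q q' : ℕ → ℂ × ℂ → ℂ}
    (C : Chain g c₀ N ρ β m k q q') (p : ℂ × ℂ) : Th β 0 p = p := by
  have h1 : Bz β (-((0 : ℕ) : ℤ)) p = p.1 + p.2 := by simpa using Bz_zero C p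
  have h2 : Bz β (-((0 : ℕ) : ℤ) - 1) p = p.1 - p.2 := by
    have := Bz_neg β 0
    simp only [Nat.cast_zero, sub_zero] at this
    simp only [Nat.cast_zero, neg_zero, zero_sub, this]
    exact bm_zero C p
  rw [Th, h1, h2]
  ext
  · ring
  · ring

section

variable {g : ℂ → ℂ} {c₀ : ℂ} {N : ℕ} {ρ : ℝ} {β m k q q' : ℕ → ℂ × ℂ → ℂ}

/-- the line `j` passes through the vertex `j` -/
theorem incz (C : Chain g c₀ N ρ β m k q q') {j : ℤ} (h1 : -N ≤ j) (h2 : j ≤ N) {p : ℂ × ℂ}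
    (hp : p ∈ ball c₀ ρ ×ˢ ball (0 : ℂ) ρ) : g (Bz β j p) = Lz m j p * Bz β j p + Lz k j p := by
  rcases j with j | i
  · exact C.inc j (by simpa using h2) p hp
  · refine C.inc' i ?_ (fl p) (fl_mem hp)
    rw [Int.negSucc_eq] at h1
    omega

/-- the line `j` passes through the vertex `j - 1` -/
theorem incz' (C : Chain g c₀ N ρ β m k q q') {j : ℤ} (h1 : -N ≤ j) (h2 : j ≤ N) {p : ℂ × ℂ}
    (hp : p ∈ ball c₀ ρ ×ˢ ball (0 : ℂ) ρ) :
    g (Bz β (j - 1) p) = Lz m j p * Bz β (j - 1) p + Lz k j p := by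
  rcases j with j | i
  · rcases j with _ | j
    · have h3 : Bz β (Int.ofNat 0 - 1) = bm β 0 := Bz_neg β 0
      rw [h3, bm_zero C p]
      exact C.chord p hp
    · have h3 : Bz β (Int.ofNat (j + 1) - 1) = bp β j := by
        have : (Int.ofNat (j + 1) - 1) = Int.ofNat j := by simp
        rw [this]; rfl
      rw [h3]
      refine C.inc' j ?_ p hp
      simp only [Int.ofNat_eq_natCast, Nat.cast_add, Nat.cast_one] at h2
      omega
  · have h3 : Bz β (Int.negSucc i - 1) = bm β (i + 1) := by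
      have : (Int.negSucc i - 1) = Int.negSucc (i + 1) := by
        simp only [Int.negSucc_eq]; push_cast; ring
      rw [this]; rfl
    rw [h3]
    refine C.inc (i + 1) ?_ (fl p) (fl_mem hp)
    rw [Int.negSucc_eq] at h1
    omega

/-- reflection at the vertex `j` -/
theorem reflz (C : Chain g c₀ N ρ β m k q q') {j : ℤ} (h1 : -N ≤ j) (h2 : j < N) {p : ℂ × ℂ}
    (hp : p ∈ ball c₀ ρ ×ˢ ball (0 : ℂ) ρ) :
    Lz m (j + 1) p * Lz m j p = deriv g (Bz β j p) ^ 2 := by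
  rcases j with j | i
  · exact C.refl j (by simpa using h2) p hp
  · rw [Int.negSucc_eq] at h1
    have h3 := C.refl i (by omega) (fl p) (fl_mem hp)
    rcases i with _ | i
    · have e1 : Lz m (Int.negSucc 0 + 1) p = m 0 (fl p) := by
        have : (Int.negSucc 0 + 1) = Int.ofNat 0 := rfl
        rw [this]
        exact (C.even_m p hp).symm
      rw [e1, mul_comm]
      exact h3
    · have e1 : Lz m (Int.negSucc (i + 1) + 1) = lm m (i + 1) := by
        have : (Int.negSucc (i + 1) + 1) = Int.negSucc i := by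
          simp only [Int.negSucc_eq]; push_cast; ring
        rw [this]; rfl
      rw [e1, mul_comm]
      exact h3

theorem nez (C : Chain g c₀ N ρ β m k q q') {j : ℤ} (h1 : -N ≤ j) (h2 : j ≤ N) {p : ℂ × ℂ}
    (hp : p ∈ ball c₀ ρ ×ˢ ball (0 : ℂ) ρ) : Lz m j p ≠ 0 := by
  rcases j with j | i
  · exact C.m_ne j (by simpa using h2) p hp
  · refine C.m_ne (i + 1) ?_ (fl p) (fl_mem hp)
    rw [Int.negSucc_eq] at h1
    omega

variable {r ρ₀ : ℝ}

theorem twoz (G : Good g c₀ N β m k r ρ₀) {j : ℤ} (h1 : -N ≤ j) (h2 : j ≤ N) {p : ℂ × ℂ}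
    (hp : p ∈ ball c₀ ρ₀ ×ˢ ball (0 : ℂ) ρ₀) (h0 : p.2 ≠ 0) {z : ℂ} (hz : z ∈ ball c₀ r)
    (hgz : g z = Lz m j p * z + Lz k j p) : z = Bz β j p ∨ z = Bz β (j - 1) p := by
  rcases j with j | i
  · have := G.two j (by simpa using h2) p hp h0 z hz hgz
    rcases this with h | h
    · exact Or.inl h
    · right
      rcases j with _ | j
      · have h3 : Bz β (Int.ofNat 0 - 1) = bm β 0 := Bz_neg β 0
        rw [h3]; simpa using h
      · have h3 : Bz β (Int.ofNat (j + 1) - 1) = bp β j := by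
          have : (Int.ofNat (j + 1) - 1) = Int.ofNat j := by simp
          rw [this]; rfl
        rw [h3]; simpa using h
  · rw [Int.negSucc_eq] at h1
    have := G.two' (i + 1) (by omega) p hp h0 z hz hgz
    have h3 : Bz β (Int.negSucc i - 1) = bm β (i + 1) := by
      have : (Int.negSucc i - 1) = Int.negSucc (i + 1) := by
        simp only [Int.negSucc_eq]; push_cast; ring
      rw [this]; rfl
    rcases this with h | h
    · right; rw [h3]; exact h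
    · left
      have h4 : z = bm β i p := by simpa using h
      exact h4

/-- consecutive vertices are different -/
theorem succ_ne (G : Good g c₀ N β m k r ρ₀) {j : ℤ} (h1 : -N ≤ j) (h2 : j ≤ N) {p : ℂ × ℂ}
    (hp : p ∈ ball c₀ ρ₀ ×ˢ ball (0 : ℂ) ρ₀) (h0 : p.2 ≠ 0) : Bz β j p ≠ Bz β (j - 1) p := by
  have h0' : (fl p).2 ≠ 0 := by simpa [fl] using h0
  rcases j with j | i
  · rcases j with _ | j
    · have h3 : Bz β (Int.ofNat 0 - 1) = bm β 0 := Bz_neg β 0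
      rw [h3]
      exact G.ne' 0 (Nat.zero_le _) 0 (Nat.zero_le _) p hp h0
    · have h3 : Bz β (Int.ofNat (j + 1) - 1) = bp β j := by
        have : (Int.ofNat (j + 1) - 1) = Int.ofNat j := by simp
        rw [this]; rfl
      rw [h3]
      simp only [Int.ofNat_eq_natCast, Nat.cast_add, Nat.cast_one] at h2
      exact G.ne (j + 1) (by omega) j (by omega) p hp h0 (by omega)
  · rw [Int.negSucc_eq] at h1
    have h3 : Bz β (Int.negSucc i - 1) = bm β (i + 1) := by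
      have : (Int.negSucc i - 1) = Int.negSucc (i + 1) := by
        simp only [Int.negSucc_eq]; push_cast; ring
      rw [this]; rfl
    rw [h3]
    exact G.ne i (by omega) (i + 1) (by omega) (fl p) (fl_mem hp) h0' (by omega)

/-- **SHIFT**: the chain of `Θ_a p` is the chain of `p` shifted by `a` -/
theorem shift (C : Chain g c₀ N ρ β m k q q') (hρ : ρ₀ ≤ ρ) (G : Good g c₀ N β m k r ρ₀)
    {a : ℕ} (ha : a ≤ N) {p : ℂ × ℂ}
    (hp : p ∈ ball c₀ ρ₀ ×ˢ ball (0 : ℂ) ρ₀) (h0 : p.2 ≠ 0)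
    (hT : Th β a p ∈ ball c₀ ρ₀ ×ˢ ball (0 : ℂ) ρ₀) :
    (Th β a p).2 ≠ 0 ∧ ∀ j ≤ N, bp β j (Th β a p) = Bz β (j - a) p ∧
      m j (Th β a p) = Lz m (j - a) p ∧ k j (Th β a p) = Lz k (j - a) p := by
  have hin : ∀ {p : ℂ × ℂ}, p ∈ ball c₀ ρ₀ ×ˢ ball (0 : ℂ) ρ₀ →
      p ∈ ball c₀ ρ ×ˢ ball (0 : ℂ) ρ := fun hp =>
    ⟨ball_subset_ball hρ hp.1, ball_subset_ball hρ hp.2⟩
  have hne := succ_ne G (j := -a) (by omega) (by omega) hp h0
  have hT0 : (Th β a p).2 ≠ 0 := by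
    rw [Th]
    exact div_ne_zero (sub_ne_zero.2 hne) two_ne_zero
  refine ⟨hT0, ?_⟩
  intro j
  induction j with
  | zero =>
    intro _
    have hb : bp β 0 (Th β a p) = Bz β (-a) p := by
      have : bp β 0 (Th β a p) = (Th β a p).1 + (Th β a p).2 := Bz_zero C (Th β a p)
      rw [this, Th_add]
    have e1 := C.inc 0 (Nat.zero_le _) (Th β a p) (hin hT)
    have e2 := C.chord (Th β a p) (hin hT)
    rw [Th_sub] at e2
    have e1' : g (bp β 0 (Th β a p)) = m 0 (Th β a p) * bp β 0 (Th β a p) + k 0 (Th β a p) := e1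
    rw [hb] at e1'
    have e3 := incz C (j := -a) (by omega) (by omega) (hin hp)
    have e4 := incz' C (j := -a) (by omega) (by omega) (hin hp)
    have hm : m 0 (Th β a p) = Lz m (-a) p := by
      refine mul_right_cancel₀ (sub_ne_zero.2 hne) ?_
      linear_combination e2 - e1' + e3 - e4
    refine ⟨by simpa using hb, by simpa using hm, ?_⟩
    have : k 0 (Th β a p) = Lz k (-a) p := by
      rw [hm] at e1'
      linear_combination e3 - e1'
    simpa using this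
  | succ j ih =>
    intro hj
    obtain ⟨h1, h2, h3⟩ := ih (by omega)
    have e1 := C.refl j (by omega) (Th β a p) (hin hT)
    have e1' : m (j + 1) (Th β a p) * m j (Th β a p) = deriv g (bp β j (Th β a p)) ^ 2 := e1
    have e2 := reflz C (j := (j : ℤ) - a) (by omega) (by omega) (hin hp)
    have hcast : (((j + 1 : ℕ) : ℤ) - a) = (j : ℤ) - a + 1 := by push_cast; ring
    rw [hcast]
    have hmne := nez C (j := (j : ℤ) - a) (by omega) (by omega) (hin hp)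
    have hm : m (j + 1) (Th β a p) = Lz m ((j : ℤ) - a + 1) p := by
      refine mul_right_cancel₀ hmne ?_
      rw [e2, ← h2, e1', h1]
    have e3 : g (bp β j (Th β a p)) =
        m (j + 1) (Th β a p) * bp β j (Th β a p) + k (j + 1) (Th β a p) :=
      C.inc' j (by omega) (Th β a p) (hin hT)
    have e4 := incz' C (j := (j : ℤ) - a + 1) (by omega) (by omega) (hin hp)
    rw [add_sub_cancel_right] at e4
    have hk : k (j + 1) (Th β a p) = Lz k ((j : ℤ) - a + 1) p := by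
      rw [hm, h1] at e3
      linear_combination e4 - e3
    refine ⟨?_, hm, hk⟩
    have e5 : g (bp β (j + 1) (Th β a p)) =
        m (j + 1) (Th β a p) * bp β (j + 1) (Th β a p) + k (j + 1) (Th β a p) :=
      C.inc (j + 1) hj (Th β a p) (hin hT)
    rw [hm, hk] at e5
    have e6 := twoz G (j := (j : ℤ) - a + 1) (by omega) (by omega) hp h0
      (G.mem (j + 1) hj (Th β a p) hT) e5
    rcases e6 with h | h
    · exact h
    · exfalso
      rw [add_sub_cancel_right, ← h1] at h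
      exact G.ne (j + 1) hj j (by omega) (Th β a p) hT hT0 (by omega) h

/-- **inverse of the shift** -/
theorem inv_shift (C : Chain g c₀ N ρ β m k q q') (hρ : ρ₀ ≤ ρ) (G : Good g c₀ N β m k r ρ₀)
    {a : ℕ} (ha : a ≤ N) {p : ℂ × ℂ}
    (hp : p ∈ ball c₀ ρ₀ ×ˢ ball (0 : ℂ) ρ₀) (h0 : p.2 ≠ 0)
    (hT : Th β a p ∈ ball c₀ ρ₀ ×ˢ ball (0 : ℂ) ρ₀) :
    Th β a (fl (Th β a p)) = fl p := by
  rcases Nat.eq_zero_or_pos a with rfl | hpos
  · rw [Th_zero C, Th_zero C]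
  · obtain ⟨i, rfl⟩ : ∃ i, a = i + 1 := ⟨a - 1, by omega⟩
    obtain ⟨-, hs⟩ := shift C hρ G ha hp h0 hT
    have e1 : Bz β (-((i + 1 : ℕ) : ℤ)) = bm β i := by
      rw [← Bz_neg]; congr 1; push_cast; ring
    have e2 : Bz β (-((i + 1 : ℕ) : ℤ) - 1) = bm β (i + 1) := by
      rw [← Bz_neg]; congr 1; push_cast; ring
    have e3 := (hs i (by omega)).1
    have e4 := (hs (i + 1) ha).1
    have e5 : (((i : ℕ) : ℤ) - ((i + 1 : ℕ) : ℤ)) = -1 - ((0 : ℕ) : ℤ) := by push_cast; ring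
    have e6 : ((((i + 1 : ℕ) : ℕ) : ℤ) - ((i + 1 : ℕ) : ℤ)) = 0 := by ring
    rw [e5, Bz_neg, bm_zero C] at e3
    rw [e6, Bz_zero C] at e4
    have e7 : Th β (i + 1) (fl (Th β (i + 1) p)) =
        ((bp β i (Th β (i + 1) p) + bp β (i + 1) (Th β (i + 1) p)) / 2,
          (bp β i (Th β (i + 1) p) - bp β (i + 1) (Th β (i + 1) p)) / 2) := by
      conv_lhs => rw [Th]
      rw [e1, e2, bm, bm, fl_fl]
    rw [e7, e3, e4]
    ext
    · simp only [fl]; ring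
    · simp only [fl]; ring

end

/-- analyticity of the shift -/
theorem an_Bz {g : ℂ → ℂ} {c₀ : ℂ} {N : ℕ} {ρ : ℝ} {β m k q q' : ℕ → ℂ × ℂ → ℂ}
    (C : Chain g c₀ N ρ β m k q q') {j : ℤ} (h1 : -(N : ℤ) - 1 ≤ j) (h2 : j ≤ N) {p : ℂ × ℂ}
    (hp : p ∈ ball c₀ ρ ×ˢ ball (0 : ℂ) ρ) : AnalyticAt ℂ (Bz β j) p := by
  have han_fl : ∀ p, AnalyticAt ℂ fl p := fun p => analyticAt_fst.prod analyticAt_snd.neg
  have han_bp : ∀ i ≤ N, ∀ p ∈ ball c₀ ρ ×ˢ ball (0 : ℂ) ρ, AnalyticAt ℂ (bp β i) p :=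
    fun i hi p hp => analyticAt_fst.add (analyticAt_snd.mul (C.an_β i hi p hp))
  rcases j with j | i
  · exact han_bp j (by simpa using h2) p hp
  · rw [Int.negSucc_eq] at h1
    exact AnalyticAt.fun_comp (g := bp β i) (f := fl)
      (han_bp i (by omega) _ (fl_mem hp)) (han_fl p)

theorem an_Lz {g : ℂ → ℂ} {c₀ : ℂ} {N : ℕ} {ρ : ℝ} {β m k q q' : ℕ → ℂ × ℂ → ℂ}
    (C : Chain g c₀ N ρ β m k q q') {j : ℤ} (h1 : -(N : ℤ) ≤ j) (h2 : j ≤ N) {p : ℂ × ℂ}
    (hp : p ∈ ball c₀ ρ ×ˢ ball (0 : ℂ) ρ) :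
    AnalyticAt ℂ (Lz m j) p ∧ AnalyticAt ℂ (Lz k j) p := by
  have han_fl : ∀ p, AnalyticAt ℂ fl p := fun p => analyticAt_fst.prod analyticAt_snd.neg
  rcases j with j | i
  · exact ⟨C.an_m j (by simpa using h2) p hp, C.an_k j (by simpa using h2) p hp⟩
  · rw [Int.negSucc_eq] at h1
    exact ⟨AnalyticAt.fun_comp (g := m (i + 1)) (f := fl)
      (C.an_m (i + 1) (by omega) _ (fl_mem hp)) (han_fl p),
      AnalyticAt.fun_comp (g := k (i + 1)) (f := fl)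
      (C.an_k (i + 1) (by omega) _ (fl_mem hp)) (han_fl p)⟩

theorem an_Th {g : ℂ → ℂ} {c₀ : ℂ} {N : ℕ} {ρ : ℝ} {β m k q q' : ℕ → ℂ × ℂ → ℂ}
    (C : Chain g c₀ N ρ β m k q q') {a : ℕ} (ha : a ≤ N) {p : ℂ × ℂ}
    (hp : p ∈ ball c₀ ρ ×ˢ ball (0 : ℂ) ρ) : AnalyticAt ℂ (Th β a) p := by
  have h1 := an_Bz C (j := -a) (by omega) (by omega) hp
  have h2 := an_Bz C (j := -a - 1) (by omega) (by omega) hp
  exact ((h1.add h2).div_const).prod ((h1.sub h2).div_const)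

/-- small polydiscs are mapped to small polydiscs -/
theorem small {g : ℂ → ℂ} {c₀ : ℂ} {N : ℕ} {ρ : ℝ} {β m k q q' : ℕ → ℂ × ℂ → ℂ}
    (C : Chain g c₀ N ρ β m k q q') {δ : ℝ} (hδ : 0 < δ) :
    ∃ R > 0, R ≤ δ ∧ ∀ a ≤ N, ∀ p ∈ ball c₀ R ×ˢ ball (0 : ℂ) R,
      Th β a p ∈ ball c₀ δ ×ˢ ball (0 : ℂ) δ := by
  have hc : ((c₀, 0) : ℂ × ℂ) ∈ ball c₀ ρ ×ˢ ball (0 : ℂ) ρ :=
    ⟨mem_ball_self C.ρ_pos, mem_ball_self C.ρ_pos⟩
  have hBc : ∀ j : ℤ, Bz β j (c₀, 0) = c₀ := by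
    intro j
    rcases j with j | i
    · simp [Bz, bp]
    · simp [Bz, bm, bp, fl]
  have h0 : ∀ a, Th β a (c₀, 0) = (c₀, 0) := by
    intro a
    simp only [Th, hBc]
    ext
    · simp
    · simp
  have h1 : ∀ a ∈ Finset.range (N + 1), ∀ᶠ p in 𝓝 ((c₀, 0) : ℂ × ℂ),
      Th β a p ∈ ball c₀ δ ×ˢ ball (0 : ℂ) δ := by
    intro a ha
    refine (an_Th C (Nat.lt_succ_iff.1 (Finset.mem_range.1 ha)) hc).continuousAt.eventually
      ((isOpen_ball.prod isOpen_ball).mem_nhds ?_)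
    rw [h0]
    exact ⟨mem_ball_self hδ, mem_ball_self hδ⟩
  obtain ⟨R, hR, hball⟩ := Metric.eventually_nhds_iff.1
    ((Filter.eventually_all_finset (Finset.range (N + 1))).2 h1)
  refine ⟨min R δ, lt_min hR hδ, min_le_right _ _, fun a ha p hp => ?_⟩
  refine hball ?_ a (Finset.mem_range.2 (by omega))
  rw [Prod.dist_eq]
  exact max_lt (lt_of_lt_of_le hp.1 (min_le_left _ _)) (lt_of_lt_of_le hp.2 (min_le_left _ _))

/-- **local inverse** -/
theorem exists_inv {g : ℂ → ℂ} {c₀ : ℂ} {N : ℕ} {ρ : ℝ} {β m k q q' : ℕ → ℂ × ℂ → ℂ}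
    {r ρ₀ : ℝ} (C : Chain g c₀ N ρ β m k q q') (hρ : ρ₀ ≤ ρ) (G : Good g c₀ N β m k r ρ₀)
    {a : ℕ} (ha : a ≤ N) {p : ℂ × ℂ}
    (hp : p ∈ ball c₀ ρ₀ ×ˢ ball (0 : ℂ) ρ₀) (h0 : p.2 ≠ 0)
    (hT : Th β a p ∈ ball c₀ ρ₀ ×ˢ ball (0 : ℂ) ρ₀) :
    ∃ ψ : ℂ × ℂ → ℂ × ℂ, AnalyticAt ℂ ψ (Th β a p) ∧ ψ (Th β a p) = p ∧
      ∀ᶠ x in 𝓝 (Th β a p), Th β a (ψ x) = x := by
  have hin : ∀ {p : ℂ × ℂ}, p ∈ ball c₀ ρ₀ ×ˢ ball (0 : ℂ) ρ₀ →
      p ∈ ball c₀ ρ ×ˢ ball (0 : ℂ) ρ := fun hp =>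
    ⟨ball_subset_ball hρ hp.1, ball_subset_ball hρ hp.2⟩
  have han_fl : ∀ p, AnalyticAt ℂ fl p := fun p => analyticAt_fst.prod analyticAt_snd.neg
  obtain ⟨hT0, -⟩ := shift C hρ G ha hp h0 hT
  have hI := inv_shift C hρ G ha hp h0 hT
  have hU : IsOpen (ball c₀ ρ₀ ×ˢ ball (0 : ℂ) ρ₀) := isOpen_ball.prod isOpen_ball
  have han1 : AnalyticAt ℂ (fun x => Th β a (fl x)) (Th β a p) :=
    AnalyticAt.fun_comp (g := Th β a) (f := fl) (an_Th C ha (hin (fl_mem hT))) (han_fl _)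
  refine ⟨fun x => fl (Th β a (fl x)), ?_, ?_, ?_⟩
  · exact AnalyticAt.fun_comp (g := fl) (f := fun x => Th β a (fl x)) (han_fl _) han1
  · change fl (Th β a (fl (Th β a p))) = p
    rw [hI, fl_fl]
  · have c1 : ∀ᶠ x in 𝓝 (Th β a p), fl x ∈ ball c₀ ρ₀ ×ˢ ball (0 : ℂ) ρ₀ :=
      (han_fl _).continuousAt.eventually (hU.mem_nhds (fl_mem hT))
    have c2 : ∀ᶠ x in 𝓝 (Th β a p), Th β a (fl x) ∈ ball c₀ ρ₀ ×ˢ ball (0 : ℂ) ρ₀ := by
      refine han1.continuousAt.eventually (hU.mem_nhds ?_)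
      change Th β a (fl (Th β a p)) ∈ _
      rw [hI]
      exact fl_mem hp
    have c3 : ∀ᶠ x in 𝓝 (Th β a p), x.2 ≠ 0 :=
      continuousAt_snd.eventually_ne hT0
    filter_upwards [c1, c2, c3] with x h1 h2 h3
    have h4 := inv_shift C hρ G ha h1 (by simpa [fl] using h3) h2
    rw [h4, fl_fl]

end Crest.Agent.R102.RunD58
end
private theorem rz_c3c85e455c : type_of% @_root_.Crest.Agent.R102.RunD58.Bz.eq_1 := @_root_.Crest.Agent.R102.RunD58.Bz.eq_1 -- L21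
end

-- ▼ part R102/RunAlg_58
section

/-!
# Row 102, [H3], THEOREM (RAT), leaf R5 = RUN, algebraic part (helper58)

The field generated by the first line and the jets at all vertices of a chain is stable under the
derivations `∂/∂m_a`, `∂/∂k_a` of any line `a` of the chain; hence it contains the differential field
generated by the lines `a` and `a + N`.
-/

set_option autoImplicit false

noncomputable section

namespace Crest.Agent.R102.RunAlg58

open Crest.Agent.R102.RAT Crest.Agent.R102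

variable {M : Type*} [Field M] [Algebra ℂ M]

/-- chain relations for `P` mirrors, for one derivation -/
structure PChain (D : Derivation ℂ M M) (P : ℕ) (b : ℕ → M) (x : ℕ → ℕ → M)
    (E k : ℕ → M) : Prop where
  inc : ∀ j, j < P → x j 0 = E j ^ 2 * b j + k j
  inc' : ∀ j, j < P → x j 0 = E (j + 1) ^ 2 * b j + k (j + 1)
  refl : ∀ j, j < P → E j * E (j + 1) = x j 1
  E_ne : ∀ j, j ≤ P → E j ≠ 0
  tr : ∀ j, j < P → x j 1 ≠ E j ^ 2
  jet : ∀ j, j < P → ∀ r, D (x j r) = x j (r + 1) * D (b j)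

variable {D : Derivation ℂ M M} {P : ℕ} {b : ℕ → M} {x : ℕ → ℕ → M} {E k : ℕ → M}

theorem b_mem {j : ℕ} (hj : j < P) : b j ∈ LL P b x E k :=
  IntermediateField.subset_adjoin ℂ _ (Or.inr ⟨j, hj, Or.inl rfl⟩)

theorem x_mem {j : ℕ} (hj : j < P) (r : ℕ) : x j r ∈ LL P b x E k :=
  IntermediateField.subset_adjoin ℂ _ (Or.inr ⟨j, hj, Or.inr ⟨r, rfl⟩⟩)

theorem E0_mem : E 0 ∈ LL P b x E k :=
  IntermediateField.subset_adjoin ℂ _ (Or.inl (Or.inl rfl))

theorem k0_mem : k 0 ∈ LL P b x E k :=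
  IntermediateField.subset_adjoin ℂ _ (Or.inl (Or.inr rfl))

theorem two_mem' : (2 : M) ∈ LL P b x E k := by
  have := natCast_mem (LL P b x E k) 2
  exact_mod_cast this

/-- all lines of the chain are in `LL` -/
theorem line_mem (C : PChain D P b x E k) : ∀ j, j ≤ P → E j ∈ LL P b x E k ∧ k j ∈ LL P b x E k := by
  intro j
  induction j with
  | zero => exact fun _ => ⟨E0_mem, k0_mem⟩
  | succ j ih =>
    intro hj
    obtain ⟨h1, h2⟩ := ih (by omega)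
    have e1 : E (j + 1) = x j 1 / E j := by
      rw [eq_div_iff (C.E_ne j (by omega)), ← C.refl j (by omega), mul_comm]
    have h3 : E (j + 1) ∈ LL P b x E k := by
      rw [e1]; exact div_mem (x_mem (by omega) 1) h1
    refine ⟨h3, ?_⟩
    have e2 : k (j + 1) = x j 0 - E (j + 1) ^ 2 * b j := by
      rw [C.inc' j (by omega)]; ring
    rw [e2]
    exact sub_mem (x_mem (by omega) 0) (mul_mem (pow_mem h3 2) (b_mem (by omega)))

theorem tr' (C : PChain D P b x E k) {j : ℕ} (hj : j < P) : x j 1 ≠ E (j + 1) ^ 2 := by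
  intro h
  have h1 := C.refl j hj
  rw [h, pow_two] at h1
  have h2 := mul_right_cancel₀ (C.E_ne (j + 1) (by omega)) h1
  apply C.tr j hj
  rw [h, h2]

/-- derivative of the vertex from the line before -/
theorem Db_mem (C : PChain D P b x E k) {j : ℕ} (hj : j < P) (h1 : D (E j) ∈ LL P b x E k)
    (h2 : D (k j) ∈ LL P b x E k) : D (b j) ∈ LL P b x E k := by
  have hE := (line_mem C j hj.le).1
  have e1 := congrArg D (C.inc j hj)
  rw [map_add, Derivation.leibniz, Derivation.leibniz_pow, C.jet j hj 0] at e1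
  simp only [smul_eq_mul, nsmul_eq_mul, zero_add] at e1
  have hne : x j 1 - E j ^ 2 ≠ 0 := sub_ne_zero.2 (C.tr j hj)
  have e2 : D (b j) = (b j * (2 * (E j * D (E j))) + D (k j)) / (x j 1 - E j ^ 2) := by
    rw [eq_div_iff hne]
    push_cast at e1
    linear_combination e1
  rw [e2]
  exact div_mem (add_mem (mul_mem (b_mem hj) (mul_mem (two_mem')
    (mul_mem hE h1))) h2) (sub_mem (x_mem hj 1) (pow_mem hE 2))

/-- derivative of the vertex from the line after -/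
theorem Db_mem' (C : PChain D P b x E k) {j : ℕ} (hj : j < P) (h1 : D (E (j + 1)) ∈ LL P b x E k)
    (h2 : D (k (j + 1)) ∈ LL P b x E k) : D (b j) ∈ LL P b x E k := by
  have hE := (line_mem C (j + 1) hj).1
  have e1 := congrArg D (C.inc' j hj)
  rw [map_add, Derivation.leibniz, Derivation.leibniz_pow, C.jet j hj 0] at e1
  simp only [smul_eq_mul, nsmul_eq_mul, zero_add] at e1
  have hne : x j 1 - E (j + 1) ^ 2 ≠ 0 := sub_ne_zero.2 (tr' C hj)
  have e2 : D (b j) = (b j * (2 * (E (j + 1) * D (E (j + 1)))) + D (k (j + 1))) /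
      (x j 1 - E (j + 1) ^ 2) := by
    rw [eq_div_iff hne]
    push_cast at e1
    linear_combination e1
  rw [e2]
  exact div_mem (add_mem (mul_mem (b_mem hj) (mul_mem (two_mem')
    (mul_mem hE h1))) h2) (sub_mem (x_mem hj 1) (pow_mem hE 2))

theorem step_up (C : PChain D P b x E k) {j : ℕ} (hj : j < P) (h1 : D (E j) ∈ LL P b x E k)
    (h2 : D (k j) ∈ LL P b x E k) :
    D (E (j + 1)) ∈ LL P b x E k ∧ D (k (j + 1)) ∈ LL P b x E k := by
  have hb := Db_mem C hj h1 h2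
  have hE := (line_mem C j hj.le).1
  have hE' := (line_mem C (j + 1) hj).1
  have e1 := congrArg D (C.refl j hj)
  rw [Derivation.leibniz, C.jet j hj 1] at e1
  simp only [smul_eq_mul] at e1
  have e2 : D (E (j + 1)) = (x j 2 * D (b j) - E (j + 1) * D (E j)) / E j := by
    rw [eq_div_iff (C.E_ne j hj.le)]
    linear_combination e1
  have h3 : D (E (j + 1)) ∈ LL P b x E k := by
    rw [e2]
    exact div_mem (sub_mem (mul_mem (x_mem hj 2) hb) (mul_mem hE' h1)) hE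
  refine ⟨h3, ?_⟩
  have e3 := congrArg D (C.inc' j hj)
  rw [map_add, Derivation.leibniz, Derivation.leibniz_pow, C.jet j hj 0] at e3
  simp only [smul_eq_mul, nsmul_eq_mul, zero_add] at e3
  have e4 : D (k (j + 1)) = x j 1 * D (b j) - E (j + 1) ^ 2 * D (b j)
      - b j * (2 * (E (j + 1) * D (E (j + 1)))) := by
    push_cast at e3
    linear_combination -e3
  rw [e4]
  exact sub_mem (sub_mem (mul_mem (x_mem hj 1) hb) (mul_mem (pow_mem hE' 2) hb))
    (mul_mem (b_mem hj) (mul_mem (two_mem') (mul_mem hE' h3)))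

theorem step_down (C : PChain D P b x E k) {j : ℕ} (hj : j < P)
    (h1 : D (E (j + 1)) ∈ LL P b x E k) (h2 : D (k (j + 1)) ∈ LL P b x E k) :
    D (E j) ∈ LL P b x E k ∧ D (k j) ∈ LL P b x E k := by
  have hb := Db_mem' C hj h1 h2
  have hE := (line_mem C j hj.le).1
  have hE' := (line_mem C (j + 1) hj).1
  have e1 := congrArg D (C.refl j hj)
  rw [Derivation.leibniz, C.jet j hj 1] at e1
  simp only [smul_eq_mul] at e1
  have e2 : D (E j) = (x j 2 * D (b j) - E j * D (E (j + 1))) / E (j + 1) := by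
    rw [eq_div_iff (C.E_ne (j + 1) hj)]
    linear_combination e1
  have h3 : D (E j) ∈ LL P b x E k := by
    rw [e2]
    exact div_mem (sub_mem (mul_mem (x_mem hj 2) hb) (mul_mem hE h1)) hE'
  refine ⟨h3, ?_⟩
  have e3 := congrArg D (C.inc j hj)
  rw [map_add, Derivation.leibniz, Derivation.leibniz_pow, C.jet j hj 0] at e3
  simp only [smul_eq_mul, nsmul_eq_mul, zero_add] at e3
  have e4 : D (k j) = x j 1 * D (b j) - E j ^ 2 * D (b j) - b j * (2 * (E j * D (E j))) := by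
    push_cast at e3
    linear_combination -e3
  rw [e4]
  exact sub_mem (sub_mem (mul_mem (x_mem hj 1) hb) (mul_mem (pow_mem hE 2) hb))
    (mul_mem (b_mem hj) (mul_mem (two_mem') (mul_mem hE h3)))

/-- all derivatives of the lines are in `LL` -/
theorem Dline_mem (C : PChain D P b x E k) {a : ℕ} (ha : a ≤ P) (h1 : D (E a) ∈ LL P b x E k)
    (h2 : D (k a) ∈ LL P b x E k) :
    ∀ j, j ≤ P → D (E j) ∈ LL P b x E k ∧ D (k j) ∈ LL P b x E k := by
  have hup : ∀ i, a + i ≤ P → D (E (a + i)) ∈ LL P b x E k ∧ D (k (a + i)) ∈ LL P b x E k := by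
    intro i
    induction i with
    | zero => exact fun _ => ⟨h1, h2⟩
    | succ i ih =>
      intro hi
      obtain ⟨e1, e2⟩ := ih (by omega)
      exact step_up C (j := a + i) (by omega) e1 e2
  have hdown : ∀ i, i ≤ a → D (E (a - i)) ∈ LL P b x E k ∧ D (k (a - i)) ∈ LL P b x E k := by
    intro i
    induction i with
    | zero => exact fun _ => ⟨h1, h2⟩
    | succ i ih =>
      intro hi
      obtain ⟨e1, e2⟩ := ih (by omega)
      have e3 : a - i = a - (i + 1) + 1 := by omega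
      rw [e3] at e1 e2
      exact step_down C (by omega) e1 e2
  intro j hj
  rcases le_total a j with h | h
  · obtain ⟨i, rfl⟩ := Nat.exists_eq_add_of_le h
    exact hup i hj
  · have e3 : a - (a - j) = j := by omega
    have := hdown (a - j) (by omega)
    rwa [e3] at this

/-- **`LL` is stable under a derivation which maps one line of the chain into `LL`** -/
theorem LL_stable (C : PChain D P b x E k) {a : ℕ} (ha : a ≤ P) (h1 : D (E a) ∈ LL P b x E k)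
    (h2 : D (k a) ∈ LL P b x E k) : ∀ f ∈ LL P b x E k, D f ∈ LL P b x E k := by
  intro f hf
  refine DF389.der_adjoin D _ (LL P b x E k) (IntermediateField.subset_adjoin ℂ _) ?_ hf
  have hl := Dline_mem C ha h1 h2
  have hb : ∀ j, j < P → D (b j) ∈ LL P b x E k := fun j hj =>
    Db_mem C hj (hl j hj.le).1 (hl j hj.le).2
  rintro y (hy | ⟨j, hj, rfl | ⟨r, rfl⟩⟩)
  · rcases hy with rfl | hy
    · exact (hl 0 (Nat.zero_le _)).1
    · rw [Set.mem_singleton_iff] at hy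
      subst hy
      exact (hl 0 (Nat.zero_le _)).2
  · exact hb j hj
  · rw [C.jet j hj r]
    exact mul_mem (x_mem hj _) (hb j hj)

/-- the marked line `a` is the line of the coordinates `m, k` -/
structure Mark (D₁ D₂ : Derivation ℂ M M) (a : ℕ) (E k : ℕ → M) : Prop where
  D₁E : D₁ (E a ^ 2) = 1
  D₂E : D₂ (E a ^ 2) = 0
  D₁k : D₁ (k a) = 0
  D₂k : D₂ (k a) = 1

/-- **the differential field of the end lines is contained in `LL` of the longer chain** -/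
theorem KK_le {D₁ D₂ : Derivation ℂ M M} (C₁ : PChain D₁ P b x E k) (C₂ : PChain D₂ P b x E k)
    {a N : ℕ} (hP : a + N ≤ P) (hm : Mark D₁ D₂ a E k) :
    KK D₁ D₂ N (fun j => E (a + j)) (fun j => k (a + j)) ≤ LL P b x E k := by
  have hEa := C₁.E_ne a (by omega)
  have hEm := (line_mem C₁ a (by omega)).1
  have h2 : (2 : M) ≠ 0 := by
    have : CharZero M := charZero_of_injective_algebraMap (algebraMap ℂ M).injective
    exact two_ne_zero
  have hD1 : D₁ (E a) = 1 / (2 * E a) := by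
    have := hm.D₁E
    rw [Derivation.leibniz_pow] at this
    simp only [smul_eq_mul, nsmul_eq_mul] at this
    push_cast at this
    rw [eq_div_iff (mul_ne_zero h2 hEa)]
    linear_combination this
  have hD2 : D₂ (E a) = 0 := by
    have := hm.D₂E
    rw [Derivation.leibniz_pow] at this
    simp only [smul_eq_mul, nsmul_eq_mul] at this
    push_cast at this
    have e : (2 * E a) * D₂ (E a) = 0 := by linear_combination this
    exact (mul_eq_zero.1 e).resolve_left (mul_ne_zero h2 hEa)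
  have s1 : ∀ f ∈ LL P b x E k, D₁ f ∈ LL P b x E k := by
    refine LL_stable C₁ (a := a) (by omega) ?_ ?_
    · rw [hD1]
      exact div_mem (one_mem _) (mul_mem (two_mem') hEm)
    · rw [hm.D₁k]; exact zero_mem _
  have s2 : ∀ f ∈ LL P b x E k, D₂ f ∈ LL P b x E k := by
    refine LL_stable C₂ (a := a) (by omega) ?_ ?_
    · rw [hD2]; exact zero_mem _
    · rw [hm.D₂k]; exact one_mem _
  refine DF389.dfield_le _ _ _ ?_ ?_
  · intro y hy
    simp only [Set.mem_insert_iff, Set.mem_singleton_iff, add_zero] at hy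
    rcases hy with rfl | rfl | rfl | rfl
    · exact (line_mem C₁ a (by omega)).1
    · exact (line_mem C₁ a (by omega)).2
    · exact (line_mem C₁ (a + N) hP).1
    · exact (line_mem C₁ (a + N) hP).2
  · intro i
    fin_cases i
    · exact s1
    · exact s2

/-- transport of algebraicity by a homomorphism `τ` which agrees with `ρ` on `K` -/
theorem tau_alg {F : Type*} [Field F] [Algebra ℂ F] (K L L' : IntermediateField ℂ M) (hKL : K ≤ L)
    (hKL' : K ≤ L') (τ : L →ₐ[ℂ] F) (ρ : M →ₐ[ℂ] F)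
    (h : ∀ f (hf : f ∈ K), τ ⟨f, hKL hf⟩ = ρ f) (f : L) (hf : IsAlgebraic K (f : M)) :
    IsAlgebraic (L'.map ρ) (τ f) := by
  obtain ⟨p, hp0, hp⟩ := hf
  let j : K →+* (L'.map ρ) :=
    { toFun := fun y => ⟨ρ y, (IntermediateField.mem_map _).2 ⟨y, hKL' y.2, rfl⟩⟩
      map_one' := by ext; simp
      map_mul' := fun y z => by ext; simp
      map_zero' := by ext; simp
      map_add' := fun y z => by ext; simp }
  refine ⟨p.map j, ?_, ?_⟩
  · rw [Ne, Polynomial.map_eq_zero]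
    exact hp0
  · rw [Polynomial.aeval_def, Polynomial.eval₂_map]
    -- `p` evaluated at `f` in `L`
    have e1 : Polynomial.eval₂ (IntermediateField.inclusion hKL).toRingHom f p = 0 := by
      apply Subtype.ext
      have e2 := Polynomial.hom_eval₂ p (IntermediateField.inclusion hKL).toRingHom
        (algebraMap L M) f
      change algebraMap L M (Polynomial.eval₂ (IntermediateField.inclusion hKL).toRingHom f p) = _
      rw [e2]
      exact hp
    have e3 := congrArg τ.toRingHom e1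
    rw [Polynomial.hom_eval₂, map_zero] at e3
    have e4 : τ.toRingHom.comp (IntermediateField.inclusion hKL).toRingHom =
        (algebraMap (L'.map ρ) F).comp j := by
      ext y
      exact h y y.2
    rw [← e4]
    exact e3

end Crest.Agent.R102.RunAlg58
end
end

-- ▼ part R102/RunE_58

/-!
# Row 102, [H3], THEOREM (RAT), leaf R5 = RUN (helper58): the chain in `FractionRing (Hol W)`

vertices and lines with integer indices as elements of `Hol W`, the shifted chain `PChain`.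
-/

set_option autoImplicit false

open Set Filter Topology Metric TopologicalSpace

noncomputable section

namespace Crest.Agent.R102.RunE58

open Crest.Agent.R102 Crest.Agent.R102.F7389 Crest.Agent.R102.Run58 Crest.Agent.R102.RunD58
  Crest.Agent.R102.RunAlg58 Crest.Agent.R102.RAT Crest.Agent.R102.Glue798 Crest.Agent.R102.H3

/-! ### shorter chains -/

theorem chain_mono {g : ℂ → ℂ} {c₀ : ℂ} {N N' : ℕ} {ρ : ℝ} {β m k q q' : ℕ → ℂ × ℂ → ℂ}
    (C : Chain g c₀ N ρ β m k q q') (h : N' ≤ N) : Chain g c₀ N' ρ β m k q q' where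
  ρ_pos := C.ρ_pos
  an_β i hi := C.an_β i (hi.trans h)
  an_m i hi := C.an_m i (hi.trans h)
  an_k i hi := C.an_k i (hi.trans h)
  an_q i hi := C.an_q i (hi.trans h)
  an_q' i hi := C.an_q' i (by omega)
  β_zero := C.β_zero
  β_c i hi := C.β_c i (hi.trans h)
  m_c i hi := C.m_c i (hi.trans h)
  q_c i hi := C.q_c i (hi.trans h)
  q'_c i hi := C.q'_c i (by omega)
  an_g i hi := C.an_g i (hi.trans h)
  an_g' := C.an_g'
  inc i hi := C.inc i (hi.trans h)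
  inc' i hi := C.inc' i (by omega)
  chord := C.chord
  refl i hi := C.refl i (by omega)
  m_ne i hi := C.m_ne i (hi.trans h)
  q_ne i hi := C.q_ne i (hi.trans h)
  q'_ne i hi := C.q'_ne i (by omega)
  q_eq i hi := C.q_eq i (hi.trans h)
  q'_eq i hi := C.q'_eq i (by omega)
  even_m := C.even_m
  even_k := C.even_k

theorem good_mono {g : ℂ → ℂ} {c₀ : ℂ} {N N' : ℕ} {β m k : ℕ → ℂ × ℂ → ℂ} {r ρ₀ : ℝ}
    (G : Good g c₀ N β m k r ρ₀) (h : N' ≤ N) : Good g c₀ N' β m k r ρ₀ where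
  r_pos := G.r_pos
  ρ_pos := G.ρ_pos
  an := G.an
  mem i hi := G.mem i (hi.trans h)
  mem' i hi := G.mem' i (hi.trans h)
  two i hi := G.two i (hi.trans h)
  two' i hi := G.two' i (hi.trans h)
  ne i hi j hj := G.ne i (hi.trans h) j (hj.trans h)
  ne' i hi j hj := G.ne' i (hi.trans h) j (hj.trans h)

/-! ### the data -/

/-- the chain of length `P` near `c₀` and an open set `W` of lines -/
structure Setup (g : ℂ → ℂ) (c₀ : ℂ) (P : ℕ) (ρ : ℝ) (β m k q q' : ℕ → ℂ × ℂ → ℂ) (r ρ₀ : ℝ)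
    (V : Opens ℂ) (W : Opens (ℂ × ℂ)) : Prop where
  C : Chain g c₀ P ρ β m k q q'
  G : Good g c₀ P β m k r ρ₀
  hρ : ρ₀ ≤ ρ
  an_g : AnalyticOnNhd ℂ g V
  inV : ∀ j ≤ P, ∀ p ∈ ball c₀ ρ₀ ×ˢ ball (0 : ℂ) ρ₀, bp β j p ∈ V
  ne : (W : Set (ℂ × ℂ)).Nonempty
  pre : IsPreconnected (W : Set (ℂ × ℂ))
  sub : (W : Set (ℂ × ℂ)) ⊆ ball c₀ ρ₀ ×ˢ ball (0 : ℂ) ρ₀

/-- the vertex `b_j` -/
def bH (β : ℕ → ℂ × ℂ → ℂ) (W : Opens (ℂ × ℂ)) (j : ℤ) : Hol W := toH W (Bz β j)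

/-- `f ∘ b_j` -/
def xH (β : ℕ → ℂ × ℂ → ℂ) (W : Opens (ℂ × ℂ)) {V : Opens ℂ} (j : ℤ) (f : Hol V) : Hol W :=
  toH W (fun p => ext0 (f : V → ℂ) (Bz β j p))

/-- the line `l_j` -/
def mH (m : ℕ → ℂ × ℂ → ℂ) (W : Opens (ℂ × ℂ)) (j : ℤ) : Hol W := toH W (Lz m j)

section

variable {g : ℂ → ℂ} {c₀ : ℂ} {P : ℕ} {ρ : ℝ} {β m k q q' : ℕ → ℂ × ℂ → ℂ} {r ρ₀ : ℝ}
  {V : Opens ℂ} {W : Opens (ℂ × ℂ)}

namespace Setup

theorem mem (S : Setup g c₀ P ρ β m k q q' r ρ₀ V W) {p : ℂ × ℂ} (hp : p ∈ W) :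
    p ∈ ball c₀ ρ ×ˢ ball (0 : ℂ) ρ :=
  ⟨ball_subset_ball S.hρ (S.sub hp).1, ball_subset_ball S.hρ (S.sub hp).2⟩

theorem res (S : Setup g c₀ P ρ β m k q q' r ρ₀ V W) {W' : Opens (ℂ × ℂ)} (hle : W' ≤ W)
    (hne : (W' : Set (ℂ × ℂ)).Nonempty) (hpre : IsPreconnected (W' : Set (ℂ × ℂ))) :
    Setup g c₀ P ρ β m k q q' r ρ₀ V W' :=
  ⟨S.C, S.G, S.hρ, S.an_g, S.inV, hne, hpre, fun _ hp => S.sub (hle hp)⟩

/-- a point off `ω = 0` -/
theorem exists_om (S : Setup g c₀ P ρ β m k q q' r ρ₀ V W) : ∃ p : W, (p : ℂ × ℂ).2 ≠ 0 := by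
  obtain ⟨p, hp⟩ := S.ne
  by_cases h0 : p.2 = 0
  · obtain ⟨ε, hε, hb⟩ := Metric.isOpen_iff.1 W.isOpen p hp
    refine ⟨⟨(p.1, ((ε / 2 : ℝ) : ℂ)), hb ?_⟩, ?_⟩
    · rw [mem_ball, Prod.dist_eq, h0]
      simp only [dist_self, dist_zero_right, Complex.norm_real, Real.norm_eq_abs,
        abs_of_pos (half_pos hε)]
      exact max_lt hε (by linarith)
    · simpa using hε.ne'
  · exact ⟨⟨p, hp⟩, h0⟩

theorem an_b (S : Setup g c₀ P ρ β m k q q' r ρ₀ V W) {j : ℤ} (h1 : -(P : ℤ) - 1 ≤ j)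
    (h2 : j ≤ P) : AnalyticOnNhd ℂ (Bz β j) W := fun _ hp => an_Bz S.C h1 h2 (S.mem hp)

theorem an_m (S : Setup g c₀ P ρ β m k q q' r ρ₀ V W) {j : ℤ} (h1 : -(P : ℤ) ≤ j)
    (h2 : j ≤ P) : AnalyticOnNhd ℂ (Lz m j) W := fun _ hp => (an_Lz S.C h1 h2 (S.mem hp)).1

theorem an_k (S : Setup g c₀ P ρ β m k q q' r ρ₀ V W) {j : ℤ} (h1 : -(P : ℤ) ≤ j)
    (h2 : j ≤ P) : AnalyticOnNhd ℂ (Lz k j) W := fun _ hp => (an_Lz S.C h1 h2 (S.mem hp)).2

theorem b_mem (S : Setup g c₀ P ρ β m k q q' r ρ₀ V W) {j : ℤ} (h1 : -(P : ℤ) - 1 ≤ j)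
    (h2 : j ≤ P) {p : ℂ × ℂ} (hp : p ∈ ball c₀ ρ₀ ×ˢ ball (0 : ℂ) ρ₀) : Bz β j p ∈ V := by
  rcases j with j | i
  · exact S.inV j (by simpa using h2) p hp
  · rw [Int.negSucc_eq] at h1
    exact S.inV i (by omega) (fl p) (fl_mem hp)

theorem bH_apply (S : Setup g c₀ P ρ β m k q q' r ρ₀ V W) {j : ℤ} (h1 : -(P : ℤ) - 1 ≤ j)
    (h2 : j ≤ P) (p : W) : (bH β W j : W → ℂ) p = Bz β j p := toH_apply (S.an_b h1 h2) p

theorem mH_apply (S : Setup g c₀ P ρ β m k q q' r ρ₀ V W) {j : ℤ} (h1 : -(P : ℤ) ≤ j)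
    (h2 : j ≤ P) (p : W) : (mH m W j : W → ℂ) p = Lz m j p := toH_apply (S.an_m h1 h2) p

theorem kH_apply (S : Setup g c₀ P ρ β m k q q' r ρ₀ V W) {j : ℤ} (h1 : -(P : ℤ) ≤ j)
    (h2 : j ≤ P) (p : W) : (mH k W j : W → ℂ) p = Lz k j p := toH_apply (S.an_k h1 h2) p

theorem bH_mem (S : Setup g c₀ P ρ β m k q q' r ρ₀ V W) {j : ℤ} (h1 : -(P : ℤ) - 1 ≤ j)
    (h2 : j ≤ P) (p : W) : (bH β W j : W → ℂ) p ∈ V := by
  rw [S.bH_apply h1 h2]
  exact S.b_mem h1 h2 (S.sub p.2)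

theorem an_x (S : Setup g c₀ P ρ β m k q q' r ρ₀ V W) {j : ℤ} (h1 : -(P : ℤ) - 1 ≤ j)
    (h2 : j ≤ P) (f : Hol V) : AnalyticOnNhd ℂ (fun p => ext0 (f : V → ℂ) (Bz β j p)) W :=
  fun p hp => AnalyticAt.fun_comp (g := ext0 (f : V → ℂ)) (f := Bz β j)
    (Hol.an f _ (S.b_mem h1 h2 (S.sub hp))) (S.an_b h1 h2 p hp)

theorem xH_apply (S : Setup g c₀ P ρ β m k q q' r ρ₀ V W) {j : ℤ} (h1 : -(P : ℤ) - 1 ≤ j)
    (h2 : j ≤ P) (f : Hol V) (p : W) :
    (xH β W j f : W → ℂ) p = ext0 (f : V → ℂ) (Bz β j p) := toH_apply (S.an_x h1 h2 f) p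

theorem xH_eq (S : Setup g c₀ P ρ β m k q q' r ρ₀ V W) {j : ℤ} (h1 : -(P : ℤ) - 1 ≤ j)
    (h2 : j ≤ P) (f : Hol V) : xH β W j f = compH (bH β W j) (S.bH_mem h1 h2) f := by
  ext p
  rw [S.xH_apply h1 h2, compH_apply, ← ext0_of_mem (f : V → ℂ) (S.bH_mem h1 h2 p),
    S.bH_apply h1 h2]

theorem ext0_g (S : Setup g c₀ P ρ β m k q q' r ρ₀ V W) {z : ℂ} (hz : z ∈ V) :
    ext0 (toH V g : V → ℂ) z = g z := by
  rw [ext0_of_mem _ hz, toH_apply S.an_g]

theorem ext0_dg (S : Setup g c₀ P ρ β m k q q' r ρ₀ V W) {z : ℂ} (hz : z ∈ V) :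
    ext0 (DH V (toH V g) : V → ℂ) z = deriv g z := by
  rw [ext0_of_mem _ hz, DH_apply]
  exact (ext0_toH S.an_g hz).deriv_eq

theorem inc (S : Setup g c₀ P ρ β m k q q' r ρ₀ V W) {j : ℤ} (h1 : -(P : ℤ) ≤ j)
    (h2 : j ≤ P) : xH β W j (toH V g) = mH m W j * bH β W j + mH k W j := by
  ext p
  have e1 := incz S.C h1 h2 (S.mem p.2)
  rw [S.xH_apply (by omega) h2, S.ext0_g (S.b_mem (by omega) h2 (S.sub p.2))]
  simp only [Subalgebra.coe_add, Subalgebra.coe_mul, Pi.add_apply, Pi.mul_apply]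
  rw [S.bH_apply (by omega) h2, S.mH_apply h1 h2, S.kH_apply h1 h2]
  exact e1

theorem inc' (S : Setup g c₀ P ρ β m k q q' r ρ₀ V W) {j : ℤ} (h1 : -(P : ℤ) - 1 ≤ j)
    (h2 : j < P) : xH β W j (toH V g) = mH m W (j + 1) * bH β W j + mH k W (j + 1) := by
  ext p
  have e1 := incz' S.C (j := j + 1) (by omega) (by omega) (S.mem p.2)
  rw [add_sub_cancel_right] at e1
  rw [S.xH_apply (by omega) h2.le, S.ext0_g (S.b_mem (by omega) h2.le (S.sub p.2))]
  simp only [Subalgebra.coe_add, Subalgebra.coe_mul, Pi.add_apply, Pi.mul_apply]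
  rw [S.bH_apply (by omega) h2.le, S.mH_apply (by omega) (by omega),
    S.kH_apply (by omega) (by omega)]
  exact e1

theorem refl (S : Setup g c₀ P ρ β m k q q' r ρ₀ V W) {j : ℤ} (h1 : -(P : ℤ) ≤ j)
    (h2 : j < P) : mH m W (j + 1) * mH m W j = xH β W j (DH V (toH V g)) ^ 2 := by
  ext p
  have e1 := reflz S.C h1 h2 (S.mem p.2)
  simp only [SubmonoidClass.coe_pow, Subalgebra.coe_mul, Pi.pow_apply, Pi.mul_apply]
  rw [S.xH_apply (by omega) h2.le, S.ext0_dg (S.b_mem (by omega) h2.le (S.sub p.2)),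
    S.mH_apply (by omega) (by omega), S.mH_apply h1 h2.le]
  exact e1

theorem m_ne (S : Setup g c₀ P ρ β m k q q' r ρ₀ V W) {j : ℤ} (h1 : -(P : ℤ) ≤ j)
    (h2 : j ≤ P) (p : W) : (mH m W j : W → ℂ) p ≠ 0 := by
  rw [S.mH_apply h1 h2]
  exact nez S.C h1 h2 (S.mem p.2)

theorem nonempty (S : Setup g c₀ P ρ β m k q q' r ρ₀ V W) : Nonempty W :=
  ⟨⟨S.ne.some, S.ne.some_mem⟩⟩

theorem mH_ne (S : Setup g c₀ P ρ β m k q q' r ρ₀ V W) {j : ℤ} (h1 : -(P : ℤ) ≤ j)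
    (h2 : j ≤ P) : mH m W j ≠ 0 := by
  obtain ⟨p⟩ := S.nonempty
  intro h
  have := S.m_ne h1 h2 p
  rw [h] at this
  exact this rfl

/-- transversality -/
theorem tr_pt (S : Setup g c₀ P ρ β m k q q' r ρ₀ V W) {j : ℤ} (h1 : -(P : ℤ) ≤ j)
    (h2 : j ≤ P) {p : ℂ × ℂ} (hp : p ∈ ball c₀ ρ₀ ×ˢ ball (0 : ℂ) ρ₀) (h0 : p.2 ≠ 0) :
    deriv g (Bz β j p) ≠ Lz m j p := by
  have hin : p ∈ ball c₀ ρ ×ˢ ball (0 : ℂ) ρ :=
    ⟨ball_subset_ball S.hρ hp.1, ball_subset_ball S.hρ hp.2⟩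
  intro h
  rcases j with j | i
  · have e1 := S.C.q_eq j (by simpa using h2) p hin
    have e2 : deriv g (p.1 + p.2 * β j p) = m j p := h
    rw [e2, sub_self] at e1
    exact mul_ne_zero h0 (S.C.q_ne j (by simpa using h2) p hin) e1.symm
  · rw [Int.negSucc_eq] at h1
    have h0' : (fl p).2 ≠ 0 := by simpa [fl] using h0
    have e1 := S.C.q'_eq i (by omega) (fl p) (fl_mem hin)
    have e2 : deriv g ((fl p).1 + (fl p).2 * β i (fl p)) = m (i + 1) (fl p) := h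
    rw [e2, sub_self] at e1
    exact mul_ne_zero h0' (S.C.q'_ne i (by omega) (fl p) (fl_mem hin)) e1.symm

theorem tr (S : Setup g c₀ P ρ β m k q q' r ρ₀ V W) {j : ℤ} (h1 : -(P : ℤ) ≤ j)
    (h2 : j ≤ P) : xH β W j (DH V (toH V g)) ≠ mH m W j := by
  obtain ⟨p, hp⟩ := S.exists_om
  intro h
  have e1 := congrArg (fun f : Hol W => (f : W → ℂ) p) h
  rw [S.xH_apply (by omega) h2, S.ext0_dg (S.b_mem (by omega) h2 (S.sub p.2)),
    S.mH_apply h1 h2] at e1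
  exact S.tr_pt h1 h2 (S.sub p.2) hp e1

theorem b_succ_ne (S : Setup g c₀ P ρ β m k q q' r ρ₀ V W) {j : ℤ} (h1 : -(P : ℤ) ≤ j)
    (h2 : j ≤ P) : bH β W j ≠ bH β W (j - 1) := by
  obtain ⟨p, hp⟩ := S.exists_om
  intro h
  have e1 := congrArg (fun f : Hol W => (f : W → ℂ) p) h
  rw [S.bH_apply (by omega) h2, S.bH_apply (by omega) (by omega)] at e1
  exact succ_ne S.G h1 h2 (S.sub p.2) hp e1

/-- the vertices are not constant -/
theorem pd_b (S : Setup g c₀ P ρ β m k q q' r ρ₀ V W) {j : ℕ} (hj : j ≤ P) :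
    pdH W (1, 0) (bH β W j) ≠ 0 := by
  have hne := S.nonempty
  have hpre : IsPreconnected (ball c₀ ρ ×ˢ ball (0 : ℂ) ρ) :=
    ((convex_ball c₀ ρ).prod (convex_ball (0 : ℂ) ρ)).isPreconnected
  have hc : ((c₀, 0) : ℂ × ℂ) ∈ ball c₀ ρ ×ˢ ball (0 : ℂ) ρ :=
    ⟨mem_ball_self S.C.ρ_pos, mem_ball_self S.C.ρ_pos⟩
  have han : AnalyticOnNhd ℂ (Bz β (j : ℤ)) (ball c₀ ρ ×ˢ ball (0 : ℂ) ρ) := fun p hp =>
    an_Bz S.C (by omega) (by omega) hp
  have han' : AnalyticOnNhd ℂ (fun p => fderiv ℂ (Bz β (j : ℤ)) p (1, 0))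
      (ball c₀ ρ ×ˢ ball (0 : ℂ) ρ) := fun x hx =>
    (((ContinuousLinearMap.apply ℂ ℂ ((1, 0) : ℂ × ℂ)).analyticAt _).comp (han x hx).fderiv)
  rw [bH, pdH_toH _ (S.an_b (by omega) (by omega))]
  refine toH_ne_zero hpre (fun p hp => S.mem hp) han' hc ?_
  -- the derivative at the centre is `1`
  have h1 : HasFDerivAt (Bz β (j : ℤ)) (fderiv ℂ (Bz β (j : ℤ)) (c₀, 0)) (c₀, 0) :=
    (han _ hc).differentiableAt.hasFDerivAt
  have h2 : HasDerivAt (fun c : ℂ => ((c, 0) : ℂ × ℂ)) (1, 0) c₀ :=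
    (hasDerivAt_id _).prodMk (hasDerivAt_const _ _)
  have h3 := h1.comp_hasDerivAt c₀ h2
  have h4 : (Bz β (j : ℤ) ∘ fun c : ℂ => ((c, 0) : ℂ × ℂ)) = fun c => c := by
    funext c
    simp [Bz, bp]
  rw [h4] at h3
  rw [h3.unique (hasDerivAt_id c₀)]
  exact one_ne_zero

/-- chain rule -/
theorem pd_x (S : Setup g c₀ P ρ β m k q q' r ρ₀ V W) {j : ℤ} (h1 : -(P : ℤ) - 1 ≤ j)
    (h2 : j ≤ P) (v : ℂ × ℂ) (f : Hol V) :
    pdH W v (xH β W j f) = xH β W j (DH V f) * pdH W v (bH β W j) := by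
  rw [S.xH_eq h1 h2, S.xH_eq h1 h2, pdH_compH]

/-- restriction -/
theorem res_b (S : Setup g c₀ P ρ β m k q q' r ρ₀ V W) {W' : Opens (ℂ × ℂ)} (hle : W' ≤ W)
    {j : ℤ} (h1 : -(P : ℤ) - 1 ≤ j) (h2 : j ≤ P) : Hol.res hle (bH β W j) = bH β W' j :=
  res_toH hle (S.an_b h1 h2)

theorem res_m (S : Setup g c₀ P ρ β m k q q' r ρ₀ V W) {W' : Opens (ℂ × ℂ)} (hle : W' ≤ W)
    {j : ℤ} (h1 : -(P : ℤ) ≤ j) (h2 : j ≤ P) : Hol.res hle (mH m W j) = mH m W' j :=
  res_toH hle (S.an_m h1 h2)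

theorem res_k (S : Setup g c₀ P ρ β m k q q' r ρ₀ V W) {W' : Opens (ℂ × ℂ)} (hle : W' ≤ W)
    {j : ℤ} (h1 : -(P : ℤ) ≤ j) (h2 : j ≤ P) : Hol.res hle (mH k W j) = mH k W' j :=
  res_toH hle (S.an_k h1 h2)

theorem res_x (S : Setup g c₀ P ρ β m k q q' r ρ₀ V W) {W' : Opens (ℂ × ℂ)} (hle : W' ≤ W)
    {j : ℤ} (h1 : -(P : ℤ) - 1 ≤ j) (h2 : j ≤ P) (f : Hol V) :
    Hol.res hle (xH β W j f) = xH β W' j f :=
  res_toH hle (S.an_x h1 h2 f)

end Setup

end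

end Crest.Agent.R102.RunE58
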