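import Crest.Agent.R102.SchL_864
import Crest.Agent.R102.Chain_864
import Crest.Agent.R102.Blow_971

-- ▼ part R102/RootSch_909
section

/-!
Row 102, T1-B, EDGE: zeros of `y` cost only an additive `N` (helper909).

`F` holomorphic and zero free on a disc, with at most `N` points where `F = 1`: the sharp Schottky
bound holds with `1` replaced by `N + 1` (root trick: some residue class of `log F / 2πi` mod `N + 1`
is never hit).
-/

set_option autoImplicit false

open Set Filter Metric Complex Topology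

namespace Crest.Agent.R102.RootSch909

open Crest.Agent.R102.G864

theorem root_schottky {F : ℂ → ℂ} {c : ℂ} {R : ℝ} (hR : 0 < R)
    (hF : DifferentiableOn ℂ F (ball c R)) (h0 : ∀ z ∈ ball c R, F z ≠ 0)
    {N : ℕ} {Zs : Finset ℂ} (hN : Zs.card ≤ N) (h1 : ∀ z ∈ ball c R, F z = 1 → z ∈ Zs)
    {θ : ℝ} (hθ0 : 0 ≤ θ) (hθ1 : θ < 1) :
    ∀ z ∈ closedBall c (θ * R),
      |Real.log ‖F z‖| ≤ KS θ * (N + 1 + |Real.log ‖F c‖|) := by
  obtain ⟨L, hL, hexp⟩ := M948.exists_log hF h0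
  classical
  -- the integer of a zero of `F - 1`
  let k : ℂ → ℤ := fun z => if h : ∃ n : ℤ, L z = n * (2 * Real.pi * I) then h.choose else 0
  have hk : ∀ z, (∃ n : ℤ, L z = n * (2 * Real.pi * I)) → L z = k z * (2 * Real.pi * I) := by
    intro z h
    have : k z = h.choose := by simp only [k]; rw [dif_pos h]
    rw [this]
    exact h.choose_spec
  have hN1 : (0 : ℝ) < (N : ℝ) + 1 := by positivity
  have hN1c : ((N : ℂ) + 1) ≠ 0 := by exact_mod_cast (Nat.succ_ne_zero N)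
  obtain ⟨r, hr⟩ : ∃ r : ZMod (N + 1), r ∉ Zs.image (fun z => ((k z : ℤ) : ZMod (N + 1))) := by
    by_contra hcon
    push Not at hcon
    have h2 : (Finset.univ : Finset (ZMod (N + 1))) ⊆ Zs.image (fun z => ((k z : ℤ) : ZMod (N + 1))) :=
      fun x _ => hcon x
    have h3 := Finset.card_le_card h2
    have h4 : (Zs.image (fun z => ((k z : ℤ) : ZMod (N + 1)))).card ≤ Zs.card := Finset.card_image_le
    rw [Finset.card_univ, ZMod.card] at h3
    omega
  obtain ⟨k0, rfl⟩ := ZMod.intCast_surjective r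
  set G : ℂ → ℂ := fun z => cexp ((L z - k0 * (2 * Real.pi * I)) / (N + 1)) with hG
  have hGd : DifferentiableOn ℂ G (ball c R) :=
    ((hL.sub_const _).div_const _).cexp
  have hG0 : ∀ z ∈ ball c R, G z ≠ 0 := fun z _ => Complex.exp_ne_zero _
  have hG1 : ∀ z ∈ ball c R, G z ≠ 1 := by
    intro z hz h
    obtain ⟨m, hm⟩ := Complex.exp_eq_one_iff.1 h
    have h2 : L z = ((k0 + m * (N + 1) : ℤ) : ℂ) * (2 * Real.pi * I) := by
      rw [div_eq_iff hN1c] at hm
      push_cast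
      linear_combination hm
    have h3 : F z = 1 := by
      rw [← hexp z hz, h2]
      exact Complex.exp_eq_one_iff.2 ⟨_, rfl⟩
    have h4 := h1 z hz h3
    apply hr
    rw [Finset.mem_image]
    refine ⟨z, h4, ?_⟩
    have h5 := hk z ⟨_, h2⟩
    rw [h2] at h5
    have h6 : ((k0 + m * (N + 1) : ℤ) : ℂ) = (k z : ℂ) :=
      mul_right_cancel₀ (by simp [Real.pi_ne_zero]) h5
    have h7 : k0 + m * (N + 1) = k z := by exact_mod_cast h6
    rw [← h7]
    push_cast
    have : ((N : ZMod (N + 1)) + 1) = 0 := by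
      have := ZMod.natCast_self (N + 1)
      push_cast at this
      exact this
    rw [this, mul_zero, add_zero]
  have hGn : ∀ z ∈ ball c R, Real.log ‖G z‖ = Real.log ‖F z‖ / (N + 1) := by
    intro z hz
    rw [← hexp z hz, Complex.norm_exp, Real.log_exp, Complex.norm_exp, Real.log_exp]
    have e1 : (L z - k0 * (2 * Real.pi * I)) / ((N : ℂ) + 1) =
        (L z - k0 * (2 * Real.pi * I)) / (((N : ℝ) + 1 : ℝ) : ℂ) := by push_cast; rfl
    rw [e1, Complex.div_ofReal_re]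
    congr 1
    simp
  intro z hz
  have hcb : c ∈ ball c R := mem_ball_self hR
  have hzb : z ∈ ball c R := by
    rw [mem_closedBall] at hz
    rw [mem_ball]
    nlinarith
  have h := schottky_log hR hGd hG0 hG1 hθ0 hθ1 z hz
  rw [hGn z hzb, hGn c hcb, abs_div, abs_div, abs_of_pos hN1, div_le_iff₀ hN1] at h
  refine h.trans (le_of_eq ?_)
  field_simp

end Crest.Agent.R102.RootSch909
end

-- ▼ part R102/ChainGen_864
section

/-!
Row 102, T1-B / EDGE (helper864): generic Harnack chains in the tilted sawtooth `S5.Saw`.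

* `Step W K0 Λ`   : one step property of a functional `Λ` (Schottky height `HE F`, Harnack, ...).
* `sawChainGen`   : `Λ q ≤ C (r / D)^S Λ (ray e (K r))` AND the reverse, `C, S, K` chosen before `lam`.
* `step_HE`, `step_im` (Harnack for `Im g`, `g` holomorphic with positive imaginary part).
* `label_depth`   : `h - |Im B q| ≥ (D / r)^S / C * (h - |Im B (ray e (K r))|)`.
-/

set_option autoImplicit false

open Set Filter Metric Complex Topology

namespace Crest.Agent.R102.Chain864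

open Crest.Agent.R102.G864 Crest.Agent.R102.F300 Crest.Agent.R102.S5

/-- one step property -/
def Step {E : Type*} [NormedAddCommGroup E] (W : Set E) (K0 : ℝ) (Λ : E → ℝ) : Prop :=
  ∀ (w w' : E) (r : ℝ), 0 < r → ball w r ⊆ W → ‖w' - w‖ ≤ r / 2 → Λ w' ≤ K0 * Λ w


/-- Harnack -/
theorem step_im {E : Type*} [NormedAddCommGroup E] [NormedSpace ℂ E] {W : Set E} {g : E → ℂ}
    (hg : DifferentiableOn ℂ g W) (hpos : ∀ q ∈ W, 0 < (g q).im) :
    Step W 3 (fun q => (g q).im) := by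
  intro w w' r hr hb hw
  have hw0 : w ∈ W := hb (mem_ball_self hr)
  have hw' : w' ∈ ball w r := by
    rw [mem_ball, dist_eq_norm]; linarith
  obtain ⟨a, ha⟩ : ∃ a : ℂ, a = g w := ⟨_, rfl⟩
  have ha0 : 0 < a.im := by rw [ha]; exact hpos w hw0
  have hne : ∀ q ∈ W, g q - (starRingEnd ℂ) a ≠ 0 := by
    intro q hq h0
    have h1 := congrArg Complex.im h0
    simp only [sub_im, conj_im, zero_im] at h1
    have := hpos q hq
    linarith
  obtain ⟨f, hf⟩ : ∃ f : E → ℂ, f = fun q => (g q - a) / (g q - (starRingEnd ℂ) a) := ⟨_, rfl⟩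
  have hfd : DifferentiableOn ℂ f (ball w r) := by
    have e : f = fun q => (g q - a) * (g q - (starRingEnd ℂ) a)⁻¹ := by
      rw [hf]; funext q; rw [div_eq_mul_inv]
    rw [e]
    exact ((hg.mono hb).sub_const _).mul
      (((hg.mono hb).sub_const _).inv (fun q hq => hne q (hb hq)))
  have hfw : f w = 0 := by rw [hf]; simp [ha]
  have hfle : ∀ q ∈ ball w r, ‖f q‖ ≤ 1 := by
    intro q hq
    have hp := hpos q (hb hq)
    rw [hf]
    simp only
    rw [norm_div, div_le_one (norm_pos_iff.2 (hne q (hb hq)))]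
    rw [← sq_le_sq₀ (norm_nonneg _) (norm_nonneg _), Complex.sq_norm, Complex.sq_norm,
      normSq_apply, normSq_apply]
    simp only [sub_re, sub_im, conj_re, conj_im]
    nlinarith [mul_pos hp ha0]
  have hmaps : MapsTo f (ball w r) (closedBall (f w) 1) := by
    intro q hq
    rw [hfw, mem_closedBall, dist_zero_right]
    exact hfle q hq
  have h1 := dist_le_div_mul_dist_of_mapsTo_ball hfd hmaps hw'
  rw [hfw, dist_zero_right, dist_eq_norm] at h1
  have h2 : ‖f w'‖ ≤ 1 / 2 := by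
    refine h1.trans ?_
    calc 1 / r * ‖w' - w‖ ≤ 1 / r * (r / 2) := mul_le_mul_of_nonneg_left hw (by positivity)
      _ = 1 / 2 := by field_simp
  -- read off
  have hp := hpos w' (hb hw')
  have h3 : ‖g w' - a‖ ≤ 1 / 2 * ‖g w' - (starRingEnd ℂ) a‖ := by
    rw [hf] at h2
    simp only at h2
    rw [norm_div, div_le_iff₀ (norm_pos_iff.2 (hne w' (hb hw')))] at h2
    exact h2
  have h4 : ‖g w' - a‖ ^ 2 ≤ 1 / 4 * ‖g w' - (starRingEnd ℂ) a‖ ^ 2 := by
    have := mul_self_le_mul_self (norm_nonneg _) h3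
    nlinarith
  rw [Complex.sq_norm, Complex.sq_norm, normSq_apply, normSq_apply] at h4
  simp only [sub_re, sub_im, conj_re, conj_im] at h4
  simp only
  rw [← ha]
  -- (y - a)^2 * 3/4 part: 3 x^2 + 4 (y - a)^2 ≤ (y + a)^2
  have h5 : 4 * ((g w').im - a.im) ^ 2 ≤ ((g w').im + a.im) ^ 2 := by
    nlinarith [sq_nonneg ((g w').re - a.re)]
  by_contra hcon
  push Not at hcon
  nlinarith





end Crest.Agent.R102.Chain864
end

-- ▼ part R102/SideA_669
section

/-!
Row 102, T1-B, EDGE, SIDE (helper669), one-variable part 1: zero count, quotients, lower bounds of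
`sup |Y|` on small balls, chains of balls.
-/

set_option autoImplicit false

open Set Filter Metric Complex Topology

namespace Crest.Agent.R102.Side669

/-- division by a zero: sup bound on the sphere -/
theorem dslope_sphere {Y : ℂ → ℂ} {c z1 : ℂ} {R M : ℝ} (hR : 0 < R) (hz1 : ‖z1 - c‖ ≤ R / 4)
    (hY0 : Y z1 = 0) (hM : ∀ z ∈ sphere c R, ‖Y z‖ ≤ M) :
    ∀ z ∈ sphere c R, ‖dslope Y z1 z‖ ≤ M / (3 * R / 4) := by
  intro z hz
  have hzc : ‖z - c‖ = R := by rwa [mem_sphere, dist_eq_norm] at hz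
  have h1 : 3 * R / 4 ≤ ‖z - z1‖ := by
    have : ‖z - c‖ ≤ ‖z - z1‖ + ‖z1 - c‖ := by
      calc ‖z - c‖ = ‖(z - z1) + (z1 - c)‖ := by congr 1; ring
        _ ≤ _ := norm_add_le _ _
    linarith
  have h2 : (z - z1) * dslope Y z1 z = Y z := by
    have := sub_smul_dslope Y z1 z
    rw [smul_eq_mul, hY0, sub_zero] at this
    exact this
  have h3 : ‖z - z1‖ * ‖dslope Y z1 z‖ = ‖Y z‖ := by rw [← norm_mul, h2]
  have h4 := hM z hz
  rw [le_div_iff₀ (by positivity)]
  nlinarith [norm_nonneg (dslope Y z1 z)]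

theorem dslope_center {Y : ℂ → ℂ} {c z1 : ℂ} {R m : ℝ} (hR : 0 < R) (hz1 : ‖z1 - c‖ ≤ R / 4)
    (hY0 : Y z1 = 0) (hm : m ≤ ‖Y c‖) : m / (R / 4) ≤ ‖dslope Y z1 c‖ := by
  have h2 : (c - z1) * dslope Y z1 c = Y c := by
    have := sub_smul_dslope Y z1 c
    rw [smul_eq_mul, hY0, sub_zero] at this
    exact this
  have h3 : ‖c - z1‖ * ‖dslope Y z1 c‖ = ‖Y c‖ := by rw [← norm_mul, h2]
  rw [norm_sub_rev] at h3
  rw [div_le_iff₀ (by positivity)]
  nlinarith [norm_nonneg (dslope Y z1 c)]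

theorem dslope_diff {Y : ℂ → ℂ} {c z1 : ℂ} {R' : ℝ} (hz1 : z1 ∈ ball c R')
    (hY : DifferentiableOn ℂ Y (ball c R')) : DifferentiableOn ℂ (dslope Y z1) (ball c R') :=
  (Complex.differentiableOn_dslope (isOpen_ball.mem_nhds hz1)).2 hY

theorem le_of_sphere {Y : ℂ → ℂ} {c : ℂ} {R R' M : ℝ} (hR : 0 < R) (hRR : R < R')
    (hY : DifferentiableOn ℂ Y (ball c R')) (hM : ∀ z ∈ sphere c R, ‖Y z‖ ≤ M) :
    ∀ z ∈ closedBall c R, ‖Y z‖ ≤ M := by
  intro z hz
  have h1 : DiffContOnCl ℂ Y (ball c R) :=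
    DifferentiableOn.diffContOnCl (by
      rw [closure_ball c hR.ne']
      exact hY.mono (closedBall_subset_ball hRR))
  refine Complex.norm_le_of_forall_mem_frontier_norm_le isBounded_ball h1 ?_ ?_
  · intro w hw
    rw [frontier_ball c hR.ne'] at hw
    exact hM w hw
  · rwa [closure_ball c hR.ne']

/-- **zero count** -/
theorem zero_count {c : ℂ} {R R' : ℝ} (hR : 0 < R) (hRR : R < R') :
    ∀ (n : ℕ) (Y : ℂ → ℂ) (M m : ℝ) (Zs : Finset ℂ), DifferentiableOn ℂ Y (ball c R') →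
      (∀ z ∈ sphere c R, ‖Y z‖ ≤ M) → m ≤ ‖Y c‖ → 
      (∀ z ∈ Zs, ‖z - c‖ ≤ R / 4 ∧ Y z = 0) → Zs.card = n → 3 ^ n * m ≤ M := by
  intro n
  induction n with
  | zero =>
    intro Y M m Zs hY hM hm _ _
    rw [pow_zero, one_mul]
    exact hm.trans (le_of_sphere hR hRR hY hM c (mem_closedBall_self hR.le))
  | succ n ih =>
    intro Y M m Zs hY hM hm hZ hc
    obtain ⟨z1, hz1⟩ : Zs.Nonempty := by
      rw [← Finset.card_pos]; omega
    obtain ⟨hz1c, hz10⟩ := hZ z1 hz1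
    have hz1b : z1 ∈ ball c R' := by
      rw [mem_ball, dist_eq_norm]; linarith
    have h := ih (dslope Y z1) (M / (3 * R / 4)) (m / (R / 4)) (Zs.erase z1)
      (dslope_diff hz1b hY) (dslope_sphere hR hz1c hz10 hM) (dslope_center hR hz1c hz10 hm) ?_ ?_
    · have e1 : (3 : ℝ) ^ n * (m / (R / 4)) = (3 ^ (n + 1) * m) / (3 * R / 4) := by
        rw [pow_succ]; field_simp
      rw [e1, div_le_div_iff_of_pos_right (by positivity)] at h
      exact h
    · intro z hz
      obtain ⟨hne, hzZ⟩ := Finset.mem_erase.1 hz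
      refine ⟨(hZ z hzZ).1, ?_⟩
      have h2 : (z - z1) * dslope Y z1 z = Y z := by
        have := sub_smul_dslope Y z1 z
        rw [smul_eq_mul, hz10, sub_zero] at this
        exact this
      rw [(hZ z hzZ).2] at h2
      exact (mul_eq_zero.1 h2).resolve_left (sub_ne_zero.2 hne)
    · rw [Finset.card_erase_of_mem hz1, hc]; rfl

/-- the zeros in a ball as a finset -/
theorem zeros_finset {Y : ℂ → ℂ} {c : ℂ} {R R' M m : ℝ} (hR : 0 < R) (hRR : R < R')
    (hY : DifferentiableOn ℂ Y (ball c R')) (hM : ∀ z ∈ sphere c R, ‖Y z‖ ≤ M) (hm0 : 0 < m)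
    (hm : m ≤ ‖Y c‖) {N : ℕ} (hN : M < 3 ^ (N + 1) * m) :
    ∃ Zs : Finset ℂ, Zs.card ≤ N ∧ ∀ z, ‖z - c‖ ≤ R / 4 → Y z = 0 → z ∈ Zs := by
  classical
  set S : Set ℂ := {z | ‖z - c‖ ≤ R / 4 ∧ Y z = 0} with hS
  have key : ∀ Zs : Finset ℂ, (Zs : Set ℂ) ⊆ S → Zs.card ≤ N := by
    intro Zs hZ
    by_contra hcon
    push Not at hcon
    have h1 := zero_count hR hRR Zs.card Y M m Zs hY hM hm (fun z hz => hZ hz) rfl
    have h2 : (3 : ℝ) ^ (N + 1) ≤ 3 ^ Zs.card := pow_le_pow_right₀ (by norm_num) hcon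
    have h3 := mul_le_mul_of_nonneg_right h2 hm0.le
    linarith
  have hfin : S.Finite := by
    by_contra hinf
    obtain ⟨t, ht, htc⟩ := Set.Infinite.exists_subset_card_eq hinf (N + 1)
    have := key t ht
    omega
  refine ⟨hfin.toFinset, key _ (by simp), ?_⟩
  intro z h1 h2
  simp [hS, h1, h2]

/-- **Harnack for a zero free bounded function** -/
theorem harnack_low {Y : ℂ → ℂ} {c : ℂ} {r M m : ℝ} (hr : 0 < r)
    (hY : DifferentiableOn ℂ Y (ball c r)) (h0 : ∀ z ∈ ball c r, Y z ≠ 0)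
    (hM : ∀ z ∈ ball c r, ‖Y z‖ ≤ M) (hm0 : 0 < m) (hm : m ≤ ‖Y c‖) :
    ∀ z, ‖z - c‖ ≤ r / 2 → M * (m / M) ^ 3 ≤ ‖Y z‖ := by
  intro z hz
  have hcb : c ∈ ball c r := mem_ball_self hr
  have hMp : 0 < M := hm0.trans_le (hm.trans (hM c hcb))
  obtain ⟨L, hL, hexp⟩ := M948.exists_log hY h0
  have hre : ∀ w ∈ ball c r, (L w).re = Real.log ‖Y w‖ := by
    intro w hw
    rw [← hexp w hw, Complex.norm_exp, Real.log_exp]
  have hzb : z ∈ ball c r := by rw [mem_ball, dist_eq_norm]; linarith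
  have key : ∀ ε : ℝ, 0 < ε → Real.log M + ε - (L z).re ≤ 3 * (Real.log M + ε - (L c).re) := by
    intro ε hε
    have hd : DifferentiableOn ℂ (fun w => I * (((Real.log M + ε : ℝ) : ℂ) - L w)) (ball c r) :=
      (hL.const_sub _).const_mul I
    have him : ∀ w, (I * (((Real.log M + ε : ℝ) : ℂ) - L w)).im = Real.log M + ε - (L w).re := by
      intro w
      rw [Complex.I_mul_im, Complex.sub_re, Complex.ofReal_re]
    have hpos : ∀ w ∈ ball c r, 0 < (I * (((Real.log M + ε : ℝ) : ℂ) - L w)).im := by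
      intro w hw
      rw [him, hre w hw]
      have h1 : Real.log ‖Y w‖ ≤ Real.log M :=
        Real.log_le_log (norm_pos_iff.2 (h0 w hw)) (hM w hw)
      linarith
    have h := Chain864.step_im hd hpos c z r hr le_rfl hz
    simp only [him] at h
    exact h
  have h2 : Real.log M - (L z).re ≤ 3 * (Real.log M - (L c).re) := by
    refine le_of_forall_pos_le_add fun ε hε => ?_
    have := key (ε / 2) (by positivity)
    linarith
  rw [hre z hzb, hre c hcb] at h2
  have h3 : Real.log m ≤ Real.log ‖Y c‖ := Real.log_le_log hm0 hm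
  have h4 : Real.log (M * (m / M) ^ 3) ≤ Real.log ‖Y z‖ := by
    rw [Real.log_mul hMp.ne' (by positivity), Real.log_pow, Real.log_div hm0.ne' hMp.ne']
    push_cast
    linarith
  exact (Real.log_le_log_iff (by positivity) (norm_pos_iff.2 (h0 z hzb))).1 h4

/-- **quotient lemma** -/
theorem quot {c : ℂ} {R R' : ℝ} (hR : 0 < R) (hRR : R < R') {F : ℂ → ℂ}
    (hF : DifferentiableOn ℂ F (ball c R')) :
    ∀ (n : ℕ) (Y G : ℂ → ℂ) (M M' m : ℝ), DifferentiableOn ℂ Y (ball c R') →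
      DifferentiableOn ℂ G (ball c R') → (∀ z ∈ ball c R', F z * Y z = G z) →
      (∀ z ∈ sphere c R, ‖Y z‖ ≤ M) → (∀ z ∈ sphere c R, ‖G z‖ ≤ M') → 0 < m → m ≤ ‖Y c‖ →
      M < 3 ^ n * m → ∀ z, ‖z - c‖ ≤ R / 8 → ‖F z‖ ≤ M' / M * (M / m) ^ 3 := by
  intro n
  induction n with
  | zero =>
    intro Y G M M' m hY hG hFY hM hM' hm0 hm hn
    exfalso
    rw [pow_zero, one_mul] at hn
    have := hm.trans (le_of_sphere hR hRR hY hM c (mem_closedBall_self hR.le))
    linarith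
  | succ n ih =>
    intro Y G M M' m hY hG hFY hM hM' hm0 hm hn z hz
    have hMcl := le_of_sphere hR hRR hY hM
    have hM'cl := le_of_sphere hR hRR hG hM'
    have hmM : m ≤ M := hm.trans (hMcl c (mem_closedBall_self hR.le))
    have hMp : 0 < M := hm0.trans_le hmM
    have hM'0 : 0 ≤ M' := (norm_nonneg _).trans (hM'cl c (mem_closedBall_self hR.le))
    by_cases hzero : ∃ z1, ‖z1 - c‖ < R / 4 ∧ Y z1 = 0
    · obtain ⟨z1, hz1c, hz10⟩ := hzero
      have hz1b : z1 ∈ ball c R' := by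
        rw [mem_ball, dist_eq_norm]; linarith
      have hG0 : G z1 = 0 := by rw [← hFY z1 hz1b, hz10, mul_zero]
      have hFd : ∀ w ∈ ball c R', F w * dslope Y z1 w = dslope G z1 w := by
        intro w hw
        by_cases hne : w = z1
        · subst hne
          rw [dslope_same, dslope_same]
          have h1 : DifferentiableAt ℂ F w := (hF w hw).differentiableAt (isOpen_ball.mem_nhds hw)
          have h2 : DifferentiableAt ℂ Y w := (hY w hw).differentiableAt (isOpen_ball.mem_nhds hw)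
          have h3 : G =ᶠ[𝓝 w] fun x => F x * Y x := by
            filter_upwards [isOpen_ball.mem_nhds hw] with x hx
            exact (hFY x hx).symm
          rw [h3.deriv_eq]
          have h4 := (h1.hasDerivAt.mul h2.hasDerivAt).deriv
          rw [hz10, mul_zero, zero_add] at h4
          exact h4.symm
        · rw [dslope_of_ne _ hne, dslope_of_ne _ hne, slope_def_field, slope_def_field, hz10, hG0,
            sub_zero, sub_zero, ← hFY w hw]
          ring
      have h := ih (dslope Y z1) (dslope G z1) (M / (3 * R / 4)) (M' / (3 * R / 4)) (m / (R / 4))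
        (dslope_diff hz1b hY) (dslope_diff hz1b hG) hFd (dslope_sphere hR hz1c.le hz10 hM)
        (dslope_sphere hR hz1c.le hG0 hM') (by positivity) (dslope_center hR hz1c.le hz10 hm) ?_ z hz
      · refine h.trans ?_
        have e1 : M' / (3 * R / 4) / (M / (3 * R / 4)) = M' / M := by
          field_simp
        have e2 : M / (3 * R / 4) / (m / (R / 4)) = M / m / 3 := by
          field_simp
        rw [e1, e2]
        have h5 : M / m / 3 ≤ M / m := by
          have : 0 ≤ M / m := by positivity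
          linarith
        gcongr
      · have e1 : (3 : ℝ) ^ n * (m / (R / 4)) = (3 ^ (n + 1) * m) / (3 * R / 4) := by
          rw [pow_succ]; field_simp
        rw [e1]
        exact div_lt_div_of_pos_right hn (by positivity)
    · push Not at hzero
      have hsub : ball c (R / 4) ⊆ ball c R' := ball_subset_ball (by linarith)
      have h := harnack_low (by positivity : (0 : ℝ) < R / 4) (hY.mono hsub)
        (fun w hw => hzero w (by rwa [mem_ball, dist_eq_norm] at hw))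
        (fun w hw => hMcl w (ball_subset_closedBall (ball_subset_ball (by linarith) hw)))
        hm0 hm z (by linarith)
      have hzb : z ∈ ball c R' := by rw [mem_ball, dist_eq_norm]; linarith
      have hzcl : z ∈ closedBall c R := by rw [mem_closedBall, dist_eq_norm]; linarith
      have h1 : ‖F z‖ * ‖Y z‖ ≤ M' := by
        rw [← norm_mul, hFY z hzb]; exact hM'cl z hzcl
      have h2 : 0 < M * (m / M) ^ 3 := by positivity
      have h3 : ‖F z‖ ≤ M' / (M * (m / M) ^ 3) := by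
        rw [le_div_iff₀ h2]
        exact (mul_le_mul_of_nonneg_left h (norm_nonneg _)).trans h1
      refine h3.trans (le_of_eq ?_)
      field_simp

end Crest.Agent.R102.Side669
end

-- ▼ part R102/SideB_669

/-!
Row 102, T1-B, EDGE, SIDE (helper669), one-variable part 2: chains of balls along a segment.
-/

set_option autoImplicit false

open Set Filter Metric Complex Topology

namespace Crest.Agent.R102.Side669

open Crest.Agent.R102.G864

/-- **lower bounds propagate** (three circles) -/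
theorem lower_step {Y : ℂ → ℂ} {c a : ℂ} {R M ℓ : ℝ} (hR : 0 < R)
    (hY : DifferentiableOn ℂ Y (ball c R)) (hM : ∀ z ∈ ball c R, ‖Y z‖ ≤ M) (hℓ : 1 ≤ ℓ)
    (ha : ‖a - c‖ ≤ R / 2) (hMp : 0 < M) (hlow : M * Real.exp (-ℓ) ≤ ‖Y a‖) :
    ∃ a', ‖a' - c‖ ≤ R / 100 ∧ M * Real.exp (-(26 * ℓ)) ≤ ‖Y a'‖ := by
  by_contra hcon
  push Not at hcon
  obtain ⟨n, hn⟩ : ∃ n : ℕ, n = ⌈ℓ⌉₊ := ⟨_, rfl⟩
  have hn1 : ℓ ≤ n := by rw [hn]; exact Nat.le_ceil ℓ
  have hn2 : (n : ℝ) ≤ ℓ + 1 := by rw [hn]; exact (Nat.ceil_lt_add_one (by linarith)).le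
  have h := Blow971.three_circle (f := Y) (c := c) (r0 := R / 100) (r := R / 2) (R := R)
    (m := M * Real.exp (-(26 * ℓ))) (M := M) (by positivity) (by linarith) (by linarith) hY hM
    (fun z hz => (hcon z (by rwa [mem_closedBall, dist_eq_norm] at hz)).le) (3 * n) ha
  have e1 : R / 2 / (R / 100) = 50 := by field_simp; norm_num
  have e2 : 2 * (R / 2) / (R / 2 + R) = 2 / 3 := by field_simp; norm_num
  rw [e1, e2, pow_mul, pow_mul] at h
  have he1 : Real.exp 1 < 2.72 := lt_trans Real.exp_one_lt_d9 (by norm_num)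
  have he2 : 2.7 < Real.exp 1 := lt_trans (by norm_num) Real.exp_one_gt_d9
  have h50 : ((50 : ℝ) ^ 3) ≤ Real.exp 12 := by
    have : Real.exp 12 = Real.exp 1 ^ 12 := by
      rw [← Real.exp_nat_mul]; norm_num
    rw [this]
    calc (50 : ℝ) ^ 3 ≤ 2.7 ^ 12 := by norm_num
      _ ≤ Real.exp 1 ^ 12 := pow_le_pow_left₀ (by norm_num) he2.le 12
  have h23 : ((2 / 3 : ℝ) ^ 3) < Real.exp (-1) := by
    rw [Real.exp_neg, lt_inv_comm₀ (by norm_num) (Real.exp_pos 1)]
    calc Real.exp 1 < 2.72 := he1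
      _ < _ := by norm_num
  have a1 : M * Real.exp (-(26 * ℓ)) * (50 ^ 3) ^ n < M * Real.exp (-ℓ) := by
    have s1 : ((50 : ℝ) ^ 3) ^ n ≤ Real.exp (12 * (ℓ + 1)) := by
      calc ((50 : ℝ) ^ 3) ^ n ≤ (Real.exp 12) ^ n := pow_le_pow_left₀ (by norm_num) h50 n
        _ = Real.exp (n * 12) := by rw [← Real.exp_nat_mul]
        _ ≤ _ := Real.exp_le_exp.2 (by linarith)
    calc M * Real.exp (-(26 * ℓ)) * (50 ^ 3) ^ n
        ≤ M * Real.exp (-(26 * ℓ)) * Real.exp (12 * (ℓ + 1)) :=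
          mul_le_mul_of_nonneg_left s1 (by positivity)
      _ = M * Real.exp (-(26 * ℓ) + 12 * (ℓ + 1)) := by rw [mul_assoc, ← Real.exp_add]
      _ < M * Real.exp (-ℓ) := by
          apply mul_lt_mul_of_pos_left _ hMp
          apply Real.exp_lt_exp.2
          linarith
  have a2 : M * ((2 / 3) ^ 3) ^ n < M * Real.exp (-ℓ) := by
    apply mul_lt_mul_of_pos_left _ hMp
    have hn0 : n ≠ 0 := by
      rintro rfl
      simp at hn1; linarith
    calc ((2 / 3 : ℝ) ^ 3) ^ n < (Real.exp (-1)) ^ n := pow_lt_pow_left₀ h23 (by norm_num) hn0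
      _ = Real.exp (n * (-1)) := by rw [← Real.exp_nat_mul]
      _ ≤ _ := Real.exp_le_exp.2 (by linarith)
  exact absurd (hlow.trans h) (not_le.2 (max_lt a1 a2))

/-- **abstract chain** -/
theorem chain {δ a C : ℝ} (hδ : 0 < δ) (hδ1 : δ < 1) (ha : 0 < a) (ha1 : a ≤ 1) (hC : 1 ≤ C) :
    ∃ K : ℝ, 1 ≤ K ∧ ∃ p : ℕ, ∀ b : ℝ, 0 < b → b ≤ a → ∀ P : ℝ → ℝ → Prop,
      (∀ x x' Λ : ℝ, 0 ≤ x → x ≤ x' → x' ≤ 1 → x' - x ≤ δ * ((1 - x) * a + x * b) → 1 ≤ Λ →
        P x Λ → P x' (C * Λ)) →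
      (∀ x Λ Λ' : ℝ, Λ ≤ Λ' → P x Λ → P x Λ') →
      ∀ Λ0 : ℝ, 1 ≤ Λ0 → P 0 Λ0 → ∀ x : ℝ, 0 ≤ x → x ≤ 1 → P x (K * (1 / b) ^ p * Λ0) := by
  set κ : ℝ := δ * a with hκ
  have hκ0 : 0 < κ := by positivity
  have hκ1 : κ < 1 := by rw [hκ]; nlinarith
  set p : ℕ := ⌈Real.log C / κ⌉₊ with hp
  have hC0 : 0 < C := by linarith
  refine ⟨C ^ 2 * (1 / δ) ^ p, ?_, p, ?_⟩
  · have h1 : (1 : ℝ) ≤ C ^ 2 := one_le_pow₀ hC
    have h2 : (1 : ℝ) ≤ (1 / δ) ^ p := one_le_pow₀ (by rw [le_div_iff₀ hδ]; linarith)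
    nlinarith
  intro b hb hba P hstep hmono Λ0 hΛ0 hP0
  have hpow1 : ∀ J : ℕ, 1 ≤ C ^ J * Λ0 := fun J => by
    have h1 : (1 : ℝ) ≤ C ^ J := one_le_pow₀ hC
    nlinarith
  have claim : ∀ (J : ℕ) (x : ℝ), 0 ≤ x → x ≤ 1 → (1 - κ) ^ J ≤ 1 - x → P x (C ^ J * Λ0) := by
    intro J
    induction J with
    | zero =>
      intro x hx0 hx1 hx
      rw [pow_zero] at hx
      have : x = 0 := by linarith
      rw [this, pow_zero, one_mul]; exact hP0
    | succ J ih =>
      intro x hx0 hx1 hx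
      have e1 : C ^ (J + 1) * Λ0 = C * (C ^ J * Λ0) := by ring
      rw [e1]
      by_cases hxκ : x ≤ κ
      · refine hstep 0 x (C ^ J * Λ0) le_rfl hx0 hx1 ?_ (hpow1 J) ?_
        · rw [hκ] at hxκ; linarith
        · refine hmono 0 Λ0 _ ?_ hP0
          have h1 : (1 : ℝ) ≤ C ^ J := one_le_pow₀ hC
          nlinarith
      · push Not at hxκ
        have h1κ : 0 < 1 - κ := by linarith
        obtain ⟨y, hy⟩ : ∃ y, y = 1 - (1 - x) / (1 - κ) := ⟨_, rfl⟩
        have hy1 : (1 - y) * (1 - κ) = 1 - x := by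
          rw [hy]; field_simp; ring
        have hy0 : 0 ≤ y := by
          by_contra hneg
          push Not at hneg
          nlinarith
        have hyx : y ≤ x := by nlinarith
        have hyJ : (1 - κ) ^ J ≤ 1 - y := by
          rw [pow_succ] at hx
          have : (1 - κ) ^ J * (1 - κ) ≤ (1 - y) * (1 - κ) := by rw [hy1]; exact hx
          exact le_of_mul_le_mul_right this h1κ
        refine hstep y x (C ^ J * Λ0) hy0 hyx hx1 ?_ (hpow1 J) (ih y hy0 (by linarith) hyJ)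
        have e2 : x - y = κ * (1 - y) := by linarith
        rw [e2, hκ]
        have : 0 ≤ δ * (y * b) := by positivity
        nlinarith
  obtain ⟨J, hJ⟩ : ∃ J : ℕ, J = ⌈Real.log (1 / (δ * b)) / κ⌉₊ := ⟨_, rfl⟩
  have hδb : 0 < δ * b := by positivity
  have hδb1 : δ * b ≤ 1 := by nlinarith
  have hlog0 : 0 ≤ Real.log (1 / (δ * b)) := Real.log_nonneg (by rw [le_div_iff₀ hδb]; linarith)
  have hJ1 : Real.log (1 / (δ * b)) ≤ κ * J := by
    have := Nat.le_ceil (Real.log (1 / (δ * b)) / κ)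
    rw [← hJ, div_le_iff₀ hκ0] at this
    linarith
  have hJ2 : (J : ℝ) ≤ Real.log (1 / (δ * b)) / κ + 1 := by
    rw [hJ]; exact (Nat.ceil_lt_add_one (by positivity)).le
  have hsmall : (1 - κ) ^ J ≤ δ * b := by
    calc (1 - κ) ^ J ≤ (Real.exp (-κ)) ^ J :=
          pow_le_pow_left₀ (by linarith) (by linarith [Real.add_one_le_exp (-κ)]) J
      _ = Real.exp (J * (-κ)) := by rw [← Real.exp_nat_mul]
      _ ≤ Real.exp (-Real.log (1 / (δ * b))) := Real.exp_le_exp.2 (by linarith)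
      _ = δ * b := by
          rw [Real.exp_neg, Real.exp_log (by positivity)]
          field_simp
  have hCJ : C ^ (J + 1) ≤ C ^ 2 * (1 / δ) ^ p * (1 / b) ^ p := by
    have hlC : 0 ≤ Real.log C := Real.log_nonneg hC
    have h1 : Real.log C * J ≤ p * Real.log (1 / (δ * b)) + Real.log C := by
      have h2 : Real.log C / κ ≤ p := Nat.le_ceil _
      have h3 : Real.log C * J ≤ Real.log C * (Real.log (1 / (δ * b)) / κ + 1) :=
        mul_le_mul_of_nonneg_left hJ2 hlC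
      have h4 : Real.log C * (Real.log (1 / (δ * b)) / κ) =
          Real.log C / κ * Real.log (1 / (δ * b)) := by ring
      have h5 := mul_le_mul_of_nonneg_right h2 hlog0
      nlinarith
    have e1 : C ^ (J + 1) = Real.exp (Real.log C * J + Real.log C) := by
      rw [Real.exp_add, Real.exp_log hC0, mul_comm (Real.log C), Real.exp_nat_mul,
        Real.exp_log hC0, pow_succ]
    have e2 : C ^ 2 * (1 / δ) ^ p * (1 / b) ^ p =
        Real.exp (2 * Real.log C + p * Real.log (1 / (δ * b))) := by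
      rw [Real.exp_add, Real.exp_nat_mul, Real.exp_log (by positivity),
        show (2 : ℝ) * Real.log C = (2 : ℕ) * Real.log C by norm_num, Real.exp_nat_mul,
        Real.exp_log hC0, mul_assoc, ← mul_pow]
      congr 2
      field_simp
    rw [e1, e2]
    apply Real.exp_le_exp.2
    linarith
  intro x hx0 hx1
  have hfin : C ^ (J + 1) * Λ0 ≤ C ^ 2 * (1 / δ) ^ p * (1 / b) ^ p * Λ0 :=
    mul_le_mul_of_nonneg_right hCJ (by linarith)
  refine hmono x _ _ hfin ?_
  by_cases hxJ : (1 - κ) ^ J ≤ 1 - x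
  · refine hmono x _ _ ?_ (claim J x hx0 hx1 hxJ)
    apply mul_le_mul_of_nonneg_right _ (by linarith)
    exact pow_le_pow_right₀ hC (Nat.le_succ J)
  · push Not at hxJ
    have h1κ : (0 : ℝ) ≤ (1 - κ) ^ J := pow_nonneg (by linarith) J
    have h1κ' : (1 - κ) ^ J ≤ 1 := pow_le_one₀ (by linarith) (by linarith)
    obtain ⟨y, hy⟩ : ∃ y, y = 1 - (1 - κ) ^ J := ⟨_, rfl⟩
    have hy0 : 0 ≤ y := by linarith
    have hy1 : y ≤ 1 := by linarith
    have e1 : C ^ (J + 1) * Λ0 = C * (C ^ J * Λ0) := by ring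
    rw [e1]
    refine hstep y x (C ^ J * Λ0) hy0 (by linarith) hx1 ?_ (hpow1 J)
      (claim J y hy0 hy1 (by linarith))
    have h2 : x - y ≤ δ * b := by linarith
    have h3 : b ≤ (1 - y) * a + y * b := by nlinarith
    calc x - y ≤ δ * b := h2
      _ ≤ _ := mul_le_mul_of_nonneg_left h3 hδ.le

/-- the width along the segment -/
def wd (a b x : ℝ) : ℝ := (1 - x) * a + x * b

theorem wd_ge {a b x : ℝ} (hba : b ≤ a) (hx0 : 0 ≤ x) (hx1 : x ≤ 1) : b ≤ wd a b x := by
  unfold wd; nlinarith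

theorem wd_le {a b x : ℝ} (hba : b ≤ a) (hx0 : 0 ≤ x) (hx1 : x ≤ 1) : wd a b x ≤ a := by
  unfold wd; nlinarith

theorem wd_step {a b x x' δ : ℝ} (hb : 0 < b) (ha1 : a ≤ 1) (hx : x ≤ x')
    (h : x' - x ≤ δ * wd a b x) : (1 - δ) * wd a b x ≤ wd a b x' := by
  have e : wd a b x' = wd a b x - (x' - x) * (a - b) := by unfold wd; ring
  have h1 : (x' - x) * (a - b) ≤ (x' - x) * 1 :=
    mul_le_mul_of_nonneg_left (by linarith) (by linarith)
  rw [e]
  linarith

/-- data on a segment -/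
structure Seg (δ0 a b : ℝ) (Y L : ℂ → ℂ) (M : ℝ) : Prop where
  Yd : ∀ x : ℝ, 0 ≤ x → x ≤ 1 → DifferentiableOn ℂ Y (ball (x : ℂ) (δ0 * wd a b x))
  Ld : ∀ x : ℝ, 0 ≤ x → x ≤ 1 → DifferentiableOn ℂ L (ball (x : ℂ) (δ0 * wd a b x))
  YM : ∀ x : ℝ, 0 ≤ x → x ≤ 1 → ∀ z ∈ ball (x : ℂ) (δ0 * wd a b x), ‖Y z‖ ≤ M
  LY : ∀ x : ℝ, 0 ≤ x → x ≤ 1 → ∀ z ∈ ball (x : ℂ) (δ0 * wd a b x), cexp (L z) = 1 → Y z = 0

theorem seg_low {δ0 a : ℝ} (hδ0 : 0 < δ0) (hδ1 : δ0 ≤ 1) (ha : 0 < a) (ha1 : a ≤ 1) :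
    ∃ K : ℝ, 1 ≤ K ∧ ∃ p : ℕ, ∀ b : ℝ, 0 < b → b ≤ a → ∀ (Y L : ℂ → ℂ) (M : ℝ), 0 < M →
      Seg δ0 a b Y L M → ∀ ℓ : ℝ, 1 ≤ ℓ → M * Real.exp (-ℓ) ≤ ‖Y 0‖ → ∀ x : ℝ, 0 ≤ x → x ≤ 1 →
        ∃ a' : ℂ, ‖a' - x‖ ≤ δ0 * wd a b x / 100 ∧
          M * Real.exp (-(K * (1 / b) ^ p * ℓ)) ≤ ‖Y a'‖ := by
  obtain ⟨K, hK, p, H⟩ := chain (δ := δ0 / 10) (a := a) (C := 26) (by positivity) (by linarith) ha
    ha1 (by norm_num)
  refine ⟨K, hK, p, fun b hb hba Y L M hM hS ℓ hℓ h0 => ?_⟩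
  refine H b hb hba (fun x Λ => ∃ a' : ℂ, ‖a' - x‖ ≤ δ0 * wd a b x / 100 ∧
    M * Real.exp (-Λ) ≤ ‖Y a'‖) ?_ ?_ ℓ hℓ ?_
  · rintro x x' Λ hx0 hxx hx1 hst hΛ ⟨a', ha', hYa⟩
    change x' - x ≤ δ0 / 10 * wd a b x at hst
    have hw : 0 < wd a b x := hb.trans_le (wd_ge hba hx0 (by linarith))
    have hw' : 0 < wd a b x' := hb.trans_le (wd_ge hba (by linarith) hx1)
    have hws := wd_step hb ha1 hxx hst
    have h9 : 9 / 10 * wd a b x ≤ wd a b x' := by
      refine le_trans ?_ hws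
      exact mul_le_mul_of_nonneg_right (by linarith) hw.le
    have hR : 0 < δ0 * wd a b x' := by positivity
    have hx'0 : 0 ≤ x' := by linarith
    refine lower_step hR (hS.Yd x' hx'0 hx1) (hS.YM x' hx'0 hx1) hΛ ?_ hM hYa
    have e1 : a' - (x' : ℂ) = (a' - x) - ((x' - x : ℝ) : ℂ) := by push_cast; ring
    rw [e1]
    refine (norm_sub_le _ _).trans ?_
    rw [Complex.norm_real, Real.norm_eq_abs, abs_of_nonneg (by linarith)]
    have h10 : δ0 * wd a b x ≤ 10 / 9 * (δ0 * wd a b x') := by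
      have := mul_le_mul_of_nonneg_left h9 hδ0.le
      linarith
    linarith
  · rintro x Λ Λ' hΛ ⟨a', ha', hYa⟩
    refine ⟨a', ha', le_trans ?_ hYa⟩
    exact mul_le_mul_of_nonneg_left (Real.exp_le_exp.2 (by linarith)) hM.le
  · refine ⟨0, ?_, h0⟩
    have hw : 0 < wd a b 0 := hb.trans_le (wd_ge hba le_rfl zero_le_one)
    simp only [Complex.ofReal_zero, sub_zero, norm_zero]
    positivity

end Crest.Agent.R102.Side669
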