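import Mathlib

/-!
Row 102, T1-B EDGE, slow regime (helper174): **SIDE** = control of the normalised function at the
real side of the disc, from the picking inequality, over the two-dimensional tree of windows
`(x, u, s)`, `(x, u) ∈ P`.  Mathlib only.
-/

set_option autoImplicit false

open Set Filter Topology

noncomputable section

namespace Crest.Agent.R102.SideP174

/-- tree of windows `(x, u, s)`, `(x, u) ∈ P`: the tracked quantity `b` stays within `κ` of `b0` at
all ancestors -/
def V (P : Set (ℝ × ℝ)) (b : ℝ → ℝ → ℝ → ℝ) (b0 s1 κ : ℝ) (x u s : ℝ) : Prop :=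
  (x, u) ∈ P ∧ ∀ s', s ≤ s' → s' ≤ s1 → |b x u s' - b0| ≤ κ

/-- the constant -/
def K (C θ : ℝ) : ℝ := 4 * C + 2 * C / (1 - (2 : ℝ) ^ (-θ))






end Crest.Agent.R102.SideP174
end
namespace Crest.Agent.R102.SideP174.V
end Crest.Agent.R102.SideP174.V
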