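import Mathlib
import Crest.Agent.R102.SlopeA_811

-- ▼ part R102/Rec_359
section

/-! Record starts (R1_523, step 2), pure real analysis: Baire category + lower semicontinuity.
`lam` = base slopes of the lines, `a` = base slopes of the vertices, RULE = none of the three
numbers `lam (s - u/2) + 1/2`, `a s`, `lam (s + u/2) - 1/2` is the unique smallest one. -/

set_option autoImplicit false

namespace Crest.Agent.R102.Rec359

open Set Filter Topology

/-- bad points of a lower semicontinuous function: frontiers of the rational superlevel sets -/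
def bad (f : ℝ → EReal) : Set ℝ := ⋃ q : ℚ, frontier {x | (((q : ℝ)) : EReal) < f x}

theorem bad_meagre {f : ℝ → EReal} (hf : LowerSemicontinuous f) : IsMeagre (bad f) := by
  refine isMeagre_iUnion fun q => ?_
  have ho : IsOpen {x | (((q : ℝ)) : EReal) < f x} := hf.isOpen_preimage _
  refine IsNowhereDense.isMeagre ?_
  rw [isClosed_frontier.isNowhereDense_iff, ← frontier_compl]
  exact interior_frontier ho.isClosed_compl

/-- off the bad set a lower semicontinuous function is upper semicontinuous -/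
theorem upper_of_not_bad {f : ℝ → EReal} {x : ℝ} (hx : x ∉ bad f) {y : EReal} (hy : f x < y) :
    ∀ᶠ z in 𝓝 x, f z < y := by
  obtain ⟨q, hq1, hq2⟩ := EReal.lt_iff_exists_rat_btwn.1 hy
  have h1 : x ∉ frontier {x | (((q : ℝ)) : EReal) < f x} := fun h => hx (mem_iUnion.2 ⟨q, h⟩)
  have h2 : x ∉ {x | (((q : ℝ)) : EReal) < f x} := fun h => absurd h (not_lt.2 hq1.le)
  have h3 : x ∉ closure {x | (((q : ℝ)) : EReal) < f x} := by
    intro h
    refine h1 ⟨h, fun hi => h2 (interior_subset hi)⟩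
  have h4 : {x | (((q : ℝ)) : EReal) < f x}ᶜ ∈ 𝓝 x := by
    refine mem_of_superset (isClosed_closure.isOpen_compl.mem_nhds h3) ?_
    exact compl_subset_compl.2 subset_closure
  filter_upwards [h4] with z hz
  have : f z ≤ (((q : ℝ)) : EReal) := not_lt.1 hz
  exact lt_of_le_of_lt this hq2

/-- translates of meagre sets are meagre -/
theorem meagre_translate {N : Set ℝ} (hN : IsMeagre N) (c : ℝ) : IsMeagre {x | x - c ∈ N} := by
  have : {x | x - c ∈ N} = (fun x => x - c) ⁻¹' N := rfl
  rw [this]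
  exact hN.preimage_of_isOpenMap (by fun_prop) (Homeomorph.subRight c).isOpenMap

/-- the RULE at one point: none of `x`, `y`, `z` is the unique smallest one -/
def NoUniqueMin (x y z : EReal) : Prop :=
  ¬ (x < y ∧ x < z) ∧ ¬ (y < x ∧ y < z) ∧ ¬ (z < x ∧ z < y)

/-- **Record start (pointwise).** -/
theorem record_point {lam : ℝ → ℝ} {a : ℝ → EReal} {u : ℝ} {c₁ c₂ : ℝ}
    (h1 : ∀ s, c₁ ≤ lam s) (h2 : ∀ s, lam s ≤ c₂)
    (rule : ∀ s, NoUniqueMin ((lam (s - u/2) + 1/2 : ℝ) : EReal) (a s)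
      ((lam (s + u/2) - 1/2 : ℝ) : EReal)) (s' : ℝ) :
    ∃ j : ℕ, (j : ℝ) ≤ c₂ - c₁ ∧
      a (s' - (j + 1/2) * u) = ((lam (s' - j * u) - 1/2 : ℝ) : EReal) ∧
      ∀ i : ℕ, lam (s' - j * u) - 1/2 <
        lam (s' - (j + 1/2) * u - (i + 1/2) * u) + (i + 1/2) := by
  classical
  -- the set of indices of the minimum
  set M : ℕ → ℝ := fun i => lam (s' - i * u) + i with hM
  have hM1 : ∀ i : ℕ, c₁ + i ≤ M i := fun i => by
    have := h1 (s' - i * u); simp only [hM]; linarith
  have hM0 : M 0 ≤ c₂ := by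
    have := h2 (s' - (0:ℕ) * u); simp only [hM]; push_cast at *; linarith
  obtain ⟨n, hn⟩ := exists_nat_gt (c₂ - c₁)
  have hbig : ∀ i : ℕ, n ≤ i → M 0 < M i := fun i hi => by
    have h3 := hM1 i
    have h4 : (n : ℝ) ≤ i := by exact_mod_cast hi
    linarith
  -- a minimum over range (n+1)
  obtain ⟨k, hk, hkmin⟩ := Finset.exists_min_image (Finset.range (n+1)) M ⟨0, by simp⟩
  have hkall : ∀ i, M k ≤ M i := fun i => by
    by_cases hi : i < n + 1
    · exact hkmin i (Finset.mem_range.2 hi)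
    · exact (hkmin 0 (by simp)).trans (hbig i (by omega)).le
  -- the largest index of the minimum
  let P : Finset ℕ := (Finset.range (n+1)).filter fun i => M i = M k
  have hPne : P.Nonempty := ⟨k, Finset.mem_filter.2 ⟨hk, rfl⟩⟩
  set j := P.max' hPne with hj
  have hjP : j ∈ P := P.max'_mem hPne
  have hjM : M j = M k := (Finset.mem_filter.1 hjP).2
  have hjlt : ∀ i : ℕ, j < i → M j < M i := fun i hi => by
    rcases lt_or_eq_of_le (hjM ▸ hkall i : M j ≤ M i) with h | h
    · exact h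
    · exfalso
      have hin : i < n + 1 := by
        by_contra hcon
        have h5 := hbig i (by omega)
        have h6 : M j ≤ M 0 := hjM ▸ hkall 0
        linarith
      have : i ∈ P := by
        simp only [P, Finset.mem_filter, Finset.mem_range]
        exact ⟨hin, by rw [← h, hjM]⟩
      exact absurd (P.le_max' i this) (by rw [← hj]; omega)
  refine ⟨j, ?_, ?_, ?_⟩
  · have h6 : M j ≤ M 0 := hjM ▸ hkall 0
    have h7 := hM1 j
    linarith
  · have hr := rule (s' - (j + 1/2) * u)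
    have e1 : s' - (j + 1/2) * u - u/2 = s' - ((j + 1 : ℕ) : ℝ) * u := by push_cast; ring
    have e2 : s' - (j + 1/2) * u + u/2 = s' - j * u := by ring
    rw [e1, e2] at hr
    have hlt : lam (s' - j * u) - 1/2 < lam (s' - ((j + 1 : ℕ) : ℝ) * u) + 1/2 := by
      have := hjlt (j+1) (by omega)
      simp only [hM] at this
      push_cast at this ⊢
      linarith
    have hlt' : ((lam (s' - j * u) - 1/2 : ℝ) : EReal) <
        ((lam (s' - ((j + 1 : ℕ) : ℝ) * u) + 1/2 : ℝ) : EReal) := by exact_mod_cast hlt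
    obtain ⟨-, r2, r3⟩ := hr
    have hle : a (s' - (j + 1/2) * u) ≤ ((lam (s' - j * u) - 1/2 : ℝ) : EReal) := by
      by_contra hcon
      exact r3 ⟨hlt', not_le.1 hcon⟩
    refine le_antisymm hle ?_
    by_contra hcon
    exact r2 ⟨(not_le.1 hcon).trans hlt', not_le.1 hcon⟩
  · intro i
    have h8 := hjlt (j + 1 + i) (by omega)
    have e3 : s' - (j + 1/2) * u - (i + 1/2) * u = s' - ((j + 1 + i : ℕ) : ℝ) * u := by
      push_cast; ring
    rw [e3]
    simp only [hM] at h8
    push_cast at h8 ⊢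
    linarith

/-- **Record starts (R1_523, step 2).**  `s₀`, `a⋆`, `c` first, then `ε`. -/
theorem record_start {lam : ℝ → ℝ} {a : ℝ → EReal} {u : ℝ} {c₁ c₂ : ℝ}
    (hlam : LowerSemicontinuous lam) (ha : LowerSemicontinuous a)
    (h1 : ∀ s, c₁ ≤ lam s) (h2 : ∀ s, lam s ≤ c₂)
    (rule : ∀ s, NoUniqueMin ((lam (s - u/2) + 1/2 : ℝ) : EReal) (a s)
      ((lam (s + u/2) - 1/2 : ℝ) : EReal)) :
    ∃ s₀ a₀ c : ℝ, 0 < c ∧ a s₀ = (a₀ : EReal) ∧ ∀ ε > (0 : ℝ), ∃ δ > (0 : ℝ), ∀ s, |s - s₀| < δ →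
      (∃ r : ℝ, a s = (r : EReal) ∧ |r - a₀| < ε) ∧
      (∀ i : ℕ, a₀ + c < lam (s - (i + 1/2) * u) + (i + 1/2)) ∧
      (∀ i : ℕ, 1 ≤ i → ((a₀ + c - i : ℝ) : EReal) < a (s - i * u)) := by
  obtain ⟨n, hn⟩ := exists_nat_gt (c₂ - c₁)
  -- a point off all translates of the bad set
  have hmeag : IsMeagre (⋃ j : ℕ, {x : ℝ | x - ((j : ℝ) + 1/2) * u ∈ bad a}) :=
    isMeagre_iUnion fun j => meagre_translate (bad_meagre ha) _
  have hres : (⋃ j : ℕ, {x : ℝ | x - ((j : ℝ) + 1/2) * u ∈ bad a})ᶜ ∈ residual ℝ := hmeag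
  obtain ⟨s', hs'⟩ := (dense_of_mem_residual hres).nonempty
  obtain ⟨j, hj1, hj2, hj3⟩ := record_point h1 h2 rule s'
  set s₀ := s' - ((j : ℝ) + 1/2) * u with hs₀
  set a₀ := lam (s' - j * u) - 1/2 with ha₀
  have hs₀bad : s₀ ∉ bad a := fun h => hs' (mem_iUnion.2 ⟨j, h⟩)
  -- large indices
  obtain ⟨m, hm⟩ := exists_nat_gt (a₀ + 1 - c₁)
  -- the constant c
  obtain ⟨c, hc0, hc1, hc⟩ : ∃ c : ℝ, 0 < c ∧ c ≤ 1 ∧
      ∀ i : ℕ, i < m → a₀ + c < lam (s₀ - (i + 1/2) * u) + (i + 1/2) := by
    have : ∀ k : ℕ, ∃ c : ℝ, 0 < c ∧ c ≤ 1 ∧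
        ∀ i : ℕ, i < k → a₀ + c < lam (s₀ - (i + 1/2) * u) + (i + 1/2) := by
      intro k
      induction k with
      | zero => exact ⟨1, one_pos, le_rfl, fun i hi => absurd hi (by omega)⟩
      | succ k ih =>
        obtain ⟨c, c0, c1, hc⟩ := ih
        have h9 := hj3 k
        set gap := lam (s₀ - (k + 1/2) * u) + (k + 1/2) - a₀ with hgap
        have hgap0 : 0 < gap := by rw [hgap]; linarith
        refine ⟨min c (gap/2), lt_min c0 (half_pos hgap0), (min_le_left _ _).trans c1, ?_⟩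
        intro i hi
        rcases Nat.lt_succ_iff_lt_or_eq.1 hi with h | h
        · have := hc i h
          have := min_le_left c (gap/2)
          linarith
        · subst h
          have := min_le_right c (gap/2)
          have h10 : a₀ + gap = lam (s₀ - (i + 1/2) * u) + (i + 1/2) := by rw [hgap]; ring
          linarith
    exact this m
  refine ⟨s₀, a₀, c, hc0, hj2, fun ε hε => ?_⟩
  -- the eventual conditions
  have ev1 : ∀ᶠ s in 𝓝 s₀, a s < ((a₀ + ε : ℝ) : EReal) := by
    refine upper_of_not_bad hs₀bad ?_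
    rw [hj2]; exact_mod_cast (by linarith : a₀ < a₀ + ε)
  have ev2 : ∀ᶠ s in 𝓝 s₀, ((a₀ - ε : ℝ) : EReal) < a s := by
    refine ha s₀ _ ?_
    show ((a₀ - ε : ℝ) : EReal) < a s₀
    rw [hj2]; exact_mod_cast (by linarith : a₀ - ε < a₀)
  have ev3 : ∀ᶠ s in 𝓝 s₀, ∀ i ∈ Finset.range m, a₀ + c < lam (s - (i + 1/2) * u) + (i + 1/2) := by
    rw [Filter.eventually_all_finset]
    intro i hi
    have h11 := hc i (Finset.mem_range.1 hi)
    have h12 := hlam (s₀ - (i + 1/2) * u) (a₀ + c - (i + 1/2)) (by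
      show a₀ + c - (i + 1/2) < lam (s₀ - (i + 1/2) * u)
      linarith)
    have h13 : Tendsto (fun s : ℝ => s - ((i : ℝ) + 1/2) * u) (𝓝 s₀)
        (𝓝 (s₀ - ((i : ℝ) + 1/2) * u)) := by
      exact Continuous.tendsto (by fun_prop) s₀
    filter_upwards [h13.eventually h12] with s hs
    have : a₀ + c - (i + 1/2) < lam (s - (i + 1/2) * u) := hs
    linarith
  obtain ⟨δ, hδ, hball⟩ := Metric.eventually_nhds_iff.1 (ev1.and (ev2.and ev3))
  refine ⟨δ, hδ, fun s hs => ?_⟩
  obtain ⟨g1, g2, g3⟩ := hball (by rwa [Real.dist_eq] : dist s s₀ < δ)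
  have g4 : ∀ i : ℕ, a₀ + c < lam (s - (i + 1/2) * u) + (i + 1/2) := by
    intro i
    by_cases hi : i < m
    · exact g3 i (Finset.mem_range.2 hi)
    · have h14 : (m : ℝ) ≤ i := by exact_mod_cast (not_lt.1 hi)
      have h15 := h1 (s - (i + 1/2) * u)
      linarith
  refine ⟨?_, g4, ?_⟩
  · have hne1 : a s ≠ ⊤ := ne_top_of_lt g1
    have hne2 : a s ≠ ⊥ := ne_bot_of_gt g2
    refine ⟨(a s).toReal, (EReal.coe_toReal hne1 hne2).symm, ?_⟩
    rw [← EReal.coe_toReal hne1 hne2] at g1 g2
    have g1' : (a s).toReal < a₀ + ε := by exact_mod_cast g1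
    have g2' : a₀ - ε < (a s).toReal := by exact_mod_cast g2
    rw [abs_lt]; constructor <;> linarith
  · intro i hi
    obtain ⟨-, r2, -⟩ := rule (s - i * u)
    have e1 : s - i * u - u/2 = s - (i + 1/2) * u := by ring
    have e2 : s - i * u + u/2 = s - (((i - 1 : ℕ) : ℝ) + 1/2) * u := by
      rw [Nat.cast_sub hi]; push_cast; ring
    rw [e1, e2] at r2
    by_contra hcon
    have hcon' := not_lt.1 hcon
    refine r2 ⟨lt_of_le_of_lt hcon' ?_, lt_of_le_of_lt hcon' ?_⟩
    · have := g4 i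
      exact_mod_cast (by linarith : a₀ + c - i < lam (s - (i + 1/2) * u) + 1/2)
    · have := g4 (i - 1)
      rw [Nat.cast_sub hi] at this ⊢
      push_cast at this ⊢
      have h16 : a₀ + c - i < lam (s - ((i : ℝ) - 1 + 1/2) * u) - 1/2 := by linarith
      exact_mod_cast h16

end Crest.Agent.R102.Rec359
end

-- ▼ part R102/SlopeB_811
section

/-!
# Row 102, T1-B leaf (c), part B: half-disc lower bound for positive superharmonic functions
-/

namespace Crest.Agent.R102.Slope811

open MeasureTheory Set Filter Topology Complex Metric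
open scoped Real ENNReal ComplexConjugate

/-- upper half disc -/
def HD (u ρ : ℝ) : Set ℂ := {z | 0 < z.im ∧ ‖z - u‖ < ρ}

theorem isOpen_HD (u ρ : ℝ) : IsOpen (HD u ρ) := by
  apply IsOpen.inter
  · exact isOpen_lt continuous_const continuous_im
  · exact isOpen_lt (show Continuous fun z : ℂ => ‖z - u‖ by fun_prop) continuous_const

theorem HD_mono {u r ρ : ℝ} (h : r ≤ ρ) : HD u r ⊆ HD u ρ := fun _ hz => ⟨hz.1, hz.2.trans_le h⟩

/-- the points of the upper half circle -/
noncomputable def pt (u r θ : ℝ) : ℂ := circleMap u r θ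

theorem pt_im (u r θ : ℝ) : (pt u r θ).im = r * Real.sin θ := by
  simp [pt, circleMap, Complex.exp_im]

theorem pt_re (u r θ : ℝ) : (pt u r θ).re = u + r * Real.cos θ := by
  simp [pt, circleMap, Complex.exp_re]

theorem norm_pt {r : ℝ} (hr : 0 < r) (u θ : ℝ) : ‖pt u r θ - u‖ = r := by
  simp [pt, circleMap, abs_of_pos hr]

/-- The kernel of the half disc. -/
noncomputable def ker (r : ℝ) (z : ℂ) (u θ : ℝ) : ℝ :=
  poissonKernel u z (pt u r θ) - poissonKernel u z (pt u r (-θ))

theorem ker_lower {r : ℝ} (hr : 0 < r) {z : ℂ} {u : ℝ} (hz : 0 < z.im) (hzr : ‖z - u‖ < r)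
    {θ : ℝ} (hθ : θ ∈ Icc 0 π) :
    4 * (1 - 4 * (‖z - u‖ / r)) * (z.im / r) * Real.sin θ ≤ ker r z u θ ∧ 0 ≤ ker r z u θ := by
  have hs : 0 ≤ Real.sin θ := Real.sin_nonneg_of_mem_Icc hθ
  set ϱ := ‖z - u‖ with hϱ
  have hϱ0 : 0 ≤ ϱ := norm_nonneg _
  set y := z.im with hy
  have h1 : ∀ φ, ‖(pt u r φ - u) - (z - u)‖ ^ 2 =
      r ^ 2 + ϱ ^ 2 - 2 * r * ((z.re - u) * Real.cos φ + y * Real.sin φ) := by
    intro φ
    rw [hϱ]
    simp only [← Complex.normSq_eq_norm_sq, Complex.normSq_apply, sub_re, sub_im, pt_re, pt_im,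
      ofReal_re, ofReal_im]
    have := Real.sin_sq_add_cos_sq φ
    nlinarith
  have hN1 := h1 θ
  have hN2 := h1 (-θ)
  rw [Real.cos_neg, Real.sin_neg] at hN2
  have hpos : ∀ φ, 0 < ‖(pt u r φ - u) - (z - u)‖ := by
    intro φ
    have e1 : ‖pt u r φ - u‖ ≤ ‖(pt u r φ - u) - (z - u)‖ + ‖z - u‖ := by
      simpa using norm_add_le ((pt u r φ - u) - (z - u)) (z - u)
    rw [norm_pt hr] at e1
    linarith
  have hup : ∀ φ, ‖(pt u r φ - u) - (z - u)‖ ≤ r + ϱ := by
    intro φ
    have e1 := norm_sub_le (pt u r φ - u) (z - u)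
    rwa [norm_pt hr] at e1
  set N1 := ‖(pt u r θ - u) - (z - u)‖ with hN1d
  set N2 := ‖(pt u r (-θ) - u) - (z - u)‖ with hN2d
  have hN1p : 0 < N1 := hpos θ
  have hN2p : 0 < N2 := hpos (-θ)
  have hN1u : N1 ≤ r + ϱ := hup θ
  have hN2u : N2 ≤ r + ϱ := hup (-θ)
  have hker : ker r z u θ = (r ^ 2 - ϱ ^ 2) * (4 * r * y * Real.sin θ) / (N1 ^ 2 * N2 ^ 2) := by
    rw [ker, poissonKernel_def, poissonKernel_def, norm_pt hr, norm_pt hr, ← hN1d, ← hN2d, ← hϱ]
    field_simp
    rw [hN1, hN2]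
    ring
  have hnum : 0 ≤ (r ^ 2 - ϱ ^ 2) * (4 * r * y * Real.sin θ) := by
    have : 0 ≤ r ^ 2 - ϱ ^ 2 := by nlinarith
    positivity
  refine ⟨?_, by rw [hker]; positivity⟩
  rw [hker, le_div_iff₀ (by positivity)]
  have hNN : N1 ^ 2 * N2 ^ 2 ≤ (r + ϱ) ^ 4 := by
    calc N1 ^ 2 * N2 ^ 2 ≤ (r + ϱ) ^ 2 * (r + ϱ) ^ 2 := by gcongr
      _ = (r + ϱ) ^ 4 := by ring
  by_cases hq : 1 - 4 * (ϱ / r) ≤ 0
  · calc 4 * (1 - 4 * (ϱ / r)) * (y / r) * Real.sin θ * (N1 ^ 2 * N2 ^ 2) ≤ 0 := by
          have : 0 ≤ (y / r) * Real.sin θ * (N1 ^ 2 * N2 ^ 2) := by positivity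
          nlinarith
      _ ≤ _ := hnum
  · rw [not_le] at hq
    have hq' : 4 * ϱ < r := by
      have : 4 * (ϱ / r) < 1 := by linarith
      rw [← mul_div_assoc, div_lt_one hr] at this
      exact this
    calc 4 * (1 - 4 * (ϱ / r)) * (y / r) * Real.sin θ * (N1 ^ 2 * N2 ^ 2)
        ≤ 4 * (1 - 4 * (ϱ / r)) * (y / r) * Real.sin θ * (r + ϱ) ^ 4 := by
          gcongr
      _ = ((r - 4 * ϱ) * (r + ϱ) ^ 3) * (r + ϱ) * (4 * y * Real.sin θ) / r ^ 2 := by
          field_simp
      _ ≤ (r ^ 3 * (r - ϱ)) * (r + ϱ) * (4 * y * Real.sin θ) / r ^ 2 := by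
          have h5 : (r - 4 * ϱ) * (r + ϱ) ^ 3 ≤ r ^ 3 * (r - ϱ) := by
            have : r ^ 3 * (r - ϱ) - (r - 4 * ϱ) * (r + ϱ) ^ 3 =
              9 * r ^ 2 * ϱ ^ 2 + 11 * r * ϱ ^ 3 + 4 * ϱ ^ 4 := by ring
            have : 0 ≤ 9 * r ^ 2 * ϱ ^ 2 + 11 * r * ϱ ^ 3 + 4 * ϱ ^ 4 := by positivity
            linarith
          gcongr
      _ = (r ^ 2 - ϱ ^ 2) * (4 * r * y * Real.sin θ) := by
          field_simp
          ring

theorem continuous_ker {r : ℝ} (hr : 0 < r) {z : ℂ} {u : ℝ} (hzr : ‖z - u‖ < r) :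
    Continuous (ker r z u) := by
  have hne : ∀ φ, ‖(pt u r φ - u) - (z - u)‖ ^ 2 ≠ 0 := by
    intro φ
    have e1 : ‖pt u r φ - u‖ ≤ ‖(pt u r φ - u) - (z - u)‖ + ‖z - u‖ := by
      simpa using norm_add_le ((pt u r φ - u) - (z - u)) (z - u)
    rw [norm_pt hr] at e1
    have : 0 < ‖(pt u r φ - u) - (z - u)‖ := by linarith
    positivity
  have hc : Continuous (pt u r) := continuous_circleMap _ _
  have h1 : Continuous fun φ => poissonKernel u z (pt u r φ) := by
    simp only [poissonKernel_def]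
    exact Continuous.div (by fun_prop) (by fun_prop) hne
  exact h1.sub (h1.comp continuous_neg)

/-- Poisson formula for an odd real part. -/
theorem odd_formula {q : ℂ → ℂ} (hq : Differentiable ℂ q) {u r : ℝ} (hr : 0 < r)
    (hodd : ∀ w, (q (conj w)).re = -(q w).re) {z : ℂ} (hz : ‖z - u‖ < r) :
    (q z).re = (2 * π)⁻¹ * ∫ θ in (0 : ℝ)..π, ker r z u θ * (q (pt u r θ)).re := by
  have hne : ∀ φ, ‖(pt u r φ - u) - (z - u)‖ ^ 2 ≠ 0 := by
    intro φ
    have e1 : ‖pt u r φ - u‖ ≤ ‖(pt u r φ - u) - (z - u)‖ + ‖z - u‖ := by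
      simpa using norm_add_le ((pt u r φ - u) - (z - u)) (z - u)
    rw [norm_pt hr] at e1
    have : 0 < ‖(pt u r φ - u) - (z - u)‖ := by linarith
    positivity
  have hc : Continuous (pt u r) := continuous_circleMap _ _
  have hP : Continuous fun φ => poissonKernel u z (pt u r φ) := by
    simp only [poissonKernel_def]
    exact Continuous.div (by fun_prop) (by fun_prop) hne
  have hqc : Continuous fun φ => (q (pt u r φ)).re :=
    continuous_re.comp (hq.continuous.comp hc)
  have h1 := DiffContOnCl.circleAverage_poissonKernel_smul (R := r) (c := (u : ℂ)) (w := z)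
    (f := q) hq.diffContOnCl (by rw [mem_ball, dist_eq_norm]; exact hz)
  have h2 : (q z).re = (2 * π)⁻¹ * ∫ θ in (0 : ℝ)..2 * π,
      poissonKernel u z (pt u r θ) * (q (pt u r θ)).re := by
    rw [← h1, Real.circleAverage_def]
    simp only [Complex.real_smul, Complex.re_ofReal_mul]
    congr 1
    have hint : IntervalIntegrable (fun θ => ((poissonKernel (u : ℂ) z • q) (circleMap (u : ℂ) r θ)))
        volume 0 (2 * π) := by
      apply Continuous.intervalIntegrable
      have : (fun θ => ((poissonKernel (u : ℂ) z • q) (circleMap (u : ℂ) r θ))) =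
          fun θ => ((poissonKernel u z (pt u r θ) : ℝ) : ℂ) * q (pt u r θ) := by
        ext θ
        simp [pt]
      rw [this]
      exact (continuous_ofReal.comp hP).mul (hq.continuous.comp hc)
    have h3 := (reCLM.intervalIntegral_comp_comm hint)
    simp only [reCLM_apply] at h3
    rw [← h3]
    apply intervalIntegral.integral_congr
    intro θ _
    simp [pt]
  rw [h2]
  congr 1
  have hsplit : (∫ θ in (0 : ℝ)..2 * π, poissonKernel u z (pt u r θ) * (q (pt u r θ)).re) =
      (∫ θ in (0 : ℝ)..π, poissonKernel u z (pt u r θ) * (q (pt u r θ)).re) +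
      ∫ θ in π..2 * π, poissonKernel u z (pt u r θ) * (q (pt u r θ)).re :=
    (intervalIntegral.integral_add_adjacent_intervals
      ((hP.mul hqc).intervalIntegrable _ _) ((hP.mul hqc).intervalIntegrable _ _)).symm
  have hsub : (∫ θ in π..2 * π, poissonKernel u z (pt u r θ) * (q (pt u r θ)).re) =
      ∫ θ in (0 : ℝ)..π, poissonKernel u z (pt u r (-θ)) * -(q (pt u r θ)).re := by
    have h4 := intervalIntegral.integral_comp_sub_left
      (fun θ => poissonKernel u z (pt u r θ) * (q (pt u r θ)).re) (2 * π) (a := 0) (b := π)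
    have h5 : 2 * π - π = π := by ring
    rw [sub_zero, h5] at h4
    rw [← h4]
    apply intervalIntegral.integral_congr
    intro θ _
    have h6 : pt u r (2 * π - θ) = pt u r (-θ) := by
      apply Complex.ext
      · rw [pt_re, pt_re, Real.cos_two_pi_sub, Real.cos_neg]
      · rw [pt_im, pt_im, Real.sin_two_pi_sub, Real.sin_neg]
    have h7 : pt u r (-θ) = conj (pt u r θ) := by
      apply Complex.ext
      · rw [pt_re, conj_re, pt_re, Real.cos_neg]
      · rw [pt_im, conj_im, pt_im, Real.sin_neg]; ring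
    simp only [h6]
    rw [h7, hodd]
  have hI1 : IntervalIntegrable (fun θ => poissonKernel u z (pt u r θ) * (q (pt u r θ)).re)
      volume 0 π := (hP.mul hqc).intervalIntegrable _ _
  have hI2 : IntervalIntegrable (fun θ => poissonKernel u z (pt u r (-θ)) * -(q (pt u r θ)).re)
      volume 0 π := ((hP.comp continuous_neg).mul hqc.neg).intervalIntegrable _ _
  rw [hsplit, hsub, ← intervalIntegral.integral_add hI1 hI2]
  apply intervalIntegral.integral_congr
  intro θ _
  simp only [ker]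
  ring

/-- Comparison with a continuous minorant on the upper half circle. -/
theorem core {u r ρ : ℝ} (hr : 0 < r) (hrρ : r < ρ) {D : ℂ → ℝ} (hD : SupH (HD u ρ) D)
    (h0 : ∀ z ∈ HD u ρ, 0 ≤ D z) {g : ℂ → ℝ} (hg : Continuous g)
    (hgD : ∀ w : ℂ, ‖w - u‖ = r → 0 < w.im → g w ≤ D w)
    (hgl : ∀ w : ℂ, ‖w - u‖ = r → w.im ≤ 0 → g w = 0) {z : ℂ} (hz : z ∈ HD u r) :
    (2 * π)⁻¹ * ∫ θ in (0 : ℝ)..π, ker r z u θ * g (pt u r θ) ≤ D z := by
  have hc : Continuous (pt u r) := continuous_circleMap _ _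
  have hkc := continuous_ker hr hz.2
  set A : ℝ := (2 * π)⁻¹ * ∫ θ in (0 : ℝ)..π, ker r z u θ with hA
  have hA0 : 0 ≤ A := by
    rw [hA]
    apply mul_nonneg (by positivity)
    apply intervalIntegral.integral_nonneg Real.pi_pos.le
    intro θ hθ
    exact (ker_lower hr hz.1 hz.2 hθ).2
  have key : ∀ ε > 0, (2 * π)⁻¹ * (∫ θ in (0 : ℝ)..π, ker r z u θ * g (pt u r θ)) - ε * A - 3 * ε
      ≤ D z := by
    intro ε hε
    obtain ⟨p, hp⟩ := exists_poly (G := fun w => g w - g (conj w))
      (hg.sub (hg.comp continuous_conj)) (u : ℂ) hr hε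
    set q : ℂ → ℂ := fun w => (p.eval w - conj (p.eval (conj w))) / 2 with hq
    have hqd : Differentiable ℂ q := by
      have h1 : Differentiable ℂ fun w : ℂ => p.eval w := p.differentiable
      have h2 : Differentiable ℂ fun w : ℂ => conj (p.eval (conj w)) := by
        intro w
        have h3 := (h1 (conj w)).conj_conj
        simpa [Function.comp_def] using h3
      exact (h1.sub h2).div_const 2
    have hqre : ∀ w, (q w).re = ((p.eval w).re - (p.eval (conj w)).re) / 2 := by
      intro w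
      simp only [hq]
      rw [show ((2 : ℂ)) = ((2 : ℝ) : ℂ) by norm_num, Complex.div_ofReal_re, sub_re, conj_re]
    have hodd : ∀ w, (q (conj w)).re = -(q w).re := by
      intro w
      rw [hqre, hqre, Complex.conj_conj]
      ring
    have hconj : ∀ w : ℂ, ‖conj w - u‖ = ‖w - u‖ := by
      intro w
      rw [← Complex.norm_conj (w - u), map_sub, Complex.conj_ofReal]
    have happ : ∀ w : ℂ, ‖w - u‖ = r → |(q w).re - (g w - g (conj w))| < ε := by
      intro w hw
      have h1 := hp w hw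
      have h2 := hp (conj w) ((hconj w).trans hw)
      simp only [Complex.conj_conj] at h2
      rw [hqre]
      rw [abs_lt] at h1 h2 ⊢
      constructor <;> linarith [h1.1, h1.2, h2.1, h2.2]
    have hupper : ∀ w : ℂ, ‖w - u‖ = r → 0 < w.im → |(q w).re - g w| < ε := by
      intro w hw hwi
      have h1 := happ w hw
      rwa [hgl (conj w) ((hconj w).trans hw) (by rw [conj_im]; linarith), sub_zero] at h1
    -- minimum principle
    have hmin : ∀ w ∈ HD u r, 0 ≤ D w + (-q w).re + 3 * ε := by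
      have hS : SupH (HD u r) (fun w => D w + (-q w).re + 3 * ε) := by
        have h1 := (hD.mono (HD_mono hrρ.le) (isOpen_HD u r)).add_re (q := fun w => -q w)
          (fun w _ => (hqd.analyticAt w).neg)
        exact h1.add_const (3 * ε)
      have hbdd : Bornology.IsBounded (HD u r) := by
        apply (Metric.isBounded_ball (x := (u : ℂ)) (r := r)).subset
        intro w hw
        rw [mem_ball, dist_eq_norm]; exact hw.2
      apply hS.nonneg (isOpen_HD u r) hbdd
      intro ζ hζ δ hδ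
      have hqcont : ContinuousAt (fun w => (q w).re) ζ :=
        (continuous_re.comp hqd.continuous).continuousAt
      have hζcl : 0 ≤ ζ.im ∧ ‖ζ - u‖ ≤ r := by
        have h1 : closure (HD u r) ⊆ {w : ℂ | 0 ≤ w.im ∧ ‖w - u‖ ≤ r} := by
          apply closure_minimal
          · intro w hw; exact ⟨hw.1.le, hw.2.le⟩
          · apply IsClosed.inter
            · exact isClosed_le continuous_const continuous_im
            · exact isClosed_le (show Continuous fun z : ℂ => ‖z - u‖ by fun_prop) continuous_const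
        exact h1 (frontier_subset_closure hζ)
      have hζn : ζ ∉ HD u r := by
        have := hζ.2
        rwa [(isOpen_HD u r).interior_eq] at this
      rcases hζcl.1.eq_or_lt with hi | hi
      · -- real point
        have hq0 : (q ζ).re = 0 := by
          have h1 := hodd ζ
          rw [Complex.conj_eq_iff_im.2 hi.symm] at h1
          linarith
        have h2 : ∀ᶠ w in 𝓝[HD u r] ζ, (q w).re < ε := by
          apply (hqcont.tendsto.mono_left nhdsWithin_le_nhds).eventually_lt_const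
          rw [hq0]; exact hε
        filter_upwards [h2, self_mem_nhdsWithin] with w hw hwH
        have h3 := h0 w (HD_mono hrρ.le hwH)
        rw [neg_re]
        linarith
      · -- arc point
        have hζr : ‖ζ - u‖ = r := by
          rcases hζcl.2.eq_or_lt with h | h
          · exact h
          · exact absurd ⟨hi, h⟩ hζn
        have hζρ : ζ ∈ HD u ρ := ⟨hi, by rw [hζr]; exact hrρ⟩
        have h1 : ∀ᶠ w in 𝓝[HD u r] ζ, D ζ - ε / 2 < D w :=
          (hD.lsc ζ hζρ (D ζ - ε / 2) (by linarith)).filter_mono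
            (nhdsWithin_mono _ (HD_mono hrρ.le))
        have h2 : ∀ᶠ w in 𝓝[HD u r] ζ, (q w).re < (q ζ).re + ε / 2 := by
          apply (hqcont.tendsto.mono_left nhdsWithin_le_nhds).eventually_lt_const
          linarith
        have h3 := (abs_lt.1 (hupper ζ hζr hi)).2
        have h4 := hgD ζ hζr hi
        filter_upwards [h1, h2] with w hw1 hw2
        rw [neg_re]
        linarith
    have h5 := hmin z hz
    rw [neg_re] at h5
    have h6 := odd_formula hqd hr hodd hz.2
    have hqc : Continuous fun φ => (q (pt u r φ)).re :=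
      continuous_re.comp (hqd.continuous.comp hc)
    have h7 : ∫ θ in (0 : ℝ)..π, ker r z u θ * (g (pt u r θ) - ε) ≤
        ∫ θ in (0 : ℝ)..π, ker r z u θ * (q (pt u r θ)).re := by
      apply intervalIntegral.integral_mono_on_of_le_Ioo Real.pi_pos.le
      · exact (hkc.mul ((hg.comp hc).sub continuous_const)).intervalIntegrable _ _
      · exact (hkc.mul hqc).intervalIntegrable _ _
      · intro θ hθ
        apply mul_le_mul_of_nonneg_left _ (ker_lower hr hz.1 hz.2 ⟨hθ.1.le, hθ.2.le⟩).2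
        have h8 := hupper (pt u r θ) (norm_pt hr u θ) (by
          rw [pt_im]
          exact mul_pos hr (Real.sin_pos_of_mem_Ioo hθ))
        linarith [(abs_lt.1 h8).1]
    have h9 : ∫ θ in (0 : ℝ)..π, ker r z u θ * (g (pt u r θ) - ε) =
        (∫ θ in (0 : ℝ)..π, ker r z u θ * g (pt u r θ)) - ε * ∫ θ in (0 : ℝ)..π, ker r z u θ := by
      rw [← intervalIntegral.integral_const_mul, ← intervalIntegral.integral_sub]
      · apply intervalIntegral.integral_congr
        intro θ _
        ring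
      · exact (hkc.mul (hg.comp hc)).intervalIntegrable _ _
      · exact (continuous_const.mul hkc).intervalIntegrable _ _
    have h10 : (2 * π)⁻¹ * (∫ θ in (0 : ℝ)..π, ker r z u θ * g (pt u r θ)) - ε * A ≤ (q z).re := by
      rw [h6, hA]
      calc (2 * π)⁻¹ * (∫ θ in (0 : ℝ)..π, ker r z u θ * g (pt u r θ)) -
            ε * ((2 * π)⁻¹ * ∫ θ in (0 : ℝ)..π, ker r z u θ)
          = (2 * π)⁻¹ * ∫ θ in (0 : ℝ)..π, ker r z u θ * (g (pt u r θ) - ε) := by
            rw [h9]; ring
        _ ≤ _ := by gcongr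
    linarith
  by_contra hcon
  rw [not_le] at hcon
  set X := (2 * π)⁻¹ * ∫ θ in (0 : ℝ)..π, ker r z u θ * g (pt u r θ) with hX
  have h := key ((X - D z) / (2 * (A + 3))) (by
    have : 0 < X - D z := by linarith
    positivity)
  have h11 : (X - D z) / (2 * (A + 3)) * A + 3 * ((X - D z) / (2 * (A + 3))) = (X - D z) / 2 := by
    field_simp
  linarith

end Crest.Agent.R102.Slope811
end

-- ▼ part R102/SlopeC_811

/-!
# Row 102, T1-B leaf (c), part C: the slope functional and the half-disc lower bound (S1)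
-/

namespace Crest.Agent.R102.Slope811

open MeasureTheory Set Filter Topology Complex Metric
open scoped Real ENNReal ComplexConjugate

/-- inf-convolution of `d` on `S` -/
noncomputable def infc (S : Set ℂ) (d : ℂ → ℝ) (n : ℕ) (z : ℂ) : ℝ :=
  ⨅ w : S, (d w + n * ‖z - w‖)

section infc

variable {S : Set ℂ} {d : ℂ → ℝ}

theorem infc_bdd (hd : ∀ w ∈ S, 0 ≤ d w) (n : ℕ) (z : ℂ) :
    BddBelow (range fun w : S => d w + n * ‖z - w‖) := by
  refine ⟨0, ?_⟩
  rintro _ ⟨w, rfl⟩
  have := hd w w.2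
  positivity

theorem infc_le (hd : ∀ w ∈ S, 0 ≤ d w) (n : ℕ) (z : ℂ) {w : ℂ} (hw : w ∈ S) :
    infc S d n z ≤ d w + n * ‖z - w‖ := ciInf_le (infc_bdd hd n z) ⟨w, hw⟩

theorem infc_le_self (hd : ∀ w ∈ S, 0 ≤ d w) (n : ℕ) {z : ℂ} (hz : z ∈ S) :
    infc S d n z ≤ d z := by
  have := infc_le hd n z hz
  simpa using this

theorem infc_nonneg (hd : ∀ w ∈ S, 0 ≤ d w) (n : ℕ) (z : ℂ) : 0 ≤ infc S d n z := by
  apply Real.iInf_nonneg
  intro w
  have := hd w w.2
  positivity

theorem infc_continuous (hS : S.Nonempty) (hd : ∀ w ∈ S, 0 ≤ d w) (n : ℕ) :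
    Continuous (infc S d n) := by
  have : Nonempty S := hS.to_subtype
  have h : LipschitzWith (n : NNReal) (infc S d n) := by
    apply LipschitzWith.of_le_add_mul
    intro z z'
    have h1 : infc S d n z - n * ‖z - z'‖ ≤ infc S d n z' := by
      apply le_ciInf
      intro w
      have h2 := infc_le hd n z w.2
      have h3 : ‖z - w‖ ≤ ‖z - z'‖ + ‖z' - w‖ := norm_sub_le_norm_sub_add_norm_sub z z' w
      have h4 : (n : ℝ) * ‖z - w‖ ≤ n * (‖z - z'‖ + ‖z' - w‖) := by gcongr
      linarith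
    rw [dist_eq_norm]
    have : ((n : NNReal) : ℝ) = n := by simp
    rw [this]
    linarith
  exact h.continuous

theorem infc_tendsto (hd : ∀ w ∈ S, 0 ≤ d w) {z : ℂ} (hz : z ∈ S)
    (hl : LowerSemicontinuousWithinAt d S z) :
    Tendsto (fun n => infc S d n z) atTop (𝓝 (d z)) := by
  have : Nonempty S := ⟨⟨z, hz⟩⟩
  apply tendsto_order.2 ⟨fun a ha => ?_, fun a ha => Eventually.of_forall fun n =>
    (infc_le_self hd n hz).trans_lt ha⟩
  set b := (a + d z) / 2 with hb
  have hab : a < b := by rw [hb]; linarith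
  have hbd : b < d z := by rw [hb]; linarith
  have h1 := hl b hbd
  rw [Filter.Eventually, Metric.mem_nhdsWithin_iff] at h1
  obtain ⟨δ, hδ, h1⟩ := h1
  obtain ⟨N, hN⟩ := exists_nat_ge (b / δ)
  filter_upwards [eventually_ge_atTop N] with n hn
  apply hab.trans_le
  apply le_ciInf
  intro w
  by_cases hw : dist (w : ℂ) z < δ
  · have h2 : b < d w := h1 ⟨hw, w.2⟩
    have : 0 ≤ (n : ℝ) * ‖z - w‖ := by positivity
    linarith
  · rw [not_lt, dist_comm, dist_eq_norm] at hw
    have h2 := hd w w.2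
    have h3 : b ≤ n * δ := by
      have : b / δ ≤ n := hN.trans (by exact_mod_cast hn)
      rwa [div_le_iff₀ hδ] at this
    have h4 : (n : ℝ) * δ ≤ n * ‖z - w‖ := by gcongr
    linarith

end infc

/-- The half-circle mean which measures the slope of `D` at `u` at scale `r`. -/
noncomputable def mm (D : ℂ → ℝ) (u r : ℝ) : ℝ≥0∞ :=
  ENNReal.ofReal (2 / (π * r)) * ∫⁻ θ in Ioo 0 π, ENNReal.ofReal (D (pt u r θ) * Real.sin θ)

/-- **(S1)** half-disc lower bound for a nonnegative superharmonic function, in terms of the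
half-circle mean at scale `r`. -/
theorem lower {u r ρ : ℝ} (hr : 0 < r) (hrρ : r < ρ) {D : ℂ → ℝ} (hD : SupH (HD u ρ) D)
    (h0 : ∀ z ∈ HD u ρ, 0 ≤ D z) {z : ℂ} (hz : z ∈ HD u r) :
    ENNReal.ofReal ((1 - 4 * (‖z - u‖ / r)) * z.im) * mm D u r ≤ ENNReal.ofReal (D z) := by
  classical
  by_cases hq : 1 - 4 * (‖z - u‖ / r) ≤ 0
  · rw [ENNReal.ofReal_of_nonpos (mul_nonpos_of_nonpos_of_nonneg hq hz.1.le), zero_mul]
    exact zero_le
  rw [not_le] at hq
  have hzim : 0 < z.im := hz.1
  set S : Set ℂ := sphere (u : ℂ) r with hS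
  set d : ℂ → ℝ := fun w => if 0 < w.im then D w else 0 with hd
  have hSne : S.Nonempty := NormedSpace.sphere_nonempty.2 hr.le
  have hd0 : ∀ w ∈ S, 0 ≤ d w := by
    intro w hw
    simp only [hd]
    split_ifs with h
    · apply h0 w ⟨h, ?_⟩
      rw [hS, mem_sphere, dist_eq_norm] at hw
      rw [hw]; exact hrρ
    · exact le_refl _
  have hlsc : ∀ w ∈ S, LowerSemicontinuousWithinAt d S w := by
    intro w hw
    by_cases h : 0 < w.im
    · have hwρ : w ∈ HD u ρ := by
        refine ⟨h, ?_⟩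
        rw [hS, mem_sphere, dist_eq_norm] at hw
        rw [hw]; exact hrρ
      intro a ha
      have ha' : a < D w := by simpa [hd, h] using ha
      have h1 := hD.lsc w hwρ a ha'
      rw [(isOpen_HD u ρ).nhdsWithin_eq hwρ] at h1
      have h2 : ∀ᶠ v in 𝓝 w, v ∈ HD u ρ := (isOpen_HD u ρ).mem_nhds hwρ
      filter_upwards [nhdsWithin_le_nhds h1, nhdsWithin_le_nhds h2] with v hv hv2
      simp only [hd, hv2.1, if_true]
      exact hv
    · intro a ha
      have ha' : a < 0 := by simpa [hd, h] using ha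
      filter_upwards [self_mem_nhdsWithin] with v hv
      exact ha'.trans_le (hd0 v hv)
  have hcpt : Continuous (pt u r) := continuous_circleMap _ _
  have hptS : ∀ θ, pt u r θ ∈ S := fun θ => by
    rw [hS, mem_sphere, dist_eq_norm]; exact norm_pt hr u θ
  set C : ℝ := (1 - 4 * (‖z - u‖ / r)) * z.im with hC
  have hCpos : 0 < C := mul_pos hq hzim
  -- the bound for each n
  have hn : ∀ n, ENNReal.ofReal C * (ENNReal.ofReal (2 / (π * r)) *
      ∫⁻ θ in Ioo 0 π, ENNReal.ofReal (infc S d n (pt u r θ) * Real.sin θ)) ≤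
        ENNReal.ofReal (D z) := by
    intro n
    set g := infc S d n with hg
    have hgc : Continuous g := infc_continuous hSne hd0 n
    have hg0 : ∀ w, 0 ≤ g w := infc_nonneg hd0 n
    have h1 := core hr hrρ hD h0 hgc (fun w hw hwi => by
      have hwS : w ∈ S := by rw [hS, mem_sphere, dist_eq_norm]; exact hw
      have := infc_le_self hd0 n hwS
      simpa [hd, hwi] using this) (fun w hw hwi => by
      have hwS : w ∈ S := by rw [hS, mem_sphere, dist_eq_norm]; exact hw
      have h2 := infc_le_self hd0 n hwS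
      have h3 : d w = 0 := by simp [hd, not_lt.2 hwi]
      exact le_antisymm (h3 ▸ h2) (hg0 w)) hz
    have hsub : Continuous fun θ : ℝ => g (pt u r θ) * Real.sin θ :=
      (hgc.comp hcpt).mul Real.continuous_sin
    have h2 : C * (2 / (π * r)) * ∫ θ in (0 : ℝ)..π, g (pt u r θ) * Real.sin θ ≤ D z := by
      refine le_trans ?_ h1
      calc C * (2 / (π * r)) * ∫ θ in (0 : ℝ)..π, g (pt u r θ) * Real.sin θ
          = (2 * π)⁻¹ * ∫ θ in (0 : ℝ)..π, (4 * (1 - 4 * (‖z - u‖ / r)) * (z.im / r) *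
              Real.sin θ) * g (pt u r θ) := by
            have : ∫ θ in (0 : ℝ)..π, (4 * (1 - 4 * (‖z - u‖ / r)) * (z.im / r) *
              Real.sin θ) * g (pt u r θ) = (4 * (1 - 4 * (‖z - u‖ / r)) * (z.im / r)) *
              ∫ θ in (0 : ℝ)..π, g (pt u r θ) * Real.sin θ := by
              rw [← intervalIntegral.integral_const_mul]
              apply intervalIntegral.integral_congr
              intro θ _
              ring
            rw [this, hC]
            have := Real.pi_pos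
            field_simp
            ring
        _ ≤ _ := by
            apply mul_le_mul_of_nonneg_left _ (by positivity)
            apply intervalIntegral.integral_mono_on Real.pi_pos.le
            · exact ((continuous_const.mul Real.continuous_sin).mul
                (hgc.comp hcpt)).intervalIntegrable _ _
            · exact ((continuous_ker hr hz.2).mul (hgc.comp hcpt)).intervalIntegrable _ _
            · intro θ hθ
              exact mul_le_mul_of_nonneg_right (ker_lower hr hz.1 hz.2 hθ).1 (hg0 _)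
    have h3 : ∫⁻ θ in Ioo 0 π, ENNReal.ofReal (g (pt u r θ) * Real.sin θ) =
        ENNReal.ofReal (∫ θ in (0 : ℝ)..π, g (pt u r θ) * Real.sin θ) := by
      rw [intervalIntegral.integral_of_le Real.pi_pos.le, integral_Ioc_eq_integral_Ioo,
        ofReal_integral_eq_lintegral_ofReal]
      · exact (hsub.integrableOn_Icc (a := 0) (b := π)).mono_set Ioo_subset_Icc_self
      · refine (ae_restrict_iff' measurableSet_Ioo).2 (ae_of_all _ fun θ hθ => ?_)
        exact mul_nonneg (hg0 _) (Real.sin_pos_of_mem_Ioo hθ).le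
    rw [h3, ← ENNReal.ofReal_mul (by positivity), ← ENNReal.ofReal_mul hCpos.le]
    apply ENNReal.ofReal_le_ofReal
    linarith
  -- Fatou
  set c : ℝ≥0∞ := ENNReal.ofReal (2 / (π * r)) with hc
  set I : ℕ → ℝ≥0∞ := fun n =>
    ∫⁻ θ in Ioo 0 π, ENNReal.ofReal (infc S d n (pt u r θ) * Real.sin θ) with hI
  have hc0 : c ≠ 0 := by
    rw [hc, ne_eq, ENNReal.ofReal_eq_zero, not_le]; positivity
  have hc1 : c ≠ ∞ := ENNReal.ofReal_ne_top
  have hC0 : ENNReal.ofReal C ≠ 0 := by
    rw [ne_eq, ENNReal.ofReal_eq_zero, not_le]; exact hCpos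
  have hC1 : ENNReal.ofReal C ≠ ∞ := ENNReal.ofReal_ne_top
  have hfat : ∫⁻ θ in Ioo 0 π, ENNReal.ofReal (D (pt u r θ) * Real.sin θ) ≤
      liminf I atTop := by
    calc ∫⁻ θ in Ioo 0 π, ENNReal.ofReal (D (pt u r θ) * Real.sin θ)
        = ∫⁻ θ in Ioo 0 π, liminf (fun n => ENNReal.ofReal (infc S d n (pt u r θ) * Real.sin θ))
            atTop := by
          apply setLIntegral_congr_fun measurableSet_Ioo
          intro θ hθ
          have hsin := Real.sin_pos_of_mem_Ioo hθ
          have h1 : d (pt u r θ) = D (pt u r θ) := by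
            have : 0 < (pt u r θ).im := by rw [pt_im]; positivity
            simp [hd, this]
          have h2 := infc_tendsto hd0 (hptS θ) (hlsc _ (hptS θ))
          rw [h1] at h2
          have h3 : Tendsto (fun n => ENNReal.ofReal (infc S d n (pt u r θ) * Real.sin θ)) atTop
              (𝓝 (ENNReal.ofReal (D (pt u r θ) * Real.sin θ))) :=
            (ENNReal.continuous_ofReal.tendsto _).comp (h2.mul_const _)
          exact h3.liminf_eq.symm
      _ ≤ liminf I atTop := by
          apply lintegral_liminf_le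
          intro n
          exact (((infc_continuous hSne hd0 n).comp hcpt).mul
            Real.continuous_sin).measurable.ennreal_ofReal
  have hIle : ∀ n, I n ≤ ENNReal.ofReal (D z) / (ENNReal.ofReal C * c) := by
    intro n
    rw [ENNReal.le_div_iff_mul_le (Or.inl (mul_ne_zero hC0 hc0))
      (Or.inl (ENNReal.mul_ne_top hC1 hc1)), mul_comm, mul_assoc]
    exact hn n
  have hlim : liminf I atTop ≤ ENNReal.ofReal (D z) / (ENNReal.ofReal C * c) := by
    calc liminf I atTop ≤ liminf (fun _ : ℕ => ENNReal.ofReal (D z) / (ENNReal.ofReal C * c)) atTop :=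
          liminf_le_liminf (Eventually.of_forall hIle)
      _ = _ := by simp
  have h9 := hfat.trans hlim
  rw [ENNReal.le_div_iff_mul_le (Or.inl (mul_ne_zero hC0 hc0))
      (Or.inl (ENNReal.mul_ne_top hC1 hc1)), mul_comm, mul_assoc] at h9
  exact h9






end Crest.Agent.R102.Slope811
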