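import Crest.Agent.R102.NewtD_821

-- ▼ part R102/Iter_821
section

/-!
Row 102, part (B) (helper821): convergence of the Newton scheme.
-/

set_option autoImplicit false

open Set Filter Topology Metric Complex MeasureTheory
open scoped Real ContDiff ComplexConjugate

noncomputable section

namespace Crest.Agent.R102.B821

open Crest.Agent.R266.SCV

section Iter

variable {ρ₀ ε₀ ρ r d x : ℝ} {L Ψ U V : ℂ × ℂ → ℂ}

lemma AdmS.slack {y : ℝ} (h : AdmS ρ₀ ε₀ ρ r x U) (hy : y ≤ x) : AdmS ρ₀ ε₀ ρ r y U :=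
  ⟨h.adm, fun p hp => (h.U_s p hp).trans (by linarith),
    fun p hp => (h.Ut_s p hp).trans (by linarith), fun p hp => (h.Uw_s p hp).trans (by linarith)⟩

lemma convex_Dom {k : ℝ} (hk : 0 ≤ k) (ρ r : ℝ) : Convex ℝ (Dom k ρ r) := by
  intro p hp q hq a b ha hb hab
  obtain ⟨h1, h2⟩ := hp
  obtain ⟨h3, h4⟩ := hq
  refine ⟨?_, ?_⟩
  · have e1 : (a • p + b • q).1.im = a * p.1.im + b * q.1.im := by simp
    have e2 : (a • p + b • q).2.im = a * p.2.im + b * q.2.im := by simp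
    rw [e1, e2]
    have i1 : |a * p.1.im + b * q.1.im| ≤ a * |p.1.im| + b * |q.1.im| := by
      refine (abs_add_le _ _).trans ?_
      rw [abs_mul, abs_mul, abs_of_nonneg ha, abs_of_nonneg hb]
    have i2 : |a * p.2.im + b * q.2.im| ≤ a * |p.2.im| + b * |q.2.im| := by
      refine (abs_add_le _ _).trans ?_
      rw [abs_mul, abs_mul, abs_of_nonneg ha, abs_of_nonneg hb]
    have i3 : k * |a * p.2.im + b * q.2.im| ≤ k * (a * |p.2.im| + b * |q.2.im|) :=
      mul_le_mul_of_nonneg_left i2 hk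
    rcases eq_or_lt_of_le ha with ha0 | ha0
    · subst ha0
      have hb1 : b = 1 := by linarith
      subst hb1
      nlinarith
    · have j1 := mul_lt_mul_of_pos_left h1 ha0
      have j2 := mul_le_mul_of_nonneg_left h3.le hb
      have j3 : ρ = a * ρ + b * ρ := by rw [← add_mul, hab, one_mul]
      nlinarith
  · have e2 : (a • p + b • q).2 = (a : ℂ) * p.2 + (b : ℂ) * q.2 := by simp
    rw [e2]
    have i1 : ‖(a : ℂ) * p.2 + (b : ℂ) * q.2‖ ≤ a * ‖p.2‖ + b * ‖q.2‖ := by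
      refine (norm_add_le _ _).trans ?_
      rw [norm_mul, norm_mul, Complex.norm_real, Complex.norm_real, Real.norm_eq_abs,
        Real.norm_eq_abs, abs_of_nonneg ha, abs_of_nonneg hb]
    rcases eq_or_lt_of_le ha with ha0 | ha0
    · subst ha0
      have hb1 : b = 1 := by linarith
      subst hb1
      linarith
    · have j1 := mul_lt_mul_of_pos_left h2 ha0
      have j2 := mul_le_mul_of_nonneg_left h4.le hb
      have j3 : r = a * r + b * r := by rw [← add_mul, hab, one_mul]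
      linarith

/-- iteration of a relation along a sequence of predicates -/
lemma exists_iter {X : Type*} (Q : ℕ → X → Prop) (Rl : ℕ → X → X → Prop)
    (step : ∀ n x, Q n x → ∃ y, Q (n + 1) y ∧ Rl n x y) {x₀ : X} (h0 : Q 0 x₀) :
    ∃ F : ℕ → X, F 0 = x₀ ∧ ∀ n, Q n (F n) ∧ Rl n (F n) (F (n + 1)) := by
  classical
  choose! g hg using step
  let F : ℕ → X := fun n => Nat.rec x₀ (fun n x => g n x) n
  have hF : ∀ n, Q n (F n) := by
    intro n
    induction n with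
    | zero => exact h0
    | succ n ih => exact (hg n (F n) ih).1
  exact ⟨F, rfl, fun n => ⟨hF n, (hg n (F n) (hF n)).2⟩⟩

lemma norm_clm_le (A : ℂ × ℂ →L[ℂ] ℂ) {a b : ℝ} (ha : ‖A (1, 0)‖ ≤ a) (hb : ‖A (0, 1)‖ ≤ b) :
    ‖A‖ ≤ a + b := by
  have ha0 : 0 ≤ a := (norm_nonneg _).trans ha
  have hb0 : 0 ≤ b := (norm_nonneg _).trans hb
  refine ContinuousLinearMap.opNorm_le_bound _ (by positivity) (fun p => ?_)
  have e : A p = p.1 * A (1, 0) + p.2 * A (0, 1) := by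
    have h1 : p = p.1 • ((1 : ℂ), (0 : ℂ)) + p.2 • ((0 : ℂ), (1 : ℂ)) := by
      ext <;> simp
    conv_lhs => rw [h1]
    rw [map_add, map_smul, map_smul, smul_eq_mul, smul_eq_mul]
  rw [e]
  refine (norm_add_le _ _).trans ?_
  rw [norm_mul, norm_mul, add_mul]
  have n1 : ‖p.1‖ ≤ ‖p‖ := norm_fst_le p
  have n2 : ‖p.2‖ ≤ ‖p‖ := norm_snd_le p
  refine add_le_add ?_ ?_
  · rw [mul_comm]
    exact mul_le_mul ha n1 (norm_nonneg _) ha0
  · rw [mul_comm]
    exact mul_le_mul hb n2 (norm_nonneg _) hb0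

/-- limits of admissible functions with summable increments -/
theorem limit_of_seq (hL : IsLag ρ₀ ε₀ L Ψ) {F : ℕ → ℂ × ℂ → ℂ} {u : ℕ → ℝ} {e : ℕ → ℝ}
    (hu : Summable u) (hu0 : ∀ n, 0 ≤ u n) (he : Tendsto e atTop (𝓝 0))
    (hA : ∀ n, Adm ρ₀ ε₀ ρ r (F n))
    (hinc : ∀ n, ∀ p ∈ Dom (1 / 2) ρ r, ‖F (n + 1) p - F n p‖ ≤ u n * ‖p.2‖ ^ 5 ∧
      ‖q1 (F (n + 1)) p - q1 (F n) p‖ ≤ u n ∧ ‖q2 (F (n + 1)) p - q2 (F n) p‖ ≤ u n)
    (hP : ∀ n, Bdd (3 / 2) ρ r 8 (e n) (Pf L (F n))) :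
    ∃ U : ℂ × ℂ → ℂ, Adm ρ₀ ε₀ ρ r U ∧ (∀ p ∈ Dom (3 / 2) ρ r, Ef L U p = 0) ∧
      (∀ p ∈ Dom (1 / 2) ρ r, ‖U p - F 0 p‖ ≤ (∑' n, u n) * ‖p.2‖ ^ 5) := by
  have hadm := hA 0
  have hr := hadm.r_pos
  have hr1 := hadm.r_le
  have hρ := hadm.ρ_pos
  set f : ℕ → ℂ × ℂ → ℂ := fun n p => F (n + 1) p - F n p with hf
  set f' : ℕ → ℂ × ℂ → (ℂ × ℂ →L[ℂ] ℂ) := fun n p => fderiv ℂ (F (n + 1)) p - fderiv ℂ (F n) p with hf'
  have hfd : ∀ n p, p ∈ Dom (1 / 2) ρ r → HasFDerivAt (f n) (f' n p) p := by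
    intro n p hp
    exact (((hA (n + 1)).hU.differentiableAt hp).hasFDerivAt).sub
      (((hA n).hU.differentiableAt hp).hasFDerivAt)
  have hfb : ∀ n p, p ∈ Dom (1 / 2) ρ r → ‖f' n p‖ ≤ 2 * u n := by
    intro n p hp
    obtain ⟨-, h1, h2⟩ := hinc n p hp
    have := norm_clm_le (f' n p) (a := u n) (b := u n)
      (by rw [hf']; simp only [sub_apply]; exact h1)
      (by rw [hf']; simp only [sub_apply]; exact h2)
    linarith
  have hw1 : ∀ p ∈ Dom (1 / 2) ρ r, ‖p.2‖ ^ 5 ≤ 1 := by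
    intro p hp
    have : ‖p.2‖ < r := hp.2
    exact pow_le_one₀ (norm_nonneg _) (by linarith)
  have hfb0 : ∀ n p, p ∈ Dom (1 / 2) ρ r → ‖f n p‖ ≤ u n * ‖p.2‖ ^ 5 := fun n p hp => (hinc n p hp).1
  have hfb1 : ∀ n p, p ∈ Dom (1 / 2) ρ r → ‖f n p‖ ≤ u n := fun n p hp =>
    (hfb0 n p hp).trans (by have := hu0 n; have := hw1 p hp; nlinarith)
  have hsum : ∀ p ∈ Dom (1 / 2) ρ r, Summable (fun n => f n p) := fun p hp =>
    Summable.of_norm_bounded hu (fun n => hfb1 n p hp)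
  have h00 : ((0 : ℂ), (0 : ℂ)) ∈ Dom (1 / 2) ρ r := by
    refine ⟨?_, ?_⟩
    · simpa using hρ
    · simpa using hr
  have hu2 : Summable (fun n => 2 * u n) := hu.mul_left 2
  set U : ℂ × ℂ → ℂ := fun p => F 0 p + ∑' n, f n p with hU
  have hUd : ∀ p ∈ Dom (1 / 2) ρ r, HasFDerivAt U (fderiv ℂ (F 0) p + ∑' n, f' n p) p := by
    intro p hp
    refine (((hA 0).hU.differentiableAt hp).hasFDerivAt).add ?_
    exact hasFDerivAt_tsum_of_isPreconnected hu2 (isOpen_Dom (1 / 2) ρ r)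
      (convex_Dom (by norm_num) ρ r).isPreconnected hfd hfb h00 (hsum _ h00) hp
  -- limits
  have hlim : ∀ p ∈ Dom (1 / 2) ρ r, Tendsto (fun n => F n p) atTop (𝓝 (U p)) := by
    intro p hp
    have h1 := (hsum p hp).hasSum.tendsto_sum_nat.const_add (F 0 p)
    refine h1.congr (fun n => ?_)
    have : ∀ n, ∑ i ∈ Finset.range n, f i p = F n p - F 0 p := by
      intro n
      exact Finset.sum_range_sub (fun n => F n p) n
    rw [this]; ring
  have hlim' : ∀ p ∈ Dom (1 / 2) ρ r, Tendsto (fun n => fderiv ℂ (F n) p) atTop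
      (𝓝 (fderiv ℂ U p)) := by
    intro p hp
    have hs' : Summable (fun n => f' n p) := Summable.of_norm_bounded hu2 (fun n => hfb n p hp)
    have h1 := hs'.hasSum.tendsto_sum_nat.const_add (fderiv ℂ (F 0) p)
    rw [(hUd p hp).fderiv]
    refine h1.congr (fun n => ?_)
    have : ∀ n, ∑ i ∈ Finset.range n, f' i p = fderiv ℂ (F n) p - fderiv ℂ (F 0) p := by
      intro n
      exact Finset.sum_range_sub (fun n => fderiv ℂ (F n) p) n
    rw [this]
    abel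
  have hq1 : ∀ p ∈ Dom (1 / 2) ρ r, Tendsto (fun n => q1 (F n) p) atTop (𝓝 (q1 U p)) := by
    intro p hp
    exact ((ContinuousLinearMap.apply ℂ ℂ ((1 : ℂ), (0 : ℂ))).continuous.tendsto _).comp (hlim' p hp)
  have hq2 : ∀ p ∈ Dom (1 / 2) ρ r, Tendsto (fun n => q2 (F n) p) atTop (𝓝 (q2 U p)) := by
    intro p hp
    exact ((ContinuousLinearMap.apply ℂ ℂ ((0 : ℂ), (1 : ℂ))).continuous.tendsto _).comp (hlim' p hp)
  have hUH : IsH (1 / 2) ρ r U := by
    refine ⟨fun p hp => (hUd p hp).differentiableAt.differentiableWithinAt, fun t w hp => ?_⟩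
    refine tendsto_nhds_unique (hlim _ (mem_Dom_add_one.2 hp)) ?_
    refine (hlim _ hp).congr (fun n => ?_)
    exact ((hA n).hU.per t w hp).symm
  have hadmU : Adm ρ₀ ε₀ ρ r U := by
    refine { ρ_pos := hρ, ρ_le := hadm.ρ_le, r_pos := hr, r_le := hr1, r_le_ρ := hadm.r_le_ρ,
             r_le_ε := hadm.r_le_ε, hU := hUH, U_bd := ?_, Ut_bd := ?_, Uw_bd := ?_, re := ?_,
             par := ?_ }
    · intro p hp
      exact le_of_tendsto (hlim p hp).norm (Eventually.of_forall (fun n => (hA n).U_bd p hp))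
    · intro p hp
      exact le_of_tendsto (hq1 p hp).norm (Eventually.of_forall (fun n => (hA n).Ut_bd p hp))
    · intro p hp
      exact le_of_tendsto (hq2 p hp).norm (Eventually.of_forall (fun n => (hA n).Uw_bd p hp))
    · rintro ⟨t, w⟩ hp
      have h1 := (Complex.continuous_conj.tendsto _).comp (hlim _ (mem_Dom_conj.2 hp))
      refine tendsto_nhds_unique h1 ((hlim _ hp).congr (fun n => ?_))
      exact ((hA n).re _ hp).symm
    · rintro ⟨t, w⟩ hp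
      have h1 := hlim _ (mem_Dom_neg.2 hp)
      refine tendsto_nhds_unique h1 (((hlim _ hp).const_mul 1).congr (fun n => ?_))
      exact ((hA n).par _ hp).symm
  refine ⟨U, hadmU, ?_, ?_⟩
  · rintro ⟨t, w⟩ hp
    have m1 := hadmU.mem_m hp
    have m2 := hadmU.mem_p hp
    have m0 := hadmU.mem_0 hp
    obtain ⟨g1, g2⟩ := hadmU.mem3 hL hp
    have hX : ∀ q ∈ Dom (1 / 2) ρ r, Tendsto (fun n => Xf (F n) q) atTop (𝓝 (Xf U q)) := fun q hq =>
      (hlim q hq).const_add q.1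
    have c1 : ContinuousAt (q2 L) (tr (-1) (Xf U) (t, w), Xf U (t, w)) :=
      (ana_q2 hL.anaL _ g1).continuousAt
    have c2 : ContinuousAt (q1 L) (Xf U (t, w), tr 1 (Xf U) (t, w)) :=
      (ana_q1 hL.anaL _ g2).continuousAt
    have t1 : Tendsto (fun n => (tr (-1) (Xf (F n)) (t, w), Xf (F n) (t, w))) atTop
        (𝓝 (tr (-1) (Xf U) (t, w), Xf U (t, w))) := (hX _ m1).prodMk_nhds (hX _ m0)
    have t2 : Tendsto (fun n => (Xf (F n) (t, w), tr 1 (Xf (F n)) (t, w))) atTop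
        (𝓝 (Xf U (t, w), tr 1 (Xf U) (t, w))) := (hX _ m0).prodMk_nhds (hX _ m2)
    have t3 : Tendsto (fun n => Ef L (F n) (t, w)) atTop (𝓝 (Ef L U (t, w))) :=
      (c1.tendsto.comp t1).add (c2.tendsto.comp t2)
    have t4 : Tendsto (fun n => Ef L (F n) (t, w)) atTop (𝓝 0) := by
      refine squeeze_zero_norm (a := fun n => 100 / 99 * (e n * ‖w‖ ^ 8)) (fun n => ?_) ?_
      · have h1 := hP n _ hp
        have h2 := (hA n).Ut_bd _ m0
        have h4 : 99 / 100 ≤ ‖Xt (F n) (t, w)‖ := by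
          have : ‖(1 : ℂ)‖ ≤ ‖Xt (F n) (t, w)‖ + ‖q1 (F n) (t, w)‖ := by
            have := norm_sub_le (Xt (F n) (t, w)) (q1 (F n) (t, w))
            unfold Xt at this ⊢
            rw [add_sub_cancel_right] at this
            exact this
          rw [norm_one] at this
          linarith
        unfold Pf at h1
        rw [norm_mul] at h1
        have h3 : 99 / 100 * ‖Ef L (F n) (t, w)‖ ≤ e n * ‖w‖ ^ 8 :=
          (mul_le_mul_of_nonneg_right h4 (norm_nonneg _)).trans h1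
        linarith
      · have := (he.mul_const (‖w‖ ^ 8)).const_mul (100 / 99)
        rw [zero_mul, mul_zero] at this
        exact this
    exact tendsto_nhds_unique t3 t4
  · intro p hp
    have e1 : U p - F 0 p = ∑' n, f n p := by rw [hU]; ring
    rw [e1]
    calc ‖∑' n, f n p‖ ≤ ∑' n, u n * ‖p.2‖ ^ 5 :=
          tsum_of_norm_bounded (hu.mul_right _).hasSum (fun n => hfb0 n p hp)
      _ = (∑' n, u n) * ‖p.2‖ ^ 5 := tsum_mul_right

/-- the Newton scheme converges -/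
theorem newton_limit (hL : IsLag ρ₀ ε₀ L Ψ) {C c r₁ r₂ K δ₀ : ℝ} (hC : 0 ≤ C) (hc : 0 < c)
    (hB4 : B4Const ρ₀ L C c r₁) (hδ : 0 < δ₀) (hK0 : 0 ≤ K)
    (hr₂ : ∀ x y : ℂ, (x, y) ∈ Dg (3 / 4 * ρ₀) (ε₀ / 2) → ‖y - x‖ ≤ r₂ →
        ‖q2 (q1 L) (x, y) + (y - x)‖ ≤ 1 / 100 * ‖y - x‖)
    (hK : ∀ x y z x' y' z' : ℂ, ∀ m : ℝ, (x, y) ∈ Dg (3 / 4 * ρ₀) (ε₀ / 2) →
        (y, z) ∈ Dg (3 / 4 * ρ₀) (ε₀ / 2) → ‖x'‖ ≤ m → ‖y'‖ ≤ m → ‖z'‖ ≤ m → m ≤ δ₀ →
        ‖EL L (x + x') (y + y') (z + z') - EL L x y z - dEL L x y z x' y' z'‖ ≤ K * m ^ 2) :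
    ∃ C₀ : ℝ, 1 ≤ C₀ ∧ ∀ (ρ r x : ℝ) (U₀ : ℂ × ℂ → ℂ), r ≤ r₁ → 2 * r ≤ r₂ →
      0 < x → C₀ * x ≤ (r / 200) ^ 3 → AdmS ρ₀ ε₀ ρ r (2 * x) U₀ →
      Bdd (3 / 2) ρ r 8 (x ^ 20) (Pf L U₀) →
      ∃ U : ℂ × ℂ → ℂ, Adm ρ₀ ε₀ (ρ / 2) (r / 2) U ∧
        (∀ p ∈ Dom (3 / 2) (ρ / 2) (r / 2), Ef L U p = 0) ∧
        (∀ p ∈ Dom (1 / 2) (ρ / 2) (r / 2), ‖U p - U₀ p‖ ≤ 2 * x * ‖p.2‖ ^ 5) := by
  obtain ⟨C₀, hC₀, hstep⟩ := newton_step hL hC hc hB4 hδ hK0 hr₂ hK
  refine ⟨C₀, hC₀, ?_⟩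
  intro ρ r x U₀ hrr₁ hrr₂ hx hCx hA₀ hP₀
  have h₀ := hA₀.adm
  have hr := h₀.r_pos
  have hr1 := h₀.r_le
  have hrρ := h₀.r_le_ρ
  have hρ := h₀.ρ_pos
  set d₀ : ℝ := r / 200 with hd₀
  have hd₀p : 0 < d₀ := by positivity
  set q : ℕ → ℝ := fun n => (1 / 2 : ℝ) ^ n with hq
  have hq0 : ∀ n, 0 < q n := fun n => by rw [hq]; positivity
  have hq1 : ∀ n, q n ≤ 1 := fun n => pow_le_one₀ (by norm_num) (by norm_num)
  have hqs : ∀ n, q (n + 1) = q n / 2 := fun n => by rw [hq]; simp only [pow_succ]; ring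
  set ρs : ℕ → ℝ := fun n => ρ - 12 * d₀ * (1 - q n) with hρs
  set rs : ℕ → ℝ := fun n => r - 8 * d₀ * (1 - q n) with hrs
  set xs : ℕ → ℝ := fun n => x * (1 / 16 : ℝ) ^ n with hxs
  have hxs0 : ∀ n, 0 < xs n := fun n => by rw [hxs]; positivity
  have hxss : ∀ n, xs (n + 1) = xs n / 16 := fun n => by rw [hxs]; simp only [pow_succ]; ring
  obtain ⟨F, hF0, hF⟩ := exists_iter
    (Q := fun n U => AdmS ρ₀ ε₀ (ρs n) (rs n) (2 * xs n) U ∧
      Bdd (3 / 2) (ρs n) (rs n) 8 (xs n ^ 20) (Pf L U))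
    (Rl := fun n U U' => ∀ p ∈ Dom (1 / 2) (ρs (n + 1)) (rs (n + 1)),
      ‖U' p - U p‖ ≤ xs n * ‖p.2‖ ^ 5 ∧ ‖q1 U' p - q1 U p‖ ≤ xs n ∧ ‖q2 U' p - q2 U p‖ ≤ xs n)
    (x₀ := U₀)
    (fun n U ⟨hAn, hPn⟩ => by
      have e1 : ρs (n + 1) = ρs n - 6 * (d₀ * q n) := by
        simp only [hρs, hqs]; ring
      have e2 : rs (n + 1) = rs n - 4 * (d₀ * q n) := by
        simp only [hrs, hqs]; ring
      have hqn := hq0 n
      have hqn1 := hq1 n
      have hrsn : r / 2 ≤ rs n := by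
        simp only [hrs, hd₀]
        nlinarith
      obtain ⟨U', h1, h2, h3⟩ := hstep (ρs n) (rs n) (d₀ * q n) (xs n) U
        (by simp only [hrs]; nlinarith) (by simp only [hrs]; nlinarith) (by positivity)
        (by
          have : d₀ * q n ≤ d₀ := by nlinarith
          rw [hd₀] at this ⊢
          linarith)
        (hxs0 n)
        (by
          have h5 : C₀ * xs n ≤ d₀ ^ 3 * (1 / 16 : ℝ) ^ n := by
            rw [hxs]
            have : 0 < (1 / 16 : ℝ) ^ n := by positivity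
            calc C₀ * (x * (1 / 16 : ℝ) ^ n) = (C₀ * x) * (1 / 16 : ℝ) ^ n := by ring
              _ ≤ d₀ ^ 3 * (1 / 16 : ℝ) ^ n := mul_le_mul_of_nonneg_right hCx this.le
          refine h5.trans ?_
          rw [mul_pow]
          refine mul_le_mul_of_nonneg_left ?_ (by positivity)
          rw [hq]
          simp only
          rw [← pow_mul, mul_comm n 3, pow_mul]
          exact pow_le_pow_left₀ (by norm_num) (by norm_num) n)
        hAn hPn
      refine ⟨U', ⟨?_, ?_⟩, ?_⟩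
      · rw [e1, e2, hxss]
        exact h1.slack (by have := hxs0 n; linarith)
      · rw [e1, e2, hxss]
        exact h2
      · rw [e1, e2]
        exact h3)
    (h0 := by
      have e1 : ρs 0 = ρ := by simp [hρs, hq]
      have e2 : rs 0 = r := by simp [hrs, hq]
      have e3 : xs 0 = x := by simp [hxs]
      rw [e1, e2, e3]
      exact ⟨hA₀, hP₀⟩)
  have hρsn : ∀ n, ρ / 2 ≤ ρs n := by
    intro n
    have hqn := hq0 n
    have hqn1 := hq1 n
    simp only [hρs, hd₀]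
    nlinarith
  have hrsn : ∀ n, r / 2 ≤ rs n := by
    intro n
    have hqn := hq0 n
    have hqn1 := hq1 n
    simp only [hrs, hd₀]
    nlinarith
  have hsub : ∀ n k, Dom k (ρ / 2) (r / 2) ⊆ Dom k (ρs n) (rs n) := fun n k =>
    Dom_mono le_rfl (hρsn n) (hrsn n)
  have hadm : ∀ n, Adm ρ₀ ε₀ (ρ / 2) (r / 2) (F n) := by
    intro n
    have h := (hF n).1.1.adm
    exact { ρ_pos := by linarith, ρ_le := by linarith [h₀.ρ_le], r_pos := by linarith,
            r_le := by linarith, r_le_ρ := by linarith, r_le_ε := by linarith [h₀.r_le_ε],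
            hU := h.hU.mono le_rfl (hρsn n) (hrsn n), U_bd := fun p hp => h.U_bd p (hsub n _ hp),
            Ut_bd := fun p hp => h.Ut_bd p (hsub n _ hp),
            Uw_bd := fun p hp => h.Uw_bd p (hsub n _ hp),
            re := fun p hp => h.re p (hsub n _ hp), par := fun p hp => h.par p (hsub n _ hp) }
  have hgeo : Summable (fun n : ℕ => (1 / 16 : ℝ) ^ n) :=
    summable_geometric_of_lt_one (by norm_num) (by norm_num)
  have hxsum : Summable xs := hgeo.mul_left x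
  have hxt : ∑' n, xs n ≤ 2 * x := by
    rw [hxs]
    simp only
    rw [tsum_mul_left, tsum_geometric_of_lt_one (by norm_num) (by norm_num)]
    norm_num
    linarith
  obtain ⟨U, hU, hE, hUd⟩ := limit_of_seq (F := F) (u := xs) (e := fun n => xs n ^ 20) hL hxsum
    (fun n => (hxs0 n).le)
    (by
      have h1 := hxsum.tendsto_atTop_zero.pow 20
      rw [zero_pow (by norm_num)] at h1
      exact h1)
    hadm (fun n p hp => (hF n).2 p (hsub (n + 1) _ hp)) (fun n p hp => (hF n).1.2 p (hsub n _ hp))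
  refine ⟨U, hU, hE, fun p hp => ?_⟩
  rw [← hF0]
  exact (hUd p hp).trans (mul_le_mul_of_nonneg_right hxt (by positivity))

end Iter

end Crest.Agent.R102.B821
end
end

-- ▼ part R102/LagC_821
section

/-!
Row 102, part (B) (helper821): sharper expansions of the Lagrangian near the diagonal
(for the formal start of the Newton scheme, B6).
-/

set_option autoImplicit false

open Set Filter Topology Metric Complex MeasureTheory
open scoped Real ContDiff ComplexConjugate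

noncomputable section

namespace Crest.Agent.R102.B821

open Crest.Agent.R266.SCV

variable {ρ₀ ε₀ : ℝ} {L Ψ : ℂ × ℂ → ℂ}

lemma IsLag.q1_formula (h : IsLag ρ₀ ε₀ L Ψ) {q : ℂ × ℂ} (hq : q ∈ Dg ρ₀ ε₀) :
    q1 L q = -3 * (q.2 - q.1) ^ 2 * Ψ q + (q.2 - q.1) ^ 3 * q1 Ψ q := by
  obtain ⟨a, b⟩ := q
  have hΨana : AnalyticOnNhd ℂ Ψ (Dg ρ₀ ε₀) :=
    analyticOnNhd_of_differentiableOn (isOpen_Dg ρ₀ ε₀) h.diff
  have hd := hasDerivAt_fst (h.dL _ hq)
  have hdΨ := hasDerivAt_fst (hΨana _ hq).differentiableAt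
  have h1 : HasDerivAt (fun s : ℂ => b - s) (-1) a := by
    simpa using (hasDerivAt_id a).const_sub b
  have h2 := (h1.pow 3).mul hdΨ
  have h3 : (fun s => L (s, b)) =ᶠ[𝓝 a] (fun s => (b - s) ^ 3 * Ψ (s, b)) := by
    have hcont : Continuous (fun s : ℂ => (s, b)) := by fun_prop
    filter_upwards [hcont.continuousAt.preimage_mem_nhds
      ((isOpen_Dg ρ₀ ε₀).mem_nhds hq)] with s hs
    exact h.eq _ _ hs
  have h4 := (hd.congr_of_eventuallyEq h3.symm).unique h2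
  rw [h4]
  simp only [Pi.pow_apply]
  push_cast
  ring

/-- `Ψ = 1/6 + O((y - x)^2)` -/
lemma IsLag.Psi_sq (h : IsLag ρ₀ ε₀ L Ψ) :
    ∃ K ε₁ : ℝ, 0 < K ∧ 0 < ε₁ ∧ ε₁ ≤ ε₀ ∧ ε₁ ≤ ρ₀ / 8 ∧
      ∀ x y : ℂ, (x, y) ∈ Dg (7 / 8 * ρ₀) ε₁ → ‖Ψ (x, y) - 1 / 6‖ ≤ K * ‖y - x‖ ^ 2 := by
  obtain ⟨K0, hK0⟩ := h.bdd
  have hρ := h.ρ_pos
  have hε := h.ε_pos
  set e₂ : ℝ := min (ρ₀ / 4) ε₀ with he₂
  have he0 : 0 < e₂ := lt_min (by positivity) hε
  have he1 : e₂ ≤ ρ₀ / 4 := min_le_left _ _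
  have he2 : e₂ ≤ ε₀ := min_le_right _ _
  have hKn : 0 ≤ K0 := by
    have hmem : ((0 : ℂ), (0 : ℂ)) ∈ Dg ρ₀ ε₀ := by
      refine ⟨by simpa using hρ, by simpa using hρ, by simpa using hε⟩
    exact (norm_nonneg _).trans (hK0 _ hmem)
  refine ⟨6 * K0 / e₂ ^ 2 + 1, e₂ / 2, by positivity, by positivity, by linarith, by linarith, ?_⟩
  intro x y hxy
  obtain ⟨hx, hy, hh⟩ := hxy
  simp only at hx hy hh
  by_cases h0 : y = x
  · subst h0
    have hmem : |y.im| < ρ₀ := by linarith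
    rw [h.diag y hmem]
    simp
  have hpos : 0 < ‖y - x‖ := norm_pos_iff.2 (sub_ne_zero.2 h0)
  set c : ℂ := (x + y) / 2 with hc
  set v : ℂ := y - x with hv
  have hcim : |c.im| < 7 / 8 * ρ₀ := by
    have : c.im = (x.im + y.im) / 2 := by
      rw [hc]
      have : ((x + y) / 2 : ℂ) = (((1 / 2 : ℝ)) : ℂ) * (x + y) := by push_cast; ring
      rw [this, Complex.im_ofReal_mul, Complex.add_im]
      ring
    rw [this, abs_div, abs_of_pos (by norm_num : (0 : ℝ) < 2)]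
    have := abs_add_le x.im y.im
    linarith
  set R : ℝ := e₂ / ‖v‖ with hR
  have hR2 : 2 ≤ R := by rw [hR, le_div_iff₀ hpos]; linarith
  have hmem : ∀ s ∈ ball (0 : ℂ) R, (c - s * v / 2, c + s * v / 2) ∈ Dg ρ₀ ε₀ := by
    intro s hs
    rw [mem_ball_zero_iff, hR, lt_div_iff₀ hpos] at hs
    have hn : ‖s * v / 2‖ < ρ₀ / 8 := by
      rw [norm_div, norm_mul]
      have : ‖(2 : ℂ)‖ = 2 := by simp
      rw [this]
      linarith
    have him := Complex.abs_im_le_norm (s * v / 2)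
    refine ⟨?_, ?_, ?_⟩
    · have := abs_sub c.im (s * v / 2).im
      simp only [Complex.sub_im]
      linarith
    · have := abs_add_le c.im (s * v / 2).im
      simp only [Complex.add_im]
      linarith
    · simp only
      have : c + s * v / 2 - (c - s * v / 2) = s * v := by ring
      rw [this, norm_mul]
      linarith
  set φ : ℂ → ℂ := fun s => Ψ (c - s * v / 2, c + s * v / 2) with hφ
  have hφd : DifferentiableOn ℂ φ (ball 0 R) := by
    refine h.diff.comp ?_ (fun s hs => hmem s hs)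
    fun_prop
  have h1 := taylor_one hR2 hφd (fun s hs => hK0 _ (hmem s hs))
  have hR0 : 0 < R := by linarith
  have heven : φ =ᶠ[𝓝 0] (fun s => φ (-s)) := by
    filter_upwards [ball_mem_nhds (0 : ℂ) hR0] with s hs
    have h2 := h.symm _ _ (hmem s hs)
    simp only [hφ]
    rw [← h2]
    congr 2 <;> ring
  have hder : deriv φ 0 = 0 := by
    have h2 := heven.deriv_eq
    have h3 : deriv (fun s => φ (-s)) 0 = - deriv φ (-0) := deriv_comp_neg φ 0
    rw [h3, neg_zero] at h2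
    have h4 : 2 * deriv φ 0 = 0 := by linear_combination h2
    have h5 : (2 : ℂ) ≠ 0 := two_ne_zero
    exact (mul_eq_zero.1 h4).resolve_left h5
  have e1 : φ 1 = Ψ (x, y) := by
    simp only [hφ]
    congr 2
    · rw [hc, hv]; ring
    · rw [hc, hv]; ring
  have e0 : φ 0 = 1 / 6 := by
    simp only [hφ]
    rw [zero_mul, zero_div, sub_zero, add_zero]
    exact h.diag c (by linarith)
  rw [e1, e0, hder, sub_zero] at h1
  refine h1.trans ?_
  have e3 : 6 * K0 / R ^ 2 = 6 * K0 / e₂ ^ 2 * ‖v‖ ^ 2 := by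
    rw [hR]
    field_simp
  rw [e3]
  have : 0 ≤ ‖v‖ ^ 2 := by positivity
  nlinarith

/-- expansions of the derivatives of `L` near the diagonal -/
theorem IsLag.exists_bounds2 (h : IsLag ρ₀ ε₀ L Ψ) :
    ∃ K ε₂ : ℝ, 0 < K ∧ 0 < ε₂ ∧ ε₂ ≤ ε₀ ∧ ε₂ ≤ ρ₀ / 8 ∧ ε₂ ≤ 1 ∧
      (∀ x y : ℂ, (x, y) ∈ Dg (13 / 16 * ρ₀) ε₂ → ‖q1 L (x, y) + (y - x) ^ 2 / 2‖ ≤ K * ‖y - x‖ ^ 4) ∧
      (∀ x y : ℂ, (x, y) ∈ Dg (13 / 16 * ρ₀) ε₂ → ‖q2 L (x, y) - (y - x) ^ 2 / 2‖ ≤ K * ‖y - x‖ ^ 4) ∧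
      (∀ x y : ℂ, (x, y) ∈ Dg (3 / 4 * ρ₀) ε₂ → x ≠ y →
        ‖q2 (q1 L) (x, y) + (y - x)‖ ≤ K * ‖y - x‖ ^ 3) := by
  obtain ⟨K, ε₁, hK, hε₁, hε₁0, hε₁1, hΨ⟩ := h.Psi_sq
  have hρ := h.ρ_pos
  have hsub0 : Dg (7 / 8 * ρ₀) ε₁ ⊆ Dg ρ₀ ε₀ := Dg_mono (by linarith) hε₁0
  set Nf : ℂ × ℂ → ℂ := fun p => L p - (p.2 - p.1) ^ 3 / 6 with hNf
  have hNb : ∀ p ∈ Dg (7 / 8 * ρ₀) ε₁, ‖Nf p‖ ≤ K * ‖p.2 - p.1‖ ^ 5 := by
    rintro ⟨x, y⟩ hp
    have e : Nf (x, y) = (y - x) ^ 3 * (Ψ (x, y) - 1 / 6) := by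
      simp only [hNf]
      rw [h.eq x y (hsub0 hp)]
      ring
    rw [e, norm_mul, norm_pow]
    calc ‖y - x‖ ^ 3 * ‖Ψ (x, y) - 1 / 6‖ ≤ ‖y - x‖ ^ 3 * (K * ‖y - x‖ ^ 2) :=
          mul_le_mul_of_nonneg_left (hΨ x y hp) (by positivity)
      _ = K * ‖y - x‖ ^ 5 := by ring
  have hNana : AnalyticOnNhd ℂ Nf (Dg ρ₀ ε₀) := by
    refine analyticOnNhd_of_differentiableOn (isOpen_Dg ρ₀ ε₀) ?_
    refine h.diffL.sub ?_
    fun_prop
  have hq1N : ∀ x y : ℂ, (x, y) ∈ Dg ρ₀ ε₀ → q1 Nf (x, y) = q1 L (x, y) + (y - x) ^ 2 / 2 := by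
    intro x y hp
    have h1 := hasDerivAt_fst (h.dL _ hp)
    have h2 : HasDerivAt (fun s : ℂ => y - s) (-1) x := by
      simpa using (hasDerivAt_id x).const_sub y
    have h3 := h1.sub ((h2.pow 3).div_const 6)
    have h4 := (hasDerivAt_fst (hNana _ hp).differentiableAt).unique h3
    rw [h4]
    push_cast
    ring
  -- a ball around an off-diagonal point
  have hball : ∀ (ρ₁ ε : ℝ) (x y : ℂ), (x, y) ∈ Dg ρ₁ ε → ε ≤ ρ₀ / 8 →
      ∀ q ∈ ball ((x, y) : ℂ × ℂ) (‖y - x‖ / 4), q ∈ Dg (ρ₁ + 1 / 16 * ρ₀) (3 / 2 * ε) ∧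
        ‖q.2 - q.1‖ ≤ 3 / 2 * ‖y - x‖ ∧ 1 / 2 * ‖y - x‖ ≤ ‖q.2 - q.1‖ := by
    intro ρ₁ ε x y hp hε q hq
    obtain ⟨hx, hy, hh⟩ := hp
    simp only at hx hy hh
    rw [mem_ball, dist_eq_norm] at hq
    have h1 : ‖q.1 - x‖ < ‖y - x‖ / 4 := (norm_fst_le (q - (x, y))).trans_lt hq
    have h2 : ‖q.2 - y‖ < ‖y - x‖ / 4 := (norm_snd_le (q - (x, y))).trans_lt hq
    have e : q.2 - q.1 = (q.2 - y) + (y - x) - (q.1 - x) := by ring
    have i1 := norm_sub_le ((q.2 - y) + (y - x)) (q.1 - x)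
    have i2 := norm_add_le (q.2 - y) (y - x)
    rw [← e] at i1
    have e' : y - x = (q.2 - q.1) - (q.2 - y) + (q.1 - x) := by ring
    have i3 := norm_add_le ((q.2 - q.1) - (q.2 - y)) (q.1 - x)
    have i4 := norm_sub_le (q.2 - q.1) (q.2 - y)
    rw [← e'] at i3
    refine ⟨⟨?_, ?_, ?_⟩, by linarith, by linarith⟩
    · have j1 := Complex.abs_im_le_norm (q.1 - x)
      rw [Complex.sub_im] at j1
      have j2 := abs_sub_abs_le_abs_sub q.1.im x.im
      linarith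
    · have j1 := Complex.abs_im_le_norm (q.2 - y)
      rw [Complex.sub_im] at j1
      have j2 := abs_sub_abs_le_abs_sub q.2.im y.im
      linarith
    · linarith
  have b1 : ∀ x y : ℂ, (x, y) ∈ Dg (13 / 16 * ρ₀) (2 / 3 * ε₁) →
      ‖q1 L (x, y) + (y - x) ^ 2 / 2‖ ≤ 31 * K * ‖y - x‖ ^ 4 := by
    intro x y hp
    have hp0 : (x, y) ∈ Dg ρ₀ ε₀ := Dg_mono (by linarith) (by linarith) hp
    by_cases h0 : y = x
    · subst h0
      rw [h.q1_formula hp0]
      simp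
    have hpos : 0 < ‖y - x‖ := norm_pos_iff.2 (sub_ne_zero.2 h0)
    rw [← hq1N x y hp0]
    have hb := hball _ _ x y hp (by linarith)
    have hsub : ball ((x, y) : ℂ × ℂ) (‖y - x‖ / 4) ⊆ Dg (7 / 8 * ρ₀) ε₁ := fun q hq =>
      Dg_mono (by linarith) (by linarith) (hb q hq).1
    refine (norm_q1_le _ _).trans ?_
    have h1 := norm_fderiv_le_of_ball (f := Nf) (x := (x, y)) (r := ‖y - x‖ / 4)
      (M := K * (3 / 2 * ‖y - x‖) ^ 5) (by positivity)
      (hNana.differentiableOn.mono (hsub.trans hsub0))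
      (fun q hq => (hNb q (hsub hq)).trans (by
        have := (hb q hq).2.1
        gcongr))
    refine h1.trans ?_
    have e : K * (3 / 2 * ‖y - x‖) ^ 5 / (‖y - x‖ / 4) = 243 / 8 * (K * ‖y - x‖ ^ 4) := by
      field_simp
      ring
    rw [e]
    have : 0 ≤ K * ‖y - x‖ ^ 4 := by positivity
    nlinarith
  refine ⟨700 * K, min (4 / 9 * ε₁) 1, by positivity, lt_min (by positivity) one_pos,
    (min_le_left _ _).trans (by linarith), (min_le_left _ _).trans (by linarith),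
    min_le_right _ _, ?_, ?_, ?_⟩
  · intro x y hp
    refine (b1 x y (Dg_mono le_rfl ((min_le_left _ _).trans (by linarith)) hp)).trans ?_
    have : 0 ≤ K * ‖y - x‖ ^ 4 := by positivity
    nlinarith
  · intro x y hp
    have hp1 : (x, y) ∈ Dg (13 / 16 * ρ₀) (2 / 3 * ε₁) :=
      Dg_mono le_rfl ((min_le_left _ _).trans (by linarith)) hp
    have hp2 : (y, x) ∈ Dg (13 / 16 * ρ₀) (2 / 3 * ε₁) := Dg_swap.2 hp1
    have hp0 : (y, x) ∈ Dg ρ₀ ε₀ := Dg_mono (by linarith) (by linarith) hp2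
    have h1 := b1 y x hp2
    have h2 := h.q2_swap hp0
    have e : q2 L (x, y) - (y - x) ^ 2 / 2 = - (q1 L (y, x) + (x - y) ^ 2 / 2) := by
      rw [h2]; ring
    rw [e, norm_neg]
    refine h1.trans ?_
    rw [norm_sub_rev x y]
    have : 0 ≤ K * ‖y - x‖ ^ 4 := by positivity
    nlinarith
  · intro x y hp hxy
    have hpos : 0 < ‖y - x‖ := norm_pos_iff.2 (sub_ne_zero.2 (Ne.symm hxy))
    have hp1 : (x, y) ∈ Dg (3 / 4 * ρ₀) (4 / 9 * ε₁) := Dg_mono le_rfl (min_le_left _ _) hp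
    have hp0 : (x, y) ∈ Dg ρ₀ ε₀ := Dg_mono (by linarith) (by linarith) hp1
    have hb := hball _ _ x y hp1 (by linarith)
    have hsub : ball ((x, y) : ℂ × ℂ) (‖y - x‖ / 4) ⊆ Dg (13 / 16 * ρ₀) (2 / 3 * ε₁) := fun q hq =>
      Dg_mono (by linarith) (by linarith) (hb q hq).1
    have hsub1 : Dg (13 / 16 * ρ₀) (2 / 3 * ε₁) ⊆ Dg ρ₀ ε₀ := Dg_mono (by linarith) (by linarith)
    have hq12 : q2 (q1 L) (x, y) + (y - x) = q2 (q1 Nf) (x, y) := by
      have h1 := hasDerivAt_snd (ana_q1 h.anaL _ hp0).differentiableAt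
      have h2 : HasDerivAt (fun s : ℂ => s - x) 1 y := (hasDerivAt_id y).sub_const x
      have h3 := h1.add ((h2.pow 2).div_const 2)
      have h4 : (fun s => q1 Nf (x, s)) =ᶠ[𝓝 y] (fun s => q1 L (x, s) + (s - x) ^ 2 / 2) := by
        have hcont : Continuous (fun s : ℂ => (x, s)) := by fun_prop
        filter_upwards [hcont.continuousAt.preimage_mem_nhds
          ((isOpen_Dg ρ₀ ε₀).mem_nhds hp0)] with s hs
        exact hq1N x s hs
      have h5 := (hasDerivAt_snd (ana_q1 hNana _ hp0).differentiableAt).unique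
        (h3.congr_of_eventuallyEq h4)
      rw [h5]
      push_cast
      ring
    rw [hq12]
    refine (norm_q2_le _ _).trans ?_
    have h1 := norm_fderiv_le_of_ball (f := q1 Nf) (x := (x, y)) (r := ‖y - x‖ / 4)
      (M := 31 * K * (3 / 2 * ‖y - x‖) ^ 4) (by positivity)
      ((ana_q1 hNana).differentiableOn.mono (hsub.trans hsub1))
      (fun q hq => by
        rw [show q = (q.1, q.2) from rfl, hq1N q.1 q.2 (hsub1 (hsub hq))]
        refine (b1 q.1 q.2 (hsub hq)).trans ?_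
        have := (hb q hq).2.1
        gcongr)
    refine h1.trans ?_
    have e : 31 * K * (3 / 2 * ‖y - x‖) ^ 4 / (‖y - x‖ / 4) = 2511 / 4 * (K * ‖y - x‖ ^ 3) := by
      field_simp
      ring
    rw [e]
    have : 0 ≤ K * ‖y - x‖ ^ 3 := by positivity
    nlinarith

end Crest.Agent.R102.B821
end
end

-- ▼ part R102/Form_821
section

/-!
Row 102, part (B) (helper821): tools for the formal start (B6).
-/

set_option autoImplicit false

open Set Filter Topology Metric Complex MeasureTheory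
open scoped Real ContDiff ComplexConjugate

noncomputable section

namespace Crest.Agent.R102.B821

open Crest.Agent.R266.SCV

variable {ρ₀ ε₀ k ρ r d A : ℝ} {L Ψ U f g : ℂ × ℂ → ℂ} {M : ℕ}

section Tools

lemma mem_Dom_add_int (n : ℤ) {t w : ℂ} : (t + n, w) ∈ Dom k ρ r ↔ (t, w) ∈ Dom k ρ r := by
  simp [mem_Dom]

lemma IsH.per_nat (hf : IsH k ρ r f) {t w : ℂ} (hp : (t, w) ∈ Dom k ρ r) (n : ℕ) :
    f (t + n, w) = f (t, w) := by
  induction n with
  | zero => simp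
  | succ n ih =>
    have h1 : (t + n, w) ∈ Dom k ρ r := by
      have := (mem_Dom_add_int (k := k) (ρ := ρ) (r := r) (n : ℤ) (t := t) (w := w)).2 hp
      simpa using this
    have h2 := hf.per _ _ h1
    rw [← ih, ← h2]
    congr 2
    push_cast
    ring

lemma IsH.per_int (hf : IsH k ρ r f) {t w : ℂ} (hp : (t, w) ∈ Dom k ρ r) (n : ℤ) :
    f (t + n, w) = f (t, w) := by
  obtain ⟨m, rfl | rfl⟩ := n.eq_nat_or_neg
  · have := hf.per_nat hp m
    simpa using this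
  · have h1 : (t + ((-(m : ℤ) : ℤ) : ℂ), w) ∈ Dom k ρ r := (mem_Dom_add_int _).2 hp
    have h2 := hf.per_nat h1 m
    rw [← h2]
    congr 2
    push_cast
    ring

/-- functions in `H_k` are bounded on smaller domains -/
lemma IsH.exists_bdd (hf : IsH k ρ r f) {ρ' r' : ℝ} (hρ : ρ' < ρ) (hr : r' < r) :
    ∃ A, 0 ≤ A ∧ Bdd k ρ' r' 0 A f := by
  set S : Set (ℂ × ℂ) := {p | p.1.re ∈ Icc (0 : ℝ) 1 ∧ |p.1.im| + k * |p.2.im| ≤ ρ' ∧ ‖p.2‖ ≤ r' ∧
    |p.1.im| ≤ ρ' + |k| * |r'|} with hS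
  have hclosed : IsClosed S := by
    have h1 : IsClosed {p : ℂ × ℂ | p.1.re ∈ Icc (0 : ℝ) 1} :=
      isClosed_Icc.preimage (by fun_prop)
    have h2 : IsClosed {p : ℂ × ℂ | |p.1.im| + k * |p.2.im| ≤ ρ'} :=
      isClosed_le (by fun_prop) continuous_const
    have h3 : IsClosed {p : ℂ × ℂ | ‖p.2‖ ≤ r'} := isClosed_le (by fun_prop) continuous_const
    have h4 : IsClosed {p : ℂ × ℂ | |p.1.im| ≤ ρ' + |k| * |r'|} :=
      isClosed_le (by fun_prop) continuous_const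
    exact h1.inter (h2.inter (h3.inter h4))
  have hbdd : Bornology.IsBounded S := by
    refine (isBounded_closedBall (x := ((0 : ℂ), (0 : ℂ)))
      (r := 1 + (|ρ'| + |k| * |r'|) + |r'|)).subset ?_
    rintro ⟨t, w⟩ ⟨h1, h2, h3, h4⟩
    simp only at h1 h2 h3 h4
    rw [mem_closedBall, Prod.dist_eq]
    simp only [dist_zero_right]
    have i1 : ‖t‖ ≤ |t.re| + |t.im| := Complex.norm_le_abs_re_add_abs_im t
    have i2 : |t.re| ≤ 1 := abs_le.2 ⟨by linarith [h1.1], h1.2⟩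
    have i3 := le_abs_self ρ'
    have i4 := le_abs_self r'
    have i5 : 0 ≤ |k| * |r'| := by positivity
    have i6 := abs_nonneg ρ'
    have i7 := abs_nonneg r'
    refine max_le ?_ ?_
    · linarith
    · linarith
  have hcomp : IsCompact S := Metric.isCompact_of_isClosed_isBounded hclosed hbdd
  have hsub : S ⊆ Dom k ρ r := fun p hp => ⟨by have := hp.2.1; linarith, by have := hp.2.2.1; linarith⟩
  obtain ⟨A, hA⟩ := hcomp.exists_bound_of_continuousOn (hf.continuousOn.mono hsub)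
  refine ⟨max A 0, le_max_right _ _, ?_⟩
  rintro ⟨t, w⟩ hp
  have hp0 : (t, w) ∈ Dom k ρ r := Dom_mono le_rfl hρ.le hr.le hp
  have h1 := hf.per_int hp0 (-⌊t.re⌋)
  rw [← h1, pow_zero, mul_one]
  refine (hA _ ?_).trans (le_max_left _ _)
  have hp1 := hp.1
  have hp2 : ‖w‖ < r' := hp.2
  simp only at hp1
  have e1 : (t + ((-⌊t.re⌋ : ℤ) : ℂ)).re = t.re - ⌊t.re⌋ := by
    simp only [Int.cast_neg, Complex.add_re, Complex.neg_re, Complex.intCast_re]
    ring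
  have e2 : (t + ((-⌊t.re⌋ : ℤ) : ℂ)).im = t.im := by
    simp only [Int.cast_neg, Complex.add_im, Complex.neg_im, Complex.intCast_im]
    ring
  refine ⟨?_, ?_, ?_, ?_⟩
  · simp only
    rw [e1]
    exact ⟨by have := Int.floor_le t.re; linarith, by have := Int.lt_floor_add_one t.re; linarith⟩
  · simp only
    rw [e2]
    exact hp1.le
  · exact hp2.le
  · simp only
    rw [e2]
    have j1 : |w.im| ≤ r' := (Complex.abs_im_le_norm w).trans hp2.le
    have j2 : -(|k| * |r'|) ≤ k * |w.im| := by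
      have j3 : |(k * |w.im|)| ≤ |k| * |r'| := by
        rw [abs_mul, abs_abs]
        exact mul_le_mul_of_nonneg_left (j1.trans (le_abs_self _)) (abs_nonneg _)
      exact (abs_le.1 j3).1
    linarith

/-- vanishing at `w = 0` gains one power of `w` -/
lemma IsH.gain_one (hk : 0 ≤ k) (hf : IsH k ρ r f) (h0 : ∀ t : ℂ, (t, 0) ∈ Dom k ρ r → f (t, 0) = 0)
    {ρ' r' : ℝ} (hρ : ρ' < ρ) (hr : r' < r) : ∃ A, 0 ≤ A ∧ Bdd k ρ' r' 1 A f := by
  obtain ⟨g, hg, hfg⟩ := hf.exists_div_w hk h0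
  obtain ⟨A, hA, hb⟩ := hg.exists_bdd hρ hr
  refine ⟨A, hA, ?_⟩
  rintro ⟨t, w⟩ hp
  rw [hfg t w (Dom_mono le_rfl hρ.le hr.le hp), norm_mul, pow_one, mul_comm]
  have := hb _ hp
  rw [pow_zero, mul_one] at this
  exact mul_le_mul_of_nonneg_right this (norm_nonneg _)

lemma IsPar.of_pow_w (hk : 0 ≤ k) {s : ℂ} (hg : IsH k ρ r g) (l : ℕ)
    (h : IsPar k ρ r s (fun p => p.2 ^ (2 * l) * g p)) : IsPar k ρ r s g := by
  have h1 := (hg.rf.sub ((IsH.const s).mul hg)).eq_zero_of_ne hk (fun t w hp hw => by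
    have h2 := h _ hp
    unfold rf at h2
    simp only at h2
    have e : (-w) ^ (2 * l) = w ^ (2 * l) := by rw [pow_mul, neg_sq, ← pow_mul]
    rw [e] at h2
    have h3 : w ^ (2 * l) * (g (t, -w)) = w ^ (2 * l) * (s * g (t, w)) := by linear_combination h2
    have h4 := mul_left_cancel₀ (pow_ne_zero _ hw) h3
    unfold rf
    simp only
    rw [h4, sub_self])
  intro p hp
  exact sub_eq_zero.1 (h1 p hp)

lemma IsRe.of_pow_w (hk : 0 ≤ k) (hg : IsH k ρ r g) (l : ℕ)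
    (h : IsRe k ρ r (fun p => p.2 ^ l * g p)) : IsRe k ρ r g := by
  have h1 := (hg.cj.sub hg).eq_zero_of_ne hk (fun t w hp hw => by
    have h2 := h _ hp
    unfold cj at h2
    simp only [map_mul, map_pow, Complex.conj_conj] at h2
    have h3 := mul_left_cancel₀ (pow_ne_zero _ hw) h2
    unfold cj
    rw [h3, sub_self])
  intro p hp
  exact sub_eq_zero.1 (h1 p hp)

/-- an odd function of even order has one order more -/
lemma IsH.gain_par (hk : 0 ≤ k) (hf : IsH k ρ r f) (hpar : IsPar k ρ r (-1) f) (l : ℕ)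
    (hb : Bdd k ρ r (2 * l) A f) {ρ' r' : ℝ} (hρ : ρ' < ρ) (hr : r' < r) :
    ∃ A', 0 ≤ A' ∧ Bdd k ρ' r' (2 * l + 1) A' f := by
  obtain ⟨g, hg, -, hfg⟩ := hf.exists_div_pow hk (2 * l) hb
  have hgpar : IsPar k ρ r (-1) g := by
    refine IsPar.of_pow_w hk hg l (hpar.congr (fun p hp => (hfg p.1 p.2 hp).symm))
  have h0 : ∀ t : ℂ, (t, 0) ∈ Dom k ρ r → g (t, 0) = 0 := by
    intro t ht
    have h1 := hgpar _ ht
    have h3 : B821.rf g (t, 0) = g (t, 0) := by unfold B821.rf; simp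
    rw [h3] at h1
    have h2 : 2 * g (t, 0) = 0 := by linear_combination h1
    exact (mul_eq_zero.1 h2).resolve_left two_ne_zero
  obtain ⟨A', hA', hb'⟩ := hg.gain_one hk h0 hρ hr
  refine ⟨A', hA', ?_⟩
  rintro ⟨t, w⟩ hp
  rw [hfg t w (Dom_mono le_rfl hρ.le hr.le hp), norm_mul, norm_pow, pow_succ]
  have := hb' _ hp
  rw [pow_one] at this
  calc ‖w‖ ^ (2 * l) * ‖g (t, w)‖ ≤ ‖w‖ ^ (2 * l) * (A' * ‖w‖) :=
        mul_le_mul_of_nonneg_left this (by positivity)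
    _ = _ := by ring

/-- `del f / w` and its value at `w = 0` -/
lemma IsH.exists_del_div (hk : 0 ≤ k) (hf : IsH k ρ r f) :
    ∃ g, IsH (k + 1 / 2) ρ r g ∧ (∀ t w : ℂ, (t, w) ∈ Dom (k + 1 / 2) ρ r → B821.del f (t, w) = w * g (t, w)) ∧
      ∀ t : ℂ, (t, 0) ∈ Dom (k + 1 / 2) ρ r → g (t, 0) = B821.q1 f (t, 0) := by
  obtain ⟨g, hg, hfg⟩ := hf.del.exists_div_w (by linarith) (fun t _ => by rw [del_apply]; simp)
  refine ⟨g, hg, hfg, fun t ht => ?_⟩
  have h1 := q2_del hf ht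
  have h2 : B821.del (B821.q2 f) (t, 0) = 0 := by rw [del_apply]; simp
  have h3 : B821.tr (1 / 2) (B821.q1 f) (t, 0) = B821.q1 f (t, 0) := by unfold B821.tr; simp
  have h4 : B821.tr (-(1 / 2)) (B821.q1 f) (t, 0) = B821.q1 f (t, 0) := by unfold B821.tr; simp
  rw [h2, h3, h4] at h1
  have h5 := hasDerivAt_snd (hf.del.differentiableAt ht)
  have h6 := (hasDerivAt_id (0 : ℂ)).mul (hasDerivAt_snd (hg.differentiableAt ht))
  have h7 : (fun s => B821.del f (t, s)) =ᶠ[𝓝 0] (fun s => id s * g (t, s)) := by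
    have hcont : Continuous (fun s : ℂ => (t, s)) := by fun_prop
    filter_upwards [hcont.continuousAt.preimage_mem_nhds
      ((isOpen_Dom (k + 1 / 2) ρ r).mem_nhds ht)] with s hs
    exact hfg t s hs
  have h8 := (h5.congr_of_eventuallyEq h7.symm).unique h6
  rw [h8] at h1
  simp only [id_eq, one_mul, zero_mul, add_zero] at h1
  rw [h1]
  ring

end Tools

section Primitive

/-- periodic solution of `V'' = p` -/
theorem exists_second_primitive {p : ℂ × ℂ → ℂ} (hp : IsH 0 ρ r p) (hpw : ∀ t w, p (t, w) = p (t, 0))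
    (hre : IsRe 0 ρ r p) (hmean : fc p 0 0 = 0) (hr : 0 < r) {ρ' r' : ℝ} (hρ' : 0 < ρ')
    (hρ : ρ' < ρ) (hrr : r' < r) (hr' : 0 < r') :
    ∃ V : ℂ × ℂ → ℂ, IsH 0 ρ' r' V ∧ (∀ t w, V (t, w) = V (t, 0)) ∧ IsRe 0 ρ' r' V ∧
      ∀ t w : ℂ, (t, w) ∈ Dom 0 ρ' r' → q1 (q1 V) (t, w) = p (t, w) := by
  -- intermediate radii
  set ρa : ℝ := (ρ + ρ') / 2 with hρa
  set ra : ℝ := (r + r') / 2 with hra
  set ρb : ℝ := (ρa + ρ') / 2 with hρb
  have i1 : ρ' < ρb := by rw [hρb, hρa]; linarith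
  have i2 : ρb < ρa := by rw [hρb, hρa]; linarith
  have i3 : ρa < ρ := by rw [hρa]; linarith
  have i4 : r' < ra := by rw [hra]; linarith
  have i5 : ra < r := by rw [hra]; linarith
  obtain ⟨A, hA, hb⟩ := hp.exists_bdd i3 i5
  have hpa : IsH 0 ρa ra p := hp.mono le_rfl i3.le i5.le
  set a : ℤ → ℂ → ℂ := fun n _ => if n = 0 then 0 else fc p n 0 / (2 * π * I * n) ^ 2 with ha
  set δ : ℝ := ρa - ρb with hδ
  have hδ0 : 0 < δ := by rw [hδ]; linarith
  set u : ℤ → ℝ := fun n => A * Real.exp (-(2 * π * δ * |(n : ℝ)|)) with hu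
  have hu0 : ∀ n, 0 ≤ u n := fun n => by rw [hu]; positivity
  have hus : Summable u := (summable_exp_abs (by positivity)).mul_left A
  have had : ∀ n, DifferentiableOn ℂ (a n) (ball 0 ra) := fun n => differentiableOn_const _
  have hab : ∀ n, ∀ w : ℂ, ‖w‖ < ra → ‖a n w‖ ≤ u n * ‖w‖ ^ 0 *
      Real.exp (-(2 * π * |(n : ℝ)| * (ρb - 0 * |w.im|))) := by
    intro n w _
    rw [pow_zero, mul_one, zero_mul, sub_zero]
    by_cases hn : n = 0
    · simp only [ha, hn, if_true, norm_zero]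
      have := hu0 0
      positivity
    · simp only [ha, hn, if_false]
      have h1 : ‖fc p n 0‖ ≤ A * Real.exp (-(2 * π * |(n : ℝ)| * ρa)) := by
        have := norm_fc_le hpa hb n (w := 0) (by simp; linarith) (by simp; linarith)
        simpa using this
      have hn1 : 1 ≤ |(n : ℝ)| := by
        have : 1 ≤ |n| := Int.one_le_abs hn
        exact_mod_cast this
      have hnn : ‖(2 * π * I * n : ℂ)‖ = 2 * π * |(n : ℝ)| := by
        rw [norm_mul, norm_mul, norm_mul, Complex.norm_I, Complex.norm_ofNat, Complex.norm_real,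
          Real.norm_eq_abs, abs_of_pos Real.pi_pos, Complex.norm_intCast, mul_one]
      have hπ := Real.pi_gt_three
      have h2 : 1 ≤ (2 * π * |(n : ℝ)|) ^ 2 := by
        have : 1 ≤ 2 * π * |(n : ℝ)| := by nlinarith
        exact one_le_pow₀ this
      rw [norm_div, norm_pow, hnn]
      have h3 : ‖fc p n 0‖ / (2 * π * |(n : ℝ)|) ^ 2 ≤ ‖fc p n 0‖ :=
        div_le_self (norm_nonneg _) h2
      refine (h3.trans h1).trans (le_of_eq ?_)
      simp only [hu]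
      rw [mul_assoc A, ← Real.exp_add]
      congr 2
      rw [hδ]
      ring
  set V : ℂ × ℂ → ℂ := syn a with hV
  have hVH : IsH 0 ρb ra V := isH_syn had hab hu0 hus
  have hVw : ∀ t w, V (t, w) = V (t, 0) := fun t w => rfl
  have hVfc : ∀ n, ∀ w : ℂ, ‖w‖ < ra → fc V n w = a n w := fun n w hw =>
    fc_syn hab hu0 hus n hw (by rw [zero_mul]; linarith)
  have hpfc : ∀ (n : ℤ) (w : ℂ), fc p n w = fc p n 0 := fun n w => by
    unfold fc
    simp only [hpw _ w]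
  refine ⟨V, hVH.mono le_rfl i1.le i4.le, hVw, ?_, ?_⟩
  · -- reality
    have hF : IsH 0 ρb ra (fun q => cj V q - V q) := hVH.cj.sub hVH
    obtain ⟨A', -, hA'⟩ := hF.exists_bdd i1 i4
    rintro ⟨t, w⟩ hq
    have hw : ‖w‖ < ra := by have := hq.2; simp only at this; linarith
    have h1 := eq_zero_of_fc (hF.mono le_rfl i1.le i4.le) hA' hq (fun n => by
      rw [fc_sub hVH.cj hVH n hw (by rw [zero_mul]; linarith), fc_cj, hVfc _ _ (by
        rw [Complex.norm_conj]; exact hw), hVfc _ _ hw]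
      by_cases hn : n = 0
      · simp [ha, hn]
      · simp only [ha, neg_eq_zero, hn, if_false]
        have h2 : fc p n 0 = conj (fc p (-n) 0) := by
          have h3 : fc (cj p) n 0 = fc p n 0 :=
            fc_congr (fun x => hre _ (real_mem_Dom.2 ⟨by simp; linarith, by simp; exact hr⟩)) n
          rw [← h3, fc_cj]
          simp
        rw [map_div₀, ← h2]
        have e : conj ((2 * π * I * ((-n : ℤ) : ℂ)) ^ 2) = (2 * π * I * n) ^ 2 := by
          simp only [map_pow, map_mul, Complex.conj_I, Complex.conj_ofReal, Int.cast_neg, map_neg,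
            Complex.conj_ofNat, map_intCast]
          ring
        rw [e, sub_self])
    exact sub_eq_zero.1 h1
  · intro t w hq
    have hVq := hVH.q1.q1
    have hpb : IsH 0 ρb ra p := hp.mono le_rfl (by linarith) i5.le
    have hF : IsH 0 ρb ra (fun q => q1 (q1 V) q - p q) := hVq.sub hpb
    obtain ⟨A', -, hA'⟩ := hF.exists_bdd i1 i4
    have hw : ‖w‖ < ra := by have := hq.2; simp only at this; linarith
    have h1 := eq_zero_of_fc (hF.mono le_rfl i1.le i4.le) hA' hq (fun n => by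
      have hk0 : 0 * |w.im| < ρb := by rw [zero_mul]; linarith
      rw [fc_sub hVq hpb n hw hk0, fc_q1 hVH.q1 n hw hk0, fc_q1 hVH n hw hk0, hVfc n w hw, hpfc n w]
      by_cases hn : n = 0
      · simp [ha, hn, hmean]
      · simp only [ha, hn, if_false]
        have hnC : (n : ℂ) ≠ 0 := by exact_mod_cast hn
        have hπ : (π : ℂ) ≠ 0 := pi_ne
        have hI := Complex.I_ne_zero
        field_simp
        ring)
    exact sub_eq_zero.1 h1

end Primitive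

end Crest.Agent.R102.B821
end
end

-- ▼ part R102/Start_821

/-!
Row 102, part (B) (helper821): the formal start of the Newton scheme (B6).
-/

set_option autoImplicit false

open Set Filter Topology Metric Complex MeasureTheory
open scoped Real ContDiff ComplexConjugate

noncomputable section

namespace Crest.Agent.R102.B821

open Crest.Agent.R266.SCV

variable {ρ₀ ε₀ k ρ r d A B : ℝ} {L Ψ U f g : ℂ × ℂ → ℂ} {M : ℕ}

section Quad

/-- quadratic remainder of the Euler-Lagrange function with the gain `W^2` -/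
lemma EL_quad (hL : IsLag ρ₀ ε₀ L Ψ) {K ε₂ δ : ℝ} (hK : 0 < K) (hε₀ : ε₂ ≤ ε₀)
    (hε1 : ε₂ ≤ 1) (hδ : δ = min (ρ₀ / 32) 1)
    (hb1 : ∀ x y : ℂ, (x, y) ∈ Dg (13 / 16 * ρ₀) ε₂ → ‖q1 L (x, y) + (y - x) ^ 2 / 2‖ ≤ K * ‖y - x‖ ^ 4)
    (hb2 : ∀ x y : ℂ, (x, y) ∈ Dg (13 / 16 * ρ₀) ε₂ → ‖q2 L (x, y) - (y - x) ^ 2 / 2‖ ≤ K * ‖y - x‖ ^ 4)
    {x y z x' y' z' : ℂ} {W μ : ℝ} (hW : 0 < W) (hWε : 8 * W ≤ ε₂)
    (hx : |x.im| < 3 / 4 * ρ₀) (hy : |y.im| < 3 / 4 * ρ₀) (hz : |z.im| < 3 / 4 * ρ₀)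
    (hxy : ‖y - x‖ ≤ 2 * W) (hyz : ‖z - y‖ ≤ 2 * W)
    (hx' : ‖x'‖ ≤ μ) (hy' : ‖y'‖ ≤ μ) (hz' : ‖z'‖ ≤ μ)
    (hxy' : ‖y' - x'‖ ≤ 2 * W * μ) (hyz' : ‖z' - y'‖ ≤ 2 * W * μ) (hμ : 2 * μ ≤ δ) :
    ‖EL L (x + x') (y + y') (z + z') - EL L x y z - dEL L x y z x' y' z'‖ ≤
      192 * (K + 1) / δ ^ 2 * (W ^ 2 * μ ^ 2) := by
  have hρ := hL.ρ_pos
  have hμ0 : 0 ≤ μ := (norm_nonneg _).trans hx'
  have hδ0 : 0 < δ := by rw [hδ]; exact lt_min (by positivity) one_pos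
  have hδ1 : δ ≤ ρ₀ / 32 := by rw [hδ]; exact min_le_left _ _
  have hδ2 : δ ≤ 1 := by rw [hδ]; exact min_le_right _ _
  rcases eq_or_lt_of_le hμ0 with hμz | hμp
  · rw [← hμz] at hx' hy' hz'
    have e1 := norm_le_zero_iff.1 hx'
    have e2 := norm_le_zero_iff.1 hy'
    have e3 := norm_le_zero_iff.1 hz'
    rw [e1, e2, e3, ← hμz]
    simp [dEL]
  set R : ℝ := δ / μ with hR
  have hR2 : 2 ≤ R := by rw [hR, le_div_iff₀ hμp]; exact hμ
  have hstep : ∀ (a b a' b' s : ℂ), s ∈ ball (0 : ℂ) R → |a.im| < 3 / 4 * ρ₀ → |b.im| < 3 / 4 * ρ₀ →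
      ‖b - a‖ ≤ 2 * W → ‖a'‖ ≤ μ → ‖b'‖ ≤ μ → ‖b' - a'‖ ≤ 2 * W * μ →
      (a + s * a', b + s * b') ∈ Dg (13 / 16 * ρ₀) ε₂ ∧ ‖(b + s * b') - (a + s * a')‖ ≤ 4 * W := by
    intro a b a' b' s hs ha hb hab ha' hb' hab'
    rw [mem_ball_zero_iff, hR, lt_div_iff₀ hμp] at hs
    have i1 : ‖s * a'‖ < δ := by
      rw [norm_mul]
      exact (mul_le_mul_of_nonneg_left ha' (norm_nonneg _)).trans_lt hs
    have i2 : ‖s * b'‖ < δ := by
      rw [norm_mul]
      exact (mul_le_mul_of_nonneg_left hb' (norm_nonneg _)).trans_lt hs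
    have i3 : ‖(b + s * b') - (a + s * a')‖ ≤ 4 * W := by
      have e : (b + s * b') - (a + s * a') = (b - a) + s * (b' - a') := by ring
      rw [e]
      refine (norm_add_le _ _).trans ?_
      have : ‖s * (b' - a')‖ ≤ 2 * W := by
        rw [norm_mul]
        calc ‖s‖ * ‖b' - a'‖ ≤ ‖s‖ * (2 * W * μ) := mul_le_mul_of_nonneg_left hab' (norm_nonneg _)
          _ = 2 * W * (‖s‖ * μ) := by ring
          _ ≤ 2 * W * 1 := mul_le_mul_of_nonneg_left (hs.le.trans hδ2) (by positivity)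
          _ = 2 * W := mul_one _
      linarith
    refine ⟨⟨?_, ?_, ?_⟩, i3⟩
    · have j1 := Complex.abs_im_le_norm (s * a')
      have j2 := abs_add_le a.im (s * a').im
      simp only [Complex.add_im]
      linarith
    · have j1 := Complex.abs_im_le_norm (s * b')
      have j2 := abs_add_le b.im (s * b').im
      simp only [Complex.add_im]
      linarith
    · simp only
      linarith
  have hsq : ∀ p : ℂ × ℂ, p ∈ Dg (13 / 16 * ρ₀) ε₂ → ‖p.2 - p.1‖ ≤ 4 * W →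
      ‖q1 L p‖ ≤ 16 * (K + 1) * W ^ 2 ∧ ‖q2 L p‖ ≤ 16 * (K + 1) * W ^ 2 := by
    intro p hp hn
    obtain ⟨a, b⟩ := p
    simp only at hn
    have h1 := hb1 a b hp
    have h2 := hb2 a b hp
    have h3 : ‖b - a‖ < ε₂ := hp.2.2
    set D := ‖b - a‖ with hD
    have hD0 : 0 ≤ D := norm_nonneg _
    have e1 : ‖(b - a) ^ 2 / 2‖ = D ^ 2 / 2 := by
      rw [norm_div, norm_pow]
      have : ‖(2 : ℂ)‖ = 2 := by simp
      rw [this]
    have hD4 : K * D ^ 4 ≤ K * D ^ 2 := by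
      refine mul_le_mul_of_nonneg_left ?_ hK.le
      exact pow_le_pow_of_le_one hD0 (by linarith) (by norm_num)
    have hDW : D ^ 2 ≤ 16 * W ^ 2 := by
      calc D ^ 2 ≤ (4 * W) ^ 2 := pow_le_pow_left₀ hD0 hn 2
        _ = 16 * W ^ 2 := by ring
    have hfin : K * D ^ 4 + D ^ 2 / 2 ≤ 16 * (K + 1) * W ^ 2 := by
      have : (K + 1) * D ^ 2 ≤ (K + 1) * (16 * W ^ 2) :=
        mul_le_mul_of_nonneg_left hDW (by positivity)
      nlinarith [sq_nonneg D]
    constructor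
    · have i1 := norm_sub_le (q1 L (a, b) + (b - a) ^ 2 / 2) ((b - a) ^ 2 / 2)
      rw [add_sub_cancel_right, e1] at i1
      linarith
    · have i1 := norm_add_le (q2 L (a, b) - (b - a) ^ 2 / 2) ((b - a) ^ 2 / 2)
      rw [sub_add_cancel, e1] at i1
      linarith
  have hDgsub : Dg (13 / 16 * ρ₀) ε₂ ⊆ Dg ρ₀ ε₀ := Dg_mono (by linarith) hε₀
  set φ : ℂ → ℂ := fun s => EL L (x + s * x') (y + s * y') (z + s * z') with hφ
  have hlin : ∀ a a' s : ℂ, HasDerivAt (fun s : ℂ => a + s * a') a' s := by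
    intro a a' s
    simpa using ((hasDerivAt_id s).mul_const a').const_add a
  have hφd : ∀ s ∈ ball (0 : ℂ) R, HasDerivAt φ
      (dEL L (x + s * x') (y + s * y') (z + s * z') x' y' z') s := by
    intro s hs
    exact hL.hasDerivAt_EL (x := fun s => x + s * x') (y := fun s => y + s * y')
      (z := fun s => z + s * z')
      (hDgsub (hstep x y x' y' s hs hx hy hxy hx' hy' hxy').1)
      (hDgsub (hstep y z y' z' s hs hy hz hyz hy' hz' hyz').1) (hlin _ _ _) (hlin _ _ _) (hlin _ _ _)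
  have hφb : ∀ s ∈ ball (0 : ℂ) R, ‖φ s‖ ≤ 32 * (K + 1) * W ^ 2 := by
    intro s hs
    have h1 := hstep x y x' y' s hs hx hy hxy hx' hy' hxy'
    have h2 := hstep y z y' z' s hs hy hz hyz hy' hz' hyz'
    have h3 := (hsq _ h1.1 h1.2).2
    have h4 := (hsq _ h2.1 h2.2).1
    refine (norm_add_le _ _).trans ?_
    linarith
  have h1 := taylor_one hR2 (fun s hs => (hφd s hs).differentiableAt.differentiableWithinAt) hφb
  rw [(hφd 0 (mem_ball_self (by linarith))).deriv] at h1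
  simp only [hφ, one_mul, zero_mul, add_zero] at h1
  refine h1.trans (le_of_eq ?_)
  rw [hR]
  field_simp
  ring

end Quad

section AdmB

lemma Adm.mono {ρ' r' : ℝ} (h : Adm ρ₀ ε₀ ρ r U) (hρ : ρ' ≤ ρ) (hr : r' ≤ r) (hρ0 : 0 < ρ')
    (hr0 : 0 < r') (h8 : 8 * r' ≤ ρ') : Adm ρ₀ ε₀ ρ' r' U where
  ρ_pos := hρ0
  ρ_le := hρ.trans h.ρ_le
  r_pos := hr0
  r_le := hr.trans h.r_le
  r_le_ρ := h8
  r_le_ε := by linarith [h.r_le_ε]
  hU := h.hU.mono le_rfl hρ hr
  U_bd := fun p hp => h.U_bd p (Dom_mono le_rfl hρ hr hp)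
  Ut_bd := fun p hp => h.Ut_bd p (Dom_mono le_rfl hρ hr hp)
  Uw_bd := fun p hp => h.Uw_bd p (Dom_mono le_rfl hρ hr hp)
  re := h.re.mono le_rfl hρ hr
  par := h.par.mono le_rfl hρ hr

/-- functions which are `O(w^2)` are admissible on small domains -/
lemma adm_of_bdd (hL : IsLag ρ₀ ε₀ L Ψ) (hU : IsH (1 / 2) ρ r U) (hB : 0 ≤ B)
    (hb : Bdd (1 / 2) ρ r 2 B U) (hre : IsRe (1 / 2) ρ r U) (hpar : IsPar (1 / 2) ρ r 1 U)
    (hρ : 0 < ρ) (hρ₀ : ρ ≤ ρ₀ / 2) (hr : 0 < r) (hr1 : r ≤ 1) :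
    ∃ r₁ : ℝ, 0 < r₁ ∧ r₁ ≤ r ∧ ∀ r' : ℝ, 0 < r' → r' ≤ r₁ →
      AdmS ρ₀ ε₀ (ρ / 2) r' (min (ρ₀ / 16) (1 / 200)) U := by
  have hρ₀p := hL.ρ_pos
  have hε := hL.ε_pos
  set d : ℝ := min (r / 2) (min ρ 1) with hd
  have hd0 : 0 < d := lt_min (by positivity) (lt_min hρ one_pos)
  have hd1 : d ≤ 1 := (min_le_right _ _).trans (min_le_right _ _)
  have hdr : d ≤ r / 2 := min_le_left _ _
  have hdρ : d ≤ ρ := (min_le_right _ _).trans (min_le_left _ _)
  have h1 : Bdd (1 / 2) (ρ - ρ / 2) r 2 (B / (ρ / 2)) (q1 U) := hb.q1 hU (by positivity)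
  have h2 : Bdd (1 / 2) (ρ - 1 / 2 * d) (r - d) 1 (2 ^ (1 + 1) * B / d) (q2 U) :=
    Bdd.q2 (by norm_num) hr1 hB hU hb hd0 hd1
  set B1 : ℝ := B / (ρ / 2) with hB1
  set B2 : ℝ := 2 ^ (1 + 1) * B / d with hB2
  have hB10 : 0 ≤ B1 := by positivity
  have hB20 : 0 ≤ B2 := by positivity
  have hρ16 : 0 < ρ₀ / 16 := by positivity
  set r₁ : ℝ := min (r / 2) (min (ρ / 16) (min (ε₀ / 4) (min ((ρ₀ / 16) / (B + 1))
    (min ((1 / 200) / (B1 + 1)) ((1 / 200) / (B2 + 1)))))) with hr₁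
  have c1 : r₁ ≤ r / 2 := min_le_left _ _
  have c2 : r₁ ≤ ρ / 16 := (min_le_right _ _).trans (min_le_left _ _)
  have c3 : r₁ ≤ ε₀ / 4 := (min_le_right _ _).trans ((min_le_right _ _).trans (min_le_left _ _))
  have c4 : r₁ ≤ (ρ₀ / 16) / (B + 1) :=
    (min_le_right _ _).trans ((min_le_right _ _).trans ((min_le_right _ _).trans (min_le_left _ _)))
  have c5 : r₁ ≤ (1 / 200) / (B1 + 1) :=
    (min_le_right _ _).trans ((min_le_right _ _).trans ((min_le_right _ _).trans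
      ((min_le_right _ _).trans (min_le_left _ _))))
  have c6 : r₁ ≤ (1 / 200) / (B2 + 1) :=
    (min_le_right _ _).trans ((min_le_right _ _).trans ((min_le_right _ _).trans
      ((min_le_right _ _).trans (min_le_right _ _))))
  have hpos : 0 < r₁ := by
    refine lt_min (by positivity) (lt_min (by positivity) (lt_min (by positivity)
      (lt_min (by positivity) (lt_min (by positivity) (by positivity)))))
  refine ⟨r₁, hpos, by linarith, ?_⟩
  intro r' hr' hr'1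
  have g4 : B * r' ≤ ρ₀ / 16 := by
    have : r' * (B + 1) ≤ ρ₀ / 16 := by
      rw [← le_div_iff₀ (by positivity)]; exact hr'1.trans c4
    nlinarith
  have g5 : B1 * r' ≤ 1 / 200 := by
    have : r' * (B1 + 1) ≤ 1 / 200 := by
      rw [← le_div_iff₀ (by positivity)]; exact hr'1.trans c5
    nlinarith
  have g6 : B2 * r' ≤ 1 / 200 := by
    have : r' * (B2 + 1) ≤ 1 / 200 := by
      rw [← le_div_iff₀ (by positivity)]; exact hr'1.trans c6
    nlinarith
  have hr'r : r' ≤ r / 2 := hr'1.trans c1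
  have hr'1' : r' ≤ 1 := by linarith
  have sub1 : Dom (1 / 2) (ρ / 2) r' ⊆ Dom (1 / 2) ρ r :=
    Dom_mono le_rfl (by linarith) (by linarith)
  have m1 : min (ρ₀ / 16) (1 / 200) ≤ ρ₀ / 16 := min_le_left _ _
  have m2 : min (ρ₀ / 16) (1 / 200) ≤ 1 / 200 := min_le_right _ _
  have m0 : 0 < min (ρ₀ / 16) (1 / 200) := lt_min (by positivity) (by norm_num)
  have a1 : ∀ p ∈ Dom (1 / 2) (ρ / 2) r', ‖U p‖ ≤ ρ₀ / 8 - min (ρ₀ / 16) (1 / 200) := by
    intro p hp
    have e1 := hb p (sub1 hp)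
    have e2 : ‖p.2‖ < r' := hp.2
    have e3 : ‖p.2‖ ^ 2 ≤ r' := by
      have := norm_nonneg p.2
      nlinarith
    have e4 : B * ‖p.2‖ ^ 2 ≤ B * r' := mul_le_mul_of_nonneg_left e3 hB
    linarith
  have a2 : ∀ p ∈ Dom (1 / 2) (ρ / 2) r', ‖q1 U p‖ ≤ 1 / 100 - min (ρ₀ / 16) (1 / 200) := by
    intro p hp
    have e1 := h1 p (Dom_mono le_rfl (by linarith) (by linarith) hp)
    have e2 : ‖p.2‖ < r' := hp.2
    have e3 : ‖p.2‖ ^ 2 ≤ r' := by
      have := norm_nonneg p.2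
      nlinarith
    have e4 : B1 * ‖p.2‖ ^ 2 ≤ B1 * r' := mul_le_mul_of_nonneg_left e3 hB10
    linarith
  have a3 : ∀ p ∈ Dom (1 / 2) (ρ / 2) r', ‖q2 U p‖ ≤ 1 / 100 - min (ρ₀ / 16) (1 / 200) := by
    intro p hp
    have e1 := h2 p (Dom_mono le_rfl (by linarith) (by linarith) hp)
    have e2 : ‖p.2‖ < r' := hp.2
    rw [pow_one] at e1
    have e4 : B2 * ‖p.2‖ ≤ B2 * r' := mul_le_mul_of_nonneg_left e2.le hB20
    linarith
  refine ⟨?_, a1, a2, a3⟩
  exact { ρ_pos := by positivity, ρ_le := by linarith, r_pos := hr', r_le := hr'1',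
          r_le_ρ := by linarith [hr'1.trans c2], r_le_ε := by linarith [hr'1.trans c3],
          hU := hU.mono le_rfl (by linarith) (by linarith),
          U_bd := fun p hp => (a1 p hp).trans (by linarith),
          Ut_bd := fun p hp => (a2 p hp).trans (by linarith),
          Uw_bd := fun p hp => (a3 p hp).trans (by linarith),
          re := hre.mono le_rfl (by linarith) (by linarith),
          par := hpar.mono le_rfl (by linarith) (by linarith) }

/-- `U = 0` is a start of order 5 -/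
lemma start_zero (hL : IsLag ρ₀ ε₀ L Ψ) :
    ∃ ρ r A : ℝ, Adm ρ₀ ε₀ ρ r (fun _ => 0) ∧ Bdd (3 / 2) ρ r 5 A (Pf L (fun _ => 0)) := by
  obtain ⟨K, ε₂, hK, hε₂, hε₀, hερ, hε1, hb1, hb2, -⟩ := hL.exists_bounds2
  have hρ₀ := hL.ρ_pos
  set ρ : ℝ := ρ₀ / 2 with hρ
  set r : ℝ := ε₂ / 8 with hr
  have hfd : ∀ p : ℂ × ℂ, fderiv ℂ (fun _ : ℂ × ℂ => (0 : ℂ)) p = 0 := fun p => by simp
  have hadm : Adm ρ₀ ε₀ ρ r (fun _ => 0) := by
    refine { ρ_pos := by positivity, ρ_le := le_rfl, r_pos := by positivity,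
             r_le := by linarith, r_le_ρ := by linarith, r_le_ε := by linarith,
             hU := IsH.const 0, U_bd := ?_, Ut_bd := ?_, Uw_bd := ?_, re := ?_, par := ?_ }
    · intro p _; simp; positivity
    · intro p _; unfold q1; rw [hfd]; simp
    · intro p _; unfold q2; rw [hfd]; simp
    · intro p _; unfold cj; simp
    · intro p _; unfold rf; simp
  have hP4 : Bdd (3 / 2) ρ r (2 * 2) (2 * K) (Pf L (fun _ => 0)) := by
    rintro ⟨t, w⟩ hp
    have hp1 : |t.im| + 3 / 2 * |w.im| < ρ := hp.1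
    have hw : ‖w‖ < r := hp.2
    have hwim := abs_nonneg w.im
    have e1 : Pf L (fun _ => 0) (t, w) = q2 L (t - w, t) + q1 L (t, t + w) := by
      unfold Pf Ef EL Xt q1 tr Xf
      rw [hfd]
      simp only [zero_apply, add_zero, one_mul]
      congr 3
      · push_cast; ring
      · push_cast; ring
    have m1 : (t - w, t) ∈ Dg (13 / 16 * ρ₀) ε₂ := by
      refine ⟨?_, ?_, ?_⟩
      · have := abs_sub t.im w.im
        simp only [Complex.sub_im]
        linarith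
      · simp only; linarith
      · simp only
        have : t - (t - w) = w := by ring
        rw [this]; linarith
    have m2 : (t, t + w) ∈ Dg (13 / 16 * ρ₀) ε₂ := by
      refine ⟨?_, ?_, ?_⟩
      · simp only; linarith
      · have := abs_add_le t.im w.im
        simp only [Complex.add_im]
        linarith
      · simp only
        have : t + w - t = w := by ring
        rw [this]; linarith
    have h1 := hb2 _ _ m1
    have h2 := hb1 _ _ m2
    have e2 : t - (t - w) = w := by ring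
    have e3 : t + w - t = w := by ring
    rw [e2] at h1
    rw [e3] at h2
    have e4 : q2 L (t - w, t) + q1 L (t, t + w) =
      (q2 L (t - w, t) - w ^ 2 / 2) + (q1 L (t, t + w) + w ^ 2 / 2) := by ring
    rw [e1, e4]
    refine (norm_add_le _ _).trans ((add_le_add h1 h2).trans (le_of_eq ?_))
    simp only
    ring
  have hρp : 0 < ρ := by positivity
  have hrp : 0 < r := by positivity
  have h8 := hadm.r_le_ρ
  obtain ⟨A', -, hA'⟩ := (hadm.hPf hL).gain_par (by norm_num) (hadm.Pf_par hL) 2 hP4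
    (ρ' := ρ / 2) (r' := r / 2) (by linarith) (by linarith)
  exact ⟨ρ / 2, r / 2, A', hadm.mono (by linarith) (by linarith) (by linarith) (by linarith)
    (by linarith), hA'⟩

/-- `α(t, 0) = -1` -/
lemma Adm.alpha_zero (hL : IsLag ρ₀ ε₀ L Ψ) (h : Adm ρ₀ ε₀ ρ r U) (hb : Bdd (1 / 2) ρ r 2 B U)
    {K ε₂ : ℝ} (hK : 0 < K) (h2r : 2 * r ≤ ε₂)
    (hb3 : ∀ x y : ℂ, (x, y) ∈ Dg (3 / 4 * ρ₀) ε₂ → x ≠ y →
        ‖q2 (q1 L) (x, y) + (y - x)‖ ≤ K * ‖y - x‖ ^ 3)
    {α : ℂ × ℂ → ℂ} (hα : IsH 1 ρ r α) (hαe : ∀ p ∈ Dom 1 ρ r, af L U p = p.2 * α p) :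
    ∀ t : ℂ, (t, 0) ∈ Dom 1 ρ r → α (t, 0) = -1 := by
  have hU0 : ∀ s : ℂ, (s, 0) ∈ Dom (1 / 2) ρ r → U (s, 0) = 0 := by
    intro s hs
    have := hb _ hs
    simp only [norm_zero] at this
    rw [zero_pow (by norm_num), mul_zero] at this
    exact norm_le_zero_iff.1 this
  have hUt0 : ∀ t : ℂ, (t, 0) ∈ Dom (1 / 2) ρ r → q1 U (t, 0) = 0 := by
    intro t ht
    have h1 := hasDerivAt_fst (h.hU.differentiableAt ht)
    have h2 : (fun s => U (s, 0)) =ᶠ[𝓝 t] (fun _ => (0 : ℂ)) := by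
      have hcont : Continuous (fun s : ℂ => (s, (0 : ℂ))) := by fun_prop
      filter_upwards [hcont.continuousAt.preimage_mem_nhds
        ((isOpen_Dom (1 / 2) ρ r).mem_nhds ht)] with s hs
      exact hU0 s hs
    exact (h1.congr_of_eventuallyEq h2.symm).unique (hasDerivAt_const t 0)
  obtain ⟨κ, hκ, hκe, hκ0⟩ := h.hU.exists_del_div (by norm_num)
  obtain ⟨κ', -, hκ'b, hκ'e⟩ := h.exists_kappa
  have e1 : (1 / 2 : ℝ) + 1 / 2 = 1 := by norm_num
  rw [e1] at hκ hκe hκ0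
  have hTm : IsH 1 ρ r (tr (-(1 / 2)) (Xt U)) := by
    have := h.hXt.tr (-(1 / 2))
    rw [abs_neg, show |(1 / 2 : ℝ)| = 1 / 2 by norm_num, e1] at this
    exact this
  have hTp : IsH 1 ρ r (tr (1 / 2) (Xt U)) := by
    have := h.hXt.tr (1 / 2)
    rw [show |(1 / 2 : ℝ)| = 1 / 2 by norm_num, e1] at this
    exact this
  set G : ℂ × ℂ → ℂ := fun p => α p + (1 + κ p) * (tr (-(1 / 2)) (Xt U) p * tr (1 / 2) (Xt U) p) with hG
  have hGH : IsH 1 ρ r G := hα.add (((IsH.const 1).add hκ).mul (hTm.mul hTp))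
  have hXtb : ∀ p ∈ Dom (1 / 2) ρ r, ‖Xt U p‖ ≤ 101 / 100 := by
    intro p hp
    have := norm_add_le (1 : ℂ) (q1 U p)
    have h1 := h.Ut_bd p hp
    rw [norm_one] at this
    unfold Xt
    linarith
  have hGb : Bdd 1 ρ r 2 (2 * K) G := by
    refine bdd_of_ne (by norm_num) hGH.continuousOn (fun t w hp hw => ?_)
    have hwp : 0 < ‖w‖ := norm_pos_iff.2 hw
    have hwr : ‖w‖ < r := hp.2
    have m1 : (t + ((1 / 2 : ℝ) : ℂ) * w, w) ∈ Dom (1 / 2) ρ r :=
      tr_mem_half (1 / 2) (by norm_num) hp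
    have m2 : (t + ((-(1 / 2) : ℝ) : ℂ) * w, w) ∈ Dom (1 / 2) ρ r :=
      tr_mem_half (-(1 / 2)) (by rw [abs_neg]; norm_num) hp
    have hpair := h.pair_half hL hp
    have hpair' := h.pair_tr (c₁ := -(1 / 2)) (c₂ := 1 / 2) (k := 1) (by rw [abs_neg]; norm_num)
      (by norm_num) (by norm_num) hp
    set x := tr (-(1 / 2)) (Xf U) (t, w) with hx
    set y := tr (1 / 2) (Xf U) (t, w) with hy
    have hD : y - x = w + del U (t, w) := by
      simp only [hx, hy]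
      unfold tr Xf del tr
      simp only
      push_cast
      ring
    have hdU : ‖del U (t, w)‖ ≤ 1 / 100 * ‖w‖ := by
      rw [hκ'e _ hp, norm_mul, mul_comm]
      exact mul_le_mul_of_nonneg_right (hκ'b _ hp) (norm_nonneg _)
    have hDle : ‖y - x‖ ≤ 101 / 100 * ‖w‖ := by
      rw [hD]
      have := norm_add_le w (del U (t, w))
      linarith
    have hDge : 99 / 100 * ‖w‖ ≤ ‖y - x‖ := by
      rw [hD]
      have := norm_sub_le (w + del U (t, w)) (del U (t, w))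
      rw [add_sub_cancel_right] at this
      linarith
    have hne : x ≠ y := by
      intro hxy
      rw [hxy, sub_self, norm_zero] at hDge
      linarith
    have h12 := hb3 x y ⟨hpair'.1, hpair'.2.1, by simp only; linarith⟩ hne
    have e2 : w * G (t, w) = (q2 (q1 L) (x, y) + (y - x)) *
        (tr (-(1 / 2)) (Xt U) (t, w) * tr (1 / 2) (Xt U) (t, w)) := by
      have h3 := hαe _ hp
      have h4 : af L U (t, w) = q2 (q1 L) (x, y) * (tr (-(1 / 2)) (Xt U) (t, w) *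
        tr (1 / 2) (Xt U) (t, w)) := rfl
      simp only at h3
      have h5 := hκe _ _ hp
      rw [hD, h5]
      simp only [hG]
      linear_combination -h3 + h4
    have h6 : ‖w‖ * ‖G (t, w)‖ ≤ K * ‖y - x‖ ^ 3 * (101 / 100 * (101 / 100)) := by
      rw [← norm_mul, e2, norm_mul, norm_mul]
      exact mul_le_mul h12 (mul_le_mul (hXtb _ m2) (hXtb _ m1) (norm_nonneg _) (by norm_num))
        (by positivity) (by positivity)
    have h7 : K * ‖y - x‖ ^ 3 * (101 / 100 * (101 / 100)) ≤ ‖w‖ * (2 * K * ‖w‖ ^ 2) := by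
      have h8 : ‖y - x‖ ^ 3 ≤ (101 / 100 * ‖w‖) ^ 3 := pow_le_pow_left₀ (norm_nonneg _) hDle 3
      calc K * ‖y - x‖ ^ 3 * (101 / 100 * (101 / 100))
          ≤ K * (101 / 100 * ‖w‖) ^ 3 * (101 / 100 * (101 / 100)) := by gcongr
        _ = (101 / 100) ^ 5 * (K * ‖w‖ ^ 3) := by ring
        _ ≤ 2 * (K * ‖w‖ ^ 3) := by
            refine mul_le_mul_of_nonneg_right (by norm_num) (by positivity)
        _ = ‖w‖ * (2 * K * ‖w‖ ^ 2) := by ring
    exact le_of_mul_le_mul_left (h6.trans h7) hwp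
  intro t ht
  have ht2 : (t, 0) ∈ Dom (1 / 2) ρ r := Dom_mono (by norm_num) le_rfl le_rfl ht
  have h1 := hGb _ ht
  simp only [norm_zero] at h1
  rw [zero_pow (by norm_num), mul_zero] at h1
  have h2 := norm_le_zero_iff.1 h1
  simp only [hG] at h2
  have h3 : tr (-(1 / 2)) (Xt U) (t, 0) = 1 := by
    unfold tr Xt
    simp only [mul_zero, add_zero]
    rw [hUt0 t ht2, add_zero]
  have h4 : tr (1 / 2) (Xt U) (t, 0) = 1 := by
    unfold tr Xt
    simp only [mul_zero, add_zero]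
    rw [hUt0 t ht2, add_zero]
  rw [h3, h4, hκ0 t ht, hUt0 t ht2] at h2
  linear_combination h2

end AdmB

end Crest.Agent.R102.B821
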